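import Vale.Agent.P348.Base

/-! Part Atm: existence and elementary consequences of `Atoms`. -/

namespace Vale.Agent.P348

open Finset Filter Topology

namespace Atm

theorem evl_congr {c : List (ℕ × ℝ)} (hc : ∀ p ∈ c, 2 ≤ p.1) {f g : ℕ → ℝ}
    (h : ∀ e, 2 ≤ e → f e = g e) : evl c f = evl c g := by
  unfold evl
  rw [List.map_congr_left fun p hp => by rw [h _ (hc p hp)]]

theorem evl_add (c : List (ℕ × ℝ)) (f g : ℕ → ℝ) :
    evl c (fun e => f e + g e) = evl c f + evl c g := by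
  simp only [evl, mul_add, List.sum_map_add]

theorem evl_sum {ι : Type} (c : List (ℕ × ℝ)) (s : Finset ι) (f : ι → ℕ → ℝ) :
    evl c (fun e => ∑ i ∈ s, f i e) = ∑ i ∈ s, evl c (f i) := by
  induction c with
  | nil => simp [evl]
  | cons p c ih =>
    simp only [evl, List.map_cons, List.sum_cons, Finset.sum_add_distrib] at ih ⊢
    rw [ih, Finset.mul_sum]

theorem pick {ι : Type} (s : Finset ι) (x : ι → ℝ) (hx : ∀ i ∈ s, 0 ≤ x i) :
    ∃ t : ℝ, ∃ s' ⊆ s, 0 ≤ t ∧ (∀ i ∈ s', x i ≤ t) ∧ (t = 0 ∨ ∃ i ∈ s, x i = t) ∧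
      ∀ f : ℝ → ℝ, f 0 = 0 → ∑ i ∈ s, f (x i) = f t + ∑ i ∈ s', f (x i) := by
  classical
  rcases s.eq_empty_or_nonempty with rfl | hs
  · exact ⟨0, ∅, subset_rfl, le_rfl, by simp, Or.inl rfl, fun f hf => by simp [hf]⟩
  · obtain ⟨i, hi, h⟩ := s.exists_max_image x hs
    exact ⟨x i, s.erase i, erase_subset _ _, hx i hi, fun j hj => h j (mem_of_mem_erase hj),
      Or.inr ⟨i, hi, rfl⟩, fun f _ => (Finset.add_sum_erase _ (fun j => f (x j)) hi).symm⟩

theorem pick2 {ι : Type} (s : Finset ι) (x : ι → ℝ) (hx : ∀ i ∈ s, 0 ≤ x i) :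
    ∃ t u : ℝ, ∃ s' : Finset ι, 0 ≤ u ∧ u ≤ t ∧ (∀ i ∈ s', 0 ≤ x i ∧ x i ≤ u) ∧
      (t = 0 ∨ ∃ i, x i = t) ∧
      ∀ f : ℝ → ℝ, f 0 = 0 → ∑ i ∈ s, f (x i) = f t + f u + ∑ i ∈ s', f (x i) := by
  obtain ⟨t, s1, a1, a2, a3, a4, a5⟩ := pick s x hx
  obtain ⟨u, s2, b1, b2, b3, b4, b5⟩ := pick s1 x fun i hi => hx i (a1 hi)
  refine ⟨t, u, s2, b2, ?_, fun i hi => ⟨hx i (a1 (b1 hi)), b3 i hi⟩,
    a4.imp_right fun ⟨i, _, h⟩ => ⟨i, h⟩, fun f hf => by rw [a5 f hf, b5 f hf, add_assoc]⟩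
  rcases b4 with rfl | ⟨i, hi, rfl⟩
  · exact a2
  · exact a3 i hi

theorem pow_split {x y : ℝ} (h0 : 0 ≤ x) (h : x ≤ y) {a b : ℕ} (hab : a ≤ b) :
    x ^ b ≤ y ^ (b - a) * x ^ a := by
  conv_lhs => rw [← Nat.sub_add_cancel hab, pow_add]
  exact mul_le_mul_of_nonneg_right (pow_le_pow_left₀ h0 h _) (pow_nonneg h0 _)

end Atm

open Atm

theorem atoms_fin {ι : Type} [Fintype ι] (μ : ι → ℝ) :
    ∃ t u t' u', Atoms true (fun e => ∑ i, μ i ^ e) t u t' u' := by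
  obtain ⟨t, u, s, a1, a2, a3, -, a5⟩ := pick2 (univ.filter fun i => 0 ≤ μ i) μ (by simp)
  obtain ⟨t', u', s', b1, b2, b3, -, b5⟩ := pick2 (univ.filter fun i => ¬0 ≤ μ i) (fun i => -μ i)
    (fun i hi => by simpa using (not_le.1 (mem_filter.1 hi).2).le)
  refine ⟨t, u, t', u', a1, a2, b1, b2, by simp, fun y y' hy hy' c hc h1 h2 => ?_⟩
  rw [evl_congr hc (g := fun e => ∑ i ∈ s, μ i ^ e + ∑ i ∈ s', (- -μ i) ^ e), evl_add, evl_sum,
    evl_sum]
  · exact add_nonneg (sum_nonneg fun i hi => h1 _ (a3 i hi).1 ((a3 i hi).2.trans hy.le))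
      (sum_nonneg fun i hi => h2 rfl _ (b3 i hi).1 ((b3 i hi).2.trans hy'.le))
  · intro e he
    have e1 := a5 (fun x => x ^ e) (zero_pow (by omega))
    have e2 := b5 (fun x => (-x) ^ e) (by simp; omega)
    rw [← Finset.sum_filter_add_sum_filter_not univ fun i => 0 ≤ μ i]
    simp only [neg_neg] at e2 ⊢
    linarith

theorem atoms_fin_pos {ι : Type} [Fintype ι] (x : ι → ℝ) (hx : ∀ i, 0 ≤ x i) :
    ∃ t u, Atoms false (fun e => ∑ i, x i ^ e) t u 0 0 ∧ (t = 0 ∨ ∃ i, x i = t) := by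
  obtain ⟨t, u, s, a1, a2, a3, a4, a5⟩ := pick2 univ x fun i _ => hx i
  refine ⟨t, u, ⟨a1, a2, le_rfl, le_rfl, by simp, fun y y' hy _ c hc h1 _ => ?_⟩, a4⟩
  rw [evl_congr hc (g := fun e => ∑ i ∈ s, x i ^ e), evl_sum]
  · exact sum_nonneg fun i hi => h1 _ (a3 i hi).1 ((a3 i hi).2.trans hy.le)
  · intro e he
    rw [a5 (fun x => x ^ e) (zero_pow (by omega)), neg_zero, zero_pow (by omega)]
    ring

variable {σ : Bool} {S : ℕ → ℝ} {t u t' u' : ℝ}

theorem Atoms.neg_pow (h : Atoms σ S t u t' u') {e : ℕ} (ok : σ = false ∨ Even e) :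
    (-t') ^ e = t' ^ e ∧ (-u') ^ e = u' ^ e := by
  rcases ok with ok | ok
  · rw [le_antisymm (h.ut'.trans (h.neg ok).le) h.u0', h.neg ok, neg_zero]
    exact ⟨rfl, rfl⟩
  · exact ⟨ok.neg_pow _, ok.neg_pow _⟩

theorem Atoms.congr (h : Atoms σ S t u t' u') {S' : ℕ → ℝ} (hS : ∀ e, 2 ≤ e → S e = S' e) :
    Atoms σ S' t u t' u' :=
  ⟨h.u0, h.ut, h.u0', h.ut', h.neg, fun y y' hy hy' c hc h1 h2 =>
    (h.pos y y' hy hy' c hc h1 h2).trans_eq (evl_congr hc fun e he => by rw [hS e he])⟩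

theorem Atoms.flip (h : Atoms true S t u t' u') :
    Atoms true (fun e => (-1) ^ e * S e) t' u' t u := by
  refine ⟨h.u0', h.ut', h.u0, h.ut, by simp, fun y y' hy hy' c hc h1 h2 => ?_⟩
  have e : ∀ f : ℕ → ℝ, evl (c.map fun p => (p.1, (-1) ^ p.1 * p.2)) f =
      evl c fun e => (-1) ^ e * f e := fun f => by
    simp only [evl, List.map_map]
    congr 2
    funext p
    simp only [Function.comp]
    ring
  have := h.pos y' y hy' hy (c.map fun p => (p.1, (-1) ^ p.1 * p.2))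
    (List.forall_mem_map.2 hc)
    (fun x a b => by simpa only [e, ← _root_.neg_pow] using h2 rfl x a b)
    (fun _ x a b => by simpa only [e, ← _root_.neg_pow, neg_neg] using h1 x a b)
  simp only [e, mul_sub, ← _root_.neg_pow, neg_neg] at this
  convert this using 3
  ring

theorem Atoms.pow_le (h : Atoms σ S t u t' u') {e : ℕ} (he : 2 ≤ e) (ok : σ = false ∨ Even e) :
    t ^ e + u ^ e + t' ^ e + u' ^ e ≤ S e := by
  have := h.pos (u + 1) (u' + 1) (lt_add_one _) (lt_add_one _) [(e, 1)] (by simpa using he)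
    (fun x a _ => by simpa [evl] using pow_nonneg a e) (fun hσ x a _ => by
      simpa [evl] using (ok.resolve_left (by simp [hσ])).pow_nonneg (-x))
  simp only [evl, List.map_cons, List.map_nil, List.sum_cons, List.sum_nil, h.neg_pow ok] at this
  linarith

theorem atoms_lim (S : ℕ → ℕ → ℝ) (S0 : ℕ → ℝ)
    (h : ∀ m, ∃ t u t' u', Atoms true (S m) t u t' u')
    (hlim : ∀ e, 2 ≤ e → Tendsto (fun m => S m e) atTop (𝓝 (S0 e))) :
    ∃ t u t' u', Atoms true S0 t u t' u' := by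
  choose t u t' u' h using h
  obtain ⟨B, hB⟩ := (hlim 2 le_rfl).bddAbove_range
  have hb : ∀ m, (t m, u m, t' m, u' m) ∈ Set.Icc (0 : ℝ × ℝ × ℝ × ℝ) (B + 1, B + 1, B + 1, B + 1) := by
    intro m
    have a := (h m).pow_le le_rfl (Or.inr even_two)
    have b : S m 2 ≤ B := hB ⟨m, rfl⟩
    refine ⟨⟨(h m).u0.trans (h m).ut, (h m).u0, (h m).u0'.trans (h m).ut', (h m).u0'⟩,
      ?_, ?_, ?_, ?_⟩ <;> dsimp only <;>
      nlinarith [sq_nonneg (t m), sq_nonneg (u m), sq_nonneg (t' m), sq_nonneg (u' m),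
        sq_nonneg (t m - 1), sq_nonneg (u m - 1), sq_nonneg (t' m - 1), sq_nonneg (u' m - 1)]
  obtain ⟨⟨T, U, T', U'⟩, -, φ, hφ, hl⟩ := isCompact_Icc.tendsto_subseq hb
  have l1 : Tendsto (fun m => t (φ m)) atTop (𝓝 T) := hl.fst_nhds
  have l2 : Tendsto (fun m => u (φ m)) atTop (𝓝 U) := hl.snd_nhds.fst_nhds
  have l3 : Tendsto (fun m => t' (φ m)) atTop (𝓝 T') := hl.snd_nhds.snd_nhds.fst_nhds
  have l4 : Tendsto (fun m => u' (φ m)) atTop (𝓝 U') := hl.snd_nhds.snd_nhds.snd_nhds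
  refine ⟨T, U, T', U', ge_of_tendsto' l2 fun m => (h _).u0,
    le_of_tendsto_of_tendsto' l2 l1 fun m => (h _).ut, ge_of_tendsto' l4 fun m => (h _).u0',
    le_of_tendsto_of_tendsto' l4 l3 fun m => (h _).ut', by simp,
    fun y y' hy hy' c hc h1 h2 => ?_⟩
  refine ge_of_tendsto (x := atTop) (f := fun m => evl c fun e => S (φ m) e - t (φ m) ^ e -
    u (φ m) ^ e - (-t' (φ m)) ^ e - (-u' (φ m)) ^ e) (tendsto_list_sum _ fun p hp => ?_) ?_
  · exact ((((((hlim _ (hc p hp)).comp hφ.tendsto_atTop).sub (l1.pow _)).sub (l2.pow _)).sub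
      (l3.neg.pow _)).sub (l4.neg.pow _)).const_mul _
  · filter_upwards [l2.eventually (gt_mem_nhds hy), l4.eventually (gt_mem_nhds hy')] with m a b
    exact (h _).pos y y' a b c hc h1 h2

theorem Atoms.rest_le (h : Atoms σ S t u t' u') {a b : ℕ} (ha : 2 ≤ a) (hab : a ≤ b)
    (ok : σ = false ∨ (Even a ∧ Even b)) {m : ℝ} (hu : u ≤ m) (ht : t' ≤ m) :
    S b - t ^ b ≤ m ^ (b - a) * (S a - t ^ a) := by
  have hl : Tendsto (fun y : ℝ => y ^ (b - a) * (S a - t ^ a)) (𝓝[>] m)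
      (𝓝 (m ^ (b - a) * (S a - t ^ a))) :=
    (Continuous.tendsto (by fun_prop) m).mono_left nhdsWithin_le_nhds
  refine ge_of_tendsto hl (eventually_nhdsWithin_of_forall fun y (hy : m < y) => ?_)
  have := h.pos y y (hu.trans_lt hy) ((h.ut'.trans ht).trans_lt hy) [(a, y ^ (b - a)), (b, -1)]
    (by simp; omega) (fun x p q => by simpa [evl] using pow_split p q hab) (fun hσ x p q => by
      obtain ⟨e1, e2⟩ := ok.resolve_left (by simp [hσ])
      simpa [evl, e1.neg_pow, e2.neg_pow] using pow_split p q hab)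
  simp only [evl, List.map_cons, List.map_nil, List.sum_cons, List.sum_nil,
    h.neg_pow (ok.imp_right And.left), h.neg_pow (ok.imp_right And.right)] at this
  have b1 := pow_split h.u0 (hu.trans hy.le) hab
  have b2 := pow_split (h.u0'.trans h.ut') (ht.trans hy.le) hab
  have b3 := pow_split h.u0' ((h.ut'.trans ht).trans hy.le) hab
  linarith

theorem Atoms.all_le (h : Atoms σ S t u t' u') {a b : ℕ} (ha : 2 ≤ a) (hab : a ≤ b)
    (ok : σ = false ∨ (Even a ∧ Even b)) {m : ℝ} (hu : t ≤ m) (ht : t' ≤ m) :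
    S b ≤ m ^ (b - a) * S a := by
  have a1 := h.rest_le ha hab ok (h.ut.trans hu) ht
  have a2 := pow_split (h.u0.trans h.ut) hu hab
  linarith

theorem Atoms.rest_sq (h : Atoms σ S t u t' u') {a : ℕ} (ha : 2 ≤ a) (ok : σ = false ∨ Even a) :
    S (2 * a) - t ^ (2 * a) ≤ (S a - t ^ a) ^ 2 := by
  have a1 := h.rest_le ha (b := 2 * a) (by omega) (ok.imp_right fun e => ⟨e, even_two_mul a⟩)
    (le_max_left _ _) (le_max_right _ _)
  have a2 := h.pow_le ha ok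
  have b1 := pow_nonneg h.u0 a
  have b2 := pow_nonneg (h.u0'.trans h.ut') a
  have b3 := pow_nonneg h.u0' a
  rw [show 2 * a - a = a by omega] at a1
  refine a1.trans ((mul_le_mul_of_nonneg_right ?_ (by linarith)).trans_eq (sq _).symm)
  rcases max_choice u t' with e | e <;> rw [e] <;> linarith

theorem Atoms.sq_le (h : Atoms σ S t u t' u') {a : ℕ} (ha : 2 ≤ a) (ok : σ = false ∨ Even a) :
    S (2 * a) ≤ S a ^ 2 := by
  have a1 := h.all_le ha (b := 2 * a) (by omega) (ok.imp_right fun e => ⟨e, even_two_mul a⟩)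
    (le_max_left _ _) (le_max_right _ _)
  have a2 := h.pow_le ha ok
  have b0 := pow_nonneg (h.u0.trans h.ut) a
  have b1 := pow_nonneg h.u0 a
  have b2 := pow_nonneg (h.u0'.trans h.ut') a
  have b3 := pow_nonneg h.u0' a
  rw [show 2 * a - a = a by omega] at a1
  refine a1.trans ((mul_le_mul_of_nonneg_right ?_ (by linarith)).trans_eq (sq _).symm)
  rcases max_choice t t' with e | e <;> rw [e] <;> linarith

end Vale.Agent.P348
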