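import Vale.Agent.P348.Defs

/-! Real integer model in the Cartesian basis, sectors, moments, abstract atoms. -/

namespace Vale.Agent.P348

open Finset

abbrev Cfg (L : ℕ) := Fin L → Fin 3
abbrev G := ZMod 2 × ZMod 2

/-- class of a colour in the Klein four group. -/
def cls : Fin 3 → G := ![(1, 0), (0, 1), (1, 1)]

/-- the symplectic character pairing. -/
def chi (g u : G) : ℤ := if g.1 * u.2 + g.2 * u.1 = 0 then 1 else -1

def sec {L : ℕ} (s : Cfg L) : G := ∑ j, cls (s j)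

/-- two-site matrix element with twist `g`. -/
def loc (g : G) (b e b' e' : Fin 3) : ℤ := ∑ a, chi g (cls a) * eps a b b' * eps a e e'

/-- minus the Hamiltonian, twisted by `g` on the bond from the last site to site `0`. -/
def M (L : ℕ) (g : G) : Matrix (Cfg L) (Cfg L) ℤ := fun s t =>
  ∑ j : Fin L, if ∀ i, i ≠ j → i ≠ finRotate L j → s i = t i then
    loc (if (j : ℕ) + 1 = L then g else 0) (s j) (s (finRotate L j)) (t j) (t (finRotate L j))
    else 0

/-- sector moments. -/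
def mom (L : ℕ) (g α : G) (n : ℕ) : ℤ := ∑ s : Cfg L with sec s = α, (M L g ^ n) s s

theorem loc_symm (g : G) (b e b' e' : Fin 3) : loc g b' e' b e = loc g b e b' e' := by
  revert g b e b' e'; decide

theorem M_symm (L : ℕ) (g : G) (s t : Cfg L) : M L g t s = M L g s t := by
  unfold M
  refine Finset.sum_congr rfl fun j _ => ?_
  rw [loc_symm]
  exact if_congr ⟨fun h i a b => (h i a b).symm, fun h i a b => (h i a b).symm⟩ rfl rfl

/-- the sector block as a real matrix. -/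
def blk (L : ℕ) (g α : G) : Matrix {s : Cfg L // sec s = α} {s : Cfg L // sec s = α} ℝ :=
  fun s t => (M L g s.1 t.1 : ℝ)

theorem blk_herm (L : ℕ) (g α : G) : (blk L g α).IsHermitian := by
  ext s t
  simp [blk, Matrix.conjTranspose_apply, M_symm L g s.1 t.1]

/-- eigenvalues of the sector block. -/
noncomputable def ev (L : ℕ) (g α : G) : {s : Cfg L // sec s = α} → ℝ :=
  (blk_herm L g α).eigenvalues

/-- normalised sector partition function at inverse temperature `j`. -/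
noncomputable def W (ε : ℝ) (L : ℕ) (g α : G) (j : ℕ) : ℝ :=
  ∑ i, Real.exp (ev L g α i - ε * L) ^ j

/-- which of the five independent components `W g α` equals. -/
def cl (g α : G) : Fin 5 :=
  if g = 0 then (if α = 0 then 0 else 1) else if α = g then 2 else if α = 0 then 3 else 4

/-- site tensor of the transfer operator of one short time step. -/
def Wm (δ : ℝ) : Option (Fin 3) → Option (Fin 3) → Fin 3 → Fin 3 → ℝ
  | none, none, b, b' => if b = b' then 1 else 0
  | some a, none, b, b' => δ * eps a b b'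
  | none, some a, b, b' => δ * eps a b b'
  | some _, some _, _, _ => 0

/-- class of a bond label. -/
def clsO : Option (Fin 3) → G
  | none => 0
  | some a => cls a

/-- transfer operator of one short time step, `1 + δ ^ 2 M + O(δ ^ 4)`. -/
def TT (L : ℕ) (g : G) (δ : ℝ) : Matrix (Cfg L) (Cfg L) ℝ := fun s t =>
  ∑ a : Fin L → Option (Fin 3),
    ∏ j : Fin L, (if (j : ℕ) + 1 = L then (chi g (clsO (a j)) : ℝ) else 1) *
      Wm δ (a j) (a (finRotate L j)) (s (finRotate L j)) (t (finRotate L j))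

def gc : Fin 5 → G := ![0, 0, cls 2, cls 2, cls 2]
def ac : Fin 5 → G := ![0, cls 2, cls 2, 0, cls 0]

/-- the five independent time components. -/
noncomputable def wv (ε : ℝ) (L j : ℕ) (c : Fin 5) : ℝ := W ε L (gc c) (ac c) j

def Rm : Fin 5 → Fin 5 → ℤ :=
  ![![1, 3, 3, 3, 6], ![1, 3, -1, -1, -2], ![1, -1, 3, -1, -2], ![1, -1, -1, 3, -2],
    ![1, -1, -1, -1, 2]]

/-- the dual (space) components. -/
noncomputable def dual (X : Fin 5 → ℝ) (c : Fin 5) : ℝ := (∑ d, (Rm c d : ℝ) * X d) / 4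

/-- sparse polynomial functional. -/
def evl (c : List (ℕ × ℝ)) (f : ℕ → ℝ) : ℝ := (c.map fun p => p.2 * f p.1).sum

/-- `S e` is (a limit of) power sums of a family whose two largest positive members are `t, u`
and whose two largest negative members are `-t', -u'` (no negative members if `σ = false`). -/
structure Atoms (σ : Bool) (S : ℕ → ℝ) (t u t' u' : ℝ) : Prop where
  u0 : 0 ≤ u
  ut : u ≤ t
  u0' : 0 ≤ u'
  ut' : u' ≤ t'
  neg : σ = false → t' = 0
  pos : ∀ y y' : ℝ, u < y → u' < y' → ∀ c : List (ℕ × ℝ), (∀ p ∈ c, 2 ≤ p.1) →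
    (∀ x, 0 ≤ x → x ≤ y → 0 ≤ evl c fun e => x ^ e) →
    (σ = true → ∀ x, 0 ≤ x → x ≤ y' → 0 ≤ evl c fun e => (-x) ^ e) →
    0 ≤ evl c fun e => S e - t ^ e - u ^ e - (-t') ^ e - (-u') ^ e

/-- The abstract doubly positive array. -/
structure Sys where
  w : ℕ → ℕ → Fin 5 → ℝ
  tT : ℕ → Fin 5 → ℝ
  uT : ℕ → Fin 5 → ℝ
  tS : ℕ → Fin 5 → ℝ
  uS : ℕ → Fin 5 → ℝ
  tS' : ℕ → Fin 5 → ℝ
  uS' : ℕ → Fin 5 → ℝ
  hT : ∀ L, 2 ≤ L → ∀ c, Atoms false (fun j => w L j c) (tT L c) (uT L c) 0 0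
  hS : ∀ j, 2 ≤ j → ∀ c,
    Atoms true (fun L => dual (w L j) c) (tS j c) (uS j c) (tS' j c) (uS' j c)
  hZ : ∀ L j, 2 ≤ L → Even L → 2 ≤ j → 1 ≤ w L j 0 + 3 * w L j 1

/-- impurity bounds relative to the two tops `A`, `B`. -/
structure Imp (X : Fin 5 → ℝ) (A B p q : ℝ) : Prop where
  h0 : X 0 ≤ (1 + q) * A
  h2 : X 2 ≤ (1 + q) * B
  hA : ∀ c, c = 1 ∨ c = 3 ∨ c = 4 → X c ≤ p * A
  hB : ∀ c, c = 1 ∨ c = 3 ∨ c = 4 → X c ≤ p * B

def Sys.IT (D : Sys) (L j : ℕ) (p q : ℝ) : Prop :=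
  Imp (D.w L j) (D.tT L 0 ^ j) (D.tT L 2 ^ j) p q

def Sys.IS (D : Sys) (L j : ℕ) (p q : ℝ) : Prop :=
  Imp (dual (D.w L j)) (max (D.tS j 0) (D.tS' j 0) ^ L) (max (D.tS j 2) (D.tS' j 2) ^ L) p q

end Vale.Agent.P348
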