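import Vale.Agent.P348.CLin

/-! The core certificate inequality on one line. -/

namespace Vale.Agent.P348

open Finset

abbrev Caps := List (ℕ × ℕ × ℕ)
/-- `e0`, pieces on the free interval, `mp`, `mn`, pieces on the top interval. -/
abbrev PC := ℕ × List ℕ × ℕ × ℕ × List ℕ

structure Ct where
  mu : List (List ℕ)
  n : ℕ
  K : ℕ
  pcs : List PC

/-- target: exponent, weight, functional, sign. -/
structure Tg where
  e : ℕ
  nu : ℕ
  t : ℕ
  sg : Bool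

def cp (cs : Caps) (a : ℕ) : ℕ × ℕ × ℕ := cs.getD a (0, 0, 0)
def pc (ct : Ct) (a : ℕ) : PC := ct.pcs.getD a (0, [], 0, 0, [])

noncomputable def kl (σ : Bool) (pts : Pts) (ct : Ct) (g : Tg) (c : ℕ) : KL :=
  (g.e, Nat.add (Nat.mul g.nu (ctab TN σ g.t g.sg c)) (sam TP σ c g.e pts ct.mu),
    Nat.add (Nat.mul g.nu (ctab TP σ g.t g.sg c)) (sam TN σ c g.e pts ct.mu)) ::
    oth σ c g.e pts ct.mu

def c0 (m : ℕ) (l : SP) : SP := cond (Nat.beq m 0) l ((0, m) :: l)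

theorem evr_c0 (x : ℝ) (m : ℕ) (l : SP) : evr x (c0 m l) = m + evr x l := by
  unfold c0
  cases h : Nat.beq m 0
  · simp
  · rw [Nat.eq_of_beq_eq_true h]; simp

noncomputable def partChk (lp ln ex : SP) (q : ℕ × ℕ × ℕ) (d : PC) (n K : ℕ) : Bool :=
  and (posChk lp ln 0 q.2.2 d.1 n K d.2.1)
    (or (and (Nat.beq d.2.2.1 0) (Nat.ble q.2.1 q.2.2))
      (posChk (c0 d.2.2.2.1 (ex ++ lp)) (c0 d.2.2.1 ln)
        (cond (and (Nat.beq d.2.2.1 0) (Nat.ble q.1 q.2.2)) q.2.2 q.1) q.2.1 0 n K d.2.2.2.2))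

noncomputable def compChk (σ : Bool) (k : KL) (ex : SP) (cs : Caps) (ct : Ct) (c : ℕ) : Bool :=
  and (partChk (side false false k) (side true true k) ex (cp cs c) (pc ct c) ct.n ct.K)
    (cond σ (partChk (side false true k) (side true false k) [] (cp cs (Nat.add c 5))
      (pc ct (Nat.add c 5)) ct.n ct.K) true)

noncomputable def core (σ : Bool) (pts : Pts) (cs : Caps) (ct : Ct) (g : Tg) (xa : ℕ) (ex : SP) :
    Bool :=
  and (and (Nat.ble 2 g.e) (Nat.blt g.t 10))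
    ([0, 1, 2, 3, 4].all fun c =>
      compChk σ (kl σ pts ct g c) (cond (Nat.beq c xa) ex []) cs ct c)

def mS (σ s : Bool) (ct : Ct) (c : ℕ) : ℕ :=
  Nat.add (cond s (pc ct c).2.2.1 (pc ct c).2.2.2.1)
    (cond σ (cond s (pc ct (Nat.add c 5)).2.2.1 (pc ct (Nat.add c 5)).2.2.2.1) 0)

noncomputable def dS (σ s : Bool) (pts : Pts) (ct : Ct) : ℕ :=
  Nat.add (ptB s pts ct.mu) (Nat.add (Nat.add (Nat.add (mS σ (!s) ct 0) (mS σ (!s) ct 1))
    (Nat.add (mS σ (!s) ct 2) (mS σ (!s) ct 3))) (mS σ (!s) ct 4))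

/-- a line: five families with their tops and seconds. -/
structure Ln (σ : Bool) where
  S : Fin 5 → ℕ → ℝ
  T : ℕ → ℝ
  U : ℕ → ℝ
  at' : ∀ c : Fin 5, Atoms σ (S c) (T c) (U c) (T (c + 5)) (U (c + 5))

def CapH {σ : Bool} (l : Ln σ) (cs : Caps) : Prop :=
  ∀ a, a < cond σ 10 5 → ((cp cs a).1 : ℝ) ≤ l.T a * 2 ^ 24 ∧ l.T a * 2 ^ 24 ≤ (cp cs a).2.1 ∧
    l.U a * 2 ^ 24 < (cp cs a).2.2

noncomputable def Qv (k : ℕ → KL) (a : ℕ) (x : ℝ) : ℝ :=
  2 ^ 38 * evl (kr (k (a % 5))) fun e => (if a < 5 then x else -x) ^ e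

theorem partChk_sound {lp ln ex : SP} {q : ℕ × ℕ × ℕ} {d : PC} {n K : ℕ}
    (h : partChk lp ln ex q d n K = true) :
    (∀ x : ℝ, 0 ≤ x → x ≤ q.2.2 / 2 ^ 24 → 0 ≤ evr x lp - evr x ln) ∧
    (∀ x : ℝ, (q.1 : ℝ) ≤ x * 2 ^ 24 → x * 2 ^ 24 ≤ q.2.1 →
      (d.2.2.1 : ℝ) - d.2.2.2.1 - evr x ex ≤ evr x lp - evr x ln) := by
  simp only [partChk, Bool.and_eq_true, Bool.or_eq_true, Nat.beq_eq, Nat.ble_eq] at h
  have k1 : ∀ x : ℝ, 0 ≤ x → x * 2 ^ 24 ≤ q.2.2 → 0 ≤ evr x lp - evr x ln := fun x h0 h1 => by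
    have := posChk_sound h.1 (x := x) (by simp; positivity) h1
    linarith
  refine ⟨fun x h0 h1 => k1 x h0 (by rwa [le_div_iff₀ (by positivity)] at h1), fun x h0 h1 => ?_⟩
  have hx : 0 ≤ x := nonneg_of_mul_nonneg_left (le_trans (Nat.cast_nonneg _) h0) (by positivity)
  have k2 : d.2.2.1 = 0 → x * 2 ^ 24 ≤ q.2.2 →
      (d.2.2.1 : ℝ) - d.2.2.2.1 - evr x ex ≤ evr x lp - evr x ln := fun e h2 => by
    have := k1 x hx h2
    have := evr_nonneg hx ex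
    have : (0 : ℝ) ≤ d.2.2.2.1 := Nat.cast_nonneg _
    rw [e, Nat.cast_zero]; linarith
  rcases h.2 with h2 | h2
  · exact k2 h2.1 (h1.trans (by exact_mod_cast h2.2))
  · by_cases h3 : d.2.2.1 = 0 ∧ x * 2 ^ 24 ≤ q.2.2
    · exact k2 h3.1 h3.2
    · have := posChk_sound h2 (x := x) (by
        cases hb : (Nat.beq d.2.2.1 0 && Nat.ble q.1 q.2.2)
        · exact h0
        · simp only [Bool.and_eq_true, Nat.beq_eq] at hb
          exact (not_le.mp fun h4 => h3 ⟨hb.1, h4⟩).le) h1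
      rw [evr_c0, evr_c0] at this
      have e : evr x (ex ++ lp) = evr x ex + evr x lp := by simp [evr]
      linarith

theorem evl_zero {k : List (ℕ × ℝ)} (h : ∀ p ∈ k, 2 ≤ p.1) : (evl k fun e => (-0 : ℝ) ^ e) = 0 := by
  unfold evl
  refine List.sum_eq_zero fun x hx => ?_
  obtain ⟨p, hp, rfl⟩ := List.mem_map.mp hx
  have := h p hp
  simp only [neg_zero]
  rw [zero_pow (by omega), mul_zero]

theorem evl_sub5 (k : List (ℕ × ℝ)) (f1 f2 f3 f4 f5 : ℕ → ℝ) :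
    (evl k fun e => f1 e - f2 e - f3 e - f4 e - f5 e) =
      evl k f1 - evl k f2 - evl k f3 - evl k f4 - evl k f5 := by
  induction k with
  | nil => simp [evl]
  | cons p k ih => simp only [evl, List.map_cons, List.sum_cons] at ih ⊢; rw [ih]; ring

theorem comp_sound {σ : Bool} (l : Ln σ) {cs : Caps} (hc : CapH l cs) {k : ℕ → KL} {ex : SP}
    {ct : Ct} (c : Fin 5) (hk : ∀ q ∈ k c, 2 ≤ q.1) (h : compChk σ (k c) ex cs ct c = true) :
    0 ≤ Qv k c (l.U c) ∧ 0 ≤ Qv k (c + 5) (l.U (c + 5)) ∧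
    (mS σ true ct c : ℝ) - mS σ false ct c - evr (l.T c) ex + Qv k c (l.U c) +
      Qv k (c + 5) (l.U (c + 5)) ≤ 2 ^ 38 * evl (kr (k c)) (l.S c) := by
  have hA := l.at' c
  have hc5 : (c : ℕ) < 5 := c.2
  have hk' : ∀ p ∈ kr (k c), 2 ≤ p.1 := fun p hp => by
    obtain ⟨q, hq, rfl⟩ := List.mem_map.mp hp
    exact hk q hq
  have q1 : ∀ x, Qv k c x = 2 ^ 38 * evl (kr (k c)) fun e => x ^ e := fun x => by
    simp [Qv, Nat.mod_eq_of_lt hc5]
  have q2 : ∀ x, Qv k (c + 5) x = 2 ^ 38 * evl (kr (k c)) fun e => (-x) ^ e := fun x => by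
    simp [Qv, Nat.mod_eq_of_lt hc5]
  simp only [compChk, Bool.and_eq_true] at h
  obtain ⟨a1, a2⟩ := partChk_sound h.1
  simp only [side_pos] at a1 a2
  obtain ⟨c1, c2, c3⟩ := hc c (by cases σ <;> (simp; try omega))
  have c3' : l.U c < (cp cs c).2.2 / 2 ^ 24 := by rwa [lt_div_iff₀ (by positivity)]
  have b1 := a1 _ hA.u0 c3'.le
  have b2 := a2 _ c1 c2
  have a1' : ∀ x : ℝ, 0 ≤ x → x ≤ (cp cs c).2.2 / 2 ^ 24 →
      0 ≤ evl (kr (k c)) fun e => x ^ e := fun x h0 h1 => by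
      have := a1 x h0 h1
      by_contra hh
      have : (2 : ℝ) ^ 38 * evl (kr (k c)) (fun e => x ^ e) < 0 :=
        mul_neg_of_pos_of_neg (by positivity) (not_le.mp hh)
      linarith
  rw [q1, q2]
  cases σ with
  | false =>
    have t0 : l.T (c + 5) = 0 := hA.neg rfl
    have u0 : l.U (c + 5) = 0 := le_antisymm (t0 ▸ hA.ut') hA.u0'
    have := hA.pos _ 1 c3' (by rw [u0]; norm_num) _ hk' a1' (by simp)
    rw [evl_sub5, t0, u0, evl_zero hk'] at this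
    rw [u0, evl_zero hk']
    refine ⟨b1, by simp, ?_⟩
    simp only [mS, cond_true, cond_false, Nat.add_eq, add_zero]
    nlinarith
  | true =>
    obtain ⟨a3, a4⟩ := partChk_sound h.2
    simp only [side_neg] at a3 a4
    obtain ⟨d1, d2, d3⟩ := hc (c + 5) (by simp; omega)
    have d3' : l.U (c + 5) < (cp cs (c + 5)).2.2 / 2 ^ 24 := by rwa [lt_div_iff₀ (by positivity)]
    have b3 := a3 _ hA.u0' d3'.le
    have b4 := a4 _ d1 d2
    have := hA.pos _ _ c3' d3' _ hk' a1' (fun _ x h0 h1 => by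
      have := a3 x h0 h1
      by_contra hh
      have : (2 : ℝ) ^ 38 * evl (kr (k c)) (fun e => (-x) ^ e) < 0 :=
        mul_neg_of_pos_of_neg (by positivity) (not_le.mp hh)
      linarith)
    rw [evl_sub5] at this
    refine ⟨b1, b3, ?_⟩
    simp only [mS, cond_true, cond_false, Nat.add_eq, evr_nil] at b4 ⊢
    push_cast
    nlinarith

theorem core_sound {σ : Bool} (l : Ln σ) {pts : Pts} (hp : PtsH σ l.S pts) {cs : Caps}
    (hc : CapH l cs) {ct : Ct} {g : Tg} {xa : ℕ} {ex : SP} (hx : xa < 5)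
    (h : core σ pts cs ct g xa ex = true) (a : ℕ) (ha : a < 10) :
    0 ≤ Qv (kl σ pts ct g) a (l.U a) ∧
    g.nu * (2 ^ 40 * ((sgn g.sg : ℝ) * Fv σ (fun c => l.S c g.e) g.t)) - evr (l.T xa) ex +
      Qv (kl σ pts ct g) a (l.U a) ≤ (dS σ true pts ct : ℝ) - dS σ false pts ct := by
  simp only [core, Bool.and_eq_true, List.all_eq_true, Nat.ble_eq, Nat.blt_eq] at h
  obtain ⟨⟨g1, g2⟩, h⟩ := h
  obtain ⟨i1, i2⟩ := pts_le σ l.S g.e pts hp ct.mu
  have hk : ∀ c : Fin 5, ∀ q ∈ kl σ pts ct g c, 2 ≤ q.1 := fun c q hq => by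
    rcases List.mem_cons.mp hq with rfl | hq
    · exact g1
    · exact i1 c q hq
  have hs := fun c : Fin 5 => comp_sound l hc (k := kl σ pts ct g) c (hk c)
    (h c (by fin_cases c <;> simp))
  have e3 : ∀ c : Fin 5, (ctab TP σ g.t g.sg c : ℝ) - ctab TN σ g.t g.sg c =
      sgn g.sg * cfI σ g.t c := fun c => by exact_mod_cast ctab_eq σ ⟨g.t, g2⟩ g.sg c
  have e4 : ∑ c : Fin 5, evl (kr (kl σ pts ct g c)) (l.S c) =
      ∑ c : Fin 5, (((sam TP σ c g.e pts ct.mu : ℝ) - sam TN σ c g.e pts ct.mu) * l.S c g.e +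
      evl (kr (oth σ c g.e pts ct.mu)) (l.S c)) -
        g.nu * (sgn g.sg * (4 * Fv σ (fun c => l.S c g.e) g.t)) := by
    rw [Fv_eq, Finset.mul_sum, Finset.mul_sum, ← Finset.sum_sub_distrib]
    refine Finset.sum_congr rfl fun c _ => ?_
    rw [kl, evl_kr_cons, ← mul_assoc (sgn g.sg : ℝ), ← e3]
    simp only [Nat.add_eq, Nat.mul_eq]; push_cast; ring
  have h0 := hs 0
  have h1 := hs 1
  have h2 := hs 2
  have h3 := hs 3
  have h4 := hs 4
  simp only [Fin.sum_univ_five] at e4 i2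
  simp only [dS, Nat.add_eq, Bool.not_true, Bool.not_false]
  push_cast
  simp only [Fin.isValue, Fin.coe_ofNat_eq_mod, Nat.reduceMod, Nat.reduceAdd, Nat.zero_mod,
    zero_add] at h0 h1 h2 h3 h4 e4 i2
  obtain ⟨p0, p5, h0⟩ := h0
  obtain ⟨p1, p6, h1⟩ := h1
  obtain ⟨p2, p7, h2⟩ := h2
  obtain ⟨p3, p8, h3⟩ := h3
  obtain ⟨p4, p9, h4⟩ := h4
  have hQ : 0 ≤ Qv (kl σ pts ct g) a (l.U a) ∧ Qv (kl σ pts ct g) a (l.U a) ≤
      Qv (kl σ pts ct g) 0 (l.U 0) + Qv (kl σ pts ct g) 1 (l.U 1) + Qv (kl σ pts ct g) 2 (l.U 2) +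
      Qv (kl σ pts ct g) 3 (l.U 3) + Qv (kl σ pts ct g) 4 (l.U 4) + Qv (kl σ pts ct g) 5 (l.U 5) +
      Qv (kl σ pts ct g) 6 (l.U 6) + Qv (kl σ pts ct g) 7 (l.U 7) + Qv (kl σ pts ct g) 8 (l.U 8) +
      Qv (kl σ pts ct g) 9 (l.U 9) := by
    interval_cases a <;> exact ⟨by assumption, by linarith⟩
  refine ⟨hQ.1, ?_⟩
  have := hQ.2
  interval_cases xa <;> simp only [Nat.beq, cond_true, cond_false, evr_nil] at h0 h1 h2 h3 h4 <;>
    linarith

end Vale.Agent.P348
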