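import Vale.Agent.P348.CK0
import Vale.Agent.P348.CK1
import Vale.Agent.P348.CK2
import Vale.Agent.P348.CK3
import Vale.Agent.P348.CK4
import Vale.Agent.P348.CK5

set_option maxRecDepth 100000

namespace Vale.Agent.P348

variable {D : Sys} (hb : BaseH D)
include hb

theorem hp0 : PtsH false (D.lnT 9 (by decide)).S p0 :=
  PtsH.sub (b := fu0) (D.consT (hb 9 2 rfl) (D.consT (hb 9 3 rfl) (D.consT (hb 9 4 rfl) (D.consT (hb 9 5 rfl) (D.consT (hb 9 6 rfl) (D.consT (hb 9 7 rfl) (D.consT (hb 9 8 rfl) Sys.nilP rfl) rfl) rfl) rfl) rfl) rfl) rfl) _ s0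
theorem hc0_i : CapH (D.lnT 9 (by decide)) c0_i := init_sound _ (hp0 hb) _ _ _ i0
theorem hc0_0 : CapH (D.lnT 9 (by decide)) c0_0 :=
  steps_sound _ _ (Sys.noV _) (hp0 hb) _ _ (hc0_i hb) kc0_0
theorem hr0_9_2_0 : D.PtH 9 2 r0_9_2_0 := D.rowsT (hp0 hb) (hc0_0 hb) _ _ _ kr0_9_2_0
theorem hr0_9_3_0 : D.PtH 9 3 r0_9_3_0 := D.rowsT (hp0 hb) (hc0_0 hb) _ _ _ kr0_9_3_0
theorem hr0_9_4_0 : D.PtH 9 4 r0_9_4_0 := D.rowsT (hp0 hb) (hc0_0 hb) _ _ _ kr0_9_4_0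
theorem hr0_9_5_0 : D.PtH 9 5 r0_9_5_0 := D.rowsT (hp0 hb) (hc0_0 hb) _ _ _ kr0_9_5_0
theorem hr0_9_6_0 : D.PtH 9 6 r0_9_6_0 := D.rowsT (hp0 hb) (hc0_0 hb) _ _ _ kr0_9_6_0
theorem hr0_9_7_0 : D.PtH 9 7 r0_9_7_0 := D.rowsT (hp0 hb) (hc0_0 hb) _ _ _ kr0_9_7_0
theorem hr0_9_8_0 : D.PtH 9 8 r0_9_8_0 := D.rowsT (hp0 hb) (hc0_0 hb) _ _ _ kr0_9_8_0
theorem hr0_9_9_0 : D.PtH 9 9 r0_9_9_0 := D.rowsT (hp0 hb) (hc0_0 hb) _ _ _ kr0_9_9_0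
theorem hr0_9_9_1 : D.PtH 9 9 r0_9_9_1 := D.rowsT (hp0 hb) (hc0_0 hb) _ _ _ kr0_9_9_1
theorem hr0_9_10_0 : D.PtH 9 10 r0_9_10_0 := D.rowsT (hp0 hb) (hc0_0 hb) _ _ _ kr0_9_10_0
theorem hr0_9_10_1 : D.PtH 9 10 r0_9_10_1 := D.rowsT (hp0 hb) (hc0_0 hb) _ _ _ kr0_9_10_1
theorem hr0_9_12_0 : D.PtH 9 12 r0_9_12_0 := D.rowsT (hp0 hb) (hc0_0 hb) _ _ _ kr0_9_12_0
theorem hr0_9_12_1 : D.PtH 9 12 r0_9_12_1 := D.rowsT (hp0 hb) (hc0_0 hb) _ _ _ kr0_9_12_1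
theorem hr0_9_16_0 : D.PtH 9 16 r0_9_16_0 := D.rowsT (hp0 hb) (hc0_0 hb) _ _ _ kr0_9_16_0
theorem hp1 : PtsH false (D.lnT 8 (by decide)).S p1 :=
  PtsH.sub (b := fu1) (D.consT (hb 8 2 rfl) (D.consT (hb 8 3 rfl) (D.consT (hb 8 4 rfl) (D.consT (hb 8 5 rfl) (D.consT (hb 8 6 rfl) (D.consT (hb 8 7 rfl) (D.consT (hb 8 8 rfl) Sys.nilP rfl) rfl) rfl) rfl) rfl) rfl) rfl) _ s1
theorem hc1_i : CapH (D.lnT 8 (by decide)) c1_i := init_sound _ (hp1 hb) _ _ _ i1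
theorem hc1_0 : CapH (D.lnT 8 (by decide)) c1_0 :=
  steps_sound _ _ (D.varT _ rfl) (hp1 hb) _ _ (hc1_i hb) kc1_0
theorem hc1_1 : CapH (D.lnT 8 (by decide)) c1_1 :=
  steps_sound _ _ (Sys.noV _) (hp1 hb) _ _ (hc1_0 hb) kc1_1
theorem hr1_8_2_0 : D.PtH 8 2 r1_8_2_0 := D.rowsT (hp1 hb) (hc1_1 hb) _ _ _ kr1_8_2_0
theorem hr1_8_3_0 : D.PtH 8 3 r1_8_3_0 := D.rowsT (hp1 hb) (hc1_1 hb) _ _ _ kr1_8_3_0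
theorem hr1_8_4_0 : D.PtH 8 4 r1_8_4_0 := D.rowsT (hp1 hb) (hc1_1 hb) _ _ _ kr1_8_4_0
theorem hr1_8_5_0 : D.PtH 8 5 r1_8_5_0 := D.rowsT (hp1 hb) (hc1_1 hb) _ _ _ kr1_8_5_0
theorem hr1_8_6_0 : D.PtH 8 6 r1_8_6_0 := D.rowsT (hp1 hb) (hc1_1 hb) _ _ _ kr1_8_6_0
theorem hr1_8_7_0 : D.PtH 8 7 r1_8_7_0 := D.rowsT (hp1 hb) (hc1_1 hb) _ _ _ kr1_8_7_0
theorem hr1_8_8_0 : D.PtH 8 8 r1_8_8_0 := D.rowsT (hp1 hb) (hc1_1 hb) _ _ _ kr1_8_8_0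
theorem hr1_8_9_0 : D.PtH 8 9 r1_8_9_0 := D.rowsT (hp1 hb) (hc1_1 hb) _ _ _ kr1_8_9_0
theorem hr1_8_9_1 : D.PtH 8 9 r1_8_9_1 := D.rowsT (hp1 hb) (hc1_1 hb) _ _ _ kr1_8_9_1
theorem hr1_8_10_0 : D.PtH 8 10 r1_8_10_0 := D.rowsT (hp1 hb) (hc1_1 hb) _ _ _ kr1_8_10_0
theorem hr1_8_10_1 : D.PtH 8 10 r1_8_10_1 := D.rowsT (hp1 hb) (hc1_1 hb) _ _ _ kr1_8_10_1
theorem hr1_8_12_0 : D.PtH 8 12 r1_8_12_0 := D.rowsT (hp1 hb) (hc1_1 hb) _ _ _ kr1_8_12_0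
theorem hr1_8_12_1 : D.PtH 8 12 r1_8_12_1 := D.rowsT (hp1 hb) (hc1_1 hb) _ _ _ kr1_8_12_1
theorem hr1_8_16_0 : D.PtH 8 16 r1_8_16_0 := D.rowsT (hp1 hb) (hc1_1 hb) _ _ _ kr1_8_16_0
theorem hr1_8_16_1 : D.PtH 8 16 r1_8_16_1 := D.rowsT (hp1 hb) (hc1_1 hb) _ _ _ kr1_8_16_1
theorem hp2 : PtsH false (D.lnT 7 (by decide)).S p2 :=
  PtsH.sub (b := fu2) (D.consT (hb 7 2 rfl) (D.consT (hb 7 3 rfl) (D.consT (hb 7 4 rfl) (D.consT (hb 7 5 rfl) (D.consT (hb 7 6 rfl) (D.consT (hb 7 7 rfl) (D.consT (hb 7 8 rfl) Sys.nilP rfl) rfl) rfl) rfl) rfl) rfl) rfl) _ s2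
theorem hc2_i : CapH (D.lnT 7 (by decide)) c2_i := init_sound _ (hp2 hb) _ _ _ i2
theorem hc2_0 : CapH (D.lnT 7 (by decide)) c2_0 :=
  steps_sound _ _ (Sys.noV _) (hp2 hb) _ _ (hc2_i hb) kc2_0
theorem hr2_7_2_0 : D.PtH 7 2 r2_7_2_0 := D.rowsT (hp2 hb) (hc2_0 hb) _ _ _ kr2_7_2_0
theorem hr2_7_3_0 : D.PtH 7 3 r2_7_3_0 := D.rowsT (hp2 hb) (hc2_0 hb) _ _ _ kr2_7_3_0
theorem hr2_7_4_0 : D.PtH 7 4 r2_7_4_0 := D.rowsT (hp2 hb) (hc2_0 hb) _ _ _ kr2_7_4_0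
theorem hr2_7_5_0 : D.PtH 7 5 r2_7_5_0 := D.rowsT (hp2 hb) (hc2_0 hb) _ _ _ kr2_7_5_0
theorem hr2_7_6_0 : D.PtH 7 6 r2_7_6_0 := D.rowsT (hp2 hb) (hc2_0 hb) _ _ _ kr2_7_6_0
theorem hr2_7_7_0 : D.PtH 7 7 r2_7_7_0 := D.rowsT (hp2 hb) (hc2_0 hb) _ _ _ kr2_7_7_0
theorem hr2_7_8_0 : D.PtH 7 8 r2_7_8_0 := D.rowsT (hp2 hb) (hc2_0 hb) _ _ _ kr2_7_8_0
theorem hr2_7_9_0 : D.PtH 7 9 r2_7_9_0 := D.rowsT (hp2 hb) (hc2_0 hb) _ _ _ kr2_7_9_0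
theorem hr2_7_10_0 : D.PtH 7 10 r2_7_10_0 := D.rowsT (hp2 hb) (hc2_0 hb) _ _ _ kr2_7_10_0
theorem hr2_7_10_1 : D.PtH 7 10 r2_7_10_1 := D.rowsT (hp2 hb) (hc2_0 hb) _ _ _ kr2_7_10_1
theorem hr2_7_12_0 : D.PtH 7 12 r2_7_12_0 := D.rowsT (hp2 hb) (hc2_0 hb) _ _ _ kr2_7_12_0
theorem hr2_7_12_1 : D.PtH 7 12 r2_7_12_1 := D.rowsT (hp2 hb) (hc2_0 hb) _ _ _ kr2_7_12_1
theorem hr2_7_16_0 : D.PtH 7 16 r2_7_16_0 := D.rowsT (hp2 hb) (hc2_0 hb) _ _ _ kr2_7_16_0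
theorem hp3 : PtsH false (D.lnT 6 (by decide)).S p3 :=
  PtsH.sub (b := fu3) (D.consT (hb 6 2 rfl) (D.consT (hb 6 3 rfl) (D.consT (hb 6 4 rfl) (D.consT (hb 6 5 rfl) (D.consT (hb 6 6 rfl) (D.consT (hb 6 7 rfl) (D.consT (hb 6 8 rfl) Sys.nilP rfl) rfl) rfl) rfl) rfl) rfl) rfl) _ s3
theorem hc3_i : CapH (D.lnT 6 (by decide)) c3_i := init_sound _ (hp3 hb) _ _ _ i3
theorem hc3_0 : CapH (D.lnT 6 (by decide)) c3_0 :=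
  steps_sound _ _ (D.varT _ rfl) (hp3 hb) _ _ (hc3_i hb) kc3_0
theorem hc3_1 : CapH (D.lnT 6 (by decide)) c3_1 :=
  steps_sound _ _ (Sys.noV _) (hp3 hb) _ _ (hc3_0 hb) kc3_1
theorem hr3_6_2_0 : D.PtH 6 2 r3_6_2_0 := D.rowsT (hp3 hb) (hc3_1 hb) _ _ _ kr3_6_2_0
theorem hr3_6_3_0 : D.PtH 6 3 r3_6_3_0 := D.rowsT (hp3 hb) (hc3_1 hb) _ _ _ kr3_6_3_0
theorem hr3_6_4_0 : D.PtH 6 4 r3_6_4_0 := D.rowsT (hp3 hb) (hc3_1 hb) _ _ _ kr3_6_4_0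
theorem hr3_6_5_0 : D.PtH 6 5 r3_6_5_0 := D.rowsT (hp3 hb) (hc3_1 hb) _ _ _ kr3_6_5_0
theorem hr3_6_6_0 : D.PtH 6 6 r3_6_6_0 := D.rowsT (hp3 hb) (hc3_1 hb) _ _ _ kr3_6_6_0
theorem hr3_6_7_0 : D.PtH 6 7 r3_6_7_0 := D.rowsT (hp3 hb) (hc3_1 hb) _ _ _ kr3_6_7_0
theorem hr3_6_8_0 : D.PtH 6 8 r3_6_8_0 := D.rowsT (hp3 hb) (hc3_1 hb) _ _ _ kr3_6_8_0
theorem hr3_6_9_0 : D.PtH 6 9 r3_6_9_0 := D.rowsT (hp3 hb) (hc3_1 hb) _ _ _ kr3_6_9_0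
theorem hr3_6_10_0 : D.PtH 6 10 r3_6_10_0 := D.rowsT (hp3 hb) (hc3_1 hb) _ _ _ kr3_6_10_0
theorem hr3_6_12_0 : D.PtH 6 12 r3_6_12_0 := D.rowsT (hp3 hb) (hc3_1 hb) _ _ _ kr3_6_12_0
theorem hr3_6_16_0 : D.PtH 6 16 r3_6_16_0 := D.rowsT (hp3 hb) (hc3_1 hb) _ _ _ kr3_6_16_0
theorem hp4 : PtsH false (D.lnT 5 (by decide)).S p4 :=
  PtsH.sub (b := fu4) (D.consT (hb 5 2 rfl) (D.consT (hb 5 3 rfl) (D.consT (hb 5 4 rfl) (D.consT (hb 5 5 rfl) (D.consT (hb 5 6 rfl) (D.consT (hb 5 7 rfl) (D.consT (hb 5 8 rfl) Sys.nilP rfl) rfl) rfl) rfl) rfl) rfl) rfl) _ s4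
theorem hc4_i : CapH (D.lnT 5 (by decide)) c4_i := init_sound _ (hp4 hb) _ _ _ i4
theorem hc4_0 : CapH (D.lnT 5 (by decide)) c4_0 :=
  steps_sound _ _ (Sys.noV _) (hp4 hb) _ _ (hc4_i hb) kc4_0
theorem hr4_5_2_0 : D.PtH 5 2 r4_5_2_0 := D.rowsT (hp4 hb) (hc4_0 hb) _ _ _ kr4_5_2_0
theorem hr4_5_3_0 : D.PtH 5 3 r4_5_3_0 := D.rowsT (hp4 hb) (hc4_0 hb) _ _ _ kr4_5_3_0
theorem hr4_5_4_0 : D.PtH 5 4 r4_5_4_0 := D.rowsT (hp4 hb) (hc4_0 hb) _ _ _ kr4_5_4_0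
theorem hr4_5_5_0 : D.PtH 5 5 r4_5_5_0 := D.rowsT (hp4 hb) (hc4_0 hb) _ _ _ kr4_5_5_0
theorem hr4_5_6_0 : D.PtH 5 6 r4_5_6_0 := D.rowsT (hp4 hb) (hc4_0 hb) _ _ _ kr4_5_6_0
theorem hr4_5_7_0 : D.PtH 5 7 r4_5_7_0 := D.rowsT (hp4 hb) (hc4_0 hb) _ _ _ kr4_5_7_0
theorem hr4_5_8_0 : D.PtH 5 8 r4_5_8_0 := D.rowsT (hp4 hb) (hc4_0 hb) _ _ _ kr4_5_8_0
theorem hr4_5_9_0 : D.PtH 5 9 r4_5_9_0 := D.rowsT (hp4 hb) (hc4_0 hb) _ _ _ kr4_5_9_0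
theorem hr4_5_10_0 : D.PtH 5 10 r4_5_10_0 := D.rowsT (hp4 hb) (hc4_0 hb) _ _ _ kr4_5_10_0
theorem hp5 : PtsH false (D.lnT 4 (by decide)).S p5 :=
  PtsH.sub (b := fu5) (D.consT (hb 4 2 rfl) (D.consT (hb 4 3 rfl) (D.consT (hb 4 4 rfl) (D.consT (hb 4 5 rfl) (D.consT (hb 4 6 rfl) (D.consT (hb 4 7 rfl) (D.consT (hb 4 8 rfl) Sys.nilP rfl) rfl) rfl) rfl) rfl) rfl) rfl) _ s5
theorem hc5_i : CapH (D.lnT 4 (by decide)) c5_i := init_sound _ (hp5 hb) _ _ _ i5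
theorem hc5_0 : CapH (D.lnT 4 (by decide)) c5_0 :=
  steps_sound _ _ (D.varT _ rfl) (hp5 hb) _ _ (hc5_i hb) kc5_0
theorem hr5_4_2_0 : D.PtH 4 2 r5_4_2_0 := D.rowsT (hp5 hb) (hc5_0 hb) _ _ _ kr5_4_2_0
theorem hr5_4_3_0 : D.PtH 4 3 r5_4_3_0 := D.rowsT (hp5 hb) (hc5_0 hb) _ _ _ kr5_4_3_0
theorem hr5_4_4_0 : D.PtH 4 4 r5_4_4_0 := D.rowsT (hp5 hb) (hc5_0 hb) _ _ _ kr5_4_4_0
theorem hr5_4_5_0 : D.PtH 4 5 r5_4_5_0 := D.rowsT (hp5 hb) (hc5_0 hb) _ _ _ kr5_4_5_0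
theorem hr5_4_6_0 : D.PtH 4 6 r5_4_6_0 := D.rowsT (hp5 hb) (hc5_0 hb) _ _ _ kr5_4_6_0
theorem hr5_4_7_0 : D.PtH 4 7 r5_4_7_0 := D.rowsT (hp5 hb) (hc5_0 hb) _ _ _ kr5_4_7_0
theorem hr5_4_8_0 : D.PtH 4 8 r5_4_8_0 := D.rowsT (hp5 hb) (hc5_0 hb) _ _ _ kr5_4_8_0
theorem hr5_4_9_0 : D.PtH 4 9 r5_4_9_0 := D.rowsT (hp5 hb) (hc5_0 hb) _ _ _ kr5_4_9_0
theorem hr5_4_10_0 : D.PtH 4 10 r5_4_10_0 := D.rowsT (hp5 hb) (hc5_0 hb) _ _ _ kr5_4_10_0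
theorem hp6 : PtsH false (D.lnT 3 (by decide)).S p6 :=
  PtsH.sub (b := fu6) (D.consT (hb 3 2 rfl) (D.consT (hb 3 3 rfl) (D.consT (hb 3 4 rfl) (D.consT (hb 3 5 rfl) Sys.nilP rfl) rfl) rfl) rfl) _ s6
theorem hc6_i : CapH (D.lnT 3 (by decide)) c6_i := init_sound _ (hp6 hb) _ _ _ i6
theorem hr6_3_2_0 : D.PtH 3 2 r6_3_2_0 := D.rowsT (hp6 hb) (hc6_i hb) _ _ _ kr6_3_2_0
theorem hr6_3_3_0 : D.PtH 3 3 r6_3_3_0 := D.rowsT (hp6 hb) (hc6_i hb) _ _ _ kr6_3_3_0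
theorem hr6_3_4_0 : D.PtH 3 4 r6_3_4_0 := D.rowsT (hp6 hb) (hc6_i hb) _ _ _ kr6_3_4_0
theorem hr6_3_5_0 : D.PtH 3 5 r6_3_5_0 := D.rowsT (hp6 hb) (hc6_i hb) _ _ _ kr6_3_5_0
theorem hp7 : PtsH false (D.lnT 2 (by decide)).S p7 :=
  PtsH.sub (b := fu7) (D.consT (hb 2 2 rfl) (D.consT (hb 2 3 rfl) (D.consT (hb 2 4 rfl) (D.consT (hb 2 5 rfl) Sys.nilP rfl) rfl) rfl) rfl) _ s7
theorem hc7_i : CapH (D.lnT 2 (by decide)) c7_i := init_sound _ (hp7 hb) _ _ _ i7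
theorem hr7_2_2_0 : D.PtH 2 2 r7_2_2_0 := D.rowsT (hp7 hb) (hc7_i hb) _ _ _ kr7_2_2_0
theorem hr7_2_3_0 : D.PtH 2 3 r7_2_3_0 := D.rowsT (hp7 hb) (hc7_i hb) _ _ _ kr7_2_3_0
theorem hr7_2_4_0 : D.PtH 2 4 r7_2_4_0 := D.rowsT (hp7 hb) (hc7_i hb) _ _ _ kr7_2_4_0
theorem hr7_2_5_0 : D.PtH 2 5 r7_2_5_0 := D.rowsT (hp7 hb) (hc7_i hb) _ _ _ kr7_2_5_0
theorem hp8 : PtsH true (D.lnS 2 (by decide)).S p8 :=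
  PtsH.sub (b := fu8) (D.consS (hr7_2_2_0 hb) (D.consS (hr6_3_2_0 hb) (D.consS (hr5_4_2_0 hb) (D.consS (hr4_5_2_0 hb) (D.consS (hr3_6_2_0 hb) (D.consS (hr2_7_2_0 hb) (D.consS (hr1_8_2_0 hb) (D.consS (hr0_9_2_0 hb) Sys.nilP rfl) rfl) rfl) rfl) rfl) rfl) rfl) rfl) _ s8
theorem hc8_i : CapH (D.lnS 2 (by decide)) c8_i := init_sound _ (hp8 hb) _ _ _ i8
theorem hc8_0 : CapH (D.lnS 2 (by decide)) c8_0 :=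
  steps_sound _ _ (Sys.noV _) (hp8 hb) _ _ (hc8_i hb) kc8_0
theorem hc8_1 : CapH (D.lnS 2 (by decide)) c8_1 :=
  steps_sound _ _ (Sys.noV _) (hp8 hb) _ _ (hc8_0 hb) kc8_1
theorem hc8_2 : CapH (D.lnS 2 (by decide)) c8_2 :=
  steps_sound _ _ (Sys.noV _) (hp8 hb) _ _ (hc8_1 hb) kc8_2
theorem hc8_3 : CapH (D.lnS 2 (by decide)) c8_3 :=
  steps_sound _ _ (Sys.noV _) (hp8 hb) _ _ (hc8_2 hb) kc8_3
theorem hr8_12_2_0 : D.PtH 12 2 r8_12_2_0 := D.rowsS (hp8 hb) (hc8_3 hb) _ _ _ kr8_12_2_0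
theorem hr8_12_2_1 : D.PtH 12 2 r8_12_2_1 := D.rowsS (hp8 hb) (hc8_3 hb) _ _ _ kr8_12_2_1
theorem hr8_12_2_2 : D.PtH 12 2 r8_12_2_2 := D.rowsS (hp8 hb) (hc8_3 hb) _ _ _ kr8_12_2_2
theorem hr8_16_2_0 : D.PtH 16 2 r8_16_2_0 := D.rowsS (hp8 hb) (hc8_3 hb) _ _ _ kr8_16_2_0
theorem hr8_16_2_1 : D.PtH 16 2 r8_16_2_1 := D.rowsS (hp8 hb) (hc8_3 hb) _ _ _ kr8_16_2_1
theorem hr8_16_2_2 : D.PtH 16 2 r8_16_2_2 := D.rowsS (hp8 hb) (hc8_3 hb) _ _ _ kr8_16_2_2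
theorem hr8_20_2_0 : D.PtH 20 2 r8_20_2_0 := D.rowsS (hp8 hb) (hc8_3 hb) _ _ _ kr8_20_2_0
theorem hr8_20_2_1 : D.PtH 20 2 r8_20_2_1 := D.rowsS (hp8 hb) (hc8_3 hb) _ _ _ kr8_20_2_1
theorem hr8_20_2_2 : D.PtH 20 2 r8_20_2_2 := D.rowsS (hp8 hb) (hc8_3 hb) _ _ _ kr8_20_2_2
theorem hr8_24_2_0 : D.PtH 24 2 r8_24_2_0 := D.rowsS (hp8 hb) (hc8_3 hb) _ _ _ kr8_24_2_0
theorem hr8_24_2_1 : D.PtH 24 2 r8_24_2_1 := D.rowsS (hp8 hb) (hc8_3 hb) _ _ _ kr8_24_2_1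
theorem hr8_24_2_2 : D.PtH 24 2 r8_24_2_2 := D.rowsS (hp8 hb) (hc8_3 hb) _ _ _ kr8_24_2_2
theorem hp9 : PtsH true (D.lnS 3 (by decide)).S p9 :=
  PtsH.sub (b := fu9) (D.consS (hr7_2_3_0 hb) (D.consS (hr6_3_3_0 hb) (D.consS (hr5_4_3_0 hb) (D.consS (hr4_5_3_0 hb) (D.consS (hr3_6_3_0 hb) (D.consS (hr2_7_3_0 hb) (D.consS (hr1_8_3_0 hb) (D.consS (hr0_9_3_0 hb) Sys.nilP rfl) rfl) rfl) rfl) rfl) rfl) rfl) rfl) _ s9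
theorem hc9_i : CapH (D.lnS 3 (by decide)) c9_i := init_sound _ (hp9 hb) _ _ _ i9
theorem hc9_0 : CapH (D.lnS 3 (by decide)) c9_0 :=
  steps_sound _ _ (Sys.noV _) (hp9 hb) _ _ (hc9_i hb) kc9_0
theorem hc9_1 : CapH (D.lnS 3 (by decide)) c9_1 :=
  steps_sound _ _ (Sys.noV _) (hp9 hb) _ _ (hc9_0 hb) kc9_1
theorem hc9_2 : CapH (D.lnS 3 (by decide)) c9_2 :=
  steps_sound _ _ (Sys.noV _) (hp9 hb) _ _ (hc9_1 hb) kc9_2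
theorem hc9_3 : CapH (D.lnS 3 (by decide)) c9_3 :=
  steps_sound _ _ (Sys.noV _) (hp9 hb) _ _ (hc9_2 hb) kc9_3
theorem hr9_12_3_0 : D.PtH 12 3 r9_12_3_0 := D.rowsS (hp9 hb) (hc9_3 hb) _ _ _ kr9_12_3_0
theorem hr9_12_3_1 : D.PtH 12 3 r9_12_3_1 := D.rowsS (hp9 hb) (hc9_3 hb) _ _ _ kr9_12_3_1
theorem hr9_16_3_0 : D.PtH 16 3 r9_16_3_0 := D.rowsS (hp9 hb) (hc9_3 hb) _ _ _ kr9_16_3_0
theorem hr9_16_3_1 : D.PtH 16 3 r9_16_3_1 := D.rowsS (hp9 hb) (hc9_3 hb) _ _ _ kr9_16_3_1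
theorem hr9_20_3_0 : D.PtH 20 3 r9_20_3_0 := D.rowsS (hp9 hb) (hc9_3 hb) _ _ _ kr9_20_3_0
theorem hr9_20_3_1 : D.PtH 20 3 r9_20_3_1 := D.rowsS (hp9 hb) (hc9_3 hb) _ _ _ kr9_20_3_1
theorem hr9_24_3_0 : D.PtH 24 3 r9_24_3_0 := D.rowsS (hp9 hb) (hc9_3 hb) _ _ _ kr9_24_3_0
theorem hr9_32_3_0 : D.PtH 32 3 r9_32_3_0 := D.rowsS (hp9 hb) (hc9_3 hb) _ _ _ kr9_32_3_0
theorem hr9_32_3_1 : D.PtH 32 3 r9_32_3_1 := D.rowsS (hp9 hb) (hc9_3 hb) _ _ _ kr9_32_3_1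
theorem hr9_32_3_2 : D.PtH 32 3 r9_32_3_2 := D.rowsS (hp9 hb) (hc9_3 hb) _ _ _ kr9_32_3_2
theorem hr9_32_3_3 : D.PtH 32 3 r9_32_3_3 := D.rowsS (hp9 hb) (hc9_3 hb) _ _ _ kr9_32_3_3
theorem hp10 : PtsH true (D.lnS 4 (by decide)).S p10 :=
  PtsH.sub (b := fu10) (D.consS (hr7_2_4_0 hb) (D.consS (hr6_3_4_0 hb) (D.consS (hr5_4_4_0 hb) (D.consS (hr4_5_4_0 hb) (D.consS (hr3_6_4_0 hb) (D.consS (hr2_7_4_0 hb) (D.consS (hr1_8_4_0 hb) (D.consS (hr0_9_4_0 hb) Sys.nilP rfl) rfl) rfl) rfl) rfl) rfl) rfl) rfl) _ s10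
theorem hc10_i : CapH (D.lnS 4 (by decide)) c10_i := init_sound _ (hp10 hb) _ _ _ i10
theorem hc10_0 : CapH (D.lnS 4 (by decide)) c10_0 :=
  steps_sound _ _ (Sys.noV _) (hp10 hb) _ _ (hc10_i hb) kc10_0
theorem hc10_1 : CapH (D.lnS 4 (by decide)) c10_1 :=
  steps_sound _ _ (Sys.noV _) (hp10 hb) _ _ (hc10_0 hb) kc10_1
theorem hc10_2 : CapH (D.lnS 4 (by decide)) c10_2 :=
  steps_sound _ _ (Sys.noV _) (hp10 hb) _ _ (hc10_1 hb) kc10_2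
theorem hc10_3 : CapH (D.lnS 4 (by decide)) c10_3 :=
  steps_sound _ _ (Sys.noV _) (hp10 hb) _ _ (hc10_2 hb) kc10_3
theorem hr10_12_4_0 : D.PtH 12 4 r10_12_4_0 := D.rowsS (hp10 hb) (hc10_3 hb) _ _ _ kr10_12_4_0
theorem hr10_12_4_1 : D.PtH 12 4 r10_12_4_1 := D.rowsS (hp10 hb) (hc10_3 hb) _ _ _ kr10_12_4_1
theorem hr10_12_4_2 : D.PtH 12 4 r10_12_4_2 := D.rowsS (hp10 hb) (hc10_3 hb) _ _ _ kr10_12_4_2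
theorem hr10_16_4_0 : D.PtH 16 4 r10_16_4_0 := D.rowsS (hp10 hb) (hc10_3 hb) _ _ _ kr10_16_4_0
theorem hr10_16_4_1 : D.PtH 16 4 r10_16_4_1 := D.rowsS (hp10 hb) (hc10_3 hb) _ _ _ kr10_16_4_1
theorem hr10_16_4_2 : D.PtH 16 4 r10_16_4_2 := D.rowsS (hp10 hb) (hc10_3 hb) _ _ _ kr10_16_4_2
theorem hr10_20_4_0 : D.PtH 20 4 r10_20_4_0 := D.rowsS (hp10 hb) (hc10_3 hb) _ _ _ kr10_20_4_0
theorem hr10_20_4_1 : D.PtH 20 4 r10_20_4_1 := D.rowsS (hp10 hb) (hc10_3 hb) _ _ _ kr10_20_4_1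
theorem hr10_24_4_0 : D.PtH 24 4 r10_24_4_0 := D.rowsS (hp10 hb) (hc10_3 hb) _ _ _ kr10_24_4_0
theorem hr10_24_4_1 : D.PtH 24 4 r10_24_4_1 := D.rowsS (hp10 hb) (hc10_3 hb) _ _ _ kr10_24_4_1
theorem hr10_32_4_0 : D.PtH 32 4 r10_32_4_0 := D.rowsS (hp10 hb) (hc10_3 hb) _ _ _ kr10_32_4_0
theorem hr10_32_4_1 : D.PtH 32 4 r10_32_4_1 := D.rowsS (hp10 hb) (hc10_3 hb) _ _ _ kr10_32_4_1
theorem hr10_32_4_2 : D.PtH 32 4 r10_32_4_2 := D.rowsS (hp10 hb) (hc10_3 hb) _ _ _ kr10_32_4_2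
theorem hr10_40_4_0 : D.PtH 40 4 r10_40_4_0 := D.rowsS (hp10 hb) (hc10_3 hb) _ _ _ kr10_40_4_0
theorem hr10_40_4_1 : D.PtH 40 4 r10_40_4_1 := D.rowsS (hp10 hb) (hc10_3 hb) _ _ _ kr10_40_4_1
theorem hr10_40_4_2 : D.PtH 40 4 r10_40_4_2 := D.rowsS (hp10 hb) (hc10_3 hb) _ _ _ kr10_40_4_2
theorem hr10_40_4_3 : D.PtH 40 4 r10_40_4_3 := D.rowsS (hp10 hb) (hc10_3 hb) _ _ _ kr10_40_4_3
theorem hr10_48_4_0 : D.PtH 48 4 r10_48_4_0 := D.rowsS (hp10 hb) (hc10_3 hb) _ _ _ kr10_48_4_0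
theorem hr10_48_4_1 : D.PtH 48 4 r10_48_4_1 := D.rowsS (hp10 hb) (hc10_3 hb) _ _ _ kr10_48_4_1
theorem hr10_48_4_2 : D.PtH 48 4 r10_48_4_2 := D.rowsS (hp10 hb) (hc10_3 hb) _ _ _ kr10_48_4_2
theorem hr10_48_4_3 : D.PtH 48 4 r10_48_4_3 := D.rowsS (hp10 hb) (hc10_3 hb) _ _ _ kr10_48_4_3
theorem hr10_48_4_4 : D.PtH 48 4 r10_48_4_4 := D.rowsS (hp10 hb) (hc10_3 hb) _ _ _ kr10_48_4_4
theorem hp11 : PtsH true (D.lnS 5 (by decide)).S p11 :=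
  PtsH.sub (b := fu11) (D.consS (hr7_2_5_0 hb) (D.consS (hr6_3_5_0 hb) (D.consS (hr5_4_5_0 hb) (D.consS (hr4_5_5_0 hb) (D.consS (hr3_6_5_0 hb) (D.consS (hr2_7_5_0 hb) (D.consS (hr1_8_5_0 hb) (D.consS (hr0_9_5_0 hb) Sys.nilP rfl) rfl) rfl) rfl) rfl) rfl) rfl) rfl) _ s11
theorem hc11_i : CapH (D.lnS 5 (by decide)) c11_i := init_sound _ (hp11 hb) _ _ _ i11
theorem hc11_0 : CapH (D.lnS 5 (by decide)) c11_0 :=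
  steps_sound _ _ (D.varS _) (hp11 hb) _ _ (hc11_i hb) kc11_0
theorem hc11_1 : CapH (D.lnS 5 (by decide)) c11_1 :=
  steps_sound _ _ (Sys.noV _) (hp11 hb) _ _ (hc11_0 hb) kc11_1
theorem hc11_2 : CapH (D.lnS 5 (by decide)) c11_2 :=
  steps_sound _ _ (Sys.noV _) (hp11 hb) _ _ (hc11_1 hb) kc11_2
theorem hr11_12_5_0 : D.PtH 12 5 r11_12_5_0 := D.rowsS (hp11 hb) (hc11_2 hb) _ _ _ kr11_12_5_0
theorem hr11_12_5_1 : D.PtH 12 5 r11_12_5_1 := D.rowsS (hp11 hb) (hc11_2 hb) _ _ _ kr11_12_5_1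
theorem hr11_16_5_0 : D.PtH 16 5 r11_16_5_0 := D.rowsS (hp11 hb) (hc11_2 hb) _ _ _ kr11_16_5_0
theorem hr11_16_5_1 : D.PtH 16 5 r11_16_5_1 := D.rowsS (hp11 hb) (hc11_2 hb) _ _ _ kr11_16_5_1
theorem hr11_16_5_2 : D.PtH 16 5 r11_16_5_2 := D.rowsS (hp11 hb) (hc11_2 hb) _ _ _ kr11_16_5_2
theorem hr11_20_5_0 : D.PtH 20 5 r11_20_5_0 := D.rowsS (hp11 hb) (hc11_2 hb) _ _ _ kr11_20_5_0
theorem hr11_20_5_1 : D.PtH 20 5 r11_20_5_1 := D.rowsS (hp11 hb) (hc11_2 hb) _ _ _ kr11_20_5_1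
theorem hr11_20_5_2 : D.PtH 20 5 r11_20_5_2 := D.rowsS (hp11 hb) (hc11_2 hb) _ _ _ kr11_20_5_2
theorem hr11_20_5_3 : D.PtH 20 5 r11_20_5_3 := D.rowsS (hp11 hb) (hc11_2 hb) _ _ _ kr11_20_5_3
theorem hr11_24_5_0 : D.PtH 24 5 r11_24_5_0 := D.rowsS (hp11 hb) (hc11_2 hb) _ _ _ kr11_24_5_0
theorem hr11_24_5_1 : D.PtH 24 5 r11_24_5_1 := D.rowsS (hp11 hb) (hc11_2 hb) _ _ _ kr11_24_5_1
theorem hr11_24_5_2 : D.PtH 24 5 r11_24_5_2 := D.rowsS (hp11 hb) (hc11_2 hb) _ _ _ kr11_24_5_2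
theorem hr11_32_5_0 : D.PtH 32 5 r11_32_5_0 := D.rowsS (hp11 hb) (hc11_2 hb) _ _ _ kr11_32_5_0
theorem hr11_32_5_1 : D.PtH 32 5 r11_32_5_1 := D.rowsS (hp11 hb) (hc11_2 hb) _ _ _ kr11_32_5_1
theorem hr11_40_5_0 : D.PtH 40 5 r11_40_5_0 := D.rowsS (hp11 hb) (hc11_2 hb) _ _ _ kr11_40_5_0
theorem hr11_40_5_1 : D.PtH 40 5 r11_40_5_1 := D.rowsS (hp11 hb) (hc11_2 hb) _ _ _ kr11_40_5_1
theorem hr11_40_5_2 : D.PtH 40 5 r11_40_5_2 := D.rowsS (hp11 hb) (hc11_2 hb) _ _ _ kr11_40_5_2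
theorem hr11_48_5_0 : D.PtH 48 5 r11_48_5_0 := D.rowsS (hp11 hb) (hc11_2 hb) _ _ _ kr11_48_5_0
theorem hr11_48_5_1 : D.PtH 48 5 r11_48_5_1 := D.rowsS (hp11 hb) (hc11_2 hb) _ _ _ kr11_48_5_1
theorem hr11_48_5_2 : D.PtH 48 5 r11_48_5_2 := D.rowsS (hp11 hb) (hc11_2 hb) _ _ _ kr11_48_5_2
theorem hr11_48_5_3 : D.PtH 48 5 r11_48_5_3 := D.rowsS (hp11 hb) (hc11_2 hb) _ _ _ kr11_48_5_3
theorem hp12 : PtsH true (D.lnS 6 (by decide)).S p12 :=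
  PtsH.sub (b := fu12) (D.consS (hr5_4_6_0 hb) (D.consS (hr4_5_6_0 hb) (D.consS (hr3_6_6_0 hb) (D.consS (hr2_7_6_0 hb) (D.consS (hr1_8_6_0 hb) (D.consS (hr0_9_6_0 hb) Sys.nilP rfl) rfl) rfl) rfl) rfl) rfl) _ s12
theorem hc12_i : CapH (D.lnS 6 (by decide)) c12_i := init_sound _ (hp12 hb) _ _ _ i12
theorem hc12_0 : CapH (D.lnS 6 (by decide)) c12_0 :=
  steps_sound _ _ (D.varS _) (hp12 hb) _ _ (hc12_i hb) kc12_0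
theorem hc12_1 : CapH (D.lnS 6 (by decide)) c12_1 :=
  steps_sound _ _ (Sys.noV _) (hp12 hb) _ _ (hc12_0 hb) kc12_1
theorem hr12_12_6_0 : D.PtH 12 6 r12_12_6_0 := D.rowsS (hp12 hb) (hc12_1 hb) _ _ _ kr12_12_6_0
theorem hr12_16_6_0 : D.PtH 16 6 r12_16_6_0 := D.rowsS (hp12 hb) (hc12_1 hb) _ _ _ kr12_16_6_0
theorem hr12_20_6_0 : D.PtH 20 6 r12_20_6_0 := D.rowsS (hp12 hb) (hc12_1 hb) _ _ _ kr12_20_6_0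
theorem hr12_24_6_0 : D.PtH 24 6 r12_24_6_0 := D.rowsS (hp12 hb) (hc12_1 hb) _ _ _ kr12_24_6_0
theorem hr12_24_6_1 : D.PtH 24 6 r12_24_6_1 := D.rowsS (hp12 hb) (hc12_1 hb) _ _ _ kr12_24_6_1
theorem hr12_32_6_0 : D.PtH 32 6 r12_32_6_0 := D.rowsS (hp12 hb) (hc12_1 hb) _ _ _ kr12_32_6_0
theorem hr12_32_6_1 : D.PtH 32 6 r12_32_6_1 := D.rowsS (hp12 hb) (hc12_1 hb) _ _ _ kr12_32_6_1
theorem hr12_32_6_2 : D.PtH 32 6 r12_32_6_2 := D.rowsS (hp12 hb) (hc12_1 hb) _ _ _ kr12_32_6_2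
theorem hr12_40_6_0 : D.PtH 40 6 r12_40_6_0 := D.rowsS (hp12 hb) (hc12_1 hb) _ _ _ kr12_40_6_0
theorem hr12_40_6_1 : D.PtH 40 6 r12_40_6_1 := D.rowsS (hp12 hb) (hc12_1 hb) _ _ _ kr12_40_6_1
theorem hr12_40_6_2 : D.PtH 40 6 r12_40_6_2 := D.rowsS (hp12 hb) (hc12_1 hb) _ _ _ kr12_40_6_2
theorem hr12_48_6_0 : D.PtH 48 6 r12_48_6_0 := D.rowsS (hp12 hb) (hc12_1 hb) _ _ _ kr12_48_6_0
theorem hr12_48_6_1 : D.PtH 48 6 r12_48_6_1 := D.rowsS (hp12 hb) (hc12_1 hb) _ _ _ kr12_48_6_1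
theorem hr12_48_6_2 : D.PtH 48 6 r12_48_6_2 := D.rowsS (hp12 hb) (hc12_1 hb) _ _ _ kr12_48_6_2
theorem hr12_48_6_3 : D.PtH 48 6 r12_48_6_3 := D.rowsS (hp12 hb) (hc12_1 hb) _ _ _ kr12_48_6_3
theorem hp13 : PtsH true (D.lnS 7 (by decide)).S p13 :=
  PtsH.sub (b := fu13) (D.consS (hr5_4_7_0 hb) (D.consS (hr4_5_7_0 hb) (D.consS (hr3_6_7_0 hb) (D.consS (hr2_7_7_0 hb) (D.consS (hr1_8_7_0 hb) (D.consS (hr0_9_7_0 hb) Sys.nilP rfl) rfl) rfl) rfl) rfl) rfl) _ s13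
theorem hc13_i : CapH (D.lnS 7 (by decide)) c13_i := init_sound _ (hp13 hb) _ _ _ i13
theorem hc13_0 : CapH (D.lnS 7 (by decide)) c13_0 :=
  steps_sound _ _ (D.varS _) (hp13 hb) _ _ (hc13_i hb) kc13_0
theorem hc13_1 : CapH (D.lnS 7 (by decide)) c13_1 :=
  steps_sound _ _ (Sys.noV _) (hp13 hb) _ _ (hc13_0 hb) kc13_1
theorem hr13_12_7_0 : D.PtH 12 7 r13_12_7_0 := D.rowsS (hp13 hb) (hc13_1 hb) _ _ _ kr13_12_7_0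
theorem hr13_24_7_0 : D.PtH 24 7 r13_24_7_0 := D.rowsS (hp13 hb) (hc13_1 hb) _ _ _ kr13_24_7_0
theorem hr13_32_7_0 : D.PtH 32 7 r13_32_7_0 := D.rowsS (hp13 hb) (hc13_1 hb) _ _ _ kr13_32_7_0
theorem hr13_40_7_0 : D.PtH 40 7 r13_40_7_0 := D.rowsS (hp13 hb) (hc13_1 hb) _ _ _ kr13_40_7_0
theorem hr13_48_7_0 : D.PtH 48 7 r13_48_7_0 := D.rowsS (hp13 hb) (hc13_1 hb) _ _ _ kr13_48_7_0
theorem hp14 : PtsH true (D.lnS 8 (by decide)).S p14 :=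
  PtsH.sub (b := fu14) (D.consS (hr5_4_8_0 hb) (D.consS (hr4_5_8_0 hb) (D.consS (hr3_6_8_0 hb) (D.consS (hr2_7_8_0 hb) (D.consS (hr1_8_8_0 hb) (D.consS (hr0_9_8_0 hb) Sys.nilP rfl) rfl) rfl) rfl) rfl) rfl) _ s14
theorem hc14_i : CapH (D.lnS 8 (by decide)) c14_i := init_sound _ (hp14 hb) _ _ _ i14
theorem hc14_0 : CapH (D.lnS 8 (by decide)) c14_0 :=
  steps_sound _ _ (D.varS _) (hp14 hb) _ _ (hc14_i hb) kc14_0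
theorem hc14_1 : CapH (D.lnS 8 (by decide)) c14_1 :=
  steps_sound _ _ (Sys.noV _) (hp14 hb) _ _ (hc14_0 hb) kc14_1
theorem hr14_12_8_0 : D.PtH 12 8 r14_12_8_0 := D.rowsS (hp14 hb) (hc14_1 hb) _ _ _ kr14_12_8_0
theorem hr14_16_8_0 : D.PtH 16 8 r14_16_8_0 := D.rowsS (hp14 hb) (hc14_1 hb) _ _ _ kr14_16_8_0
theorem hr14_20_8_0 : D.PtH 20 8 r14_20_8_0 := D.rowsS (hp14 hb) (hc14_1 hb) _ _ _ kr14_20_8_0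
theorem hr14_32_8_0 : D.PtH 32 8 r14_32_8_0 := D.rowsS (hp14 hb) (hc14_1 hb) _ _ _ kr14_32_8_0
theorem hr14_40_8_0 : D.PtH 40 8 r14_40_8_0 := D.rowsS (hp14 hb) (hc14_1 hb) _ _ _ kr14_40_8_0
theorem hp15 : PtsH false (D.lnT 48 (by decide)).S p15 :=
  PtsH.sub (b := fu15) (D.consT ((hr10_48_4_0 hb).app ((hr10_48_4_1 hb).app ((hr10_48_4_2 hb).app ((hr10_48_4_3 hb).app (hr10_48_4_4 hb))))) (D.consT ((hr11_48_5_0 hb).app ((hr11_48_5_1 hb).app ((hr11_48_5_2 hb).app (hr11_48_5_3 hb)))) (D.consT ((hr12_48_6_0 hb).app ((hr12_48_6_1 hb).app ((hr12_48_6_2 hb).app (hr12_48_6_3 hb)))) (D.consT (hr13_48_7_0 hb) Sys.nilP rfl) rfl) rfl) rfl) _ s15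
theorem hc15_i : CapH (D.lnT 48 (by decide)) c15_i := init_sound _ (hp15 hb) _ _ _ i15
theorem hc15_0 : CapH (D.lnT 48 (by decide)) c15_0 :=
  steps_sound _ _ (D.varT _ rfl) (hp15 hb) _ _ (hc15_i hb) kc15_0
theorem hr15_48_7_0 : D.PtH 48 7 r15_48_7_0 := D.rowsT (hp15 hb) (hc15_0 hb) _ _ _ kr15_48_7_0
theorem hr15_48_8_0 : D.PtH 48 8 r15_48_8_0 := D.rowsT (hp15 hb) (hc15_0 hb) _ _ _ kr15_48_8_0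
theorem hr15_48_9_0 : D.PtH 48 9 r15_48_9_0 := D.rowsT (hp15 hb) (hc15_0 hb) _ _ _ kr15_48_9_0
theorem hr15_48_10_0 : D.PtH 48 10 r15_48_10_0 := D.rowsT (hp15 hb) (hc15_0 hb) _ _ _ kr15_48_10_0
theorem hr15_48_12_0 : D.PtH 48 12 r15_48_12_0 := D.rowsT (hp15 hb) (hc15_0 hb) _ _ _ kr15_48_12_0
theorem hr15_48_16_0 : D.PtH 48 16 r15_48_16_0 := D.rowsT (hp15 hb) (hc15_0 hb) _ _ _ kr15_48_16_0
theorem hp16 : PtsH false (D.lnT 40 (by decide)).S p16 :=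
  PtsH.sub (b := fu16) (D.consT ((hr10_40_4_0 hb).app ((hr10_40_4_1 hb).app ((hr10_40_4_2 hb).app (hr10_40_4_3 hb)))) (D.consT ((hr11_40_5_0 hb).app ((hr11_40_5_1 hb).app (hr11_40_5_2 hb))) (D.consT ((hr12_40_6_0 hb).app ((hr12_40_6_1 hb).app (hr12_40_6_2 hb))) (D.consT (hr13_40_7_0 hb) (D.consT (hr14_40_8_0 hb) Sys.nilP rfl) rfl) rfl) rfl) rfl) _ s16
theorem hc16_i : CapH (D.lnT 40 (by decide)) c16_i := init_sound _ (hp16 hb) _ _ _ i16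
theorem hc16_0 : CapH (D.lnT 40 (by decide)) c16_0 :=
  steps_sound _ _ (D.varT _ rfl) (hp16 hb) _ _ (hc16_i hb) kc16_0
theorem hr16_40_7_0 : D.PtH 40 7 r16_40_7_0 := D.rowsT (hp16 hb) (hc16_0 hb) _ _ _ kr16_40_7_0
theorem hr16_40_8_0 : D.PtH 40 8 r16_40_8_0 := D.rowsT (hp16 hb) (hc16_0 hb) _ _ _ kr16_40_8_0
theorem hr16_40_9_0 : D.PtH 40 9 r16_40_9_0 := D.rowsT (hp16 hb) (hc16_0 hb) _ _ _ kr16_40_9_0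
theorem hr16_40_10_0 : D.PtH 40 10 r16_40_10_0 := D.rowsT (hp16 hb) (hc16_0 hb) _ _ _ kr16_40_10_0
theorem hr16_40_12_0 : D.PtH 40 12 r16_40_12_0 := D.rowsT (hp16 hb) (hc16_0 hb) _ _ _ kr16_40_12_0
theorem hr16_40_16_0 : D.PtH 40 16 r16_40_16_0 := D.rowsT (hp16 hb) (hc16_0 hb) _ _ _ kr16_40_16_0
theorem hp17 : PtsH false (D.lnT 32 (by decide)).S p17 :=
  PtsH.sub (b := fu17) (D.consT ((hr9_32_3_0 hb).app ((hr9_32_3_1 hb).app ((hr9_32_3_2 hb).app (hr9_32_3_3 hb)))) (D.consT ((hr10_32_4_0 hb).app ((hr10_32_4_1 hb).app (hr10_32_4_2 hb))) (D.consT ((hr11_32_5_0 hb).app (hr11_32_5_1 hb)) (D.consT ((hr12_32_6_0 hb).app ((hr12_32_6_1 hb).app (hr12_32_6_2 hb))) (D.consT (hr13_32_7_0 hb) (D.consT (hr14_32_8_0 hb) Sys.nilP rfl) rfl) rfl) rfl) rfl) rfl) _ s17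
theorem hc17_i : CapH (D.lnT 32 (by decide)) c17_i := init_sound _ (hp17 hb) _ _ _ i17
theorem hc17_0 : CapH (D.lnT 32 (by decide)) c17_0 :=
  steps_sound _ _ (D.varT _ rfl) (hp17 hb) _ _ (hc17_i hb) kc17_0
theorem hr17_32_6_0 : D.PtH 32 6 r17_32_6_0 := D.rowsT (hp17 hb) (hc17_0 hb) _ _ _ kr17_32_6_0
theorem hr17_32_7_0 : D.PtH 32 7 r17_32_7_0 := D.rowsT (hp17 hb) (hc17_0 hb) _ _ _ kr17_32_7_0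
theorem hr17_32_8_0 : D.PtH 32 8 r17_32_8_0 := D.rowsT (hp17 hb) (hc17_0 hb) _ _ _ kr17_32_8_0
theorem hr17_32_9_0 : D.PtH 32 9 r17_32_9_0 := D.rowsT (hp17 hb) (hc17_0 hb) _ _ _ kr17_32_9_0
theorem hr17_32_10_0 : D.PtH 32 10 r17_32_10_0 := D.rowsT (hp17 hb) (hc17_0 hb) _ _ _ kr17_32_10_0
theorem hr17_32_12_0 : D.PtH 32 12 r17_32_12_0 := D.rowsT (hp17 hb) (hc17_0 hb) _ _ _ kr17_32_12_0
theorem hr17_32_16_0 : D.PtH 32 16 r17_32_16_0 := D.rowsT (hp17 hb) (hc17_0 hb) _ _ _ kr17_32_16_0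
theorem hp18 : PtsH false (D.lnT 24 (by decide)).S p18 :=
  PtsH.sub (b := fu18) (D.consT ((hr8_24_2_0 hb).app ((hr8_24_2_1 hb).app (hr8_24_2_2 hb))) (D.consT (hr9_24_3_0 hb) (D.consT ((hr10_24_4_0 hb).app (hr10_24_4_1 hb)) (D.consT ((hr11_24_5_0 hb).app ((hr11_24_5_1 hb).app (hr11_24_5_2 hb))) (D.consT ((hr12_24_6_0 hb).app (hr12_24_6_1 hb)) (D.consT (hr13_24_7_0 hb) Sys.nilP rfl) rfl) rfl) rfl) rfl) rfl) _ s18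
theorem hc18_i : CapH (D.lnT 24 (by decide)) c18_i := init_sound _ (hp18 hb) _ _ _ i18
theorem hc18_0 : CapH (D.lnT 24 (by decide)) c18_0 :=
  steps_sound _ _ (D.varT _ rfl) (hp18 hb) _ _ (hc18_i hb) kc18_0
theorem hr18_24_7_0 : D.PtH 24 7 r18_24_7_0 := D.rowsT (hp18 hb) (hc18_0 hb) _ _ _ kr18_24_7_0
theorem hr18_24_8_0 : D.PtH 24 8 r18_24_8_0 := D.rowsT (hp18 hb) (hc18_0 hb) _ _ _ kr18_24_8_0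
theorem hr18_24_9_0 : D.PtH 24 9 r18_24_9_0 := D.rowsT (hp18 hb) (hc18_0 hb) _ _ _ kr18_24_9_0
theorem hr18_24_10_0 : D.PtH 24 10 r18_24_10_0 := D.rowsT (hp18 hb) (hc18_0 hb) _ _ _ kr18_24_10_0
theorem hr18_24_12_0 : D.PtH 24 12 r18_24_12_0 := D.rowsT (hp18 hb) (hc18_0 hb) _ _ _ kr18_24_12_0
theorem hr18_24_16_0 : D.PtH 24 16 r18_24_16_0 := D.rowsT (hp18 hb) (hc18_0 hb) _ _ _ kr18_24_16_0
theorem hp19 : PtsH false (D.lnT 20 (by decide)).S p19 :=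
  PtsH.sub (b := fu19) (D.consT ((hr8_20_2_0 hb).app ((hr8_20_2_1 hb).app (hr8_20_2_2 hb))) (D.consT ((hr9_20_3_0 hb).app (hr9_20_3_1 hb)) (D.consT ((hr10_20_4_0 hb).app (hr10_20_4_1 hb)) (D.consT ((hr11_20_5_0 hb).app ((hr11_20_5_1 hb).app ((hr11_20_5_2 hb).app (hr11_20_5_3 hb)))) (D.consT (hr12_20_6_0 hb) (D.consT (hr14_20_8_0 hb) Sys.nilP rfl) rfl) rfl) rfl) rfl) rfl) _ s19
theorem hc19_i : CapH (D.lnT 20 (by decide)) c19_i := init_sound _ (hp19 hb) _ _ _ i19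
theorem hc19_0 : CapH (D.lnT 20 (by decide)) c19_0 :=
  steps_sound _ _ (D.varT _ rfl) (hp19 hb) _ _ (hc19_i hb) kc19_0
theorem hr19_20_8_0 : D.PtH 20 8 r19_20_8_0 := D.rowsT (hp19 hb) (hc19_0 hb) _ _ _ kr19_20_8_0
theorem hr19_20_9_0 : D.PtH 20 9 r19_20_9_0 := D.rowsT (hp19 hb) (hc19_0 hb) _ _ _ kr19_20_9_0
theorem hr19_20_10_0 : D.PtH 20 10 r19_20_10_0 := D.rowsT (hp19 hb) (hc19_0 hb) _ _ _ kr19_20_10_0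
theorem hr19_20_12_0 : D.PtH 20 12 r19_20_12_0 := D.rowsT (hp19 hb) (hc19_0 hb) _ _ _ kr19_20_12_0
theorem hr19_20_16_0 : D.PtH 20 16 r19_20_16_0 := D.rowsT (hp19 hb) (hc19_0 hb) _ _ _ kr19_20_16_0
theorem hr19_20_16_1 : D.PtH 20 16 r19_20_16_1 := D.rowsT (hp19 hb) (hc19_0 hb) _ _ _ kr19_20_16_1
theorem hp20 : PtsH false (D.lnT 16 (by decide)).S p20 :=
  PtsH.sub (b := fu20) (D.consT ((hr8_16_2_0 hb).app ((hr8_16_2_1 hb).app (hr8_16_2_2 hb))) (D.consT ((hr9_16_3_0 hb).app (hr9_16_3_1 hb)) (D.consT ((hr10_16_4_0 hb).app ((hr10_16_4_1 hb).app (hr10_16_4_2 hb))) (D.consT ((hr11_16_5_0 hb).app ((hr11_16_5_1 hb).app (hr11_16_5_2 hb))) (D.consT (hr12_16_6_0 hb) (D.consT (hr14_16_8_0 hb) Sys.nilP rfl) rfl) rfl) rfl) rfl) rfl) _ s20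
theorem hc20_i : CapH (D.lnT 16 (by decide)) c20_i := init_sound _ (hp20 hb) _ _ _ i20
theorem hc20_0 : CapH (D.lnT 16 (by decide)) c20_0 :=
  steps_sound _ _ (D.varT _ rfl) (hp20 hb) _ _ (hc20_i hb) kc20_0
theorem hc20_1 : CapH (D.lnT 16 (by decide)) c20_1 :=
  steps_sound _ _ (Sys.noV _) (hp20 hb) _ _ (hc20_0 hb) kc20_1
theorem hr20_16_6_0 : D.PtH 16 6 r20_16_6_0 := D.rowsT (hp20 hb) (hc20_1 hb) _ _ _ kr20_16_6_0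
theorem hr20_16_7_0 : D.PtH 16 7 r20_16_7_0 := D.rowsT (hp20 hb) (hc20_1 hb) _ _ _ kr20_16_7_0
theorem hr20_16_8_0 : D.PtH 16 8 r20_16_8_0 := D.rowsT (hp20 hb) (hc20_1 hb) _ _ _ kr20_16_8_0
theorem hr20_16_8_1 : D.PtH 16 8 r20_16_8_1 := D.rowsT (hp20 hb) (hc20_1 hb) _ _ _ kr20_16_8_1
theorem hr20_16_9_0 : D.PtH 16 9 r20_16_9_0 := D.rowsT (hp20 hb) (hc20_1 hb) _ _ _ kr20_16_9_0
theorem hr20_16_10_0 : D.PtH 16 10 r20_16_10_0 := D.rowsT (hp20 hb) (hc20_1 hb) _ _ _ kr20_16_10_0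
theorem hr20_16_12_0 : D.PtH 16 12 r20_16_12_0 := D.rowsT (hp20 hb) (hc20_1 hb) _ _ _ kr20_16_12_0
theorem hr20_16_12_1 : D.PtH 16 12 r20_16_12_1 := D.rowsT (hp20 hb) (hc20_1 hb) _ _ _ kr20_16_12_1
theorem hr20_16_16_0 : D.PtH 16 16 r20_16_16_0 := D.rowsT (hp20 hb) (hc20_1 hb) _ _ _ kr20_16_16_0
theorem hp21 : PtsH false (D.lnT 12 (by decide)).S p21 :=
  PtsH.sub (b := fu21) (D.consT ((hr8_12_2_0 hb).app ((hr8_12_2_1 hb).app (hr8_12_2_2 hb))) (D.consT ((hr9_12_3_0 hb).app (hr9_12_3_1 hb)) (D.consT ((hr10_12_4_0 hb).app ((hr10_12_4_1 hb).app (hr10_12_4_2 hb))) (D.consT ((hr11_12_5_0 hb).app (hr11_12_5_1 hb)) (D.consT (hr12_12_6_0 hb) (D.consT (hr13_12_7_0 hb) (D.consT (hr14_12_8_0 hb) Sys.nilP rfl) rfl) rfl) rfl) rfl) rfl) rfl) _ s21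
theorem hc21_i : CapH (D.lnT 12 (by decide)) c21_i := init_sound _ (hp21 hb) _ _ _ i21
theorem hc21_0 : CapH (D.lnT 12 (by decide)) c21_0 :=
  steps_sound _ _ (D.varT _ rfl) (hp21 hb) _ _ (hc21_i hb) kc21_0
theorem hr21_12_6_0 : D.PtH 12 6 r21_12_6_0 := D.rowsT (hp21 hb) (hc21_0 hb) _ _ _ kr21_12_6_0
theorem hr21_12_7_0 : D.PtH 12 7 r21_12_7_0 := D.rowsT (hp21 hb) (hc21_0 hb) _ _ _ kr21_12_7_0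
theorem hr21_12_7_1 : D.PtH 12 7 r21_12_7_1 := D.rowsT (hp21 hb) (hc21_0 hb) _ _ _ kr21_12_7_1
theorem hr21_12_8_0 : D.PtH 12 8 r21_12_8_0 := D.rowsT (hp21 hb) (hc21_0 hb) _ _ _ kr21_12_8_0
theorem hr21_12_9_0 : D.PtH 12 9 r21_12_9_0 := D.rowsT (hp21 hb) (hc21_0 hb) _ _ _ kr21_12_9_0
theorem hr21_12_9_1 : D.PtH 12 9 r21_12_9_1 := D.rowsT (hp21 hb) (hc21_0 hb) _ _ _ kr21_12_9_1
theorem hr21_12_10_0 : D.PtH 12 10 r21_12_10_0 := D.rowsT (hp21 hb) (hc21_0 hb) _ _ _ kr21_12_10_0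
theorem hr21_12_10_1 : D.PtH 12 10 r21_12_10_1 := D.rowsT (hp21 hb) (hc21_0 hb) _ _ _ kr21_12_10_1
theorem hr21_12_12_0 : D.PtH 12 12 r21_12_12_0 := D.rowsT (hp21 hb) (hc21_0 hb) _ _ _ kr21_12_12_0
theorem hr21_12_12_1 : D.PtH 12 12 r21_12_12_1 := D.rowsT (hp21 hb) (hc21_0 hb) _ _ _ kr21_12_12_1
theorem hr21_12_16_0 : D.PtH 12 16 r21_12_16_0 := D.rowsT (hp21 hb) (hc21_0 hb) _ _ _ kr21_12_16_0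
theorem hp23 : PtsH true (D.lnS 16 (by decide)).S p23 :=
  PtsH.sub (b := fu23) (D.consS (hr3_6_16_0 hb) (D.consS (hr2_7_16_0 hb) (D.consS ((hr1_8_16_0 hb).app (hr1_8_16_1 hb)) (D.consS (hr0_9_16_0 hb) (D.consS (hr21_12_16_0 hb) (D.consS (hr20_16_16_0 hb) (D.consS ((hr19_20_16_0 hb).app (hr19_20_16_1 hb)) (D.consS (hr18_24_16_0 hb) (D.consS (hr17_32_16_0 hb) (D.consS (hr16_40_16_0 hb) (D.consS (hr15_48_16_0 hb) Sys.nilP rfl) rfl) rfl) rfl) rfl) rfl) rfl) rfl) rfl) rfl) rfl) _ s23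
theorem hc23_i : CapH (D.lnS 16 (by decide)) c23_i := init_sound _ (hp23 hb) _ _ _ i23
theorem hc23_0 : CapH (D.lnS 16 (by decide)) c23_0 :=
  steps_sound _ _ (Sys.noV _) (hp23 hb) _ _ (hc23_i hb) kc23_0
theorem hc23_1 : CapH (D.lnS 16 (by decide)) c23_1 :=
  steps_sound _ _ (Sys.noV _) (hp23 hb) _ _ (hc23_0 hb) kc23_1
theorem hc23_2 : CapH (D.lnS 16 (by decide)) c23_2 :=
  steps_sound _ _ (Sys.noV _) (hp23 hb) _ _ (hc23_1 hb) kc23_2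
theorem hc23_3 : CapH (D.lnS 16 (by decide)) c23_3 :=
  steps_sound _ _ (D.varS _) (hp23 hb) _ _ (hc23_2 hb) kc23_3
theorem hc23_4 : CapH (D.lnS 16 (by decide)) c23_4 :=
  steps_sound _ _ (Sys.noV _) (hp23 hb) _ _ (hc23_3 hb) kc23_4
theorem hc23_5 : CapH (D.lnS 16 (by decide)) c23_5 :=
  steps_sound _ _ (Sys.noV _) (hp23 hb) _ _ (hc23_4 hb) kc23_5
theorem hc23_6 : CapH (D.lnS 16 (by decide)) c23_6 :=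
  steps_sound _ _ (Sys.noV _) (hp23 hb) _ _ (hc23_5 hb) kc23_6
theorem hc23_7 : CapH (D.lnS 16 (by decide)) c23_7 :=
  steps_sound _ _ (Sys.noV _) (hp23 hb) _ _ (hc23_6 hb) kc23_7
theorem hr23_20_16_0 : D.PtH 20 16 r23_20_16_0 := D.rowsS (hp23 hb) (hc23_7 hb) _ _ _ kr23_20_16_0
theorem hr23_40_16_0 : D.PtH 40 16 r23_40_16_0 := D.rowsS (hp23 hb) (hc23_7 hb) _ _ _ kr23_40_16_0
theorem hIS_20_16 : D.IS 20 16 ((132000 : ℕ) / 2 ^ 20) ((51500 : ℕ) / 2 ^ 20) :=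
  D.impS (hp23 hb) (hc23_7 hb) _ _ _ _ _ kq23_20
theorem hp24 : PtsH true (D.lnS 12 (by decide)).S p24 :=
  PtsH.sub (b := fu24) (D.consS (hr3_6_12_0 hb) (D.consS ((hr2_7_12_0 hb).app (hr2_7_12_1 hb)) (D.consS ((hr1_8_12_0 hb).app (hr1_8_12_1 hb)) (D.consS ((hr0_9_12_0 hb).app (hr0_9_12_1 hb)) (D.consS ((hr21_12_12_0 hb).app (hr21_12_12_1 hb)) (D.consS ((hr20_16_12_0 hb).app (hr20_16_12_1 hb)) (D.consS (hr19_20_12_0 hb) (D.consS (hr18_24_12_0 hb) (D.consS (hr17_32_12_0 hb) (D.consS (hr16_40_12_0 hb) (D.consS (hr15_48_12_0 hb) Sys.nilP rfl) rfl) rfl) rfl) rfl) rfl) rfl) rfl) rfl) rfl) rfl) _ s24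
theorem hc24_i : CapH (D.lnS 12 (by decide)) c24_i := init_sound _ (hp24 hb) _ _ _ i24
theorem hc24_0 : CapH (D.lnS 12 (by decide)) c24_0 :=
  steps_sound _ _ (Sys.noV _) (hp24 hb) _ _ (hc24_i hb) kc24_0
theorem hc24_1 : CapH (D.lnS 12 (by decide)) c24_1 :=
  steps_sound _ _ (Sys.noV _) (hp24 hb) _ _ (hc24_0 hb) kc24_1
theorem hc24_2 : CapH (D.lnS 12 (by decide)) c24_2 :=
  steps_sound _ _ (D.varS _) (hp24 hb) _ _ (hc24_1 hb) kc24_2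
theorem hc24_3 : CapH (D.lnS 12 (by decide)) c24_3 :=
  steps_sound _ _ (Sys.noV _) (hp24 hb) _ _ (hc24_2 hb) kc24_3
theorem hc24_4 : CapH (D.lnS 12 (by decide)) c24_4 :=
  steps_sound _ _ (Sys.noV _) (hp24 hb) _ _ (hc24_3 hb) kc24_4
theorem hc24_5 : CapH (D.lnS 12 (by decide)) c24_5 :=
  steps_sound _ _ (Sys.noV _) (hp24 hb) _ _ (hc24_4 hb) kc24_5
theorem hc24_6 : CapH (D.lnS 12 (by decide)) c24_6 :=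
  steps_sound _ _ (Sys.noV _) (hp24 hb) _ _ (hc24_5 hb) kc24_6
theorem hr24_20_12_0 : D.PtH 20 12 r24_20_12_0 := D.rowsS (hp24 hb) (hc24_6 hb) _ _ _ kr24_20_12_0
theorem hr24_40_12_0 : D.PtH 40 12 r24_40_12_0 := D.rowsS (hp24 hb) (hc24_6 hb) _ _ _ kr24_40_12_0
theorem hr24_40_12_1 : D.PtH 40 12 r24_40_12_1 := D.rowsS (hp24 hb) (hc24_6 hb) _ _ _ kr24_40_12_1
theorem hr24_40_12_2 : D.PtH 40 12 r24_40_12_2 := D.rowsS (hp24 hb) (hc24_6 hb) _ _ _ kr24_40_12_2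
theorem hp25 : PtsH true (D.lnS 10 (by decide)).S p25 :=
  PtsH.sub (b := fu25) (D.consS (hr5_4_10_0 hb) (D.consS (hr4_5_10_0 hb) (D.consS (hr3_6_10_0 hb) (D.consS ((hr2_7_10_0 hb).app (hr2_7_10_1 hb)) (D.consS ((hr1_8_10_0 hb).app (hr1_8_10_1 hb)) (D.consS ((hr0_9_10_0 hb).app (hr0_9_10_1 hb)) (D.consS ((hr21_12_10_0 hb).app (hr21_12_10_1 hb)) (D.consS (hr20_16_10_0 hb) (D.consS (hr19_20_10_0 hb) (D.consS (hr18_24_10_0 hb) (D.consS (hr17_32_10_0 hb) (D.consS (hr16_40_10_0 hb) (D.consS (hr15_48_10_0 hb) Sys.nilP rfl) rfl) rfl) rfl) rfl) rfl) rfl) rfl) rfl) rfl) rfl) rfl) rfl) _ s25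
theorem hc25_i : CapH (D.lnS 10 (by decide)) c25_i := init_sound _ (hp25 hb) _ _ _ i25
theorem hc25_0 : CapH (D.lnS 10 (by decide)) c25_0 :=
  steps_sound _ _ (Sys.noV _) (hp25 hb) _ _ (hc25_i hb) kc25_0
theorem hc25_1 : CapH (D.lnS 10 (by decide)) c25_1 :=
  steps_sound _ _ (Sys.noV _) (hp25 hb) _ _ (hc25_0 hb) kc25_1
theorem hc25_2 : CapH (D.lnS 10 (by decide)) c25_2 :=
  steps_sound _ _ (D.varS _) (hp25 hb) _ _ (hc25_1 hb) kc25_2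
theorem hc25_3 : CapH (D.lnS 10 (by decide)) c25_3 :=
  steps_sound _ _ (Sys.noV _) (hp25 hb) _ _ (hc25_2 hb) kc25_3
theorem hc25_4 : CapH (D.lnS 10 (by decide)) c25_4 :=
  steps_sound _ _ (Sys.noV _) (hp25 hb) _ _ (hc25_3 hb) kc25_4
theorem hc25_5 : CapH (D.lnS 10 (by decide)) c25_5 :=
  steps_sound _ _ (Sys.noV _) (hp25 hb) _ _ (hc25_4 hb) kc25_5
theorem hc25_6 : CapH (D.lnS 10 (by decide)) c25_6 :=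
  steps_sound _ _ (Sys.noV _) (hp25 hb) _ _ (hc25_5 hb) kc25_6
theorem hr25_40_10_0 : D.PtH 40 10 r25_40_10_0 := D.rowsS (hp25 hb) (hc25_6 hb) _ _ _ kr25_40_10_0
theorem hr25_40_10_1 : D.PtH 40 10 r25_40_10_1 := D.rowsS (hp25 hb) (hc25_6 hb) _ _ _ kr25_40_10_1
theorem hr25_40_10_2 : D.PtH 40 10 r25_40_10_2 := D.rowsS (hp25 hb) (hc25_6 hb) _ _ _ kr25_40_10_2
theorem hp26 : PtsH true (D.lnS 9 (by decide)).S p26 :=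
  PtsH.sub (b := fu26) (D.consS (hr5_4_9_0 hb) (D.consS (hr4_5_9_0 hb) (D.consS (hr3_6_9_0 hb) (D.consS (hr2_7_9_0 hb) (D.consS ((hr1_8_9_0 hb).app (hr1_8_9_1 hb)) (D.consS ((hr0_9_9_0 hb).app (hr0_9_9_1 hb)) (D.consS ((hr21_12_9_0 hb).app (hr21_12_9_1 hb)) (D.consS (hr20_16_9_0 hb) (D.consS (hr19_20_9_0 hb) (D.consS (hr18_24_9_0 hb) (D.consS (hr17_32_9_0 hb) (D.consS (hr16_40_9_0 hb) (D.consS (hr15_48_9_0 hb) Sys.nilP rfl) rfl) rfl) rfl) rfl) rfl) rfl) rfl) rfl) rfl) rfl) rfl) rfl) _ s26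
theorem hc26_i : CapH (D.lnS 9 (by decide)) c26_i := init_sound _ (hp26 hb) _ _ _ i26
theorem hc26_0 : CapH (D.lnS 9 (by decide)) c26_0 :=
  steps_sound _ _ (Sys.noV _) (hp26 hb) _ _ (hc26_i hb) kc26_0
theorem hc26_1 : CapH (D.lnS 9 (by decide)) c26_1 :=
  steps_sound _ _ (Sys.noV _) (hp26 hb) _ _ (hc26_0 hb) kc26_1
theorem hc26_2 : CapH (D.lnS 9 (by decide)) c26_2 :=
  steps_sound _ _ (D.varS _) (hp26 hb) _ _ (hc26_1 hb) kc26_2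
theorem hc26_3 : CapH (D.lnS 9 (by decide)) c26_3 :=
  steps_sound _ _ (Sys.noV _) (hp26 hb) _ _ (hc26_2 hb) kc26_3
theorem hc26_4 : CapH (D.lnS 9 (by decide)) c26_4 :=
  steps_sound _ _ (Sys.noV _) (hp26 hb) _ _ (hc26_3 hb) kc26_4
theorem hc26_5 : CapH (D.lnS 9 (by decide)) c26_5 :=
  steps_sound _ _ (Sys.noV _) (hp26 hb) _ _ (hc26_4 hb) kc26_5
theorem hc26_6 : CapH (D.lnS 9 (by decide)) c26_6 :=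
  steps_sound _ _ (Sys.noV _) (hp26 hb) _ _ (hc26_5 hb) kc26_6
theorem hr26_20_9_0 : D.PtH 20 9 r26_20_9_0 := D.rowsS (hp26 hb) (hc26_6 hb) _ _ _ kr26_20_9_0
theorem hr26_20_9_1 : D.PtH 20 9 r26_20_9_1 := D.rowsS (hp26 hb) (hc26_6 hb) _ _ _ kr26_20_9_1
theorem hp27 : PtsH true (D.lnS 8 (by decide)).S p27 :=
  PtsH.sub (b := fu27) (D.consS (hr5_4_8_0 hb) (D.consS (hr4_5_8_0 hb) (D.consS (hr3_6_8_0 hb) (D.consS (hr2_7_8_0 hb) (D.consS (hr1_8_8_0 hb) (D.consS (hr0_9_8_0 hb) (D.consS (hr21_12_8_0 hb) (D.consS ((hr20_16_8_0 hb).app (hr20_16_8_1 hb)) (D.consS (hr19_20_8_0 hb) (D.consS (hr18_24_8_0 hb) (D.consS (hr17_32_8_0 hb) (D.consS (hr16_40_8_0 hb) (D.consS (hr15_48_8_0 hb) Sys.nilP rfl) rfl) rfl) rfl) rfl) rfl) rfl) rfl) rfl) rfl) rfl) rfl) rfl) _ s27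
theorem hc27_0 : CapH (D.lnS 8 (by decide)) c27_0 :=
  steps_sound _ _ (Sys.noV _) (hp27 hb) _ _ (hc14_1 hb) kc27_0
theorem hc27_1 : CapH (D.lnS 8 (by decide)) c27_1 :=
  steps_sound _ _ (Sys.noV _) (hp27 hb) _ _ (hc27_0 hb) kc27_1
theorem hc27_2 : CapH (D.lnS 8 (by decide)) c27_2 :=
  steps_sound _ _ (Sys.noV _) (hp27 hb) _ _ (hc27_1 hb) kc27_2
theorem hc27_3 : CapH (D.lnS 8 (by decide)) c27_3 :=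
  steps_sound _ _ (Sys.noV _) (hp27 hb) _ _ (hc27_2 hb) kc27_3
theorem hr27_40_8_0 : D.PtH 40 8 r27_40_8_0 := D.rowsS (hp27 hb) (hc27_3 hb) _ _ _ kr27_40_8_0
theorem hr27_40_8_1 : D.PtH 40 8 r27_40_8_1 := D.rowsS (hp27 hb) (hc27_3 hb) _ _ _ kr27_40_8_1
theorem hIS_20_8 : D.IS 20 8 ((73400 : ℕ) / 2 ^ 20) ((10485 : ℕ) / 2 ^ 20) :=
  D.impS (hp27 hb) (hc27_3 hb) _ _ _ _ _ kq27_20
theorem hp28 : PtsH true (D.lnS 7 (by decide)).S p28 :=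
  PtsH.sub (b := fu28) (D.consS (hr5_4_7_0 hb) (D.consS (hr4_5_7_0 hb) (D.consS (hr3_6_7_0 hb) (D.consS (hr2_7_7_0 hb) (D.consS (hr1_8_7_0 hb) (D.consS (hr0_9_7_0 hb) (D.consS ((hr21_12_7_0 hb).app (hr21_12_7_1 hb)) (D.consS (hr20_16_7_0 hb) (D.consS (hr18_24_7_0 hb) (D.consS (hr17_32_7_0 hb) (D.consS (hr16_40_7_0 hb) (D.consS (hr15_48_7_0 hb) Sys.nilP rfl) rfl) rfl) rfl) rfl) rfl) rfl) rfl) rfl) rfl) rfl) rfl) _ s28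
theorem hc28_0 : CapH (D.lnS 7 (by decide)) c28_0 :=
  steps_sound _ _ (Sys.noV _) (hp28 hb) _ _ (hc13_1 hb) kc28_0
theorem hc28_1 : CapH (D.lnS 7 (by decide)) c28_1 :=
  steps_sound _ _ (Sys.noV _) (hp28 hb) _ _ (hc28_0 hb) kc28_1
theorem hc28_2 : CapH (D.lnS 7 (by decide)) c28_2 :=
  steps_sound _ _ (Sys.noV _) (hp28 hb) _ _ (hc28_1 hb) kc28_2
theorem hc28_3 : CapH (D.lnS 7 (by decide)) c28_3 :=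
  steps_sound _ _ (Sys.noV _) (hp28 hb) _ _ (hc28_2 hb) kc28_3
theorem hr28_20_7_0 : D.PtH 20 7 r28_20_7_0 := D.rowsS (hp28 hb) (hc28_3 hb) _ _ _ kr28_20_7_0
theorem hr28_40_7_0 : D.PtH 40 7 r28_40_7_0 := D.rowsS (hp28 hb) (hc28_3 hb) _ _ _ kr28_40_7_0
theorem hp29 : PtsH true (D.lnS 6 (by decide)).S p29 :=
  PtsH.sub (b := fu29) (D.consS (hr5_4_6_0 hb) (D.consS (hr4_5_6_0 hb) (D.consS (hr3_6_6_0 hb) (D.consS (hr2_7_6_0 hb) (D.consS (hr1_8_6_0 hb) (D.consS (hr0_9_6_0 hb) (D.consS (hr21_12_6_0 hb) (D.consS (hr20_16_6_0 hb) (D.consS (hr12_24_6_1 hb) (D.consS (hr17_32_6_0 hb) Sys.nilP rfl) rfl) rfl) rfl) rfl) rfl) rfl) rfl) rfl) rfl) _ s29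
theorem hc29_0 : CapH (D.lnS 6 (by decide)) c29_0 :=
  steps_sound _ _ (Sys.noV _) (hp29 hb) _ _ (hc12_1 hb) kc29_0
theorem hr29_20_6_0 : D.PtH 20 6 r29_20_6_0 := D.rowsS (hp29 hb) (hc29_0 hb) _ _ _ kr29_20_6_0
theorem hr29_20_6_1 : D.PtH 20 6 r29_20_6_1 := D.rowsS (hp29 hb) (hc29_0 hb) _ _ _ kr29_20_6_1
theorem hr29_20_6_2 : D.PtH 20 6 r29_20_6_2 := D.rowsS (hp29 hb) (hc29_0 hb) _ _ _ kr29_20_6_2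
theorem hp31 : PtsH false (D.lnT 40 (by decide)).S p31 :=
  PtsH.sub (b := fu31) (D.consT ((hr10_40_4_0 hb).app ((hr10_40_4_1 hb).app ((hr10_40_4_2 hb).app (hr10_40_4_3 hb)))) (D.consT ((hr11_40_5_1 hb).app (hr11_40_5_2 hb)) (D.consT (hr12_40_6_2 hb) (D.consT ((hr13_40_7_0 hb).app (hr28_40_7_0 hb)) (D.consT ((hr14_40_8_0 hb).app ((hr27_40_8_0 hb).app (hr27_40_8_1 hb))) (D.consT ((hr25_40_10_0 hb).app ((hr25_40_10_1 hb).app (hr25_40_10_2 hb))) (D.consT ((hr24_40_12_0 hb).app ((hr24_40_12_1 hb).app (hr24_40_12_2 hb))) (D.consT (hr23_40_16_0 hb) Sys.nilP rfl) rfl) rfl) rfl) rfl) rfl) rfl) rfl) _ s31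
theorem hc31_0 : CapH (D.lnT 40 (by decide)) c31_0 :=
  steps_sound _ _ (Sys.noV _) (hp31 hb) _ _ (hc16_0 hb) kc31_0
theorem hIT_40_8 : D.IT 40 8 ((127000 : ℕ) / 2 ^ 20) ((54000 : ℕ) / 2 ^ 20) :=
  D.impT (hp31 hb) (hc31_0 hb) _ _ _ _ _ kq31_8
theorem hp33 : PtsH false (D.lnT 20 (by decide)).S p33 :=
  PtsH.sub (b := fu33) (D.consT ((hr8_20_2_0 hb).app ((hr8_20_2_1 hb).app (hr8_20_2_2 hb))) (D.consT ((hr9_20_3_0 hb).app (hr9_20_3_1 hb)) (D.consT ((hr10_20_4_0 hb).app (hr10_20_4_1 hb)) (D.consT ((hr11_20_5_2 hb).app (hr11_20_5_3 hb)) (D.consT ((hr12_20_6_0 hb).app ((hr29_20_6_0 hb).app ((hr29_20_6_1 hb).app (hr29_20_6_2 hb)))) (D.consT (hr28_20_7_0 hb) (D.consT ((hr26_20_9_0 hb).app (hr26_20_9_1 hb)) (D.consT (hr24_20_12_0 hb) (D.consT (hr23_20_16_0 hb) Sys.nilP rfl) rfl) rfl) rfl)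 rfl) rfl) rfl) rfl) rfl) _ s33
theorem hc33_0 : CapH (D.lnT 20 (by decide)) c33_0 :=
  steps_sound _ _ (Sys.noV _) (hp33 hb) _ _ (hc19_0 hb) kc33_0
theorem hIT_20_8 : D.IT 20 8 ((73400 : ℕ) / 2 ^ 20) ((10485 : ℕ) / 2 ^ 20) :=
  D.impT (hp33 hb) (hc33_0 hb) _ _ _ _ _ kq33_8

end Vale.Agent.P348
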