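import Vale.Agent.P348.CPos
import Vale.Agent.P348.Atm

/-! Linear programming certificates on one line. -/

namespace Vale.Agent.P348

open Finset

abbrev Row := ℕ × Bool × ℕ × ℕ
abbrev Pts := List (ℕ × List Row)
abbrev KL := List (ℕ × ℕ × ℕ)

def f5 (t : ℕ) : Fin 5 := ⟨t % 5, Nat.mod_lt _ (by decide)⟩

def cfI (σ : Bool) (t : ℕ) (c : Fin 5) : ℤ :=
  if (decide (t < 5)) = σ then Rm (f5 t) c else if c = f5 t then 4 else 0

/-- the functional number `t` seen from a line. -/
noncomputable def Fv (σ : Bool) (X : Fin 5 → ℝ) (t : ℕ) : ℝ :=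
  if (decide (t < 5)) = σ then dual X (f5 t) else X (f5 t)

theorem Fv_eq (σ : Bool) (X : Fin 5 → ℝ) (t : ℕ) :
    4 * Fv σ X t = ∑ c, (cfI σ t c : ℝ) * X c := by
  unfold Fv cfI
  split_ifs with h
  · unfold dual; ring
  · simp

def TP : ℕ := 2074757784682030074472900789608208436690315406230964510705706284767821066702547065530979964633925835362383390713154268786869883710786965000784910481391384960761685477900722454528000
def TN : ℕ := 63316582784485781081326318042242689107980868656196449593081959345520169852551080955502902490114143745544428988359470731799534520675622238949383129260477858987968022426467434500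

def ctab (TB : ℕ) (σ : Bool) (t : ℕ) (sg : Bool) (c : ℕ) : ℕ :=
  Nat.mod (Nat.shiftRight TB (Nat.mul 3 (Nat.add (Nat.mul 5 (Nat.add (Nat.add (cond σ 20 0)
    (Nat.mul 2 t)) (cond sg 1 0))) c))) 8

def sgn (sg : Bool) : ℤ := cond sg 1 (-1)

theorem ctab_eq : ∀ (σ : Bool) (t : Fin 10) (sg : Bool) (c : Fin 5),
    (ctab TP σ t sg c : ℤ) - ctab TN σ t sg c = sgn sg * cfI σ t c := by decide +kernel

def RowH (f : ℕ → ℝ) (r : Row) : Prop :=
  r.1 < 10 ∧ 2 ^ 40 * ((sgn r.2.1 : ℝ) * f r.1) ≤ (r.2.2.1 : ℝ) - r.2.2.2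

noncomputable def rowK (TB : ℕ) (σ : Bool) (c : ℕ) (rows : List Row) : List ℕ → ℕ :=
  List.rec (motive := fun _ => List ℕ → ℕ) (fun _ => 0)
    (fun r _ ih mu => List.rec (motive := fun _ => ℕ) 0 (fun m mu' _ =>
      cond (Nat.beq m 0) (ih mu') (Nat.add (Nat.mul m (ctab TB σ r.1 r.2.1 c)) (ih mu'))) mu) rows

noncomputable def rowB (s : Bool) (rows : List Row) : List ℕ → ℕ :=
  List.rec (motive := fun _ => List ℕ → ℕ) (fun _ => 0)
    (fun r _ ih mu => List.rec (motive := fun _ => ℕ) 0 (fun m mu' _ =>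
      Nat.add (Nat.mul m (cond s r.2.2.1 r.2.2.2)) (ih mu')) mu) rows

theorem row_le (σ : Bool) (X : Fin 5 → ℝ) (rows : List Row)
    (h : ∀ r ∈ rows, RowH (Fv σ X) r) : ∀ mu : List ℕ,
    2 ^ 38 * ∑ c : Fin 5, ((rowK TP σ c rows mu : ℝ) - rowK TN σ c rows mu) * X c ≤
      (rowB true rows mu : ℝ) - rowB false rows mu := by
  induction rows with
  | nil => intro mu; simp [rowK, rowB]
  | cons r rows ih =>
    intro mu
    cases mu with
    | nil => simp [rowK, rowB]
    | cons m mu =>
      have e1 : ∀ TB c, rowK TB σ c (r :: rows) (m :: mu) =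
          m * ctab TB σ r.1 r.2.1 c + rowK TB σ c rows mu := fun TB c => by
        change cond (Nat.beq m 0) _ _ = _
        cases hm : Nat.beq m 0
        · rfl
        · rw [Nat.eq_of_beq_eq_true hm]; simp; rfl
      have e2 : ∀ s, rowB s (r :: rows) (m :: mu) =
          m * (cond s r.2.2.1 r.2.2.2) + rowB s rows mu := fun s => rfl
      have hr := h r (by simp)
      have ih' := ih (fun r hr => h r (by simp [hr])) mu
      have e3 : ∀ c : Fin 5, (ctab TP σ r.1 r.2.1 c : ℝ) - ctab TN σ r.1 r.2.1 c =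
          sgn r.2.1 * cfI σ r.1 c := fun c => by
        exact_mod_cast ctab_eq σ ⟨r.1, hr.1⟩ r.2.1 c
      have e4 : ∑ c : Fin 5, ((rowK TP σ c (r :: rows) (m :: mu) : ℝ) -
          rowK TN σ c (r :: rows) (m :: mu)) * X c = m * (sgn r.2.1 * (4 * Fv σ X r.1)) +
          ∑ c : Fin 5, ((rowK TP σ c rows mu : ℝ) - rowK TN σ c rows mu) * X c := by
        rw [Fv_eq, Finset.mul_sum, Finset.mul_sum, ← Finset.sum_add_distrib]
        refine Finset.sum_congr rfl fun c _ => ?_
        rw [e1, e1, ← mul_assoc (sgn r.2.1 : ℝ), ← e3]; push_cast; ring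
      rw [e4, e2, e2]
      have := mul_le_mul_of_nonneg_left hr.2 (Nat.cast_nonneg (α := ℝ) m)
      simp only [cond_true, cond_false]
      push_cast
      linarith

/-- terms of the points whose exponent differs from `es`. -/
noncomputable def oth (σ : Bool) (c es : ℕ) (pts : Pts) : List (List ℕ) → KL :=
  List.rec (motive := fun _ => List (List ℕ) → KL) (fun _ => [])
    (fun p _ ih mu => List.rec (motive := fun _ => KL) [] (fun m mu' _ =>
      cond (Nat.beq p.1 es) (ih mu')
        ((p.1, rowK TP σ c p.2 m, rowK TN σ c p.2 m) :: ih mu')) mu) pts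

noncomputable def sam (TB : ℕ) (σ : Bool) (c es : ℕ) (pts : Pts) : List (List ℕ) → ℕ :=
  List.rec (motive := fun _ => List (List ℕ) → ℕ) (fun _ => 0)
    (fun p _ ih mu => List.rec (motive := fun _ => ℕ) 0 (fun m mu' _ =>
      cond (Nat.beq p.1 es) (Nat.add (rowK TB σ c p.2 m) (ih mu')) (ih mu')) mu) pts

noncomputable def ptB (s : Bool) (pts : Pts) : List (List ℕ) → ℕ :=
  List.rec (motive := fun _ => List (List ℕ) → ℕ) (fun _ => 0)
    (fun p _ ih mu => List.rec (motive := fun _ => ℕ) 0 (fun m mu' _ =>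
      Nat.add (rowB s p.2 m) (ih mu')) mu) pts

def kr (k : KL) : List (ℕ × ℝ) := k.map fun p => (p.1, (p.2.1 : ℝ) - p.2.2)

theorem evl_kr_cons (p : ℕ × ℕ × ℕ) (k : KL) (f : ℕ → ℝ) :
    evl (kr (p :: k)) f = ((p.2.1 : ℝ) - p.2.2) * f p.1 + evl (kr k) f := by simp [evl, kr]

def PtsH (σ : Bool) (S : Fin 5 → ℕ → ℝ) (pts : Pts) : Prop :=
  ∀ p ∈ pts, 2 ≤ p.1 ∧ ∀ r ∈ p.2, RowH (Fv σ fun c => S c p.1) r

def rowEq (r s : Row) : Bool :=
  and (and (Nat.beq r.1 s.1) (cond r.2.1 s.2.1 (!s.2.1)))
    (and (Nat.beq r.2.2.1 s.2.2.1) (Nat.beq r.2.2.2 s.2.2.2))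

theorem rowEq_eq {r s : Row} (h : rowEq r s = true) : r = s := by
  obtain ⟨a, b, c, d⟩ := r
  obtain ⟨a', b', c', d'⟩ := s
  cases b <;> cases b' <;> simp_all [rowEq]

noncomputable def subR (b : List Row) : List Row → Bool :=
  List.rec (motive := fun _ => List Row → Bool)
    (fun a => List.rec (motive := fun _ => Bool) true (fun _ _ _ => false) a)
    (fun s _ ih a => List.rec (motive := fun _ => Bool) true
      (fun r a' _ => cond (rowEq r s) (ih a') (ih a)) a) b

theorem subR_mem (b : List Row) : ∀ a, subR b a = true → ∀ r ∈ a, r ∈ b := by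
  induction b with
  | nil => intro a h; cases a with
    | nil => simp
    | cons r a => exact absurd h Bool.false_ne_true
  | cons s b ih => intro a h; cases a with
    | nil => simp
    | cons r a =>
      have h' : cond (rowEq r s) (subR b a) (subR b (r :: a)) = true := h
      cases e : rowEq r s <;> rw [e] at h'
      · exact fun x hx => List.mem_cons_of_mem _ (ih _ h' x hx)
      · rw [rowEq_eq e]
        exact fun x hx => (List.mem_cons.mp hx).elim (fun z => z ▸ List.mem_cons_self)
          fun z => List.mem_cons_of_mem _ (ih _ h' x z)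

noncomputable def subP (b : Pts) : Pts → Bool :=
  List.rec (motive := fun _ => Pts → Bool)
    (fun a => List.rec (motive := fun _ => Bool) true (fun _ _ _ => false) a)
    (fun s _ ih a => List.rec (motive := fun _ => Bool) true
      (fun r a' _ => and (and (Nat.beq r.1 s.1) (subR s.2 r.2)) (ih a')) a) b

theorem PtsH.sub {σ : Bool} {S : Fin 5 → ℕ → ℝ} {b : Pts} (hb : PtsH σ S b) :
    ∀ a, subP b a = true → PtsH σ S a := by
  induction b with
  | nil => intro a h; cases a with
    | nil => simp [PtsH]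
    | cons r a => exact absurd h Bool.false_ne_true
  | cons s b ih => intro a h; cases a with
    | nil => simp [PtsH]
    | cons r a =>
      have h' : ((Nat.beq r.1 s.1 && subR s.2 r.2) && subP b a) = true := h
      simp only [Bool.and_eq_true, Nat.beq_eq] at h'
      intro x hx
      rcases List.mem_cons.mp hx with rfl | hx
      · have := hb s List.mem_cons_self
        rw [h'.1.1]
        exact ⟨this.1, fun y hy => this.2 y (subR_mem _ _ h'.1.2 y hy)⟩
      · exact ih (fun y hy => hb y (List.mem_cons_of_mem _ hy)) a h'.2 x hx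

theorem pts_le (σ : Bool) (S : Fin 5 → ℕ → ℝ) (es : ℕ) (pts : Pts) (h : PtsH σ S pts) :
    ∀ mu : List (List ℕ), (∀ c : Fin 5, ∀ q ∈ oth σ c es pts mu, 2 ≤ q.1) ∧
    2 ^ 38 * ∑ c : Fin 5, (((sam TP σ c es pts mu : ℝ) - sam TN σ c es pts mu) * S c es +
      evl (kr (oth σ c es pts mu)) (S c)) ≤ (ptB true pts mu : ℝ) - ptB false pts mu := by
  induction pts with
  | nil => intro mu; simp [oth, sam, ptB, evl, kr]
  | cons p pts ih =>
    intro mu
    cases mu with
    | nil => simp [oth, sam, ptB, evl, kr]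
    | cons m mu =>
      have hp := h p (by simp)
      obtain ⟨i1, i2⟩ := ih (fun r hr => h r (by simp [hr])) mu
      have e2 : ∀ s, ptB s (p :: pts) (m :: mu) = rowB s p.2 m + ptB s pts mu := fun s => rfl
      have hr := row_le σ _ p.2 hp.2 m
      have e0 : ∀ c, oth σ c es (p :: pts) (m :: mu) = cond (Nat.beq p.1 es) (oth σ c es pts mu)
        ((p.1, rowK TP σ c p.2 m, rowK TN σ c p.2 m) :: oth σ c es pts mu) := fun c => rfl
      have e1 : ∀ TB c, sam TB σ c es (p :: pts) (m :: mu) = cond (Nat.beq p.1 es)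
        (rowK TB σ c p.2 m + sam TB σ c es pts mu) (sam TB σ c es pts mu) := fun TB c => rfl
      simp only [e0, e1, e2]
      cases hb : Nat.beq p.1 es
      · simp only [cond_false, evl_kr_cons]
        refine ⟨fun c q hq => ?_, ?_⟩
        · rcases List.mem_cons.mp hq with rfl | hq
          · exact hp.1
          · exact i1 c q hq
        · simp only [Finset.sum_add_distrib] at i2 ⊢
          push_cast
          linarith
      · have := Nat.eq_of_beq_eq_true hb
        subst this
        simp only [cond_true]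
        refine ⟨i1, ?_⟩
        simp only [Nat.cast_add, Finset.sum_add_distrib, sub_mul, add_mul,
          Finset.sum_sub_distrib] at i2 hr ⊢
        linarith

noncomputable def side (fe fo : Bool) (k : KL) : SP :=
  List.rec (motive := fun _ => SP) [] (fun p _ ih =>
    cond (cond (Nat.beq (Nat.mod p.1 2) 0) fe fo)
      (cond (Nat.ble p.2.2 p.2.1) ih ((p.1, Nat.shiftLeft (Nat.sub p.2.2 p.2.1) 38) :: ih))
      (cond (Nat.ble p.2.1 p.2.2) ih ((p.1, Nat.shiftLeft (Nat.sub p.2.1 p.2.2) 38) :: ih))) k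

theorem side_term (a b e : ℕ) (x : ℝ) (l l' : SP) :
    evr x (cond (Nat.ble a b) l ((e, Nat.shiftLeft (Nat.sub a b) 38) :: l)) -
    evr x (cond (Nat.ble b a) l' ((e, Nat.shiftLeft (Nat.sub b a) 38) :: l')) =
      2 ^ 38 * (((a : ℝ) - b) * x ^ e) + (evr x l - evr x l') := by
  have hs : ∀ u : ℕ, ((Nat.shiftLeft u 38 : ℕ) : ℝ) = u * 2 ^ 38 := fun u => by
    change ((u <<< 38 : ℕ) : ℝ) = _
    rw [Nat.shiftLeft_eq]; push_cast; ring
  rcases lt_trichotomy a b with h | h | h
  · rw [Nat.ble_eq_true_of_le h.le, show Nat.ble b a = false from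
      Bool.eq_false_iff.mpr fun h' => absurd (Nat.le_of_ble_eq_true h') (by omega)]
    simp only [cond_true, cond_false, evr_cons, hs, Nat.sub_eq, Nat.cast_sub h.le]; ring
  · subst h; rw [Nat.ble_eq_true_of_le le_rfl]; simp
  · rw [Nat.ble_eq_true_of_le h.le, show Nat.ble a b = false from
      Bool.eq_false_iff.mpr fun h' => absurd (Nat.le_of_ble_eq_true h') (by omega)]
    simp only [cond_true, cond_false, evr_cons, hs, Nat.sub_eq, Nat.cast_sub h.le]; ring

theorem side_pos (x : ℝ) (k : KL) : evr x (side false false k) - evr x (side true true k) =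
    2 ^ 38 * evl (kr k) fun e => x ^ e := by
  induction k with
  | nil => simp [side, evl, kr]
  | cons p k ih =>
    have := side_term p.2.1 p.2.2 p.1 x (side false false k) (side true true k)
    rw [evl_kr_cons, mul_add, ← ih, ← this]
    congr 2
    · change cond (cond _ false false) _ _ = _
      rw [Bool.cond_self]; rfl
    · change cond (cond _ true true) _ _ = _
      rw [Bool.cond_self]; rfl

theorem side_neg (x : ℝ) (k : KL) : evr x (side false true k) - evr x (side true false k) =
    2 ^ 38 * evl (kr k) fun e => (-x) ^ e := by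
  induction k with
  | nil => simp [side, evl, kr]
  | cons p k ih =>
    have e1 : ∀ fe fo, side fe fo (p :: k) = cond (cond (Nat.beq (Nat.mod p.1 2) 0) fe fo)
      (cond (Nat.ble p.2.2 p.2.1) (side fe fo k)
        ((p.1, Nat.shiftLeft (Nat.sub p.2.2 p.2.1) 38) :: side fe fo k))
      (cond (Nat.ble p.2.1 p.2.2) (side fe fo k)
        ((p.1, Nat.shiftLeft (Nat.sub p.2.1 p.2.2) 38) :: side fe fo k)) := fun _ _ => rfl
    rw [evl_kr_cons, mul_add, ← ih, e1, e1]
    cases hb : Nat.beq (Nat.mod p.1 2) 0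
    · have ho : Odd p.1 := by
        rw [Nat.odd_iff]
        have := Nat.ne_of_beq_eq_false hb
        change p.1 % 2 ≠ 0 at this
        omega
      simp only [cond_false, cond_true]
      rw [side_term, ho.neg_pow]; ring
    · have he : Even p.1 := Nat.even_iff.mpr (Nat.eq_of_beq_eq_true hb)
      simp only [cond_false, cond_true]
      rw [side_term, he.neg_pow]

end Vale.Agent.P348
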