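import Mathlib

/-! Kernel checker for positivity of a sparse polynomial on an interval. -/

namespace Vale.Agent.P348

open Polynomial Finset

abbrev SP := List (ℕ × ℕ)

noncomputable def ev1 (z : ℕ) (l : SP) : ℕ :=
  List.rec (motive := fun _ => ℕ) 0 (fun p _ ih => Nat.add (Nat.mul p.2 (Nat.pow z p.1)) ih) l

def evr (x : ℝ) (l : SP) : ℝ := (l.map fun p => (p.2 : ℝ) * x ^ p.1).sum

@[simp] theorem evr_nil (x : ℝ) : evr x [] = 0 := rfl
@[simp] theorem evr_cons (x : ℝ) (p : ℕ × ℕ) (l : SP) :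
    evr x (p :: l) = (p.2 : ℝ) * x ^ p.1 + evr x l := by simp [evr]

noncomputable def tay (c : ℕ) (l : SP) : ℕ[X] := (l.map fun p => C p.2 * (X + C c) ^ p.1).sum

theorem tay_eval (c z : ℕ) (l : SP) : (tay c l).eval z = ev1 (Nat.add z c) l := by
  induction l with
  | nil => simp [tay, ev1]
  | cons p l ih =>
    have : tay c (p :: l) = C p.2 * (X + C c) ^ p.1 + tay c l := by simp [tay]
    rw [this, eval_add, ih]
    simp only [eval_mul, eval_C, eval_pow, eval_add, eval_X]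
    rfl

theorem tay_real (c : ℕ) (t : ℝ) (l : SP) :
    (tay c l).eval₂ (Nat.castRingHom ℝ) t = evr (t + c) l := by
  induction l with
  | nil => simp [tay]
  | cons p l ih =>
    have : tay c (p :: l) = C p.2 * (X + C c) ^ p.1 + tay c l := by simp [tay]
    rw [this, eval₂_add, ih, evr_cons, eval₂_mul, eval₂_pow, eval₂_add]
    simp

theorem digit_eval (T : ℕ) (i : ℕ) : ∀ Q : ℕ[X], (∀ k, Q.coeff k < T) →
    Q.eval T / T ^ i % T = Q.coeff i := by
  induction i with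
  | zero =>
    intro Q h
    conv_lhs => rw [← X_mul_divX_add Q]
    simp [Nat.mod_eq_of_lt (h 0)]
  | succ i ih =>
    intro Q h
    have hT : 0 < T := lt_of_le_of_lt (Nat.zero_le _) (h 0)
    have h1 : Q.eval T / T = (divX Q).eval T := by
      conv_lhs => rw [← X_mul_divX_add Q]
      simp only [eval_add, eval_mul, eval_X, eval_C]
      rw [Nat.mul_add_div hT, Nat.div_eq_of_lt (h 0), add_zero]
    rw [pow_succ', ← Nat.div_div_eq_div_mul, h1, ih _ fun k => by rw [coeff_divX]; exact h _,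
      coeff_divX]

theorem coeff_le_eval (Q : ℕ[X]) {h : ℕ} (hh : 0 < h) (k : ℕ) : Q.coeff k ≤ Q.eval h := by
  by_cases hk : k ∈ Q.support
  · rw [eval_eq_sum, Polynomial.sum]
    refine le_trans ?_ (Finset.single_le_sum (f := fun e => Q.coeff e * h ^ e)
      (fun _ _ => Nat.zero_le _) hk)
    exact Nat.le_mul_of_pos_right _ (pow_pos hh k)
  · simp [notMem_support_iff.mp hk]

/-- digit `i` of `A` in base `2 ^ K`. -/
def dig (A K i : ℕ) : ℕ := Nat.mod (Nat.shiftRight A (Nat.mul K i)) (Nat.pow 2 K)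

def nmin (a b : ℕ) : ℕ := cond (Nat.ble a b) a b

def fin1 (p0 n0 a1 A2 H : ℕ) : Bool :=
  or (Nat.ble (Nat.add (Nat.add a1 (Nat.sub H A2)) n0) p0)
    (and (and (Nat.ble H A2) (Nat.ble n0 p0))
      (or (Nat.ble (Nat.mul a1 a1) (Nat.mul (Nat.mul 4 (Nat.sub p0 n0)) (Nat.sub A2 H)))
        (and (Nat.ble (Nat.mul 2 (Nat.sub A2 H)) a1)
          (Nat.ble (Nat.add a1 n0) (Nat.add p0 (Nat.sub A2 H))))))

def fin2 (K h H P N : ℕ) : Bool :=
  fin1 (dig P K 0) (dig N K 0)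
    (Nat.mul (Nat.add (Nat.sub (dig P K 1) (dig N K 1)) (Nat.sub (dig N K 1) (dig P K 1))) h)
    (Nat.add (Nat.add (dig P K 0) (dig N K 0)) (Nat.mul h (Nat.add (Nat.add (dig P K 1) (dig N K 1))
      (Nat.mul (Nat.mul 2 h) (Nat.add (dig P K 2) (Nat.mul h
        (Nat.add (nmin (dig P K 3) (dig N K 3)) (Nat.mul h
        (Nat.add (nmin (dig P K 4) (dig N K 4)) (Nat.mul h
        (Nat.add (nmin (dig P K 5) (dig N K 5)) (Nat.mul h
          (nmin (dig P K 6) (dig N K 6)))))))))))))) H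

/-- one piece `[c - h, c + h]`. -/
noncomputable def piece (K : ℕ) (lp ln : SP) (c h : ℕ) : Bool :=
  and (and (Nat.blt 0 h)
    (Nat.blt (Nat.add (ev1 (Nat.add h c) lp) (ev1 (Nat.add h c) ln)) (Nat.pow 2 K)))
    (fin2 K h (Nat.add (ev1 (Nat.add h c) lp) (ev1 (Nat.add h c) ln))
      (Nat.mod (ev1 (Nat.add (Nat.pow 2 K) c) lp) (Nat.pow 2 (Nat.mul K 7)))
      (Nat.mod (ev1 (Nat.add (Nat.pow 2 K) c) ln) (Nat.pow 2 (Nat.mul K 7))))

theorem dig_mod (A K i : ℕ) (hi : i < 7) :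
    dig (Nat.mod A (Nat.pow 2 (Nat.mul K 7))) K i = A / (2 ^ K) ^ i % 2 ^ K := by
  have e1 : (2 : ℕ) ^ (K * 7) = 2 ^ (K * i) * 2 ^ (K * (7 - i)) := by
    rw [← pow_add, ← mul_add]; congr 2; omega
  change (A % 2 ^ (K * 7)) >>> (K * i) % 2 ^ K = _
  rw [Nat.shiftRight_eq_div_pow, e1, Nat.mod_mul_right_div_self, ← pow_mul]
  refine Nat.mod_mod_of_dvd _ (pow_dvd_pow 2 ?_)
  exact Nat.le_mul_of_pos_right _ (by omega)

theorem nmin_eq (a b : ℕ) : nmin a b = min a b := by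
  unfold nmin
  cases h : Nat.ble a b
  · have : ¬ a ≤ b := fun h' => by simp [Nat.ble_eq_true_of_le h'] at h
    simp; omega
  · have := Nat.le_of_ble_eq_true h
    simp; omega

theorem fin1_sound {p0 n0 a1 A2 H : ℕ} (hf : fin1 p0 n0 a1 A2 H = true) {h t b : ℝ} (hh : 0 < h)
    (ht : |t| ≤ h) (hb : |b| * h ≤ a1) :
    0 ≤ h ^ 2 * ((p0 : ℝ) - n0) + h ^ 2 * b * t + ((A2 : ℝ) - H) * t ^ 2 := by
  have ht2 : t ^ 2 ≤ h ^ 2 := by rw [← sq_abs]; exact pow_le_pow_left₀ (abs_nonneg _) ht 2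
  have hbt : |b * t| ≤ a1 := by
    rw [abs_mul]; exact le_trans (mul_le_mul_of_nonneg_left ht (abs_nonneg _)) hb
  simp only [fin1, Bool.or_eq_true, Bool.and_eq_true, Nat.ble_eq] at hf
  rcases hf with hf | ⟨⟨h1, h2⟩, h3 | ⟨h3, h4⟩⟩
  · have h4 : ((a1 : ℝ) + ((H - A2 : ℕ) : ℝ)) + n0 ≤ p0 := by exact_mod_cast hf
    have h5 : (H : ℝ) - A2 ≤ ((H - A2 : ℕ) : ℝ) := by
      rcases le_total A2 H with h | h
      · rw [Nat.cast_sub h]
      · have : (H : ℝ) ≤ A2 := by exact_mod_cast h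
        have : (0 : ℝ) ≤ ((H - A2 : ℕ) : ℝ) := Nat.cast_nonneg _
        linarith
    have h6 : (0 : ℝ) ≤ ((H - A2 : ℕ) : ℝ) := Nat.cast_nonneg _
    have h7 := (abs_le.mp hbt).1
    have h8 : ((H : ℝ) - A2) * t ^ 2 ≤ ((H - A2 : ℕ) : ℝ) * h ^ 2 :=
      le_trans (mul_le_mul_of_nonneg_right h5 (sq_nonneg t)) (mul_le_mul_of_nonneg_left ht2 h6)
    have h9 : 0 ≤ h ^ 2 * ((p0 : ℝ) - n0 + b * t - ((H - A2 : ℕ) : ℝ)) :=
      mul_nonneg (sq_nonneg h) (by linarith)
    nlinarith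
  · have h4 : (a1 : ℝ) * a1 ≤ 4 * ((p0 : ℝ) - n0) * ((A2 : ℝ) - H) := by
      have : ((a1 * a1 : ℕ) : ℝ) ≤ ((4 * (p0 - n0) * (A2 - H) : ℕ) : ℝ) := by exact_mod_cast h3
      rw [Nat.cast_mul, Nat.cast_mul, Nat.cast_mul, Nat.cast_sub h1, Nat.cast_sub h2] at this
      exact_mod_cast this
    have h5 : (0 : ℝ) ≤ (A2 : ℝ) - H := by
      have : (H : ℝ) ≤ A2 := by exact_mod_cast h1
      linarith
    have h6 : (0 : ℝ) ≤ (p0 : ℝ) - n0 := by
      have : (n0 : ℝ) ≤ p0 := by exact_mod_cast h2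
      linarith
    set a := (p0 : ℝ) - n0
    set A := (A2 : ℝ) - H
    have h7 : (b * h) ^ 2 ≤ 4 * a * A := by
      have : |b * h| ≤ a1 := by rw [abs_mul, abs_of_pos hh]; exact hb
      have h8 := pow_le_pow_left₀ (abs_nonneg _) this 2
      rw [sq_abs] at h8
      nlinarith
    have h8 : (h ^ 2 * b * t) ^ 2 ≤ (h ^ 2 * a + A * t ^ 2) ^ 2 := by
      have e : (h ^ 2 * b * t) ^ 2 = (b * h) ^ 2 * (h ^ 2 * t ^ 2) := by ring
      have h9 : (b * h) ^ 2 * (h ^ 2 * t ^ 2) ≤ 4 * a * A * (h ^ 2 * t ^ 2) :=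
        mul_le_mul_of_nonneg_right h7 (by positivity)
      nlinarith [sq_nonneg (h ^ 2 * a - A * t ^ 2)]
    have h9 := abs_le_of_sq_le_sq' h8 (by positivity)
    linarith [h9.1]
  · have h5 : ((2 * (A2 - H) : ℕ) : ℝ) ≤ a1 := by exact_mod_cast h3
    have h6 : ((a1 + n0 : ℕ) : ℝ) ≤ ((p0 + (A2 - H) : ℕ) : ℝ) := by exact_mod_cast h4
    rw [Nat.cast_mul, Nat.cast_sub h1] at h5
    rw [Nat.cast_add, Nat.cast_add, Nat.cast_sub h1] at h6
    have h7 : (0 : ℝ) ≤ (A2 : ℝ) - H := by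
      have : (H : ℝ) ≤ A2 := by exact_mod_cast h1
      linarith
    set A := (A2 : ℝ) - H
    have h8 : -(|b| * |t|) ≤ b * t := by rw [← abs_mul]; exact neg_abs_le _
    have h9 : h * (|b| * h) * |t| ≤ h * a1 * |t| := by gcongr
    have h10 : A * (h + |t|) ≤ h * a1 := by push_cast at h5; nlinarith
    have h11 := mul_le_mul_of_nonneg_right h10 (sub_nonneg.mpr ht)
    have h12 := mul_le_mul_of_nonneg_left h8 (sq_nonneg h)
    have h13 : 0 ≤ h ^ 2 * ((p0 : ℝ) + A - (a1 + n0)) := mul_nonneg (sq_nonneg h) (by linarith)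
    rw [← sq_abs t]
    nlinarith

theorem term_bd (p n : ℕ) (m : ℝ) (hm : m ≤ p) (hm' : m ≤ n) {h t : ℝ} (ht : |t| ≤ h) (i : ℕ) :
    -(((p : ℝ) + n - 2 * m) * h ^ (i + 2) * t ^ 2) ≤ h ^ 2 * (((p : ℝ) - n) * t ^ (i + 2)) := by
  have hh : 0 ≤ h := le_trans (abs_nonneg _) ht
  have h1 : |t ^ i| ≤ h ^ i := by rw [abs_pow]; exact pow_le_pow_left₀ (abs_nonneg _) ht i
  have h2 : |(p : ℝ) - n| ≤ p + n - 2 * m := abs_le.mpr ⟨by linarith, by linarith⟩
  have h3 : |((p : ℝ) - n) * t ^ i| ≤ (p + n - 2 * m) * h ^ i := by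
    rw [abs_mul]; exact mul_le_mul h2 h1 (abs_nonneg _) (by linarith)
  have h4 := mul_le_mul_of_nonneg_left (abs_le.mp h3).1 (show 0 ≤ h ^ 2 * t ^ 2 by positivity)
  calc _ = h ^ 2 * t ^ 2 * -((p + n - 2 * m) * h ^ i) := by ring
    _ ≤ _ := h4
    _ = _ := by ring

theorem piece_sound {K : ℕ} {lp ln : SP} {c h : ℕ} (hp : piece K lp ln c h = true) {x : ℝ}
    (hx : |x - c| ≤ h) : evr x ln ≤ evr x lp := by
  simp only [piece, Bool.and_eq_true, Nat.blt_eq] at hp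
  obtain ⟨⟨hh, hK⟩, hf⟩ := hp
  rw [← tay_eval, ← tay_eval] at hK hf
  rw [← tay_eval, ← tay_eval] at hf
  set P := tay c lp
  set N := tay c ln
  have hK' : P.eval h + N.eval h < 2 ^ K := hK
  have hP : ∀ k, P.coeff k < 2 ^ K := fun k => by have := coeff_le_eval P hh k; omega
  have hN : ∀ k, N.coeff k < 2 ^ K := fun k => by have := coeff_le_eval N hh k; omega
  have dP : ∀ i, i < 7 → dig (Nat.mod (P.eval (Nat.pow 2 K)) (Nat.pow 2 (Nat.mul K 7))) K i =
      P.coeff i := fun i hi => by rw [dig_mod _ _ _ hi]; exact digit_eval _ _ _ hP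
  have dN : ∀ i, i < 7 → dig (Nat.mod (N.eval (Nat.pow 2 K)) (Nat.pow 2 (Nat.mul K 7))) K i =
      N.coeff i := fun i hi => by rw [dig_mod _ _ _ hi]; exact digit_eval _ _ _ hN
  unfold fin2 at hf
  rw [dP 0 (by omega), dP 1 (by omega), dP 2 (by omega), dP 3 (by omega), dP 4 (by omega),
    dP 5 (by omega), dP 6 (by omega), dN 0 (by omega), dN 1 (by omega),
    dN 3 (by omega), dN 4 (by omega), dN 5 (by omega), dN 6 (by omega)] at hf
  simp only [nmin_eq] at hf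
  obtain ⟨t, rfl⟩ : ∃ t, x = t + c := ⟨x - c, by ring⟩
  rw [add_sub_cancel_right] at hx
  have hh' : (0 : ℝ) < h := by exact_mod_cast hh
  have key := fin1_sound hf (b := (P.coeff 1 : ℝ) - N.coeff 1) hh' hx (by
    change _ ≤ (((P.coeff 1 - N.coeff 1 + (N.coeff 1 - P.coeff 1)) * h : ℕ) : ℝ)
    rw [Nat.cast_mul]
    refine mul_le_mul_of_nonneg_right ?_ hh'.le
    rcases le_total (P.coeff 1) (N.coeff 1) with h' | h'
    · have : (P.coeff 1 : ℝ) ≤ N.coeff 1 := by exact_mod_cast h'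
      rw [Nat.sub_eq_zero_of_le h', zero_add, Nat.cast_sub h', abs_sub_comm,
        abs_of_nonneg (by linarith)]
    · have : (N.coeff 1 : ℝ) ≤ P.coeff 1 := by exact_mod_cast h'
      rw [Nat.sub_eq_zero_of_le h', add_zero, Nat.cast_sub h', abs_of_nonneg (by linarith)])
  set n := P.natDegree + N.natDegree + 1
  have eP : ∀ y : ℝ, P.eval₂ (Nat.castRingHom ℝ) y =
      ∑ i ∈ range (n + 7), (P.coeff i : ℝ) * y ^ i := fun y => by
    rw [eval₂_eq_sum_range' (n := n + 7) _ (by omega)]; simp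
  have eN : ∀ y : ℝ, N.eval₂ (Nat.castRingHom ℝ) y =
      ∑ i ∈ range (n + 7), (N.coeff i : ℝ) * y ^ i := fun y => by
    rw [eval₂_eq_sum_range' (n := n + 7) _ (by omega)]; simp
  have eH : ((Nat.add (P.eval h) (N.eval h) : ℕ) : ℝ) =
      ∑ i ∈ range (n + 7), ((P.coeff i : ℝ) + N.coeff i) * (h : ℝ) ^ i := by
    change ((P.eval h + N.eval h : ℕ) : ℝ) = _
    rw [eval_eq_sum_range' (n := n + 7) (by omega), eval_eq_sum_range' (n := n + 7) (by omega)]
    push_cast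
    rw [← Finset.sum_add_distrib]
    exact Finset.sum_congr rfl fun i _ => by ring
  rw [eH] at key
  rw [← tay_real, ← tay_real, eP, eN, ← sub_nonneg, ← Finset.sum_sub_distrib]
  refine le_of_mul_le_mul_left (a := (h : ℝ) ^ 2) ?_ (by positivity)
  rw [mul_zero]
  refine le_trans key ?_
  have t3 := term_bd (P.coeff 3) (N.coeff 3) (min (P.coeff 3) (N.coeff 3) : ℕ)
    (by exact_mod_cast min_le_left _ _) (by exact_mod_cast min_le_right _ _) hx 1
  have t4 := term_bd (P.coeff 4) (N.coeff 4) (min (P.coeff 4) (N.coeff 4) : ℕ)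
    (by exact_mod_cast min_le_left _ _) (by exact_mod_cast min_le_right _ _) hx 2
  have t5 := term_bd (P.coeff 5) (N.coeff 5) (min (P.coeff 5) (N.coeff 5) : ℕ)
    (by exact_mod_cast min_le_left _ _) (by exact_mod_cast min_le_right _ _) hx 3
  have t6 := term_bd (P.coeff 6) (N.coeff 6) (min (P.coeff 6) (N.coeff 6) : ℕ)
    (by exact_mod_cast min_le_left _ _) (by exact_mod_cast min_le_right _ _) hx 4
  have tt : -((∑ i ∈ range n, ((P.coeff (i + 7) : ℝ) + N.coeff (i + 7)) * (h : ℝ) ^ (i + 7)) *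
      t ^ 2) ≤ (h : ℝ) ^ 2 * ∑ i ∈ range n,
        ((P.coeff (i + 7) : ℝ) * t ^ (i + 7) - N.coeff (i + 7) * t ^ (i + 7)) := by
    rw [Finset.sum_mul, Finset.mul_sum, ← Finset.sum_neg_distrib]
    refine Finset.sum_le_sum fun i _ => ?_
    have := term_bd (P.coeff (i + 7)) (N.coeff (i + 7)) 0 (Nat.cast_nonneg _) (Nat.cast_nonneg _)
      hx (i + 5)
    rw [show i + 5 + 2 = i + 7 by ring] at this
    linarith
  simp only [Finset.sum_range_succ', Nat.add_eq, Nat.mul_eq, zero_add, Nat.reduceAdd,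
    add_assoc] at tt ⊢
  push_cast
  push_cast at t3 t4 t5 t6
  nlinarith [t3, t4, t5, t6, tt]

/-- cover `[cur, hi]` by consecutive pieces. -/
noncomputable def cover (K : ℕ) (lp ln : SP) (hi : ℕ) (hs : List ℕ) : ℕ → Bool :=
  List.rec (motive := fun _ => ℕ → Bool) (fun cur => Nat.ble hi cur)
    (fun h _ ih cur => and (piece K lp ln (Nat.add cur h) h)
      (ih (Nat.add (Nat.add cur h) h))) hs

theorem cover_sound {K : ℕ} {lp ln : SP} {hi : ℕ} {x : ℝ} (hx : x ≤ hi) (hs : List ℕ) :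
    ∀ cur : ℕ, cover K lp ln hi hs cur = true → (cur : ℝ) ≤ x → (hs ≠ [] ∨ (cur : ℝ) < x) →
      evr x ln ≤ evr x lp := by
  induction hs with
  | nil =>
    intro cur h _ h2
    have : (hi : ℝ) ≤ cur := by exact_mod_cast Nat.le_of_ble_eq_true h
    rcases h2 with h2 | h2
    · exact absurd rfl h2
    · linarith
  | cons h hs ih =>
    intro cur hc h1 _
    have hc' : (piece K lp ln (cur + h) h && cover K lp ln hi hs (cur + h + h)) = true := hc
    rw [Bool.and_eq_true] at hc'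
    rcases le_or_gt x (cur + h + h) with h3 | h3
    · refine piece_sound hc'.1 (abs_le.mpr ⟨?_, ?_⟩) <;> push_cast <;> linarith
    · exact ih _ hc'.2 (by push_cast; linarith) (Or.inr (by push_cast; linarith))

theorem evr_nonneg {x : ℝ} (hx : 0 ≤ x) (l : SP) : 0 ≤ evr x l := by
  induction l with
  | nil => simp
  | cons p l ih => rw [evr_cons]; positivity

/-- rescale: exponent `e - e0`, coefficient times `2 ^ (25 (n - e))`. -/
noncomputable def scl (e0 n : ℕ) (l : SP) : SP :=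
  List.rec (motive := fun _ => SP) []
    (fun p _ ih => (Nat.sub p.1 e0, Nat.shiftLeft p.2 (Nat.mul 25 (Nat.sub n p.1))) :: ih) l

noncomputable def rng (e0 n : ℕ) (l : SP) : Bool :=
  List.rec (motive := fun _ => Bool) true
    (fun p _ ih => and (and (Nat.ble e0 p.1) (Nat.ble p.1 n)) ih) l

theorem scl_evr {e0 n : ℕ} (x : ℝ) (l : SP) (h : rng e0 n l = true) :
    evr (x * 2 ^ 25) (scl e0 n l) * x ^ e0 * (2 ^ 25) ^ e0 = (2 ^ 25) ^ n * evr x l := by
  induction l with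
  | nil => simp [scl]
  | cons p l ih =>
    have h' : ((Nat.ble e0 p.1 && Nat.ble p.1 n) && rng e0 n l) = true := h
    simp only [Bool.and_eq_true, Nat.ble_eq] at h'
    have e : scl e0 n (p :: l) = (p.1 - e0, p.2 <<< (25 * (n - p.1))) :: scl e0 n l := rfl
    rw [e, evr_cons, evr_cons, add_mul, add_mul, ih h'.2, mul_add]
    congr 1
    obtain ⟨a, ha⟩ := Nat.exists_eq_add_of_le h'.1.1
    obtain ⟨b, hb⟩ := Nat.exists_eq_add_of_le h'.1.2
    simp only [Nat.shiftLeft_eq]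
    rw [hb, ha, Nat.add_sub_cancel_left, Nat.add_sub_cancel_left, pow_mul]
    push_cast
    ring

/-- check `ln ≤ lp` on `[lo, hi] / 2 ^ 24`. -/
noncomputable def posChk (lp ln : SP) (lo hi e0 n K : ℕ) (hs : List ℕ) : Bool :=
  List.rec (motive := fun _ => Bool) true (fun _ _ _ =>
    and (and (rng e0 n lp) (rng e0 n ln))
      (and (List.rec (motive := fun _ => Bool) false (fun _ _ _ => true) hs)
        (cover K (scl e0 n lp) (scl e0 n ln) (Nat.mul 2 hi) hs (Nat.mul 2 lo)))) ln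

theorem posChk_sound {lp ln : SP} {lo hi e0 n K : ℕ} {hs : List ℕ}
    (h : posChk lp ln lo hi e0 n K hs = true) {x : ℝ} (h1 : (lo : ℝ) ≤ x * 2 ^ 24)
    (h2 : x * 2 ^ 24 ≤ hi) : evr x ln ≤ evr x lp := by
  have hx : 0 ≤ x := by
    have : (0 : ℝ) ≤ x * 2 ^ 24 := le_trans (Nat.cast_nonneg _) h1
    exact nonneg_of_mul_nonneg_left this (by positivity)
  cases ln with
  | nil => exact evr_nonneg hx _
  | cons p ln =>
    have h' : ((rng e0 n lp && rng e0 n (p :: ln)) &&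
      ((List.rec (motive := fun _ => Bool) false (fun _ _ _ => true) hs) &&
        cover K (scl e0 n lp) (scl e0 n (p :: ln)) (2 * hi) hs (2 * lo))) = true := h
    simp only [Bool.and_eq_true] at h'
    obtain ⟨⟨r1, r2⟩, r3, r4⟩ := h'
    have := cover_sound (x := x * 2 ^ 25) (by push_cast; linarith) hs _ r4
      (by push_cast; linarith) (Or.inl (by rintro rfl; simp at r3))
    have h3 := mul_le_mul_of_nonneg_right (mul_le_mul_of_nonneg_right this (pow_nonneg hx e0))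
      (show (0 : ℝ) ≤ (2 ^ 25) ^ e0 by positivity)
    rw [scl_evr x _ r1, scl_evr x _ r2] at h3
    exact le_of_mul_le_mul_left h3 (by positivity)

end Vale.Agent.P348
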