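import Vale.Agent.P348.CCore

/-! Certificate steps on one line. -/

namespace Vale.Agent.P348

open Finset

structure Stp where
  k : ℕ
  a : ℕ
  x : ℕ
  i : ℕ
  r : ℕ
  hs : List ℕ
  ct : Ct

def g0 : Tg := ⟨2, 0, 0, true⟩

def own (σ : Bool) (c : ℕ) : ℕ := cond σ (Nat.add c 5) c

theorem Fv_own (σ : Bool) (X : Fin 5 → ℝ) (c : Fin 5) : Fv σ X (own σ c) = X c := by
  have : (c : ℕ) < 5 := c.2
  have h1 : f5 c = c := Fin.ext (Nat.mod_eq_of_lt this)
  have h2 : f5 (c + 5) = c := Fin.ext (by simp [f5, Nat.mod_eq_of_lt this])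
  cases σ
  · simp [Fv, own, h1]
  · simp [Fv, own, h2]

/-- crude bound from the row `r` of point `i`. -/
def crude (σ : Bool) (pts : Pts) (a i r : ℕ) (f : ℕ → ℕ → ℕ → Bool) : Bool :=
  and (and (Nat.beq ((pts.getD i (0, [])).2.getD r (10, false, 0, 0)).1 (own σ (Nat.mod a 5)))
      ((pts.getD i (0, [])).2.getD r (10, false, 0, 0)).2.1)
    (and (cond σ (Nat.beq (Nat.mod (pts.getD i (0, [])).1 2) 0) true)
      (f (pts.getD i (0, [])).1 ((pts.getD i (0, [])).2.getD r (10, false, 0, 0)).2.2.1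
        ((pts.getD i (0, [])).2.getD r (10, false, 0, 0)).2.2.2))

theorem getD_mem {α : Type} (l : List α) (i : ℕ) (d : α) : l.getD i d = d ∨ l.getD i d ∈ l := by
  rcases lt_or_ge i l.length with h | h
  · right; rw [List.getD_eq_getElem _ _ h]; exact List.getElem_mem h
  · left; exact List.getD_eq_default _ _ h

theorem Ln.le_T {σ : Bool} (l : Ln σ) {a : ℕ} (ha : a < 10) : 0 ≤ l.U a ∧ l.U a ≤ l.T a := by
  rcases lt_or_ge a 5 with h | h
  · exact ⟨(l.at' ⟨a, h⟩).u0, (l.at' ⟨a, h⟩).ut⟩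
  · obtain ⟨b, rfl⟩ : ∃ b, a = b + 5 := ⟨a - 5, by omega⟩
    exact ⟨(l.at' ⟨b, by omega⟩).u0', (l.at' ⟨b, by omega⟩).ut'⟩

theorem crude_sound {σ : Bool} (l : Ln σ) {pts : Pts} (hp : PtsH σ l.S pts) {a i r : ℕ}
    (ha : a < 10) {f : ℕ → ℕ → ℕ → Bool} (h : crude σ pts a i r f = true) :
    ∃ e bp bn, 2 ≤ e ∧ f e bp bn = true ∧
      2 ^ 40 * (l.T a ^ e + l.U a ^ e) ≤ (bp : ℝ) - bn := by
  simp only [crude, Bool.and_eq_true, Nat.beq_eq] at h
  obtain ⟨⟨h1, h2⟩, h3, h4⟩ := h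
  set p := pts.getD i (0, [])
  set q := p.2.getD r (10, false, 0, 0)
  have hq : q ∈ p.2 := (getD_mem p.2 r _).resolve_left fun h => by
    change q = _ at h
    rw [h] at h2; simp at h2
  have hpm : p ∈ pts := (getD_mem pts i _).resolve_left fun h => by
    change p = _ at h
    rw [h] at hq; simp at hq
  obtain ⟨e2, hr⟩ := hp p hpm
  have hr := (hr q hq).2
  have hc : a % 5 < 5 := Nat.mod_lt _ (by decide)
  have := Fv_own σ (fun c => l.S c p.1) ⟨a % 5, hc⟩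
  change q.1 = own σ (a % 5) at h1
  rw [h2, h1, this] at hr
  have ok : σ = false ∨ Even p.1 := by
    cases σ
    · exact Or.inl rfl
    · exact Or.inr (Nat.even_iff.mpr (Nat.eq_of_beq_eq_true h3))
  have hA := l.at' ⟨a % 5, hc⟩
  have h5 := hA.pow_le e2 ok
  refine ⟨p.1, _, _, e2, h4, le_trans ?_ hr⟩
  simp only [sgn, cond_true, Int.cast_one, one_mul]
  refine mul_le_mul_of_nonneg_left (le_trans ?_ h5) (by positivity)
  have p1 := pow_nonneg hA.u0 p.1
  have p2 := pow_nonneg (hA.u0.trans hA.ut) p.1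
  have p3 := pow_nonneg hA.u0' p.1
  have p4 := pow_nonneg (hA.u0'.trans hA.ut') p.1
  rcases lt_or_ge a 5 with h | h
  · simp only [Nat.mod_eq_of_lt h] at p3 p4 ⊢; linarith
  · have : a % 5 + 5 = a := by omega
    simp only [this] at p1 p2 ⊢; linarith

def fH (x e bp bn : ℕ) : Bool :=
  Nat.ble (Nat.shiftLeft bp (Nat.mul 24 e))
    (Nat.add (Nat.shiftLeft bn (Nat.mul 24 e)) (Nat.shiftLeft (Nat.pow x e) 40))

def fY (x e bp bn : ℕ) : Bool :=
  Nat.blt (Nat.shiftLeft bp (Nat.mul 24 e))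
    (Nat.add (Nat.shiftLeft bn (Nat.mul 24 e)) (Nat.shiftLeft (Nat.pow x e) 41))

theorem fH_sound {x e bp bn : ℕ} (h : fH x e bp bn = true) (he : 2 ≤ e) {t u : ℝ} (hu : 0 ≤ u)
    (h1 : 2 ^ 40 * (t ^ e + u ^ e) ≤ (bp : ℝ) - bn) : t * 2 ^ 24 ≤ x := by
  have h2 : bp <<< (24 * e) ≤ bn <<< (24 * e) + (x ^ e) <<< 40 := Nat.le_of_ble_eq_true h
  simp only [Nat.shiftLeft_eq, pow_mul] at h2
  have h3 : (bp : ℝ) * (2 ^ 24) ^ e ≤ bn * (2 ^ 24) ^ e + x ^ e * 2 ^ 40 := by exact_mod_cast h2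
  refine le_of_pow_le_pow_left₀ (n := e) (by omega) (Nat.cast_nonneg _) ?_
  have h4 := mul_le_mul_of_nonneg_right h1 (show (0 : ℝ) ≤ (2 ^ 24) ^ e by positivity)
  have h5 : 0 ≤ u ^ e * (2 ^ 24) ^ e := by positivity
  rw [mul_pow]
  nlinarith

theorem fY_sound {x e bp bn : ℕ} (h : fY x e bp bn = true) {t u : ℝ} (hu : 0 ≤ u) (ht : u ≤ t)
    (h1 : 2 ^ 40 * (t ^ e + u ^ e) ≤ (bp : ℝ) - bn) : u * 2 ^ 24 < x := by
  have h2 : bp <<< (24 * e) < bn <<< (24 * e) + (x ^ e) <<< 41 := by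
    have : bp <<< (24 * e) + 1 ≤ bn <<< (24 * e) + (x ^ e) <<< 41 := Nat.le_of_ble_eq_true h
    omega
  simp only [Nat.shiftLeft_eq, pow_mul] at h2
  have h3 : (bp : ℝ) * (2 ^ 24) ^ e < bn * (2 ^ 24) ^ e + x ^ e * 2 ^ 41 := by exact_mod_cast h2
  refine lt_of_pow_lt_pow_left₀ e (Nat.cast_nonneg _) ?_
  have h4 := mul_le_mul_of_nonneg_right h1 (show (0 : ℝ) ≤ (2 ^ 24) ^ e by positivity)
  have h5 := mul_le_mul_of_nonneg_right (pow_le_pow_left₀ hu ht e)
    (show (0 : ℝ) ≤ (2 ^ 24) ^ e by positivity)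
  rw [mul_pow]
  generalize ((2 : ℝ) ^ 24) ^ e = Z at *
  generalize u ^ e = U at *
  generalize t ^ e = T at *
  generalize (x : ℝ) ^ e = X at *
  linarith

noncomputable def exT (σ : Bool) (pts : Pts) (cs : Caps) (s : Stp) (q : ℕ × ℕ × ℕ) : Bool :=
  and (core σ pts (cs.set s.a q) s.ct g0 0 []) (Nat.blt (dS σ true pts s.ct) (dS σ false pts s.ct))

noncomputable def exU (σ : Bool) (pts : Pts) (cs : Caps) (s : Stp) : Bool :=
  and (and (core σ pts cs s.ct g0 0 [])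
    (Nat.blt (dS σ true pts s.ct) (Nat.add (dS σ false pts s.ct) s.i)))
    (posChk (side false (Nat.ble 5 s.a) (kl σ pts s.ct g0 (Nat.mod s.a 5)))
      ((0, s.i) :: side true (Nat.blt s.a 5) (kl σ pts s.ct g0 (Nat.mod s.a 5)))
      s.x (cp cs s.a).2.2 0 s.ct.n s.ct.K s.hs)

def vOK (σ : Bool) (cs : Caps) : Bool :=
  and (Nat.blt (cp cs 1).2.1 16777216)
    (cond σ (and (Nat.blt (cp cs 5).2.1 16777216) (Nat.blt (cp cs 6).2.1 16777216)) true)

noncomputable def stepOK (σ v : Bool) (pts : Pts) (cs : Caps) (s : Stp) : Bool :=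
  cond (Nat.beq s.k 0) (exT σ pts cs s (s.x, (cp cs s.a).2.1, (cp cs s.a).2.2))
  (cond (Nat.beq s.k 1) (exT σ pts cs s ((cp cs s.a).1, s.x, (cp cs s.a).2.2))
  (cond (Nat.beq s.k 2) (exU σ pts cs s)
  (cond (Nat.beq s.k 3) (crude σ pts s.a s.i s.r (fH s.x))
  (cond (Nat.beq s.k 4) (crude σ pts s.a s.i s.r (fY s.x))
  (cond (Nat.beq s.k 5) (Nat.blt (cp cs s.a).2.1 s.x)
  (and (and v (vOK σ cs)) (and (Nat.beq s.a 0) (Nat.ble s.x 16777216))))))))

def stepQ (cs : Caps) (s : Stp) : ℕ × ℕ × ℕ :=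
  cond (or (Nat.beq s.k 0) (Nat.beq s.k 3)) ((cp cs s.a).1, s.x, (cp cs s.a).2.2)
  (cond (or (Nat.beq s.k 1) (Nat.ble 6 s.k)) (s.x, (cp cs s.a).2.1, (cp cs s.a).2.2)
    ((cp cs s.a).1, (cp cs s.a).2.1, s.x))

def VarH {σ : Bool} (l : Ln σ) : Prop :=
  1 ≤ l.T 0 ∨ 1 ≤ l.T 1 ∨ (σ = true ∧ (1 ≤ l.T 5 ∨ 1 ≤ l.T 6))

theorem capH_set {σ : Bool} {l : Ln σ} {cs : Caps} (hc : CapH l cs) (a : ℕ) (q : ℕ × ℕ × ℕ)
    (h : (q.1 : ℝ) ≤ l.T a * 2 ^ 24 ∧ l.T a * 2 ^ 24 ≤ q.2.1 ∧ l.U a * 2 ^ 24 < q.2.2) :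
    CapH l (cs.set a q) := by
  intro b hb
  have := hc b hb
  unfold cp at this ⊢
  rw [List.getD_eq_getElem?_getD] at this ⊢
  rw [List.getElem?_set]
  split_ifs with h1 h2
  · subst h1; simpa using h
  · subst h1
    rwa [List.getElem?_eq_none (by omega)] at this
  · exact this

theorem exT_sound {σ : Bool} (l : Ln σ) {pts : Pts} (hp : PtsH σ l.S pts) {cs : Caps}
    (hc : CapH l cs) {s : Stp} {q : ℕ × ℕ × ℕ} (h : exT σ pts cs s q = true)
    (hq : (q.1 : ℝ) ≤ l.T s.a * 2 ^ 24 ∧ l.T s.a * 2 ^ 24 ≤ q.2.1 ∧ l.U s.a * 2 ^ 24 < q.2.2) :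
    False := by
  simp only [exT, Bool.and_eq_true, Nat.blt_eq] at h
  obtain ⟨h1, h2⟩ := core_sound l hp (capH_set hc _ _ hq) (by omega) h.1 0 (by omega)
  have : (dS σ true pts s.ct : ℝ) < dS σ false pts s.ct := by exact_mod_cast h.2
  simp only [g0, Nat.cast_zero, zero_mul, evr_nil] at h1 h2
  linarith

theorem exU_sound {σ : Bool} (l : Ln σ) {pts : Pts} (hp : PtsH σ l.S pts) {cs : Caps}
    (hc : CapH l cs) {s : Stp} (ha : s.a < cond σ 10 5) (h : exU σ pts cs s = true) :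
    l.U s.a * 2 ^ 24 < s.x := by
  simp only [exU, Bool.and_eq_true, Nat.blt_eq] at h
  have ha' : s.a < 10 := by cases σ <;> (simp at ha; omega)
  obtain ⟨h1, h2⟩ := core_sound l hp hc (by omega) h.1.1 s.a ha'
  have h3 : (dS σ true pts s.ct : ℝ) < dS σ false pts s.ct + s.i := by exact_mod_cast h.1.2
  by_contra hh
  have h4 := posChk_sound h.2 (not_lt.mp hh) (hc s.a ha).2.2.le
  simp only [evr_cons, pow_zero, mul_one] at h4
  have h5 : Qv (kl σ pts s.ct g0) s.a (l.U s.a) =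
      evr (l.U s.a) (side false (Nat.ble 5 s.a) (kl σ pts s.ct g0 (Nat.mod s.a 5))) -
      evr (l.U s.a) (side true (Nat.blt s.a 5) (kl σ pts s.ct g0 (Nat.mod s.a 5))) := by
    unfold Qv
    rcases lt_or_ge s.a 5 with h | h
    · rw [show Nat.ble 5 s.a = false from Bool.eq_false_iff.mpr fun h' =>
        absurd (Nat.le_of_ble_eq_true h') (by omega), Nat.blt_eq.mpr h, side_pos, if_pos h]
      rfl
    · rw [show Nat.blt s.a 5 = false from Bool.eq_false_iff.mpr fun h' =>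
        absurd (Nat.blt_eq.mp h') (by omega), Nat.ble_eq_true_of_le h, side_neg,
        if_neg (by omega)]
      rfl
  simp only [g0, Nat.cast_zero, zero_mul, evr_nil] at h2 h4 h5
  linarith

theorem step_sound {σ v : Bool} (l : Ln σ) (hv : v = true → VarH l) {pts : Pts}
    (hp : PtsH σ l.S pts) {cs : Caps} (hc : CapH l cs) {s : Stp} (ha : s.a < cond σ 10 5)
    (h : stepOK σ v pts cs s = true) : CapH l (cs.set s.a (stepQ cs s)) := by
  refine capH_set hc _ _ ?_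
  obtain ⟨c1, c2, c3⟩ := hc s.a ha
  have ha' : s.a < 10 := by cases σ <;> (simp at ha; omega)
  obtain ⟨u0, ut⟩ := l.le_T ha'
  unfold stepOK at h
  unfold stepQ
  rcases hk : s.k with _ | _ | _ | _ | _ | _ | k <;> rw [hk] at h
  · refine ⟨c1, ?_, c3⟩
    by_contra hh
    exact exT_sound l hp hc h ⟨(not_le.mp hh).le, c2, c3⟩
  · refine ⟨?_, c2, c3⟩
    by_contra hh
    exact exT_sound l hp hc h ⟨c1, (not_le.mp hh).le, c3⟩
  · exact ⟨c1, c2, exU_sound l hp hc ha h⟩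
  · obtain ⟨e, bp, bn, h1, h2, h3⟩ := crude_sound l hp ha' h
    exact ⟨c1, fH_sound h2 h1 u0 h3, c3⟩
  · obtain ⟨e, bp, bn, h1, h2, h3⟩ := crude_sound l hp ha' h
    exact ⟨c1, c2, fY_sound h2 u0 ut h3⟩
  · have h' : (cp cs s.a).2.1 < s.x := Nat.blt_eq.mp h
    have h'' : ((cp cs s.a).2.1 : ℝ) < s.x := by exact_mod_cast h'
    refine ⟨c1, c2, ?_⟩
    change l.U s.a * 2 ^ 24 < s.x
    nlinarith
  · have h' : ((v && vOK σ cs) && (Nat.beq s.a 0 && Nat.ble s.x 16777216)) = true := h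
    simp only [vOK, Bool.and_eq_true, Nat.beq_eq, Nat.ble_eq, Nat.blt_eq] at h'
    obtain ⟨⟨v1, v2, v3⟩, v4, v5⟩ := h'
    refine ⟨?_, c2, c3⟩
    change (s.x : ℝ) ≤ _
    have v5' : (s.x : ℝ) ≤ 16777216 := by exact_mod_cast v5
    have lt1 : ∀ b, b < cond σ 10 5 → (cp cs b).2.1 < 16777216 → ¬ 1 ≤ l.T b := fun b hb h1 h2 => by
      have h3 := (hc b hb).2.1
      have h4 : ((cp cs b).2.1 : ℝ) < 16777216 := by exact_mod_cast h1
      nlinarith
    rw [v4]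
    rcases hv v1 with h0 | h0 | ⟨rfl, h0⟩
    · nlinarith
    · exact absurd h0 (lt1 1 (by cases σ <;> simp) v2)
    · simp only [cond_true, Bool.and_eq_true, Nat.blt_eq] at v3
      rcases h0 with h0 | h0
      · exact absurd h0 (lt1 5 (by simp) v3.1)
      · exact absurd h0 (lt1 6 (by simp) v3.2)

noncomputable def steps (σ v : Bool) (pts : Pts) (fin : Caps) (ss : List Stp) : Caps → Bool :=
  List.rec (motive := fun _ => Caps → Bool) (fun cs => decide (cs = fin))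
    (fun s _ ih cs => and (and (Nat.blt s.a (cond σ 10 5)) (stepOK σ v pts cs s))
      (ih (cs.set s.a (stepQ cs s)))) ss

theorem steps_sound {σ : Bool} (v : Bool) (l : Ln σ) (hv : v = true → VarH l) {pts : Pts}
    (hp : PtsH σ l.S pts) (fin : Caps) (ss : List Stp) :
    ∀ {cs : Caps}, CapH l cs → steps σ v pts fin ss cs = true → CapH l fin := by
  induction ss with
  | nil =>
    intro cs hc h
    have : cs = fin := of_decide_eq_true h
    exact this ▸ hc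
  | cons s ss ih =>
    intro cs hc h
    have h' : ((Nat.blt s.a (cond σ 10 5) && stepOK σ v pts cs s) &&
      steps σ v pts fin ss (cs.set s.a (stepQ cs s))) = true := h
    simp only [Bool.and_eq_true, Nat.blt_eq] at h'
    exact ih (step_sound l hv hp hc h'.1.1 h'.1.2) h'.2

def initChk (σ : Bool) (pts : Pts) (cs : Caps) (i : ℕ) (rs : List ℕ) : Bool :=
  (List.range (cond σ 10 5)).all fun a =>
    and (and (Nat.beq (cp cs a).1 0) (Nat.blt (cp cs a).2.1 (cp cs a).2.2))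
      (crude σ pts a i (rs.getD (Nat.mod a 5) 0) (fH (cp cs a).2.1))

theorem init_sound {σ : Bool} (l : Ln σ) {pts : Pts} (hp : PtsH σ l.S pts) (cs : Caps) (i : ℕ)
    (rs : List ℕ) (h : initChk σ pts cs i rs = true) : CapH l cs := by
  intro a ha
  have ha' : a < 10 := by cases σ <;> (simp at ha; omega)
  simp only [initChk, List.all_eq_true, List.mem_range, Bool.and_eq_true, Nat.beq_eq,
    Nat.blt_eq] at h
  obtain ⟨⟨h1, h2⟩, h3⟩ := h a ha
  obtain ⟨u0, ut⟩ := l.le_T ha'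
  obtain ⟨e, bp, bn, h4, h5, h6⟩ := crude_sound l hp ha' h3
  have h7 := fH_sound h5 h4 u0 h6
  have h8 : ((cp cs a).2.1 : ℝ) < (cp cs a).2.2 := by exact_mod_cast h2
  refine ⟨by rw [h1, Nat.cast_zero]; have := u0.trans ut; positivity, h7, by nlinarith⟩

noncomputable def rowsChk (σ : Bool) (pts : Pts) (cs : Caps) (e : ℕ) (rows : List Row) :
    List (ℕ × Ct) → Bool :=
  List.rec (motive := fun _ => List (ℕ × Ct) → Bool) (fun _ => true)
    (fun r _ ih cts => List.rec (motive := fun _ => Bool) false (fun c cts' _ =>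
      and (and (core σ pts cs c.2 ⟨e, c.1, r.1, r.2.1⟩ 0 []) (and (Nat.blt 0 c.1)
        (Nat.ble (Nat.add (dS σ true pts c.2) (Nat.mul c.1 r.2.2.2))
          (Nat.add (dS σ false pts c.2) (Nat.mul c.1 r.2.2.1))))) (ih cts')) cts) rows

theorem rows_sound {σ : Bool} (l : Ln σ) {pts : Pts} (hp : PtsH σ l.S pts) {cs : Caps}
    (hc : CapH l cs) (e : ℕ) (rows : List Row) : ∀ cts : List (ℕ × Ct),
    rowsChk σ pts cs e rows cts = true → ∀ r ∈ rows, RowH (Fv σ fun c => l.S c e) r := by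
  induction rows with
  | nil => simp
  | cons r rows ih =>
    intro cts h
    cases cts with
    | nil => exact absurd h Bool.false_ne_true
    | cons c cts =>
      have h' : ((core σ pts cs c.2 ⟨e, c.1, r.1, r.2.1⟩ 0 [] && (Nat.blt 0 c.1 &&
        Nat.ble (dS σ true pts c.2 + c.1 * r.2.2.2) (dS σ false pts c.2 + c.1 * r.2.2.1))) &&
        rowsChk σ pts cs e rows cts) = true := h
      simp only [Bool.and_eq_true, Nat.ble_eq, Nat.blt_eq] at h'
      obtain ⟨⟨h1, h2, h3⟩, h4⟩ := h'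
      intro r' hr'
      rcases List.mem_cons.mp hr' with rfl | hr'
      · obtain ⟨k1, k2⟩ := core_sound l hp hc (by omega) h1 0 (by omega)
        simp only [core, Bool.and_eq_true, Nat.blt_eq] at h1
        refine ⟨h1.1.2, ?_⟩
        have h5 : (dS σ true pts c.2 : ℝ) + c.1 * r'.2.2.2 ≤ dS σ false pts c.2 + c.1 * r'.2.2.1 := by
          exact_mod_cast h3
        have h6 : (0 : ℝ) < c.1 := by exact_mod_cast h2
        refine le_of_mul_le_mul_left ?_ h6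
        simp only [evr_nil] at k2
        linarith
      · exact ih cts h4 r' hr'

noncomputable def pChk (σ : Bool) (pts : Pts) (cs : Caps) (e c a lam nu : ℕ) (ct : Ct) : Bool :=
  and (core σ pts cs ct ⟨e, nu, own σ c, true⟩ a [(e, Nat.shiftLeft (Nat.mul nu lam) 20)])
    (and (Nat.blt 0 nu) (Nat.ble (dS σ true pts ct) (dS σ false pts ct)))

theorem p_sound {σ : Bool} (l : Ln σ) {pts : Pts} (hp : PtsH σ l.S pts) {cs : Caps}
    (hc : CapH l cs) (e : ℕ) (c a : Fin 5) (lam nu : ℕ) (ct : Ct)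
    (h : pChk σ pts cs e c a lam nu ct = true) : l.S c e ≤ lam / 2 ^ 20 * l.T a ^ e := by
  simp only [pChk, Bool.and_eq_true, Nat.ble_eq, Nat.blt_eq] at h
  obtain ⟨k1, k2⟩ := core_sound l hp hc a.2 h.1 0 (by omega)
  have h5 : (dS σ true pts ct : ℝ) ≤ dS σ false pts ct := by exact_mod_cast h.2.2
  have h6 : (0 : ℝ) < nu := by exact_mod_cast h.2.1
  have h7 : ((Nat.shiftLeft (nu * lam) 20 : ℕ) : ℝ) = nu * lam * 2 ^ 20 := by
    change (((nu * lam) <<< 20 : ℕ) : ℝ) = _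
    rw [Nat.shiftLeft_eq]; push_cast; ring
  simp only [Fv_own, evr_cons, evr_nil, sgn, cond_true, Nat.mul_eq, h7] at k2
  refine le_of_mul_le_mul_left (a := (nu : ℝ) * 2 ^ 40) ?_ (by positivity)
  push_cast at k2
  linarith

end Vale.Agent.P348
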