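import Vale.Agent.P348.CStep

/-! Lines of an abstract system. -/

namespace Vale.Agent.P348

open Finset Filter Topology

theorem f5_val (c : Fin 5) : f5 c = c := Fin.ext (Nat.mod_eq_of_lt c.2)
theorem f5_add (c : Fin 5) : f5 (c + 5) = c := Fin.ext (by simp [f5, Nat.mod_eq_of_lt c.2])

theorem dual_inv (X : Fin 5 → ℝ) (c : Fin 5) : dual (dual X) c = X c := by
  fin_cases c <;> simp [dual, Rm, Fin.sum_univ_five] <;> ring

theorem dual01 (X : Fin 5 → ℝ) : dual X 0 + 3 * dual X 1 = X 0 + 3 * X 1 := by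
  simp [dual, Rm, Fin.sum_univ_five]; ring

theorem Fv_dual (X : Fin 5 → ℝ) (t : ℕ) : Fv true (dual X) t = Fv false X t := by
  unfold Fv
  by_cases h : t < 5 <;> simp [h, dual_inv]

namespace Sys

variable (D : Sys)

noncomputable def lnT (L : ℕ) (hL : 2 ≤ L) : Ln false where
  S c j := D.w L j c
  T a := if a < 5 then D.tT L (f5 a) else 0
  U a := if a < 5 then D.uT L (f5 a) else 0
  at' c := by simpa [f5_val] using D.hT L hL c

noncomputable def lnS (j : ℕ) (hj : 2 ≤ j) : Ln true where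
  S c L := dual (D.w L j) c
  T a := if a < 5 then D.tS j (f5 a) else D.tS' j (f5 a)
  U a := if a < 5 then D.uS j (f5 a) else D.uS' j (f5 a)
  at' c := by simpa [f5_val, f5_add] using D.hS j hj c

/-- rows valid at the point `(L, j)`. -/
def PtH (L j : ℕ) (rows : List Row) : Prop := ∀ r ∈ rows, RowH (Fv false (D.w L j)) r

theorem PtH.app {D : Sys} {L j : ℕ} {r s : List Row} (h : D.PtH L j r) (h' : D.PtH L j s) :
    D.PtH L j (r ++ s) := fun x hx => (List.mem_append.mp hx).elim (h x) (h' x)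

theorem nilP {σ : Bool} {S : Fin 5 → ℕ → ℝ} : PtsH σ S [] := by simp [PtsH]

theorem consT {L j : ℕ} {hL : 2 ≤ L} {rows : List Row} {pts : Pts} (h : D.PtH L j rows)
    (hs : PtsH false (D.lnT L hL).S pts) (hj : Nat.ble 2 j = true) :
    PtsH false (D.lnT L hL).S ((j, rows) :: pts) := by
  intro p hp
  rcases List.mem_cons.mp hp with rfl | hp
  · exact ⟨Nat.le_of_ble_eq_true hj, h⟩
  · exact hs p hp

theorem consS {L j : ℕ} {hj : 2 ≤ j} {rows : List Row} {pts : Pts} (h : D.PtH L j rows)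
    (hs : PtsH true (D.lnS j hj).S pts) (hL : Nat.ble 2 L = true) :
    PtsH true (D.lnS j hj).S ((L, rows) :: pts) := by
  intro p hp
  rcases List.mem_cons.mp hp with rfl | hp
  · refine ⟨Nat.le_of_ble_eq_true hL, fun r hr => ?_⟩
    have := h r hr
    unfold RowH at this ⊢
    rwa [← Fv_dual] at this
  · exact hs p hp

theorem rowsT {L : ℕ} {hL : 2 ≤ L} {pts : Pts} (hp : PtsH false (D.lnT L hL).S pts) {cs : Caps}
    (hc : CapH (D.lnT L hL) cs) (j : ℕ) (rows : List Row) (cts : List (ℕ × Ct))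
    (h : rowsChk false pts cs j rows cts = true) : D.PtH L j rows :=
  rows_sound _ hp hc j rows cts h

theorem rowsS {j : ℕ} {hj : 2 ≤ j} {pts : Pts} (hp : PtsH true (D.lnS j hj).S pts) {cs : Caps}
    (hc : CapH (D.lnS j hj) cs) (L : ℕ) (rows : List Row) (cts : List (ℕ × Ct))
    (h : rowsChk true pts cs L rows cts = true) : D.PtH L j rows := fun r hr => by
  have := rows_sound _ hp hc L rows cts h r hr
  unfold RowH at this ⊢
  rwa [← Fv_dual]

theorem not_small {f : ℕ → ℝ} {m C : ℝ} (h0 : 0 ≤ m) (h1 : m < 1) (h : ∀ n, 1 ≤ f n)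
    (h' : ∀ n, f n ≤ m ^ (2 * n) * C) : False := by
  have ht : Tendsto (fun n : ℕ => m ^ (2 * n) * C) atTop (𝓝 (0 * C)) := by
    simp only [pow_mul]
    exact (tendsto_pow_atTop_nhds_zero_of_lt_one (by positivity) (by nlinarith)).mul_const C
  have := ge_of_tendsto' ht fun n => (h n).trans (h' n)
  simp at this
  linarith

theorem varT {L : ℕ} (hL : 2 ≤ L) (he : Nat.mod L 2 = 0) : true = true → VarH (D.lnT L hL) := by
  intro _
  by_contra hh
  simp only [VarH, not_or, not_le, lnT] at hh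
  have h0 : D.tT L 0 < 1 := hh.1
  have h1 : D.tT L 1 < 1 := hh.2.1
  have a0 := D.hT L hL 0
  have a1 := D.hT L hL 1
  have p0 := a0.u0.trans a0.ut
  refine not_small (f := fun n => D.w L (2 + 2 * n) 0 + 3 * D.w L (2 + 2 * n) 1)
    (m := max (D.tT L 0) (D.tT L 1)) (C := D.w L 2 0 + 3 * D.w L 2 1) (le_max_of_le_left p0)
    (max_lt h0 h1) (fun n => D.hZ L _ hL (Nat.even_iff.mpr he) (by omega)) fun n => ?_
  have b0 := a0.all_le (a := 2) (b := 2 + 2 * n) le_rfl (by omega) (Or.inl rfl)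
    (le_max_left _ (D.tT L 1)) (le_max_of_le_left p0)
  have b1 := a1.all_le (a := 2) (b := 2 + 2 * n) le_rfl (by omega) (Or.inl rfl)
    (le_max_right (D.tT L 0) _) (le_max_of_le_left p0)
  rw [Nat.add_sub_cancel_left] at b0 b1
  linarith

theorem varS {j : ℕ} (hj : 2 ≤ j) : true = true → VarH (D.lnS j hj) := by
  intro _
  by_contra hh
  simp only [VarH, not_or, not_le, lnS, true_and] at hh
  have h0 : D.tS j 0 < 1 := hh.1
  have h1 : D.tS j 1 < 1 := hh.2.1
  have h5 : D.tS' j 0 < 1 := hh.2.2.1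
  have h6 : D.tS' j 1 < 1 := hh.2.2.2
  have a0 := D.hS j hj 0
  have a1 := D.hS j hj 1
  have p0 := a0.u0.trans a0.ut
  obtain ⟨m, m0, m1, m5, m6, hm⟩ : ∃ m, D.tS j 0 ≤ m ∧ D.tS j 1 ≤ m ∧ D.tS' j 0 ≤ m ∧
      D.tS' j 1 ≤ m ∧ m < 1 := ⟨max (max (D.tS j 0) (D.tS j 1)) (max (D.tS' j 0) (D.tS' j 1)),
    by simp, by simp, by simp, by simp, by simp [h0, h1, h5, h6]⟩
  refine not_small (f := fun n => D.w (2 + 2 * n) j 0 + 3 * D.w (2 + 2 * n) j 1)
    (m := m) (C := D.w 2 j 0 + 3 * D.w 2 j 1) (p0.trans m0) hm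
    (fun n => D.hZ _ j (by omega) ⟨1 + n, by ring⟩ hj) fun n => ?_
  have ev : Even 2 ∧ Even (2 + 2 * n) := ⟨even_two, ⟨1 + n, by ring⟩⟩
  have b0 := a0.all_le (a := 2) (b := 2 + 2 * n) le_rfl (by omega) (Or.inr ev) m0 m5
  have b1 := a1.all_le (a := 2) (b := 2 + 2 * n) le_rfl (by omega) (Or.inr ev) m1 m6
  rw [Nat.add_sub_cancel_left] at b0 b1
  rw [← dual01, ← dual01 (D.w 2 j)]
  linarith

theorem noV {σ : Bool} (l : Ln σ) : false = true → VarH l := fun h => absurd h Bool.false_ne_true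

end Sys

/-- the eight certificates of an impurity bound. -/
noncomputable def impChk (σ : Bool) (pts : Pts) (cs : Caps) (e p q nu : ℕ) (cts : List Ct) : Bool :=
  ([(0, 0, 0), (1, 2, 2), (2, 1, 0), (3, 3, 0), (4, 4, 0), (5, 1, 2), (6, 3, 2), (7, 4, 2)] :
    List (ℕ × ℕ × ℕ)).all fun z => pChk σ pts cs e z.2.1 z.2.2
      (cond (Nat.ble z.1 1) (Nat.add 1048576 q) p) nu (cts.getD z.1 ⟨[], 0, 0, []⟩)

theorem imp_sound {σ : Bool} (l : Ln σ) {pts : Pts} (hp : PtsH σ l.S pts) {cs : Caps}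
    (hc : CapH l cs) (e p q nu : ℕ) (cts : List Ct) (h : impChk σ pts cs e p q nu cts = true) :
    Imp (fun c => l.S c e) (l.T 0 ^ e) (l.T 2 ^ e) (p / 2 ^ 20) (q / 2 ^ 20) := by
  simp only [impChk, List.all_cons, List.all_nil, Bool.and_eq_true] at h
  obtain ⟨h0, h1, h2, h3, h4, h5, h6, h7, -⟩ := h
  have e1 : (((Nat.add 1048576 q : ℕ) : ℝ)) / 2 ^ 20 = 1 + q / 2 ^ 20 := by
    simp only [Nat.add_eq]; push_cast; ring
  refine ⟨?_, ?_, ?_, ?_⟩
  · rw [← e1]; exact p_sound l hp hc e 0 0 _ _ _ h0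
  · rw [← e1]; exact p_sound l hp hc e 2 2 _ _ _ h1
  · rintro c (rfl | rfl | rfl)
    · exact p_sound l hp hc e 1 0 _ _ _ h2
    · exact p_sound l hp hc e 3 0 _ _ _ h3
    · exact p_sound l hp hc e 4 0 _ _ _ h4
  · rintro c (rfl | rfl | rfl)
    · exact p_sound l hp hc e 1 2 _ _ _ h5
    · exact p_sound l hp hc e 3 2 _ _ _ h6
    · exact p_sound l hp hc e 4 2 _ _ _ h7

def wRows (b : List (ℕ × ℕ)) : List Row := [0, 1, 2, 3, 4].flatMap fun c =>
  [(c, true, (b.getD c (0, 0)).2, 0), (c, false, 0, (b.getD c (0, 0)).1)]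

namespace Sys

variable (D : Sys)

theorem impT {L : ℕ} {hL : 2 ≤ L} {pts : Pts} (hp : PtsH false (D.lnT L hL).S pts) {cs : Caps}
    (hc : CapH (D.lnT L hL) cs) (j p q nu : ℕ) (cts : List Ct)
    (h : impChk false pts cs j p q nu cts = true) : D.IT L j (p / 2 ^ 20) (q / 2 ^ 20) :=
  imp_sound _ hp hc j p q nu cts h

theorem impS {j : ℕ} {hj : 2 ≤ j} {pts : Pts} (hp : PtsH true (D.lnS j hj).S pts) {cs : Caps}
    (hc : CapH (D.lnS j hj) cs) (L p q nu : ℕ) (cts : List Ct)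
    (h : impChk true pts cs L p q nu cts = true) : D.IS L j (p / 2 ^ 20) (q / 2 ^ 20) := by
  have h1 := imp_sound _ hp hc L p q nu cts h
  have a : ∀ c, D.tS j c ^ L ≤ max (D.tS j c) (D.tS' j c) ^ L := fun c =>
    pow_le_pow_left₀ ((D.hS j hj c).u0.trans (D.hS j hj c).ut) (le_max_left _ _) L
  refine ⟨h1.h0.trans ?_, h1.h2.trans ?_, fun c hc => (h1.hA c hc).trans ?_,
    fun c hc => (h1.hB c hc).trans ?_⟩ <;> exact mul_le_mul_of_nonneg_left (a _) (by positivity)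

/-- rows from two-sided bounds of the five time components. -/
theorem ptW {L j : ℕ} (b : List (ℕ × ℕ)) (h : ∀ c : Fin 5, ((b.getD c (0, 0)).1 : ℝ) ≤
    2 ^ 40 * D.w L j c ∧ 2 ^ 40 * D.w L j c ≤ (b.getD c (0, 0)).2) : D.PtH L j (wRows b) := by
  intro r hr
  obtain ⟨c, hc, hr⟩ := List.mem_flatMap.mp hr
  have hc5 : c < 5 := by simp at hc; omega
  have := h ⟨c, hc5⟩
  have e := Fv_own false (D.w L j) ⟨c, hc5⟩
  change Fv false (D.w L j) c = _ at e
  simp only [List.mem_cons, List.not_mem_nil, or_false] at hr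
  rcases hr with rfl | rfl <;> refine ⟨by simp only; omega, ?_⟩ <;> simp only [sgn, e] <;>
    simp <;> [exact this.2; exact this.1]

end Sys

end Vale.Agent.P348
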