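import Mathlib

/-! Statement definitions for the spin-one Heisenberg ring. -/

namespace Vale.Agent.P348

/-- The Levi-Civita symbol on three indices. -/
def eps (a b c : Fin 3) : ℤ :=
  if (a = 0 ∧ b = 1 ∧ c = 2) ∨ (a = 1 ∧ b = 2 ∧ c = 0) ∨ (a = 2 ∧ b = 0 ∧ c = 1) then 1
  else if (a = 0 ∧ b = 2 ∧ c = 1) ∨ (a = 1 ∧ b = 0 ∧ c = 2) ∨ (a = 2 ∧ b = 1 ∧ c = 0) then -1
  else 0

/-- `S 0, S 1, S 2` are self-adjoint spin-one matrices: su(2) commutation relations and
Casimir value `2`. -/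
structure IsSpinOne (S : Fin 3 → Matrix (Fin 3) (Fin 3) ℂ) : Prop where
  herm : ∀ a, (S a).IsHermitian
  comm : ∀ a b, S a * S b - S b * S a = ∑ c, (Complex.I * (eps a b c : ℂ)) • S c
  casimir : ∑ a, S a * S a = (2 : ℂ) • (1 : Matrix (Fin 3) (Fin 3) ℂ)

/-- `X` acting on tensor factor `j` of `(ℂ^3)^{⊗ L}` and the identity on the other factors,
as a matrix in the product basis indexed by `Fin L → Fin 3`. -/
def site (L : ℕ) (j : Fin L) (X : Matrix (Fin 3) (Fin 3) ℂ) :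
    Matrix (Fin L → Fin 3) (Fin L → Fin 3) ℂ :=
  fun s t => ∏ i, if i = j then X (s i) (t i) else if s i = t i then 1 else 0

/-- The Heisenberg Hamiltonian on the periodic ring; `finRotate L j` is `j + 1` modulo `L`. -/
noncomputable def ham (S : Fin 3 → Matrix (Fin 3) (Fin 3) ℂ) (L : ℕ) :
    Matrix (Fin L → Fin 3) (Fin L → Fin 3) ℂ :=
  ∑ j : Fin L, ∑ a : Fin 3, site L j (S a) * site L (finRotate L j) (S a)

end Vale.Agent.P348
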