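import Vale.Agent.P348.FinA

/-! Part Fin: the doubling recursion. -/

namespace Vale.Agent.P348

/-- side conditions of one doubling step. -/
structure DblOK (p q p1 q1 p2 q2 a0 p' q' : ℝ) : Prop where
  p0 : 0 ≤ p
  p_le : p ≤ 1
  q0 : 0 ≤ q
  p10 : 0 ≤ p1
  q10 : 0 ≤ q1
  p20 : 0 ≤ p2
  p2_le : p2 ≤ 1
  q20 : 0 ≤ q2
  a00 : 0 < a0
  hU : ((1 + q1 ^ 2) * (1 + 3 * p ^ 2) + 3 * p1 ^ 2) ^ 2 * ((1 + q) ^ 4 * (1 + q2) ^ 2) <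
    2 * (1 - p2 ^ 2)
  ha : (a0 ^ 2 + ((1 + q1 ^ 2) * (1 + 3 * p ^ 2) + 3 * p1 ^ 2 - a0) ^ 2) *
    ((1 + q) ^ 4 * (1 + q2) ^ 2) ≤ 1 - p2 ^ 2
  hq : (1 + q1 ^ 2) * (1 + 3 * p ^ 2) + 3 * p1 ^ 2 ≤ (1 + q') * a0
  hp : ((1 + q1 ^ 2) * (1 + 3 * p) ^ 2 - (1 - p) ^ 2 / (1 + q1) ^ 2) / 4 + 3 / 4 * p1 ^ 2 ≤
    p' * a0

theorem dbl_base {X Xh T : Fin 5 → ℝ} {p q F v : ℝ} (hZ : 1 ≤ X 0 + 3 * X 1)
    (h : Imp X (T 0) (T 2) p q) (dT : ∀ c, Dbl (X c) (Xh c) (T c)) (p0 : 0 ≤ p) (pl : p ≤ 1)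
    (hFd : F = (X 0 + 3 * X 2) / 4) (hvd : v = (X 1 + X 3 + 2 * X 4) / 4) :
    0 < F ∧ 0 ≤ v ∧ v ≤ p * F := by
  have hA := (dT 0).le1
  have hB := (dT 2).le1
  have hA0 := (dT 0).A0
  have odd : ∀ c, c = 1 ∨ c = 3 ∨ c = 4 → X c ≤ p * F := by
    intro c hc
    have e1 := h.hA c hc
    have e2 := h.hB c hc
    have e3 := mul_le_mul_of_nonneg_left hA p0
    have e4 := mul_le_mul_of_nonneg_left hB p0
    rw [hFd]; linarith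
  refine ⟨?_, ?_, ?_⟩
  · have e1 := h.hA 1 (by simp)
    have e2 : p * T 0 ≤ 1 * T 0 := mul_le_mul_of_nonneg_right pl hA0
    have := (dT 2).x0
    rw [hFd]; linarith
  · have := (dT 1).x0; have := (dT 3).x0; have := (dT 4).x0; rw [hvd]; linarith
  · have := odd 1 (by simp); have := odd 3 (by simp); have := odd 4 (by simp); rw [hvd]; linarith

theorem dbl_upper {Y X' S : Fin 5 → ℝ} {p p1 q1 F v U O : ℝ}
    (h1 : Imp Y (S 0) (S 2) p1 q1) (dS : ∀ c, Dbl (Y c) (dual X' c) (S c))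
    (pl : p ≤ 1) (q10 : 0 ≤ q1) (hY0 : Y 0 = F + 3 * v) (hY2 : Y 2 = F - v)
    (hF : 0 < F) (hv0 : 0 ≤ v) (hvp : v ≤ p * F)
    (hUd : U = (1 + q1 ^ 2) * (1 + 3 * p ^ 2) + 3 * p1 ^ 2)
    (hOd : O = ((1 + q1 ^ 2) * (1 + 3 * p) ^ 2 - (1 - p) ^ 2 / (1 + q1) ^ 2) / 4 +
      3 / 4 * p1 ^ 2) :
    X' 0 ≤ U * F ^ 2 ∧ X' 2 ≤ U * F ^ 2 ∧ ∀ c, c = 1 ∨ c = 3 ∨ c = 4 → X' c ≤ O * F ^ 2 := by
  have g1 := h1.sq dS
  have hC := (dS 0).le1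
  have hD := (dS 2).le1
  have hC0 := (dS 0).A0
  have hD0 := (dS 2).A0
  rw [hY0] at hC
  rw [hY2] at hD
  have sC : S 0 ^ 2 ≤ (F + 3 * v) ^ 2 := pow_le_pow_left₀ hC0 hC 2
  have sD : S 2 ^ 2 ≤ (F - v) ^ 2 := pow_le_pow_left₀ hD0 hD 2
  have sDF : S 2 ^ 2 ≤ F ^ 2 := pow_le_pow_left₀ hD0 (by linarith only [hD, hv0]) 2
  have sv : v ^ 2 ≤ (p * F) ^ 2 := pow_le_pow_left₀ hv0 hvp 2
  have k0 : 0 ≤ 1 + q1 ^ 2 := by positivity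
  have ya : dual X' 0 ≤ (1 + q1 ^ 2) * (F + 3 * v) ^ 2 :=
    g1.h0.trans (mul_le_mul_of_nonneg_left sC k0)
  have yb : dual X' 2 ≤ (1 + q1 ^ 2) * (F - v) ^ 2 :=
    g1.h2.trans (mul_le_mul_of_nonneg_left sD k0)
  have yc : ∀ c, c = 1 ∨ c = 3 ∨ c = 4 → dual X' c ≤ p1 ^ 2 * F ^ 2 := fun c hc =>
    (g1.hB c hc).trans (mul_le_mul_of_nonneg_left sDF (sq_nonneg _))
  have yc1 := yc 1 (by simp)
  have yc3 := yc 3 (by simp)
  have yc4 := yc 4 (by simp)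
  have n1 := (dS 1).x20
  have n3 := (dS 3).x20
  have n4 := (dS 4).x20
  have ye : (dual X' 0 + 3 * dual X' 2) / 4 ≤ (1 + q1 ^ 2) * (1 + 3 * p ^ 2) * F ^ 2 := by
    have e1 : (1 + q1 ^ 2) * v ^ 2 ≤ (1 + q1 ^ 2) * (p * F) ^ 2 := mul_le_mul_of_nonneg_left sv k0
    linarith only [e1, ya, yb]
  have yd : (1 - p) ^ 2 / (1 + q1) ^ 2 * F ^ 2 ≤ dual X' 2 := by
    have e1 := h1.h2
    rw [hY2] at e1
    have e2 : (1 - p) * F / (1 + q1) ≤ S 2 := by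
      rw [div_le_iff₀ (by linarith only [q10])]; linarith only [e1, hvp]
    have e3 : ((1 - p) * F / (1 + q1)) ^ 2 ≤ S 2 ^ 2 :=
      pow_le_pow_left₀ (div_nonneg (mul_nonneg (by linarith only [pl]) hF.le)
        (by linarith only [q10])) e2 2
    have e4 : ((1 - p) * F / (1 + q1)) ^ 2 = (1 - p) ^ 2 / (1 + q1) ^ 2 * F ^ 2 := by
      rw [div_pow, mul_pow]; ring
    exact e4 ▸ e3.trans (dS 2).le2
  have ya' : dual X' 0 ≤ (1 + q1 ^ 2) * (1 + 3 * p) ^ 2 * F ^ 2 := by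
    have e1 : (F + 3 * v) ^ 2 ≤ ((1 + 3 * p) * F) ^ 2 :=
      pow_le_pow_left₀ (by linarith only [hF, hv0]) (by linarith only [hvp]) 2
    have e2 := mul_le_mul_of_nonneg_left e1 k0
    rw [mul_pow, ← mul_assoc] at e2
    exact ya.trans e2
  have pF : 0 ≤ p1 ^ 2 * F ^ 2 := by positivity
  refine ⟨?_, ?_, fun c hc => ?_⟩
  · rw [← dual_dual X', dual0, hUd]; linarith only [ye, yc1, yc3, yc4]
  · rw [← dual_dual X', dual2, hUd]; linarith only [ye, n1, n3, n4, pF]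
  · rcases hc with rfl | rfl | rfl
    · rw [← dual_dual X', dual1, hOd]; linarith only [ya', yd, yc1, n3, n4]
    · rw [← dual_dual X', dual3, hOd]; linarith only [ya', yd, yc3, n1, n4]
    · rw [← dual_dual X', dual4, hOd]; linarith only [ya', yd, yc4, n1, n3, pF]

theorem dbl_lower {X Xh X'' T Sh : Fin 5 → ℝ} {p q p2 q2 F K S1 : ℝ}
    (h : Imp X (T 0) (T 2) p q) (dT : ∀ c, Dbl (X c) (Xh c) (T c))
    (h2 : Imp (dual Xh) (Sh 0) (Sh 2) p2 q2) (dSh : ∀ c, Dbl (dual Xh c) (dual X'' c) (Sh c))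
    (p20 : 0 ≤ p2) (p2l : p2 ≤ 1) (hFd : F = (X 0 + 3 * X 2) / 4) (hF : 0 < F)
    (hKd : K = (1 + q) ^ 2 * (1 + q2)) (q20 : 0 ≤ q2) (hK : 0 < K)
    (hS1 : S1 = (1 - p2 ^ 2) / K ^ 2) :
    S1 * (F ^ 2) ^ 2 ≤ X'' 0 ∧ S1 * (F ^ 2) ^ 2 ≤ X'' 2 := by
  have g2 := h2.sq dSh
  have l1 : F ≤ (1 + q) * ((T 0 + 3 * T 2) / 4) := by
    have := h.h0; have := h.h2; rw [hFd]; linarith
  have l2 : ((T 0 + 3 * T 2) / 4) ^ 2 ≤ (Xh 0 + 3 * Xh 2) / 4 := by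
    have e1 := (dT 0).le2
    have e2 := (dT 2).le2
    linarith only [sq_nonneg (T 0 - T 2), e1, e2]
  have l3 : (Xh 0 + 3 * Xh 2) / 4 ≤ (1 + q2) * ((Sh 0 + 3 * Sh 2) / 4) := by
    have e1 := h2.h0
    have e2 := h2.h2
    rw [dual0] at e1
    rw [dual2] at e2
    linarith only [e1, e2]
  have l4 : F ^ 2 ≤ K * ((Sh 0 + 3 * Sh 2) / 4) := by
    have e1 : F ^ 2 ≤ ((1 + q) * ((T 0 + 3 * T 2) / 4)) ^ 2 := pow_le_pow_left₀ hF.le l1 2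
    have e2 := mul_le_mul_of_nonneg_left (l2.trans l3) (sq_nonneg (1 + q))
    rw [mul_pow] at e1
    rw [hKd, mul_assoc]; exact e1.trans e2
  have l5 : (F ^ 2 / K) ^ 2 ≤ (Sh 0 ^ 2 + 3 * Sh 2 ^ 2) / 4 := by
    have e1 : F ^ 2 / K ≤ (Sh 0 + 3 * Sh 2) / 4 := by rw [div_le_iff₀ hK]; linarith only [l4]
    have e2 := pow_le_pow_left₀ (by positivity) e1 2
    linarith only [sq_nonneg (Sh 0 - Sh 2), e2]
  have hp2 : 0 ≤ 1 - p2 ^ 2 := by nlinarith only [p20, p2l]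
  have l6 : S1 * (F ^ 2) ^ 2 ≤ (1 - p2 ^ 2) * ((Sh 0 ^ 2 + 3 * Sh 2 ^ 2) / 4) := by
    have e1 := mul_le_mul_of_nonneg_left l5 hp2
    have e2 : S1 * (F ^ 2) ^ 2 = (1 - p2 ^ 2) * (F ^ 2 / K) ^ 2 := by
      rw [hS1, div_pow]; ring
    exact e2 ▸ e1
  have m0 := (dSh 0).le2
  have m2 := (dSh 2).le2
  have m1 := (dSh 1).x20
  have m3 := (dSh 3).x20
  have m4 := (dSh 4).x20
  have mA1 := g2.hA 1 (by simp)
  have mA3 := g2.hA 3 (by simp)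
  have mA4 := g2.hA 4 (by simp)
  have mB1 := g2.hB 1 (by simp)
  have mB3 := g2.hB 3 (by simp)
  have mB4 := g2.hB 4 (by simp)
  have pS : 0 ≤ p2 ^ 2 * Sh 0 ^ 2 := by positivity
  have pS2 : 0 ≤ p2 ^ 2 * Sh 2 ^ 2 := by positivity
  constructor
  · rw [← dual_dual X'', dual0]; linarith only [l6, m0, m2, m1, m3, m4, pS, pS2]
  · rw [← dual_dual X'', dual2]; linarith only [l6, m0, m2, mA1, mA3, mA4, mB1, mB3, mB4]

theorem dbl_alg {X X' Xh X'' T T' S Sh : Fin 5 → ℝ} {p q p1 q1 p2 q2 a0 p' q' : ℝ}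
    (hZ : 1 ≤ X 0 + 3 * X 1)
    (h : Imp X (T 0) (T 2) p q) (dT : ∀ c, Dbl (X c) (Xh c) (T c))
    (h1 : Imp (dual X) (S 0) (S 2) p1 q1) (dS : ∀ c, Dbl (dual X c) (dual X' c) (S c))
    (h2 : Imp (dual Xh) (Sh 0) (Sh 2) p2 q2) (dSh : ∀ c, Dbl (dual Xh c) (dual X'' c) (Sh c))
    (dT' : ∀ c, Dbl (X' c) (X'' c) (T' c))
    (ok : DblOK p q p1 q1 p2 q2 a0 p' q') : Imp X' (T' 0) (T' 2) p' q' := by
  obtain ⟨p0, pl, q0, p10, q10, p20, p2l, q20, a00, hU, ha, hq, hp⟩ := ok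
  obtain ⟨F, hFd⟩ : ∃ F, F = (X 0 + 3 * X 2) / 4 := ⟨_, rfl⟩
  obtain ⟨v, hvd⟩ : ∃ v, v = (X 1 + X 3 + 2 * X 4) / 4 := ⟨_, rfl⟩
  have hY0 : dual X 0 = F + 3 * v := by rw [dual0, hFd, hvd]; ring
  have hY2 : dual X 2 = F - v := by rw [dual2, hFd, hvd]; ring
  obtain ⟨hF, hv0, hvp⟩ := dbl_base hZ h dT p0 pl hFd hvd
  obtain ⟨U, hUd⟩ : ∃ U, U = (1 + q1 ^ 2) * (1 + 3 * p ^ 2) + 3 * p1 ^ 2 := ⟨_, rfl⟩
  obtain ⟨O, hOd⟩ : ∃ O, O = ((1 + q1 ^ 2) * (1 + 3 * p) ^ 2 - (1 - p) ^ 2 / (1 + q1) ^ 2) / 4 +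
    3 / 4 * p1 ^ 2 := ⟨_, rfl⟩
  have hU0 : 0 < U := by rw [hUd]; positivity
  obtain ⟨x0, x2, xo⟩ := dbl_upper h1 dS pl q10 hY0 hY2 hF hv0 hvp hUd hOd
  obtain ⟨K, hKd⟩ : ∃ K, K = (1 + q) ^ 2 * (1 + q2) := ⟨_, rfl⟩
  have hK : 0 < K := by rw [hKd]; positivity
  have hK2 : (1 + q) ^ 4 * (1 + q2) ^ 2 = K ^ 2 := by rw [hKd]; ring
  obtain ⟨S1, hS1⟩ : ∃ S1, S1 = (1 - p2 ^ 2) / K ^ 2 := ⟨_, rfl⟩
  obtain ⟨z0, z2⟩ := dbl_lower h dT h2 dSh p20 p2l hFd hF hKd q20 hK hS1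
  rw [← hUd, hK2] at hU ha
  rw [← hUd] at hq
  rw [← hOd] at hp
  have hK2p : 0 < K ^ 2 := by positivity
  have hU' : U ^ 2 < 2 * S1 := by
    rw [hS1, ← mul_div_assoc, lt_div_iff₀ hK2p]; exact hU
  have ha' : a0 ^ 2 + (U - a0) ^ 2 ≤ S1 := by
    rw [hS1, le_div_iff₀ hK2p]; exact ha
  have hF2 : 0 < F ^ 2 := by positivity
  have t0 := top_lower (dT' 0) hF2 hU0 x0 z0 hU' ha'
  have t2 := top_lower (dT' 2) hF2 hU0 x2 z2 hU' ha'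
  have hq' : 0 ≤ 1 + q' := nonneg_of_mul_nonneg_left (hU0.le.trans hq) a00
  have hp' : 0 ≤ p' := by
    have e3 : 0 ≤ O := nonneg_of_mul_nonneg_left ((dT' 1).x0.trans (xo 1 (by simp))) hF2
    exact nonneg_of_mul_nonneg_left (e3.trans hp) a00
  have r1 : U * F ^ 2 ≤ (1 + q') * (a0 * F ^ 2) := by
    rw [← mul_assoc]; exact mul_le_mul_of_nonneg_right hq hF2.le
  have r2 : O * F ^ 2 ≤ p' * (a0 * F ^ 2) := by
    rw [← mul_assoc]; exact mul_le_mul_of_nonneg_right hp hF2.le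
  exact ⟨x0.trans (r1.trans (mul_le_mul_of_nonneg_left t0 hq')),
    x2.trans (r1.trans (mul_le_mul_of_nonneg_left t2 hq')),
    fun c hc => (xo c hc).trans (r2.trans (mul_le_mul_of_nonneg_left t0 hp')),
    fun c hc => (xo c hc).trans (r2.trans (mul_le_mul_of_nonneg_left t2 hp'))⟩

theorem Imp.mono {X : Fin 5 → ℝ} {A B p q p' q' : ℝ} (h : Imp X A B p q) (hA : 0 ≤ A)
    (hB : 0 ≤ B) (hp : p ≤ p') (hq : q ≤ q') : Imp X A B p' q' :=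
  ⟨h.h0.trans (mul_le_mul_of_nonneg_right (by linarith) hA),
    h.h2.trans (mul_le_mul_of_nonneg_right (by linarith) hB),
    fun c hc => (h.hA c hc).trans (mul_le_mul_of_nonneg_right hp hA),
    fun c hc => (h.hB c hc).trans (mul_le_mul_of_nonneg_right hp hB)⟩

theorem dblOK_small {d : ℝ} (h0 : 0 ≤ d) (h1 : d ≤ 1 / 40) :
    DblOK d d (d ^ 2) (d ^ 2) (d ^ 2) (d ^ 2) (1 - 5 * d / 2) (3 * d) (3 * d) := by
  have s2 : d ^ 2 ≤ d / 40 := by nlinarith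
  have s20 : 0 ≤ d ^ 2 := sq_nonneg d
  have s4 : (d ^ 2) ^ 2 ≤ d ^ 2 / 1600 := by nlinarith
  have s40 : 0 ≤ (d ^ 2) ^ 2 := sq_nonneg _
  obtain ⟨U, hUd⟩ : ∃ U, U = (1 + (d ^ 2) ^ 2) * (1 + 3 * d ^ 2) + 3 * (d ^ 2) ^ 2 := ⟨_, rfl⟩
  have U1 : 1 ≤ U := by rw [hUd]; nlinarith
  have U2 : U ≤ 1 + 4 * d ^ 2 := by rw [hUd]; nlinarith
  have K1 : (1 + d) ^ 4 * (1 + d ^ 2) ^ 2 ≤ 1 + 4 * d + 9 * d ^ 2 := by
    have e1 : (1 + d) ^ 4 ≤ 1 + 4 * d + 13 / 2 * d ^ 2 := by nlinarith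
    have e2 : (1 + d ^ 2) ^ 2 ≤ 1 + 21 / 10 * d ^ 2 := by nlinarith
    have e3 := mul_le_mul e1 e2 (by positivity) (by positivity)
    nlinarith
  have K0 : 0 ≤ (1 + d) ^ 4 * (1 + d ^ 2) ^ 2 := by positivity
  refine ⟨h0, by linarith, h0, s20, s20, s20, by linarith, s20, by linarith, ?_, ?_, ?_, ?_⟩
  · rw [← hUd]
    have e1 : U ^ 2 ≤ 11 / 10 := by nlinarith
    have e2 := mul_le_mul e1 K1 K0 (by norm_num)
    nlinarith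
  · rw [← hUd]
    have e1 : (U - (1 - 5 * d / 2)) ^ 2 ≤ (13 / 5 * d) ^ 2 :=
      pow_le_pow_left₀ (by linarith) (by linarith) 2
    have e2 : (1 - 5 * d / 2) ^ 2 + (U - (1 - 5 * d / 2)) ^ 2 ≤ 1 - 5 * d + 14 * d ^ 2 := by
      nlinarith
    have e3 := mul_le_mul e2 K1 K0 (by nlinarith)
    nlinarith
  · rw [← hUd]; nlinarith
  · have e1 : (1 - d) ^ 2 * (1 - 2 * d ^ 2) ≤ (1 - d) ^ 2 / (1 + d ^ 2) ^ 2 := by
      rw [le_div_iff₀ (by positivity), mul_assoc]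
      have : (1 - 2 * d ^ 2) * (1 + d ^ 2) ^ 2 ≤ 1 := by nlinarith
      nlinarith [sq_nonneg (1 - d)]
    have e2 : (1 + (d ^ 2) ^ 2) * (1 + 3 * d) ^ 2 ≤ 1 + 6 * d + 91 / 10 * d ^ 2 := by nlinarith
    have e3 : 1 - 2 * d - d ^ 2 ≤ (1 - d) ^ 2 * (1 - 2 * d ^ 2) := by nlinarith
    nlinarith

namespace Sys

variable (D : Sys)

theorem dT {L j : ℕ} (hL : 2 ≤ L) (hj : 2 ≤ j) (c : Fin 5) :
    Dbl (D.w L j c) (D.w L (2 * j) c) (D.tT L c ^ j) := (D.hT L hL c).dblF hj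

theorem dS {L j : ℕ} (hL : 2 ≤ L) (he : Even L) (hj : 2 ≤ j) (c : Fin 5) :
    Dbl (dual (D.w L j) c) (dual (D.w (2 * L) j) c) (max (D.tS j c) (D.tS' j c) ^ L) :=
  (D.hS j hj c).dblT hL he

theorem IT.sq {L j : ℕ} {p q : ℝ} (h : D.IT L j p q) (hL : 2 ≤ L) (hj : 2 ≤ j) :
    D.IT L (2 * j) (p ^ 2) (q ^ 2) := by
  have := Imp.sq (T := fun c => D.tT L c ^ j) h (D.dT hL hj)
  simpa only [IT, ← pow_mul, mul_comm j 2] using this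

theorem IS.sq {L j : ℕ} {p q : ℝ} (h : D.IS L j p q) (hL : 2 ≤ L) (he : Even L) (hj : 2 ≤ j) :
    D.IS (2 * L) j (p ^ 2) (q ^ 2) := by
  have := Imp.sq (T := fun c => max (D.tS j c) (D.tS' j c) ^ L) h (D.dS hL he hj)
  simpa only [IS, ← pow_mul, mul_comm L 2] using this

theorem dblT {L j : ℕ} {p q p1 q1 p2 q2 a0 p' q' : ℝ} (hL : 2 ≤ L) (he : Even L) (hj : 2 ≤ j)
    (h : D.IT L j p q) (h1 : D.IS L j p1 q1) (h2 : D.IS L (2 * j) p2 q2)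
    (ok : DblOK p q p1 q1 p2 q2 a0 p' q') : D.IT (2 * L) j p' q' :=
  dbl_alg (T := fun c => D.tT L c ^ j) (T' := fun c => D.tT (2 * L) c ^ j)
    (S := fun c => max (D.tS j c) (D.tS' j c) ^ L)
    (Sh := fun c => max (D.tS (2 * j) c) (D.tS' (2 * j) c) ^ L)
    (D.hZ L j hL he hj) h (D.dT hL hj) h1 (D.dS hL he hj) h2 (D.dS hL he (by omega))
    (D.dT (by omega) hj) ok

theorem dblS {L j : ℕ} {p q p1 q1 p2 q2 a0 p' q' : ℝ} (hL : 2 ≤ L) (he : Even L) (hj : 2 ≤ j)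
    (h : D.IS L j p q) (h1 : D.IT L j p1 q1) (h2 : D.IT (2 * L) j p2 q2)
    (ok : DblOK p q p1 q1 p2 q2 a0 p' q') : D.IS L (2 * j) p' q' := by
  refine dbl_alg (X := dual (D.w L j)) (X' := dual (D.w L (2 * j))) (Xh := dual (D.w (2 * L) j))
    (X'' := dual (D.w (2 * L) (2 * j)))
    (T := fun c => max (D.tS j c) (D.tS' j c) ^ L)
    (T' := fun c => max (D.tS (2 * j) c) (D.tS' (2 * j) c) ^ L)
    (S := fun c => D.tT L c ^ j) (Sh := fun c => D.tT (2 * L) c ^ j)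
    ?_ h (D.dS hL he hj) ?_ ?_ ?_ ?_ (D.dS hL he (by omega)) ok
  · have := D.hZ L j hL he hj
    rw [dual0, dual1]; linarith
  · rw [dual_dual]; exact h1
  · rw [dual_dual, dual_dual]; exact D.dT hL hj
  · rw [dual_dual]; exact h2
  · rw [dual_dual, dual_dual]; exact D.dT (by omega) hj

/-- state of the recursion. -/
def St (L T : ℕ) (pa qa pb qb pc qc pd qd : ℝ) : Prop :=
  D.IT (2 * L) T pa qa ∧ D.IS L (2 * T) pb qb ∧ D.IT L T pc qc ∧ D.IS L T pd qd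

theorem St.step {L T : ℕ} {pa qa pb qb pc qc pd qd a0 b0 px qx py qy : ℝ} (hL : 2 ≤ L)
    (he : Even L) (hT : 2 ≤ T) (h : D.St L T pa qa pb qb pc qc pd qd)
    (hx : DblOK pa qa (pd ^ 2) (qd ^ 2) (pb ^ 2) (qb ^ 2) a0 px qx)
    (hy : DblOK pb qb (pc ^ 2) (qc ^ 2) (pa ^ 2) (qa ^ 2) b0 py qy) :
    D.St (2 * L) (2 * T) (px ^ 2) (qx ^ 2) (py ^ 2) (qy ^ 2) (pa ^ 2) (qa ^ 2) (pb ^ 2) (qb ^ 2) := by
  obtain ⟨ha, hb, hc, hd⟩ := h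
  have ha2 := IT.sq D ha (by omega) hT
  have hb2 := IS.sq D hb hL he (by omega)
  have hc2 := IT.sq D hc hL hT
  have hd2 := IS.sq D hd hL he hT
  have h1 := D.dblT (by omega) (even_two_mul L) hT ha hd2 hb2 hx
  have h2 := D.dblS hL he (by omega) hb hc2 ha2 hy
  exact ⟨IT.sq D h1 (by omega) hT, IS.sq D h2 hL he (by omega), ha2, hb2⟩

theorem St.mono {L T : ℕ} {pa qa pb qb pc qc pd qd pa' qa' pb' qb' pc' qc' pd' qd' : ℝ}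
    (hL : 2 ≤ L) (hT : 2 ≤ T) (h : D.St L T pa qa pb qb pc qc pd qd) (h1 : pa ≤ pa')
    (h2 : qa ≤ qa') (h3 : pb ≤ pb') (h4 : qb ≤ qb') (h5 : pc ≤ pc') (h6 : qc ≤ qc')
    (h7 : pd ≤ pd') (h8 : qd ≤ qd') : D.St L T pa' qa' pb' qb' pc' qc' pd' qd' := by
  obtain ⟨ha, hb, hc, hd⟩ := h
  exact ⟨Imp.mono ha (D.dT (by omega) hT 0).A0 (D.dT (by omega) hT 2).A0 h1 h2,
    Imp.mono hb (pow_nonneg (D.hS _ (by omega) 0).top0 _) (pow_nonneg (D.hS _ (by omega) 2).top0 _)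
      h3 h4,
    Imp.mono hc (D.dT hL hT 0).A0 (D.dT hL hT 2).A0 h5 h6,
    Imp.mono hd (pow_nonneg (D.hS _ hT 0).top0 _) (pow_nonneg (D.hS _ hT 2).top0 _) h7 h8⟩

theorem St.small {L T : ℕ} {d : ℝ} (hL : 2 ≤ L) (he : Even L) (hT : 2 ≤ T) (h0 : 0 ≤ d)
    (h1 : d ≤ 1 / 40) (h : D.St L T d d d d d d d d) :
    D.St (2 * L) (2 * T) (30 * d ^ 2) (30 * d ^ 2) (30 * d ^ 2) (30 * d ^ 2) (30 * d ^ 2)
      (30 * d ^ 2) (30 * d ^ 2) (30 * d ^ 2) := by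
  have k := dblOK_small h0 h1
  have e1 : (3 * d) ^ 2 ≤ 30 * d ^ 2 := by nlinarith [sq_nonneg d]
  have e2 : d ^ 2 ≤ 30 * d ^ 2 := by nlinarith [sq_nonneg d]
  exact St.mono D (by omega) (by omega) (St.step D hL he hT h k k) e1 e1 e1 e1 e2 e2 e2 e2

theorem Z_dual (L j : ℕ) :
    D.w L j 0 + 3 * D.w L j 1 = dual (D.w L j) 0 + 3 * dual (D.w L j) 1 := by
  rw [dual0, dual1]; ring

theorem Z_upper {L L' j : ℕ} {d : ℝ} (hL : 2 ≤ L) (he : Even L) (hj : 2 ≤ j) (hL' : L ≤ L')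
    (he' : Even L') (h0 : 0 ≤ d) (h1 : d ≤ 1) (h : D.IS L j d d) :
    D.w L' j 0 + 3 * D.w L' j 1 ≤ (1 + 4 * d) * max (D.tS j 0) (D.tS' j 0) ^ L' := by
  rw [Z_dual]
  obtain ⟨μ, hμ⟩ : ∃ μ, μ = max (D.tS j 0) (D.tS' j 0) := ⟨_, rfl⟩
  have a0 := D.hS j hj 0
  have a1 := D.hS j hj 1
  have μ0 : 0 ≤ μ := hμ ▸ a0.top0
  have i0 := h.h0
  have i1 := h.hA 1 (by simp)
  rw [← hμ] at i0 i1 ⊢
  have pμ : 0 ≤ μ ^ L := pow_nonneg μ0 L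
  have m1 : max (D.tS j 1) (D.tS' j 1) ≤ μ := by
    have e1 := a1.top_le hL (Or.inr he)
    have e2 : d * μ ^ L ≤ 1 * μ ^ L := mul_le_mul_of_nonneg_right h1 pμ
    exact (pow_le_pow_iff_left₀ a1.top0 μ0 (by omega : L ≠ 0)).1 (by linarith)
  have b0 := a0.all_le hL hL' (Or.inr ⟨he, he'⟩) (m := μ) (hμ ▸ le_max_left _ _)
    (hμ ▸ le_max_right _ _)
  have b1 := a1.all_le hL hL' (Or.inr ⟨he, he'⟩) (m := μ) ((le_max_left _ _).trans m1)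
    ((le_max_right _ _).trans m1)
  have e : μ ^ L' = μ ^ (L' - L) * μ ^ L := by rw [← pow_add]; congr 1; omega
  have pν : 0 ≤ μ ^ (L' - L) := pow_nonneg μ0 _
  have c0 := mul_le_mul_of_nonneg_left i0 pν
  have c1 := mul_le_mul_of_nonneg_left i1 pν
  rw [e]
  linarith

theorem Z_lower {L j : ℕ} (hL : 2 ≤ L) (he : Even L) (hj : 2 ≤ j) :
    max (D.tS j 0) (D.tS' j 0) ^ L ≤ D.w L j 0 + 3 * D.w L j 1 := by
  rw [Z_dual]
  have := (D.dS hL he hj 0).le1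
  have := (D.dS hL he hj 1).x0
  linarith

theorem St.final {L T L' : ℕ} {d : ℝ} (hL : 2 ≤ L) (he : Even L) (hT : 2 ≤ T) (h0 : 0 ≤ d)
    (h1 : d ≤ 1 / 40) (h : D.St L T d d d d d d d d) (hL1 : L ≤ L') (hL2 : L' ≤ 2 * L)
    (he' : Even L') : D.w L' T 0 + 3 * D.w L' T 1 ≤ (1 + 30 * d) * D.tT L' 0 ^ T := by
  obtain ⟨ha, hb, -, hd⟩ := h
  have hL' : 2 ≤ L' := by omega
  have u1 := D.Z_upper hL he hT hL1 he' h0 (by linarith) hd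
  have u2 := D.Z_upper hL he (by omega) hL1 he' h0 (by linarith) hb
  have u3 := D.Z_upper (L' := 2 * L) hL he (by omega) (by omega) (even_two_mul L) h0
    (by linarith) hb
  have w1 := D.Z_lower (L := 2 * L) (by omega) (even_two_mul L) hT
  have w2 := D.Z_lower hL' he' (j := 2 * T) (by omega)
  have μ0 := (D.hS T hT 0).top0
  have ν0 := (D.hS (2 * T) (by omega) 0).top0
  have z1 := D.hZ L' T hL' he' hT
  have z2 := D.hZ L' (2 * T) hL' he' (by omega)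
  generalize max (D.tS T 0) (D.tS' T 0) = μ at *
  generalize max (D.tS (2 * T) 0) (D.tS' (2 * T) 0) = ν at *
  obtain ⟨k, hk⟩ : ∃ k, k = 1 + 4 * d := ⟨_, rfl⟩
  have k1 : 1 ≤ k := by linarith
  rw [← hk] at u1 u2 u3
  have νp : 0 < ν := by
    rcases ν0.lt_or_eq with h | h
    · exact h
    · rw [← h, zero_pow (by omega)] at u2; linarith
  have d0 := D.dT (L := 2 * L) (by omega) hT 0
  have d1 := D.dT (L := 2 * L) (by omega) hT 1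
  have v1 : μ ^ (2 * L) ≤ k * D.tT (2 * L) 0 ^ T := by
    have := ha.h0; have := ha.hA 1 (by simp); rw [hk]; linarith
  have v2 : (μ ^ 2 / ν) ^ (2 * L) ≤ k ^ 3 := by
    have e1 := pow_le_pow_left₀ (pow_nonneg μ0 _) v1 2
    have e2 : (D.tT (2 * L) 0 ^ T) ^ 2 ≤ k * ν ^ (2 * L) := by
      have := d0.le2; have := d1.x20; linarith
    have e3 := mul_le_mul_of_nonneg_left e2 (sq_nonneg k)
    rw [div_pow, div_le_iff₀ (pow_pos νp _), ← pow_mul, mul_comm 2 (2 * L), pow_mul]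
    rw [mul_pow] at e1
    linarith
  have v3 : (μ ^ 2 / ν) ^ L' ≤ k ^ 3 := by
    rcases le_total (μ ^ 2 / ν) 1 with c | c
    · exact (pow_le_one₀ (by positivity) c).trans (one_le_pow₀ k1)
    · exact (pow_le_pow_right₀ c hL2).trans v2
  rw [div_pow, div_le_iff₀ (pow_pos νp _), ← pow_mul, mul_comm 2 L', pow_mul] at v3
  have f0 := D.dT hL' hT 0
  have f1 := D.dT hL' hT 1
  obtain ⟨m, hm⟩ : ∃ m, m = max (D.tT L' 0 ^ T) (D.tT L' 1 ^ T) := ⟨_, rfl⟩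
  have m0 : D.tT L' 0 ^ T ≤ m := hm ▸ le_max_left _ _
  have m1 : D.tT L' 1 ^ T ≤ m := hm ▸ le_max_right _ _
  obtain ⟨Z, hZ⟩ : ∃ Z, Z = D.w L' T 0 + 3 * D.w L' T 1 := ⟨_, rfl⟩
  have v4 : D.w L' (2 * T) 0 + 3 * D.w L' (2 * T) 1 ≤ m * Z := by
    have e0 := mul_le_mul_of_nonneg_right m0 f0.x0
    have e1 := mul_le_mul_of_nonneg_right m1 f1.x0
    have := f0.all; have := f1.all
    rw [hZ]; linarith
  rw [← hZ] at u1 z1 ⊢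
  have v5 : Z * Z ≤ k ^ 5 * m * Z := by
    have e1 := pow_le_pow_left₀ (by linarith) u1 2
    rw [mul_pow] at e1
    have e2 := mul_le_mul_of_nonneg_left v3 (sq_nonneg k)
    have e3 := mul_le_mul_of_nonneg_left (w2.trans v4) (by positivity : 0 ≤ k ^ 5)
    linarith
  have v6 : Z ≤ k ^ 5 * m := le_of_mul_le_mul_right v5 (by linarith)
  have k5 : k ^ 5 ≤ 1 + 30 * d := by
    have e1 : k ^ 2 ≤ 1 + 42 / 5 * d := by rw [hk]; nlinarith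
    have e2 : k ^ 4 ≤ 1 + 19 * d := by
      have := pow_le_pow_left₀ (by positivity) e1 2
      nlinarith
    have := mul_le_mul e2 hk.le (by linarith) (by linarith)
    nlinarith
  rcases max_choice (D.tT L' 0 ^ T) (D.tT L' 1 ^ T) with c | c
  · rw [← hm] at c
    rw [← c]
    exact v6.trans (mul_le_mul_of_nonneg_right k5 (c ▸ f0.A0))
  · exfalso
    rw [← hm] at c
    have mm : 0 ≤ m := c ▸ f1.A0
    have e1 : 3 * m ≤ Z := by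
      have := f1.le1; have := f0.x0; rw [hZ, c]; linarith
    have e2 : k ^ 5 * m ≤ 2 * m := mul_le_mul_of_nonneg_right (by linarith) mm
    linarith

theorem fin_small {L T : ℕ} (hL : 2 ≤ L) (he : Even L) (hT : 2 ≤ T)
    (h : D.St L T (1 / 40) (1 / 40) (1 / 40) (1 / 40) (1 / 40) (1 / 40) (1 / 40) (1 / 40)) :
    ∃ θ : ℝ, 0 < θ ∧ θ < 1 ∧ ∀ L', L ≤ L' → Even L' → ∃ j, 2 ≤ j ∧
      D.w L' j 0 + 3 * D.w L' j 1 ≤ (1 + θ ^ j) * D.tT L' 0 ^ j := by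
  obtain ⟨θ, θ0, hθ⟩ : ∃ θ : ℝ, 0 < θ ∧ θ ^ T = 3 / 4 :=
    ⟨(3 / 4 : ℝ) ^ ((T : ℝ)⁻¹), Real.rpow_pos_of_pos (by norm_num) _,
      Real.rpow_inv_natCast_pow (by norm_num) (by omega)⟩
  have θ1 : θ < 1 := by
    by_contra hc
    push Not at hc
    have := one_le_pow₀ (n := T) hc
    linarith
  have hle : ∀ n : ℕ, θ ^ (2 ^ n * T) / 30 ≤ 1 / 40 := by
    intro n
    have e1 : T ≤ 2 ^ n * T := Nat.le_mul_of_pos_left T (by positivity)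
    have := pow_le_pow_of_le_one θ0.le θ1.le e1
    linarith
  have hLn : ∀ n : ℕ, 2 ≤ 2 ^ n * L := fun n =>
    hL.trans (Nat.le_mul_of_pos_left L (by positivity))
  have hTn : ∀ n : ℕ, 2 ≤ 2 ^ n * T := fun n =>
    hT.trans (Nat.le_mul_of_pos_left T (by positivity))
  have key : ∀ n : ℕ, ∀ d, d = θ ^ (2 ^ n * T) / 30 → D.St (2 ^ n * L) (2 ^ n * T) d d d d d d d d := by
    intro n
    induction n with
    | zero =>
      intro d hd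
      have : d = 1 / 40 := by rw [hd, pow_zero, one_mul, hθ]; norm_num
      rw [this]
      simpa only [pow_zero, one_mul] using h
    | succ n ih =>
      intro d hd
      have s := St.small D (hLn n) (he.mul_left _) (hTn n) (by positivity) (hle n) (ih _ rfl)
      have e1 : 2 * (2 ^ n * L) = 2 ^ (n + 1) * L := by ring
      have e2 : 2 * (2 ^ n * T) = 2 ^ (n + 1) * T := by ring
      have e3 : 30 * (θ ^ (2 ^ n * T) / 30) ^ 2 = d := by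
        rw [hd, ← e2, mul_comm 2, pow_mul θ (2 ^ n * T) 2]; ring
      rwa [e1, e2, e3] at s
  refine ⟨θ, θ0, θ1, fun L' hL' he' => ?_⟩
  have hq : 1 ≤ L' / L := (Nat.le_div_iff_mul_le (by omega)).2 (by omega)
  obtain ⟨n, n1, n2⟩ := exists_nat_pow_near hq (by norm_num : (1 : ℕ) < 2)
  have b1 : 2 ^ n * L ≤ L' := (Nat.le_div_iff_mul_le (by omega)).1 n1
  have b2 : L' < 2 ^ (n + 1) * L := (Nat.div_lt_iff_lt_mul (by omega)).1 n2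
  refine ⟨2 ^ n * T, hTn n, ?_⟩
  have := St.final D (hLn n) (he.mul_left _) (hTn n) (by positivity) (hle n) (key n _ rfl) b1
    (by rw [← mul_assoc, ← pow_succ']; exact b2.le) he'
  convert this using 3
  ring

end Sys

end Vale.Agent.P348
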