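import Vale.Agent.P348.Atm

/-! Part Fin, helper: the algebra of one doubling step. -/

namespace Vale.Agent.P348

theorem dual0 (X : Fin 5 → ℝ) : dual X 0 = (X 0 + 3 * X 1 + 3 * X 2 + 3 * X 3 + 6 * X 4) / 4 := by
  simp [dual, Rm, Fin.sum_univ_five]

theorem dual1 (X : Fin 5 → ℝ) : dual X 1 = (X 0 + 3 * X 1 - X 2 - X 3 - 2 * X 4) / 4 := by
  simp [dual, Rm, Fin.sum_univ_five]; ring

theorem dual2 (X : Fin 5 → ℝ) : dual X 2 = (X 0 - X 1 + 3 * X 2 - X 3 - 2 * X 4) / 4 := by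
  simp [dual, Rm, Fin.sum_univ_five]; ring

theorem dual3 (X : Fin 5 → ℝ) : dual X 3 = (X 0 - X 1 - X 2 + 3 * X 3 - 2 * X 4) / 4 := by
  simp [dual, Rm, Fin.sum_univ_five]; ring

theorem dual4 (X : Fin 5 → ℝ) : dual X 4 = (X 0 - X 1 - X 2 - X 3 + 2 * X 4) / 4 := by
  simp [dual, Rm, Fin.sum_univ_five]; ring

theorem dual_dual (X : Fin 5 → ℝ) : dual (dual X) = X := by
  funext c
  fin_cases c
  · show dual (dual X) 0 = X 0
    rw [dual0, dual0, dual1, dual2, dual3, dual4]; ring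
  · show dual (dual X) 1 = X 1
    rw [dual1, dual0, dual1, dual2, dual3, dual4]; ring
  · show dual (dual X) 2 = X 2
    rw [dual2, dual0, dual1, dual2, dual3, dual4]; ring
  · show dual (dual X) 3 = X 3
    rw [dual3, dual0, dual1, dual2, dual3, dual4]; ring
  · show dual (dual X) 4 = X 4
    rw [dual4, dual0, dual1, dual2, dual3, dual4]; ring

/-- facts about one atomic sequence along a doubling `a → 2 a`, top power `A`. -/
structure Dbl (x x2 A : ℝ) : Prop where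
  A0 : 0 ≤ A
  le1 : A ≤ x
  le2 : A ^ 2 ≤ x2
  all : x2 ≤ A * x
  rest : x2 - A ^ 2 ≤ (x - A) ^ 2
  sq : x2 ≤ x ^ 2

variable {S : ℕ → ℝ} {t u t' u' : ℝ}

theorem Atoms.dblF (h : Atoms false S t u 0 0) {a : ℕ} (ha : 2 ≤ a) :
    Dbl (S a) (S (2 * a)) (t ^ a) := by
  have ht : 0 ≤ t := h.u0.trans h.ut
  have hu := h.u0
  have e1 : (t ^ a) ^ 2 = t ^ (2 * a) := by rw [← pow_mul, mul_comm]
  have h1 := h.pow_le ha (Or.inl rfl)
  have h2 := h.pow_le (e := 2 * a) (by omega) (Or.inl rfl)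
  have z1 : (0 : ℝ) ^ a = 0 := zero_pow (by omega)
  have z2 : (0 : ℝ) ^ (2 * a) = 0 := zero_pow (by omega)
  have p1 := pow_nonneg hu a
  have p2 := pow_nonneg hu (2 * a)
  refine ⟨pow_nonneg ht a, by linarith, by rw [e1]; linarith, ?_, ?_, h.sq_le ha (Or.inl rfl)⟩
  · have := h.all_le (b := 2 * a) ha (by omega) (Or.inl rfl) le_rfl ht
    rwa [show 2 * a - a = a by omega] at this
  · rw [e1]; exact h.rest_sq ha (Or.inl rfl)

theorem Atoms.top_le {σ : Bool} (h : Atoms σ S t u t' u') {a : ℕ} (ha : 2 ≤ a)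
    (ok : σ = false ∨ Even a) : max t t' ^ a ≤ S a := by
  have h1 := h.pow_le ha ok
  have p1 := pow_nonneg h.u0 a
  have p2 := pow_nonneg h.u0' a
  have p3 := pow_nonneg (h.u0.trans h.ut) a
  have p4 := pow_nonneg (h.u0'.trans h.ut') a
  rcases max_choice t t' with e | e <;> rw [e] <;> linarith

theorem Atoms.top0 {σ : Bool} (h : Atoms σ S t u t' u') : 0 ≤ max t t' :=
  le_max_of_le_left (h.u0.trans h.ut)

theorem Atoms.dblT (h : Atoms true S t u t' u') {a : ℕ} (ha : 2 ≤ a) (he : Even a) :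
    Dbl (S a) (S (2 * a)) (max t t' ^ a) := by
  have e1 : (max t t' ^ a) ^ 2 = max t t' ^ (2 * a) := by rw [← pow_mul, mul_comm]
  have he2 : Even (2 * a) := even_two_mul a
  refine ⟨pow_nonneg h.top0 a, h.top_le ha (Or.inr he), ?_, ?_, ?_, h.sq_le ha (Or.inr he)⟩
  · rw [e1]; exact h.top_le (by omega) (Or.inr he2)
  · have := h.all_le (b := 2 * a) ha (by omega) (Or.inr ⟨he, he2⟩) (le_max_left t t')
      (le_max_right t t')
    rwa [show 2 * a - a = a by omega] at this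
  · rw [e1]
    rcases max_choice t t' with e | e <;> rw [e]
    · exact h.rest_sq ha (Or.inr he)
    · have := h.flip.rest_sq ha (Or.inr he)
      simpa [he.neg_one_pow, he2.neg_one_pow] using this

theorem Dbl.x0 {x x2 A : ℝ} (h : Dbl x x2 A) : 0 ≤ x := h.A0.trans h.le1

theorem Dbl.x20 {x x2 A : ℝ} (h : Dbl x x2 A) : 0 ≤ x2 := (sq_nonneg A).trans h.le2

theorem Imp.sq {X X2 T : Fin 5 → ℝ} {p q : ℝ} (h : Imp X (T 0) (T 2) p q)
    (d : ∀ c, Dbl (X c) (X2 c) (T c)) : Imp X2 (T 0 ^ 2) (T 2 ^ 2) (p ^ 2) (q ^ 2) := by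
  have k1 : ∀ c, X c ≤ (1 + q) * T c → X2 c ≤ (1 + q ^ 2) * T c ^ 2 := by
    intro c hc
    have h1 := (d c).rest
    have h2 : (X c - T c) ^ 2 ≤ (q * T c) ^ 2 :=
      pow_le_pow_left₀ (by linarith [(d c).le1]) (by linarith) 2
    nlinarith
  have k2 : ∀ c (A : ℝ), X c ≤ p * A → X2 c ≤ p ^ 2 * A ^ 2 := by
    intro c A hc
    have h2 : X c ^ 2 ≤ (p * A) ^ 2 := pow_le_pow_left₀ (d c).x0 hc 2
    have := (d c).sq
    nlinarith
  exact ⟨k1 0 h.h0, k1 2 h.h2, fun c hc => k2 c _ (h.hA c hc), fun c hc => k2 c _ (h.hB c hc)⟩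

/-- lower bound of the new top. -/
theorem top_lower {x x2 A U F S1 a0 : ℝ} (d : Dbl x x2 A) (hF : 0 < F) (hU0 : 0 < U)
    (hx : x ≤ U * F) (hx2 : S1 * F ^ 2 ≤ x2) (hU : U ^ 2 < 2 * S1)
    (ha : a0 ^ 2 + (U - a0) ^ 2 ≤ S1) : a0 * F ≤ A := by
  have h1 : S1 * F ^ 2 ≤ A * (U * F) :=
    hx2.trans (d.all.trans (mul_le_mul_of_nonneg_left hx d.A0))
  have h2 : U * F < 2 * A := by
    by_contra hc
    push Not at hc
    have hUF : 0 < U * F := mul_pos hU0 hF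
    have h3 : 2 * A * (U * F) ≤ U * F * (U * F) := mul_le_mul_of_nonneg_right hc hUF.le
    have h4 : U ^ 2 * F ^ 2 < 2 * S1 * F ^ 2 := mul_lt_mul_of_pos_right hU (by positivity)
    nlinarith
  have h3 : (x - A) ^ 2 ≤ (U * F - A) ^ 2 :=
    pow_le_pow_left₀ (by linarith [d.le1]) (by linarith) 2
  have h4 : (a0 ^ 2 + (U - a0) ^ 2) * F ^ 2 ≤ S1 * F ^ 2 :=
    mul_le_mul_of_nonneg_right ha (by positivity)
  have h5 := d.rest
  by_contra hc
  push Not at hc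
  have h6 : 0 < (a0 * F - A) * (a0 * F + A - U * F) := mul_pos (by linarith) (by linarith)
  nlinarith

end Vale.Agent.P348
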