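import Vale.Agent.P348.Base

/-! Part Rep: any spin-one triple gives the spectrum of the integer matrix `- M L 0`. -/

namespace Vale.Agent.P348

open Matrix

/-- the Cartesian spin-one matrices. -/
noncomputable def cart (a : Fin 3) : Matrix (Fin 3) (Fin 3) ℂ :=
  fun b c => -Complex.I * (eps a b c : ℂ)

theorem cart_spin : IsSpinOne cart := by
  refine ⟨fun a => ?_, fun a b => ?_, ?_⟩
  · ext b c
    fin_cases a <;> fin_cases b <;> fin_cases c <;> simp [cart, eps, conjTranspose_apply]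
  · ext c d
    fin_cases a <;> fin_cases b <;> fin_cases c <;> fin_cases d <;>
      simp [cart, eps, Matrix.mul_apply, Fin.sum_univ_three, Matrix.sum_apply]
  · ext c d
    fin_cases c <;> fin_cases d <;>
      simp [cart, eps, Matrix.mul_apply, Fin.sum_univ_three, Matrix.sum_apply] <;> norm_num

theorem exists_spinOne : ∃ S, IsSpinOne S := ⟨cart, cart_spin⟩

theorem rep_ch0 (A : Matrix (Fin 3) (Fin 3) ℂ) :
    (6 : ℂ) • (A * A * A) = (6 * trace A) • (A * A) - (3 * (trace A ^ 2 - trace (A * A))) • A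
      + (trace A ^ 3 - 3 * trace A * trace (A * A) + 2 * trace (A * A * A)) • 1 := by
  ext i j
  fin_cases i <;> fin_cases j <;>
    simp [trace_fin_three, Matrix.mul_apply, Fin.sum_univ_three] <;> ring

theorem rep_ch (A : Matrix (Fin 3) (Fin 3) ℂ) (h1 : trace A = 0) (h2 : trace (A * A) = 2)
    (h3 : trace (A * A * A) = 0) : A * A * A = A := by
  have h := rep_ch0 A
  rw [h1, h2, h3] at h
  have h6 : (6 : ℂ) • (A * A * A) = (6 : ℂ) • A := by
    rw [h]; module
  exact smul_right_injective _ (by norm_num : (6 : ℂ) ≠ 0) h6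

open Complex in
theorem rep_tr {X Y Z : Matrix (Fin 3) (Fin 3) ℂ} (hz : X * Y - Y * X = I • Z)
    (hx : Y * Z - Z * Y = I • X) (hy : Z * X - X * Z = I • Y) :
    trace Z = 0 ∧ trace (Z * Z) = trace (Y * Y) ∧
      ((X * X + Y * Y + Z * Z = (2 : ℂ) • (1 : Matrix (Fin 3) (Fin 3) ℂ)) →
        trace (Z * Z * Z) = 0) := by
  have hI : I ≠ 0 := I_ne_zero
  have t0 : trace Z = 0 := by
    have h := congrArg trace hz
    rw [trace_sub, trace_mul_comm X Y, sub_self, trace_smul, smul_eq_mul] at h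
    exact (mul_eq_zero.1 h.symm).resolve_left hI
  refine ⟨t0, ?_, fun hc => ?_⟩
  · have h1 := congrArg (fun B => trace (Z * B)) hz
    have h2 := congrArg (fun B => trace (B * Y)) hy
    simp only [mul_sub, sub_mul, trace_sub, mul_smul_comm, smul_mul_assoc, trace_smul,
      smul_eq_mul] at h1 h2
    have e1 : trace (Z * (Y * X)) = trace (X * Z * Y) := by
      rw [← mul_assoc, trace_mul_comm, mul_assoc]
    rw [e1, ← mul_assoc] at h1
    exact mul_left_cancel₀ hI (h1.symm.trans h2)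
  · have h1 := congrArg (fun B => trace (Z * Z * B)) hz
    have h2 := congrArg (fun B => trace (Z * B * Y)) hy
    have h3 := congrArg (fun B => trace (B * Z * Y)) hy
    have h4 := congrArg (fun B => trace (X * B * Z)) hx
    have h5 := congrArg (fun B => trace (X * Z * B)) hx
    have h6 := congrArg (fun B => trace (Z * B)) hc
    simp only [mul_sub, sub_mul, mul_add, trace_sub, trace_add, mul_smul_comm, smul_mul_assoc,
      trace_smul, smul_eq_mul, mul_one, t0, mul_zero, ← mul_assoc] at h1 h2 h3 h4 h5 h6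
    have e1 : trace (Z * Z * Y * X) = trace (X * Z * Z * Y) := by
      rw [trace_mul_comm]; simp only [mul_assoc]
    have e2 : trace (Z * Z * X * Y) = trace (X * Y * Z * Z) := by
      rw [mul_assoc (Z * Z), trace_mul_comm]; simp only [mul_assoc]
    have e3 : trace (Y * Z * Y) = trace (Z * Y * Y) := by
      rw [mul_assoc, trace_mul_comm]
    have e4 : trace (X * X * Z) = trace (Z * X * X) := by
      rw [trace_mul_comm]; simp only [mul_assoc]
    have e5 : trace (X * Z * X) = trace (Z * X * X) := by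
      rw [mul_assoc, trace_mul_comm]
    have a1 : I * trace (Z * Z * Z) = I * (2 * trace (Z * Y * Y)) := by
      linear_combination -h1 + h2 + h3 - e1 + I * e3
    have a2 : I * trace (Z * Z * Z) = I * (2 * trace (Z * X * X)) := by
      linear_combination -h1 + h4 + h5 - e1 + e2 + I * e4 + I * e5
    have b1 := mul_left_cancel₀ hI a1
    have b2 := mul_left_cancel₀ hI a2
    linear_combination (1 / 2 : ℂ) * h6 + (1 / 4 : ℂ) * b1 + (1 / 4 : ℂ) * b2

open scoped ComplexOrder in
theorem rep_orth {P Q R : Matrix (Fin 3) (Fin 3) ℂ} (hP : Pᴴ = P) (hQ : Qᴴ = Q) (hR : Rᴴ = R)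
    (pP : P * P = P) (pQ : Q * Q = Q) (pR : R * R = R) (h : P + Q + R = 1) : Q * P = 0 := by
  have e : (Q * P)ᴴ * (Q * P) + (R * P)ᴴ * (R * P) = 0 := by
    rw [conjTranspose_mul, conjTranspose_mul, hP, hQ, hR]
    have h1 : P * (P + Q + R) * P = P := by rw [h, mul_one, pP]
    have h2 : P * Q * (Q * P) = P * Q * P := by rw [mul_assoc, ← mul_assoc Q, pQ, mul_assoc]
    have h3 : P * R * (R * P) = P * R * P := by rw [mul_assoc, ← mul_assoc R, pR, mul_assoc]
    rw [h2, h3]
    rw [mul_add, mul_add, add_mul, add_mul, pP, pP] at h1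
    rw [add_assoc] at h1
    exact add_eq_left.1 h1
  have t := congrArg trace e
  rw [trace_add, trace_zero] at t
  have := (add_eq_zero_iff_of_nonneg (posSemidef_conjTranspose_mul_self (Q * P)).trace_nonneg
    (posSemidef_conjTranspose_mul_self (R * P)).trace_nonneg).1 t
  exact trace_conjTranspose_mul_self_eq_zero_iff.1 this.1

open Complex in
theorem rep_U {S : Fin 3 → Matrix (Fin 3) (Fin 3) ℂ} (hS : IsSpinOne S) :
    ∃ U : Matrix (Fin 3) (Fin 3) ℂ, IsUnit U.det ∧ ∀ a, S a * U = U * cart a := by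
  have hz : S 0 * S 1 - S 1 * S 0 = I • S 2 := by
    simpa [eps, Fin.sum_univ_three] using hS.comm 0 1
  have hx : S 1 * S 2 - S 2 * S 1 = I • S 0 := by
    simpa [eps, Fin.sum_univ_three] using hS.comm 1 2
  have hy : S 2 * S 0 - S 0 * S 2 = I • S 1 := by
    simpa [eps, Fin.sum_univ_three] using hS.comm 2 0
  have hc : S 0 * S 0 + S 1 * S 1 + S 2 * S 2 = (2 : ℂ) • (1 : Matrix (Fin 3) (Fin 3) ℂ) := by
    simpa [Fin.sum_univ_three] using hS.casimir
  have hX := (hS.herm 0).eq
  have hY := (hS.herm 1).eq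
  have hZ := (hS.herm 2).eq
  generalize hX' : S 0 = X at *
  generalize hY' : S 1 = Y at *
  generalize hZ' : S 2 = Z at *
  obtain ⟨z1, z2, z3⟩ := rep_tr hz hx hy
  obtain ⟨x1, x2, x3⟩ := rep_tr hx hy hz
  obtain ⟨y1, y2, y3⟩ := rep_tr hy hz hx
  have tc := congrArg trace hc
  rw [trace_add, trace_add, trace_smul, trace_one] at tc
  simp only [Fintype.card_fin, Nat.cast_ofNat, smul_eq_mul] at tc
  have tz : trace (Z * Z) = 2 := by linear_combination (1 / 3 : ℂ) * (tc - x2 + z2)
  have cX : X * X * X = X := rep_ch X x1 (x2.trans tz) (x3 (by rw [← hc]; abel))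
  have cY : Y * Y * Y = Y := rep_ch Y y1 (z2.symm.trans tz) (y3 (by rw [← hc]; abel))
  have cZ : Z * Z * Z = Z := rep_ch Z z1 tz (z3 hc)
  have herm : ∀ A : Matrix (Fin 3) (Fin 3) ℂ, Aᴴ = A → (1 - A * A)ᴴ = 1 - A * A := by
    intro A hA
    rw [conjTranspose_sub, conjTranspose_one, conjTranspose_mul, hA]
  have idem : ∀ A : Matrix (Fin 3) (Fin 3) ℂ, A * A * A = A →
      (1 - A * A) * (1 - A * A) = 1 - A * A := by
    intro A hA
    rw [sub_mul, one_mul, mul_sub, mul_one, ← mul_assoc, hA, sub_self, sub_zero]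
  have hs : (1 - Z * Z) + (1 - X * X) + (1 - Y * Y) = 1 := by
    have : (1 - Z * Z) + (1 - X * X) + (1 - Y * Y)
        = (3 : ℂ) • (1 : Matrix (Fin 3) (Fin 3) ℂ) - (X * X + Y * Y + Z * Z) := by module
    rw [this, hc]; module
  have oX := rep_orth (herm Z hZ) (herm X hX) (herm Y hY) (idem Z cZ) (idem X cX) (idem Y cY) hs
  have oY := rep_orth (herm Z hZ) (herm Y hY) (herm X hX) (idem Z cZ) (idem Y cY) (idem X cX)
    (by rw [add_right_comm]; exact hs)
  have hne : (1 - Z * Z) ≠ 0 := by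
    intro h
    have := congrArg trace h
    rw [trace_sub, trace_one, tz, trace_zero] at this
    norm_num at this
  obtain ⟨w, hw⟩ : ∃ w, (1 - Z * Z) *ᵥ w ≠ 0 := by
    by_contra hcon
    push Not at hcon
    apply hne
    ext i j
    have := congrFun (hcon (Pi.single j 1)) i
    simpa using this
  set ez := (1 - Z * Z) *ᵥ w with hez
  have Zz : Z *ᵥ ez = 0 := by
    rw [hez, mulVec_mulVec, mul_sub, mul_one, ← mul_assoc, cZ, sub_self, zero_mulVec]
  have XX : X *ᵥ (X *ᵥ ez) = ez := by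
    have : (1 - X * X) *ᵥ ez = 0 := by rw [hez, mulVec_mulVec, oX, zero_mulVec]
    rw [sub_mulVec, one_mulVec, ← mulVec_mulVec] at this
    exact (sub_eq_zero.1 this).symm
  have YY : Y *ᵥ (Y *ᵥ ez) = ez := by
    have : (1 - Y * Y) *ᵥ ez = 0 := by rw [hez, mulVec_mulVec, oY, zero_mulVec]
    rw [sub_mulVec, one_mulVec, ← mulVec_mulVec] at this
    exact (sub_eq_zero.1 this).symm
  have ZY : Z *ᵥ (Y *ᵥ ez) = -I • (X *ᵥ ez) := by
    have := congrArg (· *ᵥ ez) hx
    simp only [sub_mulVec, ← mulVec_mulVec, Zz, mulVec_zero, smul_mulVec, zero_sub] at this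
    rw [neg_smul, ← this, neg_neg]
  have ZX : Z *ᵥ (X *ᵥ ez) = I • (Y *ᵥ ez) := by
    have := congrArg (· *ᵥ ez) hy
    simpa only [sub_mulVec, ← mulVec_mulVec, Zz, mulVec_zero, smul_mulVec, sub_zero] using this
  have XXY : X *ᵥ (X *ᵥ (Y *ᵥ ez)) = 0 := by
    have := congrArg (· *ᵥ (Y *ᵥ ez)) hc
    simp only [add_mulVec, ← mulVec_mulVec, YY, ZY, mulVec_smul, ZX, smul_mulVec, one_mulVec,
      smul_smul] at this
    have e : (-I * I : ℂ) = 1 := by simp
    rw [e, one_smul, two_smul, add_assoc] at this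
    exact add_eq_right.1 this
  have XY : X *ᵥ (Y *ᵥ ez) = 0 := by
    have := congrArg (· *ᵥ (Y *ᵥ ez)) cX
    simp only [← mulVec_mulVec, XXY, mulVec_zero] at this
    exact this.symm
  have YX : Y *ᵥ (X *ᵥ ez) = 0 := by
    have := congrArg (· *ᵥ ez) hz
    simp only [sub_mulVec, ← mulVec_mulVec, Zz, smul_mulVec, smul_zero, XY, zero_sub] at this
    exact neg_eq_zero.1 this
  let e : Fin 3 → Fin 3 → ℂ := ![-I • (Y *ᵥ ez), I • (X *ᵥ ez), ez]
  have key : ∀ a c, S a *ᵥ e c = ∑ b, cart a b c • e b := by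
    intro a c
    fin_cases a <;> fin_cases c <;>
      simp [e, cart, eps, hX', hY', hZ', mulVec_smul, mulVec_neg, XX, YY, ZY,
        ZX, XY, YX, Zz, smul_smul]
  have inter : ∀ a, S a * (of e)ᵀ = (of e)ᵀ * cart a := by
    intro a
    ext i c
    have := congrFun (key a c) i
    simp only [mulVec, dotProduct, Finset.sum_apply, Pi.smul_apply, smul_eq_mul] at this
    simp only [Matrix.mul_apply, transpose_apply, of_apply]
    rw [this]
    exact Finset.sum_congr rfl fun b _ => mul_comm _ _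
  refine ⟨(of e)ᵀ, ?_, inter⟩
  rw [isUnit_iff_ne_zero]
  intro hdet
  obtain ⟨v, hv0, hv⟩ := exists_mulVec_eq_zero_iff.2 hdet
  have hv' : v 0 • e 0 + v 1 • e 1 + v 2 • e 2 = 0 := by
    ext i
    have := congrFun hv i
    simp only [mulVec, dotProduct, transpose_apply, of_apply, Fin.sum_univ_three] at this
    simp only [Pi.add_apply, Pi.smul_apply, smul_eq_mul]
    linear_combination this
  simp only [e, cons_val_zero, cons_val_one, cons_val] at hv'
  have h1 := congrArg (fun u => Y *ᵥ (Z *ᵥ (Z *ᵥ u))) hv'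
  have h2 := congrArg (fun u => X *ᵥ (Z *ᵥ (Z *ᵥ u))) hv'
  simp only [mulVec_add, mulVec_smul, ZY, ZX, Zz, XX, YY, XY, YX, smul_zero, mulVec_zero,
    add_zero, zero_add, smul_smul, smul_eq_zero, hw, or_false, mul_eq_zero, neg_eq_zero,
    I_ne_zero] at h1 h2
  rw [h1, h2] at hv'
  simp only [zero_smul, zero_add, smul_eq_zero, hw, or_false] at hv'
  apply hv0
  ext i
  fin_cases i <;> simp [h1, h2, hv']

/-- tensor product of a family of one-site matrices. -/
noncomputable def tn {L : ℕ} (F : Fin L → Matrix (Fin 3) (Fin 3) ℂ) : Matrix (Cfg L) (Cfg L) ℂ :=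
  fun s t => ∏ i, F i (s i) (t i)

theorem tn_mul {L : ℕ} (F H : Fin L → Matrix (Fin 3) (Fin 3) ℂ) :
    tn F * tn H = tn fun i => F i * H i := by
  ext s t
  simp only [tn, Matrix.mul_apply]
  rw [Finset.prod_univ_sum, Fintype.piFinset_univ]
  exact Finset.sum_congr rfl fun u _ => Finset.prod_mul_distrib.symm

theorem tn_one {L : ℕ} : tn (L := L) (fun _ => 1) = 1 := by
  ext s t
  simp only [tn, Matrix.one_apply]
  by_cases h : s = t
  · simp [h]
  · rw [if_neg h]
    obtain ⟨i, hi⟩ := Function.ne_iff.1 h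
    exact Finset.prod_eq_zero (Finset.mem_univ i) (if_neg hi)

theorem site_eq (L : ℕ) (j : Fin L) (X : Matrix (Fin 3) (Fin 3) ℂ) :
    site L j X = tn fun i => if i = j then X else 1 := by
  ext s t
  simp only [site, tn]
  refine Finset.prod_congr rfl fun i _ => ?_
  by_cases h : i = j <;> simp [h, Matrix.one_apply]

theorem site_inter {L : ℕ} (j : Fin L) {X C U : Matrix (Fin 3) (Fin 3) ℂ} (h : X * U = U * C) :
    site L j X * tn (fun _ => U) = tn (fun _ => U) * site L j C := by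
  rw [site_eq, site_eq, tn_mul, tn_mul]
  congr 1
  funext i
  by_cases hi : i = j <;> simp [hi, h]

theorem rot_ne {L : ℕ} (hL : 2 ≤ L) (j : Fin L) : finRotate L j ≠ j := by
  obtain ⟨n, rfl⟩ : ∃ n, L = n + 2 := ⟨L - 2, by omega⟩
  rw [finRotate_apply]
  intro h
  exact one_ne_zero (add_eq_left.1 h)

theorem ham_cart {L : ℕ} (hL : 2 ≤ L) :
    ham cart L = -((M L 0).map (Int.cast : ℤ → ℂ)) := by
  ext s t
  simp only [ham, M, Matrix.sum_apply, Matrix.neg_apply, Matrix.map_apply, ite_self, Int.cast_sum]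
  rw [← Finset.sum_neg_distrib]
  refine Finset.sum_congr rfl fun j _ => ?_
  have hj := rot_ne hL j
  simp only [site_eq, tn_mul, tn]
  split_ifs with h
  · simp only [loc, Int.cast_sum]
    rw [← Finset.sum_neg_distrib]
    refine Finset.sum_congr rfl fun a _ => ?_
    rw [Fintype.prod_eq_mul j (finRotate L j) hj.symm]
    · have c0 : chi 0 (cls a) = 1 := by simp [chi]
      simp only [if_true, if_neg hj, if_neg hj.symm, mul_one, one_mul, cart, c0, Int.cast_mul]
      linear_combination ((eps a (s j) (t j) : ℂ) *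
        eps a (s (finRotate L j)) (t (finRotate L j))) * Complex.I_mul_I
    · intro i hi
      rw [if_neg hi.1, if_neg hi.2, mul_one, h i hi.1 hi.2, Matrix.one_apply_eq]
  · push Not at h
    obtain ⟨i, h1, h2, h3⟩ := h
    rw [Int.cast_zero, neg_zero]
    refine Finset.sum_eq_zero fun a _ => Finset.prod_eq_zero (Finset.mem_univ i) ?_
    rw [if_neg h1, if_neg h2, mul_one, Matrix.one_apply_ne h3]

theorem rep {S : Fin 3 → Matrix (Fin 3) (Fin 3) ℂ} (hS : IsSpinOne S) {L : ℕ} (hL : 2 ≤ L)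
    (E : ℝ) : E ∈ spectrum ℝ (ham S L) ↔
      ∃ v : Cfg L → ℝ, v ≠ 0 ∧ ((M L 0).map (Int.cast : ℤ → ℝ)) *ᵥ v = (-E) • v := by
  obtain ⟨U, hU, hi⟩ := rep_U hS
  let u : (Matrix (Cfg L) (Cfg L) ℂ)ˣ :=
    ⟨tn fun _ => U, tn fun _ => U⁻¹,
      by rw [tn_mul]; simp only [mul_nonsing_inv U hU]; exact tn_one,
      by rw [tn_mul]; simp only [nonsing_inv_mul U hU]; exact tn_one⟩
  have h1 : ham S L * (u : Matrix (Cfg L) (Cfg L) ℂ) = u * ham cart L := by
    simp only [ham, Finset.sum_mul, Finset.mul_sum, u]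
    refine Finset.sum_congr rfl fun j _ => Finset.sum_congr rfl fun a _ => ?_
    rw [mul_assoc, site_inter _ (hi a), ← mul_assoc, site_inter _ (hi a), mul_assoc]
  have h2 : ham S L = u * ham cart L * (u⁻¹ : (Matrix (Cfg L) (Cfg L) ℂ)ˣ) := by
    rw [← h1, Units.mul_inv_cancel_right]
  rw [h2, spectrum.units_conjugate, ham_cart hL, spectrum.mem_iff]
  set N : Matrix (Cfg L) (Cfg L) ℝ := (M L 0).map (Int.cast : ℤ → ℝ) with hN
  have h3 : algebraMap ℝ (Matrix (Cfg L) (Cfg L) ℂ) E - -((M L 0).map (Int.cast : ℤ → ℂ))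
      = Complex.ofRealHom.mapMatrix (E • (1 : Matrix (Cfg L) (Cfg L) ℝ) + N) := by
    ext s t
    by_cases h : s = t <;> simp [hN, Matrix.algebraMap_matrix_apply, h]
  rw [h3, Matrix.isUnit_iff_isUnit_det, ← RingHom.map_det, isUnit_iff_ne_zero, not_not,
    map_eq_zero, ← exists_mulVec_eq_zero_iff]
  refine exists_congr fun v => and_congr_right fun _ => ?_
  rw [add_mulVec, smul_mulVec, one_mulVec, neg_smul, add_comm, add_eq_zero_iff_eq_neg]

end Vale.Agent.P348
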