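import Vale.Agent.P348.Var
import Vale.Agent.P348.Rep

/-! Part Gap: the physical system and the final conclusion. -/

namespace Vale.Agent.P348

open Finset Filter Topology

theorem exists_sys (ε C : ℝ) (h : ∀ L, 2 ≤ L → ∃ g α i, ε * L - C ≤ ev L g α i) :
    ∃ D : Sys, D.w = wv ε ∧ ∀ L, D.tT L 0 = 0 ∨ ∃ i, Real.exp (ev L 0 0 i - ε * L) = D.tT L 0 := by
  choose tT uT hT hT' using fun (L : ℕ) (c : Fin 5) =>
    atoms_fin_pos (fun i => Real.exp (ev L (gc c) (ac c) i - ε * L)) fun i => (Real.exp_pos _).le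
  choose tS uS tS' uS' hS using space ε
  exact ⟨⟨wv ε, tT, uT, tS, uS, tS', uS', fun L _ c => hT L c, fun j _ c => hS j c,
    fun L j hL he _ => hZ_of ε C h L j hL he⟩, rfl, fun L => hT' L 0⟩

/-- all eigenvalues of the untwisted ring. -/
noncomputable def evA (L : ℕ) (p : Σ α : G, {s : Cfg L // sec s = α}) : ℝ := ev L 0 p.1 p.2

theorem gap_sumG (f : G → ℝ) (a b : ℝ) (h0 : f 0 = a) (h1 : ∀ α, α ≠ 0 → f α = b) :
    ∑ α, f α = a + 3 * b := by
  rw [← Finset.add_sum_erase _ _ (Finset.mem_univ 0), h0,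
    Finset.sum_congr rfl fun α hα => h1 α (Finset.ne_of_mem_erase hα), Finset.sum_const,
    Finset.card_erase_of_mem (Finset.mem_univ _)]
  simp

theorem gap_Z (ε : ℝ) {L : ℕ} (hL : 2 ≤ L) (j : ℕ) :
    ∑ p, Real.exp (evA L p - ε * L) ^ j = wv ε L j 0 + 3 * wv ε L j 1 := by
  rw [Fintype.sum_sigma]
  refine gap_sumG (fun α => W ε L 0 α j) _ _ ?_ fun α hα => ?_
  · rw [W_class ε hL]; simp [cl]
  · rw [W_class ε hL]; simp [cl, hα]

theorem gap_tr {L : ℕ} (hL : 2 ≤ L) : ∑ p, evA L p = 0 := by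
  rw [Fintype.sum_sigma]
  refine Finset.sum_eq_zero fun α _ => ?_
  have := sum_ev_pow hL 0 α 1
  simp only [pow_one, mom, M_diag, Finset.sum_const_zero, Int.cast_zero] at this
  exact this

theorem gap_spec {S : Fin 3 → Matrix (Fin 3) (Fin 3) ℂ} (hS : IsSpinOne S) {L : ℕ} (hL : 2 ≤ L) :
    spectrum ℝ (ham S L) = Set.range fun p => -evA L p := by
  ext E
  rw [rep hS hL, eig_iff hL]
  constructor
  · rintro ⟨α, i, h⟩
    exact ⟨⟨α, i⟩, by simp only [evA, h, neg_neg]⟩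
  · rintro ⟨p, rfl⟩
    exact ⟨p.1, p.2, by simp only [evA, neg_neg]⟩

theorem gap_two {ι : Type} [Fintype ι] (f : ι → ℝ) (a b : ι) (hab : f a ≠ f b) :
    ∃ E0 E1 : ℝ, IsLeast (Set.range f) E0 ∧ IsLeast (Set.range f \ {E0}) E1 := by
  obtain ⟨E0, h0, h0'⟩ := Set.exists_min_image _ id (Set.finite_range f) ⟨f a, a, rfl⟩
  have hne : (Set.range f \ {E0}).Nonempty := by
    by_cases h : f a = E0
    · exact ⟨f b, ⟨b, rfl⟩, fun h' => hab (h.trans (Set.mem_singleton_iff.1 h').symm)⟩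
    · exact ⟨f a, ⟨a, rfl⟩, h⟩
  obtain ⟨E1, h1, h1'⟩ := Set.exists_min_image _ id ((Set.finite_range f).subset Set.sdiff_subset) hne
  exact ⟨E0, E1, ⟨h0, h0'⟩, ⟨h1, h1'⟩⟩

theorem gap_of (ε : ℝ) (hε : 0 < ε) (D : Sys) (hw : D.w = wv ε)
    (ht : ∀ L, D.tT L 0 = 0 ∨ ∃ i, Real.exp (ev L 0 0 i - ε * L) = D.tT L 0) (L0 : ℕ) (θ : ℝ)
    (h0 : 0 < θ) (h1 : θ < 1) (h : ∀ L', L0 ≤ L' → Even L' → ∃ j, 2 ≤ j ∧
      D.w L' j 0 + 3 * D.w L' j 1 ≤ (1 + θ ^ j) * D.tT L' 0 ^ j)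
    {S : Fin 3 → Matrix (Fin 3) (Fin 3) ℂ} (hS : IsSpinOne S) :
    ∃ Δ : ℝ, 0 < Δ ∧ ∀ L, Even L → 4 ≤ L → ∃ E0 E1 : ℝ, IsLeast (spectrum ℝ (ham S L)) E0 ∧
      IsLeast (spectrum ℝ (ham S L) \ {E0}) E1 ∧ Δ ≤ E1 - E0 := by
  have hZ : ∀ L j, 2 ≤ L → Even L → 2 ≤ j → 1 ≤ ∑ p, Real.exp (evA L p - ε * L) ^ j := by
    intro L j hL he hj
    rw [gap_Z ε hL, ← hw]
    exact D.hZ L j hL he hj
  have A : ∀ L, Even L → 4 ≤ L → ∃ E0 E1 : ℝ, IsLeast (spectrum ℝ (ham S L)) E0 ∧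
      IsLeast (spectrum ℝ (ham S L) \ {E0}) E1 := by
    intro L he hL
    have hL2 : 2 ≤ L := by omega
    rw [gap_spec hS hL2]
    have hpos : ∃ p, 0 < evA L p := by
      by_contra hc
      push Not at hc
      have hLpos : (0 : ℝ) < L := by exact_mod_cast (by omega : 0 < L)
      have lim : Tendsto (fun j : ℕ => ∑ p, Real.exp (evA L p - ε * L) ^ j) atTop
          (𝓝 (∑ _p : (Σ α : G, {s : Cfg L // sec s = α}), (0 : ℝ))) := by
        refine tendsto_finsetSum _ fun p _ =>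
          tendsto_pow_atTop_nhds_zero_of_lt_one (Real.exp_pos _).le ?_
        rw [Real.exp_lt_one_iff]
        have := hc p
        nlinarith [mul_pos hε hLpos]
      rw [Finset.sum_const_zero] at lim
      have := ge_of_tendsto lim ((eventually_ge_atTop 2).mono fun j hj => hZ L j hL2 he hj)
      norm_num at this
    obtain ⟨a, ha⟩ := hpos
    have hneg : ∃ p, evA L p < 0 := by
      by_contra hc
      push Not at hc
      have := Finset.sum_pos' (s := Finset.univ) (fun p _ => hc p) ⟨a, Finset.mem_univ _, ha⟩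
      rw [gap_tr hL2] at this
      exact lt_irrefl _ this
    obtain ⟨b, hb⟩ := hneg
    exact gap_two _ a b (by linarith [ha, hb] : (-evA L a) < -evA L b).ne
  have B : ∀ L, Even L → 4 ≤ L → L0 ≤ L → ∀ E0 E1 : ℝ, IsLeast (spectrum ℝ (ham S L)) E0 →
      IsLeast (spectrum ℝ (ham S L) \ {E0}) E1 → -Real.log θ ≤ E1 - E0 := by
    intro L he hL hL0 E0 E1 hE0 hE1
    have hL2 : 2 ≤ L := by omega
    rw [gap_spec hS hL2] at hE0 hE1
    obtain ⟨j, hj, hb⟩ := h L hL0 he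
    rw [hw, ← gap_Z ε hL2] at hb
    have hj0 : j ≠ 0 := by omega
    rcases ht L with h00 | ⟨i0, hi0⟩
    · have := (hZ L j hL2 he hj).trans hb
      rw [h00, zero_pow hj0, mul_zero] at this
      norm_num at this
    let p0 : Σ α : G, {s : Cfg L // sec s = α} := ⟨0, i0⟩
    have hp0 : Real.exp (evA L p0 - ε * L) = D.tT L 0 := hi0
    have key : ∀ p, p ≠ p0 → evA L p ≤ evA L p0 + Real.log θ := by
      intro p hp
      have h2 : Real.exp (evA L p - ε * L) ^ j + Real.exp (evA L p0 - ε * L) ^ j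
          ≤ ∑ p, Real.exp (evA L p - ε * L) ^ j := by
        rw [← Finset.sum_pair (f := fun p => Real.exp (evA L p - ε * L) ^ j) hp]
        exact Finset.sum_le_sum_of_subset_of_nonneg (Finset.subset_univ _)
          fun _ _ _ => by positivity
      have h3 : Real.exp (evA L p - ε * L) ^ j ≤ (θ * Real.exp (evA L p0 - ε * L)) ^ j := by
        rw [mul_pow]
        rw [← hp0] at hb
        linarith
      have h4 := (pow_le_pow_iff_left₀ (Real.exp_pos _).le (by positivity) hj0).1 h3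
      rw [← Real.exp_log h0, ← Real.exp_add, Real.exp_le_exp] at h4
      linarith
    have hlog : Real.log θ < 0 := Real.log_neg h0 h1
    have e0 : E0 = -evA L p0 := by
      obtain ⟨p, hp⟩ := hE0.1
      by_cases hpp : p = p0
      · rw [← hp, hpp]
      · have := key p hpp
        have h5 : E0 ≤ -evA L p0 := hE0.2 ⟨p0, rfl⟩
        simp only at hp
        linarith
    obtain ⟨⟨p, hp⟩, hp'⟩ := hE1.1
    simp only at hp
    have hpp : p ≠ p0 := by
      rintro rfl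
      exact hp' (hp.symm.trans e0.symm)
    have := key p hpp
    linarith
  have Cc : ∀ N : ℕ, ∃ Δ : ℝ, 0 < Δ ∧ ∀ L, L < N → ∀ E0 E1 : ℝ,
      IsLeast (spectrum ℝ (ham S L)) E0 → IsLeast (spectrum ℝ (ham S L) \ {E0}) E1 →
        Δ ≤ E1 - E0 := by
    intro N
    induction N with
    | zero => exact ⟨1, one_pos, fun L hL => absurd hL (Nat.not_lt_zero _)⟩
    | succ N ih =>
      obtain ⟨Δ, hΔ, ih⟩ := ih
      by_cases hex : ∃ E0 E1 : ℝ, IsLeast (spectrum ℝ (ham S N)) E0 ∧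
          IsLeast (spectrum ℝ (ham S N) \ {E0}) E1
      · obtain ⟨F0, F1, hF0, hF1⟩ := hex
        have hlt : 0 < F1 - F0 :=
          sub_pos.2 (lt_of_le_of_ne (hF0.2 hF1.1.1) fun e => hF1.1.2 e.symm)
        refine ⟨min Δ (F1 - F0), lt_min hΔ hlt, fun L hL E0 E1 hE0 hE1 => ?_⟩
        rcases Nat.lt_succ_iff_lt_or_eq.1 hL with hL | rfl
        · exact (min_le_left _ _).trans (ih L hL E0 E1 hE0 hE1)
        · obtain rfl := hE0.unique hF0
          obtain rfl := hE1.unique hF1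
          exact min_le_right _ _
      · refine ⟨Δ, hΔ, fun L hL E0 E1 hE0 hE1 => ?_⟩
        rcases Nat.lt_succ_iff_lt_or_eq.1 hL with hL | rfl
        · exact ih L hL E0 E1 hE0 hE1
        · exact absurd ⟨E0, E1, hE0, hE1⟩ hex
  obtain ⟨Δ, hΔ, hC⟩ := Cc L0
  refine ⟨min Δ (-Real.log θ), lt_min hΔ (neg_pos.2 (Real.log_neg h0 h1)), fun L he hL => ?_⟩
  obtain ⟨E0, E1, hE0, hE1⟩ := A L he hL
  refine ⟨E0, E1, hE0, hE1, ?_⟩
  rcases lt_or_ge L L0 with hl | hl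
  · exact (min_le_left _ _).trans (hC L hl E0 E1 hE0 hE1)
  · exact (min_le_right _ _).trans (B L he hL hl E0 E1 hE0 hE1)

end Vale.Agent.P348
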