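import Vale.Agent.P348.MomK

/-! Generated kernel computation of sector moments. -/

open Nat (add sub)

set_option maxRecDepth 1000000
set_option maxHeartbeats 0
set_option linter.unusedVariables false

namespace Vale.Agent.P348.MomK

namespace S2x0

noncomputable def idx : List Nat :=
  [nat_lit 0, nat_lit 4, nat_lit 8]

def TT : Type :=
  Nat → Nat → Nat → Bool

noncomputable def base : TT :=
  fun _ _ _ => true

noncomputable def G (chk : List Nat → Bool) (C : Nat) (k : TT) : TT :=
  fun x0 x4 x8 =>
  Bool.rec false (k
  (add (add (add (add C x4) x8) x4) x8)
  (add (add (add (add C x0) x8) x0) x8)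
  (add (add (add (add C x0) x4) x0) x4))
  (chk [x0])

noncomputable def RK : Nat := nat_lit 0x0

noncomputable def CK : Nat := nat_lit 0x3

noncomputable def H : Nat := nat_lit 0x200000000000000010000000000000000

theorem spec : Spec 1 false idx RK 1 G := fun _ _ _ _ => by eq_refl

theorem cover : cov 2 false H RK CK 1 0 = true := by decide +kernel

end S2x0

namespace S2x0

noncomputable def ts0 : List Nat :=
  [nat_lit 28334198897217871282179,
   nat_lit 28334198897217871282176,
   nat_lit 28334198897217871282200,
   nat_lit 28334198897217871282224,
   nat_lit 28334198897217871282464,
   nat_lit 28334198897217871283136,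
   nat_lit 28334198897217871286400,
   nat_lit 28334198897217871298304,
   nat_lit 28334198897217871348224,
   nat_lit 28334198897217871543296,
   nat_lit 28334198897217872332800,
   nat_lit 28334198897217875472384,
   nat_lit 28334198897217888067584,
   nat_lit 28334198897217938374656,
   nat_lit 28334198897218139750400,
   nat_lit 28334198897218944958464,
   nat_lit 28334198897222166380544,
   nat_lit 28334198897235050889216,
   nat_lit 28334198897286591283200,
   nat_lit 28334198897492748140544,
   nat_lit 28334198898317385007104,
   nat_lit 28334198901615913598976,
   nat_lit 28334198914810065715200,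
   nat_lit 28334198967586598682624,
   nat_lit 28334199178692881547264,
   nat_lit 28334200023117711015936,
   nat_lit 28334203400817632870400,
   nat_lit 28334216911616112328704,
   nat_lit 28334270954812446081024,
   nat_lit 28334487127592949252096,
   nat_lit 28335351818724625612800,
   nat_lit 28338810583232003702784,
   nat_lit 28352645641300170768384,
   nat_lit 28407985873495529619456,
   nat_lit 28629346802431583846400,
   nat_lit 29514790517866563108864,
   nat_lit 33056565380224955449344]

theorem run0 : go idx G base H RK CK 74 0 1 ts0 = true := by decide +kernel

end S2x0

namespace S2x1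

noncomputable def idx : List Nat :=
  [nat_lit 1, nat_lit 3]

def TT : Type :=
  Nat → Nat → Bool

noncomputable def base : TT :=
  fun _ _ => true

noncomputable def G (chk : List Nat → Bool) (C : Nat) (k : TT) : TT :=
  fun x1 x3 =>
  Bool.rec false (k
  (sub (sub C x3) x3)
  (sub (sub C x1) x1))
  (chk [x1])

noncomputable def RK : Nat := nat_lit 0x1

noncomputable def CK : Nat := nat_lit 0x2

noncomputable def H : Nat := nat_lit 0x1000000000000

theorem spec : Spec 1 false idx RK 1 G := fun _ _ _ _ => by eq_refl

theorem cover : cov 2 false H RK CK 1 3 = true := by decide +kernel

end S2x1

namespace S2x1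

noncomputable def ts0 : List Nat :=
  [nat_lit 18889465931478580854786,
   nat_lit 18889465931478580854784,
   nat_lit 18889465931478580854792,
   nat_lit 18889465931478580854784,
   nat_lit 18889465931478580854816,
   nat_lit 18889465931478580854784,
   nat_lit 18889465931478580854912,
   nat_lit 18889465931478580854784,
   nat_lit 18889465931478580855296,
   nat_lit 18889465931478580854784,
   nat_lit 18889465931478580856832,
   nat_lit 18889465931478580854784,
   nat_lit 18889465931478580862976,
   nat_lit 18889465931478580854784,
   nat_lit 18889465931478580887552,
   nat_lit 18889465931478580854784,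
   nat_lit 18889465931478580985856,
   nat_lit 18889465931478580854784,
   nat_lit 18889465931478581379072,
   nat_lit 18889465931478580854784,
   nat_lit 18889465931478582951936,
   nat_lit 18889465931478580854784,
   nat_lit 18889465931478589243392,
   nat_lit 18889465931478580854784,
   nat_lit 18889465931478614409216,
   nat_lit 18889465931478580854784,
   nat_lit 18889465931478715072512,
   nat_lit 18889465931478580854784,
   nat_lit 18889465931479117725696,
   nat_lit 18889465931478580854784,
   nat_lit 18889465931480728338432,
   nat_lit 18889465931478580854784,
   nat_lit 18889465931487170789376,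
   nat_lit 18889465931478580854784,
   nat_lit 18889465931512940593152,
   nat_lit 18889465931478580854784,
   nat_lit 18889465931616019808256]

theorem run0 : go idx G base H RK CK 74 0 1 ts0 = true := by decide +kernel

end S2x1

namespace S2x2

noncomputable def idx : List Nat :=
  [nat_lit 1, nat_lit 3]

def TT : Type :=
  Nat → Nat → Bool

noncomputable def base : TT :=
  fun _ _ => true

noncomputable def G (chk : List Nat → Bool) (C : Nat) (k : TT) : TT :=
  fun x1 x3 =>
  Bool.rec false (k
  (sub (sub C x3) x3)
  (sub (sub C x1) x1))
  (chk [x1])

noncomputable def RK : Nat := nat_lit 0x1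

noncomputable def CK : Nat := nat_lit 0x2

noncomputable def H : Nat := nat_lit 0x1000000000000

theorem spec : Spec 1 true idx RK 1 G := fun _ _ _ _ => by eq_refl

theorem cover : cov 2 true H RK CK 1 3 = true := by decide +kernel

end S2x2

namespace S2x2

noncomputable def ts0 : List Nat :=
  [nat_lit 18889465931478580854786,
   nat_lit 18889465931478580854784,
   nat_lit 18889465931478580854792,
   nat_lit 18889465931478580854784,
   nat_lit 18889465931478580854816,
   nat_lit 18889465931478580854784,
   nat_lit 18889465931478580854912,
   nat_lit 18889465931478580854784,
   nat_lit 18889465931478580855296,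
   nat_lit 18889465931478580854784,
   nat_lit 18889465931478580856832,
   nat_lit 18889465931478580854784,
   nat_lit 18889465931478580862976,
   nat_lit 18889465931478580854784,
   nat_lit 18889465931478580887552,
   nat_lit 18889465931478580854784,
   nat_lit 18889465931478580985856,
   nat_lit 18889465931478580854784,
   nat_lit 18889465931478581379072,
   nat_lit 18889465931478580854784,
   nat_lit 18889465931478582951936,
   nat_lit 18889465931478580854784,
   nat_lit 18889465931478589243392,
   nat_lit 18889465931478580854784,
   nat_lit 18889465931478614409216,
   nat_lit 18889465931478580854784,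
   nat_lit 18889465931478715072512,
   nat_lit 18889465931478580854784,
   nat_lit 18889465931479117725696,
   nat_lit 18889465931478580854784,
   nat_lit 18889465931480728338432,
   nat_lit 18889465931478580854784,
   nat_lit 18889465931487170789376,
   nat_lit 18889465931478580854784,
   nat_lit 18889465931512940593152,
   nat_lit 18889465931478580854784,
   nat_lit 18889465931616019808256]

theorem run0 : go idx G base H RK CK 74 0 1 ts0 = true := by decide +kernel

end S2x2

namespace S2x3

noncomputable def idx : List Nat :=
  [nat_lit 0, nat_lit 4, nat_lit 8]

def TT : Type :=
  Nat → Nat → Nat → Bool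

noncomputable def base : TT :=
  fun _ _ _ => true

noncomputable def G (chk : List Nat → Bool) (C : Nat) (k : TT) : TT :=
  fun x0 x4 x8 =>
  Bool.rec false (k
  (sub (add (add (add C x4) x8) x4) x8)
  (sub (add (add (add C x0) x8) x0) x8)
  (sub (sub (add (add C x0) x4) x0) x4))
  (chk [x0, x8])

noncomputable def RK : Nat := nat_lit 0x80000

noncomputable def CK : Nat := nat_lit 0x10002

noncomputable def H : Nat := nat_lit 0x6c00000000000000010000000000000000

theorem spec : Spec 1 true idx RK 2 G := fun _ _ _ _ => by eq_refl

theorem cover : cov 2 true H RK CK 2 0 = true := by decide +kernel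

end S2x3

namespace S2x3

noncomputable def ts0 : List Nat :=
  [nat_lit 28334198897217871282179,
   nat_lit 28334198897217871282176,
   nat_lit 28334198897217871282184,
   nat_lit 28334198897217871282176,
   nat_lit 28334198897217871282208,
   nat_lit 28334198897217871282176,
   nat_lit 28334198897217871282304,
   nat_lit 28334198897217871282176,
   nat_lit 28334198897217871282688,
   nat_lit 28334198897217871282176,
   nat_lit 28334198897217871284224,
   nat_lit 28334198897217871282176,
   nat_lit 28334198897217871290368,
   nat_lit 28334198897217871282176,
   nat_lit 28334198897217871314944,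
   nat_lit 28334198897217871282176,
   nat_lit 28334198897217871413248,
   nat_lit 28334198897217871282176,
   nat_lit 28334198897217871806464,
   nat_lit 28334198897217871282176,
   nat_lit 28334198897217873379328,
   nat_lit 28334198897217871282176,
   nat_lit 28334198897217879670784,
   nat_lit 28334198897217871282176,
   nat_lit 28334198897217904836608,
   nat_lit 28334198897217871282176,
   nat_lit 28334198897218005499904,
   nat_lit 28334198897217871282176,
   nat_lit 28334198897218408153088,
   nat_lit 28334198897217871282176,
   nat_lit 28334198897220018765824,
   nat_lit 28334198897217871282176,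
   nat_lit 28334198897226461216768,
   nat_lit 28334198897217871282176,
   nat_lit 28334198897252231020544,
   nat_lit 28334198897217871282176,
   nat_lit 28334198897355310235648]

theorem run0 : go idx G base H RK CK 74 0 2 ts0 = true := by decide +kernel

end S2x3

namespace S2x4

noncomputable def idx : List Nat :=
  [nat_lit 5, nat_lit 7]

def TT : Type :=
  Nat → Nat → Bool

noncomputable def base : TT :=
  fun _ _ => true

noncomputable def G (chk : List Nat → Bool) (C : Nat) (k : TT) : TT :=
  fun x5 x7 =>
  Bool.rec false (k
  (add (sub C x7) x7)
  (add (sub C x5) x5))
  (chk [x5])

noncomputable def RK : Nat := nat_lit 0x5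

noncomputable def CK : Nat := nat_lit 0x2

noncomputable def H : Nat := nat_lit 0x60000000000000000000000000000

theorem spec : Spec 1 true idx RK 1 G := fun _ _ _ _ => by eq_refl

theorem cover : cov 2 true H RK CK 1 1 = true := by decide +kernel

end S2x4

namespace S2x4

noncomputable def ts0 : List Nat :=
  [nat_lit 18889465931478580854786,
   nat_lit 18889465931478580854784,
   nat_lit 18889465931478580854784,
   nat_lit 18889465931478580854784,
   nat_lit 18889465931478580854784,
   nat_lit 18889465931478580854784,
   nat_lit 18889465931478580854784,
   nat_lit 18889465931478580854784,
   nat_lit 18889465931478580854784,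
   nat_lit 18889465931478580854784,
   nat_lit 18889465931478580854784,
   nat_lit 18889465931478580854784,
   nat_lit 18889465931478580854784,
   nat_lit 18889465931478580854784,
   nat_lit 18889465931478580854784,
   nat_lit 18889465931478580854784,
   nat_lit 18889465931478580854784,
   nat_lit 18889465931478580854784,
   nat_lit 18889465931478580854784,
   nat_lit 18889465931478580854784,
   nat_lit 18889465931478580854784,
   nat_lit 18889465931478580854784,
   nat_lit 18889465931478580854784,
   nat_lit 18889465931478580854784,
   nat_lit 18889465931478580854784,
   nat_lit 18889465931478580854784,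
   nat_lit 18889465931478580854784,
   nat_lit 18889465931478580854784,
   nat_lit 18889465931478580854784,
   nat_lit 18889465931478580854784,
   nat_lit 18889465931478580854784,
   nat_lit 18889465931478580854784,
   nat_lit 18889465931478580854784,
   nat_lit 18889465931478580854784,
   nat_lit 18889465931478580854784,
   nat_lit 18889465931478580854784,
   nat_lit 18889465931478580854784]

theorem run0 : go idx G base H RK CK 74 0 1 ts0 = true := by decide +kernel

end S2x4


end Vale.Agent.P348.MomK
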