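import Vale.Agent.P348.MomK

/-! Generated kernel computation of sector moments. -/

open Nat (add sub)

set_option maxRecDepth 1000000
set_option maxHeartbeats 0
set_option linter.unusedVariables false

namespace Vale.Agent.P348.MomK

namespace S4x0

noncomputable def idx : List Nat :=
  [nat_lit 0, nat_lit 4, nat_lit 8, nat_lit 10, nat_lit 12, nat_lit 20, nat_lit 24, nat_lit 28,
  nat_lit 30, nat_lit 36, nat_lit 40, nat_lit 44, nat_lit 50, nat_lit 52, nat_lit 56, nat_lit 60,
  nat_lit 68, nat_lit 70, nat_lit 72, nat_lit 76, nat_lit 80]

def TT : Type :=
  Nat → Nat → Nat → Nat → Nat → Nat → Nat → Nat → Nat → Nat → Nat → Nat → Nat → Nat → Nat → Nat →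
  Nat → Nat → Nat → Nat → Nat → Bool

noncomputable def base : TT :=
  fun _ _ _ _ _ _ _ _ _ _ _ _ _ _ _ _ _ _ _ _ _ => true

noncomputable def G (chk : List Nat → Bool) (C : Nat) (k : TT) : TT :=
  fun x0 x4 x8 x10 x12 x20 x24 x28 x30 x36 x40 x44 x50 x52 x56 x60
  x68 x70 x72 x76 x80 =>
  Bool.rec false (k
  (add (add (add (add (add (add (add (add C x4) x8) x12) x24) x36) x72) x28) x56)
  (sub (add (add (sub (add (add C x0) x8) x10) x40) x76) x30)
  (sub (add (add (sub (add (add C x0) x4) x20) x44) x80) x60)
  (sub (sub (sub (sub C x12) x4) x28) x36)
  (add (add (sub (add (add (sub C x10) x0) x24) x30) x40) x68)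
  (sub (sub (sub (sub C x24) x8) x56) x72)
  (add (add (sub (add (add (sub C x20) x0) x12) x60) x52) x80)
  (add (add (sub (add (add (sub C x30) x40) x52) x10) x0) x56)
  (sub (sub (sub (sub C x28) x36) x12) x4)
  (sub (add (add (sub (add (add C x40) x44) x30) x0) x72) x10)
  (add (add (add (add (add (add (add (add C x36) x44) x28) x52) x4) x76) x12) x68)
  (sub (add (add (sub (add (add C x36) x40) x50) x8) x80) x70)
  (sub (sub (sub (sub C x52) x44) x68) x76)
  (add (add (sub (add (add (sub C x50) x28) x40) x70) x24) x80)
  (add (add (sub (add (add (sub C x60) x68) x80) x20) x0) x28)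
  (sub (sub (sub (sub C x56) x72) x24) x8)
  (add (add (sub (add (add (sub C x70) x56) x80) x50) x12) x40)
  (sub (sub (sub (sub C x68) x76) x52) x44)
  (sub (add (add (sub (add (add C x76) x80) x60) x0) x36) x20)
  (sub (add (add (sub (add (add C x72) x80) x70) x4) x40) x50)
  (add (add (add (add (add (add (add (add C x72) x76) x56) x68) x8) x44) x24) x52))
  (chk [x0, x4, x10])

noncomputable def RK : Nat := nat_lit 0xa00040000

noncomputable def CK : Nat := nat_lit 0x6000c0003

noncomputable def H : Nat := nat_lit 0x2000000000000006e0000000000000070000000da0000007a000000000000000000000000000000dc000000000000007c000000000000007d000000dd0000000000000000000000710000000000000001000000000000006d0000000000000000000000d900000079000000000000007b00000000000000db00000000000000000000000000000078000000d80000006f000000000000006c0000000000000000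

theorem spec : Spec 3 false idx RK 3 G := fun _ _ _ _ => by eq_refl

theorem cover : cov 4 false H RK CK 3 0 = true := by decide +kernel

end S4x0

namespace S4x0

noncomputable def ts0 : List Nat :=
  [nat_lit 13629779253653922524892552864202773,
   nat_lit 13629779253653922524892552864202752,
   nat_lit 13629779253653922524892552864202872,
   nat_lit 13629779253653922524892552864202824,
   nat_lit 13629779253653922524892552864205032,
   nat_lit 13629779253653922524892552864207912,
   nat_lit 13629779253653922524892552864263352,
   nat_lit 13629779253653922524892552864437784,
   nat_lit 13629779253653922524892552866092872,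
   nat_lit 13629779253653922524892552873532872,
   nat_lit 13629779253653922524892552927935832,
   nat_lit 13629779253653922524892553214769144,
   nat_lit 13629779253653922524892555092391912,
   nat_lit 13629779253653922524892565726750632,
   nat_lit 13629779253653922524892632043288312,
   nat_lit 13629779253653922524893019856626904,
   nat_lit 13629779253653922524895386945302152,
   nat_lit 13629779253653922524909428242189192,
   nat_lit 13629779253653922524994319754928792,
   nat_lit 13629779253653922525501090294491064,
   nat_lit 13629779253653922528552016815863592,
   nat_lit 13629779253653922546816330283656552,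
   nat_lit 13629779253653922656567096039305272,
   nat_lit 13629779253653923314411857963241624,
   nat_lit 13629779253653927264118881025356232,
   nat_lit 13629779253653950951804577617040712,
   nat_lit 13629779253654093120136615257505752,
   nat_lit 13629779253654945961233685865758584,
   nat_lit 13629779253660063683325554183700072,
   nat_lit 13629779253690767313625473519909672,
   nat_lit 13629779253874999903789585528058232,
   nat_lit 13629779254980352209394242374521944,
   nat_lit 13629779261612638978777228139855112,
   nat_lit 13629779301405667834760186199111432,
   nat_lit 13629779540166607960032937699730712,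
   nat_lit 13629780972721180598516047497211704,
   nat_lit 13629789568092888415066184724221352]

theorem run0 : go idx G base H RK CK 110 0 3 ts0 = true := by decide +kernel

end S4x0

namespace S4x1

noncomputable def idx : List Nat :=
  [nat_lit 1, nat_lit 3, nat_lit 9, nat_lit 13, nat_lit 17, nat_lit 23, nat_lit 25, nat_lit 27,
  nat_lit 31, nat_lit 35, nat_lit 37, nat_lit 39, nat_lit 47, nat_lit 51, nat_lit 59, nat_lit 61,
  nat_lit 65, nat_lit 69, nat_lit 73, nat_lit 75]

def TT : Type :=
  Nat → Nat → Nat → Nat → Nat → Nat → Nat → Nat → Nat → Nat → Nat → Nat → Nat → Nat → Nat → Nat →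
  Nat → Nat → Nat → Nat → Bool

noncomputable def base : TT :=
  fun _ _ _ _ _ _ _ _ _ _ _ _ _ _ _ _ _ _ _ _ => true

noncomputable def G (chk : List Nat → Bool) (C : Nat) (k : TT) : TT :=
  fun x1 x3 x9 x13 x17 x23 x25 x27 x31 x35 x37 x39 x47 x51 x59 x61
  x65 x69 x73 x75 =>
  Bool.rec false (k
  (sub (add (add (add (add (sub C x3) x13) x25) x37) x73) x27)
  (add (add (add (add (sub (sub C x1) x9) x39) x75) x31) x59)
  (add (add (sub (sub (add (add C x13) x17) x3) x27) x37) x65)
  (sub (sub (add (add (add (add C x9) x17) x1) x25) x31) x39)
  (sub (sub (sub (add (add C x9) x13) x23) x35) x69)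
  (sub (sub (sub (sub C x25) x17) x59) x75)
  (sub (sub (add (add (sub C x23) x1) x13) x61) x51)
  (sub (sub (add (add (add (add C x31) x35) x39) x51) x9) x1)
  (add (add (sub (sub (add (add C x27) x35) x37) x13) x3) x59)
  (sub (sub (sub (add (add C x27) x31) x47) x17) x61)
  (add (add (add (add (sub (sub C x39) x31) x1) x73) x9) x65)
  (sub (add (add (add (add (sub C x37) x27) x51) x3) x75) x13)
  (sub (sub (sub (sub C x51) x35) x65) x73)
  (sub (sub (add (add (sub C x47) x27) x39) x69) x25)
  (add (add (sub (sub (sub C x61) x65) x23) x3) x31)
  (sub (sub (sub (sub C x59) x73) x25) x35)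
  (add (add (sub (sub (sub C x69) x59) x47) x9) x37)
  (sub (sub (sub (sub C x65) x75) x51) x17)
  (sub (add (add (sub (sub C x75) x61) x1) x37) x47)
  (sub (add (add (sub (sub C x73) x69) x3) x39) x23))
  (chk [x1, x17, x23])

noncomputable def RK : Nat := nat_lit 0x1700110001

noncomputable def CK : Nat := nat_lit 0x400080008

noncomputable def H : Nat := nat_lit 0x720000007300000000000000de000000000000009100000000000000df000000900000000000000000000000000000007800000000000000d9000000000000000000000000000000010000000d0000006d0000000000000013000000000000000600000079000000d800000000000000000000006c0000000000000007000000000000001200000000000000000000000c000000000000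

theorem spec : Spec 3 false idx RK 3 G := fun _ _ _ _ => by eq_refl

theorem cover : cov 4 false H RK CK 3 3 = true := by decide +kernel

end S4x1

namespace S4x1

noncomputable def ts0 : List Nat :=
  [nat_lit 12980742146337069071326240823050260,
   nat_lit 12980742146337069071326240823050240,
   nat_lit 12980742146337069071326240823050344,
   nat_lit 12980742146337069071326240823050288,
   nat_lit 12980742146337069071326240823051688,
   nat_lit 12980742146337069071326240823051920,
   nat_lit 12980742146337069071326240823076504,
   nat_lit 12980742146337069071326240823101648,
   nat_lit 12980742146337069071326240823592648,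
   nat_lit 12980742146337069071326240824536080,
   nat_lit 12980742146337069071326240835094264,
   nat_lit 12980742146337069071326240864013008,
   nat_lit 12980742146337069071326241102356008,
   nat_lit 12980742146337069071326241914285840,
   nat_lit 12980742146337069071326247477851224,
   nat_lit 12980742146337069071326269236060368,
   nat_lit 12980742146337069071326402130277768,
   nat_lit 12980742146337069071326969789661200,
   nat_lit 12980742146337069071330194122579384,
   nat_lit 12980742146337069071344768038251728,
   nat_lit 12980742146337069071423817742493928,
   nat_lit 12980742146337069071794313260902160,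
   nat_lit 12980742146337069073745705146110744,
   nat_lit 12980742146337069083106714685755088,
   nat_lit 12980742146337069131494682907580488,
   nat_lit 12980742146337069367100206617928720,
   nat_lit 12980742146337070570457185328477304,
   nat_lit 12980742146337076485900916983498448,
   nat_lit 12980742146337106468413044969153448,
   nat_lit 12980742146337254759586300599940880,
   nat_lit 12980742146338002700361543206511064,
   nat_lit 12980742146341716462680292959769808,
   nat_lit 12980742146360389034738852951468808,
   nat_lit 12980742146453336835877733301018640,
   nat_lit 12980742146919736026302887419444024,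
   nat_lit 12980742149245091083852674219817168,
   nat_lit 12980742160898429482943012689022568]

theorem run0 : go idx G base H RK CK 110 0 3 ts0 = true := by decide +kernel

end S4x1

namespace S4x2

noncomputable def idx : List Nat :=
  [nat_lit 1, nat_lit 3, nat_lit 9, nat_lit 13, nat_lit 17, nat_lit 23, nat_lit 25, nat_lit 27,
  nat_lit 31, nat_lit 35, nat_lit 37, nat_lit 39, nat_lit 47, nat_lit 51, nat_lit 59, nat_lit 61,
  nat_lit 65, nat_lit 69, nat_lit 73, nat_lit 75]

def TT : Type :=
  Nat → Nat → Nat → Nat → Nat → Nat → Nat → Nat → Nat → Nat → Nat → Nat → Nat → Nat → Nat → Nat →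
  Nat → Nat → Nat → Nat → Bool

noncomputable def base : TT :=
  fun _ _ _ _ _ _ _ _ _ _ _ _ _ _ _ _ _ _ _ _ => true

noncomputable def G (chk : List Nat → Bool) (C : Nat) (k : TT) : TT :=
  fun x1 x3 x9 x13 x17 x23 x25 x27 x31 x35 x37 x39 x47 x51 x59 x61
  x65 x69 x73 x75 =>
  Bool.rec false (k
  (sub (add (add (add (add (sub C x3) x13) x25) x37) x73) x27)
  (sub (add (add (add (sub (sub C x1) x9) x39) x75) x31) x59)
  (sub (add (sub (sub (add (add C x13) x17) x3) x27) x37) x65)
  (sub (sub (add (add (add (add C x9) x17) x1) x25) x31) x39)
  (add (sub (sub (add (add C x9) x13) x23) x35) x69)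
  (add (sub (sub (sub C x25) x17) x59) x75)
  (sub (sub (add (add (sub C x23) x1) x13) x61) x51)
  (sub (sub (add (add (add (add C x31) x35) x39) x51) x9) x1)
  (sub (add (sub (sub (add (add C x27) x35) x37) x13) x3) x59)
  (add (sub (sub (add (add C x27) x31) x47) x17) x61)
  (sub (add (add (add (sub (sub C x39) x31) x1) x73) x9) x65)
  (sub (add (add (add (add (sub C x37) x27) x51) x3) x75) x13)
  (add (sub (sub (sub C x51) x35) x65) x73)
  (sub (sub (add (add (sub C x47) x27) x39) x69) x25)
  (sub (sub (sub (sub (sub C x61) x65) x23) x3) x31)
  (add (sub (sub (sub C x59) x73) x25) x35)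
  (sub (sub (sub (sub (sub C x69) x59) x47) x9) x37)
  (add (sub (sub (sub C x65) x75) x51) x17)
  (add (add (add (sub (sub C x75) x61) x1) x37) x47)
  (add (add (add (sub (sub C x73) x69) x3) x39) x23))
  (chk [x1, x17, x23])

noncomputable def RK : Nat := nat_lit 0x1700110001

noncomputable def CK : Nat := nat_lit 0x400080008

noncomputable def H : Nat := nat_lit 0x720000007300000000000000de000000000000009100000000000000df000000900000000000000000000000000000007800000000000000d9000000000000000000000000000000010000000d0000006d0000000000000013000000000000000600000079000000d800000000000000000000006c0000000000000007000000000000001200000000000000000000000c000000000000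

theorem spec : Spec 3 true idx RK 3 G := fun _ _ _ _ => by eq_refl

theorem cover : cov 4 true H RK CK 3 3 = true := by decide +kernel

end S4x2

namespace S4x2

noncomputable def ts0 : List Nat :=
  [nat_lit 12980742146337069071326240823050260,
   nat_lit 12980742146337069071326240823050240,
   nat_lit 12980742146337069071326240823050344,
   nat_lit 12980742146337069071326240823050288,
   nat_lit 12980742146337069071326240823051688,
   nat_lit 12980742146337069071326240823053200,
   nat_lit 12980742146337069071326240823081112,
   nat_lit 12980742146337069071326240823159440,
   nat_lit 12980742146337069071326240823838408,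
   nat_lit 12980742146337069071326240826527888,
   nat_lit 12980742146337069071326240844630264,
   nat_lit 12980742146337069071326240928107280,
   nat_lit 12980742146337069071326241431287336,
   nat_lit 12980742146337069071326243928408080,
   nat_lit 12980742146337069071326258195068504,
   nat_lit 12980742146337069071326331703531408,
   nat_lit 12980742146337069071326740249425288,
   nat_lit 12980742146337069071328887468073360,
   nat_lit 12980742146337069071340647638953912,
   nat_lit 12980742146337069071403121454820880,
   nat_lit 12980742146337069071742584367210728,
   nat_lit 12980742146337069073556475602595088,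
   nat_lit 12980742146337069083370010124616984,
   nat_lit 12980742146337069135975900089233040,
   nat_lit 12980742146337069419909356016769096,
   nat_lit 12980742146337070944630097053344400,
   nat_lit 12980742146337079163353852103693944,
   nat_lit 12980742146337123340708443579816208,
   nat_lit 12980742146337361298833804867091368,
   nat_lit 12980742146338641058668933524816400,
   nat_lit 12980742146345531649265322521592792,
   nat_lit 12980742146382600814182354316160400,
   nat_lit 12980742146582147874777547442891528,
   nat_lit 12980742147655822297077376272583568,
   nat_lit 12980742153434818810930537007721784,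
   nat_lit 12980742184531846066126484308798480,
   nat_lit 12980742351898751874032153184159336]

theorem run0 : go idx G base H RK CK 110 0 3 ts0 = true := by decide +kernel

end S4x2

namespace S4x3

noncomputable def idx : List Nat :=
  [nat_lit 0, nat_lit 4, nat_lit 8, nat_lit 10, nat_lit 12, nat_lit 20, nat_lit 24, nat_lit 28,
  nat_lit 30, nat_lit 36, nat_lit 40, nat_lit 44, nat_lit 50, nat_lit 52, nat_lit 56, nat_lit 60,
  nat_lit 68, nat_lit 70, nat_lit 72, nat_lit 76, nat_lit 80]

def TT : Type :=
  Nat → Nat → Nat → Nat → Nat → Nat → Nat → Nat → Nat → Nat → Nat → Nat → Nat → Nat → Nat → Nat →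
  Nat → Nat → Nat → Nat → Nat → Bool

noncomputable def base : TT :=
  fun _ _ _ _ _ _ _ _ _ _ _ _ _ _ _ _ _ _ _ _ _ => true

noncomputable def G (chk : List Nat → Bool) (C : Nat) (k : TT) : TT :=
  fun x0 x4 x8 x10 x12 x20 x24 x28 x30 x36 x40 x44 x50 x52 x56 x60
  x68 x70 x72 x76 x80 =>
  Bool.rec false (k
  (sub (add (add (add (add (add (add (add C x4) x8) x12) x24) x36) x72) x28) x56)
  (sub (add (add (sub (add (add C x0) x8) x10) x40) x76) x30)
  (add (add (add (sub (add (add C x0) x4) x20) x44) x80) x60)
  (sub (sub (sub (sub C x12) x4) x28) x36)
  (sub (add (sub (add (add (sub C x10) x0) x24) x30) x40) x68)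
  (add (sub (sub (sub C x24) x8) x56) x72)
  (sub (add (sub (add (add (sub C x20) x0) x12) x60) x52) x80)
  (sub (add (sub (add (add (sub C x30) x40) x52) x10) x0) x56)
  (sub (sub (sub (sub C x28) x36) x12) x4)
  (sub (add (add (sub (add (add C x40) x44) x30) x0) x72) x10)
  (sub (add (add (add (add (add (add (add C x36) x44) x28) x52) x4) x76) x12) x68)
  (add (add (add (sub (add (add C x36) x40) x50) x8) x80) x70)
  (add (sub (sub (sub C x52) x44) x68) x76)
  (sub (add (sub (add (add (sub C x50) x28) x40) x70) x24) x80)
  (sub (sub (sub (add (add (sub C x60) x68) x80) x20) x0) x28)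
  (add (sub (sub (sub C x56) x72) x24) x8)
  (sub (sub (sub (add (add (sub C x70) x56) x80) x50) x12) x40)
  (add (sub (sub (sub C x68) x76) x52) x44)
  (add (add (add (sub (add (add C x76) x80) x60) x0) x36) x20)
  (add (add (add (sub (add (add C x72) x80) x70) x4) x40) x50)
  (sub (sub (add (add (add (add (add (add C x72) x76) x56) x68) x8) x44) x24) x52))
  (chk [x0, x4, x8, x10, x20, x80])

noncomputable def RK : Nat := nat_lit 0x500014000a000800040000

noncomputable def CK : Nat := nat_lit 0x100040002000800040002

noncomputable def H : Nat := nat_lit 0x21c00000000000000df00000000000000de000001b7000000fd000000000000000000000000000001b600000000000000fc00000000000000e5000001b10000000000000000000000d90000000000000001000000000000006d0000000000000000000001450000007900000000000000e400000000000001b00000000000000000000000000000007800000144000000d8000000000000006c0000000000000000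

theorem spec : Spec 3 true idx RK 6 G := fun _ _ _ _ => by eq_refl

theorem cover : cov 4 true H RK CK 6 0 = true := by decide +kernel

end S4x3

namespace S4x3

noncomputable def ts0 : List Nat :=
  [nat_lit 13629779253653922524892552864202773,
   nat_lit 13629779253653922524892552864202752,
   nat_lit 13629779253653922524892552864202872,
   nat_lit 13629779253653922524892552864202824,
   nat_lit 13629779253653922524892552864204264,
   nat_lit 13629779253653922524892552864205352,
   nat_lit 13629779253653922524892552864229560,
   nat_lit 13629779253653922524892552864279192,
   nat_lit 13629779253653922524892552864771912,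
   nat_lit 13629779253653922524892552866298312,
   nat_lit 13629779253653922524892552877444952,
   nat_lit 13629779253653922524892552920053624,
   nat_lit 13629779253653922524892553187140584,
   nat_lit 13629779253653922524892554333618856,
   nat_lit 13629779253653922524892560939720952,
   nat_lit 13629779253653922524892591262687064,
   nat_lit 13629779253653922524892757625560712,
   nat_lit 13629779253653922524893552310216072,
   nat_lit 13629779253653922524897785903719576,
   nat_lit 13629779253653922524918502195895608,
   nat_lit 13629779253653922525026906003594024,
   nat_lit 13629779253653922525565215322435176,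
   nat_lit 13629779253653922528351220208814648,
   nat_lit 13629779253653922542311210450968856,
   nat_lit 13629779253653922614071251844897224,
   nat_lit 13629779253653922975643455178906952,
   nat_lit 13629779253653924826470367087120856,
   nat_lit 13629779253653934184038218007014136,
   nat_lit 13629779253653981959199470400526952,
   nat_lit 13629779253654224015017666498998824,
   nat_lit 13629779253655457839540666510703480,
   nat_lit 13629779253661717236529825326987992,
   nat_lit 13629779253693591169929046425132296,
   nat_lit 13629779253855423121761849653521672,
   nat_lit 13629779254678988308251095823091480,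
   nat_lit 13629779258862515546189517931040952,
   nat_lit 13629779280144361616552620204876200]

theorem run0 : go idx G base H RK CK 110 0 6 ts0 = true := by decide +kernel

end S4x3

namespace S4x4

noncomputable def idx : List Nat :=
  [nat_lit 5, nat_lit 7, nat_lit 11, nat_lit 15, nat_lit 19, nat_lit 21, nat_lit 29, nat_lit 33,
  nat_lit 41, nat_lit 43, nat_lit 45, nat_lit 49, nat_lit 53, nat_lit 55, nat_lit 57, nat_lit 63,
  nat_lit 67, nat_lit 71, nat_lit 77, nat_lit 79]

def TT : Type :=
  Nat → Nat → Nat → Nat → Nat → Nat → Nat → Nat → Nat → Nat → Nat → Nat → Nat → Nat → Nat → Nat →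
  Nat → Nat → Nat → Nat → Bool

noncomputable def base : TT :=
  fun _ _ _ _ _ _ _ _ _ _ _ _ _ _ _ _ _ _ _ _ => true

noncomputable def G (chk : List Nat → Bool) (C : Nat) (k : TT) : TT :=
  fun x5 x7 x11 x15 x19 x21 x29 x33 x41 x43 x45 x49 x53 x55 x57 x63
  x67 x71 x77 x79 =>
  Bool.rec false (k
  (add (add (add (sub (sub C x7) x11) x41) x77) x57)
  (sub (add (add (sub (sub C x5) x19) x43) x79) x33)
  (add (sub (sub (sub C x15) x5) x29) x63)
  (sub (add (sub (sub (sub C x11) x21) x33) x43) x71)
  (sub (sub (sub (sub C x21) x7) x55) x45)
  (sub (add (sub (sub (sub C x19) x15) x57) x49) x77)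
  (add (sub (add (add (sub C x33) x41) x53) x11) x55)
  (sub (sub (sub (sub C x29) x45) x15) x7)
  (add (add (add (add (add (sub C x43) x29) x53) x5) x77) x67)
  (sub (add (add (add (sub (sub C x41) x49) x7) x79) x15) x71)
  (sub (sub (sub (add (add C x49) x53) x33) x63) x19)
  (sub (add (sub (sub (add (add C x45) x53) x43) x67) x21) x77)
  (add (sub (add (add (add (add C x45) x49) x29) x41) x71) x79)
  (add (sub (add (add (sub C x57) x67) x79) x19) x29)
  (add (sub (sub (sub C x55) x63) x21) x5)
  (add (sub (sub (add (add C x67) x71) x57) x45) x11)
  (add (sub (add (add (add (add C x63) x71) x55) x79) x49) x41)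
  (sub (sub (sub (sub (add (add C x63) x67) x77) x53) x15) x43)
  (sub (sub (add (add (sub (sub C x79) x71) x5) x41) x21) x49)
  (add (add (add (add (add (sub C x77) x55) x67) x7) x43) x53))
  (chk [x5, x11, x41, x53])

noncomputable def RK : Nat := nat_lit 0x350029000b0005

noncomputable def CK : Nat := nat_lit 0x4000400040008

noncomputable def H : Nat := nat_lit 0x14a0000015c00000000000000000000016200000000000000de0000000000000006000000000000000000000072000000240000014400000000000000ea0000000000000018000000e4000000d800000000000000000000000000000078000000000000002a000000000000000000000000000000120000007e000000000000000c000000000000006c000000000000001e0000000000000000000000000000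

theorem spec : Spec 3 true idx RK 4 G := fun _ _ _ _ => by eq_refl

theorem cover : cov 4 true H RK CK 4 1 = true := by decide +kernel

end S4x4

namespace S4x4

noncomputable def ts0 : List Nat :=
  [nat_lit 12980742146337069071326240823050260,
   nat_lit 12980742146337069071326240823050240,
   nat_lit 12980742146337069071326240823050344,
   nat_lit 12980742146337069071326240823050288,
   nat_lit 12980742146337069071326240823051304,
   nat_lit 12980742146337069071326240823051280,
   nat_lit 12980742146337069071326240823062872,
   nat_lit 12980742146337069071326240823068048,
   nat_lit 12980742146337069071326240823209352,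
   nat_lit 12980742146337069071326240823333392,
   nat_lit 12980742146337069071326240825128984,
   nat_lit 12980742146337069071326240827423312,
   nat_lit 12980742146337069071326240850942472,
   nat_lit 12980742146337069071326240889670352,
   nat_lit 12980742146337069071326241205033624,
   nat_lit 12980742146337069071326241830124688,
   nat_lit 12980742146337069071326246137990664,
   nat_lit 12980742146337069071326255968269456,
   nat_lit 12980742146337069071326315694403864,
   nat_lit 12980742146337069071326467706586832,
   nat_lit 12980742146337069071327305711408904,
   nat_lit 12980742146337069071329629028232272,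
   nat_lit 12980742146337069071341500059643032,
   nat_lit 12980742146337069071376707193803536,
   nat_lit 12980742146337069071546166725315336,
   nat_lit 12980742146337069072076270061284880,
   nat_lit 12980742146337069074510222543733016,
   nat_lit 12980742146337069082452465928081744,
   nat_lit 12980742146337069117583232560456200,
   nat_lit 12980742146337069236119788786041296,
   nat_lit 12980742146337069745167180287741592,
   nat_lit 12980742146337071508952361453955472,
   nat_lit 12980742146337078907988400554359816,
   nat_lit 12980742146337105089753368980889488,
   nat_lit 12980742146337212899860930937210136,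
   nat_lit 12980742146337600806311434270811088,
   nat_lit 12980742146339174748827654552893704]

theorem run0 : go idx G base H RK CK 110 0 4 ts0 = true := by decide +kernel

end S4x4


end Vale.Agent.P348.MomK
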