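import Vale.Agent.P348.MomK

/-! Generated kernel computation of sector moments. -/

open Nat (add sub)

set_option maxRecDepth 1000000
set_option maxHeartbeats 0
set_option linter.unusedVariables false

namespace Vale.Agent.P348.MomK

namespace S5x0

noncomputable def idx : List Nat :=
  [nat_lit 5, nat_lit 7, nat_lit 11, nat_lit 15, nat_lit 19, nat_lit 21, nat_lit 29, nat_lit 33,
  nat_lit 41, nat_lit 43, nat_lit 45, nat_lit 49, nat_lit 53, nat_lit 55, nat_lit 57, nat_lit 63,
  nat_lit 67, nat_lit 71, nat_lit 77, nat_lit 79, nat_lit 83, nat_lit 87, nat_lit 95, nat_lit 97,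
  nat_lit 99, nat_lit 103, nat_lit 107, nat_lit 113, nat_lit 115, nat_lit 119, nat_lit 123, nat_lit 127,
  nat_lit 129, nat_lit 135, nat_lit 139, nat_lit 143, nat_lit 145, nat_lit 147, nat_lit 155, nat_lit 159,
  nat_lit 163, nat_lit 165, nat_lit 171, nat_lit 175, nat_lit 179, nat_lit 185, nat_lit 187, nat_lit 189,
  nat_lit 193, nat_lit 197, nat_lit 199, nat_lit 201, nat_lit 209, nat_lit 213, nat_lit 221, nat_lit 223,
  nat_lit 227, nat_lit 231, nat_lit 235, nat_lit 237]

def TT : Type :=
  Nat → Nat → Nat → Nat → Nat → Nat → Nat → Nat → Nat → Nat → Nat → Nat → Nat → Nat → Nat → Nat →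
  Nat → Nat → Nat → Nat → Nat → Nat → Nat → Nat → Nat → Nat → Nat → Nat → Nat → Nat → Nat → Nat →
  Nat → Nat → Nat → Nat → Nat → Nat → Nat → Nat → Nat → Nat → Nat → Nat → Nat → Nat → Nat → Nat →
  Nat → Nat → Nat → Nat → Nat → Nat → Nat → Nat → Nat → Nat → Nat → Nat → Bool

noncomputable def base : TT :=
  fun _ _ _ _ _ _ _ _ _ _ _ _ _ _ _ _ _ _ _ _ _ _ _ _ _ _ _ _ _ _ _ _ _ _ _ _ _ _ _ _
  _ _ _ _ _ _ _ _ _ _ _ _ _ _ _ _ _ _ _ _ => true

noncomputable def G (chk : List Nat → Bool) (C : Nat) (k : TT) : TT :=
  fun x5 x7 x11 x15 x19 x21 x29 x33 x41 x43 x45 x49 x53 x55 x57 x63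
  x67 x71 x77 x79 x83 x87 x95 x97 x99 x103 x107 x113 x115 x119 x123 x127
  x129 x135 x139 x143 x145 x147 x155 x159 x163 x165 x171 x175 x179 x185 x187 x189
  x193 x197 x199 x201 x209 x213 x221 x223 x227 x231 x235 x237 =>
  Bool.rec false (k
  (sub (add (add (add (add (sub (sub C x7) x11) x41) x77) x113) x221) x165)
  (sub (add (add (add (add (sub (sub C x5) x19) x43) x79) x115) x223) x87)
  (sub (add (add (sub (sub (sub C x15) x5) x29) x119) x227) x171)
  (add (add (add (add (sub (sub (sub C x11) x21) x33) x123) x231) x97) x179)
  (sub (add (add (sub (sub (sub C x21) x7) x55) x127) x235) x99)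
  (add (add (add (add (sub (sub (sub C x19) x15) x57) x129) x237) x103) x185)
  (sub (sub (sub (add (add (sub C x33) x41) x53) x11) x83) x189)
  (add (add (sub (sub (sub (sub C x29) x45) x15) x87) x115) x197)
  (sub (sub (add (add (add (add (sub C x43) x29) x53) x5) x77) x95) x201)
  (sub (sub (add (add (sub (sub C x41) x49) x7) x79) x97) x123)
  (add (add (sub (sub (sub (add (add C x49) x53) x33) x63) x99) x127) x209)
  (sub (sub (sub (sub (add (add C x45) x53) x43) x67) x103) x129)
  (sub (sub (sub (add (add (add (add C x45) x49) x29) x41) x71) x107) x213)
  (sub (sub (sub (add (add (sub C x57) x67) x79) x19) x163) x135)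
  (add (add (sub (sub (sub (sub C x55) x63) x21) x165) x139) x221)
  (add (add (sub (sub (sub (add (add C x67) x71) x57) x45) x171) x145) x227)
  (sub (sub (sub (add (add (add (add C x63) x71) x55) x79) x49) x175) x147)
  (sub (sub (sub (sub (add (add C x63) x67) x77) x53) x179) x231)
  (sub (sub (add (add (sub (sub C x79) x71) x5) x41) x185) x237)
  (sub (sub (add (add (add (add (sub C x77) x55) x67) x7) x43) x187) x159)
  (sub (sub (add (add (add (add (sub C x87) x95) x107) x119) x155) x29) x163)
  (sub (sub (add (add (sub (sub C x83) x99) x123) x159) x33) x7)
  (sub (sub (sub (add (add (sub C x97) x83) x107) x113) x41) x175)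
  (add (add (sub (sub (sub (sub C x95) x103) x115) x43) x15) x179)
  (sub (sub (sub (sub (add (add C x103) x107) x87) x135) x45) x19)
  (add (add (sub (sub (sub (add (add C x99) x107) x97) x139) x49) x21) x185)
  (sub (sub (sub (add (add (add (add C x99) x103) x83) x95) x143) x53) x187)
  (sub (add (add (sub (sub (sub C x115) x119) x95) x5) x221) x193)
  (add (add (add (add (sub (sub (sub C x113) x127) x97) x7) x223) x33) x197)
  (sub (add (add (add (add (sub (sub C x123) x113) x83) x155) x11) x227) x199)
  (sub (add (add (add (add (sub (sub C x119) x129) x87) x159) x15) x231) x43)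
  (add (add (add (add (sub (sub (sub C x129) x115) x145) x19) x235) x45) x209)
  (sub (add (add (sub (sub (sub C x127) x123) x147) x21) x237) x49)
  (sub (sub (sub (add (add (add (add C x139) x143) x147) x159) x99) x189) x55)
  (add (add (sub (sub (sub (add (add C x135) x143) x145) x103) x193) x57) x221)
  (sub (sub (sub (sub (add (add C x135) x139) x155) x107) x197) x223)
  (add (add (sub (sub (sub (sub C x147) x139) x127) x199) x63) x227)
  (sub (sub (sub (add (add (sub C x145) x135) x159) x129) x201) x67)
  (sub (sub (add (add (sub (sub C x159) x143) x83) x119) x209) x235)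
  (sub (sub (add (add (add (add (sub C x155) x135) x147) x87) x123) x213) x79)
  (sub (sub (add (add (add (add (sub C x165) x175) x187) x199) x235) x55) x83)
  (sub (sub (add (add (sub (sub C x163) x171) x201) x237) x57) x5)
  (sub (sub (sub (sub (add (add C x175) x179) x165) x189) x63) x11)
  (sub (sub (sub (add (add (add (add C x171) x179) x163) x187) x193) x67) x95)
  (add (add (sub (sub (sub (add (add C x171) x175) x185) x197) x71) x15) x97)
  (add (add (sub (sub (sub (sub C x187) x179) x221) x77) x21) x103)
  (sub (sub (sub (add (add (sub C x185) x163) x175) x223) x79) x107)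
  (sub (sub (sub (add (add (add (add C x193) x197) x201) x213) x171) x135) x29)
  (sub (sub (sub (sub (add (add C x189) x197) x199) x175) x139) x113)
  (add (add (sub (sub (sub (add (add C x189) x193) x209) x179) x143) x33) x115)
  (sub (sub (add (add (sub (sub C x201) x193) x163) x235) x145) x119)
  (sub (sub (add (add (add (add (sub C x199) x189) x213) x165) x237) x147) x41)
  (add (add (sub (sub (sub (sub C x213) x197) x227) x155) x45) x127)
  (sub (sub (sub (add (add (sub C x209) x189) x201) x231) x159) x53)
  (add (add (add (add (sub (sub (sub C x223) x227) x185) x5) x113) x57) x139)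
  (sub (add (add (sub (sub (sub C x221) x235) x187) x7) x115) x143)
  (add (add (add (add (sub (sub (sub C x231) x221) x209) x11) x119) x63) x145)
  (sub (add (add (sub (sub (sub C x227) x237) x213) x15) x123) x71)
  (sub (add (add (add (add (sub (sub C x237) x223) x163) x199) x19) x127) x155)
  (sub (add (add (add (add (sub (sub C x235) x231) x165) x201) x21) x129) x77))
  (chk [x5, x11])

noncomputable def RK : Nat := nat_lit 0xb0005

noncomputable def CK : Nat := nat_lit 0x1e001e

noncomputable def H : Nat := nat_lit 0x200000004000000000000006e000000000000000e00000000000000700000001000000000000000000000000000000094000000000000007a000000000000000000000000000000310000009b0000001600000000000000730000000000000006000000920000007c000000000000000000000014000000000000000700000000000000720000000000000000000000990000003000000000000000340000000000000098000000000000000000000000000000910000007d00000076000000000000001300000000000000090000000000000000000000710000001100000000000000050000000000000001000000000000000d0000006d00000000000000000000000a00000000000000170000000000000075000000790000009500000000000000000000000000000096000000000000003300000000000000320000009a000000000000000000000074000000000000000b000000000000001200000000000000000000007b00000090000000080000000000000077000000000000001500000097000000350000000000000000000000000000007800000000000000930000000000000000000000000000000f0000006f000000000000000c000000000000006c00000000000000030000000000000000000000000000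

theorem spec : Spec 4 false idx RK 2 G := fun _ _ _ _ => by eq_refl

theorem cover : cov 5 false H RK CK 2 0 = true := by decide +kernel

end S5x0

namespace S5x0

noncomputable def ts0 : List Nat :=
  [nat_lit 79753679747094952374228423616820674620,
   nat_lit 79753679747094952374228423616820674560,
   nat_lit 79753679747094952374228423616820674950,
   nat_lit 79753679747094952374228423616820674740,
   nat_lit 79753679747094952374228423616820680710,
   nat_lit 79753679747094952374228423616820682660,
   nat_lit 79753679747094952374228423616820822010,
   nat_lit 79753679747094952374228423616821063480,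
   nat_lit 79753679747094952374228423616825281030,
   nat_lit 79753679747094952374228423616838989380,
   nat_lit 79753679747094952374228423616988482830,
   nat_lit 79753679747094952374228423617654795100,
   nat_lit 79753679747094952374228423623431216890,
   nat_lit 79753679747094952374228423653871311040,
   nat_lit 79753679747094952374228423887365592670,
   nat_lit 79753679747094952374228425236313484900,
   nat_lit 79753679747094952374228434901998308230,
   nat_lit 79753679747094952374228493710653578020,
   nat_lit 79753679747094952374228899041905722250,
   nat_lit 79753679747094952374231439429555034040,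
   nat_lit 79753679747094952374248560378546740870,
   nat_lit 79753679747094952374357722248401206580,
   nat_lit 79753679747094952375083885175894897710,
   nat_lit 79753679747094952379760319047409885980,
   nat_lit 79753679747094952410632783523876307530,
   nat_lit 79753679747094952610611841276329695360,
   nat_lit 79753679747094953924949915185491250910,
   nat_lit 79753679747094962467774582175097002580,
   nat_lit 79753679747095018468262015183308093350,
   nat_lit 79753679747095383183021840329917041060,
   nat_lit 79753679747097770336829483493492436250,
   nat_lit 79753679747113335362315198275250846520,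
   nat_lit 79753679747215121415842735638909814790,
   nat_lit 79753679747879254760224543935068352420,
   nat_lit 79753679752220016882572683512766371150,
   nat_lit 79753679780553982952286476050451832540,
   nat_lit 79753679965687308894490842656484626970]

theorem run0 : go idx G base H RK CK 121 0 2 ts0 = true := by decide +kernel

end S5x0

namespace S5x1

noncomputable def idx : List Nat :=
  [nat_lit 2, nat_lit 6, nat_lit 14, nat_lit 16, nat_lit 18, nat_lit 22, nat_lit 26, nat_lit 32,
  nat_lit 34, nat_lit 38, nat_lit 42, nat_lit 46, nat_lit 48, nat_lit 54, nat_lit 58, nat_lit 62,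
  nat_lit 64, nat_lit 66, nat_lit 74, nat_lit 78, nat_lit 86, nat_lit 88, nat_lit 92, nat_lit 96,
  nat_lit 100, nat_lit 102, nat_lit 110, nat_lit 114, nat_lit 122, nat_lit 124, nat_lit 126, nat_lit 130,
  nat_lit 134, nat_lit 136, nat_lit 138, nat_lit 144, nat_lit 148, nat_lit 152, nat_lit 158, nat_lit 160,
  nat_lit 162, nat_lit 166, nat_lit 170, nat_lit 172, nat_lit 174, nat_lit 182, nat_lit 186, nat_lit 190,
  nat_lit 192, nat_lit 198, nat_lit 202, nat_lit 206, nat_lit 212, nat_lit 214, nat_lit 218, nat_lit 222,
  nat_lit 230, nat_lit 232, nat_lit 234, nat_lit 238, nat_lit 242]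

def TT : Type :=
  Nat → Nat → Nat → Nat → Nat → Nat → Nat → Nat → Nat → Nat → Nat → Nat → Nat → Nat → Nat → Nat →
  Nat → Nat → Nat → Nat → Nat → Nat → Nat → Nat → Nat → Nat → Nat → Nat → Nat → Nat → Nat → Nat →
  Nat → Nat → Nat → Nat → Nat → Nat → Nat → Nat → Nat → Nat → Nat → Nat → Nat → Nat → Nat → Nat →
  Nat → Nat → Nat → Nat → Nat → Nat → Nat → Nat → Nat → Nat → Nat → Nat → Nat → Bool

noncomputable def base : TT :=
  fun _ _ _ _ _ _ _ _ _ _ _ _ _ _ _ _ _ _ _ _ _ _ _ _ _ _ _ _ _ _ _ _ _ _ _ _ _ _ _ _
  _ _ _ _ _ _ _ _ _ _ _ _ _ _ _ _ _ _ _ _ _ => true

noncomputable def G (chk : List Nat → Bool) (C : Nat) (k : TT) : TT :=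
  fun x2 x6 x14 x16 x18 x22 x26 x32 x34 x38 x42 x46 x48 x54 x58 x62
  x64 x66 x74 x78 x86 x88 x92 x96 x100 x102 x110 x114 x122 x124 x126 x130
  x134 x136 x138 x144 x148 x152 x158 x160 x162 x166 x170 x172 x174 x182 x186 x190
  x192 x198 x202 x206 x212 x214 x218 x222 x230 x232 x234 x238 x242 =>
  Bool.rec false (k
  (sub (add (add (add (add (add (add (sub C x6) x14) x26) x38) x74) x110) x218) x162)
  (add (add (add (add (add (add (sub (sub C x2) x18) x42) x78) x114) x222) x88) x170)
  (sub (add (add (sub (add (add (sub C x16) x2) x26) x32) x122) x230) x174)
  (sub (add (add (sub (sub (sub C x14) x22) x34) x124) x232) x96)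
  (add (add (add (add (sub (sub (add (add C x22) x26) x6) x54) x126) x234) x100) x182)
  (sub (add (add (sub (sub (add (add C x18) x26) x16) x58) x130) x238) x102)
  (sub (add (add (sub (add (add (add (add C x18) x22) x2) x14) x62) x134) x242) x186)
  (sub (sub (sub (sub (sub C x34) x38) x14) x86) x192)
  (sub (sub (sub (sub (sub C x32) x46) x16) x88) x114)
  (sub (sub (add (add (sub (sub C x42) x32) x2) x74) x92) x198)
  (add (add (sub (add (add (sub (sub C x38) x48) x6) x78) x96) x124) x206)
  (sub (sub (sub (sub (sub C x48) x34) x64) x100) x126)
  (add (add (sub (sub (sub (sub C x46) x42) x66) x102) x130) x212)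
  (add (add (sub (sub (add (add (add (add C x58) x62) x66) x78) x18) x162) x136) x218)
  (sub (sub (sub (sub (add (add C x54) x62) x64) x22) x166) x138)
  (sub (sub (sub (sub (add (add C x54) x58) x74) x26) x170) x222)
  (sub (sub (sub (sub (sub C x66) x58) x46) x172) x144)
  (add (add (sub (sub (add (add (sub C x64) x54) x78) x48) x174) x148) x230)
  (sub (sub (add (add (sub (sub C x78) x62) x2) x38) x182) x234)
  (add (add (sub (add (add (add (add (sub C x74) x54) x66) x6) x42) x186) x160) x242)
  (sub (sub (add (add (sub (sub C x88) x92) x122) x158) x32) x166)
  (add (add (sub (add (add (sub (sub C x86) x100) x124) x160) x34) x6) x170)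
  (sub (sub (sub (sub (sub C x96) x86) x110) x38) x172)
  (sub (sub (sub (sub (sub C x92) x102) x114) x42) x16)
  (add (add (sub (sub (sub (sub C x102) x88) x136) x46) x18) x182)
  (sub (sub (sub (sub (sub C x100) x96) x138) x48) x22)
  (sub (add (add (sub (add (add (sub C x114) x122) x134) x92) x2) x218) x190)
  (sub (add (add (sub (sub (sub C x110) x126) x96) x6) x222) x34)
  (sub (add (add (add (add (add (add (sub C x124) x110) x134) x86) x158) x14) x230) x202)
  (add (add (add (add (add (add (sub (sub C x122) x130) x88) x160) x16) x232) x42) x206)
  (sub (add (add (sub (sub (add (add C x130) x134) x114) x144) x18) x234) x46)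
  (add (add (add (add (sub (sub (add (add C x126) x134) x124) x148) x22) x238) x48) x212)
  (sub (add (add (sub (add (add (add (add C x126) x130) x110) x122) x152) x26) x242) x214)
  (add (add (sub (sub (add (add (sub C x138) x148) x160) x100) x190) x54) x218)
  (sub (sub (sub (sub (sub C x136) x144) x102) x192) x58)
  (sub (sub (sub (sub (add (add C x148) x152) x138) x126) x198) x64)
  (add (add (sub (sub (add (add (add (add C x144) x152) x136) x160) x130) x202) x66) x230)
  (sub (sub (sub (sub (add (add C x144) x148) x158) x134) x206) x232)
  (sub (sub (add (add (sub (sub C x160) x152) x86) x122) x212) x238)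
  (add (add (sub (add (add (add (add (sub C x158) x136) x148) x88) x124) x214) x78) x242)
  (sub (sub (add (add (add (add (add (add C x166) x170) x174) x186) x198) x234) x54) x2)
  (sub (sub (add (add (sub (add (add C x162) x170) x172) x202) x238) x58) x86)
  (add (add (sub (add (add (sub (add (add C x162) x166) x182) x206) x242) x62) x6) x88)
  (sub (sub (sub (sub (sub C x174) x166) x190) x64) x92)
  (sub (sub (sub (add (add (sub C x172) x162) x186) x192) x66) x14)
  (add (add (sub (sub (sub (sub C x186) x170) x218) x74) x18) x100)
  (sub (sub (sub (add (add (sub C x182) x162) x174) x222) x78) x26)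
  (sub (sub (sub (add (add (sub C x192) x202) x214) x172) x136) x110)
  (sub (sub (sub (sub (sub C x190) x198) x174) x138) x32)
  (sub (sub (add (add (sub (add (add C x202) x206) x192) x162) x234) x144) x38)
  (sub (sub (add (add (add (add (add (add C x198) x206) x190) x214) x166) x238) x148) x122)
  (add (add (sub (add (add (sub (add (add C x198) x202) x212) x170) x242) x152) x42) x124)
  (add (add (sub (sub (sub (sub C x214) x206) x230) x158) x48) x130)
  (sub (sub (sub (add (add (sub C x212) x190) x202) x232) x160) x134)
  (add (add (add (add (sub (add (add (sub C x222) x230) x242) x182) x2) x110) x54) x136)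
  (sub (add (add (sub (sub (sub C x218) x234) x186) x6) x114) x62)
  (add (add (add (add (sub (add (add (sub C x232) x218) x242) x212) x14) x122) x66) x148)
  (sub (add (add (sub (sub (sub C x230) x238) x214) x16) x124) x152)
  (sub (add (add (add (add (sub (add (add C x238) x242) x222) x162) x198) x18) x126) x74)
  (sub (add (add (add (add (sub (add (add C x234) x242) x232) x166) x202) x22) x130) x158)
  (add (add (add (add (add (add (add (add (add (add C x234) x238) x218) x230) x170) x206) x26) x134) x78) x160))
  (chk [x2, x14, x16, x26, x32, x62, x242])

noncomputable def RK : Nat := nat_lit 0xf2003e0020001a0010000e0002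

noncomputable def CK : Nat := nat_lit 0x1000a000a000a000a000a000a

noncomputable def H : Nat := nat_lit 0x288000000000000014b000000000000014a000002230000016900000000000000000000000000000222000000000000016800000000000002290000024d00000000000000000000016f000000000000000700000000000000720000000000000000000001b6000000fc0000000000000228000000000000024c000000000000000000000000000000fd000001b70000016e00000000000000730000000000000006000001510000022f00000000000000000000021d000000000000001300000000000000de0000000000000000000001c30000007f00000145000000000000001900000000000000840000000d00000001000000000000000000000000000000d9000000000000006d000000000000000000000000000001c9000000e500000000000001bc00000000000001b100000000000000790000010200000000000000000000000000000150000000000000022e0000000000000000000000000000007e000001c20000021c00000000000000df00000000000000120000000000000000000000e4000001c80000000000000078000000000000010300000000000001bd000001b000000000000000000000014400000000000000850000000000000018000000d80000006c0000000000000000000000000000000c000000000000000000000000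

theorem spec : Spec 4 false idx RK 7 G := fun _ _ _ _ => by eq_refl

theorem cover : cov 5 false H RK CK 7 3 = true := by decide +kernel

end S5x1

namespace S5x1

noncomputable def ts0 : List Nat :=
  [nat_lit 81082907742879868247132230677101019197,
   nat_lit 81082907742879868247132230677101019136,
   nat_lit 81082907742879868247132230677101019546,
   nat_lit 81082907742879868247132230677101019346,
   nat_lit 81082907742879868247132230677101026086,
   nat_lit 81082907742879868247132230677101026546,
   nat_lit 81082907742879868247132230677101177106,
   nat_lit 81082907742879868247132230677101269246,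
   nat_lit 81082907742879868247132230677105066086,
   nat_lit 81082907742879868247132230677109390246,
   nat_lit 81082907742879868247132230677211060366,
   nat_lit 81082907742879868247132230677378230246,
   nat_lit 81082907742879868247132230680194917626,
   nat_lit 81082907742879868247132230686169614906,
   nat_lit 81082907742879868247132230765894104766,
   nat_lit 81082907742879868247132230970352409546,
   nat_lit 81082907742879868247132233260729136326,
   nat_lit 81082907742879868247132240065599618466,
   nat_lit 81082907742879868247132306608417070466,
   nat_lit 81082907742879868247132528788012084526,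
   nat_lit 81082907742879868247134479604203276246,
   nat_lit 81082907742879868247141634326290978006,
   nat_lit 81082907742879868247199259198778395486,
   nat_lit 81082907742879868247427323330723599766,
   nat_lit 81082907742879868249140512366697252746,
   nat_lit 81082907742879868256355003511231436746,
   nat_lit 81082907742879868307572577803224758606,
   nat_lit 81082907742879868534478711591823168346,
   nat_lit 81082907742879870073083595809973576246,
   nat_lit 81082907742879877178328770408642670386,
   nat_lit 81082907742879923592281231378105039026,
   nat_lit 81082907742880145339258129027259147806,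
   nat_lit 81082907742881550536478103913364161926,
   nat_lit 81082907742888453387121112694478379846,
   nat_lit 81082907742931128797676040545033098606,
   nat_lit 81082907743145594567318852707951605766,
   nat_lit 81082907744445110488221884867317789146]

theorem run0 : go idx G base H RK CK 121 0 7 ts0 = true := by decide +kernel

end S5x1

namespace S5x2

noncomputable def idx : List Nat :=
  [nat_lit 2, nat_lit 6, nat_lit 14, nat_lit 16, nat_lit 18, nat_lit 22, nat_lit 26, nat_lit 32,
  nat_lit 34, nat_lit 38, nat_lit 42, nat_lit 46, nat_lit 48, nat_lit 54, nat_lit 58, nat_lit 62,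
  nat_lit 64, nat_lit 66, nat_lit 74, nat_lit 78, nat_lit 86, nat_lit 88, nat_lit 92, nat_lit 96,
  nat_lit 100, nat_lit 102, nat_lit 110, nat_lit 114, nat_lit 122, nat_lit 124, nat_lit 126, nat_lit 130,
  nat_lit 134, nat_lit 136, nat_lit 138, nat_lit 144, nat_lit 148, nat_lit 152, nat_lit 158, nat_lit 160,
  nat_lit 162, nat_lit 166, nat_lit 170, nat_lit 172, nat_lit 174, nat_lit 182, nat_lit 186, nat_lit 190,
  nat_lit 192, nat_lit 198, nat_lit 202, nat_lit 206, nat_lit 212, nat_lit 214, nat_lit 218, nat_lit 222,
  nat_lit 230, nat_lit 232, nat_lit 234, nat_lit 238, nat_lit 242]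

def TT : Type :=
  Nat → Nat → Nat → Nat → Nat → Nat → Nat → Nat → Nat → Nat → Nat → Nat → Nat → Nat → Nat → Nat →
  Nat → Nat → Nat → Nat → Nat → Nat → Nat → Nat → Nat → Nat → Nat → Nat → Nat → Nat → Nat → Nat →
  Nat → Nat → Nat → Nat → Nat → Nat → Nat → Nat → Nat → Nat → Nat → Nat → Nat → Nat → Nat → Nat →
  Nat → Nat → Nat → Nat → Nat → Nat → Nat → Nat → Nat → Nat → Nat → Nat → Nat → Bool

noncomputable def base : TT :=
  fun _ _ _ _ _ _ _ _ _ _ _ _ _ _ _ _ _ _ _ _ _ _ _ _ _ _ _ _ _ _ _ _ _ _ _ _ _ _ _ _
  _ _ _ _ _ _ _ _ _ _ _ _ _ _ _ _ _ _ _ _ _ => true

noncomputable def G (chk : List Nat → Bool) (C : Nat) (k : TT) : TT :=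
  fun x2 x6 x14 x16 x18 x22 x26 x32 x34 x38 x42 x46 x48 x54 x58 x62
  x64 x66 x74 x78 x86 x88 x92 x96 x100 x102 x110 x114 x122 x124 x126 x130
  x134 x136 x138 x144 x148 x152 x158 x160 x162 x166 x170 x172 x174 x182 x186 x190
  x192 x198 x202 x206 x212 x214 x218 x222 x230 x232 x234 x238 x242 =>
  Bool.rec false (k
  (add (add (add (add (add (add (add (sub C x6) x14) x26) x38) x74) x110) x218) x162)
  (sub (add (add (add (add (add (sub (sub C x2) x18) x42) x78) x114) x222) x88) x170)
  (add (add (add (sub (add (add (sub C x16) x2) x26) x32) x122) x230) x174)
  (sub (add (add (sub (sub (sub C x14) x22) x34) x124) x232) x96)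
  (sub (add (add (add (sub (sub (add (add C x22) x26) x6) x54) x126) x234) x100) x182)
  (sub (add (add (sub (sub (add (add C x18) x26) x16) x58) x130) x238) x102)
  (add (add (add (sub (add (add (add (add C x18) x22) x2) x14) x62) x134) x242) x186)
  (add (sub (sub (sub (sub C x34) x38) x14) x86) x192)
  (sub (sub (sub (sub (sub C x32) x46) x16) x88) x114)
  (add (sub (add (add (sub (sub C x42) x32) x2) x74) x92) x198)
  (sub (add (sub (add (add (sub (sub C x38) x48) x6) x78) x96) x124) x206)
  (sub (sub (sub (sub (sub C x48) x34) x64) x100) x126)
  (sub (add (sub (sub (sub (sub C x46) x42) x66) x102) x130) x212)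
  (sub (add (sub (sub (add (add (add (add C x58) x62) x66) x78) x18) x162) x136) x218)
  (sub (sub (sub (sub (add (add C x54) x62) x64) x22) x166) x138)
  (add (sub (sub (sub (add (add C x54) x58) x74) x26) x170) x222)
  (sub (sub (sub (sub (sub C x66) x58) x46) x172) x144)
  (sub (add (sub (sub (add (add (sub C x64) x54) x78) x48) x174) x148) x230)
  (add (sub (add (add (sub (sub C x78) x62) x2) x38) x182) x234)
  (sub (add (sub (add (add (add (add (sub C x74) x54) x66) x6) x42) x186) x160) x242)
  (add (sub (add (add (sub (sub C x88) x92) x122) x158) x32) x166)
  (sub (add (sub (add (add (sub (sub C x86) x100) x124) x160) x34) x6) x170)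
  (add (sub (sub (sub (sub C x96) x86) x110) x38) x172)
  (sub (sub (sub (sub (sub C x92) x102) x114) x42) x16)
  (sub (add (sub (sub (sub (sub C x102) x88) x136) x46) x18) x182)
  (sub (sub (sub (sub (sub C x100) x96) x138) x48) x22)
  (add (add (add (sub (add (add (sub C x114) x122) x134) x92) x2) x218) x190)
  (sub (add (add (sub (sub (sub C x110) x126) x96) x6) x222) x34)
  (add (add (add (add (add (add (add (sub C x124) x110) x134) x86) x158) x14) x230) x202)
  (sub (add (add (add (add (add (sub (sub C x122) x130) x88) x160) x16) x232) x42) x206)
  (sub (add (add (sub (sub (add (add C x130) x134) x114) x144) x18) x234) x46)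
  (sub (add (add (add (sub (sub (add (add C x126) x134) x124) x148) x22) x238) x48) x212)
  (add (add (add (sub (add (add (add (add C x126) x130) x110) x122) x152) x26) x242) x214)
  (sub (add (sub (sub (add (add (sub C x138) x148) x160) x100) x190) x54) x218)
  (sub (sub (sub (sub (sub C x136) x144) x102) x192) x58)
  (sub (sub (sub (sub (add (add C x148) x152) x138) x126) x198) x64)
  (sub (add (sub (sub (add (add (add (add C x144) x152) x136) x160) x130) x202) x66) x230)
  (add (sub (sub (sub (add (add C x144) x148) x158) x134) x206) x232)
  (add (sub (add (add (sub (sub C x160) x152) x86) x122) x212) x238)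
  (sub (add (sub (add (add (add (add (sub C x158) x136) x148) x88) x124) x214) x78) x242)
  (add (sub (add (add (add (add (add (add C x166) x170) x174) x186) x198) x234) x54) x2)
  (add (sub (add (add (sub (add (add C x162) x170) x172) x202) x238) x58) x86)
  (sub (sub (sub (add (add (sub (add (add C x162) x166) x182) x206) x242) x62) x6) x88)
  (add (sub (sub (sub (sub C x174) x166) x190) x64) x92)
  (add (sub (sub (add (add (sub C x172) x162) x186) x192) x66) x14)
  (sub (sub (sub (sub (sub (sub C x186) x170) x218) x74) x18) x100)
  (add (sub (sub (add (add (sub C x182) x162) x174) x222) x78) x26)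
  (add (sub (sub (add (add (sub C x192) x202) x214) x172) x136) x110)
  (add (sub (sub (sub (sub C x190) x198) x174) x138) x32)
  (add (sub (add (add (sub (add (add C x202) x206) x192) x162) x234) x144) x38)
  (add (sub (add (add (add (add (add (add C x198) x206) x190) x214) x166) x238) x148) x122)
  (sub (sub (sub (add (add (sub (add (add C x198) x202) x212) x170) x242) x152) x42) x124)
  (sub (sub (sub (sub (sub (sub C x214) x206) x230) x158) x48) x130)
  (add (sub (sub (add (add (sub C x212) x190) x202) x232) x160) x134)
  (sub (sub (add (add (sub (add (add (sub C x222) x230) x242) x182) x2) x110) x54) x136)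
  (add (add (add (sub (sub (sub C x218) x234) x186) x6) x114) x62)
  (sub (sub (add (add (sub (add (add (sub C x232) x218) x242) x212) x14) x122) x66) x148)
  (add (add (add (sub (sub (sub C x230) x238) x214) x16) x124) x152)
  (add (add (add (add (add (sub (add (add C x238) x242) x222) x162) x198) x18) x126) x74)
  (add (add (add (add (add (sub (add (add C x234) x242) x232) x166) x202) x22) x130) x158)
  (sub (sub (add (add (add (add (add (add (add (add C x234) x238) x218) x230) x170) x206) x26) x134) x78) x160))
  (chk [x2, x14, x16, x26, x32, x62, x242])

noncomputable def RK : Nat := nat_lit 0xf2003e0020001a0010000e0002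

noncomputable def CK : Nat := nat_lit 0x1000a000a000a000a000a000a

noncomputable def H : Nat := nat_lit 0x288000000000000014b000000000000014a000002230000016900000000000000000000000000000222000000000000016800000000000002290000024d00000000000000000000016f000000000000000700000000000000720000000000000000000001b6000000fc0000000000000228000000000000024c000000000000000000000000000000fd000001b70000016e00000000000000730000000000000006000001510000022f00000000000000000000021d000000000000001300000000000000de0000000000000000000001c30000007f00000145000000000000001900000000000000840000000d00000001000000000000000000000000000000d9000000000000006d000000000000000000000000000001c9000000e500000000000001bc00000000000001b100000000000000790000010200000000000000000000000000000150000000000000022e0000000000000000000000000000007e000001c20000021c00000000000000df00000000000000120000000000000000000000e4000001c80000000000000078000000000000010300000000000001bd000001b000000000000000000000014400000000000000850000000000000018000000d80000006c0000000000000000000000000000000c000000000000000000000000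

theorem spec : Spec 4 true idx RK 7 G := fun _ _ _ _ => by eq_refl

theorem cover : cov 5 true H RK CK 7 3 = true := by decide +kernel

end S5x2

namespace S5x2

noncomputable def ts0 : List Nat :=
  [nat_lit 81082907742879868247132230677101019197,
   nat_lit 81082907742879868247132230677101019136,
   nat_lit 81082907742879868247132230677101019546,
   nat_lit 81082907742879868247132230677101019346,
   nat_lit 81082907742879868247132230677101026086,
   nat_lit 81082907742879868247132230677101034226,
   nat_lit 81082907742879868247132230677101215506,
   nat_lit 81082907742879868247132230677101869566,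
   nat_lit 81082907742879868247132230677108650726,
   nat_lit 81082907742879868247132230677145600486,
   nat_lit 81082907742879868247132230677447318766,
   nat_lit 81082907742879868247132230679379210326,
   nat_lit 81082907742879868247132230693844434746,
   nat_lit 81082907742879868247132230792427732586,
   nat_lit 81082907742879868247132231506787492126,
   nat_lit 81082907742879868247132236494916512346,
   nat_lit 81082907742879868247132272185245730246,
   nat_lit 81082907742879868247132523798403311506,
   nat_lit 81082907742879868247134315165517829666,
   nat_lit 81082907742879868247146992744205962366,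
   nat_lit 81082907742879868247237072529792251606,
   nat_lit 81082907742879868247875567605222888966,
   nat_lit 81082907742879868252408746670654911006,
   nat_lit 81082907742879868284561049448462229046,
   nat_lit 81082907742879868512761978881870135946,
   nat_lit 81082907742879870131745406388760166026,
   nat_lit 81082907742879881620969629946688354446,
   nat_lit 81082907742879963140957126839229939866,
   nat_lit 81082907742880541621929074826960523446,
   nat_lit 81082907742884646335261775365628659346,
   nat_lit 81082907742913773501383791771247564146,
   nat_lit 81082907743120454516566656738151085886,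
   nat_lit 81082907744587055764448847535528659846,
   nat_lit 81082907754993875947218814406944298726,
   nat_lit 81082907828840032039425927588167827726,
   nat_lit 81082908352845049975917483823280166486,
   nat_lit 81082912071146720265191275453825546266]

theorem run0 : go idx G base H RK CK 121 0 7 ts0 = true := by decide +kernel

end S5x2

namespace S5x3

noncomputable def idx : List Nat :=
  [nat_lit 5, nat_lit 7, nat_lit 11, nat_lit 15, nat_lit 19, nat_lit 21, nat_lit 29, nat_lit 33,
  nat_lit 41, nat_lit 43, nat_lit 45, nat_lit 49, nat_lit 53, nat_lit 55, nat_lit 57, nat_lit 63,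
  nat_lit 67, nat_lit 71, nat_lit 77, nat_lit 79, nat_lit 83, nat_lit 87, nat_lit 95, nat_lit 97,
  nat_lit 99, nat_lit 103, nat_lit 107, nat_lit 113, nat_lit 115, nat_lit 119, nat_lit 123, nat_lit 127,
  nat_lit 129, nat_lit 135, nat_lit 139, nat_lit 143, nat_lit 145, nat_lit 147, nat_lit 155, nat_lit 159,
  nat_lit 163, nat_lit 165, nat_lit 171, nat_lit 175, nat_lit 179, nat_lit 185, nat_lit 187, nat_lit 189,
  nat_lit 193, nat_lit 197, nat_lit 199, nat_lit 201, nat_lit 209, nat_lit 213, nat_lit 221, nat_lit 223,
  nat_lit 227, nat_lit 231, nat_lit 235, nat_lit 237]

def TT : Type :=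
  Nat → Nat → Nat → Nat → Nat → Nat → Nat → Nat → Nat → Nat → Nat → Nat → Nat → Nat → Nat → Nat →
  Nat → Nat → Nat → Nat → Nat → Nat → Nat → Nat → Nat → Nat → Nat → Nat → Nat → Nat → Nat → Nat →
  Nat → Nat → Nat → Nat → Nat → Nat → Nat → Nat → Nat → Nat → Nat → Nat → Nat → Nat → Nat → Nat →
  Nat → Nat → Nat → Nat → Nat → Nat → Nat → Nat → Nat → Nat → Nat → Nat → Bool

noncomputable def base : TT :=
  fun _ _ _ _ _ _ _ _ _ _ _ _ _ _ _ _ _ _ _ _ _ _ _ _ _ _ _ _ _ _ _ _ _ _ _ _ _ _ _ _
  _ _ _ _ _ _ _ _ _ _ _ _ _ _ _ _ _ _ _ _ => true

noncomputable def G (chk : List Nat → Bool) (C : Nat) (k : TT) : TT :=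
  fun x5 x7 x11 x15 x19 x21 x29 x33 x41 x43 x45 x49 x53 x55 x57 x63
  x67 x71 x77 x79 x83 x87 x95 x97 x99 x103 x107 x113 x115 x119 x123 x127
  x129 x135 x139 x143 x145 x147 x155 x159 x163 x165 x171 x175 x179 x185 x187 x189
  x193 x197 x199 x201 x209 x213 x221 x223 x227 x231 x235 x237 =>
  Bool.rec false (k
  (add (add (add (add (add (sub (sub C x7) x11) x41) x77) x113) x221) x165)
  (sub (add (add (add (add (sub (sub C x5) x19) x43) x79) x115) x223) x87)
  (add (add (add (sub (sub (sub C x15) x5) x29) x119) x227) x171)
  (sub (add (add (add (sub (sub (sub C x11) x21) x33) x123) x231) x97) x179)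
  (sub (add (add (sub (sub (sub C x21) x7) x55) x127) x235) x99)
  (sub (add (add (add (sub (sub (sub C x19) x15) x57) x129) x237) x103) x185)
  (add (sub (sub (add (add (sub C x33) x41) x53) x11) x83) x189)
  (sub (add (sub (sub (sub (sub C x29) x45) x15) x87) x115) x197)
  (add (sub (add (add (add (add (sub C x43) x29) x53) x5) x77) x95) x201)
  (sub (sub (add (add (sub (sub C x41) x49) x7) x79) x97) x123)
  (sub (add (sub (sub (sub (add (add C x49) x53) x33) x63) x99) x127) x209)
  (sub (sub (sub (sub (add (add C x45) x53) x43) x67) x103) x129)
  (add (sub (sub (add (add (add (add C x45) x49) x29) x41) x71) x107) x213)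
  (sub (sub (sub (add (add (sub C x57) x67) x79) x19) x163) x135)
  (sub (add (sub (sub (sub (sub C x55) x63) x21) x165) x139) x221)
  (sub (add (sub (sub (sub (add (add C x67) x71) x57) x45) x171) x145) x227)
  (sub (sub (sub (add (add (add (add C x63) x71) x55) x79) x49) x175) x147)
  (add (sub (sub (sub (add (add C x63) x67) x77) x53) x179) x231)
  (add (sub (add (add (sub (sub C x79) x71) x5) x41) x185) x237)
  (sub (sub (add (add (add (add (sub C x77) x55) x67) x7) x43) x187) x159)
  (add (sub (add (add (add (add (sub C x87) x95) x107) x119) x155) x29) x163)
  (sub (sub (add (add (sub (sub C x83) x99) x123) x159) x33) x7)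
  (add (sub (sub (add (add (sub C x97) x83) x107) x113) x41) x175)
  (sub (add (sub (sub (sub (sub C x95) x103) x115) x43) x15) x179)
  (sub (sub (sub (sub (add (add C x103) x107) x87) x135) x45) x19)
  (sub (add (sub (sub (sub (add (add C x99) x107) x97) x139) x49) x21) x185)
  (add (sub (sub (add (add (add (add C x99) x103) x83) x95) x143) x53) x187)
  (add (add (add (sub (sub (sub C x115) x119) x95) x5) x221) x193)
  (sub (add (add (add (sub (sub (sub C x113) x127) x97) x7) x223) x33) x197)
  (add (add (add (add (add (sub (sub C x123) x113) x83) x155) x11) x227) x199)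
  (sub (add (add (add (add (sub (sub C x119) x129) x87) x159) x15) x231) x43)
  (sub (add (add (add (sub (sub (sub C x129) x115) x145) x19) x235) x45) x209)
  (sub (add (add (sub (sub (sub C x127) x123) x147) x21) x237) x49)
  (sub (sub (sub (add (add (add (add C x139) x143) x147) x159) x99) x189) x55)
  (sub (add (sub (sub (sub (add (add C x135) x143) x145) x103) x193) x57) x221)
  (add (sub (sub (sub (add (add C x135) x139) x155) x107) x197) x223)
  (sub (add (sub (sub (sub (sub C x147) x139) x127) x199) x63) x227)
  (sub (sub (sub (add (add (sub C x145) x135) x159) x129) x201) x67)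
  (add (sub (add (add (sub (sub C x159) x143) x83) x119) x209) x235)
  (sub (sub (add (add (add (add (sub C x155) x135) x147) x87) x123) x213) x79)
  (add (sub (add (add (add (add (sub C x165) x175) x187) x199) x235) x55) x83)
  (add (sub (add (add (sub (sub C x163) x171) x201) x237) x57) x5)
  (add (sub (sub (sub (add (add C x175) x179) x165) x189) x63) x11)
  (add (sub (sub (add (add (add (add C x171) x179) x163) x187) x193) x67) x95)
  (sub (sub (sub (sub (sub (add (add C x171) x175) x185) x197) x71) x15) x97)
  (sub (sub (sub (sub (sub (sub C x187) x179) x221) x77) x21) x103)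
  (add (sub (sub (add (add (sub C x185) x163) x175) x223) x79) x107)
  (add (sub (sub (add (add (add (add C x193) x197) x201) x213) x171) x135) x29)
  (add (sub (sub (sub (add (add C x189) x197) x199) x175) x139) x113)
  (sub (sub (sub (sub (sub (add (add C x189) x193) x209) x179) x143) x33) x115)
  (add (sub (add (add (sub (sub C x201) x193) x163) x235) x145) x119)
  (add (sub (add (add (add (add (sub C x199) x189) x213) x165) x237) x147) x41)
  (sub (sub (sub (sub (sub (sub C x213) x197) x227) x155) x45) x127)
  (add (sub (sub (add (add (sub C x209) x189) x201) x231) x159) x53)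
  (sub (sub (add (add (sub (sub (sub C x223) x227) x185) x5) x113) x57) x139)
  (add (add (add (sub (sub (sub C x221) x235) x187) x7) x115) x143)
  (sub (sub (add (add (sub (sub (sub C x231) x221) x209) x11) x119) x63) x145)
  (add (add (add (sub (sub (sub C x227) x237) x213) x15) x123) x71)
  (add (add (add (add (add (sub (sub C x237) x223) x163) x199) x19) x127) x155)
  (add (add (add (add (add (sub (sub C x235) x231) x165) x201) x21) x129) x77))
  (chk [x5, x11, x53, x71])

noncomputable def RK : Nat := nat_lit 0x470035000b0005

noncomputable def CK : Nat := nat_lit 0xa000a00140014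

noncomputable def H : Nat := nat_lit 0xde000000df000000000000014a00000000000000fd000000000000014b000000fc000000000000000000000000000001500000000000000175000000000000000000000000000000310000009d000001020000000000000073000000000000000600000151000001740000000000000000000001030000000000000007000000000000007200000000000000000000009c0000003000000000000000e40000000000000157000000000000000000000000000000910000007f000001450000000000000013000000000000002400000000000000000000008b0000001f000000000000002b0000000000000001000000000000000d0000006d0000000000000000000000d90000000000000019000000000000008400000079000000a300000000000000000000000000000096000000000000003600000000000000e5000001560000000000000000000001440000000000000025000000000000001200000000000000000000007e00000090000000d80000000000000085000000000000001800000097000000370000000000000000000000000000007800000000000000a20000000000000000000000000000001e0000008a000000000000000c000000000000006c000000000000002a0000000000000000000000000000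

theorem spec : Spec 4 true idx RK 4 G := fun _ _ _ _ => by eq_refl

theorem cover : cov 5 true H RK CK 4 0 = true := by decide +kernel

end S5x3

namespace S5x3

noncomputable def ts0 : List Nat :=
  [nat_lit 79753679747094952374228423616820674620,
   nat_lit 79753679747094952374228423616820674560,
   nat_lit 79753679747094952374228423616820674950,
   nat_lit 79753679747094952374228423616820674740,
   nat_lit 79753679747094952374228423616820680710,
   nat_lit 79753679747094952374228423616820682660,
   nat_lit 79753679747094952374228423616820802810,
   nat_lit 79753679747094952374228423616820958200,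
   nat_lit 79753679747094952374228423616823718150,
   nat_lit 79753679747094952374228423616829790660,
   nat_lit 79753679747094952374228423616898397390,
   nat_lit 79753679747094952374228423617103114300,
   nat_lit 79753679747094952374228423618902924730,
   nat_lit 79753679747094952374228423625426882560,
   nat_lit 79753679747094952374228423674520188990,
   nat_lit 79753679747094952374228423877121720100,
   nat_lit 79753679747094952374228425255103261830,
   nat_lit 79753679747094952374228431466125754980,
   nat_lit 79753679747094952374228470961051013770,
   nat_lit 79753679747094952374228660089321724280,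
   nat_lit 79753679747094952374229809339194717830,
   nat_lit 79753679747094952374235547715396356660,
   nat_lit 79753679747094952374269355455907635310,
   nat_lit 79753679747094952374443128515275595900,
   nat_lit 79753679747094952375445436841801242570,
   nat_lit 79753679747094952380702302848411800960,
   nat_lit 79753679747094952410583697905040959230,
   nat_lit 79753679747094952569524862039702439380,
   nat_lit 79753679747094953463903347747983122790,
   nat_lit 79753679747094958268191337398413553700,
   nat_lit 79753679747094985113519602511782036250,
   nat_lit 79753679747095130314619146749163763960,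
   nat_lit 79753679747095937720048297937176162310,
   nat_lit 79753679747100325999935378436229455140,
   nat_lit 79753679747124644704285116198053395470,
   nat_lit 79753679747257268296213753806769440700,
   nat_lit 79753679747990493459810918991579322970]

theorem run0 : go idx G base H RK CK 121 0 4 ts0 = true := by decide +kernel

end S5x3

namespace S5x4

noncomputable def idx : List Nat :=
  [nat_lit 0, nat_lit 4, nat_lit 8, nat_lit 10, nat_lit 12, nat_lit 20, nat_lit 24, nat_lit 28,
  nat_lit 30, nat_lit 36, nat_lit 40, nat_lit 44, nat_lit 50, nat_lit 52, nat_lit 56, nat_lit 60,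
  nat_lit 68, nat_lit 70, nat_lit 72, nat_lit 76, nat_lit 80, nat_lit 82, nat_lit 84, nat_lit 90,
  nat_lit 94, nat_lit 98, nat_lit 104, nat_lit 106, nat_lit 108, nat_lit 112, nat_lit 116, nat_lit 118,
  nat_lit 120, nat_lit 128, nat_lit 132, nat_lit 140, nat_lit 142, nat_lit 146, nat_lit 150, nat_lit 154,
  nat_lit 156, nat_lit 164, nat_lit 168, nat_lit 176, nat_lit 178, nat_lit 180, nat_lit 184, nat_lit 188,
  nat_lit 194, nat_lit 196, nat_lit 200, nat_lit 204, nat_lit 208, nat_lit 210, nat_lit 216, nat_lit 220,
  nat_lit 224, nat_lit 226, nat_lit 228, nat_lit 236, nat_lit 240]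

def TT : Type :=
  Nat → Nat → Nat → Nat → Nat → Nat → Nat → Nat → Nat → Nat → Nat → Nat → Nat → Nat → Nat → Nat →
  Nat → Nat → Nat → Nat → Nat → Nat → Nat → Nat → Nat → Nat → Nat → Nat → Nat → Nat → Nat → Nat →
  Nat → Nat → Nat → Nat → Nat → Nat → Nat → Nat → Nat → Nat → Nat → Nat → Nat → Nat → Nat → Nat →
  Nat → Nat → Nat → Nat → Nat → Nat → Nat → Nat → Nat → Nat → Nat → Nat → Nat → Bool

noncomputable def base : TT :=
  fun _ _ _ _ _ _ _ _ _ _ _ _ _ _ _ _ _ _ _ _ _ _ _ _ _ _ _ _ _ _ _ _ _ _ _ _ _ _ _ _
  _ _ _ _ _ _ _ _ _ _ _ _ _ _ _ _ _ _ _ _ _ => true

noncomputable def G (chk : List Nat → Bool) (C : Nat) (k : TT) : TT :=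
  fun x0 x4 x8 x10 x12 x20 x24 x28 x30 x36 x40 x44 x50 x52 x56 x60
  x68 x70 x72 x76 x80 x82 x84 x90 x94 x98 x104 x106 x108 x112 x116 x118
  x120 x128 x132 x140 x142 x146 x150 x154 x156 x164 x168 x176 x178 x180 x184 x188
  x194 x196 x200 x204 x208 x210 x216 x220 x224 x226 x228 x236 x240 =>
  Bool.rec false (k
  (sub (add (add (add (add (add (add (add (add (add C x4) x8) x12) x24) x36) x72) x108) x216) x82) x164)
  (sub (add (add (add (add (sub (add (add C x0) x8) x10) x40) x76) x112) x220) x84)
  (add (add (add (add (add (sub (add (add C x0) x4) x20) x44) x80) x116) x224) x168)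
  (sub (add (add (sub (sub (sub C x12) x4) x28) x118) x226) x90)
  (sub (add (add (add (sub (add (add (sub C x10) x0) x24) x30) x120) x228) x94) x176)
  (add (add (add (sub (sub (sub C x24) x8) x56) x128) x236) x180)
  (sub (add (add (add (sub (add (add (sub C x20) x0) x12) x60) x132) x240) x106) x188)
  (sub (sub (sub (add (add (sub C x30) x40) x52) x10) x82) x108)
  (sub (add (sub (sub (sub (sub C x28) x36) x12) x84) x112) x194)
  (sub (add (sub (add (add (sub (add (add C x40) x44) x30) x0) x72) x90) x118) x200)
  (sub (sub (add (add (add (add (add (add C x36) x44) x28) x52) x4) x76) x94) x120)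
  (add (sub (add (add (sub (add (add C x36) x40) x50) x8) x80) x98) x204)
  (add (sub (sub (sub (sub C x52) x44) x68) x104) x210)
  (sub (sub (sub (add (add (sub C x50) x28) x40) x70) x106) x132)
  (add (sub (sub (add (add (sub C x60) x68) x80) x20) x164) x216)
  (sub (add (sub (sub (sub (sub C x56) x72) x24) x168) x142) x224)
  (add (sub (sub (add (add (sub C x70) x56) x80) x50) x176) x228)
  (sub (sub (sub (sub (sub C x68) x76) x52) x178) x150)
  (sub (add (sub (add (add (sub (add (add C x76) x80) x60) x0) x36) x180) x154) x236)
  (sub (sub (add (add (sub (add (add C x72) x80) x70) x4) x40) x184) x156)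
  (add (sub (add (add (add (add (add (add C x72) x76) x56) x68) x8) x44) x188) x240)
  (sub (add (sub (add (add (add (add (sub C x84) x94) x106) x118) x154) x28) x0) x164)
  (sub (sub (add (add (sub (sub C x82) x90) x120) x156) x30) x4)
  (sub (sub (sub (sub (add (add C x94) x98) x84) x108) x36) x10)
  (sub (add (sub (sub (add (add (add (add C x90) x98) x82) x106) x112) x40) x12) x176)
  (add (sub (sub (sub (add (add C x90) x94) x104) x116) x44) x178)
  (add (sub (sub (sub (sub C x106) x98) x140) x50) x184)
  (sub (add (sub (sub (add (add (sub C x104) x82) x94) x142) x52) x24) x188)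
  (sub (add (add (sub (add (add (add (add C x112) x116) x120) x132) x90) x0) x216) x28)
  (sub (add (add (add (sub (sub (add (add C x108) x116) x118) x94) x4) x220) x30) x194)
  (add (add (add (sub (sub (add (add C x108) x112) x128) x98) x8) x224) x196)
  (sub (add (add (add (add (add (sub (sub C x120) x112) x82) x154) x10) x226) x36) x200)
  (sub (add (add (add (add (add (add (sub C x118) x108) x132) x84) x156) x12) x228) x40)
  (add (add (add (sub (sub (sub C x132) x116) x146) x20) x236) x208)
  (sub (add (add (sub (add (add (sub C x128) x108) x120) x150) x24) x240) x52)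
  (add (sub (sub (sub (sub C x142) x146) x104) x194) x220)
  (sub (add (sub (sub (sub (sub C x140) x154) x106) x196) x60) x224)
  (add (sub (sub (sub (sub C x150) x140) x128) x200) x226)
  (sub (sub (sub (sub (sub C x146) x156) x132) x204) x70)
  (sub (add (sub (add (add (sub (sub C x156) x142) x82) x118) x208) x72) x236)
  (sub (sub (add (add (sub (sub C x154) x150) x84) x120) x210) x76)
  (sub (sub (sub (add (add (add (add (sub C x168) x176) x188) x200) x236) x56) x0) x82)
  (add (sub (add (add (sub (sub C x164) x180) x204) x240) x60) x8)
  (sub (sub (sub (sub (add (add (sub C x178) x164) x188) x194) x68) x12) x94)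
  (add (sub (sub (sub (sub C x176) x184) x196) x70) x98)
  (add (sub (sub (sub (add (add C x184) x188) x168) x216) x72) x20)
  (add (sub (sub (sub (add (add C x180) x188) x178) x220) x76) x104)
  (sub (sub (sub (sub (add (add (add (add C x180) x184) x164) x176) x224) x80) x24) x106)
  (sub (sub (sub (sub (sub (sub C x196) x200) x176) x140) x30) x112)
  (add (sub (sub (sub (sub C x194) x208) x178) x142) x116)
  (sub (sub (sub (add (add (sub (sub C x204) x194) x164) x236) x146) x36) x118)
  (add (sub (add (add (sub (sub C x200) x210) x168) x240) x150) x44)
  (add (sub (sub (sub (sub C x210) x196) x226) x154) x128)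
  (add (sub (sub (sub (sub C x208) x204) x228) x156) x50)
  (add (add (add (sub (add (add (add (add C x220) x224) x228) x240) x180) x0) x108) x56)
  (add (add (add (sub (sub (add (add C x216) x224) x226) x184) x4) x112) x140)
  (sub (sub (add (add (sub (sub (add (add C x216) x220) x236) x188) x8) x116) x60) x142)
  (add (add (add (sub (sub (sub C x228) x220) x208) x10) x118) x146)
  (add (add (add (sub (add (add (sub C x226) x216) x240) x210) x12) x120) x68)
  (sub (sub (add (add (add (add (sub (sub C x240) x224) x164) x200) x20) x128) x72) x154)
  (add (add (add (add (add (add (add (sub C x236) x216) x228) x168) x204) x24) x132) x80))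
  (chk [x0, x4, x8, x10, x20, x40, x44, x50, x52, x68, x80])

noncomputable def RK : Nat := nat_lit 0x50004400340032002c00280014000a000800040000

noncomputable def CK : Nat := nat_lit 0x500050005000a000a000500050005000500050001

noncomputable def H : Nat := nat_lit 0x43e00000000000004500000000000000000000000000000028e000003780000045c00000000000002ac00000000000000de0000000000000000000002fa0000030c00000000000003d200000000000002be000000000000031e0000038400000000000000000000045600000000000003ea00000000000001b600000324000002b8000000000000000000000000000001da000000000000010800000000000000000000000000000366000002a00000000000000300000000000000032a00000000000003f0000003180000000000000000000000000000029400000000000003e40000000000000000000000000000022200000234000002b200000000000002400000000000000072000002a60000031200000000000000000000037e000000000000023a000000000000014a00000000000000000000016e0000009c00000438000000000000029a00000000000000ea00000306000003cc000000000000000000000000000001bc00000000000001d40000000000000360000002f4000000000000000000000288000000000000021c000000000000007e0000000000000000000001500000016800000000000000e400000000000001b00000000000000000000000000000007800000144000000d8000000000000006c0000000000000000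

theorem spec : Spec 4 true idx RK 11 G := fun _ _ _ _ => by eq_refl

theorem cover : cov 5 true H RK CK 11 1 = true := by decide +kernel

end S5x4

namespace S5x4

noncomputable def ts0 : List Nat :=
  [nat_lit 81082907742879868247132230677101019197,
   nat_lit 81082907742879868247132230677101019136,
   nat_lit 81082907742879868247132230677101019546,
   nat_lit 81082907742879868247132230677101019346,
   nat_lit 81082907742879868247132230677101026086,
   nat_lit 81082907742879868247132230677101030386,
   nat_lit 81082907742879868247132230677101186706,
   nat_lit 81082907742879868247132230677101516766,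
   nat_lit 81082907742879868247132230677106023206,
   nat_lit 81082907742879868247132230677122020486,
   nat_lit 81082907742879868247132230677272899326,
   nat_lit 81082907742879868247132230677978465926,
   nat_lit 81082907742879868247132230683546314106,
   nat_lit 81082907742879868247132230713772729146,
   nat_lit 81082907742879868247132230931608073326,
   nat_lit 81082907742879868247132232213437646346,
   nat_lit 81082907742879868247132241023420911046,
   nat_lit 81082907742879868247132295177965422746,
   nat_lit 81082907742879868247132658060739893666,
   nat_lit 81082907742879868247134942523601035766,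
   nat_lit 81082907742879868247150039768310261046,
   nat_lit 81082907742879868247246343376865409246,
   nat_lit 81082907742879868247877886568719599246,
   nat_lit 81082907742879868251936279663738646046,
   nat_lit 81082907742879868278434408744317997066,
   nat_lit 81082907742879868449428713702445096386,
   nat_lit 81082907742879869563088387858750152046,
   nat_lit 81082907742879876766807687366775744866,
   nat_lit 81082907742879923615278087237709382966,
   nat_lit 81082907742880227072667218889834063266,
   nat_lit 81082907742882198891167030980586406546,
   nat_lit 81082907742894981395889403949246575006,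
   nat_lit 81082907742977998602552191518168065926,
   nat_lit 81082907743516416072842095668800939126,
   nat_lit 81082907747012189173712742232432096286,
   nat_lit 81082907769690588030961028123444419446,
   nat_lit 81082907916908520292644644083779352986]

theorem run0 : go idx G base H RK CK 121 0 11 ts0 = true := by decide +kernel

end S5x4


end Vale.Agent.P348.MomK
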