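import Vale.Agent.P348.MomK

/-! Generated kernel computation of sector moments. -/

open Nat (add sub)

set_option maxRecDepth 1000000
set_option maxHeartbeats 0
set_option linter.unusedVariables false

namespace Vale.Agent.P348.MomK

namespace S6x0

noncomputable def idx : List Nat :=
  [nat_lit 0, nat_lit 4, nat_lit 8, nat_lit 10, nat_lit 12, nat_lit 20, nat_lit 24, nat_lit 28,
  nat_lit 30, nat_lit 36, nat_lit 40, nat_lit 44, nat_lit 50, nat_lit 52, nat_lit 56, nat_lit 60,
  nat_lit 68, nat_lit 70, nat_lit 72, nat_lit 76, nat_lit 80, nat_lit 82, nat_lit 84, nat_lit 90,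
  nat_lit 94, nat_lit 98, nat_lit 104, nat_lit 106, nat_lit 108, nat_lit 112, nat_lit 116, nat_lit 118,
  nat_lit 120, nat_lit 128, nat_lit 132, nat_lit 140, nat_lit 142, nat_lit 146, nat_lit 150, nat_lit 154,
  nat_lit 156, nat_lit 164, nat_lit 168, nat_lit 176, nat_lit 178, nat_lit 180, nat_lit 184, nat_lit 188,
  nat_lit 194, nat_lit 196, nat_lit 200, nat_lit 204, nat_lit 208, nat_lit 210, nat_lit 216, nat_lit 220,
  nat_lit 224, nat_lit 226, nat_lit 228, nat_lit 236, nat_lit 240, nat_lit 244, nat_lit 246, nat_lit 252,
  nat_lit 256, nat_lit 260, nat_lit 266, nat_lit 268, nat_lit 270, nat_lit 274, nat_lit 278, nat_lit 280,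
  nat_lit 282, nat_lit 290, nat_lit 294, nat_lit 302, nat_lit 304, nat_lit 308, nat_lit 312, nat_lit 316,
  nat_lit 318, nat_lit 324, nat_lit 328, nat_lit 332, nat_lit 334, nat_lit 336, nat_lit 344, nat_lit 348,
  nat_lit 352, nat_lit 354, nat_lit 360, nat_lit 364, nat_lit 368, nat_lit 374, nat_lit 376, nat_lit 380,
  nat_lit 384, nat_lit 392, nat_lit 394, nat_lit 396, nat_lit 400, nat_lit 404, nat_lit 410, nat_lit 412,
  nat_lit 416, nat_lit 420, nat_lit 424, nat_lit 426, nat_lit 434, nat_lit 438, nat_lit 446, nat_lit 448,
  nat_lit 450, nat_lit 454, nat_lit 458, nat_lit 460, nat_lit 462, nat_lit 468, nat_lit 472, nat_lit 476,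
  nat_lit 482, nat_lit 484, nat_lit 488, nat_lit 492, nat_lit 500, nat_lit 502, nat_lit 504, nat_lit 508,
  nat_lit 512, nat_lit 518, nat_lit 520, nat_lit 524, nat_lit 528, nat_lit 532, nat_lit 534, nat_lit 540,
  nat_lit 544, nat_lit 548, nat_lit 550, nat_lit 552, nat_lit 560, nat_lit 564, nat_lit 572, nat_lit 574,
  nat_lit 578, nat_lit 582, nat_lit 586, nat_lit 588, nat_lit 596, nat_lit 600, nat_lit 608, nat_lit 610,
  nat_lit 612, nat_lit 616, nat_lit 620, nat_lit 622, nat_lit 624, nat_lit 630, nat_lit 634, nat_lit 638,
  nat_lit 644, nat_lit 646, nat_lit 648, nat_lit 652, nat_lit 656, nat_lit 658, nat_lit 660, nat_lit 668,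
  nat_lit 672, nat_lit 676, nat_lit 678, nat_lit 684, nat_lit 688, nat_lit 692, nat_lit 698, nat_lit 700,
  nat_lit 704, nat_lit 708, nat_lit 716, nat_lit 718, nat_lit 720, nat_lit 724, nat_lit 728]

def TT : Type :=
  Nat → Nat → Nat → Nat → Nat → Nat → Nat → Nat → Nat → Nat → Nat → Nat → Nat → Nat → Nat → Nat →
  Nat → Nat → Nat → Nat → Nat → Nat → Nat → Nat → Nat → Nat → Nat → Nat → Nat → Nat → Nat → Nat →
  Nat → Nat → Nat → Nat → Nat → Nat → Nat → Nat → Nat → Nat → Nat → Nat → Nat → Nat → Nat → Nat →
  Nat → Nat → Nat → Nat → Nat → Nat → Nat → Nat → Nat → Nat → Nat → Nat → Nat → Nat → Nat → Nat →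
  Nat → Nat → Nat → Nat → Nat → Nat → Nat → Nat → Nat → Nat → Nat → Nat → Nat → Nat → Nat → Nat →
  Nat → Nat → Nat → Nat → Nat → Nat → Nat → Nat → Nat → Nat → Nat → Nat → Nat → Nat → Nat → Nat →
  Nat → Nat → Nat → Nat → Nat → Nat → Nat → Nat → Nat → Nat → Nat → Nat → Nat → Nat → Nat → Nat →
  Nat → Nat → Nat → Nat → Nat → Nat → Nat → Nat → Nat → Nat → Nat → Nat → Nat → Nat → Nat → Nat →
  Nat → Nat → Nat → Nat → Nat → Nat → Nat → Nat → Nat → Nat → Nat → Nat → Nat → Nat → Nat → Nat →
  Nat → Nat → Nat → Nat → Nat → Nat → Nat → Nat → Nat → Nat → Nat → Nat → Nat → Nat → Nat → Nat →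
  Nat → Nat → Nat → Nat → Nat → Nat → Nat → Nat → Nat → Nat → Nat → Nat → Nat → Nat → Nat → Nat →
  Nat → Nat → Nat → Nat → Nat → Nat → Nat → Bool

noncomputable def base : TT :=
  fun _ _ _ _ _ _ _ _ _ _ _ _ _ _ _ _ _ _ _ _ _ _ _ _ _ _ _ _ _ _ _ _ _ _ _ _ _ _ _ _
  _ _ _ _ _ _ _ _ _ _ _ _ _ _ _ _ _ _ _ _ _ _ _ _ _ _ _ _ _ _ _ _ _ _ _ _ _ _ _ _
  _ _ _ _ _ _ _ _ _ _ _ _ _ _ _ _ _ _ _ _ _ _ _ _ _ _ _ _ _ _ _ _ _ _ _ _ _ _ _ _
  _ _ _ _ _ _ _ _ _ _ _ _ _ _ _ _ _ _ _ _ _ _ _ _ _ _ _ _ _ _ _ _ _ _ _ _ _ _ _ _
  _ _ _ _ _ _ _ _ _ _ _ _ _ _ _ _ _ _ _ _ _ _ _ => true

noncomputable def G (chk : List Nat → Bool) (C : Nat) (k : TT) : TT :=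
  fun x0 x4 x8 x10 x12 x20 x24 x28 x30 x36 x40 x44 x50 x52 x56 x60
  x68 x70 x72 x76 x80 x82 x84 x90 x94 x98 x104 x106 x108 x112 x116 x118
  x120 x128 x132 x140 x142 x146 x150 x154 x156 x164 x168 x176 x178 x180 x184 x188
  x194 x196 x200 x204 x208 x210 x216 x220 x224 x226 x228 x236 x240 x244 x246 x252
  x256 x260 x266 x268 x270 x274 x278 x280 x282 x290 x294 x302 x304 x308 x312 x316
  x318 x324 x328 x332 x334 x336 x344 x348 x352 x354 x360 x364 x368 x374 x376 x380
  x384 x392 x394 x396 x400 x404 x410 x412 x416 x420 x424 x426 x434 x438 x446 x448
  x450 x454 x458 x460 x462 x468 x472 x476 x482 x484 x488 x492 x500 x502 x504 x508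
  x512 x518 x520 x524 x528 x532 x534 x540 x544 x548 x550 x552 x560 x564 x572 x574
  x578 x582 x586 x588 x596 x600 x608 x610 x612 x616 x620 x622 x624 x630 x634 x638
  x644 x646 x648 x652 x656 x658 x660 x668 x672 x676 x678 x684 x688 x692 x698 x700
  x704 x708 x716 x718 x720 x724 x728 =>
  Bool.rec false (k
  (add (add (add (add (add (add (add (add (add (add (add (add C x4) x8) x12) x24) x36) x72) x108) x216) x324) x648) x244) x488)
  (sub (add (add (add (add (add (add (sub (add (add C x0) x8) x10) x40) x76) x112) x220) x328) x652) x246)
  (sub (add (add (add (add (add (add (sub (add (add C x0) x4) x20) x44) x80) x116) x224) x332) x656) x492)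
  (sub (add (add (add (add (sub (sub (sub C x12) x4) x28) x118) x226) x334) x658) x252)
  (add (add (add (add (add (add (sub (add (add (sub C x10) x0) x24) x30) x120) x228) x336) x660) x256) x500)
  (sub (add (add (add (add (sub (sub (sub C x24) x8) x56) x128) x236) x344) x668) x504)
  (add (add (add (add (add (add (sub (add (add (sub C x20) x0) x12) x60) x132) x240) x348) x672) x268) x512)
  (sub (add (add (sub (sub (add (add (sub C x30) x40) x52) x10) x82) x352) x676) x270)
  (add (add (add (add (sub (sub (sub (sub C x28) x36) x12) x84) x354) x678) x274) x518)
  (add (add (add (add (sub (add (add (sub (add (add C x40) x44) x30) x0) x72) x90) x360) x684) x280) x524)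
  (sub (add (add (sub (add (add (add (add (add (add C x36) x44) x28) x52) x4) x76) x94) x364) x688) x282)
  (sub (add (add (sub (add (add (sub (add (add C x36) x40) x50) x8) x80) x98) x368) x692) x528)
  (sub (add (add (sub (sub (sub (sub C x52) x44) x68) x104) x374) x698) x534)
  (sub (add (add (sub (sub (add (add (sub C x50) x28) x40) x70) x106) x376) x700) x294)
  (sub (add (add (sub (sub (add (add (sub C x60) x68) x80) x20) x164) x380) x704) x540)
  (add (add (add (add (sub (sub (sub (sub C x56) x72) x24) x168) x384) x708) x304) x548)
  (sub (add (add (sub (sub (add (add (sub C x70) x56) x80) x50) x176) x392) x716) x552)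
  (sub (add (add (sub (sub (sub (sub C x68) x76) x52) x178) x394) x718) x312)
  (add (add (add (add (sub (add (add (sub (add (add C x76) x80) x60) x0) x36) x180) x396) x720) x316) x560)
  (sub (add (add (sub (add (add (sub (add (add C x72) x80) x70) x4) x40) x184) x400) x724) x318)
  (sub (add (add (sub (add (add (add (add (add (add C x72) x76) x56) x68) x8) x44) x188) x404) x728) x564)
  (sub (sub (sub (add (add (add (add (sub C x84) x94) x106) x118) x154) x28) x244) x324)
  (add (add (sub (sub (add (add (sub (sub C x82) x90) x120) x156) x30) x246) x328) x572)
  (add (add (sub (sub (sub (sub (add (add C x94) x98) x84) x108) x36) x252) x334) x578)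
  (sub (sub (sub (sub (add (add (add (add C x90) x98) x82) x106) x112) x40) x256) x336)
  (sub (sub (sub (sub (sub (add (add C x90) x94) x104) x116) x44) x260) x582)
  (sub (sub (sub (sub (sub (sub C x106) x98) x140) x50) x266) x588)
  (sub (sub (sub (sub (add (add (sub C x104) x82) x94) x142) x52) x268) x348)
  (add (add (sub (add (add (sub (add (add (add (add C x112) x116) x120) x132) x90) x0) x216) x270) x352) x596)
  (sub (sub (add (add (sub (sub (add (add C x108) x116) x118) x94) x4) x220) x274) x354)
  (sub (sub (add (add (sub (sub (add (add C x108) x112) x128) x98) x8) x224) x278) x600)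
  (sub (sub (add (add (add (add (sub (sub C x120) x112) x82) x154) x10) x226) x280) x360)
  (add (add (sub (add (add (add (add (add (add (sub C x118) x108) x132) x84) x156) x12) x228) x282) x364) x608)
  (sub (sub (add (add (sub (sub (sub C x132) x116) x146) x20) x236) x290) x612)
  (add (add (sub (add (add (sub (add (add (sub C x128) x108) x120) x150) x24) x240) x294) x376) x620)
  (sub (sub (sub (sub (sub (sub C x142) x146) x104) x194) x302) x624)
  (sub (sub (sub (sub (sub (sub C x140) x154) x106) x196) x304) x384)
  (sub (sub (sub (sub (sub (sub C x150) x140) x128) x200) x308) x630)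
  (add (add (sub (sub (sub (sub (sub C x146) x156) x132) x204) x312) x394) x638)
  (sub (sub (sub (add (add (sub (sub C x156) x142) x82) x118) x208) x316) x396)
  (add (add (sub (sub (add (add (sub (sub C x154) x150) x84) x120) x210) x318) x400) x644)
  (sub (sub (sub (add (add (add (add (sub C x168) x176) x188) x200) x236) x56) x488) x648)
  (add (add (sub (sub (add (add (sub (sub C x164) x180) x204) x240) x60) x492) x412) x656)
  (sub (sub (sub (sub (add (add (sub C x178) x164) x188) x194) x68) x500) x660)
  (sub (sub (sub (sub (sub (sub C x176) x184) x196) x70) x502) x420)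
  (add (add (sub (sub (sub (sub (add (add C x184) x188) x168) x216) x72) x504) x424) x668)
  (sub (sub (sub (sub (sub (add (add C x180) x188) x178) x220) x76) x508) x426)
  (sub (sub (sub (sub (add (add (add (add C x180) x184) x164) x176) x224) x80) x512) x672)
  (sub (sub (sub (sub (sub (sub C x196) x200) x176) x140) x518) x678)
  (sub (sub (sub (sub (sub (sub C x194) x208) x178) x142) x520) x438)
  (sub (sub (sub (add (add (sub (sub C x204) x194) x164) x236) x146) x524) x684)
  (add (add (sub (sub (add (add (sub (sub C x200) x210) x168) x240) x150) x528) x448) x692)
  (sub (sub (sub (sub (sub (sub C x210) x196) x226) x154) x532) x450)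
  (add (add (sub (sub (sub (sub (sub C x208) x204) x228) x156) x534) x454) x698)
  (add (add (sub (add (add (sub (add (add (add (add C x220) x224) x228) x240) x180) x0) x108) x540) x460) x704)
  (sub (sub (add (add (sub (sub (add (add C x216) x224) x226) x184) x4) x112) x544) x462)
  (sub (sub (add (add (sub (sub (add (add C x216) x220) x236) x188) x8) x116) x548) x708)
  (sub (sub (add (add (sub (sub (sub C x228) x220) x208) x10) x118) x550) x468)
  (add (add (sub (add (add (sub (add (add (sub C x226) x216) x240) x210) x12) x120) x552) x472) x716)
  (sub (sub (add (add (add (add (sub (sub C x240) x224) x164) x200) x20) x128) x560) x720)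
  (add (add (sub (add (add (add (add (add (add (sub C x236) x216) x228) x168) x204) x24) x132) x564) x484) x728)
  (add (add (sub (add (add (add (add (add (add (sub C x246) x256) x268) x280) x316) x352) x460) x82) x0) x488)
  (sub (sub (add (add (add (add (sub (sub C x244) x252) x282) x318) x354) x462) x84) x4)
  (sub (sub (add (add (sub (sub (add (add C x256) x260) x246) x270) x360) x468) x90) x10)
  (add (add (sub (add (add (sub (add (add (add (add C x252) x260) x244) x268) x274) x364) x472) x94) x12) x500)
  (sub (sub (add (add (sub (sub (add (add C x252) x256) x266) x278) x368) x476) x98) x502)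
  (sub (sub (add (add (sub (sub (sub C x268) x260) x302) x374) x482) x104) x508)
  (add (add (sub (add (add (sub (add (add (sub C x266) x244) x256) x304) x376) x484) x106) x24) x512)
  (sub (sub (sub (sub (add (add (add (add C x274) x278) x282) x294) x252) x324) x108) x28)
  (add (add (sub (sub (sub (sub (add (add C x270) x278) x280) x256) x328) x112) x30) x518)
  (sub (sub (sub (sub (sub (add (add C x270) x274) x290) x260) x332) x116) x520)
  (add (add (sub (sub (add (add (sub (sub C x282) x274) x244) x316) x334) x118) x36) x524)
  (sub (sub (sub (add (add (add (add (sub C x280) x270) x294) x246) x318) x336) x120) x40)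
  (sub (sub (sub (sub (sub (sub C x294) x278) x308) x344) x128) x532)
  (sub (sub (sub (sub (add (add (sub C x290) x270) x282) x312) x348) x132) x52)
  (sub (sub (sub (sub (sub (sub C x304) x308) x266) x410) x140) x544)
  (add (add (sub (sub (sub (sub (sub C x302) x316) x268) x412) x142) x60) x548)
  (sub (sub (sub (sub (sub (sub C x312) x302) x290) x416) x146) x550)
  (sub (sub (sub (sub (sub (sub C x308) x318) x294) x420) x150) x70)
  (add (add (sub (sub (add (add (sub (sub C x318) x304) x244) x280) x424) x154) x72) x560)
  (sub (sub (sub (add (add (sub (sub C x316) x312) x246) x282) x426) x156) x76)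
  (sub (add (add (sub (add (add (add (add (add (add C x328) x332) x336) x348) x360) x396) x270) x0) x648) x82)
  (add (add (add (add (sub (add (add (sub (add (add C x324) x332) x334) x364) x400) x274) x4) x652) x84) x572)
  (sub (add (add (sub (add (add (sub (add (add C x324) x328) x344) x368) x404) x278) x8) x656) x574)
  (add (add (add (add (sub (sub (sub (sub C x336) x328) x352) x280) x10) x658) x90) x578)
  (sub (add (add (sub (sub (add (add (sub C x334) x324) x348) x354) x282) x12) x660) x94)
  (sub (add (add (sub (sub (sub (sub C x348) x332) x380) x290) x20) x668) x586)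
  (sub (add (add (sub (sub (add (add (sub C x344) x324) x336) x384) x294) x24) x672) x106)
  (add (add (add (add (add (add (sub (add (add (sub C x354) x364) x376) x334) x244) x460) x28) x676) x108) x596)
  (sub (add (add (add (add (sub (sub (sub C x352) x360) x336) x246) x462) x30) x678) x112)
  (sub (add (add (add (add (add (add (sub (add (add C x364) x368) x354) x324) x396) x252) x468) x36) x684) x118)
  (add (add (add (add (add (add (add (add (add (add (add (add C x360) x368) x352) x376) x328) x400) x256) x472) x40) x688) x120) x608)
  (sub (add (add (add (add (add (add (sub (add (add C x360) x364) x374) x332) x404) x260) x476) x44) x692) x610)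
  (sub (add (add (add (add (sub (sub (sub C x376) x368) x392) x266) x482) x50) x698) x616)
  (add (add (add (add (add (add (sub (add (add (sub C x374) x352) x364) x394) x268) x484) x52) x700) x132) x620)
  (sub (add (add (sub (sub (add (add (sub C x384) x392) x404) x344) x434) x56) x704) x622)
  (sub (add (add (sub (sub (sub (sub C x380) x396) x348) x438) x60) x708) x142)
  (sub (add (add (sub (sub (add (add (sub C x394) x380) x404) x374) x446) x68) x716) x634)
  (add (add (add (add (sub (sub (sub (sub C x392) x400) x376) x448) x70) x718) x150) x638)
  (sub (add (add (sub (add (add (sub (add (add C x400) x404) x384) x324) x360) x450) x72) x720) x154)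
  (add (add (add (add (sub (add (add (sub (add (add C x396) x404) x394) x328) x364) x454) x76) x724) x156) x644)
  (sub (add (add (sub (add (add (add (add (add (add C x396) x400) x380) x392) x332) x368) x458) x80) x728) x646)
  (sub (sub (sub (add (add (sub (sub C x412) x416) x446) x482) x302) x572) x652)
  (add (add (sub (sub (add (add (sub (sub C x410) x424) x448) x484) x304) x574) x168) x656)
  (sub (sub (sub (sub (sub (sub C x420) x410) x434) x308) x578) x658)
  (sub (sub (sub (sub (sub (sub C x416) x426) x438) x312) x582) x178)
  (add (add (sub (sub (sub (sub (sub C x426) x412) x460) x316) x586) x180) x668)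
  (sub (sub (sub (sub (sub (sub C x424) x420) x462) x318) x588) x184)
  (sub (sub (sub (sub (add (add (sub C x438) x446) x458) x416) x380) x596) x676)
  (sub (sub (sub (sub (sub (sub C x434) x450) x420) x384) x600) x196)
  (sub (sub (sub (add (add (add (add (sub C x448) x434) x458) x410) x482) x392) x608) x688)
  (add (add (sub (sub (add (add (sub (sub C x446) x454) x412) x484) x394) x610) x204) x692)
  (sub (sub (sub (sub (sub (add (add C x454) x458) x438) x468) x396) x612) x208)
  (add (add (sub (sub (sub (sub (add (add C x450) x458) x448) x472) x400) x616) x210) x698)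
  (sub (sub (sub (sub (add (add (add (add C x450) x454) x434) x446) x476) x404) x620) x700)
  (add (add (sub (add (add (sub (add (add (sub C x462) x472) x484) x424) x244) x352) x622) x216) x704)
  (sub (sub (add (add (sub (sub (sub C x460) x468) x426) x246) x354) x624) x220)
  (sub (sub (add (add (sub (sub (add (add C x472) x476) x462) x450) x252) x360) x630) x226)
  (add (add (sub (add (add (sub (add (add (add (add C x468) x476) x460) x484) x454) x256) x364) x634) x228) x716)
  (sub (sub (add (add (sub (sub (add (add C x468) x472) x482) x458) x260) x368) x638) x718)
  (sub (sub (add (add (add (add (sub (sub C x484) x476) x410) x446) x266) x374) x644) x724)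
  (add (add (sub (add (add (add (add (add (add (sub C x482) x460) x472) x412) x448) x268) x376) x646) x240) x728)
  (add (add (sub (add (add (add (add (add (add (sub C x492) x500) x512) x524) x560) x596) x704) x164) x0) x244)
  (sub (sub (add (add (add (add (sub (sub C x488) x504) x528) x564) x600) x708) x168) x8)
  (add (add (sub (add (add (sub (add (add (sub C x502) x488) x512) x518) x608) x716) x176) x12) x256)
  (sub (sub (add (add (sub (sub (sub C x500) x508) x520) x610) x718) x178) x260)
  (sub (sub (add (add (sub (sub (add (add C x508) x512) x492) x540) x612) x720) x180) x20)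
  (sub (sub (add (add (sub (sub (add (add C x504) x512) x502) x544) x616) x724) x184) x266)
  (add (add (sub (add (add (sub (add (add (add (add C x504) x508) x488) x500) x548) x620) x728) x188) x24) x268)
  (add (add (sub (sub (sub (sub (sub C x520) x524) x500) x572) x194) x30) x274)
  (sub (sub (sub (sub (sub (sub C x518) x532) x502) x574) x196) x278)
  (add (add (sub (sub (add (add (sub (sub C x528) x518) x488) x560) x578) x200) x36) x280)
  (sub (sub (sub (add (add (sub (sub C x524) x534) x492) x564) x582) x204) x44)
  (sub (sub (sub (sub (sub (sub C x534) x520) x550) x586) x208) x290)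
  (sub (sub (sub (sub (sub (sub C x532) x528) x552) x588) x210) x50)
  (sub (sub (sub (sub (add (add (add (add C x544) x548) x552) x564) x504) x648) x216) x56)
  (sub (sub (sub (sub (sub (add (add C x540) x548) x550) x508) x652) x220) x302)
  (add (add (sub (sub (sub (sub (add (add C x540) x544) x560) x512) x656) x224) x60) x304)
  (sub (sub (sub (sub (sub (sub C x552) x544) x532) x658) x226) x308)
  (sub (sub (sub (sub (add (add (sub C x550) x540) x564) x534) x660) x228) x68)
  (add (add (sub (sub (add (add (sub (sub C x564) x548) x488) x524) x668) x236) x72) x316)
  (sub (sub (sub (add (add (add (add (sub C x560) x540) x552) x492) x528) x672) x240) x80)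
  (add (add (sub (sub (add (add (sub (sub C x574) x578) x608) x644) x518) x410) x84) x328)
  (sub (sub (sub (add (add (sub (sub C x572) x586) x610) x646) x520) x412) x332)
  (add (add (sub (sub (sub (sub (sub C x582) x572) x596) x524) x416) x90) x334)
  (sub (sub (sub (sub (sub (sub C x578) x588) x600) x528) x420) x98)
  (sub (sub (sub (sub (sub (sub C x588) x574) x622) x532) x424) x344)
  (sub (sub (sub (sub (sub (sub C x586) x582) x624) x534) x426) x104)
  (add (add (sub (add (add (sub (add (add (sub C x600) x608) x620) x578) x488) x704) x434) x108) x352)
  (sub (sub (add (add (sub (sub (sub C x596) x612) x582) x492) x708) x438) x116)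
  (add (add (sub (add (add (add (add (add (add (sub C x610) x596) x620) x572) x644) x500) x716) x446) x120) x364)
  (sub (sub (add (add (add (add (sub (sub C x608) x616) x574) x646) x502) x718) x448) x368)
  (sub (sub (add (add (sub (sub (add (add C x616) x620) x600) x630) x504) x720) x450) x128)
  (sub (sub (add (add (sub (sub (add (add C x612) x620) x610) x634) x508) x724) x454) x374)
  (add (add (sub (add (add (sub (add (add (add (add C x612) x616) x596) x608) x638) x512) x728) x458) x132) x376)
  (sub (sub (sub (sub (add (add (sub C x624) x634) x646) x586) x676) x460) x380)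
  (sub (sub (sub (sub (sub (sub C x622) x630) x588) x678) x462) x140)
  (sub (sub (sub (sub (sub (add (add C x634) x638) x624) x612) x684) x468) x146)
  (sub (sub (sub (sub (add (add (add (add C x630) x638) x622) x646) x616) x688) x472) x392)
  (add (add (sub (sub (sub (sub (add (add C x630) x634) x644) x620) x692) x476) x150) x394)
  (add (add (sub (sub (add (add (sub (sub C x646) x638) x572) x608) x698) x482) x156) x400)
  (sub (sub (sub (add (add (add (add (sub C x644) x622) x634) x574) x610) x700) x484) x404)
  (sub (add (add (sub (add (add (add (add (add (add C x652) x656) x660) x672) x684) x720) x540) x0) x324) x164)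
  (sub (add (add (sub (add (add (sub (add (add C x648) x656) x658) x688) x724) x544) x4) x328) x410)
  (add (add (add (add (sub (add (add (sub (add (add C x648) x652) x668) x692) x728) x548) x8) x332) x168) x412)
  (sub (add (add (sub (sub (sub (sub C x660) x652) x676) x550) x10) x334) x416)
  (sub (add (add (sub (sub (add (add (sub C x658) x648) x672) x678) x552) x12) x336) x176)
  (add (add (add (add (sub (sub (sub (sub C x672) x656) x704) x560) x20) x344) x180) x424)
  (sub (add (add (sub (sub (add (add (sub C x668) x648) x660) x708) x564) x24) x348) x188)
  (sub (add (add (sub (sub (add (add (sub C x678) x688) x700) x658) x622) x28) x352) x434)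
  (sub (add (add (sub (sub (sub (sub C x676) x684) x660) x624) x30) x354) x194)
  (sub (add (add (sub (add (add (sub (add (add C x688) x692) x678) x648) x720) x630) x36) x360) x200)
  (sub (add (add (sub (add (add (add (add (add (add C x684) x692) x676) x700) x652) x724) x634) x40) x364) x446)
  (add (add (add (add (sub (add (add (sub (add (add C x684) x688) x698) x656) x728) x638) x44) x368) x204) x448)
  (add (add (add (add (sub (sub (sub (sub C x700) x692) x716) x644) x50) x374) x210) x454)
  (sub (add (add (sub (sub (add (add (sub C x698) x676) x688) x718) x646) x52) x376) x458)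
  (add (add (add (add (add (add (sub (add (add (sub C x708) x716) x728) x668) x488) x596) x56) x380) x216) x460)
  (sub (add (add (add (add (sub (sub (sub C x704) x720) x672) x492) x600) x60) x384) x224)
  (add (add (add (add (add (add (sub (add (add (sub C x718) x704) x728) x698) x500) x608) x68) x392) x228) x472)
  (sub (add (add (add (add (sub (sub (sub C x716) x724) x700) x502) x610) x70) x394) x476)
  (sub (add (add (add (add (add (add (sub (add (add C x724) x728) x708) x648) x684) x504) x612) x72) x396) x236)
  (sub (add (add (add (add (add (add (sub (add (add C x720) x728) x718) x652) x688) x508) x616) x76) x400) x482)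
  (add (add (add (add (add (add (add (add (add (add (add (add C x720) x724) x704) x716) x656) x692) x512) x620) x80) x404) x240) x484))
  (chk [x0, x4, x10, x28, x44, x50, x52, x104, x140])

noncomputable def RK : Nat := nat_lit 0x8c006800340032002c001c000a00040000

noncomputable def CK : Nat := nat_lit 0x6001200120024000c0012002400240003

noncomputable def H : Nat := nat_lit 0x2000000000000006e0000000000000070000000da0000007a000000000000000000000000000000dc000000000000007c0000000000000146000000e6000000000000000000000086000000000000007700000000000001b200000000000000000000021e0000028a000000000000014800000000000000e80000000000000000000000000000028c000002200000008800000000000001b400000000000000750000010a000001520000000000000000000000ec00000000000000e300000000000002220000000000000000000002f60000024000000080000000000000014f000000000000029100000113000000ad0000000000000000000000000000024b00000000000001be0000000000000000000000000000036200000305000000000000030a000000000000022a000000000000024f000002960000000000000000000000000000010c000000000000015400000000000000000000000000000241000002f8000000ee000000000000022300000000000000e100000000000000000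0000303000003640000000000000251000000000000029800000000000003080000022c0000000000000000000000820000000000000293000000000000014d00000249000001c00000000000000000000000000000011100000000000000ab00000000000000aa0000011000000000000000000000014c0000000000000083000000000000028e000000000000000000000248000001c1000000e000000000000000ef0000000000000225000001550000010d000000000000000000000000000002f90000000000000243000000000000000000000000000003070000022d0000000000000365000000000000030200000000000002990000024c000000000000000000000074000000000000008900000000000001b5000000e90000014900000000000000000000000000000221000000000000028d000000000000007d000000dd0000000000000000000000710000000000000001000000000000006d0000000000000000000000d9000000790000000000000289000000000000021d00000000000000000000000000000145000000e5000001b10000000000000085000000000000007200000000000000000000024e000002950000000000000300000000000000036100000000000002290000030b0000000000000000000000000000024400000000000002f500000000000000000000000000000109000001510000022600000000000000eb00000000000000de000001bd00000246000000000000000000000290000000000000007f000000000000014a00000000000000000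000010e000000a800000000000000ac0000000000000112000000000000000000000000000001bf0000024a0000014e000000000000028f000000000000008100000000000000000000022b000003060000000000000297000000000000024d0000000000000363000003040000000000000000000000e2000000000000022700000000000000ed000002f70000024500000000000000000000000000000153000000000000010b000000000000000000000000000002940000025000000000000002280000000000000309000000000000030100000360000000000000000000000000000001bc0000000000000247000000000000000000000000000000a90000010f00000292000000000000014b000000000000007e00000242000002f400000000000000000000022400000000000000df00000000000000ea000000000000000000000150000001080000007600000000000001b300000000000000870000021f0000028b000000000000000000000000000000e7000000000000014700000000000002880000021c0000000000000000000001b0000000000000007300000000000000840000000000000000000000e400000144000000000000007b00000000000000db00000000000000000000000000000078000000d80000006f000000000000006c0000000000000000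

theorem spec : Spec 5 false idx RK 9 G := fun _ _ _ _ => by eq_refl

theorem cover : cov 6 false H RK CK 9 0 = true := by decide +kernel

end S6x0

namespace S6x0

noncomputable def ts0 : List Nat :=
  [nat_lit 249086692586126955255190212640054330785975,
   nat_lit 249086692586126955255190212640054330785792,
   nat_lit 249086692586126955255190212640054330787268,
   nat_lit 249086692586126955255190212640054330786548,
   nat_lit 249086692586126955255190212640054330816860,
   nat_lit 249086692586126955255190212640054330837092,
   nat_lit 249086692586126955255190212640054331838324,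
   nat_lit 249086692586126955255190212640054334441052,
   nat_lit 249086692586126955255190212640054380453084,
   nat_lit 249086692586126955255190212640054599263532,
   nat_lit 249086692586126955255190212640057228571628,
   nat_lit 249086692586126955255190212640074164290956,
   nat_lit 249086692586126955255190212640244681703684,
   nat_lit 249086692586126955255190212641520355492692,
   nat_lit 249086692586126955255190212653343977546244,
   nat_lit 249086692586126955255190212748469266305588,
   nat_lit 249086692586126955255190213596575833088796,
   nat_lit 249086692586126955255190220664206608500876,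
   nat_lit 249086692586126955255190282541764015446108,
   nat_lit 249086692586126955255190807071573365959740,
   nat_lit 249086692586126955255195360497925000705420,
   nat_lit 249086692586126955255234282216908358729780,
   nat_lit 249086692586126955255570824335006036942524,
   nat_lit 249086692586126955258459295229187213834252,
   nat_lit 249086692586126955283388976322992986376708,
   nat_lit 249086692586126955497787307803013706499492,
   nat_lit 249086692586126957346637454943722529657084,
   nat_lit 249086692586126973262906261728747303324708,
   nat_lit 249086692586127110462583498554110277046132,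
   nat_lit 249086692586128292169180825838770033800340,
   nat_lit 249086692586138476800999421418870272835604,
   nat_lit 249086692586226219455697243456162088377300,
   nat_lit 249086692586982377503448394350796171028380,
   nat_lit 249086692593497654903988577029889974832428,
   nat_lit 249086692649643807180311753990273353181460,
   nat_lit 249086693133446363087969121908332485324252,
   nat_lit 249086697302611109788103499665445141177324]

theorem run0 : go idx G base H RK CK 131 0 9 ts0 = true := by decide +kernel

end S6x0

namespace S6x1

noncomputable def idx : List Nat :=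
  [nat_lit 1, nat_lit 3, nat_lit 9, nat_lit 13, nat_lit 17, nat_lit 23, nat_lit 25, nat_lit 27,
  nat_lit 31, nat_lit 35, nat_lit 37, nat_lit 39, nat_lit 47, nat_lit 51, nat_lit 59, nat_lit 61,
  nat_lit 65, nat_lit 69, nat_lit 73, nat_lit 75, nat_lit 81, nat_lit 85, nat_lit 89, nat_lit 91,
  nat_lit 93, nat_lit 101, nat_lit 105, nat_lit 109, nat_lit 111, nat_lit 117, nat_lit 121, nat_lit 125,
  nat_lit 131, nat_lit 133, nat_lit 137, nat_lit 141, nat_lit 149, nat_lit 151, nat_lit 153, nat_lit 157,
  nat_lit 161, nat_lit 167, nat_lit 169, nat_lit 173, nat_lit 177, nat_lit 181, nat_lit 183, nat_lit 191,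
  nat_lit 195, nat_lit 203, nat_lit 205, nat_lit 207, nat_lit 211, nat_lit 215, nat_lit 217, nat_lit 219,
  nat_lit 225, nat_lit 229, nat_lit 233, nat_lit 239, nat_lit 241, nat_lit 243, nat_lit 247, nat_lit 251,
  nat_lit 253, nat_lit 255, nat_lit 263, nat_lit 267, nat_lit 271, nat_lit 273, nat_lit 279, nat_lit 283,
  nat_lit 287, nat_lit 293, nat_lit 295, nat_lit 299, nat_lit 303, nat_lit 311, nat_lit 313, nat_lit 315,
  nat_lit 319, nat_lit 323, nat_lit 325, nat_lit 327, nat_lit 333, nat_lit 337, nat_lit 341, nat_lit 347,
  nat_lit 349, nat_lit 351, nat_lit 355, nat_lit 359, nat_lit 361, nat_lit 363, nat_lit 371, nat_lit 375,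
  nat_lit 383, nat_lit 385, nat_lit 389, nat_lit 393, nat_lit 397, nat_lit 399, nat_lit 407, nat_lit 411,
  nat_lit 419, nat_lit 421, nat_lit 423, nat_lit 427, nat_lit 431, nat_lit 437, nat_lit 439, nat_lit 443,
  nat_lit 447, nat_lit 451, nat_lit 453, nat_lit 459, nat_lit 463, nat_lit 467, nat_lit 469, nat_lit 471,
  nat_lit 479, nat_lit 483, nat_lit 491, nat_lit 493, nat_lit 497, nat_lit 501, nat_lit 505, nat_lit 507,
  nat_lit 515, nat_lit 519, nat_lit 527, nat_lit 529, nat_lit 531, nat_lit 535, nat_lit 539, nat_lit 541,
  nat_lit 543, nat_lit 549, nat_lit 553, nat_lit 557, nat_lit 563, nat_lit 565, nat_lit 569, nat_lit 573,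
  nat_lit 581, nat_lit 583, nat_lit 585, nat_lit 589, nat_lit 593, nat_lit 599, nat_lit 601, nat_lit 605,
  nat_lit 609, nat_lit 613, nat_lit 615, nat_lit 621, nat_lit 625, nat_lit 629, nat_lit 631, nat_lit 633,
  nat_lit 641, nat_lit 645, nat_lit 649, nat_lit 651, nat_lit 657, nat_lit 661, nat_lit 665, nat_lit 671,
  nat_lit 673, nat_lit 675, nat_lit 679, nat_lit 683, nat_lit 685, nat_lit 687, nat_lit 695, nat_lit 699,
  nat_lit 707, nat_lit 709, nat_lit 713, nat_lit 717, nat_lit 721, nat_lit 723]

def TT : Type :=
  Nat → Nat → Nat → Nat → Nat → Nat → Nat → Nat → Nat → Nat → Nat → Nat → Nat → Nat → Nat → Nat →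
  Nat → Nat → Nat → Nat → Nat → Nat → Nat → Nat → Nat → Nat → Nat → Nat → Nat → Nat → Nat → Nat →
  Nat → Nat → Nat → Nat → Nat → Nat → Nat → Nat → Nat → Nat → Nat → Nat → Nat → Nat → Nat → Nat →
  Nat → Nat → Nat → Nat → Nat → Nat → Nat → Nat → Nat → Nat → Nat → Nat → Nat → Nat → Nat → Nat →
  Nat → Nat → Nat → Nat → Nat → Nat → Nat → Nat → Nat → Nat → Nat → Nat → Nat → Nat → Nat → Nat →
  Nat → Nat → Nat → Nat → Nat → Nat → Nat → Nat → Nat → Nat → Nat → Nat → Nat → Nat → Nat → Nat →
  Nat → Nat → Nat → Nat → Nat → Nat → Nat → Nat → Nat → Nat → Nat → Nat → Nat → Nat → Nat → Nat →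
  Nat → Nat → Nat → Nat → Nat → Nat → Nat → Nat → Nat → Nat → Nat → Nat → Nat → Nat → Nat → Nat →
  Nat → Nat → Nat → Nat → Nat → Nat → Nat → Nat → Nat → Nat → Nat → Nat → Nat → Nat → Nat → Nat →
  Nat → Nat → Nat → Nat → Nat → Nat → Nat → Nat → Nat → Nat → Nat → Nat → Nat → Nat → Nat → Nat →
  Nat → Nat → Nat → Nat → Nat → Nat → Nat → Nat → Nat → Nat → Nat → Nat → Nat → Nat → Nat → Nat →
  Nat → Nat → Nat → Nat → Nat → Nat → Bool

noncomputable def base : TT :=
  fun _ _ _ _ _ _ _ _ _ _ _ _ _ _ _ _ _ _ _ _ _ _ _ _ _ _ _ _ _ _ _ _ _ _ _ _ _ _ _ _
  _ _ _ _ _ _ _ _ _ _ _ _ _ _ _ _ _ _ _ _ _ _ _ _ _ _ _ _ _ _ _ _ _ _ _ _ _ _ _ _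
  _ _ _ _ _ _ _ _ _ _ _ _ _ _ _ _ _ _ _ _ _ _ _ _ _ _ _ _ _ _ _ _ _ _ _ _ _ _ _ _
  _ _ _ _ _ _ _ _ _ _ _ _ _ _ _ _ _ _ _ _ _ _ _ _ _ _ _ _ _ _ _ _ _ _ _ _ _ _ _ _
  _ _ _ _ _ _ _ _ _ _ _ _ _ _ _ _ _ _ _ _ _ _ => true

noncomputable def G (chk : List Nat → Bool) (C : Nat) (k : TT) : TT :=
  fun x1 x3 x9 x13 x17 x23 x25 x27 x31 x35 x37 x39 x47 x51 x59 x61
  x65 x69 x73 x75 x81 x85 x89 x91 x93 x101 x105 x109 x111 x117 x121 x125
  x131 x133 x137 x141 x149 x151 x153 x157 x161 x167 x169 x173 x177 x181 x183 x191
  x195 x203 x205 x207 x211 x215 x217 x219 x225 x229 x233 x239 x241 x243 x247 x251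
  x253 x255 x263 x267 x271 x273 x279 x283 x287 x293 x295 x299 x303 x311 x313 x315
  x319 x323 x325 x327 x333 x337 x341 x347 x349 x351 x355 x359 x361 x363 x371 x375
  x383 x385 x389 x393 x397 x399 x407 x411 x419 x421 x423 x427 x431 x437 x439 x443
  x447 x451 x453 x459 x463 x467 x469 x471 x479 x483 x491 x493 x497 x501 x505 x507
  x515 x519 x527 x529 x531 x535 x539 x541 x543 x549 x553 x557 x563 x565 x569 x573
  x581 x583 x585 x589 x593 x599 x601 x605 x609 x613 x615 x621 x625 x629 x631 x633
  x641 x645 x649 x651 x657 x661 x665 x671 x673 x675 x679 x683 x685 x687 x695 x699
  x707 x709 x713 x717 x721 x723 =>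
  Bool.rec false (k
  (sub (add (add (add (add (add (add (add (add (sub C x3) x13) x25) x37) x73) x109) x217) x325) x649) x243)
  (add (add (add (add (add (add (add (add (sub (sub C x1) x9) x39) x75) x111) x219) x327) x651) x247) x491)
  (add (add (add (add (add (add (sub (sub (add (add C x13) x17) x3) x27) x117) x225) x333) x657) x253) x497)
  (sub (add (add (add (add (sub (add (add (add (add C x9) x17) x1) x25) x31) x121) x229) x337) x661) x255)
  (sub (add (add (add (add (sub (sub (add (add C x9) x13) x23) x35) x125) x233) x341) x665) x501)
  (sub (add (add (add (add (sub (sub (sub C x25) x17) x59) x131) x239) x347) x671) x507)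
  (sub (add (add (add (add (sub (add (add (sub C x23) x1) x13) x61) x133) x241) x349) x673) x267)
  (add (add (add (add (sub (sub (add (add (add (add C x31) x35) x39) x51) x9) x81) x351) x675) x271) x515)
  (sub (add (add (sub (sub (sub (add (add C x27) x35) x37) x13) x85) x355) x679) x273)
  (sub (add (add (sub (sub (sub (add (add C x27) x31) x47) x17) x89) x359) x683) x519)
  (sub (add (add (sub (add (add (sub (sub C x39) x31) x1) x73) x91) x361) x685) x279)
  (add (add (add (add (sub (add (add (add (add (sub C x37) x27) x51) x3) x75) x93) x363) x687) x283) x527)
  (sub (add (add (sub (sub (sub (sub C x51) x35) x65) x101) x371) x695) x531)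
  (add (add (add (add (sub (sub (add (add (sub C x47) x27) x39) x69) x105) x375) x699) x295) x539)
  (sub (add (add (sub (sub (sub (sub C x61) x65) x23) x167) x383) x707) x543)
  (sub (add (add (sub (sub (sub (sub C x59) x73) x25) x169) x385) x709) x303)
  (sub (add (add (sub (sub (sub (sub C x69) x59) x47) x173) x389) x713) x549)
  (add (add (add (add (sub (sub (sub (sub C x65) x75) x51) x177) x393) x717) x313) x557)
  (sub (add (add (sub (add (add (sub (sub C x75) x61) x1) x37) x181) x397) x721) x315)
  (add (add (add (add (sub (add (add (sub (sub C x73) x69) x3) x39) x183) x399) x723) x319) x563)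
  (add (add (sub (sub (add (add (add (add (add (add C x85) x89) x93) x105) x117) x153) x27) x243) x325) x569)
  (sub (sub (sub (add (add (sub (add (add C x81) x89) x91) x121) x157) x31) x247) x327)
  (sub (sub (sub (add (add (sub (add (add C x81) x85) x101) x125) x161) x35) x251) x573)
  (sub (sub (sub (sub (sub (sub C x93) x85) x109) x37) x253) x333)
  (add (add (sub (sub (sub (add (add (sub C x91) x81) x105) x111) x39) x255) x337) x581)
  (sub (sub (sub (sub (sub (sub C x105) x89) x137) x47) x263) x585)
  (add (add (sub (sub (sub (add (add (sub C x101) x81) x93) x141) x51) x267) x349) x593)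
  (sub (sub (add (add (sub (add (add (sub C x111) x121) x133) x91) x1) x217) x271) x351)
  (add (add (sub (add (add (sub (sub (sub C x109) x117) x93) x3) x219) x273) x355) x599)
  (add (add (sub (add (add (add (add (sub (add (add C x121) x125) x111) x81) x153) x9) x225) x279) x361) x605)
  (sub (sub (add (add (add (add (add (add (add (add C x117) x125) x109) x133) x85) x157) x13) x229) x283) x363)
  (sub (sub (add (add (add (add (sub (add (add C x117) x121) x131) x89) x161) x17) x233) x287) x609)
  (sub (sub (add (add (sub (sub (sub C x133) x125) x149) x23) x239) x293) x615)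
  (sub (sub (add (add (sub (add (add (sub C x131) x109) x121) x151) x25) x241) x295) x375)
  (sub (sub (sub (sub (add (add (sub C x141) x149) x161) x101) x191) x299) x621)
  (add (add (sub (sub (sub (sub (sub C x137) x153) x105) x195) x303) x385) x629)
  (sub (sub (sub (sub (add (add (sub C x151) x137) x161) x131) x203) x311) x633)
  (sub (sub (sub (sub (sub (sub C x149) x157) x133) x205) x313) x393)
  (add (add (sub (sub (add (add (sub (add (add C x157) x161) x141) x81) x117) x207) x315) x397) x641)
  (sub (sub (sub (add (add (sub (add (add C x153) x161) x151) x85) x121) x211) x319) x399)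
  (sub (sub (sub (add (add (add (add (add (add C x153) x157) x137) x149) x89) x125) x215) x323) x645)
  (sub (sub (sub (add (add (sub (sub C x169) x173) x203) x239) x59) x491) x651)
  (sub (sub (sub (add (add (sub (sub C x167) x181) x205) x241) x61) x493) x411)
  (sub (sub (sub (sub (sub (sub C x177) x167) x191) x65) x497) x657)
  (add (add (sub (sub (sub (sub (sub C x173) x183) x195) x69) x501) x421) x665)
  (sub (sub (sub (sub (sub (sub C x183) x169) x217) x73) x505) x423)
  (add (add (sub (sub (sub (sub (sub C x181) x177) x219) x75) x507) x427) x671)
  (sub (sub (sub (sub (add (add (sub C x195) x203) x215) x173) x137) x515) x675)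
  (add (add (sub (sub (sub (sub (sub C x191) x207) x177) x141) x519) x439) x683)
  (sub (sub (sub (add (add (add (add (sub C x205) x191) x215) x167) x239) x149) x527) x687)
  (sub (sub (sub (add (add (sub (sub C x203) x211) x169) x241) x151) x529) x447)
  (add (add (sub (sub (sub (sub (add (add C x211) x215) x195) x225) x153) x531) x451) x695)
  (sub (sub (sub (sub (sub (add (add C x207) x215) x205) x229) x157) x535) x453)
  (sub (sub (sub (sub (add (add (add (add C x207) x211) x191) x203) x233) x161) x539) x699)
  (sub (sub (add (add (sub (add (add (sub C x219) x229) x241) x181) x1) x109) x541) x459)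
  (add (add (sub (add (add (sub (sub (sub C x217) x225) x183) x3) x111) x543) x463) x707)
  (add (add (sub (add (add (sub (sub (add (add C x229) x233) x219) x207) x9) x117) x549) x469) x713)
  (sub (sub (add (add (sub (add (add (add (add C x225) x233) x217) x241) x211) x13) x121) x553) x471)
  (sub (sub (add (add (sub (sub (add (add C x225) x229) x239) x215) x17) x125) x557) x717)
  (sub (sub (add (add (add (add (sub (sub C x241) x233) x167) x203) x23) x131) x563) x723)
  (sub (sub (add (add (add (add (add (add (sub C x239) x217) x229) x169) x205) x25) x133) x565) x483)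
  (sub (sub (add (add (add (add (add (add (add (add C x247) x251) x255) x267) x279) x315) x351) x459) x81) x1)
  (add (add (sub (add (add (add (add (sub (add (add C x243) x251) x253) x283) x319) x355) x463) x85) x3) x491)
  (sub (sub (add (add (add (add (sub (add (add C x243) x247) x263) x287) x323) x359) x467) x89) x493)
  (add (add (sub (add (add (sub (sub (sub C x255) x247) x271) x361) x469) x91) x9) x497)
  (sub (sub (add (add (sub (add (add (sub C x253) x243) x267) x273) x363) x471) x93) x13)
  (sub (sub (add (add (sub (sub (sub C x267) x251) x299) x371) x479) x101) x505)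
  (sub (sub (add (add (sub (add (add (sub C x263) x243) x255) x303) x375) x483) x105) x25)
  (add (add (sub (sub (sub (add (add (sub C x273) x283) x295) x253) x325) x109) x27) x515)
  (sub (sub (sub (sub (sub (sub C x271) x279) x255) x327) x111) x31)
  (sub (sub (sub (add (add (sub (add (add C x283) x287) x273) x243) x315) x333) x117) x37)
  (add (add (sub (sub (add (add (add (add (add (add C x279) x287) x271) x295) x247) x319) x337) x121) x39) x527)
  (sub (sub (sub (add (add (sub (add (add C x279) x283) x293) x251) x323) x341) x125) x529)
  (sub (sub (sub (sub (sub (sub C x295) x287) x311) x347) x131) x535)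
  (add (add (sub (sub (sub (add (add (sub C x293) x271) x283) x313) x349) x133) x51) x539)
  (sub (sub (sub (sub (add (add (sub C x303) x311) x323) x263) x407) x137) x541)
  (sub (sub (sub (sub (sub (sub C x299) x315) x267) x411) x141) x61)
  (sub (sub (sub (sub (add (add (sub C x313) x299) x323) x293) x419) x149) x553)
  (add (add (sub (sub (sub (sub (sub C x311) x319) x295) x421) x151) x69) x557)
  (sub (sub (sub (add (add (sub (add (add C x319) x323) x303) x243) x279) x423) x153) x73)
  (add (add (sub (sub (add (add (sub (add (add C x315) x323) x313) x247) x283) x427) x157) x75) x563)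
  (sub (sub (sub (add (add (add (add (add (add C x315) x319) x299) x311) x251) x287) x431) x161) x565)
  (add (add (add (add (sub (add (add (add (add (sub C x327) x337) x349) x361) x397) x271) x1) x649) x81) x569)
  (sub (add (add (sub (add (add (sub (sub C x325) x333) x363) x399) x273) x3) x651) x85)
  (sub (add (add (sub (sub (sub (add (add C x337) x341) x327) x351) x279) x9) x657) x91)
  (add (add (add (add (sub (sub (add (add (add (add C x333) x341) x325) x349) x355) x283) x13) x661) x93) x581)
  (sub (add (add (sub (sub (sub (add (add C x333) x337) x347) x359) x287) x17) x665) x583)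
  (sub (add (add (sub (sub (sub (sub C x349) x341) x383) x293) x23) x671) x589)
  (add (add (add (add (sub (sub (add (add (sub C x347) x325) x337) x385) x295) x25) x673) x105) x593)
  (sub (add (add (add (add (sub (add (add (add (add C x355) x359) x363) x375) x333) x243) x459) x27) x675) x109)
  (add (add (add (add (add (add (sub (sub (add (add C x351) x359) x361) x337) x247) x463) x31) x679) x111) x599)
  (sub (add (add (add (add (sub (sub (add (add C x351) x355) x371) x341) x251) x467) x35) x683) x601)
  (add (add (add (add (add (add (add (add (sub (sub C x363) x355) x325) x397) x253) x469) x37) x685) x117) x605)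
  (sub (add (add (add (add (add (add (add (add (sub C x361) x351) x375) x327) x399) x255) x471) x39) x687) x121)
  (sub (add (add (add (add (sub (sub (sub C x375) x359) x389) x263) x479) x47) x695) x613)
  (sub (add (add (add (add (sub (add (add (sub C x371) x351) x363) x393) x267) x483) x51) x699) x133)
  (sub (add (add (sub (sub (sub (sub C x385) x389) x347) x437) x59) x707) x625)
  (add (add (add (add (sub (sub (sub (sub C x383) x397) x349) x439) x61) x709) x141) x629)
  (sub (add (add (sub (sub (sub (sub C x393) x383) x371) x443) x65) x713) x631)
  (sub (add (add (sub (sub (sub (sub C x389) x399) x375) x447) x69) x717) x151)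
  (add (add (add (add (sub (add (add (sub (sub C x399) x385) x325) x361) x451) x73) x721) x153) x641)
  (sub (add (add (sub (add (add (sub (sub C x397) x393) x327) x363) x453) x75) x723) x157)
  (sub (sub (sub (add (add (add (add (sub C x411) x419) x431) x443) x479) x299) x569) x649)
  (sub (sub (sub (add (add (sub (sub C x407) x423) x447) x483) x303) x573) x169)
  (sub (sub (sub (sub (add (add (sub C x421) x407) x431) x437) x311) x581) x661)
  (add (add (sub (sub (sub (sub (sub C x419) x427) x439) x313) x583) x177) x665)
  (sub (sub (sub (sub (sub (add (add C x427) x431) x411) x459) x315) x585) x181)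
  (add (add (sub (sub (sub (sub (add (add C x423) x431) x421) x463) x319) x589) x183) x671)
  (sub (sub (sub (sub (add (add (add (add C x423) x427) x407) x419) x467) x323) x593) x673)
  (sub (sub (sub (sub (sub (sub C x439) x443) x419) x383) x599) x679)
  (add (add (sub (sub (sub (sub (sub C x437) x451) x421) x385) x601) x195) x683)
  (sub (sub (sub (add (add (sub (sub C x447) x437) x407) x479) x389) x605) x685)
  (sub (sub (sub (add (add (sub (sub C x443) x453) x411) x483) x393) x609) x205)
  (add (add (sub (sub (sub (sub (sub C x453) x439) x469) x397) x613) x207) x695)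
  (sub (sub (sub (sub (sub (sub C x451) x447) x471) x399) x615) x211)
  (sub (sub (add (add (sub (add (add (add (add C x463) x467) x471) x483) x423) x243) x351) x621) x217)
  (add (add (sub (add (add (sub (sub (add (add C x459) x467) x469) x427) x247) x355) x625) x219) x707)
  (sub (sub (add (add (sub (sub (add (add C x459) x463) x479) x431) x251) x359) x629) x709)
  (add (add (sub (add (add (sub (sub (sub C x471) x463) x451) x253) x361) x631) x225) x713)
  (sub (sub (add (add (sub (add (add (sub C x469) x459) x483) x453) x255) x363) x633) x229)
  (sub (sub (add (add (add (add (sub (sub C x483) x467) x407) x443) x263) x371) x641) x721)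
  (sub (sub (add (add (add (add (add (add (sub C x479) x459) x471) x411) x447) x267) x375) x645) x241)
  (add (add (sub (add (add (add (add (sub (sub C x493) x497) x527) x563) x599) x707) x167) x3) x247)
  (sub (sub (add (add (add (add (sub (sub C x491) x505) x529) x565) x601) x709) x169) x251)
  (add (add (sub (add (add (sub (sub (sub C x501) x491) x515) x605) x713) x173) x9) x253)
  (sub (sub (add (add (sub (sub (sub C x497) x507) x519) x609) x717) x177) x17)
  (sub (sub (add (add (sub (sub (sub C x507) x493) x541) x613) x721) x181) x263)
  (sub (sub (add (add (sub (sub (sub C x505) x501) x543) x615) x723) x183) x23)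
  (add (add (sub (sub (sub (add (add (sub C x519) x527) x539) x497) x569) x191) x27) x271)
  (sub (sub (sub (sub (sub (sub C x515) x531) x501) x573) x195) x35)
  (add (add (sub (sub (add (add (add (add (sub C x529) x515) x539) x491) x563) x581) x203) x39) x283)
  (sub (sub (sub (add (add (sub (sub C x527) x535) x493) x565) x583) x205) x287)
  (sub (sub (sub (sub (sub (add (add C x535) x539) x519) x549) x585) x207) x47)
  (sub (sub (sub (sub (sub (add (add C x531) x539) x529) x553) x589) x211) x293)
  (add (add (sub (sub (sub (add (add (add (add C x531) x535) x515) x527) x557) x593) x215) x51) x295)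
  (sub (sub (sub (sub (add (add (sub C x543) x553) x565) x505) x649) x217) x299)
  (sub (sub (sub (sub (sub (sub C x541) x549) x507) x651) x219) x59)
  (sub (sub (sub (sub (sub (add (add C x553) x557) x543) x531) x657) x225) x65)
  (sub (sub (sub (sub (add (add (add (add C x549) x557) x541) x565) x535) x661) x229) x311)
  (add (add (sub (sub (sub (sub (add (add C x549) x553) x563) x539) x665) x233) x69) x313)
  (add (add (sub (sub (add (add (sub (sub C x565) x557) x491) x527) x671) x239) x75) x319)
  (sub (sub (sub (add (add (add (add (sub C x563) x541) x553) x493) x529) x673) x241) x323)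
  (add (add (sub (sub (add (add (add (add (sub C x573) x581) x593) x605) x641) x515) x407) x81) x325)
  (sub (sub (sub (add (add (sub (sub C x569) x585) x609) x645) x519) x411) x89)
  (add (add (sub (sub (sub (add (add (sub C x583) x569) x593) x599) x527) x419) x93) x337)
  (sub (sub (sub (sub (sub (sub C x581) x589) x601) x529) x421) x341)
  (sub (sub (sub (sub (sub (add (add C x589) x593) x573) x621) x531) x423) x101)
  (sub (sub (sub (sub (sub (add (add C x585) x593) x583) x625) x535) x427) x347)
  (add (add (sub (sub (sub (add (add (add (add C x585) x589) x569) x581) x629) x539) x431) x105) x349)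
  (add (add (sub (add (add (sub (sub (sub C x601) x605) x581) x491) x707) x437) x111) x355)
  (sub (sub (add (add (sub (sub (sub C x599) x613) x583) x493) x709) x439) x359)
  (add (add (sub (add (add (add (add (sub (sub C x609) x599) x569) x641) x497) x713) x443) x117) x361)
  (sub (sub (add (add (add (add (sub (sub C x605) x615) x573) x645) x501) x717) x447) x125)
  (sub (sub (add (add (sub (sub (sub C x615) x601) x631) x505) x721) x451) x371)
  (sub (sub (add (add (sub (sub (sub C x613) x609) x633) x507) x723) x453) x131)
  (sub (sub (sub (sub (add (add (add (add C x625) x629) x633) x645) x585) x675) x459) x137)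
  (sub (sub (sub (sub (sub (add (add C x621) x629) x631) x589) x679) x463) x383)
  (add (add (sub (sub (sub (sub (add (add C x621) x625) x641) x593) x683) x467) x141) x385)
  (sub (sub (sub (sub (sub (sub C x633) x625) x613) x685) x469) x389)
  (sub (sub (sub (sub (add (add (sub C x631) x621) x645) x615) x687) x471) x149)
  (add (add (sub (sub (add (add (sub (sub C x645) x629) x569) x605) x695) x479) x153) x397)
  (sub (sub (sub (add (add (add (add (sub C x641) x621) x633) x573) x609) x699) x483) x161)
  (sub (add (add (sub (add (add (add (add (sub C x651) x661) x673) x685) x721) x541) x1) x325) x407)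
  (sub (add (add (sub (add (add (sub (sub C x649) x657) x687) x723) x543) x3) x327) x167)
  (sub (add (add (sub (sub (sub (add (add C x661) x665) x651) x675) x549) x9) x333) x173)
  (sub (add (add (sub (sub (add (add (add (add C x657) x665) x649) x673) x679) x553) x13) x337) x419)
  (add (add (add (add (sub (sub (sub (add (add C x657) x661) x671) x683) x557) x17) x341) x177) x421)
  (add (add (add (add (sub (sub (sub (sub C x673) x665) x707) x563) x23) x347) x183) x427)
  (sub (add (add (sub (sub (add (add (sub C x671) x649) x661) x709) x565) x25) x349) x431)
  (sub (add (add (sub (sub (add (add (add (add C x679) x683) x687) x699) x657) x621) x27) x351) x191)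
  (sub (add (add (sub (sub (sub (add (add C x675) x683) x685) x661) x625) x31) x355) x437)
  (add (add (add (add (sub (sub (sub (add (add C x675) x679) x695) x665) x629) x35) x359) x195) x439)
  (sub (add (add (sub (add (add (sub (sub C x687) x679) x649) x721) x631) x37) x361) x443)
  (sub (add (add (sub (add (add (add (add (sub C x685) x675) x699) x651) x723) x633) x39) x363) x203)
  (add (add (add (add (sub (sub (sub (sub C x699) x683) x713) x641) x47) x371) x207) x451)
  (sub (add (add (sub (sub (add (add (sub C x695) x675) x687) x717) x645) x51) x375) x215)
  (add (add (add (add (add (add (sub (sub (sub C x709) x713) x671) x491) x599) x59) x383) x219) x463)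
  (sub (add (add (add (add (sub (sub (sub C x707) x721) x673) x493) x601) x61) x385) x467)
  (add (add (add (add (add (add (sub (sub (sub C x717) x707) x695) x497) x605) x65) x389) x225) x469)
  (sub (add (add (add (add (sub (sub (sub C x713) x723) x699) x501) x609) x69) x393) x233)
  (sub (add (add (add (add (add (add (sub (sub C x723) x709) x649) x685) x505) x613) x73) x397) x479)
  (sub (add (add (add (add (add (add (sub (sub C x721) x717) x651) x687) x507) x615) x75) x399) x239))
  (chk [x1, x13, x17, x23, x31, x35, x47, x59, x91, x101, x161, x215,
  x233])

noncomputable def RK : Nat := nat_lit 0xe900d700a10065005b003b002f0023001f00170011000d0001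

noncomputable def CK : Nat := nat_lit 0x6000c000c000c0002001800180018000c000c00180006000c

noncomputable def H : Nat := nat_lit 0x43e0000043f00000000000004aa000000000000045d00000000000004ab0000045c0000000000000000000000000000051600000000000004d5000000000000000000000000000001090000024d00000469000000000000022300000000000000de00000517000004d400000000000000000000046800000000000000df000000000000022200000000000000000000024c0000010800000000000004b00000000000000528000000000000000000000000000002ad000003d3000004da000000000000028f000000000000014a0000000000000000000003310000031f000000000000017b000000000000011500000000000002c500000259000000000000000000000462000000000000030d00000000000002fa000004030000025f000000000000000000000000000002be000000000000011a00000000000004b1000005290000000000000000000004db000000000000014b000000000000028e0000000000000000000003d2000002ac0000046300000000000002fb000000000000030c000002bf0000011b00000000000000000000000000000402000000000000025e0000000000000000000000000000031e0000033000000000000002c40000000000000258000000000000017a000001140000000000000000000000000000044400000000000004b7000000000000000000000000000002410000022f0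000051100000000000000eb00000000000000fc0000000000000000000003df0000029b000000000000032b00000000000002b90000000000000301000003fd0000000000000000000004a5000000000000015700000000000002a000000307000002cb0000000000000000000000000000032400000000000001740000000000000000000000000000023b000000f700000000000002a700000000000002f5000000000000015100000313000000000000000000000000000001030000000000000145000000000000000000000000000000010000000d000000d90000000000000019000000000000006d000000e50000028900000000000000000000021d000000000000001f00000000000001b10000000000000000000001cf000000790000043900000000000000f100000000000002340000029500000319000000000000000000000000000003d800000000000003360000000000000229000003cd000000000000000000000253000000000000001300000000000001c8000000000000000000000361000001bd000000000000024600000000000002b2000000000000000000000000000001d5000001c30000010e000000000000007f000000000000000600000445000004b600000000000000000000051000000000000000fd00000000000000ea00000000000000000000022e00000240000004a400000000000002a1000000000000015600000325000001750000000000000000000000000000030600000000000002ca0000000000000000000000000000029a000003de0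00000000000030000000000000003fc000000000000032a000002b8000000000000000000000438000000000000023500000000000000f0000003d9000003370000000000000000000000000000029400000000000003180000000000000247000002b300000000000000000000010f0000000000000007000000000000007e0000000000000000000001c2000001d4000000000000022800000000000003cc000000000000000000000000000001bc000003600000025200000000000001c900000000000000120000000000000000000000f60000023a0000000000000150000000000000031200000000000002a6000002f4000000000000000000000000000000e4000000000000028800000000000000000000000000000078000001ce0000021c00000000000001b0000000000000001e00000102000001440000000000000000000000d8000000000000006c000000000000001800000000000000000000000c000000000000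

theorem spec : Spec 5 false idx RK 13 G := fun _ _ _ _ => by eq_refl

theorem cover : cov 6 false H RK CK 13 3 = true := by decide +kernel

end S6x1

namespace S6x1

noncomputable def ts0 : List Nat :=
  [nat_lit 247725563118443201401336714210327257940150,
   nat_lit 247725563118443201401336714210327257939968,
   nat_lit 247725563118443201401336714210327257941420,
   nat_lit 247725563118443201401336714210327257940688,
   nat_lit 247725563118443201401336714210327257969788,
   nat_lit 247725563118443201401336714210327257986048,
   nat_lit 247725563118443201401336714210327258862516,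
   nat_lit 247725563118443201401336714210327260577400,
   nat_lit 247725563118443201401336714210327294098140,
   nat_lit 247725563118443201401336714210327409019728,
   nat_lit 247725563118443201401336714210328910267260,
   nat_lit 247725563118443201401336714210336055567312,
   nat_lit 247725563118443201401336714210411168130852,
   nat_lit 247725563118443201401336714210848332913608,
   nat_lit 247725563118443201401336714214909153142548,
   nat_lit 247725563118443201401336714241638655029808,
   nat_lit 247725563118443201401336714472970746363036,
   nat_lit 247725563118443201401336716113058787466840,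
   nat_lit 247725563118443201401336729747929795620588,
   nat_lit 247725563118443201401336830791004176462384,
   nat_lit 247725563118443201401337651960752153218668,
   nat_lit 247725563118443201401343898662286323688152,
   nat_lit 247725563118443201401394022103923267649148,
   nat_lit 247725563118443201401781229471573484367720,
   nat_lit 247725563118443201404866097923239644070084,
   nat_lit 247725563118443201428913340662196186897848,
   nat_lit 247725563118443201619736815031572071678348,
   nat_lit 247725563118443203115166576998901665278928,
   nat_lit 247725563118443214955765114229085927875444,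
   nat_lit 247725563118443308037267790890624342504912,
   nat_lit 247725563118444044144218008409474820874596,
   nat_lit 247725563118449841487559540385421993131824,
   nat_lit 247725563118495657281693728782434906143388,
   nat_lit 247725563118856879632066383458144728440456,
   nat_lit 247725563121710537720641193595382298047076,
   nat_lit 247725563144223894954779302993724124493280,
   nat_lit 247725563322044397740771346953504884704812]

theorem run0 : go idx G base H RK CK 131 0 13 ts0 = true := by decide +kernel

end S6x1

namespace S6x2

noncomputable def idx : List Nat :=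
  [nat_lit 1, nat_lit 3, nat_lit 9, nat_lit 13, nat_lit 17, nat_lit 23, nat_lit 25, nat_lit 27,
  nat_lit 31, nat_lit 35, nat_lit 37, nat_lit 39, nat_lit 47, nat_lit 51, nat_lit 59, nat_lit 61,
  nat_lit 65, nat_lit 69, nat_lit 73, nat_lit 75, nat_lit 81, nat_lit 85, nat_lit 89, nat_lit 91,
  nat_lit 93, nat_lit 101, nat_lit 105, nat_lit 109, nat_lit 111, nat_lit 117, nat_lit 121, nat_lit 125,
  nat_lit 131, nat_lit 133, nat_lit 137, nat_lit 141, nat_lit 149, nat_lit 151, nat_lit 153, nat_lit 157,
  nat_lit 161, nat_lit 167, nat_lit 169, nat_lit 173, nat_lit 177, nat_lit 181, nat_lit 183, nat_lit 191,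
  nat_lit 195, nat_lit 203, nat_lit 205, nat_lit 207, nat_lit 211, nat_lit 215, nat_lit 217, nat_lit 219,
  nat_lit 225, nat_lit 229, nat_lit 233, nat_lit 239, nat_lit 241, nat_lit 243, nat_lit 247, nat_lit 251,
  nat_lit 253, nat_lit 255, nat_lit 263, nat_lit 267, nat_lit 271, nat_lit 273, nat_lit 279, nat_lit 283,
  nat_lit 287, nat_lit 293, nat_lit 295, nat_lit 299, nat_lit 303, nat_lit 311, nat_lit 313, nat_lit 315,
  nat_lit 319, nat_lit 323, nat_lit 325, nat_lit 327, nat_lit 333, nat_lit 337, nat_lit 341, nat_lit 347,
  nat_lit 349, nat_lit 351, nat_lit 355, nat_lit 359, nat_lit 361, nat_lit 363, nat_lit 371, nat_lit 375,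
  nat_lit 383, nat_lit 385, nat_lit 389, nat_lit 393, nat_lit 397, nat_lit 399, nat_lit 407, nat_lit 411,
  nat_lit 419, nat_lit 421, nat_lit 423, nat_lit 427, nat_lit 431, nat_lit 437, nat_lit 439, nat_lit 443,
  nat_lit 447, nat_lit 451, nat_lit 453, nat_lit 459, nat_lit 463, nat_lit 467, nat_lit 469, nat_lit 471,
  nat_lit 479, nat_lit 483, nat_lit 491, nat_lit 493, nat_lit 497, nat_lit 501, nat_lit 505, nat_lit 507,
  nat_lit 515, nat_lit 519, nat_lit 527, nat_lit 529, nat_lit 531, nat_lit 535, nat_lit 539, nat_lit 541,
  nat_lit 543, nat_lit 549, nat_lit 553, nat_lit 557, nat_lit 563, nat_lit 565, nat_lit 569, nat_lit 573,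
  nat_lit 581, nat_lit 583, nat_lit 585, nat_lit 589, nat_lit 593, nat_lit 599, nat_lit 601, nat_lit 605,
  nat_lit 609, nat_lit 613, nat_lit 615, nat_lit 621, nat_lit 625, nat_lit 629, nat_lit 631, nat_lit 633,
  nat_lit 641, nat_lit 645, nat_lit 649, nat_lit 651, nat_lit 657, nat_lit 661, nat_lit 665, nat_lit 671,
  nat_lit 673, nat_lit 675, nat_lit 679, nat_lit 683, nat_lit 685, nat_lit 687, nat_lit 695, nat_lit 699,
  nat_lit 707, nat_lit 709, nat_lit 713, nat_lit 717, nat_lit 721, nat_lit 723]

def TT : Type :=
  Nat → Nat → Nat → Nat → Nat → Nat → Nat → Nat → Nat → Nat → Nat → Nat → Nat → Nat → Nat → Nat →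
  Nat → Nat → Nat → Nat → Nat → Nat → Nat → Nat → Nat → Nat → Nat → Nat → Nat → Nat → Nat → Nat →
  Nat → Nat → Nat → Nat → Nat → Nat → Nat → Nat → Nat → Nat → Nat → Nat → Nat → Nat → Nat → Nat →
  Nat → Nat → Nat → Nat → Nat → Nat → Nat → Nat → Nat → Nat → Nat → Nat → Nat → Nat → Nat → Nat →
  Nat → Nat → Nat → Nat → Nat → Nat → Nat → Nat → Nat → Nat → Nat → Nat → Nat → Nat → Nat → Nat →
  Nat → Nat → Nat → Nat → Nat → Nat → Nat → Nat → Nat → Nat → Nat → Nat → Nat → Nat → Nat → Nat →
  Nat → Nat → Nat → Nat → Nat → Nat → Nat → Nat → Nat → Nat → Nat → Nat → Nat → Nat → Nat → Nat →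
  Nat → Nat → Nat → Nat → Nat → Nat → Nat → Nat → Nat → Nat → Nat → Nat → Nat → Nat → Nat → Nat →
  Nat → Nat → Nat → Nat → Nat → Nat → Nat → Nat → Nat → Nat → Nat → Nat → Nat → Nat → Nat → Nat →
  Nat → Nat → Nat → Nat → Nat → Nat → Nat → Nat → Nat → Nat → Nat → Nat → Nat → Nat → Nat → Nat →
  Nat → Nat → Nat → Nat → Nat → Nat → Nat → Nat → Nat → Nat → Nat → Nat → Nat → Nat → Nat → Nat →
  Nat → Nat → Nat → Nat → Nat → Nat → Bool

noncomputable def base : TT :=
  fun _ _ _ _ _ _ _ _ _ _ _ _ _ _ _ _ _ _ _ _ _ _ _ _ _ _ _ _ _ _ _ _ _ _ _ _ _ _ _ _
  _ _ _ _ _ _ _ _ _ _ _ _ _ _ _ _ _ _ _ _ _ _ _ _ _ _ _ _ _ _ _ _ _ _ _ _ _ _ _ _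
  _ _ _ _ _ _ _ _ _ _ _ _ _ _ _ _ _ _ _ _ _ _ _ _ _ _ _ _ _ _ _ _ _ _ _ _ _ _ _ _
  _ _ _ _ _ _ _ _ _ _ _ _ _ _ _ _ _ _ _ _ _ _ _ _ _ _ _ _ _ _ _ _ _ _ _ _ _ _ _ _
  _ _ _ _ _ _ _ _ _ _ _ _ _ _ _ _ _ _ _ _ _ _ => true

noncomputable def G (chk : List Nat → Bool) (C : Nat) (k : TT) : TT :=
  fun x1 x3 x9 x13 x17 x23 x25 x27 x31 x35 x37 x39 x47 x51 x59 x61
  x65 x69 x73 x75 x81 x85 x89 x91 x93 x101 x105 x109 x111 x117 x121 x125
  x131 x133 x137 x141 x149 x151 x153 x157 x161 x167 x169 x173 x177 x181 x183 x191
  x195 x203 x205 x207 x211 x215 x217 x219 x225 x229 x233 x239 x241 x243 x247 x251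
  x253 x255 x263 x267 x271 x273 x279 x283 x287 x293 x295 x299 x303 x311 x313 x315
  x319 x323 x325 x327 x333 x337 x341 x347 x349 x351 x355 x359 x361 x363 x371 x375
  x383 x385 x389 x393 x397 x399 x407 x411 x419 x421 x423 x427 x431 x437 x439 x443
  x447 x451 x453 x459 x463 x467 x469 x471 x479 x483 x491 x493 x497 x501 x505 x507
  x515 x519 x527 x529 x531 x535 x539 x541 x543 x549 x553 x557 x563 x565 x569 x573
  x581 x583 x585 x589 x593 x599 x601 x605 x609 x613 x615 x621 x625 x629 x631 x633
  x641 x645 x649 x651 x657 x661 x665 x671 x673 x675 x679 x683 x685 x687 x695 x699
  x707 x709 x713 x717 x721 x723 =>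
  Bool.rec false (k
  (sub (add (add (add (add (add (add (add (add (sub C x3) x13) x25) x37) x73) x109) x217) x325) x649) x243)
  (sub (add (add (add (add (add (add (add (sub (sub C x1) x9) x39) x75) x111) x219) x327) x651) x247) x491)
  (sub (add (add (add (add (add (sub (sub (add (add C x13) x17) x3) x27) x117) x225) x333) x657) x253) x497)
  (sub (add (add (add (add (sub (add (add (add (add C x9) x17) x1) x25) x31) x121) x229) x337) x661) x255)
  (add (add (add (add (add (sub (sub (add (add C x9) x13) x23) x35) x125) x233) x341) x665) x501)
  (add (add (add (add (add (sub (sub (sub C x25) x17) x59) x131) x239) x347) x671) x507)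
  (sub (add (add (add (add (sub (add (add (sub C x23) x1) x13) x61) x133) x241) x349) x673) x267)
  (sub (add (add (add (sub (sub (add (add (add (add C x31) x35) x39) x51) x9) x81) x351) x675) x271) x515)
  (sub (add (add (sub (sub (sub (add (add C x27) x35) x37) x13) x85) x355) x679) x273)
  (add (add (add (sub (sub (sub (add (add C x27) x31) x47) x17) x89) x359) x683) x519)
  (sub (add (add (sub (add (add (sub (sub C x39) x31) x1) x73) x91) x361) x685) x279)
  (sub (add (add (add (sub (add (add (add (add (sub C x37) x27) x51) x3) x75) x93) x363) x687) x283) x527)
  (add (add (add (sub (sub (sub (sub C x51) x35) x65) x101) x371) x695) x531)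
  (sub (add (add (add (sub (sub (add (add (sub C x47) x27) x39) x69) x105) x375) x699) x295) x539)
  (add (add (add (sub (sub (sub (sub C x61) x65) x23) x167) x383) x707) x543)
  (sub (add (add (sub (sub (sub (sub C x59) x73) x25) x169) x385) x709) x303)
  (add (add (add (sub (sub (sub (sub C x69) x59) x47) x173) x389) x713) x549)
  (sub (add (add (add (sub (sub (sub (sub C x65) x75) x51) x177) x393) x717) x313) x557)
  (sub (add (add (sub (add (add (sub (sub C x75) x61) x1) x37) x181) x397) x721) x315)
  (sub (add (add (add (sub (add (add (sub (sub C x73) x69) x3) x39) x183) x399) x723) x319) x563)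
  (sub (add (sub (sub (add (add (add (add (add (add C x85) x89) x93) x105) x117) x153) x27) x243) x325) x569)
  (sub (sub (sub (add (add (sub (add (add C x81) x89) x91) x121) x157) x31) x247) x327)
  (add (sub (sub (add (add (sub (add (add C x81) x85) x101) x125) x161) x35) x251) x573)
  (sub (sub (sub (sub (sub (sub C x93) x85) x109) x37) x253) x333)
  (sub (add (sub (sub (sub (add (add (sub C x91) x81) x105) x111) x39) x255) x337) x581)
  (add (sub (sub (sub (sub (sub C x105) x89) x137) x47) x263) x585)
  (sub (add (sub (sub (sub (add (add (sub C x101) x81) x93) x141) x51) x267) x349) x593)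
  (sub (sub (add (add (sub (add (add (sub C x111) x121) x133) x91) x1) x217) x271) x351)
  (sub (add (sub (add (add (sub (sub (sub C x109) x117) x93) x3) x219) x273) x355) x599)
  (sub (add (sub (add (add (add (add (sub (add (add C x121) x125) x111) x81) x153) x9) x225) x279) x361) x605)
  (sub (sub (add (add (add (add (add (add (add (add C x117) x125) x109) x133) x85) x157) x13) x229) x283) x363)
  (add (sub (add (add (add (add (sub (add (add C x117) x121) x131) x89) x161) x17) x233) x287) x609)
  (add (sub (add (add (sub (sub (sub C x133) x125) x149) x23) x239) x293) x615)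
  (sub (sub (add (add (sub (add (add (sub C x131) x109) x121) x151) x25) x241) x295) x375)
  (add (sub (sub (sub (add (add (sub C x141) x149) x161) x101) x191) x299) x621)
  (sub (add (sub (sub (sub (sub (sub C x137) x153) x105) x195) x303) x385) x629)
  (add (sub (sub (sub (add (add (sub C x151) x137) x161) x131) x203) x311) x633)
  (sub (sub (sub (sub (sub (sub C x149) x157) x133) x205) x313) x393)
  (sub (add (sub (sub (add (add (sub (add (add C x157) x161) x141) x81) x117) x207) x315) x397) x641)
  (sub (sub (sub (add (add (sub (add (add C x153) x161) x151) x85) x121) x211) x319) x399)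
  (add (sub (sub (add (add (add (add (add (add C x153) x157) x137) x149) x89) x125) x215) x323) x645)
  (add (sub (sub (add (add (sub (sub C x169) x173) x203) x239) x59) x491) x651)
  (sub (sub (sub (add (add (sub (sub C x167) x181) x205) x241) x61) x493) x411)
  (add (sub (sub (sub (sub (sub C x177) x167) x191) x65) x497) x657)
  (sub (add (sub (sub (sub (sub (sub C x173) x183) x195) x69) x501) x421) x665)
  (sub (sub (sub (sub (sub (sub C x183) x169) x217) x73) x505) x423)
  (sub (add (sub (sub (sub (sub (sub C x181) x177) x219) x75) x507) x427) x671)
  (add (sub (sub (sub (add (add (sub C x195) x203) x215) x173) x137) x515) x675)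
  (sub (add (sub (sub (sub (sub (sub C x191) x207) x177) x141) x519) x439) x683)
  (add (sub (sub (add (add (add (add (sub C x205) x191) x215) x167) x239) x149) x527) x687)
  (sub (sub (sub (add (add (sub (sub C x203) x211) x169) x241) x151) x529) x447)
  (sub (add (sub (sub (sub (sub (add (add C x211) x215) x195) x225) x153) x531) x451) x695)
  (sub (sub (sub (sub (sub (add (add C x207) x215) x205) x229) x157) x535) x453)
  (add (sub (sub (sub (add (add (add (add C x207) x211) x191) x203) x233) x161) x539) x699)
  (sub (sub (add (add (sub (add (add (sub C x219) x229) x241) x181) x1) x109) x541) x459)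
  (sub (add (sub (add (add (sub (sub (sub C x217) x225) x183) x3) x111) x543) x463) x707)
  (sub (add (sub (add (add (sub (sub (add (add C x229) x233) x219) x207) x9) x117) x549) x469) x713)
  (sub (sub (add (add (sub (add (add (add (add C x225) x233) x217) x241) x211) x13) x121) x553) x471)
  (add (sub (add (add (sub (sub (add (add C x225) x229) x239) x215) x17) x125) x557) x717)
  (add (sub (add (add (add (add (sub (sub C x241) x233) x167) x203) x23) x131) x563) x723)
  (sub (sub (add (add (add (add (add (add (sub C x239) x217) x229) x169) x205) x25) x133) x565) x483)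
  (sub (sub (add (add (add (add (add (add (add (add C x247) x251) x255) x267) x279) x315) x351) x459) x81) x1)
  (sub (add (sub (add (add (add (add (sub (add (add C x243) x251) x253) x283) x319) x355) x463) x85) x3) x491)
  (add (sub (add (add (add (add (sub (add (add C x243) x247) x263) x287) x323) x359) x467) x89) x493)
  (sub (add (sub (add (add (sub (sub (sub C x255) x247) x271) x361) x469) x91) x9) x497)
  (sub (sub (add (add (sub (add (add (sub C x253) x243) x267) x273) x363) x471) x93) x13)
  (add (sub (add (add (sub (sub (sub C x267) x251) x299) x371) x479) x101) x505)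
  (sub (sub (add (add (sub (add (add (sub C x263) x243) x255) x303) x375) x483) x105) x25)
  (sub (add (sub (sub (sub (add (add (sub C x273) x283) x295) x253) x325) x109) x27) x515)
  (sub (sub (sub (sub (sub (sub C x271) x279) x255) x327) x111) x31)
  (sub (sub (sub (add (add (sub (add (add C x283) x287) x273) x243) x315) x333) x117) x37)
  (sub (add (sub (sub (add (add (add (add (add (add C x279) x287) x271) x295) x247) x319) x337) x121) x39) x527)
  (add (sub (sub (add (add (sub (add (add C x279) x283) x293) x251) x323) x341) x125) x529)
  (add (sub (sub (sub (sub (sub C x295) x287) x311) x347) x131) x535)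
  (sub (add (sub (sub (sub (add (add (sub C x293) x271) x283) x313) x349) x133) x51) x539)
  (add (sub (sub (sub (add (add (sub C x303) x311) x323) x263) x407) x137) x541)
  (sub (sub (sub (sub (sub (sub C x299) x315) x267) x411) x141) x61)
  (add (sub (sub (sub (add (add (sub C x313) x299) x323) x293) x419) x149) x553)
  (sub (add (sub (sub (sub (sub (sub C x311) x319) x295) x421) x151) x69) x557)
  (sub (sub (sub (add (add (sub (add (add C x319) x323) x303) x243) x279) x423) x153) x73)
  (sub (add (sub (sub (add (add (sub (add (add C x315) x323) x313) x247) x283) x427) x157) x75) x563)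
  (add (sub (sub (add (add (add (add (add (add C x315) x319) x299) x311) x251) x287) x431) x161) x565)
  (sub (add (add (add (sub (add (add (add (add (sub C x327) x337) x349) x361) x397) x271) x1) x649) x81) x569)
  (sub (add (add (sub (add (add (sub (sub C x325) x333) x363) x399) x273) x3) x651) x85)
  (sub (add (add (sub (sub (sub (add (add C x337) x341) x327) x351) x279) x9) x657) x91)
  (sub (add (add (add (sub (sub (add (add (add (add C x333) x341) x325) x349) x355) x283) x13) x661) x93) x581)
  (add (add (add (sub (sub (sub (add (add C x333) x337) x347) x359) x287) x17) x665) x583)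
  (add (add (add (sub (sub (sub (sub C x349) x341) x383) x293) x23) x671) x589)
  (sub (add (add (add (sub (sub (add (add (sub C x347) x325) x337) x385) x295) x25) x673) x105) x593)
  (sub (add (add (add (add (sub (add (add (add (add C x355) x359) x363) x375) x333) x243) x459) x27) x675) x109)
  (sub (add (add (add (add (add (sub (sub (add (add C x351) x359) x361) x337) x247) x463) x31) x679) x111) x599)
  (add (add (add (add (add (sub (sub (add (add C x351) x355) x371) x341) x251) x467) x35) x683) x601)
  (sub (add (add (add (add (add (add (add (sub (sub C x363) x355) x325) x397) x253) x469) x37) x685) x117) x605)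
  (sub (add (add (add (add (add (add (add (add (sub C x361) x351) x375) x327) x399) x255) x471) x39) x687) x121)
  (add (add (add (add (add (sub (sub (sub C x375) x359) x389) x263) x479) x47) x695) x613)
  (sub (add (add (add (add (sub (add (add (sub C x371) x351) x363) x393) x267) x483) x51) x699) x133)
  (add (add (add (sub (sub (sub (sub C x385) x389) x347) x437) x59) x707) x625)
  (sub (add (add (add (sub (sub (sub (sub C x383) x397) x349) x439) x61) x709) x141) x629)
  (add (add (add (sub (sub (sub (sub C x393) x383) x371) x443) x65) x713) x631)
  (sub (add (add (sub (sub (sub (sub C x389) x399) x375) x447) x69) x717) x151)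
  (sub (add (add (add (sub (add (add (sub (sub C x399) x385) x325) x361) x451) x73) x721) x153) x641)
  (sub (add (add (sub (add (add (sub (sub C x397) x393) x327) x363) x453) x75) x723) x157)
  (add (sub (sub (add (add (add (add (sub C x411) x419) x431) x443) x479) x299) x569) x649)
  (sub (sub (sub (add (add (sub (sub C x407) x423) x447) x483) x303) x573) x169)
  (add (sub (sub (sub (add (add (sub C x421) x407) x431) x437) x311) x581) x661)
  (sub (add (sub (sub (sub (sub (sub C x419) x427) x439) x313) x583) x177) x665)
  (sub (sub (sub (sub (sub (add (add C x427) x431) x411) x459) x315) x585) x181)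
  (sub (add (sub (sub (sub (sub (add (add C x423) x431) x421) x463) x319) x589) x183) x671)
  (add (sub (sub (sub (add (add (add (add C x423) x427) x407) x419) x467) x323) x593) x673)
  (add (sub (sub (sub (sub (sub C x439) x443) x419) x383) x599) x679)
  (sub (add (sub (sub (sub (sub (sub C x437) x451) x421) x385) x601) x195) x683)
  (add (sub (sub (add (add (sub (sub C x447) x437) x407) x479) x389) x605) x685)
  (sub (sub (sub (add (add (sub (sub C x443) x453) x411) x483) x393) x609) x205)
  (sub (add (sub (sub (sub (sub (sub C x453) x439) x469) x397) x613) x207) x695)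
  (sub (sub (sub (sub (sub (sub C x451) x447) x471) x399) x615) x211)
  (sub (sub (add (add (sub (add (add (add (add C x463) x467) x471) x483) x423) x243) x351) x621) x217)
  (sub (add (sub (add (add (sub (sub (add (add C x459) x467) x469) x427) x247) x355) x625) x219) x707)
  (add (sub (add (add (sub (sub (add (add C x459) x463) x479) x431) x251) x359) x629) x709)
  (sub (add (sub (add (add (sub (sub (sub C x471) x463) x451) x253) x361) x631) x225) x713)
  (sub (sub (add (add (sub (add (add (sub C x469) x459) x483) x453) x255) x363) x633) x229)
  (add (sub (add (add (add (add (sub (sub C x483) x467) x407) x443) x263) x371) x641) x721)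
  (sub (sub (add (add (add (add (add (add (sub C x479) x459) x471) x411) x447) x267) x375) x645) x241)
  (sub (sub (sub (add (add (add (add (sub (sub C x493) x497) x527) x563) x599) x707) x167) x3) x247)
  (add (sub (add (add (add (add (sub (sub C x491) x505) x529) x565) x601) x709) x169) x251)
  (sub (sub (sub (add (add (sub (sub (sub C x501) x491) x515) x605) x713) x173) x9) x253)
  (add (sub (add (add (sub (sub (sub C x497) x507) x519) x609) x717) x177) x17)
  (add (sub (add (add (sub (sub (sub C x507) x493) x541) x613) x721) x181) x263)
  (add (sub (add (add (sub (sub (sub C x505) x501) x543) x615) x723) x183) x23)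
  (sub (sub (sub (sub (sub (add (add (sub C x519) x527) x539) x497) x569) x191) x27) x271)
  (add (sub (sub (sub (sub (sub C x515) x531) x501) x573) x195) x35)
  (sub (sub (sub (sub (add (add (add (add (sub C x529) x515) x539) x491) x563) x581) x203) x39) x283)
  (add (sub (sub (add (add (sub (sub C x527) x535) x493) x565) x583) x205) x287)
  (add (sub (sub (sub (sub (add (add C x535) x539) x519) x549) x585) x207) x47)
  (add (sub (sub (sub (sub (add (add C x531) x539) x529) x553) x589) x211) x293)
  (sub (sub (sub (sub (sub (add (add (add (add C x531) x535) x515) x527) x557) x593) x215) x51) x295)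
  (add (sub (sub (sub (add (add (sub C x543) x553) x565) x505) x649) x217) x299)
  (add (sub (sub (sub (sub (sub C x541) x549) x507) x651) x219) x59)
  (add (sub (sub (sub (sub (add (add C x553) x557) x543) x531) x657) x225) x65)
  (add (sub (sub (sub (add (add (add (add C x549) x557) x541) x565) x535) x661) x229) x311)
  (sub (sub (sub (sub (sub (sub (add (add C x549) x553) x563) x539) x665) x233) x69) x313)
  (sub (sub (sub (sub (add (add (sub (sub C x565) x557) x491) x527) x671) x239) x75) x319)
  (add (sub (sub (add (add (add (add (sub C x563) x541) x553) x493) x529) x673) x241) x323)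
  (sub (sub (sub (sub (add (add (add (add (sub C x573) x581) x593) x605) x641) x515) x407) x81) x325)
  (add (sub (sub (add (add (sub (sub C x569) x585) x609) x645) x519) x411) x89)
  (sub (sub (sub (sub (sub (add (add (sub C x583) x569) x593) x599) x527) x419) x93) x337)
  (add (sub (sub (sub (sub (sub C x581) x589) x601) x529) x421) x341)
  (add (sub (sub (sub (sub (add (add C x589) x593) x573) x621) x531) x423) x101)
  (add (sub (sub (sub (sub (add (add C x585) x593) x583) x625) x535) x427) x347)
  (sub (sub (sub (sub (sub (add (add (add (add C x585) x589) x569) x581) x629) x539) x431) x105) x349)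
  (sub (sub (sub (add (add (sub (sub (sub C x601) x605) x581) x491) x707) x437) x111) x355)
  (add (sub (add (add (sub (sub (sub C x599) x613) x583) x493) x709) x439) x359)
  (sub (sub (sub (add (add (add (add (sub (sub C x609) x599) x569) x641) x497) x713) x443) x117) x361)
  (add (sub (add (add (add (add (sub (sub C x605) x615) x573) x645) x501) x717) x447) x125)
  (add (sub (add (add (sub (sub (sub C x615) x601) x631) x505) x721) x451) x371)
  (add (sub (add (add (sub (sub (sub C x613) x609) x633) x507) x723) x453) x131)
  (add (sub (sub (sub (add (add (add (add C x625) x629) x633) x645) x585) x675) x459) x137)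
  (add (sub (sub (sub (sub (add (add C x621) x629) x631) x589) x679) x463) x383)
  (sub (sub (sub (sub (sub (sub (add (add C x621) x625) x641) x593) x683) x467) x141) x385)
  (add (sub (sub (sub (sub (sub C x633) x625) x613) x685) x469) x389)
  (add (sub (sub (sub (add (add (sub C x631) x621) x645) x615) x687) x471) x149)
  (sub (sub (sub (sub (add (add (sub (sub C x645) x629) x569) x605) x695) x479) x153) x397)
  (add (sub (sub (add (add (add (add (sub C x641) x621) x633) x573) x609) x699) x483) x161)
  (add (add (add (sub (add (add (add (add (sub C x651) x661) x673) x685) x721) x541) x1) x325) x407)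
  (add (add (add (sub (add (add (sub (sub C x649) x657) x687) x723) x543) x3) x327) x167)
  (add (add (add (sub (sub (sub (add (add C x661) x665) x651) x675) x549) x9) x333) x173)
  (add (add (add (sub (sub (add (add (add (add C x657) x665) x649) x673) x679) x553) x13) x337) x419)
  (sub (sub (add (add (sub (sub (sub (add (add C x657) x661) x671) x683) x557) x17) x341) x177) x421)
  (sub (sub (add (add (sub (sub (sub (sub C x673) x665) x707) x563) x23) x347) x183) x427)
  (add (add (add (sub (sub (add (add (sub C x671) x649) x661) x709) x565) x25) x349) x431)
  (add (add (add (sub (sub (add (add (add (add C x679) x683) x687) x699) x657) x621) x27) x351) x191)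
  (add (add (add (sub (sub (sub (add (add C x675) x683) x685) x661) x625) x31) x355) x437)
  (sub (sub (add (add (sub (sub (sub (add (add C x675) x679) x695) x665) x629) x35) x359) x195) x439)
  (add (add (add (sub (add (add (sub (sub C x687) x679) x649) x721) x631) x37) x361) x443)
  (add (add (add (sub (add (add (add (add (sub C x685) x675) x699) x651) x723) x633) x39) x363) x203)
  (sub (sub (add (add (sub (sub (sub (sub C x699) x683) x713) x641) x47) x371) x207) x451)
  (add (add (add (sub (sub (add (add (sub C x695) x675) x687) x717) x645) x51) x375) x215)
  (sub (sub (add (add (add (add (sub (sub (sub C x709) x713) x671) x491) x599) x59) x383) x219) x463)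
  (add (add (add (add (add (sub (sub (sub C x707) x721) x673) x493) x601) x61) x385) x467)
  (sub (sub (add (add (add (add (sub (sub (sub C x717) x707) x695) x497) x605) x65) x389) x225) x469)
  (add (add (add (add (add (sub (sub (sub C x713) x723) x699) x501) x609) x69) x393) x233)
  (add (add (add (add (add (add (add (sub (sub C x723) x709) x649) x685) x505) x613) x73) x397) x479)
  (add (add (add (add (add (add (add (sub (sub C x721) x717) x651) x687) x507) x615) x75) x399) x239))
  (chk [x1, x13, x17, x23, x31, x35, x47, x59, x91, x101, x161, x215,
  x233])

noncomputable def RK : Nat := nat_lit 0xe900d700a10065005b003b002f0023001f00170011000d0001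

noncomputable def CK : Nat := nat_lit 0x6000c000c000c0002001800180018000c000c00180006000c

noncomputable def H : Nat := nat_lit 0x43e0000043f00000000000004aa000000000000045d00000000000004ab0000045c0000000000000000000000000000051600000000000004d5000000000000000000000000000001090000024d00000469000000000000022300000000000000de00000517000004d400000000000000000000046800000000000000df000000000000022200000000000000000000024c0000010800000000000004b00000000000000528000000000000000000000000000002ad000003d3000004da000000000000028f000000000000014a0000000000000000000003310000031f000000000000017b000000000000011500000000000002c500000259000000000000000000000462000000000000030d00000000000002fa000004030000025f000000000000000000000000000002be000000000000011a00000000000004b1000005290000000000000000000004db000000000000014b000000000000028e0000000000000000000003d2000002ac0000046300000000000002fb000000000000030c000002bf0000011b00000000000000000000000000000402000000000000025e0000000000000000000000000000031e0000033000000000000002c40000000000000258000000000000017a000001140000000000000000000000000000044400000000000004b7000000000000000000000000000002410000022f0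000051100000000000000eb00000000000000fc0000000000000000000003df0000029b000000000000032b00000000000002b90000000000000301000003fd0000000000000000000004a5000000000000015700000000000002a000000307000002cb0000000000000000000000000000032400000000000001740000000000000000000000000000023b000000f700000000000002a700000000000002f5000000000000015100000313000000000000000000000000000001030000000000000145000000000000000000000000000000010000000d000000d90000000000000019000000000000006d000000e50000028900000000000000000000021d000000000000001f00000000000001b10000000000000000000001cf000000790000043900000000000000f100000000000002340000029500000319000000000000000000000000000003d800000000000003360000000000000229000003cd000000000000000000000253000000000000001300000000000001c8000000000000000000000361000001bd000000000000024600000000000002b2000000000000000000000000000001d5000001c30000010e000000000000007f000000000000000600000445000004b600000000000000000000051000000000000000fd00000000000000ea00000000000000000000022e00000240000004a400000000000002a1000000000000015600000325000001750000000000000000000000000000030600000000000002ca0000000000000000000000000000029a000003de0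00000000000030000000000000003fc000000000000032a000002b8000000000000000000000438000000000000023500000000000000f0000003d9000003370000000000000000000000000000029400000000000003180000000000000247000002b300000000000000000000010f0000000000000007000000000000007e0000000000000000000001c2000001d4000000000000022800000000000003cc000000000000000000000000000001bc000003600000025200000000000001c900000000000000120000000000000000000000f60000023a0000000000000150000000000000031200000000000002a6000002f4000000000000000000000000000000e4000000000000028800000000000000000000000000000078000001ce0000021c00000000000001b0000000000000001e00000102000001440000000000000000000000d8000000000000006c000000000000001800000000000000000000000c000000000000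

theorem spec : Spec 5 true idx RK 13 G := fun _ _ _ _ => by eq_refl

theorem cover : cov 6 true H RK CK 13 3 = true := by decide +kernel

end S6x2

namespace S6x2

noncomputable def ts0 : List Nat :=
  [nat_lit 247725563118443201401336714210327257940150,
   nat_lit 247725563118443201401336714210327257939968,
   nat_lit 247725563118443201401336714210327257941420,
   nat_lit 247725563118443201401336714210327257940688,
   nat_lit 247725563118443201401336714210327257969788,
   nat_lit 247725563118443201401336714210327257986048,
   nat_lit 247725563118443201401336714210327258862516,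
   nat_lit 247725563118443201401336714210327260899960,
   nat_lit 247725563118443201401336714210327296549596,
   nat_lit 247725563118443201401336714210327454150480,
   nat_lit 247725563118443201401336714210329280178300,
   nat_lit 247725563118443201401336714210340515067984,
   nat_lit 247725563118443201401336714210448898048932,
   nat_lit 247725563118443201401336714211232207546152,
   nat_lit 247725563118443201401336714218194135626772,
   nat_lit 247725563118443201401336714272427188177008,
   nat_lit 247725563118443201401336714737068169106076,
   nat_lit 247725563118443201401336718483167872548504,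
   nat_lit 247725563118443201401336750049597941460396,
   nat_lit 247725563118443201401337008599903346736624,
   nat_lit 247725563118443201401339170752764942473068,
   nat_lit 247725563118443201401357010507048528340056,
   nat_lit 247725563118443201401505669408110120726076,
   nat_lit 247725563118443201402736475966609741933352,
   nat_lit 247725563118443201412975622886795041243844,
   nat_lit 247725563118443201497888867679769423137048,
   nat_lit 247725563118443202203718806703992103765068,
   nat_lit 247725563118443208061800649401678102724784,
   nat_lit 247725563118443256737285966343642858058868,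
   nat_lit 247725563118443660878572477985348685982800,
   nat_lit 247725563118447018290385354964079899943396,
   nat_lit 247725563118474899399469068142182810118416,
   nat_lit 247725563118706500173175311869582130467484,
   nat_lit 247725563120629974550233835699851857942888,
   nat_lit 247725563136606988729613494307013332048420,
   nat_lit 247725563269304419615053422312540210999840,
   nat_lit 247725564371506606544396293744264370466476]

theorem run0 : go idx G base H RK CK 131 0 13 ts0 = true := by decide +kernel

end S6x2

namespace S6x3

noncomputable def idx : List Nat :=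
  [nat_lit 0, nat_lit 4, nat_lit 8, nat_lit 10, nat_lit 12, nat_lit 20, nat_lit 24, nat_lit 28,
  nat_lit 30, nat_lit 36, nat_lit 40, nat_lit 44, nat_lit 50, nat_lit 52, nat_lit 56, nat_lit 60,
  nat_lit 68, nat_lit 70, nat_lit 72, nat_lit 76, nat_lit 80, nat_lit 82, nat_lit 84, nat_lit 90,
  nat_lit 94, nat_lit 98, nat_lit 104, nat_lit 106, nat_lit 108, nat_lit 112, nat_lit 116, nat_lit 118,
  nat_lit 120, nat_lit 128, nat_lit 132, nat_lit 140, nat_lit 142, nat_lit 146, nat_lit 150, nat_lit 154,
  nat_lit 156, nat_lit 164, nat_lit 168, nat_lit 176, nat_lit 178, nat_lit 180, nat_lit 184, nat_lit 188,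
  nat_lit 194, nat_lit 196, nat_lit 200, nat_lit 204, nat_lit 208, nat_lit 210, nat_lit 216, nat_lit 220,
  nat_lit 224, nat_lit 226, nat_lit 228, nat_lit 236, nat_lit 240, nat_lit 244, nat_lit 246, nat_lit 252,
  nat_lit 256, nat_lit 260, nat_lit 266, nat_lit 268, nat_lit 270, nat_lit 274, nat_lit 278, nat_lit 280,
  nat_lit 282, nat_lit 290, nat_lit 294, nat_lit 302, nat_lit 304, nat_lit 308, nat_lit 312, nat_lit 316,
  nat_lit 318, nat_lit 324, nat_lit 328, nat_lit 332, nat_lit 334, nat_lit 336, nat_lit 344, nat_lit 348,
  nat_lit 352, nat_lit 354, nat_lit 360, nat_lit 364, nat_lit 368, nat_lit 374, nat_lit 376, nat_lit 380,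
  nat_lit 384, nat_lit 392, nat_lit 394, nat_lit 396, nat_lit 400, nat_lit 404, nat_lit 410, nat_lit 412,
  nat_lit 416, nat_lit 420, nat_lit 424, nat_lit 426, nat_lit 434, nat_lit 438, nat_lit 446, nat_lit 448,
  nat_lit 450, nat_lit 454, nat_lit 458, nat_lit 460, nat_lit 462, nat_lit 468, nat_lit 472, nat_lit 476,
  nat_lit 482, nat_lit 484, nat_lit 488, nat_lit 492, nat_lit 500, nat_lit 502, nat_lit 504, nat_lit 508,
  nat_lit 512, nat_lit 518, nat_lit 520, nat_lit 524, nat_lit 528, nat_lit 532, nat_lit 534, nat_lit 540,
  nat_lit 544, nat_lit 548, nat_lit 550, nat_lit 552, nat_lit 560, nat_lit 564, nat_lit 572, nat_lit 574,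
  nat_lit 578, nat_lit 582, nat_lit 586, nat_lit 588, nat_lit 596, nat_lit 600, nat_lit 608, nat_lit 610,
  nat_lit 612, nat_lit 616, nat_lit 620, nat_lit 622, nat_lit 624, nat_lit 630, nat_lit 634, nat_lit 638,
  nat_lit 644, nat_lit 646, nat_lit 648, nat_lit 652, nat_lit 656, nat_lit 658, nat_lit 660, nat_lit 668,
  nat_lit 672, nat_lit 676, nat_lit 678, nat_lit 684, nat_lit 688, nat_lit 692, nat_lit 698, nat_lit 700,
  nat_lit 704, nat_lit 708, nat_lit 716, nat_lit 718, nat_lit 720, nat_lit 724, nat_lit 728]

def TT : Type :=
  Nat → Nat → Nat → Nat → Nat → Nat → Nat → Nat → Nat → Nat → Nat → Nat → Nat → Nat → Nat → Nat →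
  Nat → Nat → Nat → Nat → Nat → Nat → Nat → Nat → Nat → Nat → Nat → Nat → Nat → Nat → Nat → Nat →
  Nat → Nat → Nat → Nat → Nat → Nat → Nat → Nat → Nat → Nat → Nat → Nat → Nat → Nat → Nat → Nat →
  Nat → Nat → Nat → Nat → Nat → Nat → Nat → Nat → Nat → Nat → Nat → Nat → Nat → Nat → Nat → Nat →
  Nat → Nat → Nat → Nat → Nat → Nat → Nat → Nat → Nat → Nat → Nat → Nat → Nat → Nat → Nat → Nat →
  Nat → Nat → Nat → Nat → Nat → Nat → Nat → Nat → Nat → Nat → Nat → Nat → Nat → Nat → Nat → Nat →
  Nat → Nat → Nat → Nat → Nat → Nat → Nat → Nat → Nat → Nat → Nat → Nat → Nat → Nat → Nat → Nat →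
  Nat → Nat → Nat → Nat → Nat → Nat → Nat → Nat → Nat → Nat → Nat → Nat → Nat → Nat → Nat → Nat →
  Nat → Nat → Nat → Nat → Nat → Nat → Nat → Nat → Nat → Nat → Nat → Nat → Nat → Nat → Nat → Nat →
  Nat → Nat → Nat → Nat → Nat → Nat → Nat → Nat → Nat → Nat → Nat → Nat → Nat → Nat → Nat → Nat →
  Nat → Nat → Nat → Nat → Nat → Nat → Nat → Nat → Nat → Nat → Nat → Nat → Nat → Nat → Nat → Nat →
  Nat → Nat → Nat → Nat → Nat → Nat → Nat → Bool

noncomputable def base : TT :=
  fun _ _ _ _ _ _ _ _ _ _ _ _ _ _ _ _ _ _ _ _ _ _ _ _ _ _ _ _ _ _ _ _ _ _ _ _ _ _ _ _
  _ _ _ _ _ _ _ _ _ _ _ _ _ _ _ _ _ _ _ _ _ _ _ _ _ _ _ _ _ _ _ _ _ _ _ _ _ _ _ _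
  _ _ _ _ _ _ _ _ _ _ _ _ _ _ _ _ _ _ _ _ _ _ _ _ _ _ _ _ _ _ _ _ _ _ _ _ _ _ _ _
  _ _ _ _ _ _ _ _ _ _ _ _ _ _ _ _ _ _ _ _ _ _ _ _ _ _ _ _ _ _ _ _ _ _ _ _ _ _ _ _
  _ _ _ _ _ _ _ _ _ _ _ _ _ _ _ _ _ _ _ _ _ _ _ => true

noncomputable def G (chk : List Nat → Bool) (C : Nat) (k : TT) : TT :=
  fun x0 x4 x8 x10 x12 x20 x24 x28 x30 x36 x40 x44 x50 x52 x56 x60
  x68 x70 x72 x76 x80 x82 x84 x90 x94 x98 x104 x106 x108 x112 x116 x118
  x120 x128 x132 x140 x142 x146 x150 x154 x156 x164 x168 x176 x178 x180 x184 x188
  x194 x196 x200 x204 x208 x210 x216 x220 x224 x226 x228 x236 x240 x244 x246 x252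
  x256 x260 x266 x268 x270 x274 x278 x280 x282 x290 x294 x302 x304 x308 x312 x316
  x318 x324 x328 x332 x334 x336 x344 x348 x352 x354 x360 x364 x368 x374 x376 x380
  x384 x392 x394 x396 x400 x404 x410 x412 x416 x420 x424 x426 x434 x438 x446 x448
  x450 x454 x458 x460 x462 x468 x472 x476 x482 x484 x488 x492 x500 x502 x504 x508
  x512 x518 x520 x524 x528 x532 x534 x540 x544 x548 x550 x552 x560 x564 x572 x574
  x578 x582 x586 x588 x596 x600 x608 x610 x612 x616 x620 x622 x624 x630 x634 x638
  x644 x646 x648 x652 x656 x658 x660 x668 x672 x676 x678 x684 x688 x692 x698 x700
  x704 x708 x716 x718 x720 x724 x728 =>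
  Bool.rec false (k
  (sub (add (add (add (add (add (add (add (add (add (add (add C x4) x8) x12) x24) x36) x72) x108) x216) x324) x648) x244) x488)
  (sub (add (add (add (add (add (add (sub (add (add C x0) x8) x10) x40) x76) x112) x220) x328) x652) x246)
  (add (add (add (add (add (add (add (sub (add (add C x0) x4) x20) x44) x80) x116) x224) x332) x656) x492)
  (sub (add (add (add (add (sub (sub (sub C x12) x4) x28) x118) x226) x334) x658) x252)
  (sub (add (add (add (add (add (sub (add (add (sub C x10) x0) x24) x30) x120) x228) x336) x660) x256) x500)
  (add (add (add (add (add (sub (sub (sub C x24) x8) x56) x128) x236) x344) x668) x504)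
  (sub (add (add (add (add (add (sub (add (add (sub C x20) x0) x12) x60) x132) x240) x348) x672) x268) x512)
  (sub (add (add (sub (sub (add (add (sub C x30) x40) x52) x10) x82) x352) x676) x270)
  (sub (add (add (add (sub (sub (sub (sub C x28) x36) x12) x84) x354) x678) x274) x518)
  (sub (add (add (add (sub (add (add (sub (add (add C x40) x44) x30) x0) x72) x90) x360) x684) x280) x524)
  (sub (add (add (sub (add (add (add (add (add (add C x36) x44) x28) x52) x4) x76) x94) x364) x688) x282)
  (add (add (add (sub (add (add (sub (add (add C x36) x40) x50) x8) x80) x98) x368) x692) x528)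
  (add (add (add (sub (sub (sub (sub C x52) x44) x68) x104) x374) x698) x534)
  (sub (add (add (sub (sub (add (add (sub C x50) x28) x40) x70) x106) x376) x700) x294)
  (add (add (add (sub (sub (add (add (sub C x60) x68) x80) x20) x164) x380) x704) x540)
  (sub (add (add (add (sub (sub (sub (sub C x56) x72) x24) x168) x384) x708) x304) x548)
  (add (add (add (sub (sub (add (add (sub C x70) x56) x80) x50) x176) x392) x716) x552)
  (sub (add (add (sub (sub (sub (sub C x68) x76) x52) x178) x394) x718) x312)
  (sub (add (add (add (sub (add (add (sub (add (add C x76) x80) x60) x0) x36) x180) x396) x720) x316) x560)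
  (sub (add (add (sub (add (add (sub (add (add C x72) x80) x70) x4) x40) x184) x400) x724) x318)
  (add (add (add (sub (add (add (add (add (add (add C x72) x76) x56) x68) x8) x44) x188) x404) x728) x564)
  (sub (sub (sub (add (add (add (add (sub C x84) x94) x106) x118) x154) x28) x244) x324)
  (sub (add (sub (sub (add (add (sub (sub C x82) x90) x120) x156) x30) x246) x328) x572)
  (sub (add (sub (sub (sub (sub (add (add C x94) x98) x84) x108) x36) x252) x334) x578)
  (sub (sub (sub (sub (add (add (add (add C x90) x98) x82) x106) x112) x40) x256) x336)
  (add (sub (sub (sub (sub (add (add C x90) x94) x104) x116) x44) x260) x582)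
  (add (sub (sub (sub (sub (sub C x106) x98) x140) x50) x266) x588)
  (sub (sub (sub (sub (add (add (sub C x104) x82) x94) x142) x52) x268) x348)
  (sub (add (sub (add (add (sub (add (add (add (add C x112) x116) x120) x132) x90) x0) x216) x270) x352) x596)
  (sub (sub (add (add (sub (sub (add (add C x108) x116) x118) x94) x4) x220) x274) x354)
  (add (sub (add (add (sub (sub (add (add C x108) x112) x128) x98) x8) x224) x278) x600)
  (sub (sub (add (add (add (add (sub (sub C x120) x112) x82) x154) x10) x226) x280) x360)
  (sub (add (sub (add (add (add (add (add (add (sub C x118) x108) x132) x84) x156) x12) x228) x282) x364) x608)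
  (add (sub (add (add (sub (sub (sub C x132) x116) x146) x20) x236) x290) x612)
  (sub (add (sub (add (add (sub (add (add (sub C x128) x108) x120) x150) x24) x240) x294) x376) x620)
  (add (sub (sub (sub (sub (sub C x142) x146) x104) x194) x302) x624)
  (sub (sub (sub (sub (sub (sub C x140) x154) x106) x196) x304) x384)
  (add (sub (sub (sub (sub (sub C x150) x140) x128) x200) x308) x630)
  (sub (add (sub (sub (sub (sub (sub C x146) x156) x132) x204) x312) x394) x638)
  (sub (sub (sub (add (add (sub (sub C x156) x142) x82) x118) x208) x316) x396)
  (sub (add (sub (sub (add (add (sub (sub C x154) x150) x84) x120) x210) x318) x400) x644)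
  (add (sub (sub (add (add (add (add (sub C x168) x176) x188) x200) x236) x56) x488) x648)
  (sub (add (sub (sub (add (add (sub (sub C x164) x180) x204) x240) x60) x492) x412) x656)
  (add (sub (sub (sub (add (add (sub C x178) x164) x188) x194) x68) x500) x660)
  (sub (sub (sub (sub (sub (sub C x176) x184) x196) x70) x502) x420)
  (sub (add (sub (sub (sub (sub (add (add C x184) x188) x168) x216) x72) x504) x424) x668)
  (sub (sub (sub (sub (sub (add (add C x180) x188) x178) x220) x76) x508) x426)
  (add (sub (sub (sub (add (add (add (add C x180) x184) x164) x176) x224) x80) x512) x672)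
  (add (sub (sub (sub (sub (sub C x196) x200) x176) x140) x518) x678)
  (sub (sub (sub (sub (sub (sub C x194) x208) x178) x142) x520) x438)
  (add (sub (sub (add (add (sub (sub C x204) x194) x164) x236) x146) x524) x684)
  (sub (add (sub (sub (add (add (sub (sub C x200) x210) x168) x240) x150) x528) x448) x692)
  (sub (sub (sub (sub (sub (sub C x210) x196) x226) x154) x532) x450)
  (sub (add (sub (sub (sub (sub (sub C x208) x204) x228) x156) x534) x454) x698)
  (sub (add (sub (add (add (sub (add (add (add (add C x220) x224) x228) x240) x180) x0) x108) x540) x460) x704)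
  (sub (sub (add (add (sub (sub (add (add C x216) x224) x226) x184) x4) x112) x544) x462)
  (add (sub (add (add (sub (sub (add (add C x216) x220) x236) x188) x8) x116) x548) x708)
  (sub (sub (add (add (sub (sub (sub C x228) x220) x208) x10) x118) x550) x468)
  (sub (add (sub (add (add (sub (add (add (sub C x226) x216) x240) x210) x12) x120) x552) x472) x716)
  (add (sub (add (add (add (add (sub (sub C x240) x224) x164) x200) x20) x128) x560) x720)
  (sub (add (sub (add (add (add (add (add (add (sub C x236) x216) x228) x168) x204) x24) x132) x564) x484) x728)
  (sub (add (sub (add (add (add (add (add (add (sub C x246) x256) x268) x280) x316) x352) x460) x82) x0) x488)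
  (sub (sub (add (add (add (add (sub (sub C x244) x252) x282) x318) x354) x462) x84) x4)
  (sub (sub (add (add (sub (sub (add (add C x256) x260) x246) x270) x360) x468) x90) x10)
  (sub (add (sub (add (add (sub (add (add (add (add C x252) x260) x244) x268) x274) x364) x472) x94) x12) x500)
  (add (sub (add (add (sub (sub (add (add C x252) x256) x266) x278) x368) x476) x98) x502)
  (add (sub (add (add (sub (sub (sub C x268) x260) x302) x374) x482) x104) x508)
  (sub (add (sub (add (add (sub (add (add (sub C x266) x244) x256) x304) x376) x484) x106) x24) x512)
  (sub (sub (sub (sub (add (add (add (add C x274) x278) x282) x294) x252) x324) x108) x28)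
  (sub (add (sub (sub (sub (sub (add (add C x270) x278) x280) x256) x328) x112) x30) x518)
  (add (sub (sub (sub (sub (add (add C x270) x274) x290) x260) x332) x116) x520)
  (sub (add (sub (sub (add (add (sub (sub C x282) x274) x244) x316) x334) x118) x36) x524)
  (sub (sub (sub (add (add (add (add (sub C x280) x270) x294) x246) x318) x336) x120) x40)
  (add (sub (sub (sub (sub (sub C x294) x278) x308) x344) x128) x532)
  (sub (sub (sub (sub (add (add (sub C x290) x270) x282) x312) x348) x132) x52)
  (add (sub (sub (sub (sub (sub C x304) x308) x266) x410) x140) x544)
  (sub (add (sub (sub (sub (sub (sub C x302) x316) x268) x412) x142) x60) x548)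
  (add (sub (sub (sub (sub (sub C x312) x302) x290) x416) x146) x550)
  (sub (sub (sub (sub (sub (sub C x308) x318) x294) x420) x150) x70)
  (sub (add (sub (sub (add (add (sub (sub C x318) x304) x244) x280) x424) x154) x72) x560)
  (sub (sub (sub (add (add (sub (sub C x316) x312) x246) x282) x426) x156) x76)
  (sub (add (add (sub (add (add (add (add (add (add C x328) x332) x336) x348) x360) x396) x270) x0) x648) x82)
  (sub (add (add (add (sub (add (add (sub (add (add C x324) x332) x334) x364) x400) x274) x4) x652) x84) x572)
  (add (add (add (sub (add (add (sub (add (add C x324) x328) x344) x368) x404) x278) x8) x656) x574)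
  (sub (add (add (add (sub (sub (sub (sub C x336) x328) x352) x280) x10) x658) x90) x578)
  (sub (add (add (sub (sub (add (add (sub C x334) x324) x348) x354) x282) x12) x660) x94)
  (add (add (add (sub (sub (sub (sub C x348) x332) x380) x290) x20) x668) x586)
  (sub (add (add (sub (sub (add (add (sub C x344) x324) x336) x384) x294) x24) x672) x106)
  (sub (add (add (add (add (add (sub (add (add (sub C x354) x364) x376) x334) x244) x460) x28) x676) x108) x596)
  (sub (add (add (add (add (sub (sub (sub C x352) x360) x336) x246) x462) x30) x678) x112)
  (sub (add (add (add (add (add (add (sub (add (add C x364) x368) x354) x324) x396) x252) x468) x36) x684) x118)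
  (sub (add (add (add (add (add (add (add (add (add (add (add C x360) x368) x352) x376) x328) x400) x256) x472) x40) x688) x120) x608)
  (add (add (add (add (add (add (add (sub (add (add C x360) x364) x374) x332) x404) x260) x476) x44) x692) x610)
  (add (add (add (add (add (sub (sub (sub C x376) x368) x392) x266) x482) x50) x698) x616)
  (sub (add (add (add (add (add (sub (add (add (sub C x374) x352) x364) x394) x268) x484) x52) x700) x132) x620)
  (add (add (add (sub (sub (add (add (sub C x384) x392) x404) x344) x434) x56) x704) x622)
  (sub (add (add (sub (sub (sub (sub C x380) x396) x348) x438) x60) x708) x142)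
  (add (add (add (sub (sub (add (add (sub C x394) x380) x404) x374) x446) x68) x716) x634)
  (sub (add (add (add (sub (sub (sub (sub C x392) x400) x376) x448) x70) x718) x150) x638)
  (sub (add (add (sub (add (add (sub (add (add C x400) x404) x384) x324) x360) x450) x72) x720) x154)
  (sub (add (add (add (sub (add (add (sub (add (add C x396) x404) x394) x328) x364) x454) x76) x724) x156) x644)
  (add (add (add (sub (add (add (add (add (add (add C x396) x400) x380) x392) x332) x368) x458) x80) x728) x646)
  (add (sub (sub (add (add (sub (sub C x412) x416) x446) x482) x302) x572) x652)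
  (sub (add (sub (sub (add (add (sub (sub C x410) x424) x448) x484) x304) x574) x168) x656)
  (add (sub (sub (sub (sub (sub C x420) x410) x434) x308) x578) x658)
  (sub (sub (sub (sub (sub (sub C x416) x426) x438) x312) x582) x178)
  (sub (add (sub (sub (sub (sub (sub C x426) x412) x460) x316) x586) x180) x668)
  (sub (sub (sub (sub (sub (sub C x424) x420) x462) x318) x588) x184)
  (add (sub (sub (sub (add (add (sub C x438) x446) x458) x416) x380) x596) x676)
  (sub (sub (sub (sub (sub (sub C x434) x450) x420) x384) x600) x196)
  (add (sub (sub (add (add (add (add (sub C x448) x434) x458) x410) x482) x392) x608) x688)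
  (sub (add (sub (sub (add (add (sub (sub C x446) x454) x412) x484) x394) x610) x204) x692)
  (sub (sub (sub (sub (sub (add (add C x454) x458) x438) x468) x396) x612) x208)
  (sub (add (sub (sub (sub (sub (add (add C x450) x458) x448) x472) x400) x616) x210) x698)
  (add (sub (sub (sub (add (add (add (add C x450) x454) x434) x446) x476) x404) x620) x700)
  (sub (add (sub (add (add (sub (add (add (sub C x462) x472) x484) x424) x244) x352) x622) x216) x704)
  (sub (sub (add (add (sub (sub (sub C x460) x468) x426) x246) x354) x624) x220)
  (sub (sub (add (add (sub (sub (add (add C x472) x476) x462) x450) x252) x360) x630) x226)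
  (sub (add (sub (add (add (sub (add (add (add (add C x468) x476) x460) x484) x454) x256) x364) x634) x228) x716)
  (add (sub (add (add (sub (sub (add (add C x468) x472) x482) x458) x260) x368) x638) x718)
  (add (sub (add (add (add (add (sub (sub C x484) x476) x410) x446) x266) x374) x644) x724)
  (sub (add (sub (add (add (add (add (add (add (sub C x482) x460) x472) x412) x448) x268) x376) x646) x240) x728)
  (sub (sub (sub (add (add (add (add (add (add (sub C x492) x500) x512) x524) x560) x596) x704) x164) x0) x244)
  (add (sub (add (add (add (add (sub (sub C x488) x504) x528) x564) x600) x708) x168) x8)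
  (sub (sub (sub (add (add (sub (add (add (sub C x502) x488) x512) x518) x608) x716) x176) x12) x256)
  (add (sub (add (add (sub (sub (sub C x500) x508) x520) x610) x718) x178) x260)
  (add (sub (add (add (sub (sub (add (add C x508) x512) x492) x540) x612) x720) x180) x20)
  (add (sub (add (add (sub (sub (add (add C x504) x512) x502) x544) x616) x724) x184) x266)
  (sub (sub (sub (add (add (sub (add (add (add (add C x504) x508) x488) x500) x548) x620) x728) x188) x24) x268)
  (sub (sub (sub (sub (sub (sub (sub C x520) x524) x500) x572) x194) x30) x274)
  (add (sub (sub (sub (sub (sub C x518) x532) x502) x574) x196) x278)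
  (sub (sub (sub (sub (add (add (sub (sub C x528) x518) x488) x560) x578) x200) x36) x280)
  (add (sub (sub (add (add (sub (sub C x524) x534) x492) x564) x582) x204) x44)
  (add (sub (sub (sub (sub (sub C x534) x520) x550) x586) x208) x290)
  (add (sub (sub (sub (sub (sub C x532) x528) x552) x588) x210) x50)
  (add (sub (sub (sub (add (add (add (add C x544) x548) x552) x564) x504) x648) x216) x56)
  (add (sub (sub (sub (sub (add (add C x540) x548) x550) x508) x652) x220) x302)
  (sub (sub (sub (sub (sub (sub (add (add C x540) x544) x560) x512) x656) x224) x60) x304)
  (add (sub (sub (sub (sub (sub C x552) x544) x532) x658) x226) x308)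
  (add (sub (sub (sub (add (add (sub C x550) x540) x564) x534) x660) x228) x68)
  (sub (sub (sub (sub (add (add (sub (sub C x564) x548) x488) x524) x668) x236) x72) x316)
  (add (sub (sub (add (add (add (add (sub C x560) x540) x552) x492) x528) x672) x240) x80)
  (sub (sub (sub (sub (add (add (sub (sub C x574) x578) x608) x644) x518) x410) x84) x328)
  (add (sub (sub (add (add (sub (sub C x572) x586) x610) x646) x520) x412) x332)
  (sub (sub (sub (sub (sub (sub (sub C x582) x572) x596) x524) x416) x90) x334)
  (add (sub (sub (sub (sub (sub C x578) x588) x600) x528) x420) x98)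
  (add (sub (sub (sub (sub (sub C x588) x574) x622) x532) x424) x344)
  (add (sub (sub (sub (sub (sub C x586) x582) x624) x534) x426) x104)
  (sub (sub (sub (add (add (sub (add (add (sub C x600) x608) x620) x578) x488) x704) x434) x108) x352)
  (add (sub (add (add (sub (sub (sub C x596) x612) x582) x492) x708) x438) x116)
  (sub (sub (sub (add (add (add (add (add (add (sub C x610) x596) x620) x572) x644) x500) x716) x446) x120) x364)
  (add (sub (add (add (add (add (sub (sub C x608) x616) x574) x646) x502) x718) x448) x368)
  (add (sub (add (add (sub (sub (add (add C x616) x620) x600) x630) x504) x720) x450) x128)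
  (add (sub (add (add (sub (sub (add (add C x612) x620) x610) x634) x508) x724) x454) x374)
  (sub (sub (sub (add (add (sub (add (add (add (add C x612) x616) x596) x608) x638) x512) x728) x458) x132) x376)
  (add (sub (sub (sub (add (add (sub C x624) x634) x646) x586) x676) x460) x380)
  (add (sub (sub (sub (sub (sub C x622) x630) x588) x678) x462) x140)
  (add (sub (sub (sub (sub (add (add C x634) x638) x624) x612) x684) x468) x146)
  (add (sub (sub (sub (add (add (add (add C x630) x638) x622) x646) x616) x688) x472) x392)
  (sub (sub (sub (sub (sub (sub (add (add C x630) x634) x644) x620) x692) x476) x150) x394)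
  (sub (sub (sub (sub (add (add (sub (sub C x646) x638) x572) x608) x698) x482) x156) x400)
  (add (sub (sub (add (add (add (add (sub C x644) x622) x634) x574) x610) x700) x484) x404)
  (add (add (add (sub (add (add (add (add (add (add C x652) x656) x660) x672) x684) x720) x540) x0) x324) x164)
  (add (add (add (sub (add (add (sub (add (add C x648) x656) x658) x688) x724) x544) x4) x328) x410)
  (sub (sub (add (add (sub (add (add (sub (add (add C x648) x652) x668) x692) x728) x548) x8) x332) x168) x412)
  (add (add (add (sub (sub (sub (sub C x660) x652) x676) x550) x10) x334) x416)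
  (add (add (add (sub (sub (add (add (sub C x658) x648) x672) x678) x552) x12) x336) x176)
  (sub (sub (add (add (sub (sub (sub (sub C x672) x656) x704) x560) x20) x344) x180) x424)
  (add (add (add (sub (sub (add (add (sub C x668) x648) x660) x708) x564) x24) x348) x188)
  (add (add (add (sub (sub (add (add (sub C x678) x688) x700) x658) x622) x28) x352) x434)
  (add (add (add (sub (sub (sub (sub C x676) x684) x660) x624) x30) x354) x194)
  (add (add (add (sub (add (add (sub (add (add C x688) x692) x678) x648) x720) x630) x36) x360) x200)
  (add (add (add (sub (add (add (add (add (add (add C x684) x692) x676) x700) x652) x724) x634) x40) x364) x446)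
  (sub (sub (add (add (sub (add (add (sub (add (add C x684) x688) x698) x656) x728) x638) x44) x368) x204) x448)
  (sub (sub (add (add (sub (sub (sub (sub C x700) x692) x716) x644) x50) x374) x210) x454)
  (add (add (add (sub (sub (add (add (sub C x698) x676) x688) x718) x646) x52) x376) x458)
  (sub (sub (add (add (add (add (sub (add (add (sub C x708) x716) x728) x668) x488) x596) x56) x380) x216) x460)
  (add (add (add (add (add (sub (sub (sub C x704) x720) x672) x492) x600) x60) x384) x224)
  (sub (sub (add (add (add (add (sub (add (add (sub C x718) x704) x728) x698) x500) x608) x68) x392) x228) x472)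
  (add (add (add (add (add (sub (sub (sub C x716) x724) x700) x502) x610) x70) x394) x476)
  (add (add (add (add (add (add (add (sub (add (add C x724) x728) x708) x648) x684) x504) x612) x72) x396) x236)
  (add (add (add (add (add (add (add (sub (add (add C x720) x728) x718) x652) x688) x508) x616) x76) x400) x482)
  (sub (sub (add (add (add (add (add (add (add (add (add (add C x720) x724) x704) x716) x656) x692) x512) x620) x80) x404) x240) x484))
  (chk [x0, x4, x8, x10, x20, x28, x44, x50, x52, x56, x68, x80,
  x98, x104, x140, x146, x188, x224, x728])

noncomputable def RK : Nat := nat_lit 0x2d800e000bc0092008c0068006200500044003800340032002c001c0014000a000800040000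

noncomputable def CK : Nat := nat_lit 0x10006000c00060006000c000c000c00060006000c0018000c0006000c000c000c000c0002

noncomputable def H : Nat := nat_lit 0x79800000000000004ab00000000000004aa000006c7000004c9000000000000000000000000000006c600000000000004c80000000000000733000006f10000000000000000000004d500000000000000df000000000000028e00000000000000000000051600000384000000000000073200000000000006f00000000000000000000000000000038500000517000004d4000000000000028f00000000000000de000006cd000007450000000000000000000006f700000000000001b700000000000002fa00000000000000000000058200000318000004cf00000000000003d3000000000000043e000001e7000001150000000000000000000000000000033100000000000002c5000000000000000000000000000005ee0000065b00000000000005b3000000000000054d000000000000032a00000390000000000000000000000000000006cc00000000000007440000000000000000000000000000031900000583000006f600000000000002fb00000000000001b600000000000000000000065a000005ef000000000000032b000000000000039100000000000005b20000054c0000000000000000000004ce000000000000043f00000000000003d200000330000002c4000000000000000000000000000001e6000000000000011400000000000004b1000006d3000000000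00000000000072d00000000000000eb00000000000003660000000000000000000005230000029b000006c100000000000001c3000000000000030c000003d9000001e10000000000000000000000000000066000000000000003360000000000000000000000000000058f0000030700000000000005f400000000000005ac0000000000000445000003240000000000000000000004a500000000000000f100000000000002a0000001bd000003cd00000000000000000000000000000313000000000000043900000000000000e5000001b10000000000000000000000d90000000000000001000000000000006d00000000000000000000014500000079000000000000036100000000000002f50000000000000000000000000000021d0000015100000289000000000000008500000000000000720000000000000000000005290000036d000000000000058800000000000005e90000000000000301000006550000000000000000000000000000051c000000000000057d0000000000000000000000000000017500000229000005110000000000000157000000000000014a000002950000031e00000000000000000000038a000000000000007f000000000000022200000000000000000000017a000000a800000000000004b000000000000006d20000000000000000000000000000029a000005220000072c000000000000036700000000000000ea0000000000000000000003060000058e0000000000000444000000000000032500000000000005f5000005ad000000000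0000000000006c0000000000000030d00000000000001c20000066100000337000000000000000000000000000003d800000000000001e00000000000000000000000000000036c00000528000000000000030000000000000006540000000000000589000005e800000000000000000000000000000294000000000000031f000000000000000000000000000000a90000017b0000038b0000000000000223000000000000007e0000051d0000057c000000000000000000000510000000000000014b000000000000015600000000000000000000022800000174000004a400000000000002a100000000000000f00000031200000438000000000000000000000000000001bc00000000000003cc0000000000000360000002f4000000000000000000000288000000000000007300000000000000840000000000000000000001500000021c00000000000000e400000000000001b00000000000000000000000000000007800000144000000d8000000000000006c0000000000000000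

theorem spec : Spec 5 true idx RK 19 G := fun _ _ _ _ => by eq_refl

theorem cover : cov 6 true H RK CK 19 0 = true := by decide +kernel

end S6x3

namespace S6x3

noncomputable def ts0 : List Nat :=
  [nat_lit 249086692586126955255190212640054330785975,
   nat_lit 249086692586126955255190212640054330785792,
   nat_lit 249086692586126955255190212640054330787268,
   nat_lit 249086692586126955255190212640054330786548,
   nat_lit 249086692586126955255190212640054330816860,
   nat_lit 249086692586126955255190212640054330837092,
   nat_lit 249086692586126955255190212640054331746164,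
   nat_lit 249086692586126955255190212640054333795932,
   nat_lit 249086692586126955255190212640054368389340,
   nat_lit 249086692586126955255190212640054504274220,
   nat_lit 249086692586126955255190212640056067682028,
   nat_lit 249086692586126955255190212640064438142348,
   nat_lit 249086692586126955255190212640144225129860,
   nat_lit 249086692586126955255190212640653073042164,
   nat_lit 249086692586126955255190212645065217928836,
   nat_lit 249086692586126955255190212676077684778548,
   nat_lit 249086692586126955255190212932608982776092,
   nat_lit 249086692586126955255190214834707835162028,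
   nat_lit 249086692586126955255190230211135021745436,
   nat_lit 249086692586126955255190347619225961283804,
   nat_lit 249086692586126955255191286421480426347660,
   nat_lit 249086692586126955255198572452548063316980,
   nat_lit 249086692586126955255256541847290331718908,
   nat_lit 249086692586126955255710597641301347914156,
   nat_lit 249086692586126955259315527105343794195972,
   nat_lit 249086692586126955287702085533778766313892,
   nat_lit 249086692586126955512902803429648516409788,
   nat_lit 249086692586126957291802344348627297149380,
   nat_lit 249086692586126971402382958461498234478708,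
   nat_lit 249086692586127083077925888917586128702548,
   nat_lit 249086692586127969007178105362008363144084,
   nat_lit 249086692586134988938620289908461948593620,
   nat_lit 249086692586190689427070385770811055677340,
   nat_lit 249086692586632389802304034253392338604012,
   nat_lit 249086692590137839470481099053778289433684,
   nat_lit 249086692617949920062913606508435610578812,
   nat_lit 249086692838715068326188447560473601532780]

theorem run0 : go idx G base H RK CK 131 0 19 ts0 = true := by decide +kernel

end S6x3

namespace S6x4

noncomputable def idx : List Nat :=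
  [nat_lit 5, nat_lit 7, nat_lit 11, nat_lit 15, nat_lit 19, nat_lit 21, nat_lit 29, nat_lit 33,
  nat_lit 41, nat_lit 43, nat_lit 45, nat_lit 49, nat_lit 53, nat_lit 55, nat_lit 57, nat_lit 63,
  nat_lit 67, nat_lit 71, nat_lit 77, nat_lit 79, nat_lit 83, nat_lit 87, nat_lit 95, nat_lit 97,
  nat_lit 99, nat_lit 103, nat_lit 107, nat_lit 113, nat_lit 115, nat_lit 119, nat_lit 123, nat_lit 127,
  nat_lit 129, nat_lit 135, nat_lit 139, nat_lit 143, nat_lit 145, nat_lit 147, nat_lit 155, nat_lit 159,
  nat_lit 163, nat_lit 165, nat_lit 171, nat_lit 175, nat_lit 179, nat_lit 185, nat_lit 187, nat_lit 189,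
  nat_lit 193, nat_lit 197, nat_lit 199, nat_lit 201, nat_lit 209, nat_lit 213, nat_lit 221, nat_lit 223,
  nat_lit 227, nat_lit 231, nat_lit 235, nat_lit 237, nat_lit 245, nat_lit 249, nat_lit 257, nat_lit 259,
  nat_lit 261, nat_lit 265, nat_lit 269, nat_lit 275, nat_lit 277, nat_lit 281, nat_lit 285, nat_lit 289,
  nat_lit 291, nat_lit 297, nat_lit 301, nat_lit 305, nat_lit 307, nat_lit 309, nat_lit 317, nat_lit 321,
  nat_lit 329, nat_lit 331, nat_lit 335, nat_lit 339, nat_lit 343, nat_lit 345, nat_lit 353, nat_lit 357,
  nat_lit 365, nat_lit 367, nat_lit 369, nat_lit 373, nat_lit 377, nat_lit 379, nat_lit 381, nat_lit 387,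
  nat_lit 391, nat_lit 395, nat_lit 401, nat_lit 403, nat_lit 405, nat_lit 409, nat_lit 413, nat_lit 415,
  nat_lit 417, nat_lit 425, nat_lit 429, nat_lit 433, nat_lit 435, nat_lit 441, nat_lit 445, nat_lit 449,
  nat_lit 455, nat_lit 457, nat_lit 461, nat_lit 465, nat_lit 473, nat_lit 475, nat_lit 477, nat_lit 481,
  nat_lit 485, nat_lit 487, nat_lit 489, nat_lit 495, nat_lit 499, nat_lit 503, nat_lit 509, nat_lit 511,
  nat_lit 513, nat_lit 517, nat_lit 521, nat_lit 523, nat_lit 525, nat_lit 533, nat_lit 537, nat_lit 545,
  nat_lit 547, nat_lit 551, nat_lit 555, nat_lit 559, nat_lit 561, nat_lit 567, nat_lit 571, nat_lit 575,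
  nat_lit 577, nat_lit 579, nat_lit 587, nat_lit 591, nat_lit 595, nat_lit 597, nat_lit 603, nat_lit 607,
  nat_lit 611, nat_lit 617, nat_lit 619, nat_lit 623, nat_lit 627, nat_lit 635, nat_lit 637, nat_lit 639,
  nat_lit 643, nat_lit 647, nat_lit 653, nat_lit 655, nat_lit 659, nat_lit 663, nat_lit 667, nat_lit 669,
  nat_lit 677, nat_lit 681, nat_lit 689, nat_lit 691, nat_lit 693, nat_lit 697, nat_lit 701, nat_lit 703,
  nat_lit 705, nat_lit 711, nat_lit 715, nat_lit 719, nat_lit 725, nat_lit 727]

def TT : Type :=
  Nat → Nat → Nat → Nat → Nat → Nat → Nat → Nat → Nat → Nat → Nat → Nat → Nat → Nat → Nat → Nat →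
  Nat → Nat → Nat → Nat → Nat → Nat → Nat → Nat → Nat → Nat → Nat → Nat → Nat → Nat → Nat → Nat →
  Nat → Nat → Nat → Nat → Nat → Nat → Nat → Nat → Nat → Nat → Nat → Nat → Nat → Nat → Nat → Nat →
  Nat → Nat → Nat → Nat → Nat → Nat → Nat → Nat → Nat → Nat → Nat → Nat → Nat → Nat → Nat → Nat →
  Nat → Nat → Nat → Nat → Nat → Nat → Nat → Nat → Nat → Nat → Nat → Nat → Nat → Nat → Nat → Nat →
  Nat → Nat → Nat → Nat → Nat → Nat → Nat → Nat → Nat → Nat → Nat → Nat → Nat → Nat → Nat → Nat →
  Nat → Nat → Nat → Nat → Nat → Nat → Nat → Nat → Nat → Nat → Nat → Nat → Nat → Nat → Nat → Nat →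
  Nat → Nat → Nat → Nat → Nat → Nat → Nat → Nat → Nat → Nat → Nat → Nat → Nat → Nat → Nat → Nat →
  Nat → Nat → Nat → Nat → Nat → Nat → Nat → Nat → Nat → Nat → Nat → Nat → Nat → Nat → Nat → Nat →
  Nat → Nat → Nat → Nat → Nat → Nat → Nat → Nat → Nat → Nat → Nat → Nat → Nat → Nat → Nat → Nat →
  Nat → Nat → Nat → Nat → Nat → Nat → Nat → Nat → Nat → Nat → Nat → Nat → Nat → Nat → Nat → Nat →
  Nat → Nat → Nat → Nat → Nat → Nat → Bool

noncomputable def base : TT :=
  fun _ _ _ _ _ _ _ _ _ _ _ _ _ _ _ _ _ _ _ _ _ _ _ _ _ _ _ _ _ _ _ _ _ _ _ _ _ _ _ _
  _ _ _ _ _ _ _ _ _ _ _ _ _ _ _ _ _ _ _ _ _ _ _ _ _ _ _ _ _ _ _ _ _ _ _ _ _ _ _ _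
  _ _ _ _ _ _ _ _ _ _ _ _ _ _ _ _ _ _ _ _ _ _ _ _ _ _ _ _ _ _ _ _ _ _ _ _ _ _ _ _
  _ _ _ _ _ _ _ _ _ _ _ _ _ _ _ _ _ _ _ _ _ _ _ _ _ _ _ _ _ _ _ _ _ _ _ _ _ _ _ _
  _ _ _ _ _ _ _ _ _ _ _ _ _ _ _ _ _ _ _ _ _ _ => true

noncomputable def G (chk : List Nat → Bool) (C : Nat) (k : TT) : TT :=
  fun x5 x7 x11 x15 x19 x21 x29 x33 x41 x43 x45 x49 x53 x55 x57 x63
  x67 x71 x77 x79 x83 x87 x95 x97 x99 x103 x107 x113 x115 x119 x123 x127
  x129 x135 x139 x143 x145 x147 x155 x159 x163 x165 x171 x175 x179 x185 x187 x189
  x193 x197 x199 x201 x209 x213 x221 x223 x227 x231 x235 x237 x245 x249 x257 x259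
  x261 x265 x269 x275 x277 x281 x285 x289 x291 x297 x301 x305 x307 x309 x317 x321
  x329 x331 x335 x339 x343 x345 x353 x357 x365 x367 x369 x373 x377 x379 x381 x387
  x391 x395 x401 x403 x405 x409 x413 x415 x417 x425 x429 x433 x435 x441 x445 x449
  x455 x457 x461 x465 x473 x475 x477 x481 x485 x487 x489 x495 x499 x503 x509 x511
  x513 x517 x521 x523 x525 x533 x537 x545 x547 x551 x555 x559 x561 x567 x571 x575
  x577 x579 x587 x591 x595 x597 x603 x607 x611 x617 x619 x623 x627 x635 x637 x639
  x643 x647 x653 x655 x659 x663 x667 x669 x677 x681 x689 x691 x693 x697 x701 x703
  x705 x711 x715 x719 x725 x727 =>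
  Bool.rec false (k
  (add (add (add (add (add (add (add (sub (sub C x7) x11) x41) x77) x113) x221) x329) x653) x489)
  (sub (add (add (add (add (add (add (sub (sub C x5) x19) x43) x79) x115) x223) x331) x655) x249)
  (add (add (add (add (add (sub (sub (sub C x15) x5) x29) x119) x227) x335) x659) x495)
  (sub (add (add (add (add (add (sub (sub (sub C x11) x21) x33) x123) x231) x339) x663) x259) x503)
  (sub (add (add (add (add (sub (sub (sub C x21) x7) x55) x127) x235) x343) x667) x261)
  (sub (add (add (add (add (add (sub (sub (sub C x19) x15) x57) x129) x237) x345) x669) x265) x509)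
  (add (add (add (sub (sub (add (add (sub C x33) x41) x53) x11) x83) x353) x677) x513)
  (sub (add (add (add (sub (sub (sub (sub C x29) x45) x15) x87) x357) x681) x277) x521)
  (add (add (add (sub (add (add (add (add (sub C x43) x29) x53) x5) x77) x95) x365) x689) x525)
  (sub (add (add (sub (add (add (sub (sub C x41) x49) x7) x79) x97) x367) x691) x285)
  (sub (add (add (add (sub (sub (sub (add (add C x49) x53) x33) x63) x99) x369) x693) x289) x533)
  (sub (add (add (sub (sub (sub (add (add C x45) x53) x43) x67) x103) x373) x697) x291)
  (add (add (add (sub (sub (add (add (add (add C x45) x49) x29) x41) x71) x107) x377) x701) x537)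
  (sub (add (add (sub (sub (add (add (sub C x57) x67) x79) x19) x163) x379) x703) x297)
  (sub (add (add (add (sub (sub (sub (sub C x55) x63) x21) x165) x381) x705) x301) x545)
  (sub (add (add (add (sub (sub (sub (add (add C x67) x71) x57) x45) x171) x387) x711) x307) x551)
  (sub (add (add (sub (sub (add (add (add (add C x63) x71) x55) x79) x49) x175) x391) x715) x309)
  (add (add (add (sub (sub (sub (add (add C x63) x67) x77) x53) x179) x395) x719) x555)
  (add (add (add (sub (add (add (sub (sub C x79) x71) x5) x41) x185) x401) x725) x561)
  (sub (add (add (sub (add (add (add (add (sub C x77) x55) x67) x7) x43) x187) x403) x727) x321)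
  (add (sub (sub (add (add (add (add (sub C x87) x95) x107) x119) x155) x29) x245) x567)
  (sub (add (sub (sub (add (add (sub (sub C x83) x99) x123) x159) x33) x249) x331) x575)
  (add (sub (sub (sub (add (add (sub C x97) x83) x107) x113) x41) x257) x579)
  (sub (sub (sub (sub (sub (sub C x95) x103) x115) x43) x259) x339)
  (sub (add (sub (sub (sub (sub (add (add C x103) x107) x87) x135) x45) x261) x343) x587)
  (sub (sub (sub (sub (sub (add (add C x99) x107) x97) x139) x49) x265) x345)
  (add (sub (sub (sub (add (add (add (add C x99) x103) x83) x95) x143) x53) x269) x591)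
  (add (sub (add (add (sub (sub (sub C x115) x119) x95) x5) x221) x275) x597)
  (sub (sub (add (add (sub (sub (sub C x113) x127) x97) x7) x223) x277) x357)
  (add (sub (add (add (add (add (sub (sub C x123) x113) x83) x155) x11) x227) x281) x603)
  (sub (add (sub (add (add (add (add (sub (sub C x119) x129) x87) x159) x15) x231) x285) x367) x611)
  (sub (sub (add (add (sub (sub (sub C x129) x115) x145) x19) x235) x289) x369)
  (sub (add (sub (add (add (sub (sub (sub C x127) x123) x147) x21) x237) x291) x373) x617)
  (sub (add (sub (sub (sub (add (add (add (add C x139) x143) x147) x159) x99) x189) x297) x379) x623)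
  (sub (sub (sub (sub (sub (add (add C x135) x143) x145) x103) x193) x301) x381)
  (add (sub (sub (sub (sub (add (add C x135) x139) x155) x107) x197) x305) x627)
  (sub (sub (sub (sub (sub (sub C x147) x139) x127) x199) x307) x387)
  (sub (add (sub (sub (sub (add (add (sub C x145) x135) x159) x129) x201) x309) x391) x635)
  (add (sub (sub (add (add (sub (sub C x159) x143) x83) x119) x209) x317) x639)
  (sub (add (sub (sub (add (add (add (add (sub C x155) x135) x147) x87) x123) x213) x321) x403) x647)
  (sub (sub (sub (add (add (add (add (sub C x165) x175) x187) x199) x235) x55) x487) x405)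
  (sub (add (sub (sub (add (add (sub (sub C x163) x171) x201) x237) x57) x489) x409) x653)
  (sub (add (sub (sub (sub (sub (add (add C x175) x179) x165) x189) x63) x495) x415) x659)
  (sub (sub (sub (sub (add (add (add (add C x171) x179) x163) x187) x193) x67) x499) x417)
  (add (sub (sub (sub (sub (add (add C x171) x175) x185) x197) x71) x503) x663)
  (add (sub (sub (sub (sub (sub C x187) x179) x221) x77) x509) x669)
  (sub (sub (sub (sub (add (add (sub C x185) x163) x175) x223) x79) x511) x429)
  (sub (add (sub (sub (sub (add (add (add (add C x193) x197) x201) x213) x171) x135) x513) x433) x677)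
  (sub (sub (sub (sub (sub (add (add C x189) x197) x199) x175) x139) x517) x435)
  (add (sub (sub (sub (sub (add (add C x189) x193) x209) x179) x143) x521) x681)
  (sub (sub (sub (add (add (sub (sub C x201) x193) x163) x235) x145) x523) x441)
  (sub (add (sub (sub (add (add (add (add (sub C x199) x189) x213) x165) x237) x147) x525) x445) x689)
  (add (sub (sub (sub (sub (sub C x213) x197) x227) x155) x533) x693)
  (sub (add (sub (sub (sub (add (add (sub C x209) x189) x201) x231) x159) x537) x457) x701)
  (add (sub (add (add (sub (sub (sub C x223) x227) x185) x5) x113) x545) x705)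
  (sub (sub (add (add (sub (sub (sub C x221) x235) x187) x7) x115) x547) x465)
  (add (sub (add (add (sub (sub (sub C x231) x221) x209) x11) x119) x551) x711)
  (sub (add (sub (add (add (sub (sub (sub C x227) x237) x213) x15) x123) x555) x475) x719)
  (sub (sub (add (add (add (add (sub (sub C x237) x223) x163) x199) x19) x127) x559) x477)
  (sub (add (sub (add (add (add (add (sub (sub C x235) x231) x165) x201) x21) x129) x561) x481) x725)
  (add (sub (add (add (add (add (add (add (sub C x249) x257) x269) x281) x317) x353) x461) x83) x487)
  (sub (sub (add (add (add (add (sub (sub C x245) x261) x285) x321) x357) x465) x87) x7)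
  (add (sub (add (add (sub (add (add (sub C x259) x245) x269) x275) x365) x473) x95) x499)
  (sub (add (sub (add (add (sub (sub (sub C x257) x265) x277) x367) x475) x97) x15) x503)
  (sub (sub (add (add (sub (sub (add (add C x265) x269) x249) x297) x369) x477) x99) x19)
  (sub (add (sub (add (add (sub (sub (add (add C x261) x269) x259) x301) x373) x481) x103) x21) x509)
  (add (sub (add (add (sub (add (add (add (add C x261) x265) x245) x257) x305) x377) x485) x107) x511)
  (add (sub (sub (sub (sub (sub C x277) x281) x257) x329) x113) x517)
  (sub (add (sub (sub (sub (sub (sub C x275) x289) x259) x331) x115) x33) x521)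
  (add (sub (sub (add (add (sub (sub C x285) x275) x245) x317) x335) x119) x523)
  (sub (sub (sub (add (add (sub (sub C x281) x291) x249) x321) x339) x123) x43)
  (sub (add (sub (sub (sub (sub (sub C x291) x277) x307) x343) x127) x45) x533)
  (sub (sub (sub (sub (sub (sub C x289) x285) x309) x345) x129) x49)
  (sub (sub (sub (sub (add (add (add (add C x301) x305) x309) x321) x261) x405) x135) x55)
  (sub (add (sub (sub (sub (sub (add (add C x297) x305) x307) x265) x409) x139) x57) x545)
  (add (sub (sub (sub (sub (add (add C x297) x301) x317) x269) x413) x143) x547)
  (sub (add (sub (sub (sub (sub (sub C x309) x301) x289) x415) x145) x63) x551)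
  (sub (sub (sub (sub (add (add (sub C x307) x297) x321) x291) x417) x147) x67)
  (add (sub (sub (add (add (sub (sub C x321) x305) x245) x281) x425) x155) x559)
  (sub (sub (sub (add (add (add (add (sub C x317) x297) x309) x249) x285) x429) x159) x79)
  (add (add (add (sub (add (add (sub (sub C x331) x335) x365) x401) x275) x5) x653) x571)
  (sub (add (add (add (sub (add (add (sub (sub C x329) x343) x367) x403) x277) x7) x655) x87) x575)
  (add (add (add (sub (sub (sub (sub C x339) x329) x353) x281) x11) x659) x577)
  (sub (add (add (sub (sub (sub (sub C x335) x345) x357) x285) x15) x663) x97)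
  (sub (add (add (add (sub (sub (sub (sub C x345) x331) x379) x289) x19) x667) x99) x587)
  (sub (add (add (sub (sub (sub (sub C x343) x339) x381) x291) x21) x669) x103)
  (add (add (add (add (add (sub (add (add (sub C x357) x365) x377) x335) x245) x461) x29) x677) x595)
  (sub (add (add (add (add (sub (sub (sub C x353) x369) x339) x249) x465) x33) x681) x115)
  (add (add (add (add (add (add (add (add (add (sub C x367) x353) x377) x329) x401) x257) x473) x41) x689) x607)
  (sub (add (add (add (add (add (add (add (sub (sub C x365) x373) x331) x403) x259) x475) x43) x691) x123) x611)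
  (sub (add (add (add (add (sub (sub (add (add C x373) x377) x357) x387) x261) x477) x45) x693) x127)
  (sub (add (add (add (add (add (sub (sub (add (add C x369) x377) x367) x391) x265) x481) x49) x697) x129) x617)
  (add (add (add (add (add (sub (add (add (add (add C x369) x373) x353) x365) x395) x269) x485) x53) x701) x619)
  (sub (add (add (add (sub (sub (add (add (sub C x381) x391) x403) x343) x433) x55) x703) x135) x623)
  (sub (add (add (sub (sub (sub (sub C x379) x387) x345) x435) x57) x705) x139)
  (sub (add (add (sub (sub (sub (add (add C x391) x395) x381) x369) x441) x63) x711) x145)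
  (sub (add (add (add (sub (sub (add (add (add (add C x387) x395) x379) x403) x373) x445) x67) x715) x147) x635)
  (add (add (add (sub (sub (sub (add (add C x387) x391) x401) x377) x449) x71) x719) x637)
  (add (add (add (sub (add (add (sub (sub C x403) x395) x329) x365) x455) x77) x725) x643)
  (sub (add (add (add (sub (add (add (add (add (sub C x401) x379) x391) x331) x367) x457) x79) x727) x159) x647)
  (sub (sub (sub (add (add (add (add (add (add C x409) x413) x417) x429) x441) x477) x297) x567) x163)
  (sub (add (sub (sub (add (add (sub (add (add C x405) x413) x415) x445) x481) x301) x571) x165) x653)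
  (add (sub (sub (add (add (sub (add (add C x405) x409) x425) x449) x485) x305) x575) x655)
  (sub (add (sub (sub (sub (sub (sub C x417) x409) x433) x307) x577) x171) x659)
  (sub (sub (sub (sub (add (add (sub C x415) x405) x429) x435) x309) x579) x175)
  (add (sub (sub (sub (sub (sub C x429) x413) x461) x317) x587) x667)
  (sub (sub (sub (sub (add (add (sub C x425) x405) x417) x465) x321) x591) x187)
  (sub (add (sub (sub (sub (add (add (sub C x435) x445) x457) x415) x379) x595) x189) x677)
  (sub (sub (sub (sub (sub (sub C x433) x441) x417) x381) x597) x193)
  (sub (sub (sub (add (add (sub (add (add C x445) x449) x435) x405) x477) x387) x603) x199)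
  (sub (add (sub (sub (add (add (add (add (add (add C x441) x449) x433) x457) x409) x481) x391) x607) x201) x689)
  (add (sub (sub (add (add (sub (add (add C x441) x445) x455) x413) x485) x395) x611) x691)
  (add (sub (sub (sub (sub (sub C x457) x449) x473) x401) x617) x697)
  (sub (add (sub (sub (sub (add (add (sub C x455) x433) x445) x475) x403) x619) x213) x701)
  (add (sub (add (add (sub (add (add (sub C x465) x473) x485) x425) x245) x353) x623) x703)
  (sub (sub (add (add (sub (sub (sub C x461) x477) x429) x249) x357) x627) x223)
  (add (sub (add (add (sub (add (add (sub C x475) x461) x485) x455) x257) x365) x635) x715)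
  (sub (add (sub (add (add (sub (sub (sub C x473) x481) x457) x259) x367) x637) x231) x719)
  (sub (sub (add (add (add (add (sub (add (add C x481) x485) x465) x405) x441) x261) x369) x639) x235)
  (sub (add (sub (add (add (add (add (sub (add (add C x477) x485) x475) x409) x445) x265) x373) x643) x237) x725)
  (add (sub (add (add (add (add (add (add (add (add C x477) x481) x461) x473) x413) x449) x269) x377) x647) x727)
  (add (sub (add (add (add (add (add (add (sub C x489) x499) x511) x523) x559) x595) x703) x163) x245)
  (add (sub (add (add (add (add (sub (sub C x487) x495) x525) x561) x597) x705) x165) x5)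
  (add (sub (add (add (sub (sub (add (add C x499) x503) x489) x513) x603) x711) x171) x11)
  (add (sub (add (add (sub (add (add (add (add C x495) x503) x487) x511) x517) x607) x715) x175) x257)
  (sub (sub (sub (add (add (sub (sub (add (add C x495) x499) x509) x521) x611) x719) x179) x15) x259)
  (sub (sub (sub (add (add (sub (sub (sub C x511) x503) x545) x617) x725) x185) x21) x265)
  (add (sub (add (add (sub (add (add (sub C x509) x487) x499) x547) x619) x727) x187) x269)
  (add (sub (sub (sub (add (add (add (add C x517) x521) x525) x537) x495) x567) x189) x29)
  (add (sub (sub (sub (sub (add (add C x513) x521) x523) x499) x571) x193) x275)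
  (sub (sub (sub (sub (sub (sub (add (add C x513) x517) x533) x503) x575) x197) x33) x277)
  (add (sub (sub (add (add (sub (sub C x525) x517) x487) x559) x577) x199) x281)
  (add (sub (sub (add (add (add (add (sub C x523) x513) x537) x489) x561) x579) x201) x41)
  (sub (sub (sub (sub (sub (sub (sub C x537) x521) x551) x587) x209) x45) x289)
  (add (sub (sub (sub (add (add (sub C x533) x513) x525) x555) x591) x213) x53)
  (sub (sub (sub (sub (sub (sub (sub C x547) x551) x509) x653) x221) x57) x301)
  (add (sub (sub (sub (sub (sub C x545) x559) x511) x655) x223) x305)
  (sub (sub (sub (sub (sub (sub (sub C x555) x545) x533) x659) x227) x63) x307)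
  (add (sub (sub (sub (sub (sub C x551) x561) x537) x663) x231) x71)
  (add (sub (sub (add (add (sub (sub C x561) x547) x487) x523) x667) x235) x317)
  (add (sub (sub (add (add (sub (sub C x559) x555) x489) x525) x669) x237) x77)
  (add (sub (sub (add (add (add (add (add (add C x571) x575) x579) x591) x603) x639) x513) x405) x83)
  (add (sub (sub (add (add (sub (add (add C x567) x575) x577) x607) x643) x517) x409) x329)
  (sub (sub (sub (sub (add (add (sub (add (add C x567) x571) x587) x611) x647) x521) x413) x87) x331)
  (add (sub (sub (sub (sub (sub C x579) x571) x595) x523) x415) x335)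
  (add (sub (sub (sub (add (add (sub C x577) x567) x591) x597) x525) x417) x95)
  (sub (sub (sub (sub (sub (sub (sub C x591) x575) x623) x533) x425) x99) x343)
  (add (sub (sub (sub (add (add (sub C x587) x567) x579) x627) x537) x429) x107)
  (add (sub (add (add (sub (add (add (sub C x597) x607) x619) x577) x487) x703) x433) x353)
  (add (sub (add (add (sub (sub (sub C x595) x603) x579) x489) x705) x435) x113)
  (add (sub (add (add (add (add (sub (add (add C x607) x611) x597) x567) x639) x495) x711) x441) x119)
  (add (sub (add (add (add (add (add (add (add (add C x603) x611) x595) x619) x571) x643) x499) x715) x445) x365)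
  (sub (sub (sub (add (add (add (add (sub (add (add C x603) x607) x617) x575) x647) x503) x719) x449) x123) x367)
  (sub (sub (sub (add (add (sub (sub (sub C x619) x611) x635) x509) x725) x455) x129) x373)
  (add (sub (add (add (sub (add (add (sub C x617) x595) x607) x637) x511) x727) x457) x377)
  (sub (sub (sub (sub (sub (add (add (sub C x627) x635) x647) x587) x677) x461) x135) x379)
  (add (sub (sub (sub (sub (sub C x623) x639) x591) x681) x465) x143)
  (sub (sub (sub (sub (sub (add (add (sub C x637) x623) x647) x617) x689) x473) x147) x391)
  (add (sub (sub (sub (sub (sub C x635) x643) x619) x691) x475) x395)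
  (add (sub (sub (add (add (sub (add (add C x643) x647) x627) x567) x603) x693) x477) x155)
  (add (sub (sub (add (add (sub (add (add C x639) x647) x637) x571) x607) x697) x481) x401)
  (sub (sub (sub (sub (add (add (add (add (add (add C x639) x643) x623) x635) x575) x611) x701) x485) x159) x403)
  (sub (sub (add (add (sub (add (add (sub (sub C x655) x659) x689) x725) x545) x5) x329) x165) x409)
  (add (add (add (sub (add (add (sub (sub C x653) x667) x691) x727) x547) x7) x331) x413)
  (sub (sub (add (add (sub (sub (sub (sub C x663) x653) x677) x551) x11) x335) x171) x415)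
  (add (add (add (sub (sub (sub (sub C x659) x669) x681) x555) x15) x339) x179)
  (add (add (add (sub (sub (sub (sub C x669) x655) x703) x559) x19) x343) x425)
  (add (add (add (sub (sub (sub (sub C x667) x663) x705) x561) x21) x345) x185)
  (sub (sub (add (add (sub (sub (add (add (sub C x681) x689) x701) x659) x623) x29) x353) x189) x433)
  (add (add (add (sub (sub (sub (sub C x677) x693) x663) x627) x33) x357) x197)
  (sub (sub (add (add (sub (add (add (add (add (sub C x691) x677) x701) x653) x725) x635) x41) x365) x201) x445)
  (add (add (add (sub (add (add (sub (sub C x689) x697) x655) x727) x637) x43) x367) x449)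
  (add (add (add (sub (sub (sub (add (add C x697) x701) x681) x711) x639) x45) x369) x209)
  (add (add (add (sub (sub (sub (add (add C x693) x701) x691) x715) x643) x49) x373) x455)
  (sub (sub (add (add (sub (sub (add (add (add (add C x693) x697) x677) x689) x719) x647) x53) x377) x213) x457)
  (add (add (add (add (add (sub (add (add (sub C x705) x715) x727) x667) x487) x595) x55) x379) x461)
  (add (add (add (add (add (sub (sub (sub C x703) x711) x669) x489) x597) x57) x381) x221)
  (add (add (add (add (add (sub (sub (add (add C x715) x719) x705) x693) x495) x603) x63) x387) x227)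
  (add (add (add (add (add (sub (add (add (add (add C x711) x719) x703) x727) x697) x499) x607) x67) x391) x473)
  (sub (sub (add (add (add (add (sub (sub (add (add C x711) x715) x725) x701) x503) x611) x71) x395) x231) x475)
  (sub (sub (add (add (add (add (add (add (sub (sub C x727) x719) x653) x689) x509) x617) x77) x401) x237) x481)
  (add (add (add (add (add (add (add (add (add (sub C x725) x703) x715) x655) x691) x511) x619) x79) x403) x485))
  (chk [x5, x11, x29, x41, x43, x53, x71, x95, x97, x107, x113, x119,
  x143, x155, x185, x365, x377, x395, x455, x485])

noncomputable def RK : Nat := nat_lit 0x1e501c7018b0179016d00b9009b008f00770071006b0061005f00470035002b0029001d000b0005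

noncomputable def CK : Nat := nat_lit 0x60002000c000600060006000c000c0006000c00060006000c000c000c000c000c0006000c000c

noncomputable def H : Nat := nat_lit 0x80a0000081c00000000000000000000082800000000000006c600000000000002220000000000000000000003d2000002400000082e0000000000000732000000000000028e0000075c000006f0000000000000000000000000000005b2000000000000025e0000000000000000000000000000051600000594000000000000054000000000000003fc00000000000002b80000024c000000000000000000000822000000000000074400000000000002a00000079e0000076e000000000000000000000000000005ee00000000000002ca0000000000000756000007680000000000000000000006f6000000000000065a000000000000014a0000000000000000000002fa000001f2000000000000053a00000000000005a60000000000000000000000000000043e000003900000025200000000000001e000000000000000060000000000000000000005820000052800000000000005f40000000000000552000000000000061e000005a0000000000000000000000000000005b8000000000000054c000000000000000000000000000004aa000004740000040200000000000003300000000000000072000002b2000002c4000000000000000000000258000000000000018000000000000000de0000000000000000000000a80000003c0000080400000000000006d200000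000000002340000073e000007500000000000000000000000000000058800000000000002ac000000000000073800000798000000000000000000000762000000000000066600000000000001b6000000000000000000000366000001d4000000000000051c00000000000006180000000000000000000000000000046800000324000002be00000000000001740000000000000030000006cc0000074a00000000000000000000072c000000000000067200000000000001c800000000000000000000031800000168000006c0000000000000066c000000000000015c0000066000000654000000000000000000000000000004b0000000000000018600000000000000000000000000000462000004bc00000000000004440000000000000336000000000000017a000001e6000000000000000000000000000003d8000000000000052e00000000000000000000000000000312000004560000059a00000000000004c2000000000000009000000000000000000000036c000004500000000000000300000000000000047a000000000000032a00000396000000000000000000000246000000000000016e00000000000000f0000001da000001ec000000000000000000000000000000a200000000000000420000000000000000000000000000022e000003de000000000000029a00000000000005be0000000000000522000005340000000000000000000000000000029400000000000005fa000000000000000000000000000001560000030600000546000000000000044a00000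000000000120000058e000005e80000000000000000000005ac00000000000004b6000000000000007e0000000000000000000000ea0000009c0000000000000228000000000000057c000000000000000000000000000001c20000037200000510000000000000045c00000000000000240000000000000000000001bc0000030c000000000000015000000000000004a4000000000000046e000004380000000000000000000003cc000000000000031e000000000000008400000360000002f4000000000000000000000000000000e400000000000000ae000000000000023a000002a60000000000000000000002880000000000000162000000000000001e00000000000000000000008a000000f60000021c00000000000001ce0000000000000018000001b0000001440000000000000000000000000000007800000000000000d80000000000000000000000000000002a00000096000000000000000c000000000000006c00000000000000360000000000000000000000000000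

theorem spec : Spec 5 true idx RK 20 G := fun _ _ _ _ => by eq_refl

theorem cover : cov 6 true H RK CK 20 1 = true := by decide +kernel

end S6x4

namespace S6x4

noncomputable def ts0 : List Nat :=
  [nat_lit 247725563118443201401336714210327257940150,
   nat_lit 247725563118443201401336714210327257939968,
   nat_lit 247725563118443201401336714210327257941420,
   nat_lit 247725563118443201401336714210327257940688,
   nat_lit 247725563118443201401336714210327257969788,
   nat_lit 247725563118443201401336714210327257986048,
   nat_lit 247725563118443201401336714210327258816436,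
   nat_lit 247725563118443201401336714210327260416120,
   nat_lit 247725563118443201401336714210327289291996,
   nat_lit 247725563118443201401336714210327384283984,
   nat_lit 247725563118443201401336714210328523245180,
   nat_lit 247725563118443201401336714210333581129104,
   nat_lit 247725563118443201401336714210382376781796,
   nat_lit 247725563118443201401336714210641486484520,
   nat_lit 247725563118443201401336714212848575242692,
   nat_lit 247725563118443201401336714225917237924608,
   nat_lit 247725563118443201401336714329371620054172,
   nat_lit 247725563118443201401336714984541918490200,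
   nat_lit 247725563118443201401336719949985964803996,
   nat_lit 247725563118443201401336752742441500440768,
   nat_lit 247725563118443201401336994907054899512268,
   nat_lit 247725563118443201401338637058530326616088,
   nat_lit 247725563118443201401350578634348493865468,
   nat_lit 247725563118443201401432935308619193649864,
   nat_lit 247725563118443201402026425657696755610500,
   nat_lit 247725563118443201406164498468091744624248,
   nat_lit 247725563118443201435829079566953431056812,
   nat_lit 247725563118443201644154225669504533960976,
   nat_lit 247725563118443203133183832923127137909300,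
   nat_lit 247725563118443213640452491096283131556768,
   nat_lit 247725563118443288624276414535828991564676,
   nat_lit 247725563118443819472052163222262007790816,
   nat_lit 247725563118447604896296800282084774946972,
   nat_lit 247725563118474464373105295190044703300024,
   nat_lit 247725563118665939250651821113710222435620,
   nat_lit 247725563120026716604682054500474853198480,
   nat_lit 247725563129727005800767725380425110216492]

theorem run0 : go idx G base H RK CK 131 0 20 ts0 = true := by decide +kernel

end S6x4


end Vale.Agent.P348.MomK
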