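import Vale.Agent.P348.MomK

/-! Generated kernel computation of sector moments. -/

open Nat (add sub)

set_option maxRecDepth 1000000
set_option maxHeartbeats 0
set_option linter.unusedVariables false

namespace Vale.Agent.P348.MomK

namespace S7x0

noncomputable def idx : List Nat :=
  [nat_lit 5, nat_lit 7, nat_lit 11, nat_lit 15, nat_lit 19, nat_lit 21, nat_lit 29, nat_lit 33,
  nat_lit 41, nat_lit 43, nat_lit 45, nat_lit 49, nat_lit 53, nat_lit 55, nat_lit 57, nat_lit 63,
  nat_lit 67, nat_lit 71, nat_lit 77, nat_lit 79, nat_lit 83, nat_lit 87, nat_lit 95, nat_lit 97,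
  nat_lit 99, nat_lit 103, nat_lit 107, nat_lit 113, nat_lit 115, nat_lit 119, nat_lit 123, nat_lit 127,
  nat_lit 129, nat_lit 135, nat_lit 139, nat_lit 143, nat_lit 145, nat_lit 147, nat_lit 155, nat_lit 159,
  nat_lit 163, nat_lit 165, nat_lit 171, nat_lit 175, nat_lit 179, nat_lit 185, nat_lit 187, nat_lit 189,
  nat_lit 193, nat_lit 197, nat_lit 199, nat_lit 201, nat_lit 209, nat_lit 213, nat_lit 221, nat_lit 223,
  nat_lit 227, nat_lit 231, nat_lit 235, nat_lit 237, nat_lit 245, nat_lit 249, nat_lit 257, nat_lit 259,
  nat_lit 261, nat_lit 265, nat_lit 269, nat_lit 275, nat_lit 277, nat_lit 281, nat_lit 285, nat_lit 289,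
  nat_lit 291, nat_lit 297, nat_lit 301, nat_lit 305, nat_lit 307, nat_lit 309, nat_lit 317, nat_lit 321,
  nat_lit 329, nat_lit 331, nat_lit 335, nat_lit 339, nat_lit 343, nat_lit 345, nat_lit 353, nat_lit 357,
  nat_lit 365, nat_lit 367, nat_lit 369, nat_lit 373, nat_lit 377, nat_lit 379, nat_lit 381, nat_lit 387,
  nat_lit 391, nat_lit 395, nat_lit 401, nat_lit 403, nat_lit 405, nat_lit 409, nat_lit 413, nat_lit 415,
  nat_lit 417, nat_lit 425, nat_lit 429, nat_lit 433, nat_lit 435, nat_lit 441, nat_lit 445, nat_lit 449,
  nat_lit 455, nat_lit 457, nat_lit 461, nat_lit 465, nat_lit 473, nat_lit 475, nat_lit 477, nat_lit 481,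
  nat_lit 485, nat_lit 487, nat_lit 489, nat_lit 495, nat_lit 499, nat_lit 503, nat_lit 509, nat_lit 511,
  nat_lit 513, nat_lit 517, nat_lit 521, nat_lit 523, nat_lit 525, nat_lit 533, nat_lit 537, nat_lit 545,
  nat_lit 547, nat_lit 551, nat_lit 555, nat_lit 559, nat_lit 561, nat_lit 567, nat_lit 571, nat_lit 575,
  nat_lit 577, nat_lit 579, nat_lit 587, nat_lit 591, nat_lit 595, nat_lit 597, nat_lit 603, nat_lit 607,
  nat_lit 611, nat_lit 617, nat_lit 619, nat_lit 623, nat_lit 627, nat_lit 635, nat_lit 637, nat_lit 639,
  nat_lit 643, nat_lit 647, nat_lit 653, nat_lit 655, nat_lit 659, nat_lit 663, nat_lit 667, nat_lit 669,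
  nat_lit 677, nat_lit 681, nat_lit 689, nat_lit 691, nat_lit 693, nat_lit 697, nat_lit 701, nat_lit 703,
  nat_lit 705, nat_lit 711, nat_lit 715, nat_lit 719, nat_lit 725, nat_lit 727, nat_lit 731, nat_lit 735,
  nat_lit 743, nat_lit 745, nat_lit 747, nat_lit 751, nat_lit 755, nat_lit 761, nat_lit 763, nat_lit 767,
  nat_lit 771, nat_lit 775, nat_lit 777, nat_lit 783, nat_lit 787, nat_lit 791, nat_lit 793, nat_lit 795,
  nat_lit 803, nat_lit 807, nat_lit 815, nat_lit 817, nat_lit 821, nat_lit 825, nat_lit 829, nat_lit 831,
  nat_lit 839, nat_lit 843, nat_lit 851, nat_lit 853, nat_lit 855, nat_lit 859, nat_lit 863, nat_lit 865,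
  nat_lit 867, nat_lit 873, nat_lit 877, nat_lit 881, nat_lit 887, nat_lit 889, nat_lit 891, nat_lit 895,
  nat_lit 899, nat_lit 901, nat_lit 903, nat_lit 911, nat_lit 915, nat_lit 919, nat_lit 921, nat_lit 927,
  nat_lit 931, nat_lit 935, nat_lit 941, nat_lit 943, nat_lit 947, nat_lit 951, nat_lit 959, nat_lit 961,
  nat_lit 963, nat_lit 967, nat_lit 971, nat_lit 977, nat_lit 979, nat_lit 983, nat_lit 987, nat_lit 991,
  nat_lit 993, nat_lit 1001, nat_lit 1005, nat_lit 1013, nat_lit 1015, nat_lit 1017, nat_lit 1021, nat_lit 1025,
  nat_lit 1027, nat_lit 1029, nat_lit 1035, nat_lit 1039, nat_lit 1043, nat_lit 1049, nat_lit 1051, nat_lit 1055,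
  nat_lit 1059, nat_lit 1067, nat_lit 1069, nat_lit 1071, nat_lit 1075, nat_lit 1079, nat_lit 1085, nat_lit 1087,
  nat_lit 1091, nat_lit 1095, nat_lit 1099, nat_lit 1101, nat_lit 1107, nat_lit 1111, nat_lit 1115, nat_lit 1117,
  nat_lit 1119, nat_lit 1127, nat_lit 1131, nat_lit 1135, nat_lit 1137, nat_lit 1143, nat_lit 1147, nat_lit 1151,
  nat_lit 1157, nat_lit 1159, nat_lit 1161, nat_lit 1165, nat_lit 1169, nat_lit 1171, nat_lit 1173, nat_lit 1181,
  nat_lit 1185, nat_lit 1193, nat_lit 1195, nat_lit 1199, nat_lit 1203, nat_lit 1207, nat_lit 1209, nat_lit 1215,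
  nat_lit 1219, nat_lit 1223, nat_lit 1225, nat_lit 1227, nat_lit 1235, nat_lit 1239, nat_lit 1243, nat_lit 1245,
  nat_lit 1251, nat_lit 1255, nat_lit 1259, nat_lit 1265, nat_lit 1267, nat_lit 1271, nat_lit 1275, nat_lit 1283,
  nat_lit 1285, nat_lit 1287, nat_lit 1291, nat_lit 1295, nat_lit 1297, nat_lit 1299, nat_lit 1305, nat_lit 1309,
  nat_lit 1313, nat_lit 1319, nat_lit 1321, nat_lit 1323, nat_lit 1327, nat_lit 1331, nat_lit 1333, nat_lit 1335,
  nat_lit 1343, nat_lit 1347, nat_lit 1355, nat_lit 1357, nat_lit 1361, nat_lit 1365, nat_lit 1369, nat_lit 1371,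
  nat_lit 1379, nat_lit 1383, nat_lit 1391, nat_lit 1393, nat_lit 1395, nat_lit 1399, nat_lit 1403, nat_lit 1409,
  nat_lit 1411, nat_lit 1415, nat_lit 1419, nat_lit 1423, nat_lit 1425, nat_lit 1431, nat_lit 1435, nat_lit 1439,
  nat_lit 1441, nat_lit 1443, nat_lit 1451, nat_lit 1455, nat_lit 1459, nat_lit 1461, nat_lit 1467, nat_lit 1471,
  nat_lit 1475, nat_lit 1481, nat_lit 1483, nat_lit 1485, nat_lit 1489, nat_lit 1493, nat_lit 1495, nat_lit 1497,
  nat_lit 1505, nat_lit 1509, nat_lit 1517, nat_lit 1519, nat_lit 1523, nat_lit 1527, nat_lit 1531, nat_lit 1533,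
  nat_lit 1539, nat_lit 1543, nat_lit 1547, nat_lit 1549, nat_lit 1551, nat_lit 1559, nat_lit 1563, nat_lit 1567,
  nat_lit 1569, nat_lit 1575, nat_lit 1579, nat_lit 1583, nat_lit 1589, nat_lit 1591, nat_lit 1595, nat_lit 1599,
  nat_lit 1607, nat_lit 1609, nat_lit 1611, nat_lit 1615, nat_lit 1619, nat_lit 1625, nat_lit 1627, nat_lit 1631,
  nat_lit 1635, nat_lit 1639, nat_lit 1641, nat_lit 1649, nat_lit 1653, nat_lit 1661, nat_lit 1663, nat_lit 1665,
  nat_lit 1669, nat_lit 1673, nat_lit 1675, nat_lit 1677, nat_lit 1683, nat_lit 1687, nat_lit 1691, nat_lit 1697,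
  nat_lit 1699, nat_lit 1701, nat_lit 1705, nat_lit 1709, nat_lit 1711, nat_lit 1713, nat_lit 1721, nat_lit 1725,
  nat_lit 1729, nat_lit 1731, nat_lit 1737, nat_lit 1741, nat_lit 1745, nat_lit 1751, nat_lit 1753, nat_lit 1757,
  nat_lit 1761, nat_lit 1769, nat_lit 1771, nat_lit 1773, nat_lit 1777, nat_lit 1781, nat_lit 1783, nat_lit 1785,
  nat_lit 1791, nat_lit 1795, nat_lit 1799, nat_lit 1805, nat_lit 1807, nat_lit 1809, nat_lit 1813, nat_lit 1817,
  nat_lit 1819, nat_lit 1821, nat_lit 1829, nat_lit 1833, nat_lit 1841, nat_lit 1843, nat_lit 1847, nat_lit 1851,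
  nat_lit 1855, nat_lit 1857, nat_lit 1865, nat_lit 1869, nat_lit 1877, nat_lit 1879, nat_lit 1881, nat_lit 1885,
  nat_lit 1889, nat_lit 1895, nat_lit 1897, nat_lit 1901, nat_lit 1905, nat_lit 1909, nat_lit 1911, nat_lit 1917,
  nat_lit 1921, nat_lit 1925, nat_lit 1927, nat_lit 1929, nat_lit 1937, nat_lit 1941, nat_lit 1949, nat_lit 1951,
  nat_lit 1955, nat_lit 1959, nat_lit 1963, nat_lit 1965, nat_lit 1973, nat_lit 1977, nat_lit 1985, nat_lit 1987,
  nat_lit 1989, nat_lit 1993, nat_lit 1997, nat_lit 1999, nat_lit 2001, nat_lit 2007, nat_lit 2011, nat_lit 2015,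
  nat_lit 2021, nat_lit 2023, nat_lit 2027, nat_lit 2031, nat_lit 2039, nat_lit 2041, nat_lit 2043, nat_lit 2047,
  nat_lit 2051, nat_lit 2057, nat_lit 2059, nat_lit 2063, nat_lit 2067, nat_lit 2071, nat_lit 2073, nat_lit 2079,
  nat_lit 2083, nat_lit 2087, nat_lit 2089, nat_lit 2091, nat_lit 2099, nat_lit 2103, nat_lit 2107, nat_lit 2109,
  nat_lit 2115, nat_lit 2119, nat_lit 2123, nat_lit 2129, nat_lit 2131, nat_lit 2133, nat_lit 2137, nat_lit 2141,
  nat_lit 2143, nat_lit 2145, nat_lit 2153, nat_lit 2157, nat_lit 2165, nat_lit 2167, nat_lit 2171, nat_lit 2175,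
  nat_lit 2179, nat_lit 2181]

def TT : Type :=
  Nat → Nat → Nat → Nat → Nat → Nat → Nat → Nat → Nat → Nat → Nat → Nat → Nat → Nat → Nat → Nat →
  Nat → Nat → Nat → Nat → Nat → Nat → Nat → Nat → Nat → Nat → Nat → Nat → Nat → Nat → Nat → Nat →
  Nat → Nat → Nat → Nat → Nat → Nat → Nat → Nat → Nat → Nat → Nat → Nat → Nat → Nat → Nat → Nat →
  Nat → Nat → Nat → Nat → Nat → Nat → Nat → Nat → Nat → Nat → Nat → Nat → Nat → Nat → Nat → Nat →
  Nat → Nat → Nat → Nat → Nat → Nat → Nat → Nat → Nat → Nat → Nat → Nat → Nat → Nat → Nat → Nat →
  Nat → Nat → Nat → Nat → Nat → Nat → Nat → Nat → Nat → Nat → Nat → Nat → Nat → Nat → Nat → Nat →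
  Nat → Nat → Nat → Nat → Nat → Nat → Nat → Nat → Nat → Nat → Nat → Nat → Nat → Nat → Nat → Nat →
  Nat → Nat → Nat → Nat → Nat → Nat → Nat → Nat → Nat → Nat → Nat → Nat → Nat → Nat → Nat → Nat →
  Nat → Nat → Nat → Nat → Nat → Nat → Nat → Nat → Nat → Nat → Nat → Nat → Nat → Nat → Nat → Nat →
  Nat → Nat → Nat → Nat → Nat → Nat → Nat → Nat → Nat → Nat → Nat → Nat → Nat → Nat → Nat → Nat →
  Nat → Nat → Nat → Nat → Nat → Nat → Nat → Nat → Nat → Nat → Nat → Nat → Nat → Nat → Nat → Nat →
  Nat → Nat → Nat → Nat → Nat → Nat → Nat → Nat → Nat → Nat → Nat → Nat → Nat → Nat → Nat → Nat →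
  Nat → Nat → Nat → Nat → Nat → Nat → Nat → Nat → Nat → Nat → Nat → Nat → Nat → Nat → Nat → Nat →
  Nat → Nat → Nat → Nat → Nat → Nat → Nat → Nat → Nat → Nat → Nat → Nat → Nat → Nat → Nat → Nat →
  Nat → Nat → Nat → Nat → Nat → Nat → Nat → Nat → Nat → Nat → Nat → Nat → Nat → Nat → Nat → Nat →
  Nat → Nat → Nat → Nat → Nat → Nat → Nat → Nat → Nat → Nat → Nat → Nat → Nat → Nat → Nat → Nat →
  Nat → Nat → Nat → Nat → Nat → Nat → Nat → Nat → Nat → Nat → Nat → Nat → Nat → Nat → Nat → Nat →
  Nat → Nat → Nat → Nat → Nat → Nat → Nat → Nat → Nat → Nat → Nat → Nat → Nat → Nat → Nat → Nat →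
  Nat → Nat → Nat → Nat → Nat → Nat → Nat → Nat → Nat → Nat → Nat → Nat → Nat → Nat → Nat → Nat →
  Nat → Nat → Nat → Nat → Nat → Nat → Nat → Nat → Nat → Nat → Nat → Nat → Nat → Nat → Nat → Nat →
  Nat → Nat → Nat → Nat → Nat → Nat → Nat → Nat → Nat → Nat → Nat → Nat → Nat → Nat → Nat → Nat →
  Nat → Nat → Nat → Nat → Nat → Nat → Nat → Nat → Nat → Nat → Nat → Nat → Nat → Nat → Nat → Nat →
  Nat → Nat → Nat → Nat → Nat → Nat → Nat → Nat → Nat → Nat → Nat → Nat → Nat → Nat → Nat → Nat →
  Nat → Nat → Nat → Nat → Nat → Nat → Nat → Nat → Nat → Nat → Nat → Nat → Nat → Nat → Nat → Nat →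
  Nat → Nat → Nat → Nat → Nat → Nat → Nat → Nat → Nat → Nat → Nat → Nat → Nat → Nat → Nat → Nat →
  Nat → Nat → Nat → Nat → Nat → Nat → Nat → Nat → Nat → Nat → Nat → Nat → Nat → Nat → Nat → Nat →
  Nat → Nat → Nat → Nat → Nat → Nat → Nat → Nat → Nat → Nat → Nat → Nat → Nat → Nat → Nat → Nat →
  Nat → Nat → Nat → Nat → Nat → Nat → Nat → Nat → Nat → Nat → Nat → Nat → Nat → Nat → Nat → Nat →
  Nat → Nat → Nat → Nat → Nat → Nat → Nat → Nat → Nat → Nat → Nat → Nat → Nat → Nat → Nat → Nat →
  Nat → Nat → Nat → Nat → Nat → Nat → Nat → Nat → Nat → Nat → Nat → Nat → Nat → Nat → Nat → Nat →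
  Nat → Nat → Nat → Nat → Nat → Nat → Nat → Nat → Nat → Nat → Nat → Nat → Nat → Nat → Nat → Nat →
  Nat → Nat → Nat → Nat → Nat → Nat → Nat → Nat → Nat → Nat → Nat → Nat → Nat → Nat → Nat → Nat →
  Nat → Nat → Nat → Nat → Nat → Nat → Nat → Nat → Nat → Nat → Nat → Nat → Nat → Nat → Nat → Nat →
  Nat → Nat → Nat → Nat → Nat → Nat → Nat → Nat → Nat → Nat → Nat → Nat → Nat → Nat → Nat → Nat →
  Nat → Nat → Bool

noncomputable def base : TT :=
  fun _ _ _ _ _ _ _ _ _ _ _ _ _ _ _ _ _ _ _ _ _ _ _ _ _ _ _ _ _ _ _ _ _ _ _ _ _ _ _ _
  _ _ _ _ _ _ _ _ _ _ _ _ _ _ _ _ _ _ _ _ _ _ _ _ _ _ _ _ _ _ _ _ _ _ _ _ _ _ _ _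
  _ _ _ _ _ _ _ _ _ _ _ _ _ _ _ _ _ _ _ _ _ _ _ _ _ _ _ _ _ _ _ _ _ _ _ _ _ _ _ _
  _ _ _ _ _ _ _ _ _ _ _ _ _ _ _ _ _ _ _ _ _ _ _ _ _ _ _ _ _ _ _ _ _ _ _ _ _ _ _ _
  _ _ _ _ _ _ _ _ _ _ _ _ _ _ _ _ _ _ _ _ _ _ _ _ _ _ _ _ _ _ _ _ _ _ _ _ _ _ _ _
  _ _ _ _ _ _ _ _ _ _ _ _ _ _ _ _ _ _ _ _ _ _ _ _ _ _ _ _ _ _ _ _ _ _ _ _ _ _ _ _
  _ _ _ _ _ _ _ _ _ _ _ _ _ _ _ _ _ _ _ _ _ _ _ _ _ _ _ _ _ _ _ _ _ _ _ _ _ _ _ _
  _ _ _ _ _ _ _ _ _ _ _ _ _ _ _ _ _ _ _ _ _ _ _ _ _ _ _ _ _ _ _ _ _ _ _ _ _ _ _ _
  _ _ _ _ _ _ _ _ _ _ _ _ _ _ _ _ _ _ _ _ _ _ _ _ _ _ _ _ _ _ _ _ _ _ _ _ _ _ _ _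
  _ _ _ _ _ _ _ _ _ _ _ _ _ _ _ _ _ _ _ _ _ _ _ _ _ _ _ _ _ _ _ _ _ _ _ _ _ _ _ _
  _ _ _ _ _ _ _ _ _ _ _ _ _ _ _ _ _ _ _ _ _ _ _ _ _ _ _ _ _ _ _ _ _ _ _ _ _ _ _ _
  _ _ _ _ _ _ _ _ _ _ _ _ _ _ _ _ _ _ _ _ _ _ _ _ _ _ _ _ _ _ _ _ _ _ _ _ _ _ _ _
  _ _ _ _ _ _ _ _ _ _ _ _ _ _ _ _ _ _ _ _ _ _ _ _ _ _ _ _ _ _ _ _ _ _ _ _ _ _ _ _
  _ _ _ _ _ _ _ _ _ _ _ _ _ _ _ _ _ _ _ _ _ _ _ _ _ _ => true

noncomputable def G (chk : List Nat → Bool) (C : Nat) (k : TT) : TT :=
  fun x5 x7 x11 x15 x19 x21 x29 x33 x41 x43 x45 x49 x53 x55 x57 x63
  x67 x71 x77 x79 x83 x87 x95 x97 x99 x103 x107 x113 x115 x119 x123 x127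
  x129 x135 x139 x143 x145 x147 x155 x159 x163 x165 x171 x175 x179 x185 x187 x189
  x193 x197 x199 x201 x209 x213 x221 x223 x227 x231 x235 x237 x245 x249 x257 x259
  x261 x265 x269 x275 x277 x281 x285 x289 x291 x297 x301 x305 x307 x309 x317 x321
  x329 x331 x335 x339 x343 x345 x353 x357 x365 x367 x369 x373 x377 x379 x381 x387
  x391 x395 x401 x403 x405 x409 x413 x415 x417 x425 x429 x433 x435 x441 x445 x449
  x455 x457 x461 x465 x473 x475 x477 x481 x485 x487 x489 x495 x499 x503 x509 x511
  x513 x517 x521 x523 x525 x533 x537 x545 x547 x551 x555 x559 x561 x567 x571 x575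
  x577 x579 x587 x591 x595 x597 x603 x607 x611 x617 x619 x623 x627 x635 x637 x639
  x643 x647 x653 x655 x659 x663 x667 x669 x677 x681 x689 x691 x693 x697 x701 x703
  x705 x711 x715 x719 x725 x727 x731 x735 x743 x745 x747 x751 x755 x761 x763 x767
  x771 x775 x777 x783 x787 x791 x793 x795 x803 x807 x815 x817 x821 x825 x829 x831
  x839 x843 x851 x853 x855 x859 x863 x865 x867 x873 x877 x881 x887 x889 x891 x895
  x899 x901 x903 x911 x915 x919 x921 x927 x931 x935 x941 x943 x947 x951 x959 x961
  x963 x967 x971 x977 x979 x983 x987 x991 x993 x1001 x1005 x1013 x1015 x1017 x1021 x1025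
  x1027 x1029 x1035 x1039 x1043 x1049 x1051 x1055 x1059 x1067 x1069 x1071 x1075 x1079 x1085 x1087
  x1091 x1095 x1099 x1101 x1107 x1111 x1115 x1117 x1119 x1127 x1131 x1135 x1137 x1143 x1147 x1151
  x1157 x1159 x1161 x1165 x1169 x1171 x1173 x1181 x1185 x1193 x1195 x1199 x1203 x1207 x1209 x1215
  x1219 x1223 x1225 x1227 x1235 x1239 x1243 x1245 x1251 x1255 x1259 x1265 x1267 x1271 x1275 x1283
  x1285 x1287 x1291 x1295 x1297 x1299 x1305 x1309 x1313 x1319 x1321 x1323 x1327 x1331 x1333 x1335
  x1343 x1347 x1355 x1357 x1361 x1365 x1369 x1371 x1379 x1383 x1391 x1393 x1395 x1399 x1403 x1409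
  x1411 x1415 x1419 x1423 x1425 x1431 x1435 x1439 x1441 x1443 x1451 x1455 x1459 x1461 x1467 x1471
  x1475 x1481 x1483 x1485 x1489 x1493 x1495 x1497 x1505 x1509 x1517 x1519 x1523 x1527 x1531 x1533
  x1539 x1543 x1547 x1549 x1551 x1559 x1563 x1567 x1569 x1575 x1579 x1583 x1589 x1591 x1595 x1599
  x1607 x1609 x1611 x1615 x1619 x1625 x1627 x1631 x1635 x1639 x1641 x1649 x1653 x1661 x1663 x1665
  x1669 x1673 x1675 x1677 x1683 x1687 x1691 x1697 x1699 x1701 x1705 x1709 x1711 x1713 x1721 x1725
  x1729 x1731 x1737 x1741 x1745 x1751 x1753 x1757 x1761 x1769 x1771 x1773 x1777 x1781 x1783 x1785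
  x1791 x1795 x1799 x1805 x1807 x1809 x1813 x1817 x1819 x1821 x1829 x1833 x1841 x1843 x1847 x1851
  x1855 x1857 x1865 x1869 x1877 x1879 x1881 x1885 x1889 x1895 x1897 x1901 x1905 x1909 x1911 x1917
  x1921 x1925 x1927 x1929 x1937 x1941 x1949 x1951 x1955 x1959 x1963 x1965 x1973 x1977 x1985 x1987
  x1989 x1993 x1997 x1999 x2001 x2007 x2011 x2015 x2021 x2023 x2027 x2031 x2039 x2041 x2043 x2047
  x2051 x2057 x2059 x2063 x2067 x2071 x2073 x2079 x2083 x2087 x2089 x2091 x2099 x2103 x2107 x2109
  x2115 x2119 x2123 x2129 x2131 x2133 x2137 x2141 x2143 x2145 x2153 x2157 x2165 x2167 x2171 x2175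
  x2179 x2181 =>
  Bool.rec false (k
  (sub (add (add (add (add (add (add (add (add (sub (sub C x7) x11) x41) x77) x113) x221) x329) x653) x977) x1949) x1461)
  (sub (add (add (add (add (add (add (add (add (sub (sub C x5) x19) x43) x79) x115) x223) x331) x655) x979) x1951) x735)
  (sub (add (add (add (add (add (add (sub (sub (sub C x15) x5) x29) x119) x227) x335) x659) x983) x1955) x1467)
  (add (add (add (add (add (add (add (add (sub (sub (sub C x11) x21) x33) x123) x231) x339) x663) x987) x1959) x745) x1475)
  (sub (add (add (add (add (add (add (sub (sub (sub C x21) x7) x55) x127) x235) x343) x667) x991) x1963) x747)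
  (add (add (add (add (add (add (add (add (sub (sub (sub C x19) x15) x57) x129) x237) x345) x669) x993) x1965) x751) x1481)
  (sub (add (add (add (add (sub (sub (add (add (sub C x33) x41) x53) x11) x83) x353) x677) x1001) x1973) x1485)
  (add (add (add (add (add (add (sub (sub (sub (sub C x29) x45) x15) x87) x357) x681) x1005) x1977) x763) x1493)
  (sub (add (add (add (add (sub (add (add (add (add (sub C x43) x29) x53) x5) x77) x95) x365) x689) x1013) x1985) x1497)
  (sub (add (add (add (add (sub (add (add (sub (sub C x41) x49) x7) x79) x97) x367) x691) x1015) x1987) x771)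
  (add (add (add (add (add (add (sub (sub (sub (add (add C x49) x53) x33) x63) x99) x369) x693) x1017) x1989) x775) x1505)
  (sub (add (add (add (add (sub (sub (sub (add (add C x45) x53) x43) x67) x103) x373) x697) x1021) x1993) x777)
  (sub (add (add (add (add (sub (sub (add (add (add (add C x45) x49) x29) x41) x71) x107) x377) x701) x1025) x1997) x1509)
  (sub (add (add (add (add (sub (sub (add (add (sub C x57) x67) x79) x19) x163) x379) x703) x1027) x1999) x783)
  (add (add (add (add (add (add (sub (sub (sub (sub C x55) x63) x21) x165) x381) x705) x1029) x2001) x787) x1517)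
  (add (add (add (add (add (add (sub (sub (sub (add (add C x67) x71) x57) x45) x171) x387) x711) x1035) x2007) x793) x1523)
  (sub (add (add (add (add (sub (sub (add (add (add (add C x63) x71) x55) x79) x49) x175) x391) x715) x1039) x2011) x795)
  (sub (add (add (add (add (sub (sub (sub (add (add C x63) x67) x77) x53) x179) x395) x719) x1043) x2015) x1527)
  (sub (add (add (add (add (sub (add (add (sub (sub C x79) x71) x5) x41) x185) x401) x725) x1049) x2021) x1533)
  (sub (add (add (add (add (sub (add (add (add (add (sub C x77) x55) x67) x7) x43) x187) x403) x727) x1051) x2023) x807)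
  (sub (add (add (sub (sub (add (add (add (add (sub C x87) x95) x107) x119) x155) x29) x245) x1055) x2027) x1539)
  (add (add (add (add (sub (sub (add (add (sub (sub C x83) x99) x123) x159) x33) x249) x1059) x2031) x817) x1547)
  (sub (add (add (sub (sub (sub (add (add (sub C x97) x83) x107) x113) x41) x257) x1067) x2039) x1551)
  (sub (add (add (sub (sub (sub (sub (sub C x95) x103) x115) x43) x259) x1069) x2041) x825)
  (add (add (add (add (sub (sub (sub (sub (add (add C x103) x107) x87) x135) x45) x261) x1071) x2043) x829) x1559)
  (sub (add (add (sub (sub (sub (sub (add (add C x99) x107) x97) x139) x49) x265) x1075) x2047) x831)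
  (sub (add (add (sub (sub (sub (add (add (add (add C x99) x103) x83) x95) x143) x53) x269) x1079) x2051) x1563)
  (sub (add (add (sub (add (add (sub (sub (sub C x115) x119) x95) x5) x221) x275) x1085) x2057) x1569)
  (sub (add (add (sub (add (add (sub (sub (sub C x113) x127) x97) x7) x223) x277) x1087) x2059) x843)
  (sub (add (add (sub (add (add (add (add (sub (sub C x123) x113) x83) x155) x11) x227) x281) x1091) x2063) x1575)
  (add (add (add (add (sub (add (add (add (add (sub (sub C x119) x129) x87) x159) x15) x231) x285) x1095) x2067) x853) x1583)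
  (sub (add (add (sub (add (add (sub (sub (sub C x129) x115) x145) x19) x235) x289) x1099) x2071) x855)
  (add (add (add (add (sub (add (add (sub (sub (sub C x127) x123) x147) x21) x237) x291) x1101) x2073) x859) x1589)
  (add (add (add (add (sub (sub (sub (add (add (add (add C x139) x143) x147) x159) x99) x189) x297) x1107) x2079) x865) x1595)
  (sub (add (add (sub (sub (sub (sub (add (add C x135) x143) x145) x103) x193) x301) x1111) x2083) x867)
  (sub (add (add (sub (sub (sub (sub (add (add C x135) x139) x155) x107) x197) x305) x1115) x2087) x1599)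
  (sub (add (add (sub (sub (sub (sub (sub C x147) x139) x127) x199) x307) x1117) x2089) x873)
  (add (add (add (add (sub (sub (sub (add (add (sub C x145) x135) x159) x129) x201) x309) x1119) x2091) x877) x1607)
  (sub (add (add (sub (sub (add (add (sub (sub C x159) x143) x83) x119) x209) x317) x1127) x2099) x1611)
  (add (add (add (add (sub (sub (add (add (add (add (sub C x155) x135) x147) x87) x123) x213) x321) x1131) x2103) x889) x1619)
  (sub (add (add (sub (sub (add (add (add (add (sub C x165) x175) x187) x199) x235) x55) x487) x1135) x2107) x891)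
  (add (add (add (add (sub (sub (add (add (sub (sub C x163) x171) x201) x237) x57) x489) x1137) x2109) x895) x1625)
  (add (add (add (add (sub (sub (sub (sub (add (add C x175) x179) x165) x189) x63) x495) x1143) x2115) x901) x1631)
  (sub (add (add (sub (sub (sub (add (add (add (add C x171) x179) x163) x187) x193) x67) x499) x1147) x2119) x903)
  (sub (add (add (sub (sub (sub (sub (add (add C x171) x175) x185) x197) x71) x503) x1151) x2123) x1635)
  (sub (add (add (sub (sub (sub (sub (sub C x187) x179) x221) x77) x509) x1157) x2129) x1641)
  (sub (add (add (sub (sub (sub (add (add (sub C x185) x163) x175) x223) x79) x511) x1159) x2131) x915)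
  (add (add (add (add (sub (sub (sub (add (add (add (add C x193) x197) x201) x213) x171) x135) x513) x1161) x2133) x919) x1649)
  (sub (add (add (sub (sub (sub (sub (add (add C x189) x197) x199) x175) x139) x517) x1165) x2137) x921)
  (sub (add (add (sub (sub (sub (sub (add (add C x189) x193) x209) x179) x143) x521) x1169) x2141) x1653)
  (sub (add (add (sub (sub (add (add (sub (sub C x201) x193) x163) x235) x145) x523) x1171) x2143) x927)
  (add (add (add (add (sub (sub (add (add (add (add (sub C x199) x189) x213) x165) x237) x147) x525) x1173) x2145) x931) x1661)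
  (sub (add (add (sub (sub (sub (sub (sub C x213) x197) x227) x155) x533) x1181) x2153) x1665)
  (add (add (add (add (sub (sub (sub (add (add (sub C x209) x189) x201) x231) x159) x537) x1185) x2157) x943) x1673)
  (sub (add (add (sub (add (add (sub (sub (sub C x223) x227) x185) x5) x113) x545) x1193) x2165) x1677)
  (sub (add (add (sub (add (add (sub (sub (sub C x221) x235) x187) x7) x115) x547) x1195) x2167) x951)
  (sub (add (add (sub (add (add (sub (sub (sub C x231) x221) x209) x11) x119) x551) x1199) x2171) x1683)
  (add (add (add (add (sub (add (add (sub (sub (sub C x227) x237) x213) x15) x123) x555) x1203) x2175) x961) x1691)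
  (sub (add (add (sub (add (add (add (add (sub (sub C x237) x223) x163) x199) x19) x127) x559) x1207) x2179) x963)
  (add (add (add (add (sub (add (add (add (add (sub (sub C x235) x231) x165) x201) x21) x129) x561) x1209) x2181) x967) x1697)
  (sub (sub (sub (add (add (add (add (add (add (sub C x249) x257) x269) x281) x317) x353) x461) x83) x731) x1701)
  (add (add (sub (sub (add (add (add (add (sub (sub C x245) x261) x285) x321) x357) x465) x87) x735) x979) x1709)
  (sub (sub (sub (add (add (sub (add (add (sub C x259) x245) x269) x275) x365) x473) x95) x743) x1713)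
  (sub (sub (sub (add (add (sub (sub (sub C x257) x265) x277) x367) x475) x97) x745) x987)
  (add (add (sub (sub (add (add (sub (sub (add (add C x265) x269) x249) x297) x369) x477) x99) x747) x991) x1721)
  (sub (sub (sub (add (add (sub (sub (add (add C x261) x269) x259) x301) x373) x481) x103) x751) x993)
  (sub (sub (sub (add (add (sub (add (add (add (add C x261) x265) x245) x257) x305) x377) x485) x107) x755) x1725)
  (sub (sub (sub (sub (sub (sub (sub C x277) x281) x257) x329) x113) x761) x1731)
  (sub (sub (sub (sub (sub (sub (sub C x275) x289) x259) x331) x115) x763) x1005)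
  (sub (sub (sub (sub (add (add (sub (sub C x285) x275) x245) x317) x335) x119) x767) x1737)
  (add (add (sub (sub (sub (add (add (sub (sub C x281) x291) x249) x321) x339) x123) x771) x1015) x1745)
  (sub (sub (sub (sub (sub (sub (sub C x291) x277) x307) x343) x127) x775) x1017)
  (add (add (sub (sub (sub (sub (sub (sub C x289) x285) x309) x345) x129) x777) x1021) x1751)
  (add (add (sub (sub (sub (sub (add (add (add (add C x301) x305) x309) x321) x261) x405) x135) x783) x1027) x1757)
  (sub (sub (sub (sub (sub (sub (add (add C x297) x305) x307) x265) x409) x139) x787) x1029)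
  (sub (sub (sub (sub (sub (sub (add (add C x297) x301) x317) x269) x413) x143) x791) x1761)
  (sub (sub (sub (sub (sub (sub (sub C x309) x301) x289) x415) x145) x793) x1035)
  (add (add (sub (sub (sub (sub (add (add (sub C x307) x297) x321) x291) x417) x147) x795) x1039) x1769)
  (sub (sub (sub (sub (add (add (sub (sub C x321) x305) x245) x281) x425) x155) x803) x1773)
  (add (add (sub (sub (sub (add (add (add (add (sub C x317) x297) x309) x249) x285) x429) x159) x807) x1051) x1781)
  (sub (sub (add (add (sub (add (add (sub (sub C x331) x335) x365) x401) x275) x5) x653) x815) x1785)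
  (sub (sub (add (add (sub (add (add (sub (sub C x329) x343) x367) x403) x277) x7) x655) x817) x1059)
  (sub (sub (add (add (sub (sub (sub (sub C x339) x329) x353) x281) x11) x659) x821) x1791)
  (add (add (sub (add (add (sub (sub (sub (sub C x335) x345) x357) x285) x15) x663) x825) x1069) x1799)
  (sub (sub (add (add (sub (sub (sub (sub C x345) x331) x379) x289) x19) x667) x829) x1071)
  (add (add (sub (add (add (sub (sub (sub (sub C x343) x339) x381) x291) x21) x669) x831) x1075) x1805)
  (sub (sub (add (add (add (add (sub (add (add (sub C x357) x365) x377) x335) x245) x461) x29) x677) x839) x1809)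
  (add (add (sub (add (add (add (add (sub (sub (sub C x353) x369) x339) x249) x465) x33) x681) x843) x1087) x1817)
  (sub (sub (add (add (add (add (add (add (add (add (sub C x367) x353) x377) x329) x401) x257) x473) x41) x689) x851) x1821)
  (sub (sub (add (add (add (add (add (add (sub (sub C x365) x373) x331) x403) x259) x475) x43) x691) x853) x1095)
  (add (add (sub (add (add (add (add (sub (sub (add (add C x373) x377) x357) x387) x261) x477) x45) x693) x855) x1099) x1829)
  (sub (sub (add (add (add (add (sub (sub (add (add C x369) x377) x367) x391) x265) x481) x49) x697) x859) x1101)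
  (sub (sub (add (add (add (add (sub (add (add (add (add C x369) x373) x353) x365) x395) x269) x485) x53) x701) x863) x1833)
  (sub (sub (add (add (sub (sub (add (add (sub C x381) x391) x403) x343) x433) x55) x703) x865) x1107)
  (add (add (sub (add (add (sub (sub (sub (sub C x379) x387) x345) x435) x57) x705) x867) x1111) x1841)
  (add (add (sub (add (add (sub (sub (sub (add (add C x391) x395) x381) x369) x441) x63) x711) x873) x1117) x1847)
  (sub (sub (add (add (sub (sub (add (add (add (add C x387) x395) x379) x403) x373) x445) x67) x715) x877) x1119)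
  (sub (sub (add (add (sub (sub (sub (add (add C x387) x391) x401) x377) x449) x71) x719) x881) x1851)
  (sub (sub (add (add (sub (add (add (sub (sub C x403) x395) x329) x365) x455) x77) x725) x887) x1857)
  (sub (sub (add (add (sub (add (add (add (add (sub C x401) x379) x391) x331) x367) x457) x79) x727) x889) x1131)
  (add (add (sub (sub (sub (add (add (add (add (add (add C x409) x413) x417) x429) x441) x477) x297) x567) x891) x1135) x1865)
  (sub (sub (sub (sub (add (add (sub (add (add C x405) x413) x415) x445) x481) x301) x571) x895) x1137)
  (sub (sub (sub (sub (add (add (sub (add (add C x405) x409) x425) x449) x485) x305) x575) x899) x1869)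
  (sub (sub (sub (sub (sub (sub (sub C x417) x409) x433) x307) x577) x901) x1143)
  (add (add (sub (sub (sub (sub (add (add (sub C x415) x405) x429) x435) x309) x579) x903) x1147) x1877)
  (sub (sub (sub (sub (sub (sub (sub C x429) x413) x461) x317) x587) x911) x1881)
  (add (add (sub (sub (sub (sub (add (add (sub C x425) x405) x417) x465) x321) x591) x915) x1159) x1889)
  (sub (sub (sub (sub (sub (add (add (sub C x435) x445) x457) x415) x379) x595) x919) x1161)
  (add (add (sub (sub (sub (sub (sub (sub C x433) x441) x417) x381) x597) x921) x1165) x1895)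
  (add (add (sub (sub (sub (add (add (sub (add (add C x445) x449) x435) x405) x477) x387) x603) x927) x1171) x1901)
  (sub (sub (sub (sub (add (add (add (add (add (add C x441) x449) x433) x457) x409) x481) x391) x607) x931) x1173)
  (sub (sub (sub (sub (add (add (sub (add (add C x441) x445) x455) x413) x485) x395) x611) x935) x1905)
  (sub (sub (sub (sub (sub (sub (sub C x457) x449) x473) x401) x617) x941) x1911)
  (sub (sub (sub (sub (sub (add (add (sub C x455) x433) x445) x475) x403) x619) x943) x1185)
  (sub (sub (sub (add (add (sub (add (add (sub C x465) x473) x485) x425) x245) x353) x623) x947) x1917)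
  (add (add (sub (sub (add (add (sub (sub (sub C x461) x477) x429) x249) x357) x627) x951) x1195) x1925)
  (sub (sub (sub (add (add (sub (add (add (sub C x475) x461) x485) x455) x257) x365) x635) x959) x1929)
  (sub (sub (sub (add (add (sub (sub (sub C x473) x481) x457) x259) x367) x637) x961) x1203)
  (add (add (sub (sub (add (add (add (add (sub (add (add C x481) x485) x465) x405) x441) x261) x369) x639) x963) x1207) x1937)
  (sub (sub (sub (add (add (add (add (sub (add (add C x477) x485) x475) x409) x445) x265) x373) x643) x967) x1209)
  (sub (sub (sub (add (add (add (add (add (add (add (add C x477) x481) x461) x473) x413) x449) x269) x377) x647) x971) x1941)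
  (sub (sub (sub (add (add (add (add (add (add (sub C x489) x499) x511) x523) x559) x595) x703) x163) x1459) x1215)
  (add (add (sub (sub (add (add (add (add (sub (sub C x487) x495) x525) x561) x597) x705) x165) x1461) x1219) x1949)
  (add (add (sub (sub (add (add (sub (sub (add (add C x499) x503) x489) x513) x603) x711) x171) x1467) x1225) x1955)
  (sub (sub (sub (add (add (sub (add (add (add (add C x495) x503) x487) x511) x517) x607) x715) x175) x1471) x1227)
  (sub (sub (sub (add (add (sub (sub (add (add C x495) x499) x509) x521) x611) x719) x179) x1475) x1959)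
  (sub (sub (sub (add (add (sub (sub (sub C x511) x503) x545) x617) x725) x185) x1481) x1965)
  (sub (sub (sub (add (add (sub (add (add (sub C x509) x487) x499) x547) x619) x727) x187) x1483) x1239)
  (add (add (sub (sub (sub (sub (add (add (add (add C x517) x521) x525) x537) x495) x567) x189) x1485) x1243) x1973)
  (sub (sub (sub (sub (sub (sub (add (add C x513) x521) x523) x499) x571) x193) x1489) x1245)
  (sub (sub (sub (sub (sub (sub (add (add C x513) x517) x533) x503) x575) x197) x1493) x1977)
  (sub (sub (sub (sub (add (add (sub (sub C x525) x517) x487) x559) x577) x199) x1495) x1251)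
  (add (add (sub (sub (sub (add (add (add (add (sub C x523) x513) x537) x489) x561) x579) x201) x1497) x1255) x1985)
  (sub (sub (sub (sub (sub (sub (sub C x537) x521) x551) x587) x209) x1505) x1989)
  (add (add (sub (sub (sub (sub (add (add (sub C x533) x513) x525) x555) x591) x213) x1509) x1267) x1997)
  (sub (sub (sub (sub (sub (sub (sub C x547) x551) x509) x653) x221) x1517) x2001)
  (sub (sub (sub (sub (sub (sub (sub C x545) x559) x511) x655) x223) x1519) x1275)
  (sub (sub (sub (sub (sub (sub (sub C x555) x545) x533) x659) x227) x1523) x2007)
  (add (add (sub (sub (sub (sub (sub (sub C x551) x561) x537) x663) x231) x1527) x1285) x2015)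
  (sub (sub (sub (sub (add (add (sub (sub C x561) x547) x487) x523) x667) x235) x1531) x1287)
  (add (add (sub (sub (sub (add (add (sub (sub C x559) x555) x489) x525) x669) x237) x1533) x1291) x2021)
  (add (add (sub (sub (sub (add (add (add (add (add (add C x571) x575) x579) x591) x603) x639) x513) x405) x1539) x1297) x2027)
  (sub (sub (sub (sub (add (add (sub (add (add C x567) x575) x577) x607) x643) x517) x409) x1543) x1299)
  (sub (sub (sub (sub (add (add (sub (add (add C x567) x571) x587) x611) x647) x521) x413) x1547) x2031)
  (sub (sub (sub (sub (sub (sub (sub C x579) x571) x595) x523) x415) x1549) x1305)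
  (add (add (sub (sub (sub (sub (add (add (sub C x577) x567) x591) x597) x525) x417) x1551) x1309) x2039)
  (sub (sub (sub (sub (sub (sub (sub C x591) x575) x623) x533) x425) x1559) x2043)
  (add (add (sub (sub (sub (sub (add (add (sub C x587) x567) x579) x627) x537) x429) x1563) x1321) x2051)
  (sub (sub (sub (add (add (sub (add (add (sub C x597) x607) x619) x577) x487) x703) x433) x1567) x1323)
  (add (add (sub (sub (add (add (sub (sub (sub C x595) x603) x579) x489) x705) x435) x1569) x1327) x2057)
  (add (add (sub (sub (add (add (add (add (sub (add (add C x607) x611) x597) x567) x639) x495) x711) x441) x1575) x1333) x2063)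
  (sub (sub (sub (add (add (add (add (add (add (add (add C x603) x611) x595) x619) x571) x643) x499) x715) x445) x1579) x1335)
  (sub (sub (sub (add (add (add (add (sub (add (add C x603) x607) x617) x575) x647) x503) x719) x449) x1583) x2067)
  (sub (sub (sub (add (add (sub (sub (sub C x619) x611) x635) x509) x725) x455) x1589) x2073)
  (sub (sub (sub (add (add (sub (add (add (sub C x617) x595) x607) x637) x511) x727) x457) x1591) x1347)
  (sub (sub (sub (sub (sub (add (add (sub C x627) x635) x647) x587) x677) x461) x1595) x2079)
  (add (add (sub (sub (sub (sub (sub (sub C x623) x639) x591) x681) x465) x1599) x1357) x2087)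
  (sub (sub (sub (sub (sub (add (add (sub C x637) x623) x647) x617) x689) x473) x1607) x2091)
  (sub (sub (sub (sub (sub (sub (sub C x635) x643) x619) x691) x475) x1609) x1365)
  (add (add (sub (sub (sub (add (add (sub (add (add C x643) x647) x627) x567) x603) x693) x477) x1611) x1369) x2099)
  (sub (sub (sub (sub (add (add (sub (add (add C x639) x647) x637) x571) x607) x697) x481) x1615) x1371)
  (sub (sub (sub (sub (add (add (add (add (add (add C x639) x643) x623) x635) x575) x611) x701) x485) x1619) x2103)
  (sub (sub (add (add (sub (add (add (sub (sub C x655) x659) x689) x725) x545) x5) x329) x1625) x2109)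
  (sub (sub (add (add (sub (add (add (sub (sub C x653) x667) x691) x727) x547) x7) x331) x1627) x1383)
  (sub (sub (add (add (sub (sub (sub (sub C x663) x653) x677) x551) x11) x335) x1631) x2115)
  (add (add (sub (add (add (sub (sub (sub (sub C x659) x669) x681) x555) x15) x339) x1635) x1393) x2123)
  (sub (sub (add (add (sub (sub (sub (sub C x669) x655) x703) x559) x19) x343) x1639) x1395)
  (add (add (sub (add (add (sub (sub (sub (sub C x667) x663) x705) x561) x21) x345) x1641) x1399) x2129)
  (sub (sub (add (add (sub (sub (add (add (sub C x681) x689) x701) x659) x623) x29) x353) x1649) x2133)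
  (add (add (sub (add (add (sub (sub (sub (sub C x677) x693) x663) x627) x33) x357) x1653) x1411) x2141)
  (sub (sub (add (add (sub (add (add (add (add (sub C x691) x677) x701) x653) x725) x635) x41) x365) x1661) x2145)
  (sub (sub (add (add (sub (add (add (sub (sub C x689) x697) x655) x727) x637) x43) x367) x1663) x1419)
  (add (add (sub (add (add (sub (sub (sub (add (add C x697) x701) x681) x711) x639) x45) x369) x1665) x1423) x2153)
  (sub (sub (add (add (sub (sub (sub (add (add C x693) x701) x691) x715) x643) x49) x373) x1669) x1425)
  (sub (sub (add (add (sub (sub (add (add (add (add C x693) x697) x677) x689) x719) x647) x53) x377) x1673) x2157)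
  (sub (sub (add (add (add (add (sub (add (add (sub C x705) x715) x727) x667) x487) x595) x55) x379) x1675) x1431)
  (add (add (sub (add (add (add (add (sub (sub (sub C x703) x711) x669) x489) x597) x57) x381) x1677) x1435) x2165)
  (add (add (sub (add (add (add (add (sub (sub (add (add C x715) x719) x705) x693) x495) x603) x63) x387) x1683) x1441) x2171)
  (sub (sub (add (add (add (add (sub (add (add (add (add C x711) x719) x703) x727) x697) x499) x607) x67) x391) x1687) x1443)
  (sub (sub (add (add (add (add (sub (sub (add (add C x711) x715) x725) x701) x503) x611) x71) x395) x1691) x2175)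
  (sub (sub (add (add (add (add (add (add (sub (sub C x727) x719) x653) x689) x509) x617) x77) x401) x1697) x2181)
  (sub (sub (add (add (add (add (add (add (add (add (sub C x725) x703) x715) x655) x691) x511) x619) x79) x403) x1699) x1455)
  (sub (sub (add (add (add (add (add (add (add (add (sub C x735) x743) x755) x767) x803) x839) x947) x1055) x1379) x245) x1459)
  (sub (sub (add (add (add (add (add (add (sub (sub C x731) x747) x771) x807) x843) x951) x1059) x1383) x249) x7)
  (sub (sub (add (add (add (add (sub (add (add (sub C x745) x731) x755) x761) x851) x959) x1067) x1391) x257) x1471)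
  (add (add (sub (add (add (add (add (sub (sub (sub C x743) x751) x763) x853) x961) x1069) x1393) x259) x15) x1475)
  (sub (sub (add (add (add (add (sub (sub (add (add C x751) x755) x735) x783) x855) x963) x1071) x1395) x261) x19)
  (add (add (sub (add (add (add (add (sub (sub (add (add C x747) x755) x745) x787) x859) x967) x1075) x1399) x265) x21) x1481)
  (sub (sub (add (add (add (add (sub (add (add (add (add C x747) x751) x731) x743) x791) x863) x971) x1079) x1403) x269) x1483)
  (sub (sub (add (add (sub (sub (sub (sub C x763) x767) x743) x815) x1085) x1409) x275) x1489)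
  (add (add (sub (add (add (sub (sub (sub (sub C x761) x775) x745) x817) x1087) x1411) x277) x33) x1493)
  (sub (sub (add (add (sub (add (add (sub (sub C x771) x761) x731) x803) x821) x1091) x1415) x281) x1495)
  (sub (sub (add (add (sub (add (add (sub (sub C x767) x777) x735) x807) x825) x1095) x1419) x285) x43)
  (add (add (sub (add (add (sub (sub (sub (sub C x777) x763) x793) x829) x1099) x1423) x289) x45) x1505)
  (sub (sub (add (add (sub (sub (sub (sub C x775) x771) x795) x831) x1101) x1425) x291) x49)
  (sub (sub (add (add (sub (sub (add (add (add (add C x787) x791) x795) x807) x747) x891) x1107) x1431) x297) x55)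
  (add (add (sub (add (add (sub (sub (sub (add (add C x783) x791) x793) x751) x895) x1111) x1435) x301) x57) x1517)
  (sub (sub (add (add (sub (sub (sub (add (add C x783) x787) x803) x755) x899) x1115) x1439) x305) x1519)
  (add (add (sub (add (add (sub (sub (sub (sub C x795) x787) x775) x901) x1117) x1441) x307) x63) x1523)
  (sub (sub (add (add (sub (sub (add (add (sub C x793) x783) x807) x777) x903) x1119) x1443) x309) x67)
  (sub (sub (add (add (sub (add (add (sub (sub C x807) x791) x731) x767) x911) x1127) x1451) x317) x1531)
  (sub (sub (add (add (sub (add (add (add (add (sub C x803) x783) x795) x735) x771) x915) x1131) x1455) x321) x79)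
  (sub (sub (sub (sub (add (add (sub (sub C x817) x821) x851) x887) x761) x977) x329) x1543)
  (add (add (sub (sub (sub (add (add (sub (sub C x815) x829) x853) x889) x763) x979) x331) x87) x1547)
  (sub (sub (sub (sub (sub (sub (sub C x825) x815) x839) x767) x983) x335) x1549)
  (sub (sub (sub (sub (sub (sub (sub C x821) x831) x843) x771) x987) x339) x97)
  (add (add (sub (sub (sub (sub (sub (sub C x831) x817) x865) x775) x991) x343) x99) x1559)
  (sub (sub (sub (sub (sub (sub (sub C x829) x825) x867) x777) x993) x345) x103)
  (sub (sub (sub (add (add (sub (add (add (sub C x843) x851) x863) x821) x731) x947) x1001) x353) x1567)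
  (sub (sub (sub (add (add (sub (sub (sub C x839) x855) x825) x735) x951) x1005) x357) x115)
  (sub (sub (sub (add (add (add (add (add (add (sub C x853) x839) x863) x815) x887) x743) x959) x1013) x365) x1579)
  (add (add (sub (sub (add (add (add (add (sub (sub C x851) x859) x817) x889) x745) x961) x1015) x367) x123) x1583)
  (sub (sub (sub (add (add (sub (sub (add (add C x859) x863) x843) x873) x747) x963) x1017) x369) x127)
  (add (add (sub (sub (add (add (sub (sub (add (add C x855) x863) x853) x877) x751) x967) x1021) x373) x129) x1589)
  (sub (sub (sub (add (add (sub (add (add (add (add C x855) x859) x839) x851) x881) x755) x971) x1025) x377) x1591)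
  (add (add (sub (sub (sub (sub (add (add (sub C x867) x877) x889) x829) x919) x1027) x379) x135) x1595)
  (sub (sub (sub (sub (sub (sub (sub C x865) x873) x831) x921) x1029) x381) x139)
  (sub (sub (sub (sub (sub (sub (add (add C x877) x881) x867) x855) x927) x1035) x387) x145)
  (add (add (sub (sub (sub (sub (add (add (add (add C x873) x881) x865) x889) x859) x931) x1039) x391) x147) x1607)
  (sub (sub (sub (sub (sub (sub (add (add C x873) x877) x887) x863) x935) x1043) x395) x1609)
  (sub (sub (sub (sub (add (add (sub (sub C x889) x881) x815) x851) x941) x1049) x401) x1615)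
  (add (add (sub (sub (sub (add (add (add (add (sub C x887) x865) x877) x817) x853) x943) x1051) x403) x159) x1619)
  (sub (sub (sub (sub (add (add (add (add (add (add C x895) x899) x903) x915) x927) x963) x783) x1215) x405) x163)
  (add (add (sub (sub (sub (add (add (sub (add (add C x891) x899) x901) x931) x967) x787) x1219) x409) x165) x1625)
  (sub (sub (sub (sub (add (add (sub (add (add C x891) x895) x911) x935) x971) x791) x1223) x413) x1627)
  (add (add (sub (sub (sub (sub (sub (sub C x903) x895) x919) x793) x1225) x415) x171) x1631)
  (sub (sub (sub (sub (sub (add (add (sub C x901) x891) x915) x921) x795) x1227) x417) x175)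
  (sub (sub (sub (sub (sub (sub (sub C x915) x899) x947) x803) x1235) x425) x1639)
  (sub (sub (sub (sub (sub (add (add (sub C x911) x891) x903) x951) x807) x1239) x429) x187)
  (add (add (sub (sub (sub (sub (add (add (sub C x921) x931) x943) x901) x865) x1243) x433) x189) x1649)
  (sub (sub (sub (sub (sub (sub (sub C x919) x927) x903) x867) x1245) x435) x193)
  (sub (sub (sub (sub (add (add (sub (add (add C x931) x935) x921) x891) x963) x873) x1251) x441) x199)
  (add (add (sub (sub (sub (add (add (add (add (add (add C x927) x935) x919) x943) x895) x967) x877) x1255) x445) x201) x1661)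
  (sub (sub (sub (sub (add (add (sub (add (add C x927) x931) x941) x899) x971) x881) x1259) x449) x1663)
  (sub (sub (sub (sub (sub (sub (sub C x943) x935) x959) x887) x1265) x455) x1669)
  (add (add (sub (sub (sub (sub (add (add (sub C x941) x919) x931) x961) x889) x1267) x457) x213) x1673)
  (sub (sub (sub (add (add (sub (add (add (sub C x951) x959) x971) x911) x731) x839) x1271) x461) x1675)
  (sub (sub (sub (add (add (sub (sub (sub C x947) x963) x915) x735) x843) x1275) x465) x223)
  (sub (sub (sub (add (add (sub (add (add (sub C x961) x947) x971) x941) x743) x851) x1283) x473) x1687)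
  (add (add (sub (sub (add (add (sub (sub (sub C x959) x967) x943) x745) x853) x1285) x475) x231) x1691)
  (sub (sub (sub (add (add (add (add (sub (add (add C x967) x971) x951) x891) x927) x747) x855) x1287) x477) x235)
  (add (add (sub (sub (add (add (add (add (sub (add (add C x963) x971) x961) x895) x931) x751) x859) x1291) x481) x237) x1697)
  (sub (sub (sub (add (add (add (add (add (add (add (add C x963) x967) x947) x959) x899) x935) x755) x863) x1295) x485) x1699)
  (sub (add (add (sub (add (add (add (add (sub (sub C x979) x983) x1013) x1049) x1085) x1193) x815) x5) x1949) x1705)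
  (add (add (add (add (sub (add (add (add (add (sub (sub C x977) x991) x1015) x1051) x1087) x1195) x817) x7) x1951) x249) x1709)
  (sub (add (add (sub (add (add (sub (sub (sub C x987) x977) x1001) x1091) x1199) x821) x11) x1955) x1711)
  (sub (add (add (sub (add (add (sub (sub (sub C x983) x993) x1005) x1095) x1203) x825) x15) x1959) x259)
  (add (add (add (add (sub (add (add (sub (sub (sub C x993) x979) x1027) x1099) x1207) x829) x19) x1963) x261) x1721)
  (sub (add (add (sub (add (add (sub (sub (sub C x991) x987) x1029) x1101) x1209) x831) x21) x1965) x265)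
  (sub (add (add (sub (sub (sub (add (add (sub C x1005) x1013) x1025) x983) x1055) x839) x29) x1973) x1729)
  (sub (add (add (sub (sub (sub (sub (sub C x1001) x1017) x987) x1059) x843) x33) x1977) x277)
  (sub (add (add (sub (sub (add (add (add (add (sub C x1015) x1001) x1025) x977) x1049) x1067) x851) x41) x1985) x1741)
  (add (add (add (add (sub (sub (add (add (sub (sub C x1013) x1021) x979) x1051) x1069) x853) x43) x1987) x285) x1745)
  (sub (add (add (sub (sub (sub (sub (add (add C x1021) x1025) x1005) x1035) x1071) x855) x45) x1989) x289)
  (add (add (add (add (sub (sub (sub (sub (add (add C x1017) x1025) x1015) x1039) x1075) x859) x49) x1993) x291) x1751)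
  (sub (add (add (sub (sub (sub (add (add (add (add C x1017) x1021) x1001) x1013) x1043) x1079) x863) x53) x1997) x1753)
  (add (add (add (add (sub (sub (sub (add (add (sub C x1029) x1039) x1051) x991) x1135) x865) x55) x1999) x297) x1757)
  (sub (add (add (sub (sub (sub (sub (sub C x1027) x1035) x993) x1137) x867) x57) x2001) x301)
  (sub (add (add (sub (sub (sub (sub (add (add C x1039) x1043) x1029) x1017) x1143) x873) x63) x2007) x307)
  (add (add (add (add (sub (sub (sub (add (add (add (add C x1035) x1043) x1027) x1051) x1021) x1147) x877) x67) x2011) x309) x1769)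
  (sub (add (add (sub (sub (sub (sub (add (add C x1035) x1039) x1049) x1025) x1151) x881) x71) x2015) x1771)
  (sub (add (add (sub (sub (add (add (sub (sub C x1051) x1043) x977) x1013) x1157) x887) x77) x2021) x1777)
  (add (add (add (add (sub (sub (add (add (add (add (sub C x1049) x1027) x1039) x979) x1015) x1159) x889) x79) x2023) x321) x1781)
  (sub (add (add (add (add (sub (add (add (add (add (sub C x1059) x1067) x1079) x1091) x1127) x1001) x731) x1379) x83) x2027) x1783)
  (sub (add (add (add (add (sub (add (add (sub (sub C x1055) x1071) x1095) x1131) x1005) x735) x1383) x87) x2031) x331)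
  (sub (add (add (add (add (sub (sub (add (add (sub C x1069) x1055) x1079) x1085) x1013) x743) x1391) x95) x2039) x1795)
  (add (add (add (add (add (add (sub (sub (sub (sub C x1067) x1075) x1087) x1015) x745) x1393) x97) x2041) x339) x1799)
  (sub (add (add (add (add (sub (sub (sub (add (add C x1075) x1079) x1059) x1107) x1017) x747) x1395) x99) x2043) x343)
  (add (add (add (add (add (add (sub (sub (sub (add (add C x1071) x1079) x1069) x1111) x1021) x751) x1399) x103) x2047) x345) x1805)
  (sub (add (add (add (add (sub (sub (add (add (add (add C x1071) x1075) x1055) x1067) x1115) x1025) x755) x1403) x107) x2051) x1807)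
  (sub (add (add (add (add (add (add (sub (sub (sub C x1087) x1091) x1067) x977) x1193) x761) x1409) x113) x2057) x1813)
  (add (add (add (add (add (add (add (add (sub (sub (sub C x1085) x1099) x1069) x979) x1195) x763) x1411) x115) x2059) x357) x1817)
  (sub (add (add (add (add (add (add (add (add (sub (sub C x1095) x1085) x1055) x1127) x983) x1199) x767) x1415) x119) x2063) x1819)
  (sub (add (add (add (add (add (add (add (add (sub (sub C x1091) x1101) x1059) x1131) x987) x1203) x771) x1419) x123) x2067) x367)
  (add (add (add (add (add (add (add (add (sub (sub (sub C x1101) x1087) x1117) x991) x1207) x775) x1423) x127) x2071) x369) x1829)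
  (sub (add (add (add (add (add (add (sub (sub (sub C x1099) x1095) x1119) x993) x1209) x777) x1425) x129) x2073) x373)
  (sub (add (add (add (add (sub (sub (add (add (add (add C x1111) x1115) x1119) x1131) x1071) x1161) x783) x1431) x135) x2079) x379)
  (add (add (add (add (add (add (sub (sub (sub (add (add C x1107) x1115) x1117) x1075) x1165) x787) x1435) x139) x2083) x381) x1841)
  (sub (add (add (add (add (sub (sub (sub (add (add C x1107) x1111) x1127) x1079) x1169) x791) x1439) x143) x2087) x1843)
  (add (add (add (add (add (add (sub (sub (sub (sub C x1119) x1111) x1099) x1171) x793) x1441) x145) x2089) x387) x1847)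
  (sub (add (add (add (add (sub (sub (add (add (sub C x1117) x1107) x1131) x1101) x1173) x795) x1443) x147) x2091) x391)
  (sub (add (add (add (add (sub (add (add (sub (sub C x1131) x1115) x1055) x1091) x1181) x803) x1451) x155) x2099) x1855)
  (sub (add (add (add (add (sub (add (add (add (add (sub C x1127) x1107) x1119) x1059) x1095) x1185) x807) x1455) x159) x2103) x403)
  (add (add (add (add (sub (sub (add (add (add (add (sub C x1137) x1147) x1159) x1171) x1207) x1027) x1297) x163) x2107) x405) x1865)
  (sub (add (add (sub (sub (add (add (sub (sub C x1135) x1143) x1173) x1209) x1029) x1299) x165) x2109) x409)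
  (sub (add (add (sub (sub (sub (sub (add (add C x1147) x1151) x1137) x1161) x1035) x1305) x171) x2115) x415)
  (add (add (add (add (sub (sub (sub (add (add (add (add C x1143) x1151) x1135) x1159) x1165) x1039) x1309) x175) x2119) x417) x1877)
  (sub (add (add (sub (sub (sub (sub (add (add C x1143) x1147) x1157) x1169) x1043) x1313) x179) x2123) x1879)
  (sub (add (add (sub (sub (sub (sub (sub C x1159) x1151) x1193) x1049) x1319) x185) x2129) x1885)
  (add (add (add (add (sub (sub (sub (add (add (sub C x1157) x1135) x1147) x1195) x1051) x1321) x187) x2131) x429) x1889)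
  (sub (add (add (sub (sub (sub (add (add (add (add C x1165) x1169) x1173) x1185) x1143) x1107) x1323) x189) x2133) x433)
  (add (add (add (add (sub (sub (sub (sub (add (add C x1161) x1169) x1171) x1147) x1111) x1327) x193) x2137) x435) x1895)
  (sub (add (add (sub (sub (sub (sub (add (add C x1161) x1165) x1181) x1151) x1115) x1331) x197) x2141) x1897)
  (add (add (add (add (sub (sub (add (add (sub (sub C x1173) x1165) x1135) x1207) x1117) x1333) x199) x2143) x441) x1901)
  (sub (add (add (sub (sub (add (add (add (add (sub C x1171) x1161) x1185) x1137) x1209) x1119) x1335) x201) x2145) x445)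
  (sub (add (add (sub (sub (sub (sub (sub C x1185) x1169) x1199) x1127) x1343) x209) x2153) x1909)
  (sub (add (add (sub (sub (sub (add (add (sub C x1181) x1161) x1173) x1203) x1131) x1347) x213) x2157) x457)
  (sub (add (add (sub (add (add (sub (sub (sub C x1195) x1199) x1157) x977) x1085) x1355) x221) x2165) x1921)
  (add (add (add (add (sub (add (add (sub (sub (sub C x1193) x1207) x1159) x979) x1087) x1357) x223) x2167) x465) x1925)
  (sub (add (add (sub (add (add (sub (sub (sub C x1203) x1193) x1181) x983) x1091) x1361) x227) x2171) x1927)
  (sub (add (add (sub (add (add (sub (sub (sub C x1199) x1209) x1185) x987) x1095) x1365) x231) x2175) x475)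
  (add (add (add (add (sub (add (add (add (add (sub (sub C x1209) x1195) x1135) x1171) x991) x1099) x1369) x235) x2179) x477) x1937)
  (sub (add (add (sub (add (add (add (add (sub (sub C x1207) x1203) x1137) x1173) x993) x1101) x1371) x237) x2181) x481)
  (sub (sub (sub (add (add (add (add (add (add (add (add C x1219) x1223) x1227) x1239) x1251) x1287) x1323) x1431) x891) x1701) x487)
  (add (add (sub (sub (add (add (add (add (sub (add (add C x1215) x1223) x1225) x1255) x1291) x1327) x1435) x895) x1705) x489) x1949)
  (sub (sub (sub (add (add (add (add (sub (add (add C x1215) x1219) x1235) x1259) x1295) x1331) x1439) x899) x1709) x1951)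
  (add (add (sub (sub (add (add (sub (sub (sub C x1227) x1219) x1243) x1333) x1441) x901) x1711) x495) x1955)
  (sub (sub (sub (add (add (sub (add (add (sub C x1225) x1215) x1239) x1245) x1335) x1443) x903) x1713) x499)
  (sub (sub (sub (add (add (sub (sub (sub C x1239) x1223) x1271) x1343) x1451) x911) x1721) x1963)
  (sub (sub (sub (add (add (sub (add (add (sub C x1235) x1215) x1227) x1275) x1347) x1455) x915) x1725) x511)
  (add (add (sub (sub (sub (sub (add (add (sub C x1245) x1255) x1267) x1225) x1297) x919) x1729) x513) x1973)
  (sub (sub (sub (sub (sub (sub (sub C x1243) x1251) x1227) x1299) x921) x1731) x517)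
  (sub (sub (sub (sub (add (add (sub (add (add C x1255) x1259) x1245) x1215) x1287) x1305) x927) x1737) x523)
  (add (add (sub (sub (sub (add (add (add (add (add (add C x1251) x1259) x1243) x1267) x1219) x1291) x1309) x931) x1741) x525) x1985)
  (sub (sub (sub (sub (add (add (sub (add (add C x1251) x1255) x1265) x1223) x1295) x1313) x935) x1745) x1987)
  (sub (sub (sub (sub (sub (sub (sub C x1267) x1259) x1283) x1319) x941) x1751) x1993)
  (add (add (sub (sub (sub (sub (add (add (sub C x1265) x1243) x1255) x1285) x1321) x943) x1753) x537) x1997)
  (sub (sub (sub (sub (sub (add (add (sub C x1275) x1283) x1295) x1235) x1379) x947) x1757) x1999)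
  (sub (sub (sub (sub (sub (sub (sub C x1271) x1287) x1239) x1383) x951) x1761) x547)
  (sub (sub (sub (sub (sub (add (add (sub C x1285) x1271) x1295) x1265) x1391) x959) x1769) x2011)
  (add (add (sub (sub (sub (sub (sub (sub C x1283) x1291) x1267) x1393) x961) x1771) x555) x2015)
  (sub (sub (sub (sub (add (add (sub (add (add C x1291) x1295) x1275) x1215) x1251) x1395) x963) x1773) x559)
  (add (add (sub (sub (sub (add (add (sub (add (add C x1287) x1295) x1285) x1219) x1255) x1399) x967) x1777) x561) x2021)
  (sub (sub (sub (sub (add (add (add (add (add (add C x1287) x1291) x1271) x1283) x1223) x1259) x1403) x971) x1781) x2023)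
  (add (add (sub (sub (sub (add (add (add (add (sub C x1299) x1309) x1321) x1333) x1369) x1243) x1135) x1783) x567) x2027)
  (sub (sub (sub (sub (add (add (sub (sub C x1297) x1305) x1335) x1371) x1245) x1137) x1785) x571)
  (sub (sub (sub (sub (sub (sub (add (add C x1309) x1313) x1299) x1323) x1251) x1143) x1791) x577)
  (add (add (sub (sub (sub (sub (add (add (add (add C x1305) x1313) x1297) x1321) x1327) x1255) x1147) x1795) x579) x2039)
  (sub (sub (sub (sub (sub (sub (add (add C x1305) x1309) x1319) x1331) x1259) x1151) x1799) x2041)
  (sub (sub (sub (sub (sub (sub (sub C x1321) x1313) x1355) x1265) x1157) x1805) x2047)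
  (add (add (sub (sub (sub (sub (add (add (sub C x1319) x1297) x1309) x1357) x1267) x1159) x1807) x591) x2051)
  (sub (sub (sub (add (add (sub (add (add (add (add C x1327) x1331) x1335) x1347) x1305) x1215) x1431) x1161) x1809) x595)
  (add (add (sub (sub (add (add (sub (sub (add (add C x1323) x1331) x1333) x1309) x1219) x1435) x1165) x1813) x597) x2057)
  (sub (sub (sub (add (add (sub (sub (add (add C x1323) x1327) x1343) x1313) x1223) x1439) x1169) x1817) x2059)
  (add (add (sub (sub (add (add (add (add (sub (sub C x1335) x1327) x1297) x1369) x1225) x1441) x1171) x1819) x603) x2063)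
  (sub (sub (sub (add (add (add (add (add (add (sub C x1333) x1323) x1347) x1299) x1371) x1227) x1443) x1173) x1821) x607)
  (sub (sub (sub (add (add (sub (sub (sub C x1347) x1331) x1361) x1235) x1451) x1181) x1829) x2071)
  (sub (sub (sub (add (add (sub (add (add (sub C x1343) x1323) x1335) x1365) x1239) x1455) x1185) x1833) x619)
  (sub (sub (sub (sub (sub (sub (sub C x1357) x1361) x1319) x1409) x1193) x1841) x2083)
  (add (add (sub (sub (sub (sub (sub (sub C x1355) x1369) x1321) x1411) x1195) x1843) x627) x2087)
  (sub (sub (sub (sub (sub (sub (sub C x1365) x1355) x1343) x1415) x1199) x1847) x2089)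
  (sub (sub (sub (sub (sub (sub (sub C x1361) x1371) x1347) x1419) x1203) x1851) x637)
  (add (add (sub (sub (sub (add (add (sub (sub C x1371) x1357) x1297) x1333) x1423) x1207) x1855) x639) x2099)
  (sub (sub (sub (sub (add (add (sub (sub C x1369) x1365) x1299) x1335) x1425) x1209) x1857) x643)
  (sub (sub (add (add (sub (add (add (add (add (sub C x1383) x1391) x1403) x1415) x1451) x1271) x731) x1055) x1865) x2107)
  (sub (sub (add (add (sub (add (add (sub (sub C x1379) x1395) x1419) x1455) x1275) x735) x1059) x1869) x655)
  (sub (sub (add (add (sub (sub (add (add (sub C x1393) x1379) x1403) x1409) x1283) x743) x1067) x1877) x2119)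
  (add (add (sub (add (add (sub (sub (sub (sub C x1391) x1399) x1411) x1285) x745) x1069) x1879) x663) x2123)
  (sub (sub (add (add (sub (sub (sub (add (add C x1399) x1403) x1383) x1431) x1287) x747) x1071) x1881) x667)
  (add (add (sub (add (add (sub (sub (sub (add (add C x1395) x1403) x1393) x1435) x1291) x751) x1075) x1885) x669) x2129)
  (sub (sub (add (add (sub (sub (add (add (add (add C x1395) x1399) x1379) x1391) x1439) x1295) x755) x1079) x1889) x2131)
  (sub (sub (add (add (sub (sub (sub (sub C x1411) x1415) x1391) x1355) x761) x1085) x1895) x2137)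
  (add (add (sub (add (add (sub (sub (sub (sub C x1409) x1423) x1393) x1357) x763) x1087) x1897) x681) x2141)
  (sub (sub (add (add (sub (add (add (sub (sub C x1419) x1409) x1379) x1451) x1361) x767) x1091) x1901) x2143)
  (sub (sub (add (add (sub (add (add (sub (sub C x1415) x1425) x1383) x1455) x1365) x771) x1095) x1905) x691)
  (add (add (sub (add (add (sub (sub (sub (sub C x1425) x1411) x1441) x1369) x775) x1099) x1909) x693) x2153)
  (sub (sub (add (add (sub (sub (sub (sub C x1423) x1419) x1443) x1371) x777) x1101) x1911) x697)
  (sub (sub (add (add (add (add (sub (add (add (add (add C x1435) x1439) x1443) x1455) x1395) x1215) x1323) x783) x1107) x1917) x703)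
  (add (add (sub (add (add (add (add (sub (sub (add (add C x1431) x1439) x1441) x1399) x1219) x1327) x787) x1111) x1921) x705) x2165)
  (sub (sub (add (add (add (add (sub (sub (add (add C x1431) x1435) x1451) x1403) x1223) x1331) x791) x1115) x1925) x2167)
  (add (add (sub (add (add (add (add (sub (sub (sub C x1443) x1435) x1423) x1225) x1333) x793) x1117) x1927) x711) x2171)
  (sub (sub (add (add (add (add (sub (add (add (sub C x1441) x1431) x1455) x1425) x1227) x1335) x795) x1119) x1929) x715)
  (sub (sub (add (add (add (add (add (add (sub (sub C x1455) x1439) x1379) x1415) x1235) x1343) x803) x1127) x1937) x2179)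
  (sub (sub (add (add (add (add (add (add (add (add (sub C x1451) x1431) x1443) x1383) x1419) x1239) x1347) x807) x1131) x1941) x727)
  (sub (sub (add (add (add (add (add (add (add (add (sub C x1461) x1471) x1483) x1495) x1531) x1567) x1675) x1783) x2107) x487) x731)
  (sub (sub (add (add (add (add (add (add (sub (sub C x1459) x1467) x1497) x1533) x1569) x1677) x1785) x2109) x489) x5)
  (sub (sub (add (add (add (add (sub (sub (add (add C x1471) x1475) x1461) x1485) x1575) x1683) x1791) x2115) x495) x11)
  (sub (sub (add (add (add (add (sub (add (add (add (add C x1467) x1475) x1459) x1483) x1489) x1579) x1687) x1795) x2119) x499) x743)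
  (add (add (sub (add (add (add (add (sub (sub (add (add C x1467) x1471) x1481) x1493) x1583) x1691) x1799) x2123) x503) x15) x745)
  (add (add (sub (add (add (add (add (sub (sub (sub C x1483) x1475) x1517) x1589) x1697) x1805) x2129) x509) x21) x751)
  (sub (sub (add (add (add (add (sub (add (add (sub C x1481) x1459) x1471) x1519) x1591) x1699) x1807) x2131) x511) x755)
  (sub (sub (add (add (sub (sub (add (add (add (add C x1489) x1493) x1497) x1509) x1467) x1539) x1809) x2133) x513) x29)
  (sub (sub (add (add (sub (sub (sub (add (add C x1485) x1493) x1495) x1471) x1543) x1813) x2137) x517) x761)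
  (add (add (sub (add (add (sub (sub (sub (add (add C x1485) x1489) x1505) x1475) x1547) x1817) x2141) x521) x33) x763)
  (sub (sub (add (add (sub (add (add (sub (sub C x1497) x1489) x1459) x1531) x1549) x1819) x2143) x523) x767)
  (sub (sub (add (add (sub (add (add (add (add (sub C x1495) x1485) x1509) x1461) x1533) x1551) x1821) x2145) x525) x41)
  (add (add (sub (add (add (sub (sub (sub (sub C x1509) x1493) x1523) x1559) x1829) x2153) x533) x45) x775)
  (sub (sub (add (add (sub (sub (add (add (sub C x1505) x1485) x1497) x1527) x1563) x1833) x2157) x537) x53)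
  (add (add (sub (add (add (sub (sub (sub (sub C x1519) x1523) x1481) x1625) x1841) x2165) x545) x57) x787)
  (sub (sub (add (add (sub (sub (sub (sub C x1517) x1531) x1483) x1627) x1843) x2167) x547) x791)
  (add (add (sub (add (add (sub (sub (sub (sub C x1527) x1517) x1505) x1631) x1847) x2171) x551) x63) x793)
  (sub (sub (add (add (sub (sub (sub (sub C x1523) x1533) x1509) x1635) x1851) x2175) x555) x71)
  (sub (sub (add (add (sub (add (add (sub (sub C x1533) x1519) x1459) x1495) x1639) x1855) x2179) x559) x803)
  (sub (sub (add (add (sub (add (add (sub (sub C x1531) x1527) x1461) x1497) x1641) x1857) x2181) x561) x77)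
  (sub (sub (sub (sub (add (add (add (add (add (add C x1543) x1547) x1551) x1563) x1575) x1611) x1485) x1701) x567) x83)
  (sub (sub (sub (sub (add (add (sub (add (add C x1539) x1547) x1549) x1579) x1615) x1489) x1705) x571) x815)
  (add (add (sub (sub (sub (add (add (sub (add (add C x1539) x1543) x1559) x1583) x1619) x1493) x1709) x575) x87) x817)
  (sub (sub (sub (sub (sub (sub (sub C x1551) x1543) x1567) x1495) x1711) x577) x821)
  (sub (sub (sub (sub (sub (add (add (sub C x1549) x1539) x1563) x1569) x1497) x1713) x579) x95)
  (add (add (sub (sub (sub (sub (sub (sub C x1563) x1547) x1595) x1505) x1721) x587) x99) x829)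
  (sub (sub (sub (sub (sub (add (add (sub C x1559) x1539) x1551) x1599) x1509) x1725) x591) x107)
  (sub (sub (sub (add (add (sub (add (add (sub C x1569) x1579) x1591) x1549) x1459) x1675) x1729) x595) x839)
  (sub (sub (sub (add (add (sub (sub (sub C x1567) x1575) x1551) x1461) x1677) x1731) x597) x113)
  (sub (sub (sub (add (add (add (add (sub (add (add C x1579) x1583) x1569) x1539) x1611) x1467) x1683) x1737) x603) x119)
  (sub (sub (sub (add (add (add (add (add (add (add (add C x1575) x1583) x1567) x1591) x1543) x1615) x1471) x1687) x1741) x607) x851)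
  (add (add (sub (sub (add (add (add (add (sub (add (add C x1575) x1579) x1589) x1547) x1619) x1475) x1691) x1745) x611) x123) x853)
  (add (add (sub (sub (add (add (sub (sub (sub C x1591) x1583) x1607) x1481) x1697) x1751) x617) x129) x859)
  (sub (sub (sub (add (add (sub (add (add (sub C x1589) x1567) x1579) x1609) x1483) x1699) x1753) x619) x863)
  (add (add (sub (sub (sub (sub (add (add (sub C x1599) x1607) x1619) x1559) x1649) x1757) x623) x135) x865)
  (sub (sub (sub (sub (sub (sub (sub C x1595) x1611) x1563) x1653) x1761) x627) x143)
  (add (add (sub (sub (sub (sub (add (add (sub C x1609) x1595) x1619) x1589) x1661) x1769) x635) x147) x877)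
  (sub (sub (sub (sub (sub (sub (sub C x1607) x1615) x1591) x1663) x1771) x637) x881)
  (sub (sub (sub (sub (add (add (sub (add (add C x1615) x1619) x1599) x1539) x1575) x1665) x1773) x639) x155)
  (sub (sub (sub (sub (add (add (sub (add (add C x1611) x1619) x1609) x1543) x1579) x1669) x1777) x643) x887)
  (add (add (sub (sub (sub (add (add (add (add (add (add C x1611) x1615) x1595) x1607) x1547) x1583) x1673) x1781) x647) x159) x889)
  (add (add (sub (sub (sub (add (add (sub (sub C x1627) x1631) x1661) x1697) x1517) x1949) x653) x165) x895)
  (sub (sub (sub (sub (add (add (sub (sub C x1625) x1639) x1663) x1699) x1519) x1951) x655) x899)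
  (add (add (sub (sub (sub (sub (sub (sub C x1635) x1625) x1649) x1523) x1955) x659) x171) x901)
  (sub (sub (sub (sub (sub (sub (sub C x1631) x1641) x1653) x1527) x1959) x663) x179)
  (sub (sub (sub (sub (sub (sub (sub C x1641) x1627) x1675) x1531) x1963) x667) x911)
  (sub (sub (sub (sub (sub (sub (sub C x1639) x1635) x1677) x1533) x1965) x669) x185)
  (add (add (sub (sub (sub (sub (add (add (sub C x1653) x1661) x1673) x1631) x1595) x1973) x677) x189) x919)
  (sub (sub (sub (sub (sub (sub (sub C x1649) x1665) x1635) x1599) x1977) x681) x197)
  (add (add (sub (sub (sub (add (add (add (add (sub C x1663) x1649) x1673) x1625) x1697) x1607) x1985) x689) x201) x931)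
  (sub (sub (sub (sub (add (add (sub (sub C x1661) x1669) x1627) x1699) x1609) x1987) x691) x935)
  (sub (sub (sub (sub (sub (sub (add (add C x1669) x1673) x1653) x1683) x1611) x1989) x693) x209)
  (sub (sub (sub (sub (sub (sub (add (add C x1665) x1673) x1663) x1687) x1615) x1993) x697) x941)
  (add (add (sub (sub (sub (sub (add (add (add (add C x1665) x1669) x1649) x1661) x1691) x1619) x1997) x701) x213) x943)
  (sub (sub (sub (add (add (sub (add (add (sub C x1677) x1687) x1699) x1639) x1459) x1567) x1999) x703) x947)
  (sub (sub (sub (add (add (sub (sub (sub C x1675) x1683) x1641) x1461) x1569) x2001) x705) x221)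
  (sub (sub (sub (add (add (sub (sub (add (add C x1687) x1691) x1677) x1665) x1467) x1575) x2007) x711) x227)
  (sub (sub (sub (add (add (sub (add (add (add (add C x1683) x1691) x1675) x1699) x1669) x1471) x1579) x2011) x715) x959)
  (add (add (sub (sub (add (add (sub (sub (add (add C x1683) x1687) x1697) x1673) x1475) x1583) x2015) x719) x231) x961)
  (add (add (sub (sub (add (add (add (add (sub (sub C x1699) x1691) x1625) x1661) x1481) x1589) x2021) x725) x237) x967)
  (sub (sub (sub (add (add (add (add (add (add (sub C x1697) x1675) x1687) x1627) x1663) x1483) x1591) x2023) x727) x971)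
  (sub (sub (sub (add (add (add (add (add (add (add (add C x1705) x1709) x1713) x1725) x1737) x1773) x1809) x1917) x1539) x1215) x245)
  (sub (sub (sub (add (add (add (add (sub (add (add C x1701) x1709) x1711) x1741) x1777) x1813) x1921) x1543) x1219) x977)
  (add (add (sub (sub (add (add (add (add (sub (add (add C x1701) x1705) x1721) x1745) x1781) x1817) x1925) x1547) x1223) x249) x979)
  (sub (sub (sub (add (add (sub (sub (sub C x1713) x1705) x1729) x1819) x1927) x1549) x1225) x983)
  (sub (sub (sub (add (add (sub (add (add (sub C x1711) x1701) x1725) x1731) x1821) x1929) x1551) x1227) x257)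
  (add (add (sub (sub (add (add (sub (sub (sub C x1725) x1709) x1757) x1829) x1937) x1559) x1235) x261) x991)
  (sub (sub (sub (add (add (sub (add (add (sub C x1721) x1701) x1713) x1761) x1833) x1941) x1563) x1239) x269)
  (sub (sub (sub (sub (sub (add (add (sub C x1731) x1741) x1753) x1711) x1783) x1567) x1243) x1001)
  (sub (sub (sub (sub (sub (sub (sub C x1729) x1737) x1713) x1785) x1569) x1245) x275)
  (sub (sub (sub (sub (add (add (sub (add (add C x1741) x1745) x1731) x1701) x1773) x1791) x1575) x1251) x281)
  (sub (sub (sub (sub (add (add (add (add (add (add C x1737) x1745) x1729) x1753) x1705) x1777) x1795) x1579) x1255) x1013)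
  (add (add (sub (sub (sub (add (add (sub (add (add C x1737) x1741) x1751) x1709) x1781) x1799) x1583) x1259) x285) x1015)
  (add (add (sub (sub (sub (sub (sub (sub C x1753) x1745) x1769) x1805) x1589) x1265) x291) x1021)
  (sub (sub (sub (sub (sub (add (add (sub C x1751) x1729) x1741) x1771) x1807) x1591) x1267) x1025)
  (add (add (sub (sub (sub (sub (add (add (sub C x1761) x1769) x1781) x1721) x1865) x1595) x1271) x297) x1027)
  (sub (sub (sub (sub (sub (sub (sub C x1757) x1773) x1725) x1869) x1599) x1275) x305)
  (add (add (sub (sub (sub (sub (add (add (sub C x1771) x1757) x1781) x1751) x1877) x1607) x1283) x309) x1039)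
  (sub (sub (sub (sub (sub (sub (sub C x1769) x1777) x1753) x1879) x1609) x1285) x1043)
  (sub (sub (sub (sub (add (add (sub (add (add C x1777) x1781) x1761) x1701) x1737) x1881) x1611) x1287) x317)
  (sub (sub (sub (sub (add (add (sub (add (add C x1773) x1781) x1771) x1705) x1741) x1885) x1615) x1291) x1049)
  (add (add (sub (sub (sub (add (add (add (add (add (add C x1773) x1777) x1757) x1769) x1709) x1745) x1889) x1619) x1295) x321) x1051)
  (sub (sub (add (add (sub (add (add (add (add (sub C x1785) x1795) x1807) x1819) x1855) x1729) x1459) x2107) x1297) x1055)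
  (sub (sub (add (add (sub (add (add (sub (sub C x1783) x1791) x1821) x1857) x1731) x1461) x2109) x1299) x329)
  (sub (sub (add (add (sub (sub (sub (add (add C x1795) x1799) x1785) x1809) x1737) x1467) x2115) x1305) x335)
  (sub (sub (add (add (sub (sub (add (add (add (add C x1791) x1799) x1783) x1807) x1813) x1741) x1471) x2119) x1309) x1067)
  (add (add (sub (add (add (sub (sub (sub (add (add C x1791) x1795) x1805) x1817) x1745) x1475) x2123) x1313) x339) x1069)
  (add (add (sub (add (add (sub (sub (sub (sub C x1807) x1799) x1841) x1751) x1481) x2129) x1319) x345) x1075)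
  (sub (sub (add (add (sub (sub (add (add (sub C x1805) x1783) x1795) x1843) x1753) x1483) x2131) x1321) x1079)
  (sub (sub (add (add (add (add (sub (add (add (add (add C x1813) x1817) x1821) x1833) x1791) x1701) x1917) x1485) x2133) x1323) x353)
  (sub (sub (add (add (add (add (sub (sub (add (add C x1809) x1817) x1819) x1795) x1705) x1921) x1489) x2137) x1327) x1085)
  (add (add (sub (add (add (add (add (sub (sub (add (add C x1809) x1813) x1829) x1799) x1709) x1925) x1493) x2141) x1331) x357) x1087)
  (sub (sub (add (add (add (add (add (add (sub (sub C x1821) x1813) x1783) x1855) x1711) x1927) x1495) x2143) x1333) x1091)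
  (sub (sub (add (add (add (add (add (add (add (add (sub C x1819) x1809) x1833) x1785) x1857) x1713) x1929) x1497) x2145) x1335) x365)
  (add (add (sub (add (add (add (add (sub (sub (sub C x1833) x1817) x1847) x1721) x1937) x1505) x2153) x1343) x369) x1099)
  (sub (sub (add (add (add (add (sub (add (add (sub C x1829) x1809) x1821) x1851) x1725) x1941) x1509) x2157) x1347) x377)
  (add (add (sub (add (add (sub (sub (sub (sub C x1843) x1847) x1805) x1895) x1517) x2165) x1355) x381) x1111)
  (sub (sub (add (add (sub (sub (sub (sub C x1841) x1855) x1807) x1897) x1519) x2167) x1357) x1115)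
  (add (add (sub (add (add (sub (sub (sub (sub C x1851) x1841) x1829) x1901) x1523) x2171) x1361) x387) x1117)
  (sub (sub (add (add (sub (sub (sub (sub C x1847) x1857) x1833) x1905) x1527) x2175) x1365) x395)
  (sub (sub (add (add (sub (add (add (sub (sub C x1857) x1843) x1783) x1819) x1909) x1531) x2179) x1369) x1127)
  (sub (sub (add (add (sub (add (add (sub (sub C x1855) x1851) x1785) x1821) x1911) x1533) x2181) x1371) x401)
  (add (add (sub (sub (sub (add (add (add (add (sub C x1869) x1877) x1889) x1901) x1937) x1757) x2027) x1379) x405) x1135)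
  (sub (sub (sub (sub (add (add (sub (sub C x1865) x1881) x1905) x1941) x1761) x2031) x1383) x413)
  (add (add (sub (sub (sub (sub (add (add (sub C x1879) x1865) x1889) x1895) x1769) x2039) x1391) x417) x1147)
  (sub (sub (sub (sub (sub (sub (sub C x1877) x1885) x1897) x1771) x2041) x1393) x1151)
  (sub (sub (sub (sub (sub (sub (add (add C x1885) x1889) x1869) x1917) x1773) x2043) x1395) x425)
  (sub (sub (sub (sub (sub (sub (add (add C x1881) x1889) x1879) x1921) x1777) x2047) x1399) x1157)
  (add (add (sub (sub (sub (sub (add (add (add (add C x1881) x1885) x1865) x1877) x1925) x1781) x2051) x1403) x429) x1159)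
  (add (add (sub (sub (sub (sub (sub (sub C x1897) x1901) x1877) x1841) x2057) x1409) x435) x1165)
  (sub (sub (sub (sub (sub (sub (sub C x1895) x1909) x1879) x1843) x2059) x1411) x1169)
  (add (add (sub (sub (sub (add (add (sub (sub C x1905) x1895) x1865) x1937) x1847) x2063) x1415) x441) x1171)
  (sub (sub (sub (sub (add (add (sub (sub C x1901) x1911) x1869) x1941) x1851) x2067) x1419) x449)
  (sub (sub (sub (sub (sub (sub (sub C x1911) x1897) x1927) x1855) x2071) x1423) x1181)
  (sub (sub (sub (sub (sub (sub (sub C x1909) x1905) x1929) x1857) x2073) x1425) x455)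
  (sub (sub (sub (add (add (sub (add (add (add (add C x1921) x1925) x1929) x1941) x1881) x1701) x1809) x2079) x1431) x461)
  (sub (sub (sub (add (add (sub (sub (add (add C x1917) x1925) x1927) x1885) x1705) x1813) x2083) x1435) x1193)
  (add (add (sub (sub (add (add (sub (sub (add (add C x1917) x1921) x1937) x1889) x1709) x1817) x2087) x1439) x465) x1195)
  (sub (sub (sub (add (add (sub (sub (sub C x1929) x1921) x1909) x1711) x1819) x2089) x1441) x1199)
  (sub (sub (sub (add (add (sub (add (add (sub C x1927) x1917) x1941) x1911) x1713) x1821) x2091) x1443) x473)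
  (add (add (sub (sub (add (add (add (add (sub (sub C x1941) x1925) x1865) x1901) x1721) x1829) x2099) x1451) x477) x1207)
  (sub (sub (sub (add (add (add (add (add (add (sub C x1937) x1917) x1929) x1869) x1905) x1725) x1833) x2103) x1455) x485)
  (add (add (add (add (sub (add (add (add (add (sub (sub C x1951) x1955) x1985) x2021) x2057) x2165) x1625) x5) x977) x489) x1219)
  (sub (add (add (sub (add (add (add (add (sub (sub C x1949) x1963) x1987) x2023) x2059) x2167) x1627) x7) x979) x1223)
  (add (add (add (add (sub (add (add (sub (sub (sub C x1959) x1949) x1973) x2063) x2171) x1631) x11) x983) x495) x1225)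
  (sub (add (add (sub (add (add (sub (sub (sub C x1955) x1965) x1977) x2067) x2175) x1635) x15) x987) x503)
  (sub (add (add (sub (add (add (sub (sub (sub C x1965) x1951) x1999) x2071) x2179) x1639) x19) x991) x1235)
  (sub (add (add (sub (add (add (sub (sub (sub C x1963) x1959) x2001) x2073) x2181) x1641) x21) x993) x509)
  (add (add (add (add (sub (sub (sub (add (add (sub C x1977) x1985) x1997) x1955) x2027) x1649) x29) x1001) x513) x1243)
  (sub (add (add (sub (sub (sub (sub (sub C x1973) x1989) x1959) x2031) x1653) x33) x1005) x521)
  (add (add (add (add (sub (sub (add (add (add (add (sub C x1987) x1973) x1997) x1949) x2021) x2039) x1661) x41) x1013) x525) x1255)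
  (sub (add (add (sub (sub (add (add (sub (sub C x1985) x1993) x1951) x2023) x2041) x1663) x43) x1015) x1259)
  (sub (add (add (sub (sub (sub (sub (add (add C x1993) x1997) x1977) x2007) x2043) x1665) x45) x1017) x533)
  (sub (add (add (sub (sub (sub (sub (add (add C x1989) x1997) x1987) x2011) x2047) x1669) x49) x1021) x1265)
  (add (add (add (add (sub (sub (sub (add (add (add (add C x1989) x1993) x1973) x1985) x2015) x2051) x1673) x53) x1025) x537) x1267)
  (sub (add (add (sub (sub (sub (add (add (sub C x2001) x2011) x2023) x1963) x2107) x1675) x55) x1027) x1271)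
  (sub (add (add (sub (sub (sub (sub (sub C x1999) x2007) x1965) x2109) x1677) x57) x1029) x545)
  (sub (add (add (sub (sub (sub (sub (add (add C x2011) x2015) x2001) x1989) x2115) x1683) x63) x1035) x551)
  (sub (add (add (sub (sub (sub (add (add (add (add C x2007) x2015) x1999) x2023) x1993) x2119) x1687) x67) x1039) x1283)
  (add (add (add (add (sub (sub (sub (sub (add (add C x2007) x2011) x2021) x1997) x2123) x1691) x71) x1043) x555) x1285)
  (add (add (add (add (sub (sub (add (add (sub (sub C x2023) x2015) x1949) x1985) x2129) x1697) x77) x1049) x561) x1291)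
  (sub (add (add (sub (sub (add (add (add (add (sub C x2021) x1999) x2011) x1951) x1987) x2131) x1699) x79) x1051) x1295)
  (add (add (add (add (sub (sub (add (add (add (add (sub C x2031) x2039) x2051) x2063) x2099) x1973) x1865) x83) x1055) x567) x1297)
  (sub (add (add (sub (sub (add (add (sub (sub C x2027) x2043) x2067) x2103) x1977) x1869) x87) x1059) x575)
  (add (add (add (add (sub (sub (sub (add (add (sub C x2041) x2027) x2051) x2057) x1985) x1877) x95) x1067) x579) x1309)
  (sub (add (add (sub (sub (sub (sub (sub C x2039) x2047) x2059) x1987) x1879) x97) x1069) x1313)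
  (sub (add (add (sub (sub (sub (sub (add (add C x2047) x2051) x2031) x2079) x1989) x1881) x99) x1071) x587)
  (sub (add (add (sub (sub (sub (sub (add (add C x2043) x2051) x2041) x2083) x1993) x1885) x103) x1075) x1319)
  (add (add (add (add (sub (sub (sub (add (add (add (add C x2043) x2047) x2027) x2039) x2087) x1997) x1889) x107) x1079) x591) x1321)
  (add (add (add (add (sub (add (add (sub (sub (sub C x2059) x2063) x2039) x1949) x2165) x1895) x113) x1085) x597) x1327)
  (sub (add (add (sub (add (add (sub (sub (sub C x2057) x2071) x2041) x1951) x2167) x1897) x115) x1087) x1331)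
  (add (add (add (add (sub (add (add (add (add (sub (sub C x2067) x2057) x2027) x2099) x1955) x2171) x1901) x119) x1091) x603) x1333)
  (sub (add (add (sub (add (add (add (add (sub (sub C x2063) x2073) x2031) x2103) x1959) x2175) x1905) x123) x1095) x611)
  (sub (add (add (sub (add (add (sub (sub (sub C x2073) x2059) x2089) x1963) x2179) x1909) x127) x1099) x1343)
  (sub (add (add (sub (add (add (sub (sub (sub C x2071) x2067) x2091) x1965) x2181) x1911) x129) x1101) x617)
  (sub (add (add (sub (sub (sub (add (add (add (add C x2083) x2087) x2091) x2103) x2043) x2133) x1917) x135) x1107) x623)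
  (sub (add (add (sub (sub (sub (sub (add (add C x2079) x2087) x2089) x2047) x2137) x1921) x139) x1111) x1355)
  (add (add (add (add (sub (sub (sub (sub (add (add C x2079) x2083) x2099) x2051) x2141) x1925) x143) x1115) x627) x1357)
  (sub (add (add (sub (sub (sub (sub (sub C x2091) x2083) x2071) x2143) x1927) x145) x1117) x1361)
  (sub (add (add (sub (sub (sub (add (add (sub C x2089) x2079) x2103) x2073) x2145) x1929) x147) x1119) x635)
  (add (add (add (add (sub (sub (add (add (sub (sub C x2103) x2087) x2027) x2063) x2153) x1937) x155) x1127) x639) x1369)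
  (sub (add (add (sub (sub (add (add (add (add (sub C x2099) x2079) x2091) x2031) x2067) x2157) x1941) x159) x1131) x647)
  (sub (add (add (add (add (sub (add (add (add (add (sub C x2109) x2119) x2131) x2143) x2179) x1999) x1459) x1783) x163) x1135) x1379)
  (sub (add (add (add (add (sub (add (add (sub (sub C x2107) x2115) x2145) x2181) x2001) x1461) x1785) x165) x1137) x653)
  (sub (add (add (add (add (sub (sub (sub (add (add C x2119) x2123) x2109) x2133) x2007) x1467) x1791) x171) x1143) x659)
  (sub (add (add (add (add (sub (sub (add (add (add (add C x2115) x2123) x2107) x2131) x2137) x2011) x1471) x1795) x175) x1147) x1391)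
  (add (add (add (add (add (add (sub (sub (sub (add (add C x2115) x2119) x2129) x2141) x2015) x1475) x1799) x179) x1151) x663) x1393)
  (add (add (add (add (add (add (sub (sub (sub (sub C x2131) x2123) x2165) x2021) x1481) x1805) x185) x1157) x669) x1399)
  (sub (add (add (add (add (sub (sub (add (add (sub C x2129) x2107) x2119) x2167) x2023) x1483) x1807) x187) x1159) x1403)
  (sub (add (add (add (add (sub (sub (add (add (add (add C x2137) x2141) x2145) x2157) x2115) x2079) x1485) x1809) x189) x1161) x677)
  (sub (add (add (add (add (sub (sub (sub (add (add C x2133) x2141) x2143) x2119) x2083) x1489) x1813) x193) x1165) x1409)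
  (add (add (add (add (add (add (sub (sub (sub (add (add C x2133) x2137) x2153) x2123) x2087) x1493) x1817) x197) x1169) x681) x1411)
  (sub (add (add (add (add (sub (add (add (sub (sub C x2145) x2137) x2107) x2179) x2089) x1495) x1819) x199) x1171) x1415)
  (sub (add (add (add (add (sub (add (add (add (add (sub C x2143) x2133) x2157) x2109) x2181) x2091) x1497) x1821) x201) x1173) x689)
  (add (add (add (add (add (add (sub (sub (sub (sub C x2157) x2141) x2171) x2099) x1505) x1829) x209) x1181) x693) x1423)
  (sub (add (add (add (add (sub (sub (add (add (sub C x2153) x2133) x2145) x2175) x2103) x1509) x1833) x213) x1185) x701)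
  (add (add (add (add (add (add (add (add (sub (sub (sub C x2167) x2171) x2129) x1949) x2057) x1517) x1841) x221) x1193) x705) x1435)
  (sub (add (add (add (add (add (add (sub (sub (sub C x2165) x2179) x2131) x1951) x2059) x1519) x1843) x223) x1195) x1439)
  (add (add (add (add (add (add (add (add (sub (sub (sub C x2175) x2165) x2153) x1955) x2063) x1523) x1847) x227) x1199) x711) x1441)
  (sub (add (add (add (add (add (add (sub (sub (sub C x2171) x2181) x2157) x1959) x2067) x1527) x1851) x231) x1203) x719)
  (sub (add (add (add (add (add (add (add (add (sub (sub C x2181) x2167) x2107) x2143) x1963) x2071) x1531) x1855) x235) x1207) x1451)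
  (sub (add (add (add (add (add (add (add (add (sub (sub C x2179) x2175) x2109) x2145) x1965) x2073) x1533) x1857) x237) x1209) x725))
  (chk [x5, x11, x29, x41, x43, x95, x97, x103, x115, x275])

noncomputable def RK : Nat := nat_lit 0x113007300670061005f002b0029001d000b0005

noncomputable def CK : Nat := nat_lit 0x2a002a00540054002a0054002a002a002a002a

noncomputable def H : Nat := nat_lit 0x200000004000000000000006e000000000000000e000000000000007000000010000000000000000000000000000000da000000000000007a00000000000000000000000000000146000001b20000001a00000000000001dc000000000000016b000000dc0000007c00000000000000000000001c000000000000016d00000000000001de0000000000000000000001b400000148000000000000010c00000000000000e60000000000000000000000000000021e0000028a0000008600000000000002f600000000000001d70000000000000000000003350000036200000000000001f700000000000001520000000000000314000001be000000000000000000000022000000000000037d00000000000002fd000002a8000001d00000000000000000000000000000023e0000000000000166000000000000010a000000e800000000000000000000008800000000000001d900000000000002f800000000000000000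000028c000002200000002000000000000002ff000000000000037b0000023c00000164000000000000000000000000000002aa00000000000001d20000000000000000000000000000036400000333000000000000031600000000000001c000000000000001f500000154000000000000000000000000000000ac00000000000001180000000000000000000000000000032c000002c0000000ee000000000000023900000000000001b90000000000000000000003ce000003dd00000000000002cf000000000000022a00000000000003e60000029600000000000000000000008200000000000002a50000000000000291000003f500000302000000000000000000000000000002bb00000000000001e3000000000000000000000000000003a40000032300000000000002d5000000000000034100000000000002b70000036e000000000000000000000000000001fd00000000000001eb00000000000000000000000000000049000000b30000015e0000000000000113000000000000014a00000242000003080000000000000000000001ca00000000000000df0000000000000222000000000000000000000324000001fe0000001600000000000003110000000000000369000003ef00000374000000000000000000000000000003e2000000000000034500000000000002ae0000029c0000000000000000000001c4000000000000007300000000000003370000000000000000000003d2000002d6000000000000031c0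0000000000002320000000000000000000000000000039c000002c40000015a00000000000001ec0000000000000006000000aa000001160000000000000000000000ec00000000000001bb00000000000002370000000000000000000002c20000032e00000080000000000000029300000000000002a3000002bd000001e5000000000000000000000000000003f30000000000000304000000000000000000000000000003db000003d000000000000003e8000000000000029800000000000002cd0000022c000000000000000000000014000000000000036b000000000000030f000003e000000347000000000000000000000000000003ed0000000000000376000000000000031a00000230000000000000000000000158000000000000000700000000000001ed0000000000000000000002c50000039d00000000000002b0000000000000029e000000000000000000000000000002d7000003d3000001c600000000000003360000000000000072000000000000000000000321000003a600000000000002b5000000000000037000000000000002d30000033f00000000000000000000000000000244000000000000030a000000000000000000000000000001ff00000325000001cc000000000000022300000000000000de000001fb000001e9000000000000000000000160000000000000014b00000000000001110000000000000000000000b100000048000000000000004c00000000000000b000000000000000000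0000000000001fa000001e8000001100000000000000161000000000000014d0000000000000000000002d20000033e00000000000003a700000000000003200000000000000371000002b40000000000000000000000e200000000000001cd00000000000002250000030b00000245000000000000000000000000000003270000000000000201000000000000000000000000000002cc0000022d00000000000003d100000000000003da0000000000000299000003e90000000000000000000000000000032f00000000000002c3000000000000000000000000000000a9000001150000023600000000000000eb00000000000001b600000305000003f20000000000000000000002a2000000000000007f000000000000028e0000000000000000000002b8000001e00000007600000000000001c7000000000000033a0000029f000002b1000000000000000000000000000003d500000000000002d90000000000000377000003ec00000000000000000000030e000000000000001300000000000003660000000000000000000003df00000342000000000000039f00000000000002c7000000000000000000000000000003190000022f000001ef000000000000015700000000000000090000000000000000000001f4000001550000000000000332000000000000036500000000000001c10000031700000000000000000000000000000221000000000000028d00000000000000000000000000000109000000e9000002f90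00000000000008900000000000001d4000001d3000002ab00000000000000000000037a000000000000001f00000000000002fa00000000000000000000023b00000163000000000000014900000000000001b5000000000000000000000000000000dd0000007d000001df000000000000001d00000000000001680000000000000000000000710000001100000000000000050000000000000001000000000000000d0000006d00000000000000000000016a000000000000001900000000000001db00000079000000d9000000000000000000000000000001b1000000000000014500000000000001670000023f0000000000000000000002fc000000000000002300000000000003780000000000000000000002a7000001cf000001d6000000000000008500000000000002f5000000e50000010d00000000000000000000000000000289000000000000021d00000000000000000000000000000313000001bd000000000000036100000000000003300000000000000151000001f200000000000000000000000a000000000000015b00000000000001f0000002330000031d000000000000000000000000000002c800000000000003a00000000000000344000003e30000000000000000000003680000000000000017000000000000030c0000000000000000000003ea0000037300000000000002da00000000000003d6000000000000000000000000000002ad0000029b0000033900000000000001c300000000000000750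00001e2000002ba000000000000000000000290000000000000008300000000000002a00000000000000000000003f000000301000001b800000000000000ef000000000000023400000119000000ad000000000000000000000000000002bf000000000000032b000000000000000000000000000003e50000029500000000000003d800000000000003cd0000000000000229000002ca00000000000000000000000000000202000000000000032800000000000000000000000000000241000003070000022600000000000001c900000000000000e10000000000000000000002b20000036d000000000000031e00000000000003a3000000000000033c000002d000000000000000000000014e000000000000015d000000000000010e000001e6000001f8000000000000000000000000000000ae000000000000004b000000000000004a000000b2000000000000000000000112000000000000014f000000000000015f0000000000000000000001ea000001fc000000e0000000000000022700000000000001cb000003290000020300000000000000000000000000000309000000000000024300000000000000000000000000000340000002d4000000000000036f00000000000002b600000000000003a500000322000000000000000000000074000000000000033800000000000001c5000003d7000002db0000000000000000000000000000029d00000000000002af00000000000003a1000002c900000000000000000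00001f1000000000000000b000000000000015600000000000000000000022e00000318000000000000037500000000000003ee00000000000000000000000000000343000003de000003100000000000000367000000000000001200000000000000000000022b000002ce000000000000029700000000000003e700000000000003cf000003dc0000000000000000000000000000030300000000000003f4000000000000000000000000000001e1000002b9000002a4000000000000028f000000000000007e0000032d000002c100000000000000000000023800000000000001b700000000000000ea000000000000000000000114000000a80000000800000000000001ee0000000000000159000002c60000039e00000000000000000000000000000231000000000000031b00000000000002d8000003d400000000000000000000033b000000000000007700000000000001c200000000000000000000029a000002ac000000000000034600000000000003e100000000000000000000000000000372000003eb0000036a000000000000030d0000000000000015000002000000032600000000000000000000022400000000000000e300000000000001c8000000000000000000000306000002400000014c000000000000010f000000000000015c000000af0000004d000000000000000000000000000001e700000000000001f90000000000000000000000000000036c000002b3000000000000033d00000000000002d10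00000000000031f000003a2000000000000000000000000000001e400000000000002bc00000000000000000000000000000300000003f10000029200000000000002a10000000000000081000000000000000000000294000003e4000000000000022800000000000002cb00000000000003d9000003cc0000000000000000000001ba000000000000023500000000000000ed000002be0000032a0000000000000000000000000000011700000000000000ab00000000000000000000000000000153000001f600000000000001bf0000000000000315000000000000033400000363000000000000000000000000000001d100000000000002a9000000000000000000000000000001620000023a0000037c00000000000002fb000000000000001e0000021f0000028b0000000000000000000002f700000000000001d500000000000000870000000000000000000000e7000001080000000000000165000000000000023d000000000000000000000000000001ce000002a6000002fe000000000000037900000000000000210000000000000000000001bc00000312000000000000015000000000000001f30000000000000360000003310000000000000000000001d800000000000002f40000000000000084000002880000021c000000000000000000000000000000e4000000000000010b0000000000000147000001b30000000000000000000001dd0000000000000169000000000000001b00000000000000000000007b000000db0000016c00000000000001da0000000000000018000001b0000001440000000000000000000000000000007800000000000000d80000000000000000000000000000000f0000006f000000000000000c000000000000006c00000000000000030000000000000000000000000000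

theorem spec : Spec 6 false idx RK 10 G := fun _ _ _ _ => by eq_refl

theorem cover : cov 7 false H RK CK 10 0 = true := by decide +kernel

end S7x0

namespace S7x0

noncomputable def ts0 : List Nat :=
  [nat_lit 190253232474964378676226596513531334097895970,
   nat_lit 190253232474964378676226596513531334097895424,
   nat_lit 190253232474964378676226596513531334097900506,
   nat_lit 190253232474964378676226596513531334097897944,
   nat_lit 190253232474964378676226596513531334098019954,
   nat_lit 190253232474964378676226596513531334098089464,
   nat_lit 190253232474964378676226596513531334102447342,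
   nat_lit 190253232474964378676226596513531334111501156,
   nat_lit 190253232474964378676226596513531334314631762,
   nat_lit 190253232474964378676226596513531335100839296,
   nat_lit 190253232474964378676226596513531346796311546,
   nat_lit 190253232474964378676226596513531413100350032,
   nat_lit 190253232474964378676226596513532208829015694,
   nat_lit 190253232474964378676226596513537902133084412,
   nat_lit 190253232474964378676226596513598913156973346,
   nat_lit 190253232474964378676226596514098166111927204,
   nat_lit 190253232474964378676226596519148001175031378,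
   nat_lit 190253232474964378676226596563632095870936592,
   nat_lit 190253232474964378676226597000892492181315982,
   nat_lit 190253232474964378676226601007040959006859804,
   nat_lit 190253232474964378676226639842434872335337234,
   nat_lit 190253232474964378676227003077980268069702588,
   nat_lit 190253232474964378676230500831849680360548722,
   nat_lit 190253232474964378676263572857991534695135100,
   nat_lit 190253232474964378676581025345658889446616254,
   nat_lit 190253232474964378679599815579203260711649364,
   nat_lit 190253232474964378708533000862651708063865250,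
   nat_lit 190253232474964378984506544614369377607809760,
   nat_lit 190253232474964381627670584508266741867773714,
   nat_lit 190253232474964406879874055858676347604643864,
   nat_lit 190253232474964648656661590415748219316158322,
   nat_lit 190253232474966960556092778314581792174968152,
   nat_lit 190253232474989092561130334583850955418316370,
   nat_lit 190253232475200821795567624775093567647464140,
   nat_lit 190253232477227595660975189019058159039773410,
   nat_lit 190253232496622058253020820689296951003491416,
   nat_lit 190253232682270485838090659297404185130573934]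

theorem run0 : go idx G base H RK CK 139 0 10 ts0 = true := by decide +kernel

end S7x0

namespace S7x1

noncomputable def idx : List Nat :=
  [nat_lit 2, nat_lit 6, nat_lit 14, nat_lit 16, nat_lit 18, nat_lit 22, nat_lit 26, nat_lit 32,
  nat_lit 34, nat_lit 38, nat_lit 42, nat_lit 46, nat_lit 48, nat_lit 54, nat_lit 58, nat_lit 62,
  nat_lit 64, nat_lit 66, nat_lit 74, nat_lit 78, nat_lit 86, nat_lit 88, nat_lit 92, nat_lit 96,
  nat_lit 100, nat_lit 102, nat_lit 110, nat_lit 114, nat_lit 122, nat_lit 124, nat_lit 126, nat_lit 130,
  nat_lit 134, nat_lit 136, nat_lit 138, nat_lit 144, nat_lit 148, nat_lit 152, nat_lit 158, nat_lit 160,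
  nat_lit 162, nat_lit 166, nat_lit 170, nat_lit 172, nat_lit 174, nat_lit 182, nat_lit 186, nat_lit 190,
  nat_lit 192, nat_lit 198, nat_lit 202, nat_lit 206, nat_lit 212, nat_lit 214, nat_lit 218, nat_lit 222,
  nat_lit 230, nat_lit 232, nat_lit 234, nat_lit 238, nat_lit 242, nat_lit 248, nat_lit 250, nat_lit 254,
  nat_lit 258, nat_lit 262, nat_lit 264, nat_lit 272, nat_lit 276, nat_lit 284, nat_lit 286, nat_lit 288,
  nat_lit 292, nat_lit 296, nat_lit 298, nat_lit 300, nat_lit 306, nat_lit 310, nat_lit 314, nat_lit 320,
  nat_lit 322, nat_lit 326, nat_lit 330, nat_lit 338, nat_lit 340, nat_lit 342, nat_lit 346, nat_lit 350,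
  nat_lit 356, nat_lit 358, nat_lit 362, nat_lit 366, nat_lit 370, nat_lit 372, nat_lit 378, nat_lit 382,
  nat_lit 386, nat_lit 388, nat_lit 390, nat_lit 398, nat_lit 402, nat_lit 406, nat_lit 408, nat_lit 414,
  nat_lit 418, nat_lit 422, nat_lit 428, nat_lit 430, nat_lit 432, nat_lit 436, nat_lit 440, nat_lit 442,
  nat_lit 444, nat_lit 452, nat_lit 456, nat_lit 464, nat_lit 466, nat_lit 470, nat_lit 474, nat_lit 478,
  nat_lit 480, nat_lit 486, nat_lit 490, nat_lit 494, nat_lit 496, nat_lit 498, nat_lit 506, nat_lit 510,
  nat_lit 514, nat_lit 516, nat_lit 522, nat_lit 526, nat_lit 530, nat_lit 536, nat_lit 538, nat_lit 542,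
  nat_lit 546, nat_lit 554, nat_lit 556, nat_lit 558, nat_lit 562, nat_lit 566, nat_lit 568, nat_lit 570,
  nat_lit 576, nat_lit 580, nat_lit 584, nat_lit 590, nat_lit 592, nat_lit 594, nat_lit 598, nat_lit 602,
  nat_lit 604, nat_lit 606, nat_lit 614, nat_lit 618, nat_lit 626, nat_lit 628, nat_lit 632, nat_lit 636,
  nat_lit 640, nat_lit 642, nat_lit 650, nat_lit 654, nat_lit 662, nat_lit 664, nat_lit 666, nat_lit 670,
  nat_lit 674, nat_lit 680, nat_lit 682, nat_lit 686, nat_lit 690, nat_lit 694, nat_lit 696, nat_lit 702,
  nat_lit 706, nat_lit 710, nat_lit 712, nat_lit 714, nat_lit 722, nat_lit 726, nat_lit 734, nat_lit 736,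
  nat_lit 740, nat_lit 744, nat_lit 748, nat_lit 750, nat_lit 758, nat_lit 762, nat_lit 770, nat_lit 772,
  nat_lit 774, nat_lit 778, nat_lit 782, nat_lit 784, nat_lit 786, nat_lit 792, nat_lit 796, nat_lit 800,
  nat_lit 806, nat_lit 808, nat_lit 812, nat_lit 816, nat_lit 824, nat_lit 826, nat_lit 828, nat_lit 832,
  nat_lit 836, nat_lit 842, nat_lit 844, nat_lit 848, nat_lit 852, nat_lit 856, nat_lit 858, nat_lit 864,
  nat_lit 868, nat_lit 872, nat_lit 874, nat_lit 876, nat_lit 884, nat_lit 888, nat_lit 892, nat_lit 894,
  nat_lit 900, nat_lit 904, nat_lit 908, nat_lit 914, nat_lit 916, nat_lit 918, nat_lit 922, nat_lit 926,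
  nat_lit 928, nat_lit 930, nat_lit 938, nat_lit 942, nat_lit 950, nat_lit 952, nat_lit 956, nat_lit 960,
  nat_lit 964, nat_lit 966, nat_lit 974, nat_lit 978, nat_lit 986, nat_lit 988, nat_lit 990, nat_lit 994,
  nat_lit 998, nat_lit 1004, nat_lit 1006, nat_lit 1010, nat_lit 1014, nat_lit 1018, nat_lit 1020, nat_lit 1026,
  nat_lit 1030, nat_lit 1034, nat_lit 1036, nat_lit 1038, nat_lit 1046, nat_lit 1050, nat_lit 1058, nat_lit 1060,
  nat_lit 1064, nat_lit 1068, nat_lit 1072, nat_lit 1074, nat_lit 1082, nat_lit 1086, nat_lit 1094, nat_lit 1096,
  nat_lit 1098, nat_lit 1102, nat_lit 1106, nat_lit 1108, nat_lit 1110, nat_lit 1116, nat_lit 1120, nat_lit 1124,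
  nat_lit 1130, nat_lit 1132, nat_lit 1134, nat_lit 1138, nat_lit 1142, nat_lit 1144, nat_lit 1146, nat_lit 1154,
  nat_lit 1158, nat_lit 1162, nat_lit 1164, nat_lit 1170, nat_lit 1174, nat_lit 1178, nat_lit 1184, nat_lit 1186,
  nat_lit 1190, nat_lit 1194, nat_lit 1202, nat_lit 1204, nat_lit 1206, nat_lit 1210, nat_lit 1214, nat_lit 1216,
  nat_lit 1218, nat_lit 1224, nat_lit 1228, nat_lit 1232, nat_lit 1238, nat_lit 1240, nat_lit 1242, nat_lit 1246,
  nat_lit 1250, nat_lit 1252, nat_lit 1254, nat_lit 1262, nat_lit 1266, nat_lit 1274, nat_lit 1276, nat_lit 1280,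
  nat_lit 1284, nat_lit 1288, nat_lit 1290, nat_lit 1296, nat_lit 1300, nat_lit 1304, nat_lit 1306, nat_lit 1308,
  nat_lit 1316, nat_lit 1320, nat_lit 1324, nat_lit 1326, nat_lit 1332, nat_lit 1336, nat_lit 1340, nat_lit 1346,
  nat_lit 1348, nat_lit 1352, nat_lit 1356, nat_lit 1364, nat_lit 1366, nat_lit 1368, nat_lit 1372, nat_lit 1376,
  nat_lit 1382, nat_lit 1384, nat_lit 1388, nat_lit 1392, nat_lit 1396, nat_lit 1398, nat_lit 1406, nat_lit 1410,
  nat_lit 1418, nat_lit 1420, nat_lit 1422, nat_lit 1426, nat_lit 1430, nat_lit 1432, nat_lit 1434, nat_lit 1440,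
  nat_lit 1444, nat_lit 1448, nat_lit 1454, nat_lit 1456, nat_lit 1458, nat_lit 1462, nat_lit 1466, nat_lit 1468,
  nat_lit 1470, nat_lit 1478, nat_lit 1482, nat_lit 1486, nat_lit 1488, nat_lit 1494, nat_lit 1498, nat_lit 1502,
  nat_lit 1508, nat_lit 1510, nat_lit 1514, nat_lit 1518, nat_lit 1526, nat_lit 1528, nat_lit 1530, nat_lit 1534,
  nat_lit 1538, nat_lit 1540, nat_lit 1542, nat_lit 1548, nat_lit 1552, nat_lit 1556, nat_lit 1562, nat_lit 1564,
  nat_lit 1566, nat_lit 1570, nat_lit 1574, nat_lit 1576, nat_lit 1578, nat_lit 1586, nat_lit 1590, nat_lit 1598,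
  nat_lit 1600, nat_lit 1604, nat_lit 1608, nat_lit 1612, nat_lit 1614, nat_lit 1622, nat_lit 1626, nat_lit 1634,
  nat_lit 1636, nat_lit 1638, nat_lit 1642, nat_lit 1646, nat_lit 1652, nat_lit 1654, nat_lit 1658, nat_lit 1662,
  nat_lit 1666, nat_lit 1668, nat_lit 1674, nat_lit 1678, nat_lit 1682, nat_lit 1684, nat_lit 1686, nat_lit 1694,
  nat_lit 1698, nat_lit 1702, nat_lit 1704, nat_lit 1710, nat_lit 1714, nat_lit 1718, nat_lit 1724, nat_lit 1726,
  nat_lit 1728, nat_lit 1732, nat_lit 1736, nat_lit 1738, nat_lit 1740, nat_lit 1748, nat_lit 1752, nat_lit 1760,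
  nat_lit 1762, nat_lit 1766, nat_lit 1770, nat_lit 1774, nat_lit 1776, nat_lit 1782, nat_lit 1786, nat_lit 1790,
  nat_lit 1792, nat_lit 1794, nat_lit 1802, nat_lit 1806, nat_lit 1810, nat_lit 1812, nat_lit 1818, nat_lit 1822,
  nat_lit 1826, nat_lit 1832, nat_lit 1834, nat_lit 1838, nat_lit 1842, nat_lit 1850, nat_lit 1852, nat_lit 1854,
  nat_lit 1858, nat_lit 1862, nat_lit 1868, nat_lit 1870, nat_lit 1874, nat_lit 1878, nat_lit 1882, nat_lit 1884,
  nat_lit 1892, nat_lit 1896, nat_lit 1904, nat_lit 1906, nat_lit 1908, nat_lit 1912, nat_lit 1916, nat_lit 1918,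
  nat_lit 1920, nat_lit 1926, nat_lit 1930, nat_lit 1934, nat_lit 1940, nat_lit 1942, nat_lit 1946, nat_lit 1950,
  nat_lit 1958, nat_lit 1960, nat_lit 1962, nat_lit 1966, nat_lit 1970, nat_lit 1976, nat_lit 1978, nat_lit 1982,
  nat_lit 1986, nat_lit 1990, nat_lit 1992, nat_lit 1998, nat_lit 2002, nat_lit 2006, nat_lit 2008, nat_lit 2010,
  nat_lit 2018, nat_lit 2022, nat_lit 2030, nat_lit 2032, nat_lit 2036, nat_lit 2040, nat_lit 2044, nat_lit 2046,
  nat_lit 2054, nat_lit 2058, nat_lit 2066, nat_lit 2068, nat_lit 2070, nat_lit 2074, nat_lit 2078, nat_lit 2080,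
  nat_lit 2082, nat_lit 2088, nat_lit 2092, nat_lit 2096, nat_lit 2102, nat_lit 2104, nat_lit 2106, nat_lit 2110,
  nat_lit 2114, nat_lit 2116, nat_lit 2118, nat_lit 2126, nat_lit 2130, nat_lit 2134, nat_lit 2136, nat_lit 2142,
  nat_lit 2146, nat_lit 2150, nat_lit 2156, nat_lit 2158, nat_lit 2162, nat_lit 2166, nat_lit 2174, nat_lit 2176,
  nat_lit 2178, nat_lit 2182, nat_lit 2186]

def TT : Type :=
  Nat → Nat → Nat → Nat → Nat → Nat → Nat → Nat → Nat → Nat → Nat → Nat → Nat → Nat → Nat → Nat →
  Nat → Nat → Nat → Nat → Nat → Nat → Nat → Nat → Nat → Nat → Nat → Nat → Nat → Nat → Nat → Nat →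
  Nat → Nat → Nat → Nat → Nat → Nat → Nat → Nat → Nat → Nat → Nat → Nat → Nat → Nat → Nat → Nat →
  Nat → Nat → Nat → Nat → Nat → Nat → Nat → Nat → Nat → Nat → Nat → Nat → Nat → Nat → Nat → Nat →
  Nat → Nat → Nat → Nat → Nat → Nat → Nat → Nat → Nat → Nat → Nat → Nat → Nat → Nat → Nat → Nat →
  Nat → Nat → Nat → Nat → Nat → Nat → Nat → Nat → Nat → Nat → Nat → Nat → Nat → Nat → Nat → Nat →
  Nat → Nat → Nat → Nat → Nat → Nat → Nat → Nat → Nat → Nat → Nat → Nat → Nat → Nat → Nat → Nat →
  Nat → Nat → Nat → Nat → Nat → Nat → Nat → Nat → Nat → Nat → Nat → Nat → Nat → Nat → Nat → Nat →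
  Nat → Nat → Nat → Nat → Nat → Nat → Nat → Nat → Nat → Nat → Nat → Nat → Nat → Nat → Nat → Nat →
  Nat → Nat → Nat → Nat → Nat → Nat → Nat → Nat → Nat → Nat → Nat → Nat → Nat → Nat → Nat → Nat →
  Nat → Nat → Nat → Nat → Nat → Nat → Nat → Nat → Nat → Nat → Nat → Nat → Nat → Nat → Nat → Nat →
  Nat → Nat → Nat → Nat → Nat → Nat → Nat → Nat → Nat → Nat → Nat → Nat → Nat → Nat → Nat → Nat →
  Nat → Nat → Nat → Nat → Nat → Nat → Nat → Nat → Nat → Nat → Nat → Nat → Nat → Nat → Nat → Nat →
  Nat → Nat → Nat → Nat → Nat → Nat → Nat → Nat → Nat → Nat → Nat → Nat → Nat → Nat → Nat → Nat →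
  Nat → Nat → Nat → Nat → Nat → Nat → Nat → Nat → Nat → Nat → Nat → Nat → Nat → Nat → Nat → Nat →
  Nat → Nat → Nat → Nat → Nat → Nat → Nat → Nat → Nat → Nat → Nat → Nat → Nat → Nat → Nat → Nat →
  Nat → Nat → Nat → Nat → Nat → Nat → Nat → Nat → Nat → Nat → Nat → Nat → Nat → Nat → Nat → Nat →
  Nat → Nat → Nat → Nat → Nat → Nat → Nat → Nat → Nat → Nat → Nat → Nat → Nat → Nat → Nat → Nat →
  Nat → Nat → Nat → Nat → Nat → Nat → Nat → Nat → Nat → Nat → Nat → Nat → Nat → Nat → Nat → Nat →
  Nat → Nat → Nat → Nat → Nat → Nat → Nat → Nat → Nat → Nat → Nat → Nat → Nat → Nat → Nat → Nat →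
  Nat → Nat → Nat → Nat → Nat → Nat → Nat → Nat → Nat → Nat → Nat → Nat → Nat → Nat → Nat → Nat →
  Nat → Nat → Nat → Nat → Nat → Nat → Nat → Nat → Nat → Nat → Nat → Nat → Nat → Nat → Nat → Nat →
  Nat → Nat → Nat → Nat → Nat → Nat → Nat → Nat → Nat → Nat → Nat → Nat → Nat → Nat → Nat → Nat →
  Nat → Nat → Nat → Nat → Nat → Nat → Nat → Nat → Nat → Nat → Nat → Nat → Nat → Nat → Nat → Nat →
  Nat → Nat → Nat → Nat → Nat → Nat → Nat → Nat → Nat → Nat → Nat → Nat → Nat → Nat → Nat → Nat →
  Nat → Nat → Nat → Nat → Nat → Nat → Nat → Nat → Nat → Nat → Nat → Nat → Nat → Nat → Nat → Nat →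
  Nat → Nat → Nat → Nat → Nat → Nat → Nat → Nat → Nat → Nat → Nat → Nat → Nat → Nat → Nat → Nat →
  Nat → Nat → Nat → Nat → Nat → Nat → Nat → Nat → Nat → Nat → Nat → Nat → Nat → Nat → Nat → Nat →
  Nat → Nat → Nat → Nat → Nat → Nat → Nat → Nat → Nat → Nat → Nat → Nat → Nat → Nat → Nat → Nat →
  Nat → Nat → Nat → Nat → Nat → Nat → Nat → Nat → Nat → Nat → Nat → Nat → Nat → Nat → Nat → Nat →
  Nat → Nat → Nat → Nat → Nat → Nat → Nat → Nat → Nat → Nat → Nat → Nat → Nat → Nat → Nat → Nat →
  Nat → Nat → Nat → Nat → Nat → Nat → Nat → Nat → Nat → Nat → Nat → Nat → Nat → Nat → Nat → Nat →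
  Nat → Nat → Nat → Nat → Nat → Nat → Nat → Nat → Nat → Nat → Nat → Nat → Nat → Nat → Nat → Nat →
  Nat → Nat → Nat → Nat → Nat → Nat → Nat → Nat → Nat → Nat → Nat → Nat → Nat → Nat → Nat → Nat →
  Nat → Nat → Nat → Bool

noncomputable def base : TT :=
  fun _ _ _ _ _ _ _ _ _ _ _ _ _ _ _ _ _ _ _ _ _ _ _ _ _ _ _ _ _ _ _ _ _ _ _ _ _ _ _ _
  _ _ _ _ _ _ _ _ _ _ _ _ _ _ _ _ _ _ _ _ _ _ _ _ _ _ _ _ _ _ _ _ _ _ _ _ _ _ _ _
  _ _ _ _ _ _ _ _ _ _ _ _ _ _ _ _ _ _ _ _ _ _ _ _ _ _ _ _ _ _ _ _ _ _ _ _ _ _ _ _
  _ _ _ _ _ _ _ _ _ _ _ _ _ _ _ _ _ _ _ _ _ _ _ _ _ _ _ _ _ _ _ _ _ _ _ _ _ _ _ _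
  _ _ _ _ _ _ _ _ _ _ _ _ _ _ _ _ _ _ _ _ _ _ _ _ _ _ _ _ _ _ _ _ _ _ _ _ _ _ _ _
  _ _ _ _ _ _ _ _ _ _ _ _ _ _ _ _ _ _ _ _ _ _ _ _ _ _ _ _ _ _ _ _ _ _ _ _ _ _ _ _
  _ _ _ _ _ _ _ _ _ _ _ _ _ _ _ _ _ _ _ _ _ _ _ _ _ _ _ _ _ _ _ _ _ _ _ _ _ _ _ _
  _ _ _ _ _ _ _ _ _ _ _ _ _ _ _ _ _ _ _ _ _ _ _ _ _ _ _ _ _ _ _ _ _ _ _ _ _ _ _ _
  _ _ _ _ _ _ _ _ _ _ _ _ _ _ _ _ _ _ _ _ _ _ _ _ _ _ _ _ _ _ _ _ _ _ _ _ _ _ _ _
  _ _ _ _ _ _ _ _ _ _ _ _ _ _ _ _ _ _ _ _ _ _ _ _ _ _ _ _ _ _ _ _ _ _ _ _ _ _ _ _
  _ _ _ _ _ _ _ _ _ _ _ _ _ _ _ _ _ _ _ _ _ _ _ _ _ _ _ _ _ _ _ _ _ _ _ _ _ _ _ _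
  _ _ _ _ _ _ _ _ _ _ _ _ _ _ _ _ _ _ _ _ _ _ _ _ _ _ _ _ _ _ _ _ _ _ _ _ _ _ _ _
  _ _ _ _ _ _ _ _ _ _ _ _ _ _ _ _ _ _ _ _ _ _ _ _ _ _ _ _ _ _ _ _ _ _ _ _ _ _ _ _
  _ _ _ _ _ _ _ _ _ _ _ _ _ _ _ _ _ _ _ _ _ _ _ _ _ _ _ => true

noncomputable def G (chk : List Nat → Bool) (C : Nat) (k : TT) : TT :=
  fun x2 x6 x14 x16 x18 x22 x26 x32 x34 x38 x42 x46 x48 x54 x58 x62
  x64 x66 x74 x78 x86 x88 x92 x96 x100 x102 x110 x114 x122 x124 x126 x130
  x134 x136 x138 x144 x148 x152 x158 x160 x162 x166 x170 x172 x174 x182 x186 x190
  x192 x198 x202 x206 x212 x214 x218 x222 x230 x232 x234 x238 x242 x248 x250 x254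
  x258 x262 x264 x272 x276 x284 x286 x288 x292 x296 x298 x300 x306 x310 x314 x320
  x322 x326 x330 x338 x340 x342 x346 x350 x356 x358 x362 x366 x370 x372 x378 x382
  x386 x388 x390 x398 x402 x406 x408 x414 x418 x422 x428 x430 x432 x436 x440 x442
  x444 x452 x456 x464 x466 x470 x474 x478 x480 x486 x490 x494 x496 x498 x506 x510
  x514 x516 x522 x526 x530 x536 x538 x542 x546 x554 x556 x558 x562 x566 x568 x570
  x576 x580 x584 x590 x592 x594 x598 x602 x604 x606 x614 x618 x626 x628 x632 x636
  x640 x642 x650 x654 x662 x664 x666 x670 x674 x680 x682 x686 x690 x694 x696 x702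
  x706 x710 x712 x714 x722 x726 x734 x736 x740 x744 x748 x750 x758 x762 x770 x772
  x774 x778 x782 x784 x786 x792 x796 x800 x806 x808 x812 x816 x824 x826 x828 x832
  x836 x842 x844 x848 x852 x856 x858 x864 x868 x872 x874 x876 x884 x888 x892 x894
  x900 x904 x908 x914 x916 x918 x922 x926 x928 x930 x938 x942 x950 x952 x956 x960
  x964 x966 x974 x978 x986 x988 x990 x994 x998 x1004 x1006 x1010 x1014 x1018 x1020 x1026
  x1030 x1034 x1036 x1038 x1046 x1050 x1058 x1060 x1064 x1068 x1072 x1074 x1082 x1086 x1094 x1096
  x1098 x1102 x1106 x1108 x1110 x1116 x1120 x1124 x1130 x1132 x1134 x1138 x1142 x1144 x1146 x1154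
  x1158 x1162 x1164 x1170 x1174 x1178 x1184 x1186 x1190 x1194 x1202 x1204 x1206 x1210 x1214 x1216
  x1218 x1224 x1228 x1232 x1238 x1240 x1242 x1246 x1250 x1252 x1254 x1262 x1266 x1274 x1276 x1280
  x1284 x1288 x1290 x1296 x1300 x1304 x1306 x1308 x1316 x1320 x1324 x1326 x1332 x1336 x1340 x1346
  x1348 x1352 x1356 x1364 x1366 x1368 x1372 x1376 x1382 x1384 x1388 x1392 x1396 x1398 x1406 x1410
  x1418 x1420 x1422 x1426 x1430 x1432 x1434 x1440 x1444 x1448 x1454 x1456 x1458 x1462 x1466 x1468
  x1470 x1478 x1482 x1486 x1488 x1494 x1498 x1502 x1508 x1510 x1514 x1518 x1526 x1528 x1530 x1534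
  x1538 x1540 x1542 x1548 x1552 x1556 x1562 x1564 x1566 x1570 x1574 x1576 x1578 x1586 x1590 x1598
  x1600 x1604 x1608 x1612 x1614 x1622 x1626 x1634 x1636 x1638 x1642 x1646 x1652 x1654 x1658 x1662
  x1666 x1668 x1674 x1678 x1682 x1684 x1686 x1694 x1698 x1702 x1704 x1710 x1714 x1718 x1724 x1726
  x1728 x1732 x1736 x1738 x1740 x1748 x1752 x1760 x1762 x1766 x1770 x1774 x1776 x1782 x1786 x1790
  x1792 x1794 x1802 x1806 x1810 x1812 x1818 x1822 x1826 x1832 x1834 x1838 x1842 x1850 x1852 x1854
  x1858 x1862 x1868 x1870 x1874 x1878 x1882 x1884 x1892 x1896 x1904 x1906 x1908 x1912 x1916 x1918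
  x1920 x1926 x1930 x1934 x1940 x1942 x1946 x1950 x1958 x1960 x1962 x1966 x1970 x1976 x1978 x1982
  x1986 x1990 x1992 x1998 x2002 x2006 x2008 x2010 x2018 x2022 x2030 x2032 x2036 x2040 x2044 x2046
  x2054 x2058 x2066 x2068 x2070 x2074 x2078 x2080 x2082 x2088 x2092 x2096 x2102 x2104 x2106 x2110
  x2114 x2116 x2118 x2126 x2130 x2134 x2136 x2142 x2146 x2150 x2156 x2158 x2162 x2166 x2174 x2176
  x2178 x2182 x2186 =>
  Bool.rec false (k
  (sub (add (add (add (add (add (add (add (add (add (add (sub C x6) x14) x26) x38) x74) x110) x218) x326) x650) x974) x1946) x1458)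
  (add (add (add (add (add (add (add (add (add (add (sub (sub C x2) x18) x42) x78) x114) x222) x330) x654) x978) x1950) x736) x1466)
  (sub (add (add (add (add (add (add (sub (add (add (sub C x16) x2) x26) x32) x122) x230) x338) x662) x986) x1958) x1470)
  (sub (add (add (add (add (add (add (sub (sub (sub C x14) x22) x34) x124) x232) x340) x664) x988) x1960) x744)
  (add (add (add (add (add (add (add (add (sub (sub (add (add C x22) x26) x6) x54) x126) x234) x342) x666) x990) x1962) x748) x1478)
  (sub (add (add (add (add (add (add (sub (sub (add (add C x18) x26) x16) x58) x130) x238) x346) x670) x994) x1966) x750)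
  (sub (add (add (add (add (add (add (sub (add (add (add (add C x18) x22) x2) x14) x62) x134) x242) x350) x674) x998) x1970) x1482)
  (sub (add (add (add (add (sub (sub (sub (sub C x34) x38) x14) x86) x356) x680) x1004) x1976) x1488)
  (sub (add (add (add (add (sub (sub (sub (sub C x32) x46) x16) x88) x358) x682) x1006) x1978) x762)
  (sub (add (add (add (add (sub (add (add (sub (sub C x42) x32) x2) x74) x92) x362) x686) x1010) x1982) x1494)
  (add (add (add (add (add (add (sub (add (add (sub (sub C x38) x48) x6) x78) x96) x366) x690) x1014) x1986) x772) x1502)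
  (sub (add (add (add (add (sub (sub (sub (sub C x48) x34) x64) x100) x370) x694) x1018) x1990) x774)
  (add (add (add (add (add (add (sub (sub (sub (sub C x46) x42) x66) x102) x372) x696) x1020) x1992) x778) x1508)
  (add (add (add (add (add (add (sub (sub (add (add (add (add C x58) x62) x66) x78) x18) x162) x378) x702) x1026) x1998) x784) x1514)
  (sub (add (add (add (add (sub (sub (sub (add (add C x54) x62) x64) x22) x166) x382) x706) x1030) x2002) x786)
  (sub (add (add (add (add (sub (sub (sub (add (add C x54) x58) x74) x26) x170) x386) x710) x1034) x2006) x1518)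
  (sub (add (add (add (add (sub (sub (sub (sub C x66) x58) x46) x172) x388) x712) x1036) x2008) x792)
  (add (add (add (add (add (add (sub (sub (add (add (sub C x64) x54) x78) x48) x174) x390) x714) x1038) x2010) x796) x1526)
  (sub (add (add (add (add (sub (add (add (sub (sub C x78) x62) x2) x38) x182) x398) x722) x1046) x2018) x1530)
  (add (add (add (add (add (add (sub (add (add (add (add (sub C x74) x54) x66) x6) x42) x186) x402) x726) x1050) x2022) x808) x1538)
  (sub (add (add (sub (sub (add (add (sub (sub C x88) x92) x122) x158) x32) x248) x1058) x2030) x1542)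
  (sub (add (add (sub (sub (add (add (sub (sub C x86) x100) x124) x160) x34) x250) x1060) x2032) x816)
  (sub (add (add (sub (sub (sub (sub (sub C x96) x86) x110) x38) x254) x1064) x2036) x1548)
  (add (add (add (add (sub (sub (sub (sub (sub C x92) x102) x114) x42) x258) x1068) x2040) x826) x1556)
  (sub (add (add (sub (sub (sub (sub (sub C x102) x88) x136) x46) x262) x1072) x2044) x828)
  (add (add (add (add (sub (sub (sub (sub (sub C x100) x96) x138) x48) x264) x1074) x2046) x832) x1562)
  (sub (add (add (sub (add (add (sub (add (add (sub C x114) x122) x134) x92) x2) x218) x272) x1082) x2054) x1566)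
  (add (add (add (add (sub (add (add (sub (sub (sub C x110) x126) x96) x6) x222) x276) x1086) x2058) x844) x1574)
  (sub (add (add (sub (add (add (add (add (add (add (sub C x124) x110) x134) x86) x158) x14) x230) x284) x1094) x2066) x1578)
  (sub (add (add (sub (add (add (add (add (sub (sub C x122) x130) x88) x160) x16) x232) x286) x1096) x2068) x852)
  (add (add (add (add (sub (add (add (sub (sub (add (add C x130) x134) x114) x144) x18) x234) x288) x1098) x2070) x856) x1586)
  (sub (add (add (sub (add (add (sub (sub (add (add C x126) x134) x124) x148) x22) x238) x292) x1102) x2074) x858)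
  (sub (add (add (sub (add (add (sub (add (add (add (add C x126) x130) x110) x122) x152) x26) x242) x296) x1106) x2078) x1590)
  (sub (add (add (sub (sub (sub (add (add (sub C x138) x148) x160) x100) x190) x298) x1108) x2080) x864)
  (add (add (add (add (sub (sub (sub (sub (sub C x136) x144) x102) x192) x300) x1110) x2082) x868) x1598)
  (add (add (add (add (sub (sub (sub (sub (add (add C x148) x152) x138) x126) x198) x306) x1116) x2088) x874) x1604)
  (sub (add (add (sub (sub (sub (add (add (add (add C x144) x152) x136) x160) x130) x202) x310) x1120) x2092) x876)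
  (sub (add (add (sub (sub (sub (sub (add (add C x144) x148) x158) x134) x206) x314) x1124) x2096) x1608)
  (sub (add (add (sub (sub (add (add (sub (sub C x160) x152) x86) x122) x212) x320) x1130) x2102) x1614)
  (sub (add (add (sub (sub (add (add (add (add (sub C x158) x136) x148) x88) x124) x214) x322) x1132) x2104) x888)
  (add (add (add (add (sub (sub (add (add (add (add (add (add C x166) x170) x174) x186) x198) x234) x54) x486) x1134) x2106) x892) x1622)
  (sub (add (add (sub (sub (add (add (sub (add (add C x162) x170) x172) x202) x238) x58) x490) x1138) x2110) x894)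
  (sub (add (add (sub (sub (add (add (sub (add (add C x162) x166) x182) x206) x242) x62) x494) x1142) x2114) x1626)
  (sub (add (add (sub (sub (sub (sub (sub C x174) x166) x190) x64) x496) x1144) x2116) x900)
  (add (add (add (add (sub (sub (sub (add (add (sub C x172) x162) x186) x192) x66) x498) x1146) x2118) x904) x1634)
  (sub (add (add (sub (sub (sub (sub (sub C x186) x170) x218) x74) x506) x1154) x2126) x1638)
  (add (add (add (add (sub (sub (sub (add (add (sub C x182) x162) x174) x222) x78) x510) x1158) x2130) x916) x1646)
  (sub (add (add (sub (sub (sub (add (add (sub C x192) x202) x214) x172) x136) x514) x1162) x2134) x918)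
  (add (add (add (add (sub (sub (sub (sub (sub C x190) x198) x174) x138) x516) x1164) x2136) x922) x1652)
  (add (add (add (add (sub (sub (add (add (sub (add (add C x202) x206) x192) x162) x234) x144) x522) x1170) x2142) x928) x1658)
  (sub (add (add (sub (sub (add (add (add (add (add (add C x198) x206) x190) x214) x166) x238) x148) x526) x1174) x2146) x930)
  (sub (add (add (sub (sub (add (add (sub (add (add C x198) x202) x212) x170) x242) x152) x530) x1178) x2150) x1662)
  (sub (add (add (sub (sub (sub (sub (sub C x214) x206) x230) x158) x536) x1184) x2156) x1668)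
  (sub (add (add (sub (sub (sub (add (add (sub C x212) x190) x202) x232) x160) x538) x1186) x2158) x942)
  (sub (add (add (sub (add (add (sub (add (add (sub C x222) x230) x242) x182) x2) x110) x542) x1190) x2162) x1674)
  (add (add (add (add (sub (add (add (sub (sub (sub C x218) x234) x186) x6) x114) x546) x1194) x2166) x952) x1682)
  (sub (add (add (sub (add (add (sub (add (add (sub C x232) x218) x242) x212) x14) x122) x554) x1202) x2174) x1686)
  (sub (add (add (sub (add (add (sub (sub (sub C x230) x238) x214) x16) x124) x556) x1204) x2176) x960)
  (add (add (add (add (sub (add (add (add (add (sub (add (add C x238) x242) x222) x162) x198) x18) x126) x558) x1206) x2178) x964) x1694)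
  (sub (add (add (sub (add (add (add (add (sub (add (add C x234) x242) x232) x166) x202) x22) x130) x562) x1210) x2182) x966)
  (sub (add (add (sub (add (add (add (add (add (add (add (add C x234) x238) x218) x230) x170) x206) x26) x134) x566) x1214) x2186) x1698)
  (sub (sub (sub (add (add (add (add (sub (sub C x250) x254) x284) x320) x356) x464) x86) x734) x1704)
  (sub (sub (sub (add (add (add (add (sub (sub C x248) x262) x286) x322) x358) x466) x88) x736) x978)
  (sub (sub (sub (add (add (sub (sub (sub C x258) x248) x272) x362) x470) x92) x740) x1710)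
  (add (add (sub (sub (add (add (sub (sub (sub C x254) x264) x276) x366) x474) x96) x744) x988) x1718)
  (sub (sub (sub (add (add (sub (sub (sub C x264) x250) x298) x370) x478) x100) x748) x990)
  (add (add (sub (sub (add (add (sub (sub (sub C x262) x258) x300) x372) x480) x102) x750) x994) x1724)
  (sub (sub (sub (sub (sub (add (add (sub C x276) x284) x296) x254) x326) x110) x758) x1728)
  (add (add (sub (sub (sub (sub (sub (sub C x272) x288) x258) x330) x114) x762) x1006) x1736)
  (sub (sub (sub (sub (add (add (add (add (sub C x286) x272) x296) x248) x320) x338) x122) x770) x1740)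
  (sub (sub (sub (sub (add (add (sub (sub C x284) x292) x250) x322) x340) x124) x772) x1014)
  (add (add (sub (sub (sub (sub (sub (add (add C x292) x296) x276) x306) x342) x126) x774) x1018) x1748)
  (sub (sub (sub (sub (sub (sub (add (add C x288) x296) x286) x310) x346) x130) x778) x1020)
  (sub (sub (sub (sub (sub (add (add (add (add C x288) x292) x272) x284) x314) x350) x134) x782) x1752)
  (sub (sub (sub (sub (sub (add (add (sub C x300) x310) x322) x262) x406) x136) x784) x1026)
  (add (add (sub (sub (sub (sub (sub (sub C x298) x306) x264) x408) x138) x786) x1030) x1760)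
  (add (add (sub (sub (sub (sub (sub (add (add C x310) x314) x300) x288) x414) x144) x792) x1036) x1766)
  (sub (sub (sub (sub (sub (add (add (add (add C x306) x314) x298) x322) x292) x418) x148) x796) x1038)
  (sub (sub (sub (sub (sub (sub (add (add C x306) x310) x320) x296) x422) x152) x800) x1770)
  (sub (sub (sub (sub (add (add (sub (sub C x322) x314) x248) x284) x428) x158) x806) x1776)
  (sub (sub (sub (sub (add (add (add (add (sub C x320) x298) x310) x250) x286) x430) x160) x808) x1050)
  (sub (sub (add (add (sub (add (add (add (add (sub C x330) x338) x350) x362) x398) x272) x2) x650) x812) x1782)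
  (add (add (sub (add (add (sub (add (add (sub (sub C x326) x342) x366) x402) x276) x6) x654) x816) x1060) x1790)
  (sub (sub (add (add (sub (sub (add (add (sub C x340) x326) x350) x356) x284) x14) x662) x824) x1794)
  (sub (sub (add (add (sub (sub (sub (sub C x338) x346) x358) x286) x16) x664) x826) x1068)
  (add (add (sub (add (add (sub (sub (sub (add (add C x346) x350) x330) x378) x288) x18) x666) x828) x1072) x1802)
  (sub (sub (add (add (sub (sub (sub (add (add C x342) x350) x340) x382) x292) x22) x670) x832) x1074)
  (sub (sub (add (add (sub (sub (add (add (add (add C x342) x346) x326) x338) x386) x296) x26) x674) x836) x1806)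
  (sub (sub (add (add (add (add (sub (sub (sub C x358) x362) x338) x248) x464) x32) x680) x842) x1812)
  (sub (sub (add (add (add (add (sub (sub (sub C x356) x370) x340) x250) x466) x34) x682) x844) x1086)
  (sub (sub (add (add (add (add (add (add (sub (sub C x366) x356) x326) x398) x254) x470) x38) x686) x848) x1818)
  (add (add (sub (add (add (add (add (add (add (sub (sub C x362) x372) x330) x402) x258) x474) x42) x690) x852) x1096) x1826)
  (sub (sub (add (add (add (add (sub (sub (sub C x372) x358) x388) x262) x478) x46) x694) x856) x1098)
  (add (add (sub (add (add (add (add (sub (sub (sub C x370) x366) x390) x264) x480) x48) x696) x858) x1102) x1832)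
  (add (add (sub (add (add (sub (sub (add (add (add (add C x382) x386) x390) x402) x342) x432) x54) x702) x864) x1108) x1838)
  (sub (sub (add (add (sub (sub (sub (add (add C x378) x386) x388) x346) x436) x58) x706) x868) x1110)
  (sub (sub (add (add (sub (sub (sub (add (add C x378) x382) x398) x350) x440) x62) x710) x872) x1842)
  (sub (sub (add (add (sub (sub (sub (sub C x390) x382) x370) x442) x64) x712) x874) x1116)
  (add (add (sub (add (add (sub (sub (add (add (sub C x388) x378) x402) x372) x444) x66) x714) x876) x1120) x1850)
  (sub (sub (add (add (sub (add (add (sub (sub C x402) x386) x326) x362) x452) x74) x722) x884) x1854)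
  (add (add (sub (add (add (sub (add (add (add (add (sub C x398) x378) x390) x330) x366) x456) x78) x726) x888) x1132) x1862)
  (sub (sub (sub (sub (add (add (add (add (sub C x408) x418) x430) x442) x478) x298) x568) x892) x1134)
  (add (add (sub (sub (sub (add (add (sub (sub C x406) x414) x444) x480) x300) x570) x894) x1138) x1868)
  (add (add (sub (sub (sub (sub (sub (add (add C x418) x422) x408) x432) x306) x576) x900) x1144) x1874)
  (sub (sub (sub (sub (sub (add (add (add (add C x414) x422) x406) x430) x436) x310) x580) x904) x1146)
  (sub (sub (sub (sub (sub (sub (add (add C x414) x418) x428) x440) x314) x584) x908) x1878)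
  (sub (sub (sub (sub (sub (sub (sub C x430) x422) x464) x320) x590) x914) x1884)
  (sub (sub (sub (sub (sub (add (add (sub C x428) x406) x418) x466) x322) x592) x916) x1158)
  (add (add (sub (sub (sub (sub (add (add (add (add C x436) x440) x444) x456) x414) x378) x594) x918) x1162) x1892)
  (sub (sub (sub (sub (sub (sub (add (add C x432) x440) x442) x418) x382) x598) x922) x1164)
  (sub (sub (sub (sub (sub (sub (add (add C x432) x436) x452) x422) x386) x602) x926) x1896)
  (sub (sub (sub (sub (add (add (sub (sub C x444) x436) x406) x478) x388) x604) x928) x1170)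
  (add (add (sub (sub (sub (add (add (add (add (sub C x442) x432) x456) x408) x480) x390) x606) x930) x1174) x1904)
  (sub (sub (sub (sub (sub (sub (sub C x456) x440) x470) x398) x614) x938) x1908)
  (add (add (sub (sub (sub (sub (add (add (sub C x452) x432) x444) x474) x402) x618) x942) x1186) x1916)
  (sub (sub (sub (add (add (sub (sub (sub C x466) x470) x428) x248) x356) x626) x950) x1920)
  (sub (sub (sub (add (add (sub (sub (sub C x464) x478) x430) x250) x358) x628) x952) x1194)
  (sub (sub (sub (add (add (sub (sub (sub C x474) x464) x452) x254) x362) x632) x956) x1926)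
  (add (add (sub (sub (add (add (sub (sub (sub C x470) x480) x456) x258) x366) x636) x960) x1204) x1934)
  (sub (sub (sub (add (add (add (add (sub (sub C x480) x466) x406) x442) x262) x370) x640) x964) x1206)
  (add (add (sub (sub (add (add (add (add (sub (sub C x478) x474) x408) x444) x264) x372) x642) x966) x1210) x1940)
  (add (add (sub (sub (add (add (add (add (add (add (add (add C x490) x494) x498) x510) x522) x558) x594) x702) x162) x1458) x1216) x1946)
  (sub (sub (sub (add (add (add (add (sub (add (add C x486) x494) x496) x526) x562) x598) x706) x166) x1462) x1218)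
  (sub (sub (sub (add (add (add (add (sub (add (add C x486) x490) x506) x530) x566) x602) x710) x170) x1466) x1950)
  (sub (sub (sub (add (add (sub (sub (sub C x498) x490) x514) x604) x712) x172) x1468) x1224)
  (add (add (sub (sub (add (add (sub (add (add (sub C x496) x486) x510) x516) x606) x714) x174) x1470) x1228) x1958)
  (sub (sub (sub (add (add (sub (sub (sub C x510) x494) x542) x614) x722) x182) x1478) x1962)
  (add (add (sub (sub (add (add (sub (add (add (sub C x506) x486) x498) x546) x618) x726) x186) x1482) x1240) x1970)
  (sub (sub (sub (sub (sub (add (add (sub C x516) x526) x538) x496) x568) x190) x1486) x1242)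
  (add (add (sub (sub (sub (sub (sub (sub C x514) x522) x498) x570) x192) x1488) x1246) x1976)
  (add (add (sub (sub (sub (add (add (sub (add (add C x526) x530) x516) x486) x558) x576) x198) x1494) x1252) x1982)
  (sub (sub (sub (sub (add (add (add (add (add (add C x522) x530) x514) x538) x490) x562) x580) x202) x1498) x1254)
  (sub (sub (sub (sub (add (add (sub (add (add C x522) x526) x536) x494) x566) x584) x206) x1502) x1986)
  (sub (sub (sub (sub (sub (sub (sub C x538) x530) x554) x590) x212) x1508) x1992)
  (sub (sub (sub (sub (sub (add (add (sub C x536) x514) x526) x556) x592) x214) x1510) x1266)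
  (sub (sub (sub (sub (sub (add (add (sub C x546) x554) x566) x506) x650) x218) x1514) x1998)
  (add (add (sub (sub (sub (sub (sub (sub C x542) x558) x510) x654) x222) x1518) x1276) x2006)
  (sub (sub (sub (sub (sub (add (add (sub C x556) x542) x566) x536) x662) x230) x1526) x2010)
  (sub (sub (sub (sub (sub (sub (sub C x554) x562) x538) x664) x232) x1528) x1284)
  (add (add (sub (sub (sub (add (add (sub (add (add C x562) x566) x546) x486) x522) x666) x234) x1530) x1288) x2018)
  (sub (sub (sub (sub (add (add (sub (add (add C x558) x566) x556) x490) x526) x670) x238) x1534) x1290)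
  (sub (sub (sub (sub (add (add (add (add (add (add C x558) x562) x542) x554) x494) x530) x674) x242) x1538) x2022)
  (sub (sub (sub (sub (add (add (add (add (sub C x570) x580) x592) x604) x640) x514) x406) x1540) x1296)
  (add (add (sub (sub (sub (add (add (sub (sub C x568) x576) x606) x642) x516) x408) x1542) x1300) x2030)
  (add (add (sub (sub (sub (sub (sub (add (add C x580) x584) x570) x594) x522) x414) x1548) x1306) x2036)
  (sub (sub (sub (sub (sub (add (add (add (add C x576) x584) x568) x592) x598) x526) x418) x1552) x1308)
  (sub (sub (sub (sub (sub (sub (add (add C x576) x580) x590) x602) x530) x422) x1556) x2040)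
  (sub (sub (sub (sub (sub (sub (sub C x592) x584) x626) x536) x428) x1562) x2046)
  (sub (sub (sub (sub (sub (add (add (sub C x590) x568) x580) x628) x538) x430) x1564) x1320)
  (add (add (sub (sub (add (add (sub (add (add (add (add C x598) x602) x606) x618) x576) x486) x702) x432) x1566) x1324) x2054)
  (sub (sub (sub (add (add (sub (sub (add (add C x594) x602) x604) x580) x490) x706) x436) x1570) x1326)
  (sub (sub (sub (add (add (sub (sub (add (add C x594) x598) x614) x584) x494) x710) x440) x1574) x2058)
  (sub (sub (sub (add (add (add (add (sub (sub C x606) x598) x568) x640) x496) x712) x442) x1576) x1332)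
  (add (add (sub (sub (add (add (add (add (add (add (sub C x604) x594) x618) x570) x642) x498) x714) x444) x1578) x1336) x2066)
  (sub (sub (sub (add (add (sub (sub (sub C x618) x602) x632) x506) x722) x452) x1586) x2070)
  (add (add (sub (sub (add (add (sub (add (add (sub C x614) x594) x606) x636) x510) x726) x456) x1590) x1348) x2078)
  (sub (sub (sub (sub (sub (sub (sub C x628) x632) x590) x680) x464) x1598) x2082)
  (sub (sub (sub (sub (sub (sub (sub C x626) x640) x592) x682) x466) x1600) x1356)
  (sub (sub (sub (sub (sub (sub (sub C x636) x626) x614) x686) x470) x1604) x2088)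
  (add (add (sub (sub (sub (sub (sub (sub C x632) x642) x618) x690) x474) x1608) x1366) x2096)
  (sub (sub (sub (sub (add (add (sub (sub C x642) x628) x568) x604) x694) x478) x1612) x1368)
  (add (add (sub (sub (sub (add (add (sub (sub C x640) x636) x570) x606) x696) x480) x1614) x1372) x2102)
  (sub (sub (add (add (sub (add (add (add (add (sub C x654) x662) x674) x686) x722) x542) x2) x326) x1622) x2106)
  (add (add (sub (add (add (sub (add (add (sub (sub C x650) x666) x690) x726) x546) x6) x330) x1626) x1384) x2114)
  (sub (sub (add (add (sub (sub (add (add (sub C x664) x650) x674) x680) x554) x14) x338) x1634) x2118)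
  (sub (sub (add (add (sub (sub (sub (sub C x662) x670) x682) x556) x16) x340) x1636) x1392)
  (add (add (sub (add (add (sub (sub (sub (add (add C x670) x674) x654) x702) x558) x18) x342) x1638) x1396) x2126)
  (sub (sub (add (add (sub (sub (sub (add (add C x666) x674) x664) x706) x562) x22) x346) x1642) x1398)
  (sub (sub (add (add (sub (sub (add (add (add (add C x666) x670) x650) x662) x710) x566) x26) x350) x1646) x2130)
  (sub (sub (add (add (sub (sub (sub (sub C x682) x686) x662) x626) x32) x356) x1652) x2136)
  (sub (sub (add (add (sub (sub (sub (sub C x680) x694) x664) x628) x34) x358) x1654) x1410)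
  (sub (sub (add (add (sub (add (add (sub (sub C x690) x680) x650) x722) x632) x38) x362) x1658) x2142)
  (add (add (sub (add (add (sub (add (add (sub (sub C x686) x696) x654) x726) x636) x42) x366) x1662) x1420) x2150)
  (sub (sub (add (add (sub (sub (sub (sub C x696) x682) x712) x640) x46) x370) x1666) x1422)
  (add (add (sub (add (add (sub (sub (sub (sub C x694) x690) x714) x642) x48) x372) x1668) x1426) x2156)
  (add (add (sub (add (add (add (add (sub (add (add (add (add C x706) x710) x714) x726) x666) x486) x594) x54) x378) x1674) x1432) x2162)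
  (sub (sub (add (add (add (add (sub (sub (add (add C x702) x710) x712) x670) x490) x598) x58) x382) x1678) x1434)
  (sub (sub (add (add (add (add (sub (sub (add (add C x702) x706) x722) x674) x494) x602) x62) x386) x1682) x2166)
  (sub (sub (add (add (add (add (sub (sub (sub C x714) x706) x694) x496) x604) x64) x388) x1684) x1440)
  (add (add (sub (add (add (add (add (sub (add (add (sub C x712) x702) x726) x696) x498) x606) x66) x390) x1686) x1444) x2174)
  (sub (sub (add (add (add (add (add (add (sub (sub C x726) x710) x650) x686) x506) x614) x74) x398) x1694) x2178)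
  (add (add (sub (add (add (add (add (add (add (add (add (sub C x722) x702) x714) x654) x690) x510) x618) x78) x402) x1698) x1456) x2186)
  (sub (sub (add (add (add (add (add (add (sub (sub C x736) x740) x770) x806) x842) x950) x1058) x1382) x248) x1462)
  (add (add (sub (add (add (add (add (add (add (sub (sub C x734) x748) x772) x808) x844) x952) x1060) x1384) x250) x6) x1466)
  (sub (sub (add (add (add (add (sub (sub (sub C x744) x734) x758) x848) x956) x1064) x1388) x254) x1468)
  (sub (sub (add (add (add (add (sub (sub (sub C x740) x750) x762) x852) x960) x1068) x1392) x258) x16)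
  (add (add (sub (add (add (add (add (sub (sub (sub C x750) x736) x784) x856) x964) x1072) x1396) x262) x18) x1478)
  (sub (sub (add (add (add (add (sub (sub (sub C x748) x744) x786) x858) x966) x1074) x1398) x264) x22)
  (sub (sub (add (add (sub (sub (add (add (sub C x762) x770) x782) x740) x812) x1082) x1406) x272) x1486)
  (sub (sub (add (add (sub (sub (sub (sub C x758) x774) x744) x816) x1086) x1410) x276) x34)
  (sub (sub (add (add (sub (add (add (add (add (sub C x772) x758) x782) x734) x806) x824) x1094) x1418) x284) x1498)
  (add (add (sub (add (add (sub (add (add (sub (sub C x770) x778) x736) x808) x826) x1096) x1420) x286) x42) x1502)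
  (sub (sub (add (add (sub (sub (sub (add (add C x778) x782) x762) x792) x828) x1098) x1422) x288) x46)
  (add (add (sub (add (add (sub (sub (sub (add (add C x774) x782) x772) x796) x832) x1102) x1426) x292) x48) x1508)
  (sub (sub (add (add (sub (sub (add (add (add (add C x774) x778) x758) x770) x800) x836) x1106) x1430) x296) x1510)
  (add (add (sub (add (add (sub (sub (add (add (sub C x786) x796) x808) x748) x892) x1108) x1432) x298) x54) x1514)
  (sub (sub (add (add (sub (sub (sub (sub C x784) x792) x750) x894) x1110) x1434) x300) x58)
  (sub (sub (add (add (sub (sub (sub (add (add C x796) x800) x786) x774) x900) x1116) x1440) x306) x64)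
  (add (add (sub (add (add (sub (sub (add (add (add (add C x792) x800) x784) x808) x778) x904) x1120) x1444) x310) x66) x1526)
  (sub (sub (add (add (sub (sub (sub (add (add C x792) x796) x806) x782) x908) x1124) x1448) x314) x1528)
  (sub (sub (add (add (sub (add (add (sub (sub C x808) x800) x734) x770) x914) x1130) x1454) x320) x1534)
  (add (add (sub (add (add (sub (add (add (add (add (sub C x806) x784) x796) x736) x772) x916) x1132) x1456) x322) x78) x1538)
  (sub (sub (sub (sub (add (add (add (add (sub C x816) x824) x836) x848) x884) x758) x974) x326) x1540)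
  (sub (sub (sub (sub (add (add (sub (sub C x812) x828) x852) x888) x762) x978) x330) x88)
  (sub (sub (sub (sub (sub (add (add (sub C x826) x812) x836) x842) x770) x986) x338) x1552)
  (add (add (sub (sub (sub (sub (sub (sub C x824) x832) x844) x772) x988) x340) x96) x1556)
  (sub (sub (sub (sub (sub (sub (add (add C x832) x836) x816) x864) x774) x990) x342) x100)
  (add (add (sub (sub (sub (sub (sub (add (add C x828) x836) x826) x868) x778) x994) x346) x102) x1562)
  (sub (sub (sub (sub (sub (add (add (add (add C x828) x832) x812) x824) x872) x782) x998) x350) x1564)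
  (sub (sub (sub (add (add (sub (sub (sub C x844) x848) x824) x734) x950) x1004) x356) x1570)
  (add (add (sub (sub (add (add (sub (sub (sub C x842) x856) x826) x736) x952) x1006) x358) x114) x1574)
  (sub (sub (sub (add (add (add (add (sub (sub C x852) x842) x812) x884) x740) x956) x1010) x362) x1576)
  (sub (sub (sub (add (add (add (add (sub (sub C x848) x858) x816) x888) x744) x960) x1014) x366) x124)
  (add (add (sub (sub (add (add (sub (sub (sub C x858) x844) x874) x748) x964) x1018) x370) x126) x1586)
  (sub (sub (sub (add (add (sub (sub (sub C x856) x852) x876) x750) x966) x1020) x372) x130)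
  (sub (sub (sub (sub (sub (add (add (add (add C x868) x872) x876) x888) x828) x918) x1026) x378) x136)
  (add (add (sub (sub (sub (sub (sub (add (add C x864) x872) x874) x832) x922) x1030) x382) x138) x1598)
  (sub (sub (sub (sub (sub (sub (add (add C x864) x868) x884) x836) x926) x1034) x386) x1600)
  (add (add (sub (sub (sub (sub (sub (sub C x876) x868) x856) x928) x1036) x388) x144) x1604)
  (sub (sub (sub (sub (sub (add (add (sub C x874) x864) x888) x858) x930) x1038) x390) x148)
  (sub (sub (sub (sub (add (add (sub (sub C x888) x872) x812) x848) x938) x1046) x398) x1612)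
  (sub (sub (sub (sub (add (add (add (add (sub C x884) x864) x876) x816) x852) x942) x1050) x402) x160)
  (add (add (sub (sub (sub (add (add (add (add (sub C x894) x904) x916) x928) x964) x784) x1216) x406) x162) x1622)
  (sub (sub (sub (sub (add (add (sub (sub C x892) x900) x930) x966) x786) x1218) x408) x166)
  (sub (sub (sub (sub (sub (sub (add (add C x904) x908) x894) x918) x792) x1224) x414) x172)
  (add (add (sub (sub (sub (sub (add (add (add (add C x900) x908) x892) x916) x922) x796) x1228) x418) x174) x1634)
  (sub (sub (sub (sub (sub (sub (add (add C x900) x904) x914) x926) x800) x1232) x422) x1636)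
  (sub (sub (sub (sub (sub (sub (sub C x916) x908) x950) x806) x1238) x428) x1642)
  (add (add (sub (sub (sub (sub (add (add (sub C x914) x892) x904) x952) x808) x1240) x430) x186) x1646)
  (sub (sub (sub (sub (sub (add (add (add (add C x922) x926) x930) x942) x900) x864) x1242) x432) x190)
  (add (add (sub (sub (sub (sub (sub (add (add C x918) x926) x928) x904) x868) x1246) x436) x192) x1652)
  (sub (sub (sub (sub (sub (sub (add (add C x918) x922) x938) x908) x872) x1250) x440) x1654)
  (add (add (sub (sub (sub (add (add (sub (sub C x930) x922) x892) x964) x874) x1252) x442) x198) x1658)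
  (sub (sub (sub (sub (add (add (add (add (sub C x928) x918) x942) x894) x966) x876) x1254) x444) x202)
  (sub (sub (sub (sub (sub (sub (sub C x942) x926) x956) x884) x1262) x452) x1666)
  (sub (sub (sub (sub (sub (add (add (sub C x938) x918) x930) x960) x888) x1266) x456) x214)
  (sub (sub (sub (add (add (sub (sub (sub C x952) x956) x914) x734) x842) x1274) x464) x1678)
  (add (add (sub (sub (add (add (sub (sub (sub C x950) x964) x916) x736) x844) x1276) x466) x222) x1682)
  (sub (sub (sub (add (add (sub (sub (sub C x960) x950) x938) x740) x848) x1280) x470) x1684)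
  (sub (sub (sub (add (add (sub (sub (sub C x956) x966) x942) x744) x852) x1284) x474) x232)
  (add (add (sub (sub (add (add (add (add (sub (sub C x966) x952) x892) x928) x748) x856) x1288) x478) x234) x1694)
  (sub (sub (sub (add (add (add (add (sub (sub C x964) x960) x894) x930) x750) x858) x1290) x480) x238)
  (sub (add (add (sub (add (add (add (add (add (add (sub C x978) x986) x998) x1010) x1046) x1082) x1190) x812) x2) x1946) x1702)
  (sub (add (add (sub (add (add (add (add (sub (sub C x974) x990) x1014) x1050) x1086) x1194) x816) x6) x1950) x250)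
  (sub (add (add (sub (add (add (sub (add (add (sub C x988) x974) x998) x1004) x1094) x1202) x824) x14) x1958) x1714)
  (add (add (add (add (sub (add (add (sub (sub (sub C x986) x994) x1006) x1096) x1204) x826) x16) x1960) x258) x1718)
  (sub (add (add (sub (add (add (sub (sub (add (add C x994) x998) x978) x1026) x1098) x1206) x828) x18) x1962) x262)
  (add (add (add (add (sub (add (add (sub (sub (add (add C x990) x998) x988) x1030) x1102) x1210) x832) x22) x1966) x264) x1724)
  (sub (add (add (sub (add (add (sub (add (add (add (add C x990) x994) x974) x986) x1034) x1106) x1214) x836) x26) x1970) x1726)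
  (sub (add (add (sub (sub (sub (sub (sub C x1006) x1010) x986) x1058) x842) x32) x1976) x1732)
  (add (add (add (add (sub (sub (sub (sub (sub C x1004) x1018) x988) x1060) x844) x34) x1978) x276) x1736)
  (sub (add (add (sub (sub (add (add (sub (sub C x1014) x1004) x974) x1046) x1064) x848) x38) x1982) x1738)
  (sub (add (add (sub (sub (add (add (sub (sub C x1010) x1020) x978) x1050) x1068) x852) x42) x1986) x286)
  (add (add (add (add (sub (sub (sub (sub (sub C x1020) x1006) x1036) x1072) x856) x46) x1990) x288) x1748)
  (sub (add (add (sub (sub (sub (sub (sub C x1018) x1014) x1038) x1074) x858) x48) x1992) x292)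
  (sub (add (add (sub (sub (sub (add (add (add (add C x1030) x1034) x1038) x1050) x990) x1134) x864) x54) x1998) x298)
  (add (add (add (add (sub (sub (sub (sub (add (add C x1026) x1034) x1036) x994) x1138) x868) x58) x2002) x300) x1760)
  (sub (add (add (sub (sub (sub (sub (add (add C x1026) x1030) x1046) x998) x1142) x872) x62) x2006) x1762)
  (add (add (add (add (sub (sub (sub (sub (sub C x1038) x1030) x1018) x1144) x874) x64) x2008) x306) x1766)
  (sub (add (add (sub (sub (sub (add (add (sub C x1036) x1026) x1050) x1020) x1146) x876) x66) x2010) x310)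
  (sub (add (add (sub (sub (add (add (sub (sub C x1050) x1034) x974) x1010) x1154) x884) x74) x2018) x1774)
  (sub (add (add (sub (sub (add (add (add (add (sub C x1046) x1026) x1038) x978) x1014) x1158) x888) x78) x2022) x322)
  (sub (add (add (add (add (sub (add (add (sub (sub C x1060) x1064) x1094) x1130) x1004) x734) x1382) x86) x2030) x1786)
  (add (add (add (add (add (add (sub (add (add (sub (sub C x1058) x1072) x1096) x1132) x1006) x736) x1384) x88) x2032) x330) x1790)
  (sub (add (add (add (add (sub (sub (sub (sub C x1068) x1058) x1082) x1010) x740) x1388) x92) x2036) x1792)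
  (sub (add (add (add (add (sub (sub (sub (sub C x1064) x1074) x1086) x1014) x744) x1392) x96) x2040) x340)
  (add (add (add (add (add (add (sub (sub (sub (sub C x1074) x1060) x1108) x1018) x748) x1396) x100) x2044) x342) x1802)
  (sub (add (add (add (add (sub (sub (sub (sub C x1072) x1068) x1110) x1020) x750) x1398) x102) x2046) x346)
  (sub (add (add (add (add (add (add (sub (add (add (sub C x1086) x1094) x1106) x1064) x974) x1190) x758) x1406) x110) x2054) x1810)
  (sub (add (add (add (add (add (add (sub (sub (sub C x1082) x1098) x1068) x978) x1194) x762) x1410) x114) x2058) x358)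
  (sub (add (add (add (add (add (add (add (add (add (add (sub C x1096) x1082) x1106) x1058) x1130) x986) x1202) x770) x1418) x122) x2066) x1822)
  (add (add (add (add (add (add (add (add (add (add (sub (sub C x1094) x1102) x1060) x1132) x988) x1204) x772) x1420) x124) x2068) x366) x1826)
  (sub (add (add (add (add (add (add (sub (sub (add (add C x1102) x1106) x1086) x1116) x990) x1206) x774) x1422) x126) x2070) x370)
  (add (add (add (add (add (add (add (add (sub (sub (add (add C x1098) x1106) x1096) x1120) x994) x1210) x778) x1426) x130) x2074) x372) x1832)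
  (sub (add (add (add (add (add (add (sub (add (add (add (add C x1098) x1102) x1082) x1094) x1124) x998) x1214) x782) x1430) x134) x2078) x1834)
  (add (add (add (add (add (add (sub (sub (add (add (sub C x1110) x1120) x1132) x1072) x1162) x784) x1432) x136) x2080) x378) x1838)
  (sub (add (add (add (add (sub (sub (sub (sub C x1108) x1116) x1074) x1164) x786) x1434) x138) x2082) x382)
  (sub (add (add (add (add (sub (sub (sub (add (add C x1120) x1124) x1110) x1098) x1170) x792) x1440) x144) x2088) x388)
  (add (add (add (add (add (add (sub (sub (add (add (add (add C x1116) x1124) x1108) x1132) x1102) x1174) x796) x1444) x148) x2092) x390) x1850)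
  (sub (add (add (add (add (sub (sub (sub (add (add C x1116) x1120) x1130) x1106) x1178) x800) x1448) x152) x2096) x1852)
  (sub (add (add (add (add (sub (add (add (sub (sub C x1132) x1124) x1058) x1094) x1184) x806) x1454) x158) x2102) x1858)
  (add (add (add (add (add (add (sub (add (add (add (add (sub C x1130) x1108) x1120) x1060) x1096) x1186) x808) x1456) x160) x2104) x402) x1862)
  (sub (add (add (sub (sub (add (add (add (add (add (add C x1138) x1142) x1146) x1158) x1170) x1206) x1026) x1296) x162) x2106) x406)
  (add (add (add (add (sub (sub (add (add (sub (add (add C x1134) x1142) x1144) x1174) x1210) x1030) x1300) x166) x2110) x408) x1868)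
  (sub (add (add (sub (sub (add (add (sub (add (add C x1134) x1138) x1154) x1178) x1214) x1034) x1304) x170) x2114) x1870)
  (add (add (add (add (sub (sub (sub (sub (sub C x1146) x1138) x1162) x1036) x1306) x172) x2116) x414) x1874)
  (sub (add (add (sub (sub (sub (add (add (sub C x1144) x1134) x1158) x1164) x1038) x1308) x174) x2118) x418)
  (sub (add (add (sub (sub (sub (sub (sub C x1158) x1142) x1190) x1046) x1316) x182) x2126) x1882)
  (sub (add (add (sub (sub (sub (add (add (sub C x1154) x1134) x1146) x1194) x1050) x1320) x186) x2130) x430)
  (add (add (add (add (sub (sub (sub (add (add (sub C x1164) x1174) x1186) x1144) x1108) x1324) x190) x2134) x432) x1892)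
  (sub (add (add (sub (sub (sub (sub (sub C x1162) x1170) x1146) x1110) x1326) x192) x2136) x436)
  (sub (add (add (sub (sub (add (add (sub (add (add C x1174) x1178) x1164) x1134) x1206) x1116) x1332) x198) x2142) x442)
  (add (add (add (add (sub (sub (add (add (add (add (add (add C x1170) x1178) x1162) x1186) x1138) x1210) x1120) x1336) x202) x2146) x444) x1904)
  (sub (add (add (sub (sub (add (add (sub (add (add C x1170) x1174) x1184) x1142) x1214) x1124) x1340) x206) x2150) x1906)
  (sub (add (add (sub (sub (sub (sub (sub C x1186) x1178) x1202) x1130) x1346) x212) x2156) x1912)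
  (add (add (add (add (sub (sub (sub (add (add (sub C x1184) x1162) x1174) x1204) x1132) x1348) x214) x2158) x456) x1916)
  (sub (add (add (sub (add (add (sub (add (add (sub C x1194) x1202) x1214) x1154) x974) x1082) x1352) x218) x2162) x1918)
  (sub (add (add (sub (add (add (sub (sub (sub C x1190) x1206) x1158) x978) x1086) x1356) x222) x2166) x466)
  (sub (add (add (sub (add (add (sub (add (add (sub C x1204) x1190) x1214) x1184) x986) x1094) x1364) x230) x2174) x1930)
  (add (add (add (add (sub (add (add (sub (sub (sub C x1202) x1210) x1186) x988) x1096) x1366) x232) x2176) x474) x1934)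
  (sub (add (add (sub (add (add (add (add (sub (add (add C x1210) x1214) x1194) x1134) x1170) x990) x1098) x1368) x234) x2178) x478)
  (add (add (add (add (sub (add (add (add (add (sub (add (add C x1206) x1214) x1204) x1138) x1174) x994) x1102) x1372) x238) x2182) x480) x1940)
  (sub (add (add (sub (add (add (add (add (add (add (add (add C x1206) x1210) x1190) x1202) x1142) x1178) x998) x1106) x1376) x242) x2186) x1942)
  (add (add (sub (sub (add (add (add (add (add (add (sub C x1218) x1228) x1240) x1252) x1288) x1324) x1432) x892) x1702) x486) x1946)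
  (sub (sub (sub (add (add (add (add (sub (sub C x1216) x1224) x1254) x1290) x1326) x1434) x894) x1704) x490)
  (sub (sub (sub (add (add (sub (sub (add (add C x1228) x1232) x1218) x1242) x1332) x1440) x900) x1710) x496)
  (add (add (sub (sub (add (add (sub (add (add (add (add C x1224) x1232) x1216) x1240) x1246) x1336) x1444) x904) x1714) x498) x1958)
  (sub (sub (sub (add (add (sub (sub (add (add C x1224) x1228) x1238) x1250) x1340) x1448) x908) x1718) x1960)
  (sub (sub (sub (add (add (sub (sub (sub C x1240) x1232) x1274) x1346) x1454) x914) x1724) x1966)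
  (add (add (sub (sub (add (add (sub (add (add (sub C x1238) x1216) x1228) x1276) x1348) x1456) x916) x1726) x510) x1970)
  (sub (sub (sub (sub (sub (add (add (add (add C x1246) x1250) x1254) x1266) x1224) x1296) x918) x1728) x514)
  (add (add (sub (sub (sub (sub (sub (add (add C x1242) x1250) x1252) x1228) x1300) x922) x1732) x516) x1976)
  (sub (sub (sub (sub (sub (sub (add (add C x1242) x1246) x1262) x1232) x1304) x926) x1736) x1978)
  (add (add (sub (sub (sub (add (add (sub (sub C x1254) x1246) x1216) x1288) x1306) x928) x1738) x522) x1982)
  (sub (sub (sub (sub (add (add (add (add (sub C x1252) x1242) x1266) x1218) x1290) x1308) x930) x1740) x526)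
  (sub (sub (sub (sub (sub (sub (sub C x1266) x1250) x1280) x1316) x938) x1748) x1990)
  (sub (sub (sub (sub (sub (add (add (sub C x1262) x1242) x1254) x1284) x1320) x942) x1752) x538)
  (sub (sub (sub (sub (sub (sub (sub C x1276) x1280) x1238) x1382) x950) x1760) x2002)
  (add (add (sub (sub (sub (sub (sub (sub C x1274) x1288) x1240) x1384) x952) x1762) x546) x2006)
  (sub (sub (sub (sub (sub (sub (sub C x1284) x1274) x1262) x1388) x956) x1766) x2008)
  (sub (sub (sub (sub (sub (sub (sub C x1280) x1290) x1266) x1392) x960) x1770) x556)
  (add (add (sub (sub (sub (add (add (sub (sub C x1290) x1276) x1216) x1252) x1396) x964) x1774) x558) x2018)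
  (sub (sub (sub (sub (add (add (sub (sub C x1288) x1284) x1218) x1254) x1398) x966) x1776) x562)
  (sub (sub (sub (sub (add (add (add (add (add (add C x1300) x1304) x1308) x1320) x1332) x1368) x1242) x1134) x1782) x568)
  (add (add (sub (sub (sub (add (add (sub (add (add C x1296) x1304) x1306) x1336) x1372) x1246) x1138) x1786) x570) x2030)
  (sub (sub (sub (sub (add (add (sub (add (add C x1296) x1300) x1316) x1340) x1376) x1250) x1142) x1790) x2032)
  (add (add (sub (sub (sub (sub (sub (sub C x1308) x1300) x1324) x1252) x1144) x1792) x576) x2036)
  (sub (sub (sub (sub (sub (add (add (sub C x1306) x1296) x1320) x1326) x1254) x1146) x1794) x580)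
  (sub (sub (sub (sub (sub (sub (sub C x1320) x1304) x1352) x1262) x1154) x1802) x2044)
  (sub (sub (sub (sub (sub (add (add (sub C x1316) x1296) x1308) x1356) x1266) x1158) x1806) x592)
  (add (add (sub (sub (add (add (sub (add (add (sub C x1326) x1336) x1348) x1306) x1216) x1432) x1162) x1810) x594) x2054)
  (sub (sub (sub (add (add (sub (sub (sub C x1324) x1332) x1308) x1218) x1434) x1164) x1812) x598)
  (sub (sub (sub (add (add (add (add (sub (add (add C x1336) x1340) x1326) x1296) x1368) x1224) x1440) x1170) x1818) x604)
  (add (add (sub (sub (add (add (add (add (add (add (add (add C x1332) x1340) x1324) x1348) x1300) x1372) x1228) x1444) x1174) x1822) x606) x2066)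
  (sub (sub (sub (add (add (add (add (sub (add (add C x1332) x1336) x1346) x1304) x1376) x1232) x1448) x1178) x1826) x2068)
  (sub (sub (sub (add (add (sub (sub (sub C x1348) x1340) x1364) x1238) x1454) x1184) x1832) x2074)
  (add (add (sub (sub (add (add (sub (add (add (sub C x1346) x1324) x1336) x1366) x1240) x1456) x1186) x1834) x618) x2078)
  (sub (sub (sub (sub (sub (add (add (sub C x1356) x1364) x1376) x1316) x1406) x1190) x1838) x2080)
  (sub (sub (sub (sub (sub (sub (sub C x1352) x1368) x1320) x1410) x1194) x1842) x628)
  (sub (sub (sub (sub (sub (add (add (sub C x1366) x1352) x1376) x1346) x1418) x1202) x1850) x2092)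
  (add (add (sub (sub (sub (sub (sub (sub C x1364) x1372) x1348) x1420) x1204) x1852) x636) x2096)
  (sub (sub (sub (sub (add (add (sub (add (add C x1372) x1376) x1356) x1296) x1332) x1422) x1206) x1854) x640)
  (add (add (sub (sub (sub (add (add (sub (add (add C x1368) x1376) x1366) x1300) x1336) x1426) x1210) x1858) x642) x2102)
  (sub (sub (sub (sub (add (add (add (add (add (add C x1368) x1372) x1352) x1364) x1304) x1340) x1430) x1214) x1862) x2104)
  (sub (sub (add (add (sub (add (add (sub (sub C x1384) x1388) x1418) x1454) x1274) x734) x1058) x1868) x2110)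
  (add (add (sub (add (add (sub (add (add (sub (sub C x1382) x1396) x1420) x1456) x1276) x736) x1060) x1870) x654) x2114)
  (sub (sub (add (add (sub (sub (sub (sub C x1392) x1382) x1406) x1280) x740) x1064) x1874) x2116)
  (sub (sub (add (add (sub (sub (sub (sub C x1388) x1398) x1410) x1284) x744) x1068) x1878) x664)
  (add (add (sub (add (add (sub (sub (sub (sub C x1398) x1384) x1432) x1288) x748) x1072) x1882) x666) x2126)
  (sub (sub (add (add (sub (sub (sub (sub C x1396) x1392) x1434) x1290) x750) x1074) x1884) x670)
  (sub (sub (add (add (sub (sub (add (add (sub C x1410) x1418) x1430) x1388) x1352) x758) x1082) x1892) x2134)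
  (sub (sub (add (add (sub (sub (sub (sub C x1406) x1422) x1392) x1356) x762) x1086) x1896) x682)
  (sub (sub (add (add (sub (add (add (add (add (sub C x1420) x1406) x1430) x1382) x1454) x1364) x770) x1094) x1904) x2146)
  (add (add (sub (add (add (sub (add (add (sub (sub C x1418) x1426) x1384) x1456) x1366) x772) x1096) x1906) x690) x2150)
  (sub (sub (add (add (sub (sub (sub (add (add C x1426) x1430) x1410) x1440) x1368) x774) x1098) x1908) x694)
  (add (add (sub (add (add (sub (sub (sub (add (add C x1422) x1430) x1420) x1444) x1372) x778) x1102) x1912) x696) x2156)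
  (sub (sub (add (add (sub (sub (add (add (add (add C x1422) x1426) x1406) x1418) x1448) x1376) x782) x1106) x1916) x2158)
  (add (add (sub (add (add (add (add (sub (add (add (sub C x1434) x1444) x1456) x1396) x1216) x1324) x784) x1108) x1918) x702) x2162)
  (sub (sub (add (add (add (add (sub (sub (sub C x1432) x1440) x1398) x1218) x1326) x786) x1110) x1920) x706)
  (sub (sub (add (add (add (add (sub (sub (add (add C x1444) x1448) x1434) x1422) x1224) x1332) x792) x1116) x1926) x712)
  (add (add (sub (add (add (add (add (sub (add (add (add (add C x1440) x1448) x1432) x1456) x1426) x1228) x1336) x796) x1120) x1930) x714) x2174)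
  (sub (sub (add (add (add (add (sub (sub (add (add C x1440) x1444) x1454) x1430) x1232) x1340) x800) x1124) x1934) x2176)
  (sub (sub (add (add (add (add (add (add (sub (sub C x1456) x1448) x1382) x1418) x1238) x1346) x806) x1130) x1940) x2182)
  (add (add (sub (add (add (add (add (add (add (add (add (sub C x1454) x1432) x1444) x1384) x1420) x1240) x1348) x808) x1132) x1942) x726) x2186)
  (sub (sub (add (add (add (add (add (add (add (add (add (add C x1462) x1466) x1470) x1482) x1494) x1530) x1566) x1674) x1782) x2106) x486) x2)
  (sub (sub (add (add (add (add (add (add (sub (add (add C x1458) x1466) x1468) x1498) x1534) x1570) x1678) x1786) x2110) x490) x734)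
  (add (add (sub (add (add (add (add (add (add (sub (add (add C x1458) x1462) x1478) x1502) x1538) x1574) x1682) x1790) x2114) x494) x6) x736)
  (sub (sub (add (add (add (add (sub (sub (sub C x1470) x1462) x1486) x1576) x1684) x1792) x2116) x496) x740)
  (sub (sub (add (add (add (add (sub (add (add (sub C x1468) x1458) x1482) x1488) x1578) x1686) x1794) x2118) x498) x14)
  (add (add (sub (add (add (add (add (sub (sub (sub C x1482) x1466) x1514) x1586) x1694) x1802) x2126) x506) x18) x748)
  (sub (sub (add (add (add (add (sub (add (add (sub C x1478) x1458) x1470) x1518) x1590) x1698) x1806) x2130) x510) x26)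
  (sub (sub (add (add (sub (sub (add (add (sub C x1488) x1498) x1510) x1468) x1540) x1810) x2134) x514) x758)
  (sub (sub (add (add (sub (sub (sub (sub C x1486) x1494) x1470) x1542) x1812) x2136) x516) x32)
  (sub (sub (add (add (sub (add (add (sub (add (add C x1498) x1502) x1488) x1458) x1530) x1548) x1818) x2142) x522) x38)
  (sub (sub (add (add (sub (add (add (add (add (add (add C x1494) x1502) x1486) x1510) x1462) x1534) x1552) x1822) x2146) x526) x770)
  (add (add (sub (add (add (sub (add (add (sub (add (add C x1494) x1498) x1508) x1466) x1538) x1556) x1826) x2150) x530) x42) x772)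
  (add (add (sub (add (add (sub (sub (sub (sub C x1510) x1502) x1526) x1562) x1832) x2156) x536) x48) x778)
  (sub (sub (add (add (sub (sub (add (add (sub C x1508) x1486) x1498) x1528) x1564) x1834) x2158) x538) x782)
  (add (add (sub (add (add (sub (sub (add (add (sub C x1518) x1526) x1538) x1478) x1622) x1838) x2162) x542) x54) x784)
  (sub (sub (add (add (sub (sub (sub (sub C x1514) x1530) x1482) x1626) x1842) x2166) x546) x62)
  (add (add (sub (add (add (sub (sub (add (add (sub C x1528) x1514) x1538) x1508) x1634) x1850) x2174) x554) x66) x796)
  (sub (sub (add (add (sub (sub (sub (sub C x1526) x1534) x1510) x1636) x1852) x2176) x556) x800)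
  (sub (sub (add (add (sub (add (add (sub (add (add C x1534) x1538) x1518) x1458) x1494) x1638) x1854) x2178) x558) x74)
  (sub (sub (add (add (sub (add (add (sub (add (add C x1530) x1538) x1528) x1462) x1498) x1642) x1858) x2182) x562) x806)
  (add (add (sub (add (add (sub (add (add (add (add (add (add C x1530) x1534) x1514) x1526) x1466) x1502) x1646) x1862) x2186) x566) x78) x808)
  (sub (sub (sub (sub (add (add (add (add (sub C x1542) x1552) x1564) x1576) x1612) x1486) x1702) x568) x812)
  (sub (sub (sub (sub (add (add (sub (sub C x1540) x1548) x1578) x1614) x1488) x1704) x570) x86)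
  (sub (sub (sub (sub (sub (sub (add (add C x1552) x1556) x1542) x1566) x1494) x1710) x576) x92)
  (sub (sub (sub (sub (sub (add (add (add (add C x1548) x1556) x1540) x1564) x1570) x1498) x1714) x580) x824)
  (add (add (sub (sub (sub (sub (sub (add (add C x1548) x1552) x1562) x1574) x1502) x1718) x584) x96) x826)
  (add (add (sub (sub (sub (sub (sub (sub C x1564) x1556) x1598) x1508) x1724) x590) x102) x832)
  (sub (sub (sub (sub (sub (add (add (sub C x1562) x1540) x1552) x1600) x1510) x1726) x592) x836)
  (sub (sub (sub (add (add (sub (add (add (add (add C x1570) x1574) x1578) x1590) x1548) x1458) x1674) x1728) x594) x110)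
  (sub (sub (sub (add (add (sub (sub (add (add C x1566) x1574) x1576) x1552) x1462) x1678) x1732) x598) x842)
  (add (add (sub (sub (add (add (sub (sub (add (add C x1566) x1570) x1586) x1556) x1466) x1682) x1736) x602) x114) x844)
  (sub (sub (sub (add (add (add (add (sub (sub C x1578) x1570) x1540) x1612) x1468) x1684) x1738) x604) x848)
  (sub (sub (sub (add (add (add (add (add (add (sub C x1576) x1566) x1590) x1542) x1614) x1470) x1686) x1740) x606) x122)
  (add (add (sub (sub (add (add (sub (sub (sub C x1590) x1574) x1604) x1478) x1694) x1748) x614) x126) x856)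
  (sub (sub (sub (add (add (sub (add (add (sub C x1586) x1566) x1578) x1608) x1482) x1698) x1752) x618) x134)
  (add (add (sub (sub (sub (sub (sub (sub C x1600) x1604) x1562) x1652) x1760) x626) x138) x868)
  (sub (sub (sub (sub (sub (sub (sub C x1598) x1612) x1564) x1654) x1762) x628) x872)
  (add (add (sub (sub (sub (sub (sub (sub C x1608) x1598) x1586) x1658) x1766) x632) x144) x874)
  (sub (sub (sub (sub (sub (sub (sub C x1604) x1614) x1590) x1662) x1770) x636) x152)
  (sub (sub (sub (sub (add (add (sub (sub C x1614) x1600) x1540) x1576) x1666) x1774) x640) x884)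
  (sub (sub (sub (sub (add (add (sub (sub C x1612) x1608) x1542) x1578) x1668) x1776) x642) x158)
  (add (add (sub (sub (sub (add (add (add (add (sub C x1626) x1634) x1646) x1658) x1694) x1514) x1946) x650) x162) x892)
  (sub (sub (sub (sub (add (add (sub (sub C x1622) x1638) x1662) x1698) x1518) x1950) x654) x170)
  (add (add (sub (sub (sub (sub (add (add (sub C x1636) x1622) x1646) x1652) x1526) x1958) x662) x174) x904)
  (sub (sub (sub (sub (sub (sub (sub C x1634) x1642) x1654) x1528) x1960) x664) x908)
  (sub (sub (sub (sub (sub (sub (add (add C x1642) x1646) x1626) x1674) x1530) x1962) x666) x182)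
  (sub (sub (sub (sub (sub (sub (add (add C x1638) x1646) x1636) x1678) x1534) x1966) x670) x914)
  (add (add (sub (sub (sub (sub (add (add (add (add C x1638) x1642) x1622) x1634) x1682) x1538) x1970) x674) x186) x916)
  (add (add (sub (sub (sub (sub (sub (sub C x1654) x1658) x1634) x1598) x1976) x680) x192) x922)
  (sub (sub (sub (sub (sub (sub (sub C x1652) x1666) x1636) x1600) x1978) x682) x926)
  (add (add (sub (sub (sub (add (add (sub (sub C x1662) x1652) x1622) x1694) x1604) x1982) x686) x198) x928)
  (sub (sub (sub (sub (add (add (sub (sub C x1658) x1668) x1626) x1698) x1608) x1986) x690) x206)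
  (sub (sub (sub (sub (sub (sub (sub C x1668) x1654) x1684) x1612) x1990) x694) x938)
  (sub (sub (sub (sub (sub (sub (sub C x1666) x1662) x1686) x1614) x1992) x696) x212)
  (sub (sub (sub (add (add (sub (add (add (add (add C x1678) x1682) x1686) x1698) x1638) x1458) x1566) x1998) x702) x218)
  (sub (sub (sub (add (add (sub (sub (add (add C x1674) x1682) x1684) x1642) x1462) x1570) x2002) x706) x950)
  (add (add (sub (sub (add (add (sub (sub (add (add C x1674) x1678) x1694) x1646) x1466) x1574) x2006) x710) x222) x952)
  (sub (sub (sub (add (add (sub (sub (sub C x1686) x1678) x1666) x1468) x1576) x2008) x712) x956)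
  (sub (sub (sub (add (add (sub (add (add (sub C x1684) x1674) x1698) x1668) x1470) x1578) x2010) x714) x230)
  (add (add (sub (sub (add (add (add (add (sub (sub C x1698) x1682) x1622) x1658) x1478) x1586) x2018) x722) x234) x964)
  (sub (sub (sub (add (add (add (add (add (add (sub C x1694) x1674) x1686) x1626) x1662) x1482) x1590) x2022) x726) x242)
  (sub (sub (sub (add (add (add (add (add (add (sub C x1704) x1714) x1726) x1738) x1774) x1810) x1918) x1540) x1216) x974)
  (sub (sub (sub (add (add (add (add (sub (sub C x1702) x1710) x1740) x1776) x1812) x1920) x1542) x1218) x248)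
  (sub (sub (sub (add (add (sub (sub (add (add C x1714) x1718) x1704) x1728) x1818) x1926) x1548) x1224) x254)
  (sub (sub (sub (add (add (sub (add (add (add (add C x1710) x1718) x1702) x1726) x1732) x1822) x1930) x1552) x1228) x986)
  (add (add (sub (sub (add (add (sub (sub (add (add C x1710) x1714) x1724) x1736) x1826) x1934) x1556) x1232) x258) x988)
  (add (add (sub (sub (add (add (sub (sub (sub C x1726) x1718) x1760) x1832) x1940) x1562) x1238) x264) x994)
  (sub (sub (sub (add (add (sub (add (add (sub C x1724) x1702) x1714) x1762) x1834) x1942) x1564) x1240) x998)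
  (sub (sub (sub (sub (sub (add (add (add (add C x1732) x1736) x1740) x1752) x1710) x1782) x1566) x1242) x272)
  (sub (sub (sub (sub (sub (sub (add (add C x1728) x1736) x1738) x1714) x1786) x1570) x1246) x1004)
  (add (add (sub (sub (sub (sub (sub (add (add C x1728) x1732) x1748) x1718) x1790) x1574) x1250) x276) x1006)
  (sub (sub (sub (sub (add (add (sub (sub C x1740) x1732) x1702) x1774) x1792) x1576) x1252) x1010)
  (sub (sub (sub (sub (add (add (add (add (sub C x1738) x1728) x1752) x1704) x1776) x1794) x1578) x1254) x284)
  (add (add (sub (sub (sub (sub (sub (sub C x1752) x1736) x1766) x1802) x1586) x1262) x288) x1018)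
  (sub (sub (sub (sub (sub (add (add (sub C x1748) x1728) x1740) x1770) x1806) x1590) x1266) x296)
  (add (add (sub (sub (sub (sub (sub (sub C x1762) x1766) x1724) x1868) x1598) x1274) x300) x1030)
  (sub (sub (sub (sub (sub (sub (sub C x1760) x1774) x1726) x1870) x1600) x1276) x1034)
  (add (add (sub (sub (sub (sub (sub (sub C x1770) x1760) x1748) x1874) x1604) x1280) x306) x1036)
  (sub (sub (sub (sub (sub (sub (sub C x1766) x1776) x1752) x1878) x1608) x1284) x314)
  (sub (sub (sub (sub (add (add (sub (sub C x1776) x1762) x1702) x1738) x1882) x1612) x1288) x1046)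
  (sub (sub (sub (sub (add (add (sub (sub C x1774) x1770) x1704) x1740) x1884) x1614) x1290) x320)
  (sub (sub (add (add (sub (add (add (add (add (add (add C x1786) x1790) x1794) x1806) x1818) x1854) x1728) x1458) x2106) x1296) x326)
  (sub (sub (add (add (sub (add (add (sub (add (add C x1782) x1790) x1792) x1822) x1858) x1732) x1462) x2110) x1300) x1058)
  (add (add (sub (add (add (sub (add (add (sub (add (add C x1782) x1786) x1802) x1826) x1862) x1736) x1466) x2114) x1304) x330) x1060)
  (sub (sub (add (add (sub (sub (sub (sub C x1794) x1786) x1810) x1738) x1468) x2116) x1306) x1064)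
  (sub (sub (add (add (sub (sub (add (add (sub C x1792) x1782) x1806) x1812) x1740) x1470) x2118) x1308) x338)
  (add (add (sub (add (add (sub (sub (sub (sub C x1806) x1790) x1838) x1748) x1478) x2126) x1316) x342) x1072)
  (sub (sub (add (add (sub (sub (add (add (sub C x1802) x1782) x1794) x1842) x1752) x1482) x2130) x1320) x350)
  (sub (sub (add (add (add (add (sub (add (add (sub C x1812) x1822) x1834) x1792) x1702) x1918) x1486) x2134) x1324) x1082)
  (sub (sub (add (add (add (add (sub (sub (sub C x1810) x1818) x1794) x1704) x1920) x1488) x2136) x1326) x356)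
  (sub (sub (add (add (add (add (add (add (sub (add (add C x1822) x1826) x1812) x1782) x1854) x1710) x1926) x1494) x2142) x1332) x362)
  (sub (sub (add (add (add (add (add (add (add (add (add (add C x1818) x1826) x1810) x1834) x1786) x1858) x1714) x1930) x1498) x2146) x1336) x1094)
  (add (add (sub (add (add (add (add (add (add (sub (add (add C x1818) x1822) x1832) x1790) x1862) x1718) x1934) x1502) x2150) x1340) x366) x1096)
  (add (add (sub (add (add (add (add (sub (sub (sub C x1834) x1826) x1850) x1724) x1940) x1508) x2156) x1346) x372) x1102)
  (sub (sub (add (add (add (add (sub (add (add (sub C x1832) x1810) x1822) x1852) x1726) x1942) x1510) x2158) x1348) x1106)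
  (add (add (sub (add (add (sub (sub (add (add (sub C x1842) x1850) x1862) x1802) x1892) x1514) x2162) x1352) x378) x1108)
  (sub (sub (add (add (sub (sub (sub (sub C x1838) x1854) x1806) x1896) x1518) x2166) x1356) x386)
  (add (add (sub (add (add (sub (sub (add (add (sub C x1852) x1838) x1862) x1832) x1904) x1526) x2174) x1364) x390) x1120)
  (sub (sub (add (add (sub (sub (sub (sub C x1850) x1858) x1834) x1906) x1528) x2176) x1366) x1124)
  (sub (sub (add (add (sub (add (add (sub (add (add C x1858) x1862) x1842) x1782) x1818) x1908) x1530) x2178) x1368) x398)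
  (sub (sub (add (add (sub (add (add (sub (add (add C x1854) x1862) x1852) x1786) x1822) x1912) x1534) x2182) x1372) x1130)
  (add (add (sub (add (add (sub (add (add (add (add (add (add C x1854) x1858) x1838) x1850) x1790) x1826) x1916) x1538) x2186) x1376) x402) x1132)
  (add (add (sub (sub (sub (add (add (sub (sub C x1870) x1874) x1904) x1940) x1760) x2030) x1382) x408) x1138)
  (sub (sub (sub (sub (add (add (sub (sub C x1868) x1882) x1906) x1942) x1762) x2032) x1384) x1142)
  (add (add (sub (sub (sub (sub (sub (sub C x1878) x1868) x1892) x1766) x2036) x1388) x414) x1144)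
  (sub (sub (sub (sub (sub (sub (sub C x1874) x1884) x1896) x1770) x2040) x1392) x422)
  (sub (sub (sub (sub (sub (sub (sub C x1884) x1870) x1918) x1774) x2044) x1396) x1154)
  (sub (sub (sub (sub (sub (sub (sub C x1882) x1878) x1920) x1776) x2046) x1398) x428)
  (add (add (sub (sub (sub (sub (add (add (sub C x1896) x1904) x1916) x1874) x1838) x2054) x1406) x432) x1162)
  (sub (sub (sub (sub (sub (sub (sub C x1892) x1908) x1878) x1842) x2058) x1410) x440)
  (add (add (sub (sub (sub (add (add (add (add (sub C x1906) x1892) x1916) x1868) x1940) x1850) x2066) x1418) x444) x1174)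
  (sub (sub (sub (sub (add (add (sub (sub C x1904) x1912) x1870) x1942) x1852) x2068) x1420) x1178)
  (sub (sub (sub (sub (sub (sub (add (add C x1912) x1916) x1896) x1926) x1854) x2070) x1422) x452)
  (sub (sub (sub (sub (sub (sub (add (add C x1908) x1916) x1906) x1930) x1858) x2074) x1426) x1184)
  (add (add (sub (sub (sub (sub (add (add (add (add C x1908) x1912) x1892) x1904) x1934) x1862) x2078) x1430) x456) x1186)
  (sub (sub (sub (add (add (sub (add (add (sub C x1920) x1930) x1942) x1882) x1702) x1810) x2080) x1432) x1190)
  (sub (sub (sub (add (add (sub (sub (sub C x1918) x1926) x1884) x1704) x1812) x2082) x1434) x464)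
  (sub (sub (sub (add (add (sub (sub (add (add C x1930) x1934) x1920) x1908) x1710) x1818) x2088) x1440) x470)
  (sub (sub (sub (add (add (sub (add (add (add (add C x1926) x1934) x1918) x1942) x1912) x1714) x1822) x2092) x1444) x1202)
  (add (add (sub (sub (add (add (sub (sub (add (add C x1926) x1930) x1940) x1916) x1718) x1826) x2096) x1448) x474) x1204)
  (add (add (sub (sub (add (add (add (add (sub (sub C x1942) x1934) x1868) x1904) x1724) x1832) x2102) x1454) x480) x1210)
  (sub (sub (sub (add (add (add (add (add (add (sub C x1940) x1918) x1930) x1870) x1906) x1726) x1834) x2104) x1456) x1214)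
  (add (add (add (add (sub (add (add (add (add (add (add (sub C x1950) x1958) x1970) x1982) x2018) x2054) x2162) x1622) x2) x974) x486) x1216)
  (sub (add (add (sub (add (add (add (add (sub (sub C x1946) x1962) x1986) x2022) x2058) x2166) x1626) x6) x978) x494)
  (add (add (add (add (sub (add (add (sub (add (add (sub C x1960) x1946) x1970) x1976) x2066) x2174) x1634) x14) x986) x498) x1228)
  (sub (add (add (sub (add (add (sub (sub (sub C x1958) x1966) x1978) x2068) x2176) x1636) x16) x988) x1232)
  (sub (add (add (sub (add (add (sub (sub (add (add C x1966) x1970) x1950) x1998) x2070) x2178) x1638) x18) x990) x506)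
  (sub (add (add (sub (add (add (sub (sub (add (add C x1962) x1970) x1960) x2002) x2074) x2182) x1642) x22) x994) x1238)
  (add (add (add (add (sub (add (add (sub (add (add (add (add C x1962) x1966) x1946) x1958) x2006) x2078) x2186) x1646) x26) x998) x510) x1240)
  (add (add (add (add (sub (sub (sub (sub (sub C x1978) x1982) x1958) x2030) x1652) x32) x1004) x516) x1246)
  (sub (add (add (sub (sub (sub (sub (sub C x1976) x1990) x1960) x2032) x1654) x34) x1006) x1250)
  (add (add (add (add (sub (sub (add (add (sub (sub C x1986) x1976) x1946) x2018) x2036) x1658) x38) x1010) x522) x1252)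
  (sub (add (add (sub (sub (add (add (sub (sub C x1982) x1992) x1950) x2022) x2040) x1662) x42) x1014) x530)
  (sub (add (add (sub (sub (sub (sub (sub C x1992) x1978) x2008) x2044) x1666) x46) x1018) x1262)
  (sub (add (add (sub (sub (sub (sub (sub C x1990) x1986) x2010) x2046) x1668) x48) x1020) x536)
  (sub (add (add (sub (sub (sub (add (add (add (add C x2002) x2006) x2010) x2022) x1962) x2106) x1674) x54) x1026) x542)
  (sub (add (add (sub (sub (sub (sub (add (add C x1998) x2006) x2008) x1966) x2110) x1678) x58) x1030) x1274)
  (add (add (add (add (sub (sub (sub (sub (add (add C x1998) x2002) x2018) x1970) x2114) x1682) x62) x1034) x546) x1276)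
  (sub (add (add (sub (sub (sub (sub (sub C x2010) x2002) x1990) x2116) x1684) x64) x1036) x1280)
  (sub (add (add (sub (sub (sub (add (add (sub C x2008) x1998) x2022) x1992) x2118) x1686) x66) x1038) x554)
  (add (add (add (add (sub (sub (add (add (sub (sub C x2022) x2006) x1946) x1982) x2126) x1694) x74) x1046) x558) x1288)
  (sub (add (add (sub (sub (add (add (add (add (sub C x2018) x1998) x2010) x1950) x1986) x2130) x1698) x78) x1050) x566)
  (add (add (add (add (sub (sub (add (add (sub (sub C x2032) x2036) x2066) x2102) x1976) x1868) x86) x1058) x570) x1300)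
  (sub (add (add (sub (sub (add (add (sub (sub C x2030) x2044) x2068) x2104) x1978) x1870) x88) x1060) x1304)
  (add (add (add (add (sub (sub (sub (sub (sub C x2040) x2030) x2054) x1982) x1874) x92) x1064) x576) x1306)
  (sub (add (add (sub (sub (sub (sub (sub C x2036) x2046) x2058) x1986) x1878) x96) x1068) x584)
  (sub (add (add (sub (sub (sub (sub (sub C x2046) x2032) x2080) x1990) x1882) x100) x1072) x1316)
  (sub (add (add (sub (sub (sub (sub (sub C x2044) x2040) x2082) x1992) x1884) x102) x1074) x590)
  (add (add (add (add (sub (add (add (sub (add (add (sub C x2058) x2066) x2078) x2036) x1946) x2162) x1892) x110) x1082) x594) x1324)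
  (sub (add (add (sub (add (add (sub (sub (sub C x2054) x2070) x2040) x1950) x2166) x1896) x114) x1086) x602)
  (add (add (add (add (sub (add (add (add (add (add (add (sub C x2068) x2054) x2078) x2030) x2102) x1958) x2174) x1904) x122) x1094) x606) x1336)
  (sub (add (add (sub (add (add (add (add (sub (sub C x2066) x2074) x2032) x2104) x1960) x2176) x1906) x124) x1096) x1340)
  (sub (add (add (sub (add (add (sub (sub (add (add C x2074) x2078) x2058) x2088) x1962) x2178) x1908) x126) x1098) x614)
  (sub (add (add (sub (add (add (sub (sub (add (add C x2070) x2078) x2068) x2092) x1966) x2182) x1912) x130) x1102) x1346)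
  (add (add (add (add (sub (add (add (sub (add (add (add (add C x2070) x2074) x2054) x2066) x2096) x1970) x2186) x1916) x134) x1106) x618) x1348)
  (sub (add (add (sub (sub (sub (add (add (sub C x2082) x2092) x2104) x2044) x2134) x1918) x136) x1108) x1352)
  (sub (add (add (sub (sub (sub (sub (sub C x2080) x2088) x2046) x2136) x1920) x138) x1110) x626)
  (sub (add (add (sub (sub (sub (sub (add (add C x2092) x2096) x2082) x2070) x2142) x1926) x144) x1116) x632)
  (sub (add (add (sub (sub (sub (add (add (add (add C x2088) x2096) x2080) x2104) x2074) x2146) x1930) x148) x1120) x1364)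
  (add (add (add (add (sub (sub (sub (sub (add (add C x2088) x2092) x2102) x2078) x2150) x1934) x152) x1124) x636) x1366)
  (add (add (add (add (sub (sub (add (add (sub (sub C x2104) x2096) x2030) x2066) x2156) x1940) x158) x1130) x642) x1372)
  (sub (add (add (sub (sub (add (add (add (add (sub C x2102) x2080) x2092) x2032) x2068) x2158) x1942) x160) x1132) x1376)
  (sub (add (add (add (add (sub (add (add (add (add (add (add C x2110) x2114) x2118) x2130) x2142) x2178) x1998) x1458) x1782) x162) x1134) x650)
  (sub (add (add (add (add (sub (add (add (sub (add (add C x2106) x2114) x2116) x2146) x2182) x2002) x1462) x1786) x166) x1138) x1382)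
  (add (add (add (add (add (add (sub (add (add (sub (add (add C x2106) x2110) x2126) x2150) x2186) x2006) x1466) x1790) x170) x1142) x654) x1384)
  (sub (add (add (add (add (sub (sub (sub (sub C x2118) x2110) x2134) x2008) x1468) x1792) x172) x1144) x1388)
  (sub (add (add (add (add (sub (sub (add (add (sub C x2116) x2106) x2130) x2136) x2010) x1470) x1794) x174) x1146) x662)
  (add (add (add (add (add (add (sub (sub (sub (sub C x2130) x2114) x2162) x2018) x1478) x1802) x182) x1154) x666) x1396)
  (sub (add (add (add (add (sub (sub (add (add (sub C x2126) x2106) x2118) x2166) x2022) x1482) x1806) x186) x1158) x674)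
  (sub (add (add (add (add (sub (sub (add (add (sub C x2136) x2146) x2158) x2116) x2080) x1486) x1810) x190) x1162) x1406)
  (sub (add (add (add (add (sub (sub (sub (sub C x2134) x2142) x2118) x2082) x1488) x1812) x192) x1164) x680)
  (sub (add (add (add (add (sub (add (add (sub (add (add C x2146) x2150) x2136) x2106) x2178) x2088) x1494) x1818) x198) x1170) x686)
  (sub (add (add (add (add (sub (add (add (add (add (add (add C x2142) x2150) x2134) x2158) x2110) x2182) x2092) x1498) x1822) x202) x1174) x1418)
  (add (add (add (add (add (add (sub (add (add (sub (add (add C x2142) x2146) x2156) x2114) x2186) x2096) x1502) x1826) x206) x1178) x690) x1420)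
  (add (add (add (add (add (add (sub (sub (sub (sub C x2158) x2150) x2174) x2102) x1508) x1832) x212) x1184) x696) x1426)
  (sub (add (add (add (add (sub (sub (add (add (sub C x2156) x2134) x2146) x2176) x2104) x1510) x1834) x214) x1186) x1430)
  (add (add (add (add (add (add (add (add (sub (add (add (sub C x2166) x2174) x2186) x2126) x1946) x2054) x1514) x1838) x218) x1190) x702) x1432)
  (sub (add (add (add (add (add (add (sub (sub (sub C x2162) x2178) x2130) x1950) x2058) x1518) x1842) x222) x1194) x710)
  (add (add (add (add (add (add (add (add (sub (add (add (sub C x2176) x2162) x2186) x2156) x1958) x2066) x1526) x1850) x230) x1202) x714) x1444)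
  (sub (add (add (add (add (add (add (sub (sub (sub C x2174) x2182) x2158) x1960) x2068) x1528) x1852) x232) x1204) x1448)
  (sub (add (add (add (add (add (add (add (add (sub (add (add C x2182) x2186) x2166) x2106) x2142) x1962) x2070) x1530) x1854) x234) x1206) x722)
  (sub (add (add (add (add (add (add (add (add (sub (add (add C x2178) x2186) x2176) x2110) x2146) x1966) x2074) x1534) x1858) x238) x1210) x1454)
  (add (add (add (add (add (add (add (add (add (add (add (add (add (add C x2178) x2182) x2162) x2174) x2114) x2150) x1970) x2078) x1538) x1862) x242) x1214) x726) x1456))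
  (chk [x2, x14, x16, x26, x32, x34, x38, x62, x86, x92, x100, x110,
  x134, x152, x158, x160, x170, x182, x206, x212, x242, x296, x314, x422,
  x428, x440, x452, x566, x674, x2186])

noncomputable def RK : Nat := nat_lit 0x88a02a2023601c401b801ac01a6013a012800f200d400ce00b600aa00a0009e00980086006e0064005c0056003e002600220020001a0010000e0002

noncomputable def CK : Nat := nat_lit 0x1000e000e000e000e000e000e001c000e000e000e000e000e000e000e001c001c000e000e000e001c001c001c001c001c001c000e000e001c000e

noncomputable def H : Nat := nat_lit 0xc3c0000000000000877000000000000087600000b6b0000089500000000000000000000000000000b6a00000000000008940000000000000bd700000b950000000000000000000008a1000000000000014b00000000000005160000000000000000000008e2000006780000000000000bd60000000000000b9400000000000000000000000000000679000008e3000008a00000000000000517000000000000014a00000bdd00000c0d000000000000000000000ba100000000000002fb000000000000058200000000000000000000094e0000060c000008a700000000000006c7000000000000079e0000033100000181000000000000000000000000000005b9000000000000054d000000000000000000000000000009ba00000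a9300000000000009850000000000000919000000000000062a0000068400000000000000000000000000000bdc0000000000000c0c0000000000000000000000000000060d0000094f00000ba0000000000000058300000000000002fa000000000000000000000a92000009bb000000000000062b00000000000006850000000000000984000009180000000000000000000008a6000000000000079f00000000000006c6000005b80000054c0000000000000000000000000000033000000000000001800000000000000b7100000be9000000000000000000000c13000000000000031900000000000005ee00000000000000000000096c000005a000000b9b0000000000000733000000000000080a0000075d0000034300000000000000000000000000000b2900000000000005ca00000000000000000000000000000a2600000aff0000000000000a50000000000000099600000000000008340000061800000000000000000000089b00000000000006d900000000000007b000000757000007090000000000000000000000000000082f00000000000007e1000000000000032b0000033d000000000000000000000187000000000000000700000000000000b50000000000000000000001f9000002d1000000000000063100000000000005c5000000000000000000000000000003a9000004150000055200000000000004ab00000000000000720000000000000000000009cd00000aa40000000000000a4a0000000000000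9fd0000000000000b2200000ad50000000000000000000000000000097f00000000000009910000000000000000000000000000026b000004690000091e00000000000003d300000000000001b6000005b20000061e00000000000000000000068a000000000000028f0000000000000366000000000000000000000258000001140000000000000b700000000000000be8000000000000000000000000000005a10000096d00000c1200000000000005ef0000000000000318000000000000000000000afe00000a27000000000000083500000000000006190000000000000a5100000997000000000000000000000b9a000000000000080b000000000000073200000b28000005cb0000000000000000000000000000075c000000000000034200000000000000000000000000000aa5000009cc0000000000000b230000000000000ad40000000000000a4b000009fc000000000000000000000000000005b3000000000000061f00000000000000000000000000000115000002590000068b0000000000000367000000000000028e0000097e0000099000000000000000000000091f00000000000001b700000000000003d20000000000000000000004680000026a0000089a00000000000007b100000000000006d80000082e000007e00000000000000000000000000000075600000000000007080000000000000630000005c4000000000000000000000553000000000000007300000000000004aa000000000000000000000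414000003a8000000000000032a000000000000033c000000000000000000000000000002d0000001f80000018600000000000000b400000000000000060000087d00000b77000000000000000000000be30000000000000157000000000000065a0000000000000000000008ef0000052300000bd100000000000003070000000000000600000006d30000032500000000000000000000000000000a9f00000000000006360000000000000000000000000000095b0000058f00000000000009c7000000000000097800000000000007ab000005ac000000000000000000000b65000000000000030d0000000000000594000007390000075100000000000000000000000000000b04000000000000082800000000000006cd00000763000000000000000000000337000000000000001300000000000002c5000000000000000000000409000004b70000000000000a980000000000000b2e0000000000000000000000000000045d000003df000005be000000000000029b00000000000000de000000000000000000000961000005fb0000000000000a2c0000000000000a45000000000000081100000b1c000000000000000000000000000009c00000000000000a570000000000000000000000000000024d000003730000098a00000000000001c30000000000000222000007a50000083a000000000000000000000624000000000000007f000000000000039c0000000000000000000001ec000000a8000008710000000000000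15d000000000000052800000313000006df0000000000000000000000000000059b00000000000007b700000000000003010000072d0000000000000000000006c1000000000000001f00000000000004c30000000000000000000003eb000002a7000000000000060700000000000008050000000000000000000000000000037f000001cf00000799000000000000008b000000000000009c000001510000031f0000000000000000000002f5000000000000002500000000000002b30000000000000000000001db0000009700000145000000000000001900000000000000a30000000d00000001000000000000000000000000000000d9000000000000006d00000000000000000000000000000247000000e5000000000000021d00000000000001b10000000000000079000002890000000000000000000000000000065500000000000005e9000000000000000000000000000003850000023b0000057d00000000000000f100000000000002ac0000000000000000000004390000022900000000000003a3000000000000036100000000000001bd000003cd000000000000000000000511000000000000008500000000000004bc00000295000004a5000000000000000000000000000002ca00000000000000ba000000000000000000000000000008f500000661000000000000096600000000000009d200000000000005f500000aaa000000000000000000000000000009540000000000000a21000000000000000000000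000000001e100000391000009b5000000000000022f00000000000002400000058900000af9000000000000000000000a8d00000000000000eb000000000000043e0000000000000000000003fc000002b800000000000008e80000000000000973000000000000000000000000000003f10000044500000949000000000000023500000000000001d40000000000000000000004030000039700000000000001f3000000000000025f000000000000036d0000046f0000000000000000000008dd00000000000001c900000000000003e4000003d90000041b0000000000000000000000000000040e00000000000001fe000000000000051d000005a60000000000000000000006120000000000000091000000000000038a0000000000000000000003f6000004c80000067e00000000000002a10000000000000378000004b1000002d70000000000000000000000000000046200000000000003ae000000000000000000000000000001e6000002be0000000000000252000000000000026400000000000000ae0000011a0000000000000000000000000000087c0000000000000b7600000000000000000000000000000522000008ee00000be2000000000000065b000000000000015600000000000000000000058e0000095a00000000000007aa00000000000005ad00000000000009c600000979000000000000000000000bd00000000000000601000000000000030600000a9e0000063700000000000000000000000000000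6d20000000000000324000000000000000000000000000005fa0000096000000000000008100000000000000b1d0000000000000a2d00000a44000000000000000000000000000007a4000000000000083b000000000000000000000000000000a9000001ed00000625000000000000039d000000000000007e000009c100000a5600000000000000000000098b000000000000022300000000000001c20000000000000000000003720000024c00000b640000000000000595000000000000030c00000b05000008290000000000000000000000000000073800000000000007500000000000000a9900000b2f0000000000000000000005bf00000000000000df000000000000029a0000000000000000000003de0000045c00000000000006cc0000000000000762000000000000000000000000000004b6000004080000033600000000000002c40000000000000012000000000000000000000660000008f400000000000005f40000000000000aab0000000000000967000009d3000000000000000000000000000005880000000000000af8000000000000000000000000000002b9000003fd00000a8c000000000000043f00000000000000ea0000095500000a200000000000000000000009b40000000000000241000000000000022e000000000000000000000390000001e0000000000000051c00000000000005a7000000000000000000000000000004c9000003f700000613000000000000038b000000000000009000000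00000000000000002bf000001e700000000000000af000000000000011b00000000000002530000026500000000000000000000067f000000000000037900000000000002a000000463000003af000000000000000000000000000004b000000000000002d600000000000008e90000097200000000000000000000094800000000000001d50000000000000234000000000000000000000444000003f0000008dc00000000000003e500000000000001c80000040f000001ff000000000000000000000000000003d8000000000000041a0000000000000000000000000000039600000402000000000000036c000000000000046e00000000000001f20000025e0000000000000000000008700000000000000529000000000000015c0000059a000007b60000000000000000000000000000031200000000000006de000000000000060600000804000000000000000000000798000000000000009d000000000000008a0000000000000000000001ce0000037e0000000000000300000000000000072c000000000000000000000000000002a6000003ea000006c000000000000004c2000000000000001e00000654000005e800000000000000000000057c00000000000002ad00000000000000f000000000000000000000023a000003840000051000000000000004bd0000000000000084000002cb000000bb0000000000000000000000000000029400000000000004a4000000000000000000000000000002280000043800000000000001bc00000000000003cc00000000000003a20000036000000000000000000000000000000150000000000000031e00000000000000000000000000000096000001da000002f400000000000002b200000000000000240000000000000000000000e40000024600000000000000780000000000000288000000000000021c000001b000000000000000000000014400000000000000a20000000000000018000000d80000006c0000000000000000000000000000000c000000000000000000000000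

theorem spec : Spec 6 false idx RK 30 G := fun _ _ _ _ => by eq_refl

theorem cover : cov 7 false H RK CK 30 3 = true := by decide +kernel

end S7x1

namespace S7x1

noncomputable def ts0 : List Nat :=
  [nat_lit 190601681618691419662813092111541464746426915,
   nat_lit 190601681618691419662813092111541464746426368,
   nat_lit 190601681618691419662813092111541464746431478,
   nat_lit 190601681618691419662813092111541464746428930,
   nat_lit 190601681618691419662813092111541464746552690,
   nat_lit 190601681618691419662813092111541464746628178,
   nat_lit 190601681618691419662813092111541464751132454,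
   nat_lit 190601681618691419662813092111541464760474486,
   nat_lit 190601681618691419662813092111541464969510642,
   nat_lit 190601681618691419662813092111541465720419766,
   nat_lit 190601681618691419662813092111541477076009018,
   nat_lit 190601681618691419662813092111541533260968926,
   nat_lit 190601681618691419662813092111542218365167054,
   nat_lit 190601681618691419662813092111546356911248458,
   nat_lit 190601681618691419662813092111590716442954626,
   nat_lit 190601681618691419662813092111895075631037310,
   nat_lit 190601681618691419662813092114907785933262290,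
   nat_lit 190601681618691419662813092137344329251195762,
   nat_lit 190601681618691419662813092348674195587189118,
   nat_lit 190601681618691419662813094008133073522841702,
   nat_lit 190601681618691419662813109160371187177305650,
   nat_lit 190601681618691419662813232300648893146040918,
   nat_lit 190601681618691419662814335033072201906801882,
   nat_lit 190601681618691419662823499426082506829962302,
   nat_lit 190601681618691419662904578648805135143311678,
   nat_lit 190601681618691419663588325561159955347435478,
   nat_lit 190601681618691419669592260979837230762089426,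
   nat_lit 190601681618691419720713799735790074626169422,
   nat_lit 190601681618691420167539393899688400958161186,
   nat_lit 190601681618691423996505327316778157151720654,
   nat_lit 190601681618691457369987201755784029361640594,
   nat_lit 190601681618691744584032557989697346639160390,
   nat_lit 190601681618694243834174279524361462260534866,
   nat_lit 190601681618715815170985101633934636250911850,
   nat_lit 190601681618903348026740598994748862687846778,
   nat_lit 190601681620525216978776447406928373402789506,
   nat_lit 190601681634618331472846341571754505194745550]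

theorem run0 : go idx G base H RK CK 139 0 30 ts0 = true := by decide +kernel

end S7x1

namespace S7x2

noncomputable def idx : List Nat :=
  [nat_lit 2, nat_lit 6, nat_lit 14, nat_lit 16, nat_lit 18, nat_lit 22, nat_lit 26, nat_lit 32,
  nat_lit 34, nat_lit 38, nat_lit 42, nat_lit 46, nat_lit 48, nat_lit 54, nat_lit 58, nat_lit 62,
  nat_lit 64, nat_lit 66, nat_lit 74, nat_lit 78, nat_lit 86, nat_lit 88, nat_lit 92, nat_lit 96,
  nat_lit 100, nat_lit 102, nat_lit 110, nat_lit 114, nat_lit 122, nat_lit 124, nat_lit 126, nat_lit 130,
  nat_lit 134, nat_lit 136, nat_lit 138, nat_lit 144, nat_lit 148, nat_lit 152, nat_lit 158, nat_lit 160,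
  nat_lit 162, nat_lit 166, nat_lit 170, nat_lit 172, nat_lit 174, nat_lit 182, nat_lit 186, nat_lit 190,
  nat_lit 192, nat_lit 198, nat_lit 202, nat_lit 206, nat_lit 212, nat_lit 214, nat_lit 218, nat_lit 222,
  nat_lit 230, nat_lit 232, nat_lit 234, nat_lit 238, nat_lit 242, nat_lit 248, nat_lit 250, nat_lit 254,
  nat_lit 258, nat_lit 262, nat_lit 264, nat_lit 272, nat_lit 276, nat_lit 284, nat_lit 286, nat_lit 288,
  nat_lit 292, nat_lit 296, nat_lit 298, nat_lit 300, nat_lit 306, nat_lit 310, nat_lit 314, nat_lit 320,
  nat_lit 322, nat_lit 326, nat_lit 330, nat_lit 338, nat_lit 340, nat_lit 342, nat_lit 346, nat_lit 350,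
  nat_lit 356, nat_lit 358, nat_lit 362, nat_lit 366, nat_lit 370, nat_lit 372, nat_lit 378, nat_lit 382,
  nat_lit 386, nat_lit 388, nat_lit 390, nat_lit 398, nat_lit 402, nat_lit 406, nat_lit 408, nat_lit 414,
  nat_lit 418, nat_lit 422, nat_lit 428, nat_lit 430, nat_lit 432, nat_lit 436, nat_lit 440, nat_lit 442,
  nat_lit 444, nat_lit 452, nat_lit 456, nat_lit 464, nat_lit 466, nat_lit 470, nat_lit 474, nat_lit 478,
  nat_lit 480, nat_lit 486, nat_lit 490, nat_lit 494, nat_lit 496, nat_lit 498, nat_lit 506, nat_lit 510,
  nat_lit 514, nat_lit 516, nat_lit 522, nat_lit 526, nat_lit 530, nat_lit 536, nat_lit 538, nat_lit 542,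
  nat_lit 546, nat_lit 554, nat_lit 556, nat_lit 558, nat_lit 562, nat_lit 566, nat_lit 568, nat_lit 570,
  nat_lit 576, nat_lit 580, nat_lit 584, nat_lit 590, nat_lit 592, nat_lit 594, nat_lit 598, nat_lit 602,
  nat_lit 604, nat_lit 606, nat_lit 614, nat_lit 618, nat_lit 626, nat_lit 628, nat_lit 632, nat_lit 636,
  nat_lit 640, nat_lit 642, nat_lit 650, nat_lit 654, nat_lit 662, nat_lit 664, nat_lit 666, nat_lit 670,
  nat_lit 674, nat_lit 680, nat_lit 682, nat_lit 686, nat_lit 690, nat_lit 694, nat_lit 696, nat_lit 702,
  nat_lit 706, nat_lit 710, nat_lit 712, nat_lit 714, nat_lit 722, nat_lit 726, nat_lit 734, nat_lit 736,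
  nat_lit 740, nat_lit 744, nat_lit 748, nat_lit 750, nat_lit 758, nat_lit 762, nat_lit 770, nat_lit 772,
  nat_lit 774, nat_lit 778, nat_lit 782, nat_lit 784, nat_lit 786, nat_lit 792, nat_lit 796, nat_lit 800,
  nat_lit 806, nat_lit 808, nat_lit 812, nat_lit 816, nat_lit 824, nat_lit 826, nat_lit 828, nat_lit 832,
  nat_lit 836, nat_lit 842, nat_lit 844, nat_lit 848, nat_lit 852, nat_lit 856, nat_lit 858, nat_lit 864,
  nat_lit 868, nat_lit 872, nat_lit 874, nat_lit 876, nat_lit 884, nat_lit 888, nat_lit 892, nat_lit 894,
  nat_lit 900, nat_lit 904, nat_lit 908, nat_lit 914, nat_lit 916, nat_lit 918, nat_lit 922, nat_lit 926,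
  nat_lit 928, nat_lit 930, nat_lit 938, nat_lit 942, nat_lit 950, nat_lit 952, nat_lit 956, nat_lit 960,
  nat_lit 964, nat_lit 966, nat_lit 974, nat_lit 978, nat_lit 986, nat_lit 988, nat_lit 990, nat_lit 994,
  nat_lit 998, nat_lit 1004, nat_lit 1006, nat_lit 1010, nat_lit 1014, nat_lit 1018, nat_lit 1020, nat_lit 1026,
  nat_lit 1030, nat_lit 1034, nat_lit 1036, nat_lit 1038, nat_lit 1046, nat_lit 1050, nat_lit 1058, nat_lit 1060,
  nat_lit 1064, nat_lit 1068, nat_lit 1072, nat_lit 1074, nat_lit 1082, nat_lit 1086, nat_lit 1094, nat_lit 1096,
  nat_lit 1098, nat_lit 1102, nat_lit 1106, nat_lit 1108, nat_lit 1110, nat_lit 1116, nat_lit 1120, nat_lit 1124,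
  nat_lit 1130, nat_lit 1132, nat_lit 1134, nat_lit 1138, nat_lit 1142, nat_lit 1144, nat_lit 1146, nat_lit 1154,
  nat_lit 1158, nat_lit 1162, nat_lit 1164, nat_lit 1170, nat_lit 1174, nat_lit 1178, nat_lit 1184, nat_lit 1186,
  nat_lit 1190, nat_lit 1194, nat_lit 1202, nat_lit 1204, nat_lit 1206, nat_lit 1210, nat_lit 1214, nat_lit 1216,
  nat_lit 1218, nat_lit 1224, nat_lit 1228, nat_lit 1232, nat_lit 1238, nat_lit 1240, nat_lit 1242, nat_lit 1246,
  nat_lit 1250, nat_lit 1252, nat_lit 1254, nat_lit 1262, nat_lit 1266, nat_lit 1274, nat_lit 1276, nat_lit 1280,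
  nat_lit 1284, nat_lit 1288, nat_lit 1290, nat_lit 1296, nat_lit 1300, nat_lit 1304, nat_lit 1306, nat_lit 1308,
  nat_lit 1316, nat_lit 1320, nat_lit 1324, nat_lit 1326, nat_lit 1332, nat_lit 1336, nat_lit 1340, nat_lit 1346,
  nat_lit 1348, nat_lit 1352, nat_lit 1356, nat_lit 1364, nat_lit 1366, nat_lit 1368, nat_lit 1372, nat_lit 1376,
  nat_lit 1382, nat_lit 1384, nat_lit 1388, nat_lit 1392, nat_lit 1396, nat_lit 1398, nat_lit 1406, nat_lit 1410,
  nat_lit 1418, nat_lit 1420, nat_lit 1422, nat_lit 1426, nat_lit 1430, nat_lit 1432, nat_lit 1434, nat_lit 1440,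
  nat_lit 1444, nat_lit 1448, nat_lit 1454, nat_lit 1456, nat_lit 1458, nat_lit 1462, nat_lit 1466, nat_lit 1468,
  nat_lit 1470, nat_lit 1478, nat_lit 1482, nat_lit 1486, nat_lit 1488, nat_lit 1494, nat_lit 1498, nat_lit 1502,
  nat_lit 1508, nat_lit 1510, nat_lit 1514, nat_lit 1518, nat_lit 1526, nat_lit 1528, nat_lit 1530, nat_lit 1534,
  nat_lit 1538, nat_lit 1540, nat_lit 1542, nat_lit 1548, nat_lit 1552, nat_lit 1556, nat_lit 1562, nat_lit 1564,
  nat_lit 1566, nat_lit 1570, nat_lit 1574, nat_lit 1576, nat_lit 1578, nat_lit 1586, nat_lit 1590, nat_lit 1598,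
  nat_lit 1600, nat_lit 1604, nat_lit 1608, nat_lit 1612, nat_lit 1614, nat_lit 1622, nat_lit 1626, nat_lit 1634,
  nat_lit 1636, nat_lit 1638, nat_lit 1642, nat_lit 1646, nat_lit 1652, nat_lit 1654, nat_lit 1658, nat_lit 1662,
  nat_lit 1666, nat_lit 1668, nat_lit 1674, nat_lit 1678, nat_lit 1682, nat_lit 1684, nat_lit 1686, nat_lit 1694,
  nat_lit 1698, nat_lit 1702, nat_lit 1704, nat_lit 1710, nat_lit 1714, nat_lit 1718, nat_lit 1724, nat_lit 1726,
  nat_lit 1728, nat_lit 1732, nat_lit 1736, nat_lit 1738, nat_lit 1740, nat_lit 1748, nat_lit 1752, nat_lit 1760,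
  nat_lit 1762, nat_lit 1766, nat_lit 1770, nat_lit 1774, nat_lit 1776, nat_lit 1782, nat_lit 1786, nat_lit 1790,
  nat_lit 1792, nat_lit 1794, nat_lit 1802, nat_lit 1806, nat_lit 1810, nat_lit 1812, nat_lit 1818, nat_lit 1822,
  nat_lit 1826, nat_lit 1832, nat_lit 1834, nat_lit 1838, nat_lit 1842, nat_lit 1850, nat_lit 1852, nat_lit 1854,
  nat_lit 1858, nat_lit 1862, nat_lit 1868, nat_lit 1870, nat_lit 1874, nat_lit 1878, nat_lit 1882, nat_lit 1884,
  nat_lit 1892, nat_lit 1896, nat_lit 1904, nat_lit 1906, nat_lit 1908, nat_lit 1912, nat_lit 1916, nat_lit 1918,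
  nat_lit 1920, nat_lit 1926, nat_lit 1930, nat_lit 1934, nat_lit 1940, nat_lit 1942, nat_lit 1946, nat_lit 1950,
  nat_lit 1958, nat_lit 1960, nat_lit 1962, nat_lit 1966, nat_lit 1970, nat_lit 1976, nat_lit 1978, nat_lit 1982,
  nat_lit 1986, nat_lit 1990, nat_lit 1992, nat_lit 1998, nat_lit 2002, nat_lit 2006, nat_lit 2008, nat_lit 2010,
  nat_lit 2018, nat_lit 2022, nat_lit 2030, nat_lit 2032, nat_lit 2036, nat_lit 2040, nat_lit 2044, nat_lit 2046,
  nat_lit 2054, nat_lit 2058, nat_lit 2066, nat_lit 2068, nat_lit 2070, nat_lit 2074, nat_lit 2078, nat_lit 2080,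
  nat_lit 2082, nat_lit 2088, nat_lit 2092, nat_lit 2096, nat_lit 2102, nat_lit 2104, nat_lit 2106, nat_lit 2110,
  nat_lit 2114, nat_lit 2116, nat_lit 2118, nat_lit 2126, nat_lit 2130, nat_lit 2134, nat_lit 2136, nat_lit 2142,
  nat_lit 2146, nat_lit 2150, nat_lit 2156, nat_lit 2158, nat_lit 2162, nat_lit 2166, nat_lit 2174, nat_lit 2176,
  nat_lit 2178, nat_lit 2182, nat_lit 2186]

def TT : Type :=
  Nat → Nat → Nat → Nat → Nat → Nat → Nat → Nat → Nat → Nat → Nat → Nat → Nat → Nat → Nat → Nat →
  Nat → Nat → Nat → Nat → Nat → Nat → Nat → Nat → Nat → Nat → Nat → Nat → Nat → Nat → Nat → Nat →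
  Nat → Nat → Nat → Nat → Nat → Nat → Nat → Nat → Nat → Nat → Nat → Nat → Nat → Nat → Nat → Nat →
  Nat → Nat → Nat → Nat → Nat → Nat → Nat → Nat → Nat → Nat → Nat → Nat → Nat → Nat → Nat → Nat →
  Nat → Nat → Nat → Nat → Nat → Nat → Nat → Nat → Nat → Nat → Nat → Nat → Nat → Nat → Nat → Nat →
  Nat → Nat → Nat → Nat → Nat → Nat → Nat → Nat → Nat → Nat → Nat → Nat → Nat → Nat → Nat → Nat →
  Nat → Nat → Nat → Nat → Nat → Nat → Nat → Nat → Nat → Nat → Nat → Nat → Nat → Nat → Nat → Nat →
  Nat → Nat → Nat → Nat → Nat → Nat → Nat → Nat → Nat → Nat → Nat → Nat → Nat → Nat → Nat → Nat →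
  Nat → Nat → Nat → Nat → Nat → Nat → Nat → Nat → Nat → Nat → Nat → Nat → Nat → Nat → Nat → Nat →
  Nat → Nat → Nat → Nat → Nat → Nat → Nat → Nat → Nat → Nat → Nat → Nat → Nat → Nat → Nat → Nat →
  Nat → Nat → Nat → Nat → Nat → Nat → Nat → Nat → Nat → Nat → Nat → Nat → Nat → Nat → Nat → Nat →
  Nat → Nat → Nat → Nat → Nat → Nat → Nat → Nat → Nat → Nat → Nat → Nat → Nat → Nat → Nat → Nat →
  Nat → Nat → Nat → Nat → Nat → Nat → Nat → Nat → Nat → Nat → Nat → Nat → Nat → Nat → Nat → Nat →
  Nat → Nat → Nat → Nat → Nat → Nat → Nat → Nat → Nat → Nat → Nat → Nat → Nat → Nat → Nat → Nat →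
  Nat → Nat → Nat → Nat → Nat → Nat → Nat → Nat → Nat → Nat → Nat → Nat → Nat → Nat → Nat → Nat →
  Nat → Nat → Nat → Nat → Nat → Nat → Nat → Nat → Nat → Nat → Nat → Nat → Nat → Nat → Nat → Nat →
  Nat → Nat → Nat → Nat → Nat → Nat → Nat → Nat → Nat → Nat → Nat → Nat → Nat → Nat → Nat → Nat →
  Nat → Nat → Nat → Nat → Nat → Nat → Nat → Nat → Nat → Nat → Nat → Nat → Nat → Nat → Nat → Nat →
  Nat → Nat → Nat → Nat → Nat → Nat → Nat → Nat → Nat → Nat → Nat → Nat → Nat → Nat → Nat → Nat →
  Nat → Nat → Nat → Nat → Nat → Nat → Nat → Nat → Nat → Nat → Nat → Nat → Nat → Nat → Nat → Nat →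
  Nat → Nat → Nat → Nat → Nat → Nat → Nat → Nat → Nat → Nat → Nat → Nat → Nat → Nat → Nat → Nat →
  Nat → Nat → Nat → Nat → Nat → Nat → Nat → Nat → Nat → Nat → Nat → Nat → Nat → Nat → Nat → Nat →
  Nat → Nat → Nat → Nat → Nat → Nat → Nat → Nat → Nat → Nat → Nat → Nat → Nat → Nat → Nat → Nat →
  Nat → Nat → Nat → Nat → Nat → Nat → Nat → Nat → Nat → Nat → Nat → Nat → Nat → Nat → Nat → Nat →
  Nat → Nat → Nat → Nat → Nat → Nat → Nat → Nat → Nat → Nat → Nat → Nat → Nat → Nat → Nat → Nat →
  Nat → Nat → Nat → Nat → Nat → Nat → Nat → Nat → Nat → Nat → Nat → Nat → Nat → Nat → Nat → Nat →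
  Nat → Nat → Nat → Nat → Nat → Nat → Nat → Nat → Nat → Nat → Nat → Nat → Nat → Nat → Nat → Nat →
  Nat → Nat → Nat → Nat → Nat → Nat → Nat → Nat → Nat → Nat → Nat → Nat → Nat → Nat → Nat → Nat →
  Nat → Nat → Nat → Nat → Nat → Nat → Nat → Nat → Nat → Nat → Nat → Nat → Nat → Nat → Nat → Nat →
  Nat → Nat → Nat → Nat → Nat → Nat → Nat → Nat → Nat → Nat → Nat → Nat → Nat → Nat → Nat → Nat →
  Nat → Nat → Nat → Nat → Nat → Nat → Nat → Nat → Nat → Nat → Nat → Nat → Nat → Nat → Nat → Nat →
  Nat → Nat → Nat → Nat → Nat → Nat → Nat → Nat → Nat → Nat → Nat → Nat → Nat → Nat → Nat → Nat →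
  Nat → Nat → Nat → Nat → Nat → Nat → Nat → Nat → Nat → Nat → Nat → Nat → Nat → Nat → Nat → Nat →
  Nat → Nat → Nat → Nat → Nat → Nat → Nat → Nat → Nat → Nat → Nat → Nat → Nat → Nat → Nat → Nat →
  Nat → Nat → Nat → Bool

noncomputable def base : TT :=
  fun _ _ _ _ _ _ _ _ _ _ _ _ _ _ _ _ _ _ _ _ _ _ _ _ _ _ _ _ _ _ _ _ _ _ _ _ _ _ _ _
  _ _ _ _ _ _ _ _ _ _ _ _ _ _ _ _ _ _ _ _ _ _ _ _ _ _ _ _ _ _ _ _ _ _ _ _ _ _ _ _
  _ _ _ _ _ _ _ _ _ _ _ _ _ _ _ _ _ _ _ _ _ _ _ _ _ _ _ _ _ _ _ _ _ _ _ _ _ _ _ _
  _ _ _ _ _ _ _ _ _ _ _ _ _ _ _ _ _ _ _ _ _ _ _ _ _ _ _ _ _ _ _ _ _ _ _ _ _ _ _ _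
  _ _ _ _ _ _ _ _ _ _ _ _ _ _ _ _ _ _ _ _ _ _ _ _ _ _ _ _ _ _ _ _ _ _ _ _ _ _ _ _
  _ _ _ _ _ _ _ _ _ _ _ _ _ _ _ _ _ _ _ _ _ _ _ _ _ _ _ _ _ _ _ _ _ _ _ _ _ _ _ _
  _ _ _ _ _ _ _ _ _ _ _ _ _ _ _ _ _ _ _ _ _ _ _ _ _ _ _ _ _ _ _ _ _ _ _ _ _ _ _ _
  _ _ _ _ _ _ _ _ _ _ _ _ _ _ _ _ _ _ _ _ _ _ _ _ _ _ _ _ _ _ _ _ _ _ _ _ _ _ _ _
  _ _ _ _ _ _ _ _ _ _ _ _ _ _ _ _ _ _ _ _ _ _ _ _ _ _ _ _ _ _ _ _ _ _ _ _ _ _ _ _
  _ _ _ _ _ _ _ _ _ _ _ _ _ _ _ _ _ _ _ _ _ _ _ _ _ _ _ _ _ _ _ _ _ _ _ _ _ _ _ _
  _ _ _ _ _ _ _ _ _ _ _ _ _ _ _ _ _ _ _ _ _ _ _ _ _ _ _ _ _ _ _ _ _ _ _ _ _ _ _ _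
  _ _ _ _ _ _ _ _ _ _ _ _ _ _ _ _ _ _ _ _ _ _ _ _ _ _ _ _ _ _ _ _ _ _ _ _ _ _ _ _
  _ _ _ _ _ _ _ _ _ _ _ _ _ _ _ _ _ _ _ _ _ _ _ _ _ _ _ _ _ _ _ _ _ _ _ _ _ _ _ _
  _ _ _ _ _ _ _ _ _ _ _ _ _ _ _ _ _ _ _ _ _ _ _ _ _ _ _ => true

noncomputable def G (chk : List Nat → Bool) (C : Nat) (k : TT) : TT :=
  fun x2 x6 x14 x16 x18 x22 x26 x32 x34 x38 x42 x46 x48 x54 x58 x62
  x64 x66 x74 x78 x86 x88 x92 x96 x100 x102 x110 x114 x122 x124 x126 x130
  x134 x136 x138 x144 x148 x152 x158 x160 x162 x166 x170 x172 x174 x182 x186 x190
  x192 x198 x202 x206 x212 x214 x218 x222 x230 x232 x234 x238 x242 x248 x250 x254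
  x258 x262 x264 x272 x276 x284 x286 x288 x292 x296 x298 x300 x306 x310 x314 x320
  x322 x326 x330 x338 x340 x342 x346 x350 x356 x358 x362 x366 x370 x372 x378 x382
  x386 x388 x390 x398 x402 x406 x408 x414 x418 x422 x428 x430 x432 x436 x440 x442
  x444 x452 x456 x464 x466 x470 x474 x478 x480 x486 x490 x494 x496 x498 x506 x510
  x514 x516 x522 x526 x530 x536 x538 x542 x546 x554 x556 x558 x562 x566 x568 x570
  x576 x580 x584 x590 x592 x594 x598 x602 x604 x606 x614 x618 x626 x628 x632 x636
  x640 x642 x650 x654 x662 x664 x666 x670 x674 x680 x682 x686 x690 x694 x696 x702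
  x706 x710 x712 x714 x722 x726 x734 x736 x740 x744 x748 x750 x758 x762 x770 x772
  x774 x778 x782 x784 x786 x792 x796 x800 x806 x808 x812 x816 x824 x826 x828 x832
  x836 x842 x844 x848 x852 x856 x858 x864 x868 x872 x874 x876 x884 x888 x892 x894
  x900 x904 x908 x914 x916 x918 x922 x926 x928 x930 x938 x942 x950 x952 x956 x960
  x964 x966 x974 x978 x986 x988 x990 x994 x998 x1004 x1006 x1010 x1014 x1018 x1020 x1026
  x1030 x1034 x1036 x1038 x1046 x1050 x1058 x1060 x1064 x1068 x1072 x1074 x1082 x1086 x1094 x1096
  x1098 x1102 x1106 x1108 x1110 x1116 x1120 x1124 x1130 x1132 x1134 x1138 x1142 x1144 x1146 x1154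
  x1158 x1162 x1164 x1170 x1174 x1178 x1184 x1186 x1190 x1194 x1202 x1204 x1206 x1210 x1214 x1216
  x1218 x1224 x1228 x1232 x1238 x1240 x1242 x1246 x1250 x1252 x1254 x1262 x1266 x1274 x1276 x1280
  x1284 x1288 x1290 x1296 x1300 x1304 x1306 x1308 x1316 x1320 x1324 x1326 x1332 x1336 x1340 x1346
  x1348 x1352 x1356 x1364 x1366 x1368 x1372 x1376 x1382 x1384 x1388 x1392 x1396 x1398 x1406 x1410
  x1418 x1420 x1422 x1426 x1430 x1432 x1434 x1440 x1444 x1448 x1454 x1456 x1458 x1462 x1466 x1468
  x1470 x1478 x1482 x1486 x1488 x1494 x1498 x1502 x1508 x1510 x1514 x1518 x1526 x1528 x1530 x1534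
  x1538 x1540 x1542 x1548 x1552 x1556 x1562 x1564 x1566 x1570 x1574 x1576 x1578 x1586 x1590 x1598
  x1600 x1604 x1608 x1612 x1614 x1622 x1626 x1634 x1636 x1638 x1642 x1646 x1652 x1654 x1658 x1662
  x1666 x1668 x1674 x1678 x1682 x1684 x1686 x1694 x1698 x1702 x1704 x1710 x1714 x1718 x1724 x1726
  x1728 x1732 x1736 x1738 x1740 x1748 x1752 x1760 x1762 x1766 x1770 x1774 x1776 x1782 x1786 x1790
  x1792 x1794 x1802 x1806 x1810 x1812 x1818 x1822 x1826 x1832 x1834 x1838 x1842 x1850 x1852 x1854
  x1858 x1862 x1868 x1870 x1874 x1878 x1882 x1884 x1892 x1896 x1904 x1906 x1908 x1912 x1916 x1918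
  x1920 x1926 x1930 x1934 x1940 x1942 x1946 x1950 x1958 x1960 x1962 x1966 x1970 x1976 x1978 x1982
  x1986 x1990 x1992 x1998 x2002 x2006 x2008 x2010 x2018 x2022 x2030 x2032 x2036 x2040 x2044 x2046
  x2054 x2058 x2066 x2068 x2070 x2074 x2078 x2080 x2082 x2088 x2092 x2096 x2102 x2104 x2106 x2110
  x2114 x2116 x2118 x2126 x2130 x2134 x2136 x2142 x2146 x2150 x2156 x2158 x2162 x2166 x2174 x2176
  x2178 x2182 x2186 =>
  Bool.rec false (k
  (add (add (add (add (add (add (add (add (add (add (add (sub C x6) x14) x26) x38) x74) x110) x218) x326) x650) x974) x1946) x1458)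
  (sub (add (add (add (add (add (add (add (add (add (sub (sub C x2) x18) x42) x78) x114) x222) x330) x654) x978) x1950) x736) x1466)
  (add (add (add (add (add (add (add (sub (add (add (sub C x16) x2) x26) x32) x122) x230) x338) x662) x986) x1958) x1470)
  (sub (add (add (add (add (add (add (sub (sub (sub C x14) x22) x34) x124) x232) x340) x664) x988) x1960) x744)
  (sub (add (add (add (add (add (add (add (sub (sub (add (add C x22) x26) x6) x54) x126) x234) x342) x666) x990) x1962) x748) x1478)
  (sub (add (add (add (add (add (add (sub (sub (add (add C x18) x26) x16) x58) x130) x238) x346) x670) x994) x1966) x750)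
  (add (add (add (add (add (add (add (sub (add (add (add (add C x18) x22) x2) x14) x62) x134) x242) x350) x674) x998) x1970) x1482)
  (add (add (add (add (add (sub (sub (sub (sub C x34) x38) x14) x86) x356) x680) x1004) x1976) x1488)
  (sub (add (add (add (add (sub (sub (sub (sub C x32) x46) x16) x88) x358) x682) x1006) x1978) x762)
  (add (add (add (add (add (sub (add (add (sub (sub C x42) x32) x2) x74) x92) x362) x686) x1010) x1982) x1494)
  (sub (add (add (add (add (add (sub (add (add (sub (sub C x38) x48) x6) x78) x96) x366) x690) x1014) x1986) x772) x1502)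
  (sub (add (add (add (add (sub (sub (sub (sub C x48) x34) x64) x100) x370) x694) x1018) x1990) x774)
  (sub (add (add (add (add (add (sub (sub (sub (sub C x46) x42) x66) x102) x372) x696) x1020) x1992) x778) x1508)
  (sub (add (add (add (add (add (sub (sub (add (add (add (add C x58) x62) x66) x78) x18) x162) x378) x702) x1026) x1998) x784) x1514)
  (sub (add (add (add (add (sub (sub (sub (add (add C x54) x62) x64) x22) x166) x382) x706) x1030) x2002) x786)
  (add (add (add (add (add (sub (sub (sub (add (add C x54) x58) x74) x26) x170) x386) x710) x1034) x2006) x1518)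
  (sub (add (add (add (add (sub (sub (sub (sub C x66) x58) x46) x172) x388) x712) x1036) x2008) x792)
  (sub (add (add (add (add (add (sub (sub (add (add (sub C x64) x54) x78) x48) x174) x390) x714) x1038) x2010) x796) x1526)
  (add (add (add (add (add (sub (add (add (sub (sub C x78) x62) x2) x38) x182) x398) x722) x1046) x2018) x1530)
  (sub (add (add (add (add (add (sub (add (add (add (add (sub C x74) x54) x66) x6) x42) x186) x402) x726) x1050) x2022) x808) x1538)
  (add (add (add (sub (sub (add (add (sub (sub C x88) x92) x122) x158) x32) x248) x1058) x2030) x1542)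
  (sub (add (add (sub (sub (add (add (sub (sub C x86) x100) x124) x160) x34) x250) x1060) x2032) x816)
  (add (add (add (sub (sub (sub (sub (sub C x96) x86) x110) x38) x254) x1064) x2036) x1548)
  (sub (add (add (add (sub (sub (sub (sub (sub C x92) x102) x114) x42) x258) x1068) x2040) x826) x1556)
  (sub (add (add (sub (sub (sub (sub (sub C x102) x88) x136) x46) x262) x1072) x2044) x828)
  (sub (add (add (add (sub (sub (sub (sub (sub C x100) x96) x138) x48) x264) x1074) x2046) x832) x1562)
  (add (add (add (sub (add (add (sub (add (add (sub C x114) x122) x134) x92) x2) x218) x272) x1082) x2054) x1566)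
  (sub (add (add (add (sub (add (add (sub (sub (sub C x110) x126) x96) x6) x222) x276) x1086) x2058) x844) x1574)
  (add (add (add (sub (add (add (add (add (add (add (sub C x124) x110) x134) x86) x158) x14) x230) x284) x1094) x2066) x1578)
  (sub (add (add (sub (add (add (add (add (sub (sub C x122) x130) x88) x160) x16) x232) x286) x1096) x2068) x852)
  (sub (add (add (add (sub (add (add (sub (sub (add (add C x130) x134) x114) x144) x18) x234) x288) x1098) x2070) x856) x1586)
  (sub (add (add (sub (add (add (sub (sub (add (add C x126) x134) x124) x148) x22) x238) x292) x1102) x2074) x858)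
  (add (add (add (sub (add (add (sub (add (add (add (add C x126) x130) x110) x122) x152) x26) x242) x296) x1106) x2078) x1590)
  (sub (add (add (sub (sub (sub (add (add (sub C x138) x148) x160) x100) x190) x298) x1108) x2080) x864)
  (sub (add (add (add (sub (sub (sub (sub (sub C x136) x144) x102) x192) x300) x1110) x2082) x868) x1598)
  (sub (add (add (add (sub (sub (sub (sub (add (add C x148) x152) x138) x126) x198) x306) x1116) x2088) x874) x1604)
  (sub (add (add (sub (sub (sub (add (add (add (add C x144) x152) x136) x160) x130) x202) x310) x1120) x2092) x876)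
  (add (add (add (sub (sub (sub (sub (add (add C x144) x148) x158) x134) x206) x314) x1124) x2096) x1608)
  (add (add (add (sub (sub (add (add (sub (sub C x160) x152) x86) x122) x212) x320) x1130) x2102) x1614)
  (sub (add (add (sub (sub (add (add (add (add (sub C x158) x136) x148) x88) x124) x214) x322) x1132) x2104) x888)
  (sub (add (add (add (sub (sub (add (add (add (add (add (add C x166) x170) x174) x186) x198) x234) x54) x486) x1134) x2106) x892) x1622)
  (sub (add (add (sub (sub (add (add (sub (add (add C x162) x170) x172) x202) x238) x58) x490) x1138) x2110) x894)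
  (add (add (add (sub (sub (add (add (sub (add (add C x162) x166) x182) x206) x242) x62) x494) x1142) x2114) x1626)
  (sub (add (add (sub (sub (sub (sub (sub C x174) x166) x190) x64) x496) x1144) x2116) x900)
  (sub (add (add (add (sub (sub (sub (add (add (sub C x172) x162) x186) x192) x66) x498) x1146) x2118) x904) x1634)
  (add (add (add (sub (sub (sub (sub (sub C x186) x170) x218) x74) x506) x1154) x2126) x1638)
  (sub (add (add (add (sub (sub (sub (add (add (sub C x182) x162) x174) x222) x78) x510) x1158) x2130) x916) x1646)
  (sub (add (add (sub (sub (sub (add (add (sub C x192) x202) x214) x172) x136) x514) x1162) x2134) x918)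
  (sub (add (add (add (sub (sub (sub (sub (sub C x190) x198) x174) x138) x516) x1164) x2136) x922) x1652)
  (sub (add (add (add (sub (sub (add (add (sub (add (add C x202) x206) x192) x162) x234) x144) x522) x1170) x2142) x928) x1658)
  (sub (add (add (sub (sub (add (add (add (add (add (add C x198) x206) x190) x214) x166) x238) x148) x526) x1174) x2146) x930)
  (add (add (add (sub (sub (add (add (sub (add (add C x198) x202) x212) x170) x242) x152) x530) x1178) x2150) x1662)
  (add (add (add (sub (sub (sub (sub (sub C x214) x206) x230) x158) x536) x1184) x2156) x1668)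
  (sub (add (add (sub (sub (sub (add (add (sub C x212) x190) x202) x232) x160) x538) x1186) x2158) x942)
  (add (add (add (sub (add (add (sub (add (add (sub C x222) x230) x242) x182) x2) x110) x542) x1190) x2162) x1674)
  (sub (add (add (add (sub (add (add (sub (sub (sub C x218) x234) x186) x6) x114) x546) x1194) x2166) x952) x1682)
  (add (add (add (sub (add (add (sub (add (add (sub C x232) x218) x242) x212) x14) x122) x554) x1202) x2174) x1686)
  (sub (add (add (sub (add (add (sub (sub (sub C x230) x238) x214) x16) x124) x556) x1204) x2176) x960)
  (sub (add (add (add (sub (add (add (add (add (sub (add (add C x238) x242) x222) x162) x198) x18) x126) x558) x1206) x2178) x964) x1694)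
  (sub (add (add (sub (add (add (add (add (sub (add (add C x234) x242) x232) x166) x202) x22) x130) x562) x1210) x2182) x966)
  (add (add (add (sub (add (add (add (add (add (add (add (add C x234) x238) x218) x230) x170) x206) x26) x134) x566) x1214) x2186) x1698)
  (add (sub (sub (add (add (add (add (sub (sub C x250) x254) x284) x320) x356) x464) x86) x734) x1704)
  (sub (sub (sub (add (add (add (add (sub (sub C x248) x262) x286) x322) x358) x466) x88) x736) x978)
  (add (sub (sub (add (add (sub (sub (sub C x258) x248) x272) x362) x470) x92) x740) x1710)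
  (sub (add (sub (sub (add (add (sub (sub (sub C x254) x264) x276) x366) x474) x96) x744) x988) x1718)
  (sub (sub (sub (add (add (sub (sub (sub C x264) x250) x298) x370) x478) x100) x748) x990)
  (sub (add (sub (sub (add (add (sub (sub (sub C x262) x258) x300) x372) x480) x102) x750) x994) x1724)
  (add (sub (sub (sub (sub (add (add (sub C x276) x284) x296) x254) x326) x110) x758) x1728)
  (sub (add (sub (sub (sub (sub (sub (sub C x272) x288) x258) x330) x114) x762) x1006) x1736)
  (add (sub (sub (sub (add (add (add (add (sub C x286) x272) x296) x248) x320) x338) x122) x770) x1740)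
  (sub (sub (sub (sub (add (add (sub (sub C x284) x292) x250) x322) x340) x124) x772) x1014)
  (sub (add (sub (sub (sub (sub (sub (add (add C x292) x296) x276) x306) x342) x126) x774) x1018) x1748)
  (sub (sub (sub (sub (sub (sub (add (add C x288) x296) x286) x310) x346) x130) x778) x1020)
  (add (sub (sub (sub (sub (add (add (add (add C x288) x292) x272) x284) x314) x350) x134) x782) x1752)
  (sub (sub (sub (sub (sub (add (add (sub C x300) x310) x322) x262) x406) x136) x784) x1026)
  (sub (add (sub (sub (sub (sub (sub (sub C x298) x306) x264) x408) x138) x786) x1030) x1760)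
  (sub (add (sub (sub (sub (sub (sub (add (add C x310) x314) x300) x288) x414) x144) x792) x1036) x1766)
  (sub (sub (sub (sub (sub (add (add (add (add C x306) x314) x298) x322) x292) x418) x148) x796) x1038)
  (add (sub (sub (sub (sub (sub (add (add C x306) x310) x320) x296) x422) x152) x800) x1770)
  (add (sub (sub (sub (add (add (sub (sub C x322) x314) x248) x284) x428) x158) x806) x1776)
  (sub (sub (sub (sub (add (add (add (add (sub C x320) x298) x310) x250) x286) x430) x160) x808) x1050)
  (add (sub (add (add (sub (add (add (add (add (sub C x330) x338) x350) x362) x398) x272) x2) x650) x812) x1782)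
  (sub (add (sub (add (add (sub (add (add (sub (sub C x326) x342) x366) x402) x276) x6) x654) x816) x1060) x1790)
  (add (sub (add (add (sub (sub (add (add (sub C x340) x326) x350) x356) x284) x14) x662) x824) x1794)
  (sub (sub (add (add (sub (sub (sub (sub C x338) x346) x358) x286) x16) x664) x826) x1068)
  (sub (add (sub (add (add (sub (sub (sub (add (add C x346) x350) x330) x378) x288) x18) x666) x828) x1072) x1802)
  (sub (sub (add (add (sub (sub (sub (add (add C x342) x350) x340) x382) x292) x22) x670) x832) x1074)
  (add (sub (add (add (sub (sub (add (add (add (add C x342) x346) x326) x338) x386) x296) x26) x674) x836) x1806)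
  (add (sub (add (add (add (add (sub (sub (sub C x358) x362) x338) x248) x464) x32) x680) x842) x1812)
  (sub (sub (add (add (add (add (sub (sub (sub C x356) x370) x340) x250) x466) x34) x682) x844) x1086)
  (add (sub (add (add (add (add (add (add (sub (sub C x366) x356) x326) x398) x254) x470) x38) x686) x848) x1818)
  (sub (add (sub (add (add (add (add (add (add (sub (sub C x362) x372) x330) x402) x258) x474) x42) x690) x852) x1096) x1826)
  (sub (sub (add (add (add (add (sub (sub (sub C x372) x358) x388) x262) x478) x46) x694) x856) x1098)
  (sub (add (sub (add (add (add (add (sub (sub (sub C x370) x366) x390) x264) x480) x48) x696) x858) x1102) x1832)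
  (sub (add (sub (add (add (sub (sub (add (add (add (add C x382) x386) x390) x402) x342) x432) x54) x702) x864) x1108) x1838)
  (sub (sub (add (add (sub (sub (sub (add (add C x378) x386) x388) x346) x436) x58) x706) x868) x1110)
  (add (sub (add (add (sub (sub (sub (add (add C x378) x382) x398) x350) x440) x62) x710) x872) x1842)
  (sub (sub (add (add (sub (sub (sub (sub C x390) x382) x370) x442) x64) x712) x874) x1116)
  (sub (add (sub (add (add (sub (sub (add (add (sub C x388) x378) x402) x372) x444) x66) x714) x876) x1120) x1850)
  (add (sub (add (add (sub (add (add (sub (sub C x402) x386) x326) x362) x452) x74) x722) x884) x1854)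
  (sub (add (sub (add (add (sub (add (add (add (add (sub C x398) x378) x390) x330) x366) x456) x78) x726) x888) x1132) x1862)
  (sub (sub (sub (sub (add (add (add (add (sub C x408) x418) x430) x442) x478) x298) x568) x892) x1134)
  (sub (add (sub (sub (sub (add (add (sub (sub C x406) x414) x444) x480) x300) x570) x894) x1138) x1868)
  (sub (add (sub (sub (sub (sub (sub (add (add C x418) x422) x408) x432) x306) x576) x900) x1144) x1874)
  (sub (sub (sub (sub (sub (add (add (add (add C x414) x422) x406) x430) x436) x310) x580) x904) x1146)
  (add (sub (sub (sub (sub (sub (add (add C x414) x418) x428) x440) x314) x584) x908) x1878)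
  (add (sub (sub (sub (sub (sub (sub C x430) x422) x464) x320) x590) x914) x1884)
  (sub (sub (sub (sub (sub (add (add (sub C x428) x406) x418) x466) x322) x592) x916) x1158)
  (sub (add (sub (sub (sub (sub (add (add (add (add C x436) x440) x444) x456) x414) x378) x594) x918) x1162) x1892)
  (sub (sub (sub (sub (sub (sub (add (add C x432) x440) x442) x418) x382) x598) x922) x1164)
  (add (sub (sub (sub (sub (sub (add (add C x432) x436) x452) x422) x386) x602) x926) x1896)
  (sub (sub (sub (sub (add (add (sub (sub C x444) x436) x406) x478) x388) x604) x928) x1170)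
  (sub (add (sub (sub (sub (add (add (add (add (sub C x442) x432) x456) x408) x480) x390) x606) x930) x1174) x1904)
  (add (sub (sub (sub (sub (sub (sub C x456) x440) x470) x398) x614) x938) x1908)
  (sub (add (sub (sub (sub (sub (add (add (sub C x452) x432) x444) x474) x402) x618) x942) x1186) x1916)
  (add (sub (sub (add (add (sub (sub (sub C x466) x470) x428) x248) x356) x626) x950) x1920)
  (sub (sub (sub (add (add (sub (sub (sub C x464) x478) x430) x250) x358) x628) x952) x1194)
  (add (sub (sub (add (add (sub (sub (sub C x474) x464) x452) x254) x362) x632) x956) x1926)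
  (sub (add (sub (sub (add (add (sub (sub (sub C x470) x480) x456) x258) x366) x636) x960) x1204) x1934)
  (sub (sub (sub (add (add (add (add (sub (sub C x480) x466) x406) x442) x262) x370) x640) x964) x1206)
  (sub (add (sub (sub (add (add (add (add (sub (sub C x478) x474) x408) x444) x264) x372) x642) x966) x1210) x1940)
  (sub (add (sub (sub (add (add (add (add (add (add (add (add C x490) x494) x498) x510) x522) x558) x594) x702) x162) x1458) x1216) x1946)
  (sub (sub (sub (add (add (add (add (sub (add (add C x486) x494) x496) x526) x562) x598) x706) x166) x1462) x1218)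
  (add (sub (sub (add (add (add (add (sub (add (add C x486) x490) x506) x530) x566) x602) x710) x170) x1466) x1950)
  (sub (sub (sub (add (add (sub (sub (sub C x498) x490) x514) x604) x712) x172) x1468) x1224)
  (sub (add (sub (sub (add (add (sub (add (add (sub C x496) x486) x510) x516) x606) x714) x174) x1470) x1228) x1958)
  (add (sub (sub (add (add (sub (sub (sub C x510) x494) x542) x614) x722) x182) x1478) x1962)
  (sub (add (sub (sub (add (add (sub (add (add (sub C x506) x486) x498) x546) x618) x726) x186) x1482) x1240) x1970)
  (sub (sub (sub (sub (sub (add (add (sub C x516) x526) x538) x496) x568) x190) x1486) x1242)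
  (sub (add (sub (sub (sub (sub (sub (sub C x514) x522) x498) x570) x192) x1488) x1246) x1976)
  (sub (add (sub (sub (sub (add (add (sub (add (add C x526) x530) x516) x486) x558) x576) x198) x1494) x1252) x1982)
  (sub (sub (sub (sub (add (add (add (add (add (add C x522) x530) x514) x538) x490) x562) x580) x202) x1498) x1254)
  (add (sub (sub (sub (add (add (sub (add (add C x522) x526) x536) x494) x566) x584) x206) x1502) x1986)
  (add (sub (sub (sub (sub (sub (sub C x538) x530) x554) x590) x212) x1508) x1992)
  (sub (sub (sub (sub (sub (add (add (sub C x536) x514) x526) x556) x592) x214) x1510) x1266)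
  (add (sub (sub (sub (sub (add (add (sub C x546) x554) x566) x506) x650) x218) x1514) x1998)
  (sub (add (sub (sub (sub (sub (sub (sub C x542) x558) x510) x654) x222) x1518) x1276) x2006)
  (add (sub (sub (sub (sub (add (add (sub C x556) x542) x566) x536) x662) x230) x1526) x2010)
  (sub (sub (sub (sub (sub (sub (sub C x554) x562) x538) x664) x232) x1528) x1284)
  (sub (add (sub (sub (sub (add (add (sub (add (add C x562) x566) x546) x486) x522) x666) x234) x1530) x1288) x2018)
  (sub (sub (sub (sub (add (add (sub (add (add C x558) x566) x556) x490) x526) x670) x238) x1534) x1290)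
  (add (sub (sub (sub (add (add (add (add (add (add C x558) x562) x542) x554) x494) x530) x674) x242) x1538) x2022)
  (sub (sub (sub (sub (add (add (add (add (sub C x570) x580) x592) x604) x640) x514) x406) x1540) x1296)
  (sub (add (sub (sub (sub (add (add (sub (sub C x568) x576) x606) x642) x516) x408) x1542) x1300) x2030)
  (sub (add (sub (sub (sub (sub (sub (add (add C x580) x584) x570) x594) x522) x414) x1548) x1306) x2036)
  (sub (sub (sub (sub (sub (add (add (add (add C x576) x584) x568) x592) x598) x526) x418) x1552) x1308)
  (add (sub (sub (sub (sub (sub (add (add C x576) x580) x590) x602) x530) x422) x1556) x2040)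
  (add (sub (sub (sub (sub (sub (sub C x592) x584) x626) x536) x428) x1562) x2046)
  (sub (sub (sub (sub (sub (add (add (sub C x590) x568) x580) x628) x538) x430) x1564) x1320)
  (sub (add (sub (sub (add (add (sub (add (add (add (add C x598) x602) x606) x618) x576) x486) x702) x432) x1566) x1324) x2054)
  (sub (sub (sub (add (add (sub (sub (add (add C x594) x602) x604) x580) x490) x706) x436) x1570) x1326)
  (add (sub (sub (add (add (sub (sub (add (add C x594) x598) x614) x584) x494) x710) x440) x1574) x2058)
  (sub (sub (sub (add (add (add (add (sub (sub C x606) x598) x568) x640) x496) x712) x442) x1576) x1332)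
  (sub (add (sub (sub (add (add (add (add (add (add (sub C x604) x594) x618) x570) x642) x498) x714) x444) x1578) x1336) x2066)
  (add (sub (sub (add (add (sub (sub (sub C x618) x602) x632) x506) x722) x452) x1586) x2070)
  (sub (add (sub (sub (add (add (sub (add (add (sub C x614) x594) x606) x636) x510) x726) x456) x1590) x1348) x2078)
  (add (sub (sub (sub (sub (sub (sub C x628) x632) x590) x680) x464) x1598) x2082)
  (sub (sub (sub (sub (sub (sub (sub C x626) x640) x592) x682) x466) x1600) x1356)
  (add (sub (sub (sub (sub (sub (sub C x636) x626) x614) x686) x470) x1604) x2088)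
  (sub (add (sub (sub (sub (sub (sub (sub C x632) x642) x618) x690) x474) x1608) x1366) x2096)
  (sub (sub (sub (sub (add (add (sub (sub C x642) x628) x568) x604) x694) x478) x1612) x1368)
  (sub (add (sub (sub (sub (add (add (sub (sub C x640) x636) x570) x606) x696) x480) x1614) x1372) x2102)
  (add (sub (add (add (sub (add (add (add (add (sub C x654) x662) x674) x686) x722) x542) x2) x326) x1622) x2106)
  (sub (add (sub (add (add (sub (add (add (sub (sub C x650) x666) x690) x726) x546) x6) x330) x1626) x1384) x2114)
  (add (sub (add (add (sub (sub (add (add (sub C x664) x650) x674) x680) x554) x14) x338) x1634) x2118)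
  (sub (sub (add (add (sub (sub (sub (sub C x662) x670) x682) x556) x16) x340) x1636) x1392)
  (sub (add (sub (add (add (sub (sub (sub (add (add C x670) x674) x654) x702) x558) x18) x342) x1638) x1396) x2126)
  (sub (sub (add (add (sub (sub (sub (add (add C x666) x674) x664) x706) x562) x22) x346) x1642) x1398)
  (add (sub (add (add (sub (sub (add (add (add (add C x666) x670) x650) x662) x710) x566) x26) x350) x1646) x2130)
  (add (sub (add (add (sub (sub (sub (sub C x682) x686) x662) x626) x32) x356) x1652) x2136)
  (sub (sub (add (add (sub (sub (sub (sub C x680) x694) x664) x628) x34) x358) x1654) x1410)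
  (add (sub (add (add (sub (add (add (sub (sub C x690) x680) x650) x722) x632) x38) x362) x1658) x2142)
  (sub (add (sub (add (add (sub (add (add (sub (sub C x686) x696) x654) x726) x636) x42) x366) x1662) x1420) x2150)
  (sub (sub (add (add (sub (sub (sub (sub C x696) x682) x712) x640) x46) x370) x1666) x1422)
  (sub (add (sub (add (add (sub (sub (sub (sub C x694) x690) x714) x642) x48) x372) x1668) x1426) x2156)
  (sub (add (sub (add (add (add (add (sub (add (add (add (add C x706) x710) x714) x726) x666) x486) x594) x54) x378) x1674) x1432) x2162)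
  (sub (sub (add (add (add (add (sub (sub (add (add C x702) x710) x712) x670) x490) x598) x58) x382) x1678) x1434)
  (add (sub (add (add (add (add (sub (sub (add (add C x702) x706) x722) x674) x494) x602) x62) x386) x1682) x2166)
  (sub (sub (add (add (add (add (sub (sub (sub C x714) x706) x694) x496) x604) x64) x388) x1684) x1440)
  (sub (add (sub (add (add (add (add (sub (add (add (sub C x712) x702) x726) x696) x498) x606) x66) x390) x1686) x1444) x2174)
  (add (sub (add (add (add (add (add (add (sub (sub C x726) x710) x650) x686) x506) x614) x74) x398) x1694) x2178)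
  (sub (add (sub (add (add (add (add (add (add (add (add (sub C x722) x702) x714) x654) x690) x510) x618) x78) x402) x1698) x1456) x2186)
  (add (sub (add (add (add (add (add (add (sub (sub C x736) x740) x770) x806) x842) x950) x1058) x1382) x248) x1462)
  (sub (add (sub (add (add (add (add (add (add (sub (sub C x734) x748) x772) x808) x844) x952) x1060) x1384) x250) x6) x1466)
  (add (sub (add (add (add (add (sub (sub (sub C x744) x734) x758) x848) x956) x1064) x1388) x254) x1468)
  (sub (sub (add (add (add (add (sub (sub (sub C x740) x750) x762) x852) x960) x1068) x1392) x258) x16)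
  (sub (add (sub (add (add (add (add (sub (sub (sub C x750) x736) x784) x856) x964) x1072) x1396) x262) x18) x1478)
  (sub (sub (add (add (add (add (sub (sub (sub C x748) x744) x786) x858) x966) x1074) x1398) x264) x22)
  (add (sub (add (add (sub (sub (add (add (sub C x762) x770) x782) x740) x812) x1082) x1406) x272) x1486)
  (sub (sub (add (add (sub (sub (sub (sub C x758) x774) x744) x816) x1086) x1410) x276) x34)
  (add (sub (add (add (sub (add (add (add (add (sub C x772) x758) x782) x734) x806) x824) x1094) x1418) x284) x1498)
  (sub (add (sub (add (add (sub (add (add (sub (sub C x770) x778) x736) x808) x826) x1096) x1420) x286) x42) x1502)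
  (sub (sub (add (add (sub (sub (sub (add (add C x778) x782) x762) x792) x828) x1098) x1422) x288) x46)
  (sub (add (sub (add (add (sub (sub (sub (add (add C x774) x782) x772) x796) x832) x1102) x1426) x292) x48) x1508)
  (add (sub (add (add (sub (sub (add (add (add (add C x774) x778) x758) x770) x800) x836) x1106) x1430) x296) x1510)
  (sub (add (sub (add (add (sub (sub (add (add (sub C x786) x796) x808) x748) x892) x1108) x1432) x298) x54) x1514)
  (sub (sub (add (add (sub (sub (sub (sub C x784) x792) x750) x894) x1110) x1434) x300) x58)
  (sub (sub (add (add (sub (sub (sub (add (add C x796) x800) x786) x774) x900) x1116) x1440) x306) x64)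
  (sub (add (sub (add (add (sub (sub (add (add (add (add C x792) x800) x784) x808) x778) x904) x1120) x1444) x310) x66) x1526)
  (add (sub (add (add (sub (sub (sub (add (add C x792) x796) x806) x782) x908) x1124) x1448) x314) x1528)
  (add (sub (add (add (sub (add (add (sub (sub C x808) x800) x734) x770) x914) x1130) x1454) x320) x1534)
  (sub (add (sub (add (add (sub (add (add (add (add (sub C x806) x784) x796) x736) x772) x916) x1132) x1456) x322) x78) x1538)
  (add (sub (sub (sub (add (add (add (add (sub C x816) x824) x836) x848) x884) x758) x974) x326) x1540)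
  (sub (sub (sub (sub (add (add (sub (sub C x812) x828) x852) x888) x762) x978) x330) x88)
  (add (sub (sub (sub (sub (add (add (sub C x826) x812) x836) x842) x770) x986) x338) x1552)
  (sub (add (sub (sub (sub (sub (sub (sub C x824) x832) x844) x772) x988) x340) x96) x1556)
  (sub (sub (sub (sub (sub (sub (add (add C x832) x836) x816) x864) x774) x990) x342) x100)
  (sub (add (sub (sub (sub (sub (sub (add (add C x828) x836) x826) x868) x778) x994) x346) x102) x1562)
  (add (sub (sub (sub (sub (add (add (add (add C x828) x832) x812) x824) x872) x782) x998) x350) x1564)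
  (add (sub (sub (add (add (sub (sub (sub C x844) x848) x824) x734) x950) x1004) x356) x1570)
  (sub (add (sub (sub (add (add (sub (sub (sub C x842) x856) x826) x736) x952) x1006) x358) x114) x1574)
  (add (sub (sub (add (add (add (add (sub (sub C x852) x842) x812) x884) x740) x956) x1010) x362) x1576)
  (sub (sub (sub (add (add (add (add (sub (sub C x848) x858) x816) x888) x744) x960) x1014) x366) x124)
  (sub (add (sub (sub (add (add (sub (sub (sub C x858) x844) x874) x748) x964) x1018) x370) x126) x1586)
  (sub (sub (sub (add (add (sub (sub (sub C x856) x852) x876) x750) x966) x1020) x372) x130)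
  (sub (sub (sub (sub (sub (add (add (add (add C x868) x872) x876) x888) x828) x918) x1026) x378) x136)
  (sub (add (sub (sub (sub (sub (sub (add (add C x864) x872) x874) x832) x922) x1030) x382) x138) x1598)
  (add (sub (sub (sub (sub (sub (add (add C x864) x868) x884) x836) x926) x1034) x386) x1600)
  (sub (add (sub (sub (sub (sub (sub (sub C x876) x868) x856) x928) x1036) x388) x144) x1604)
  (sub (sub (sub (sub (sub (add (add (sub C x874) x864) x888) x858) x930) x1038) x390) x148)
  (add (sub (sub (sub (add (add (sub (sub C x888) x872) x812) x848) x938) x1046) x398) x1612)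
  (sub (sub (sub (sub (add (add (add (add (sub C x884) x864) x876) x816) x852) x942) x1050) x402) x160)
  (sub (add (sub (sub (sub (add (add (add (add (sub C x894) x904) x916) x928) x964) x784) x1216) x406) x162) x1622)
  (sub (sub (sub (sub (add (add (sub (sub C x892) x900) x930) x966) x786) x1218) x408) x166)
  (sub (sub (sub (sub (sub (sub (add (add C x904) x908) x894) x918) x792) x1224) x414) x172)
  (sub (add (sub (sub (sub (sub (add (add (add (add C x900) x908) x892) x916) x922) x796) x1228) x418) x174) x1634)
  (add (sub (sub (sub (sub (sub (add (add C x900) x904) x914) x926) x800) x1232) x422) x1636)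
  (add (sub (sub (sub (sub (sub (sub C x916) x908) x950) x806) x1238) x428) x1642)
  (sub (add (sub (sub (sub (sub (add (add (sub C x914) x892) x904) x952) x808) x1240) x430) x186) x1646)
  (sub (sub (sub (sub (sub (add (add (add (add C x922) x926) x930) x942) x900) x864) x1242) x432) x190)
  (sub (add (sub (sub (sub (sub (sub (add (add C x918) x926) x928) x904) x868) x1246) x436) x192) x1652)
  (add (sub (sub (sub (sub (sub (add (add C x918) x922) x938) x908) x872) x1250) x440) x1654)
  (sub (add (sub (sub (sub (add (add (sub (sub C x930) x922) x892) x964) x874) x1252) x442) x198) x1658)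
  (sub (sub (sub (sub (add (add (add (add (sub C x928) x918) x942) x894) x966) x876) x1254) x444) x202)
  (add (sub (sub (sub (sub (sub (sub C x942) x926) x956) x884) x1262) x452) x1666)
  (sub (sub (sub (sub (sub (add (add (sub C x938) x918) x930) x960) x888) x1266) x456) x214)
  (add (sub (sub (add (add (sub (sub (sub C x952) x956) x914) x734) x842) x1274) x464) x1678)
  (sub (add (sub (sub (add (add (sub (sub (sub C x950) x964) x916) x736) x844) x1276) x466) x222) x1682)
  (add (sub (sub (add (add (sub (sub (sub C x960) x950) x938) x740) x848) x1280) x470) x1684)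
  (sub (sub (sub (add (add (sub (sub (sub C x956) x966) x942) x744) x852) x1284) x474) x232)
  (sub (add (sub (sub (add (add (add (add (sub (sub C x966) x952) x892) x928) x748) x856) x1288) x478) x234) x1694)
  (sub (sub (sub (add (add (add (add (sub (sub C x964) x960) x894) x930) x750) x858) x1290) x480) x238)
  (add (add (add (sub (add (add (add (add (add (add (sub C x978) x986) x998) x1010) x1046) x1082) x1190) x812) x2) x1946) x1702)
  (sub (add (add (sub (add (add (add (add (sub (sub C x974) x990) x1014) x1050) x1086) x1194) x816) x6) x1950) x250)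
  (add (add (add (sub (add (add (sub (add (add (sub C x988) x974) x998) x1004) x1094) x1202) x824) x14) x1958) x1714)
  (sub (add (add (add (sub (add (add (sub (sub (sub C x986) x994) x1006) x1096) x1204) x826) x16) x1960) x258) x1718)
  (sub (add (add (sub (add (add (sub (sub (add (add C x994) x998) x978) x1026) x1098) x1206) x828) x18) x1962) x262)
  (sub (add (add (add (sub (add (add (sub (sub (add (add C x990) x998) x988) x1030) x1102) x1210) x832) x22) x1966) x264) x1724)
  (add (add (add (sub (add (add (sub (add (add (add (add C x990) x994) x974) x986) x1034) x1106) x1214) x836) x26) x1970) x1726)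
  (add (add (add (sub (sub (sub (sub (sub C x1006) x1010) x986) x1058) x842) x32) x1976) x1732)
  (sub (add (add (add (sub (sub (sub (sub (sub C x1004) x1018) x988) x1060) x844) x34) x1978) x276) x1736)
  (add (add (add (sub (sub (add (add (sub (sub C x1014) x1004) x974) x1046) x1064) x848) x38) x1982) x1738)
  (sub (add (add (sub (sub (add (add (sub (sub C x1010) x1020) x978) x1050) x1068) x852) x42) x1986) x286)
  (sub (add (add (add (sub (sub (sub (sub (sub C x1020) x1006) x1036) x1072) x856) x46) x1990) x288) x1748)
  (sub (add (add (sub (sub (sub (sub (sub C x1018) x1014) x1038) x1074) x858) x48) x1992) x292)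
  (sub (add (add (sub (sub (sub (add (add (add (add C x1030) x1034) x1038) x1050) x990) x1134) x864) x54) x1998) x298)
  (sub (add (add (add (sub (sub (sub (sub (add (add C x1026) x1034) x1036) x994) x1138) x868) x58) x2002) x300) x1760)
  (add (add (add (sub (sub (sub (sub (add (add C x1026) x1030) x1046) x998) x1142) x872) x62) x2006) x1762)
  (sub (add (add (add (sub (sub (sub (sub (sub C x1038) x1030) x1018) x1144) x874) x64) x2008) x306) x1766)
  (sub (add (add (sub (sub (sub (add (add (sub C x1036) x1026) x1050) x1020) x1146) x876) x66) x2010) x310)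
  (add (add (add (sub (sub (add (add (sub (sub C x1050) x1034) x974) x1010) x1154) x884) x74) x2018) x1774)
  (sub (add (add (sub (sub (add (add (add (add (sub C x1046) x1026) x1038) x978) x1014) x1158) x888) x78) x2022) x322)
  (add (add (add (add (add (sub (add (add (sub (sub C x1060) x1064) x1094) x1130) x1004) x734) x1382) x86) x2030) x1786)
  (sub (add (add (add (add (add (sub (add (add (sub (sub C x1058) x1072) x1096) x1132) x1006) x736) x1384) x88) x2032) x330) x1790)
  (add (add (add (add (add (sub (sub (sub (sub C x1068) x1058) x1082) x1010) x740) x1388) x92) x2036) x1792)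
  (sub (add (add (add (add (sub (sub (sub (sub C x1064) x1074) x1086) x1014) x744) x1392) x96) x2040) x340)
  (sub (add (add (add (add (add (sub (sub (sub (sub C x1074) x1060) x1108) x1018) x748) x1396) x100) x2044) x342) x1802)
  (sub (add (add (add (add (sub (sub (sub (sub C x1072) x1068) x1110) x1020) x750) x1398) x102) x2046) x346)
  (add (add (add (add (add (add (add (sub (add (add (sub C x1086) x1094) x1106) x1064) x974) x1190) x758) x1406) x110) x2054) x1810)
  (sub (add (add (add (add (add (add (sub (sub (sub C x1082) x1098) x1068) x978) x1194) x762) x1410) x114) x2058) x358)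
  (add (add (add (add (add (add (add (add (add (add (add (sub C x1096) x1082) x1106) x1058) x1130) x986) x1202) x770) x1418) x122) x2066) x1822)
  (sub (add (add (add (add (add (add (add (add (add (sub (sub C x1094) x1102) x1060) x1132) x988) x1204) x772) x1420) x124) x2068) x366) x1826)
  (sub (add (add (add (add (add (add (sub (sub (add (add C x1102) x1106) x1086) x1116) x990) x1206) x774) x1422) x126) x2070) x370)
  (sub (add (add (add (add (add (add (add (sub (sub (add (add C x1098) x1106) x1096) x1120) x994) x1210) x778) x1426) x130) x2074) x372) x1832)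
  (add (add (add (add (add (add (add (sub (add (add (add (add C x1098) x1102) x1082) x1094) x1124) x998) x1214) x782) x1430) x134) x2078) x1834)
  (sub (add (add (add (add (add (sub (sub (add (add (sub C x1110) x1120) x1132) x1072) x1162) x784) x1432) x136) x2080) x378) x1838)
  (sub (add (add (add (add (sub (sub (sub (sub C x1108) x1116) x1074) x1164) x786) x1434) x138) x2082) x382)
  (sub (add (add (add (add (sub (sub (sub (add (add C x1120) x1124) x1110) x1098) x1170) x792) x1440) x144) x2088) x388)
  (sub (add (add (add (add (add (sub (sub (add (add (add (add C x1116) x1124) x1108) x1132) x1102) x1174) x796) x1444) x148) x2092) x390) x1850)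
  (add (add (add (add (add (sub (sub (sub (add (add C x1116) x1120) x1130) x1106) x1178) x800) x1448) x152) x2096) x1852)
  (add (add (add (add (add (sub (add (add (sub (sub C x1132) x1124) x1058) x1094) x1184) x806) x1454) x158) x2102) x1858)
  (sub (add (add (add (add (add (sub (add (add (add (add (sub C x1130) x1108) x1120) x1060) x1096) x1186) x808) x1456) x160) x2104) x402) x1862)
  (sub (add (add (sub (sub (add (add (add (add (add (add C x1138) x1142) x1146) x1158) x1170) x1206) x1026) x1296) x162) x2106) x406)
  (sub (add (add (add (sub (sub (add (add (sub (add (add C x1134) x1142) x1144) x1174) x1210) x1030) x1300) x166) x2110) x408) x1868)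
  (add (add (add (sub (sub (add (add (sub (add (add C x1134) x1138) x1154) x1178) x1214) x1034) x1304) x170) x2114) x1870)
  (sub (add (add (add (sub (sub (sub (sub (sub C x1146) x1138) x1162) x1036) x1306) x172) x2116) x414) x1874)
  (sub (add (add (sub (sub (sub (add (add (sub C x1144) x1134) x1158) x1164) x1038) x1308) x174) x2118) x418)
  (add (add (add (sub (sub (sub (sub (sub C x1158) x1142) x1190) x1046) x1316) x182) x2126) x1882)
  (sub (add (add (sub (sub (sub (add (add (sub C x1154) x1134) x1146) x1194) x1050) x1320) x186) x2130) x430)
  (sub (add (add (add (sub (sub (sub (add (add (sub C x1164) x1174) x1186) x1144) x1108) x1324) x190) x2134) x432) x1892)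
  (sub (add (add (sub (sub (sub (sub (sub C x1162) x1170) x1146) x1110) x1326) x192) x2136) x436)
  (sub (add (add (sub (sub (add (add (sub (add (add C x1174) x1178) x1164) x1134) x1206) x1116) x1332) x198) x2142) x442)
  (sub (add (add (add (sub (sub (add (add (add (add (add (add C x1170) x1178) x1162) x1186) x1138) x1210) x1120) x1336) x202) x2146) x444) x1904)
  (add (add (add (sub (sub (add (add (sub (add (add C x1170) x1174) x1184) x1142) x1214) x1124) x1340) x206) x2150) x1906)
  (add (add (add (sub (sub (sub (sub (sub C x1186) x1178) x1202) x1130) x1346) x212) x2156) x1912)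
  (sub (add (add (add (sub (sub (sub (add (add (sub C x1184) x1162) x1174) x1204) x1132) x1348) x214) x2158) x456) x1916)
  (add (add (add (sub (add (add (sub (add (add (sub C x1194) x1202) x1214) x1154) x974) x1082) x1352) x218) x2162) x1918)
  (sub (add (add (sub (add (add (sub (sub (sub C x1190) x1206) x1158) x978) x1086) x1356) x222) x2166) x466)
  (add (add (add (sub (add (add (sub (add (add (sub C x1204) x1190) x1214) x1184) x986) x1094) x1364) x230) x2174) x1930)
  (sub (add (add (add (sub (add (add (sub (sub (sub C x1202) x1210) x1186) x988) x1096) x1366) x232) x2176) x474) x1934)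
  (sub (add (add (sub (add (add (add (add (sub (add (add C x1210) x1214) x1194) x1134) x1170) x990) x1098) x1368) x234) x2178) x478)
  (sub (add (add (add (sub (add (add (add (add (sub (add (add C x1206) x1214) x1204) x1138) x1174) x994) x1102) x1372) x238) x2182) x480) x1940)
  (add (add (add (sub (add (add (add (add (add (add (add (add C x1206) x1210) x1190) x1202) x1142) x1178) x998) x1106) x1376) x242) x2186) x1942)
  (sub (add (sub (sub (add (add (add (add (add (add (sub C x1218) x1228) x1240) x1252) x1288) x1324) x1432) x892) x1702) x486) x1946)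
  (sub (sub (sub (add (add (add (add (sub (sub C x1216) x1224) x1254) x1290) x1326) x1434) x894) x1704) x490)
  (sub (sub (sub (add (add (sub (sub (add (add C x1228) x1232) x1218) x1242) x1332) x1440) x900) x1710) x496)
  (sub (add (sub (sub (add (add (sub (add (add (add (add C x1224) x1232) x1216) x1240) x1246) x1336) x1444) x904) x1714) x498) x1958)
  (add (sub (sub (add (add (sub (sub (add (add C x1224) x1228) x1238) x1250) x1340) x1448) x908) x1718) x1960)
  (add (sub (sub (add (add (sub (sub (sub C x1240) x1232) x1274) x1346) x1454) x914) x1724) x1966)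
  (sub (add (sub (sub (add (add (sub (add (add (sub C x1238) x1216) x1228) x1276) x1348) x1456) x916) x1726) x510) x1970)
  (sub (sub (sub (sub (sub (add (add (add (add C x1246) x1250) x1254) x1266) x1224) x1296) x918) x1728) x514)
  (sub (add (sub (sub (sub (sub (sub (add (add C x1242) x1250) x1252) x1228) x1300) x922) x1732) x516) x1976)
  (add (sub (sub (sub (sub (sub (add (add C x1242) x1246) x1262) x1232) x1304) x926) x1736) x1978)
  (sub (add (sub (sub (sub (add (add (sub (sub C x1254) x1246) x1216) x1288) x1306) x928) x1738) x522) x1982)
  (sub (sub (sub (sub (add (add (add (add (sub C x1252) x1242) x1266) x1218) x1290) x1308) x930) x1740) x526)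
  (add (sub (sub (sub (sub (sub (sub C x1266) x1250) x1280) x1316) x938) x1748) x1990)
  (sub (sub (sub (sub (sub (add (add (sub C x1262) x1242) x1254) x1284) x1320) x942) x1752) x538)
  (add (sub (sub (sub (sub (sub (sub C x1276) x1280) x1238) x1382) x950) x1760) x2002)
  (sub (add (sub (sub (sub (sub (sub (sub C x1274) x1288) x1240) x1384) x952) x1762) x546) x2006)
  (add (sub (sub (sub (sub (sub (sub C x1284) x1274) x1262) x1388) x956) x1766) x2008)
  (sub (sub (sub (sub (sub (sub (sub C x1280) x1290) x1266) x1392) x960) x1770) x556)
  (sub (add (sub (sub (sub (add (add (sub (sub C x1290) x1276) x1216) x1252) x1396) x964) x1774) x558) x2018)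
  (sub (sub (sub (sub (add (add (sub (sub C x1288) x1284) x1218) x1254) x1398) x966) x1776) x562)
  (sub (sub (sub (sub (add (add (add (add (add (add C x1300) x1304) x1308) x1320) x1332) x1368) x1242) x1134) x1782) x568)
  (sub (add (sub (sub (sub (add (add (sub (add (add C x1296) x1304) x1306) x1336) x1372) x1246) x1138) x1786) x570) x2030)
  (add (sub (sub (sub (add (add (sub (add (add C x1296) x1300) x1316) x1340) x1376) x1250) x1142) x1790) x2032)
  (sub (add (sub (sub (sub (sub (sub (sub C x1308) x1300) x1324) x1252) x1144) x1792) x576) x2036)
  (sub (sub (sub (sub (sub (add (add (sub C x1306) x1296) x1320) x1326) x1254) x1146) x1794) x580)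
  (add (sub (sub (sub (sub (sub (sub C x1320) x1304) x1352) x1262) x1154) x1802) x2044)
  (sub (sub (sub (sub (sub (add (add (sub C x1316) x1296) x1308) x1356) x1266) x1158) x1806) x592)
  (sub (add (sub (sub (add (add (sub (add (add (sub C x1326) x1336) x1348) x1306) x1216) x1432) x1162) x1810) x594) x2054)
  (sub (sub (sub (add (add (sub (sub (sub C x1324) x1332) x1308) x1218) x1434) x1164) x1812) x598)
  (sub (sub (sub (add (add (add (add (sub (add (add C x1336) x1340) x1326) x1296) x1368) x1224) x1440) x1170) x1818) x604)
  (sub (add (sub (sub (add (add (add (add (add (add (add (add C x1332) x1340) x1324) x1348) x1300) x1372) x1228) x1444) x1174) x1822) x606) x2066)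
  (add (sub (sub (add (add (add (add (sub (add (add C x1332) x1336) x1346) x1304) x1376) x1232) x1448) x1178) x1826) x2068)
  (add (sub (sub (add (add (sub (sub (sub C x1348) x1340) x1364) x1238) x1454) x1184) x1832) x2074)
  (sub (add (sub (sub (add (add (sub (add (add (sub C x1346) x1324) x1336) x1366) x1240) x1456) x1186) x1834) x618) x2078)
  (add (sub (sub (sub (sub (add (add (sub C x1356) x1364) x1376) x1316) x1406) x1190) x1838) x2080)
  (sub (sub (sub (sub (sub (sub (sub C x1352) x1368) x1320) x1410) x1194) x1842) x628)
  (add (sub (sub (sub (sub (add (add (sub C x1366) x1352) x1376) x1346) x1418) x1202) x1850) x2092)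
  (sub (add (sub (sub (sub (sub (sub (sub C x1364) x1372) x1348) x1420) x1204) x1852) x636) x2096)
  (sub (sub (sub (sub (add (add (sub (add (add C x1372) x1376) x1356) x1296) x1332) x1422) x1206) x1854) x640)
  (sub (add (sub (sub (sub (add (add (sub (add (add C x1368) x1376) x1366) x1300) x1336) x1426) x1210) x1858) x642) x2102)
  (add (sub (sub (sub (add (add (add (add (add (add C x1368) x1372) x1352) x1364) x1304) x1340) x1430) x1214) x1862) x2104)
  (add (sub (add (add (sub (add (add (sub (sub C x1384) x1388) x1418) x1454) x1274) x734) x1058) x1868) x2110)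
  (sub (add (sub (add (add (sub (add (add (sub (sub C x1382) x1396) x1420) x1456) x1276) x736) x1060) x1870) x654) x2114)
  (add (sub (add (add (sub (sub (sub (sub C x1392) x1382) x1406) x1280) x740) x1064) x1874) x2116)
  (sub (sub (add (add (sub (sub (sub (sub C x1388) x1398) x1410) x1284) x744) x1068) x1878) x664)
  (sub (add (sub (add (add (sub (sub (sub (sub C x1398) x1384) x1432) x1288) x748) x1072) x1882) x666) x2126)
  (sub (sub (add (add (sub (sub (sub (sub C x1396) x1392) x1434) x1290) x750) x1074) x1884) x670)
  (add (sub (add (add (sub (sub (add (add (sub C x1410) x1418) x1430) x1388) x1352) x758) x1082) x1892) x2134)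
  (sub (sub (add (add (sub (sub (sub (sub C x1406) x1422) x1392) x1356) x762) x1086) x1896) x682)
  (add (sub (add (add (sub (add (add (add (add (sub C x1420) x1406) x1430) x1382) x1454) x1364) x770) x1094) x1904) x2146)
  (sub (add (sub (add (add (sub (add (add (sub (sub C x1418) x1426) x1384) x1456) x1366) x772) x1096) x1906) x690) x2150)
  (sub (sub (add (add (sub (sub (sub (add (add C x1426) x1430) x1410) x1440) x1368) x774) x1098) x1908) x694)
  (sub (add (sub (add (add (sub (sub (sub (add (add C x1422) x1430) x1420) x1444) x1372) x778) x1102) x1912) x696) x2156)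
  (add (sub (add (add (sub (sub (add (add (add (add C x1422) x1426) x1406) x1418) x1448) x1376) x782) x1106) x1916) x2158)
  (sub (add (sub (add (add (add (add (sub (add (add (sub C x1434) x1444) x1456) x1396) x1216) x1324) x784) x1108) x1918) x702) x2162)
  (sub (sub (add (add (add (add (sub (sub (sub C x1432) x1440) x1398) x1218) x1326) x786) x1110) x1920) x706)
  (sub (sub (add (add (add (add (sub (sub (add (add C x1444) x1448) x1434) x1422) x1224) x1332) x792) x1116) x1926) x712)
  (sub (add (sub (add (add (add (add (sub (add (add (add (add C x1440) x1448) x1432) x1456) x1426) x1228) x1336) x796) x1120) x1930) x714) x2174)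
  (add (sub (add (add (add (add (sub (sub (add (add C x1440) x1444) x1454) x1430) x1232) x1340) x800) x1124) x1934) x2176)
  (add (sub (add (add (add (add (add (add (sub (sub C x1456) x1448) x1382) x1418) x1238) x1346) x806) x1130) x1940) x2182)
  (sub (add (sub (add (add (add (add (add (add (add (add (sub C x1454) x1432) x1444) x1384) x1420) x1240) x1348) x808) x1132) x1942) x726) x2186)
  (add (sub (add (add (add (add (add (add (add (add (add (add C x1462) x1466) x1470) x1482) x1494) x1530) x1566) x1674) x1782) x2106) x486) x2)
  (add (sub (add (add (add (add (add (add (sub (add (add C x1458) x1466) x1468) x1498) x1534) x1570) x1678) x1786) x2110) x490) x734)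
  (sub (sub (sub (add (add (add (add (add (add (sub (add (add C x1458) x1462) x1478) x1502) x1538) x1574) x1682) x1790) x2114) x494) x6) x736)
  (add (sub (add (add (add (add (sub (sub (sub C x1470) x1462) x1486) x1576) x1684) x1792) x2116) x496) x740)
  (add (sub (add (add (add (add (sub (add (add (sub C x1468) x1458) x1482) x1488) x1578) x1686) x1794) x2118) x498) x14)
  (sub (sub (sub (add (add (add (add (sub (sub (sub C x1482) x1466) x1514) x1586) x1694) x1802) x2126) x506) x18) x748)
  (add (sub (add (add (add (add (sub (add (add (sub C x1478) x1458) x1470) x1518) x1590) x1698) x1806) x2130) x510) x26)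
  (add (sub (add (add (sub (sub (add (add (sub C x1488) x1498) x1510) x1468) x1540) x1810) x2134) x514) x758)
  (add (sub (add (add (sub (sub (sub (sub C x1486) x1494) x1470) x1542) x1812) x2136) x516) x32)
  (add (sub (add (add (sub (add (add (sub (add (add C x1498) x1502) x1488) x1458) x1530) x1548) x1818) x2142) x522) x38)
  (add (sub (add (add (sub (add (add (add (add (add (add C x1494) x1502) x1486) x1510) x1462) x1534) x1552) x1822) x2146) x526) x770)
  (sub (sub (sub (add (add (sub (add (add (sub (add (add C x1494) x1498) x1508) x1466) x1538) x1556) x1826) x2150) x530) x42) x772)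
  (sub (sub (sub (add (add (sub (sub (sub (sub C x1510) x1502) x1526) x1562) x1832) x2156) x536) x48) x778)
  (add (sub (add (add (sub (sub (add (add (sub C x1508) x1486) x1498) x1528) x1564) x1834) x2158) x538) x782)
  (sub (sub (sub (add (add (sub (sub (add (add (sub C x1518) x1526) x1538) x1478) x1622) x1838) x2162) x542) x54) x784)
  (add (sub (add (add (sub (sub (sub (sub C x1514) x1530) x1482) x1626) x1842) x2166) x546) x62)
  (sub (sub (sub (add (add (sub (sub (add (add (sub C x1528) x1514) x1538) x1508) x1634) x1850) x2174) x554) x66) x796)
  (add (sub (add (add (sub (sub (sub (sub C x1526) x1534) x1510) x1636) x1852) x2176) x556) x800)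
  (add (sub (add (add (sub (add (add (sub (add (add C x1534) x1538) x1518) x1458) x1494) x1638) x1854) x2178) x558) x74)
  (add (sub (add (add (sub (add (add (sub (add (add C x1530) x1538) x1528) x1462) x1498) x1642) x1858) x2182) x562) x806)
  (sub (sub (sub (add (add (sub (add (add (add (add (add (add C x1530) x1534) x1514) x1526) x1466) x1502) x1646) x1862) x2186) x566) x78) x808)
  (add (sub (sub (sub (add (add (add (add (sub C x1542) x1552) x1564) x1576) x1612) x1486) x1702) x568) x812)
  (add (sub (sub (sub (add (add (sub (sub C x1540) x1548) x1578) x1614) x1488) x1704) x570) x86)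
  (add (sub (sub (sub (sub (sub (add (add C x1552) x1556) x1542) x1566) x1494) x1710) x576) x92)
  (add (sub (sub (sub (sub (add (add (add (add C x1548) x1556) x1540) x1564) x1570) x1498) x1714) x580) x824)
  (sub (sub (sub (sub (sub (sub (sub (add (add C x1548) x1552) x1562) x1574) x1502) x1718) x584) x96) x826)
  (sub (sub (sub (sub (sub (sub (sub (sub C x1564) x1556) x1598) x1508) x1724) x590) x102) x832)
  (add (sub (sub (sub (sub (add (add (sub C x1562) x1540) x1552) x1600) x1510) x1726) x592) x836)
  (add (sub (sub (add (add (sub (add (add (add (add C x1570) x1574) x1578) x1590) x1548) x1458) x1674) x1728) x594) x110)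
  (add (sub (sub (add (add (sub (sub (add (add C x1566) x1574) x1576) x1552) x1462) x1678) x1732) x598) x842)
  (sub (sub (sub (sub (add (add (sub (sub (add (add C x1566) x1570) x1586) x1556) x1466) x1682) x1736) x602) x114) x844)
  (add (sub (sub (add (add (add (add (sub (sub C x1578) x1570) x1540) x1612) x1468) x1684) x1738) x604) x848)
  (add (sub (sub (add (add (add (add (add (add (sub C x1576) x1566) x1590) x1542) x1614) x1470) x1686) x1740) x606) x122)
  (sub (sub (sub (sub (add (add (sub (sub (sub C x1590) x1574) x1604) x1478) x1694) x1748) x614) x126) x856)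
  (add (sub (sub (add (add (sub (add (add (sub C x1586) x1566) x1578) x1608) x1482) x1698) x1752) x618) x134)
  (sub (sub (sub (sub (sub (sub (sub (sub C x1600) x1604) x1562) x1652) x1760) x626) x138) x868)
  (add (sub (sub (sub (sub (sub (sub C x1598) x1612) x1564) x1654) x1762) x628) x872)
  (sub (sub (sub (sub (sub (sub (sub (sub C x1608) x1598) x1586) x1658) x1766) x632) x144) x874)
  (add (sub (sub (sub (sub (sub (sub C x1604) x1614) x1590) x1662) x1770) x636) x152)
  (add (sub (sub (sub (add (add (sub (sub C x1614) x1600) x1540) x1576) x1666) x1774) x640) x884)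
  (add (sub (sub (sub (add (add (sub (sub C x1612) x1608) x1542) x1578) x1668) x1776) x642) x158)
  (sub (sub (sub (sub (sub (add (add (add (add (sub C x1626) x1634) x1646) x1658) x1694) x1514) x1946) x650) x162) x892)
  (add (sub (sub (sub (add (add (sub (sub C x1622) x1638) x1662) x1698) x1518) x1950) x654) x170)
  (sub (sub (sub (sub (sub (sub (add (add (sub C x1636) x1622) x1646) x1652) x1526) x1958) x662) x174) x904)
  (add (sub (sub (sub (sub (sub (sub C x1634) x1642) x1654) x1528) x1960) x664) x908)
  (add (sub (sub (sub (sub (sub (add (add C x1642) x1646) x1626) x1674) x1530) x1962) x666) x182)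
  (add (sub (sub (sub (sub (sub (add (add C x1638) x1646) x1636) x1678) x1534) x1966) x670) x914)
  (sub (sub (sub (sub (sub (sub (add (add (add (add C x1638) x1642) x1622) x1634) x1682) x1538) x1970) x674) x186) x916)
  (sub (sub (sub (sub (sub (sub (sub (sub C x1654) x1658) x1634) x1598) x1976) x680) x192) x922)
  (add (sub (sub (sub (sub (sub (sub C x1652) x1666) x1636) x1600) x1978) x682) x926)
  (sub (sub (sub (sub (sub (add (add (sub (sub C x1662) x1652) x1622) x1694) x1604) x1982) x686) x198) x928)
  (add (sub (sub (sub (add (add (sub (sub C x1658) x1668) x1626) x1698) x1608) x1986) x690) x206)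
  (add (sub (sub (sub (sub (sub (sub C x1668) x1654) x1684) x1612) x1990) x694) x938)
  (add (sub (sub (sub (sub (sub (sub C x1666) x1662) x1686) x1614) x1992) x696) x212)
  (add (sub (sub (add (add (sub (add (add (add (add C x1678) x1682) x1686) x1698) x1638) x1458) x1566) x1998) x702) x218)
  (add (sub (sub (add (add (sub (sub (add (add C x1674) x1682) x1684) x1642) x1462) x1570) x2002) x706) x950)
  (sub (sub (sub (sub (add (add (sub (sub (add (add C x1674) x1678) x1694) x1646) x1466) x1574) x2006) x710) x222) x952)
  (add (sub (sub (add (add (sub (sub (sub C x1686) x1678) x1666) x1468) x1576) x2008) x712) x956)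
  (add (sub (sub (add (add (sub (add (add (sub C x1684) x1674) x1698) x1668) x1470) x1578) x2010) x714) x230)
  (sub (sub (sub (sub (add (add (add (add (sub (sub C x1698) x1682) x1622) x1658) x1478) x1586) x2018) x722) x234) x964)
  (add (sub (sub (add (add (add (add (add (add (sub C x1694) x1674) x1686) x1626) x1662) x1482) x1590) x2022) x726) x242)
  (add (sub (sub (add (add (add (add (add (add (sub C x1704) x1714) x1726) x1738) x1774) x1810) x1918) x1540) x1216) x974)
  (add (sub (sub (add (add (add (add (sub (sub C x1702) x1710) x1740) x1776) x1812) x1920) x1542) x1218) x248)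
  (add (sub (sub (add (add (sub (sub (add (add C x1714) x1718) x1704) x1728) x1818) x1926) x1548) x1224) x254)
  (add (sub (sub (add (add (sub (add (add (add (add C x1710) x1718) x1702) x1726) x1732) x1822) x1930) x1552) x1228) x986)
  (sub (sub (sub (sub (add (add (sub (sub (add (add C x1710) x1714) x1724) x1736) x1826) x1934) x1556) x1232) x258) x988)
  (sub (sub (sub (sub (add (add (sub (sub (sub C x1726) x1718) x1760) x1832) x1940) x1562) x1238) x264) x994)
  (add (sub (sub (add (add (sub (add (add (sub C x1724) x1702) x1714) x1762) x1834) x1942) x1564) x1240) x998)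
  (add (sub (sub (sub (sub (add (add (add (add C x1732) x1736) x1740) x1752) x1710) x1782) x1566) x1242) x272)
  (add (sub (sub (sub (sub (sub (add (add C x1728) x1736) x1738) x1714) x1786) x1570) x1246) x1004)
  (sub (sub (sub (sub (sub (sub (sub (add (add C x1728) x1732) x1748) x1718) x1790) x1574) x1250) x276) x1006)
  (add (sub (sub (sub (add (add (sub (sub C x1740) x1732) x1702) x1774) x1792) x1576) x1252) x1010)
  (add (sub (sub (sub (add (add (add (add (sub C x1738) x1728) x1752) x1704) x1776) x1794) x1578) x1254) x284)
  (sub (sub (sub (sub (sub (sub (sub (sub C x1752) x1736) x1766) x1802) x1586) x1262) x288) x1018)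
  (add (sub (sub (sub (sub (add (add (sub C x1748) x1728) x1740) x1770) x1806) x1590) x1266) x296)
  (sub (sub (sub (sub (sub (sub (sub (sub C x1762) x1766) x1724) x1868) x1598) x1274) x300) x1030)
  (add (sub (sub (sub (sub (sub (sub C x1760) x1774) x1726) x1870) x1600) x1276) x1034)
  (sub (sub (sub (sub (sub (sub (sub (sub C x1770) x1760) x1748) x1874) x1604) x1280) x306) x1036)
  (add (sub (sub (sub (sub (sub (sub C x1766) x1776) x1752) x1878) x1608) x1284) x314)
  (add (sub (sub (sub (add (add (sub (sub C x1776) x1762) x1702) x1738) x1882) x1612) x1288) x1046)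
  (add (sub (sub (sub (add (add (sub (sub C x1774) x1770) x1704) x1740) x1884) x1614) x1290) x320)
  (add (sub (add (add (sub (add (add (add (add (add (add C x1786) x1790) x1794) x1806) x1818) x1854) x1728) x1458) x2106) x1296) x326)
  (add (sub (add (add (sub (add (add (sub (add (add C x1782) x1790) x1792) x1822) x1858) x1732) x1462) x2110) x1300) x1058)
  (sub (sub (sub (add (add (sub (add (add (sub (add (add C x1782) x1786) x1802) x1826) x1862) x1736) x1466) x2114) x1304) x330) x1060)
  (add (sub (add (add (sub (sub (sub (sub C x1794) x1786) x1810) x1738) x1468) x2116) x1306) x1064)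
  (add (sub (add (add (sub (sub (add (add (sub C x1792) x1782) x1806) x1812) x1740) x1470) x2118) x1308) x338)
  (sub (sub (sub (add (add (sub (sub (sub (sub C x1806) x1790) x1838) x1748) x1478) x2126) x1316) x342) x1072)
  (add (sub (add (add (sub (sub (add (add (sub C x1802) x1782) x1794) x1842) x1752) x1482) x2130) x1320) x350)
  (add (sub (add (add (add (add (sub (add (add (sub C x1812) x1822) x1834) x1792) x1702) x1918) x1486) x2134) x1324) x1082)
  (add (sub (add (add (add (add (sub (sub (sub C x1810) x1818) x1794) x1704) x1920) x1488) x2136) x1326) x356)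
  (add (sub (add (add (add (add (add (add (sub (add (add C x1822) x1826) x1812) x1782) x1854) x1710) x1926) x1494) x2142) x1332) x362)
  (add (sub (add (add (add (add (add (add (add (add (add (add C x1818) x1826) x1810) x1834) x1786) x1858) x1714) x1930) x1498) x2146) x1336) x1094)
  (sub (sub (sub (add (add (add (add (add (add (sub (add (add C x1818) x1822) x1832) x1790) x1862) x1718) x1934) x1502) x2150) x1340) x366) x1096)
  (sub (sub (sub (add (add (add (add (sub (sub (sub C x1834) x1826) x1850) x1724) x1940) x1508) x2156) x1346) x372) x1102)
  (add (sub (add (add (add (add (sub (add (add (sub C x1832) x1810) x1822) x1852) x1726) x1942) x1510) x2158) x1348) x1106)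
  (sub (sub (sub (add (add (sub (sub (add (add (sub C x1842) x1850) x1862) x1802) x1892) x1514) x2162) x1352) x378) x1108)
  (add (sub (add (add (sub (sub (sub (sub C x1838) x1854) x1806) x1896) x1518) x2166) x1356) x386)
  (sub (sub (sub (add (add (sub (sub (add (add (sub C x1852) x1838) x1862) x1832) x1904) x1526) x2174) x1364) x390) x1120)
  (add (sub (add (add (sub (sub (sub (sub C x1850) x1858) x1834) x1906) x1528) x2176) x1366) x1124)
  (add (sub (add (add (sub (add (add (sub (add (add C x1858) x1862) x1842) x1782) x1818) x1908) x1530) x2178) x1368) x398)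
  (add (sub (add (add (sub (add (add (sub (add (add C x1854) x1862) x1852) x1786) x1822) x1912) x1534) x2182) x1372) x1130)
  (sub (sub (sub (add (add (sub (add (add (add (add (add (add C x1854) x1858) x1838) x1850) x1790) x1826) x1916) x1538) x2186) x1376) x402) x1132)
  (sub (sub (sub (sub (sub (add (add (sub (sub C x1870) x1874) x1904) x1940) x1760) x2030) x1382) x408) x1138)
  (add (sub (sub (sub (add (add (sub (sub C x1868) x1882) x1906) x1942) x1762) x2032) x1384) x1142)
  (sub (sub (sub (sub (sub (sub (sub (sub C x1878) x1868) x1892) x1766) x2036) x1388) x414) x1144)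
  (add (sub (sub (sub (sub (sub (sub C x1874) x1884) x1896) x1770) x2040) x1392) x422)
  (add (sub (sub (sub (sub (sub (sub C x1884) x1870) x1918) x1774) x2044) x1396) x1154)
  (add (sub (sub (sub (sub (sub (sub C x1882) x1878) x1920) x1776) x2046) x1398) x428)
  (sub (sub (sub (sub (sub (sub (add (add (sub C x1896) x1904) x1916) x1874) x1838) x2054) x1406) x432) x1162)
  (add (sub (sub (sub (sub (sub (sub C x1892) x1908) x1878) x1842) x2058) x1410) x440)
  (sub (sub (sub (sub (sub (add (add (add (add (sub C x1906) x1892) x1916) x1868) x1940) x1850) x2066) x1418) x444) x1174)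
  (add (sub (sub (sub (add (add (sub (sub C x1904) x1912) x1870) x1942) x1852) x2068) x1420) x1178)
  (add (sub (sub (sub (sub (sub (add (add C x1912) x1916) x1896) x1926) x1854) x2070) x1422) x452)
  (add (sub (sub (sub (sub (sub (add (add C x1908) x1916) x1906) x1930) x1858) x2074) x1426) x1184)
  (sub (sub (sub (sub (sub (sub (add (add (add (add C x1908) x1912) x1892) x1904) x1934) x1862) x2078) x1430) x456) x1186)
  (add (sub (sub (add (add (sub (add (add (sub C x1920) x1930) x1942) x1882) x1702) x1810) x2080) x1432) x1190)
  (add (sub (sub (add (add (sub (sub (sub C x1918) x1926) x1884) x1704) x1812) x2082) x1434) x464)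
  (add (sub (sub (add (add (sub (sub (add (add C x1930) x1934) x1920) x1908) x1710) x1818) x2088) x1440) x470)
  (add (sub (sub (add (add (sub (add (add (add (add C x1926) x1934) x1918) x1942) x1912) x1714) x1822) x2092) x1444) x1202)
  (sub (sub (sub (sub (add (add (sub (sub (add (add C x1926) x1930) x1940) x1916) x1718) x1826) x2096) x1448) x474) x1204)
  (sub (sub (sub (sub (add (add (add (add (sub (sub C x1942) x1934) x1868) x1904) x1724) x1832) x2102) x1454) x480) x1210)
  (add (sub (sub (add (add (add (add (add (add (sub C x1940) x1918) x1930) x1870) x1906) x1726) x1834) x2104) x1456) x1214)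
  (sub (sub (add (add (sub (add (add (add (add (add (add (sub C x1950) x1958) x1970) x1982) x2018) x2054) x2162) x1622) x2) x974) x486) x1216)
  (add (add (add (sub (add (add (add (add (sub (sub C x1946) x1962) x1986) x2022) x2058) x2166) x1626) x6) x978) x494)
  (sub (sub (add (add (sub (add (add (sub (add (add (sub C x1960) x1946) x1970) x1976) x2066) x2174) x1634) x14) x986) x498) x1228)
  (add (add (add (sub (add (add (sub (sub (sub C x1958) x1966) x1978) x2068) x2176) x1636) x16) x988) x1232)
  (add (add (add (sub (add (add (sub (sub (add (add C x1966) x1970) x1950) x1998) x2070) x2178) x1638) x18) x990) x506)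
  (add (add (add (sub (add (add (sub (sub (add (add C x1962) x1970) x1960) x2002) x2074) x2182) x1642) x22) x994) x1238)
  (sub (sub (add (add (sub (add (add (sub (add (add (add (add C x1962) x1966) x1946) x1958) x2006) x2078) x2186) x1646) x26) x998) x510) x1240)
  (sub (sub (add (add (sub (sub (sub (sub (sub C x1978) x1982) x1958) x2030) x1652) x32) x1004) x516) x1246)
  (add (add (add (sub (sub (sub (sub (sub C x1976) x1990) x1960) x2032) x1654) x34) x1006) x1250)
  (sub (sub (add (add (sub (sub (add (add (sub (sub C x1986) x1976) x1946) x2018) x2036) x1658) x38) x1010) x522) x1252)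
  (add (add (add (sub (sub (add (add (sub (sub C x1982) x1992) x1950) x2022) x2040) x1662) x42) x1014) x530)
  (add (add (add (sub (sub (sub (sub (sub C x1992) x1978) x2008) x2044) x1666) x46) x1018) x1262)
  (add (add (add (sub (sub (sub (sub (sub C x1990) x1986) x2010) x2046) x1668) x48) x1020) x536)
  (add (add (add (sub (sub (sub (add (add (add (add C x2002) x2006) x2010) x2022) x1962) x2106) x1674) x54) x1026) x542)
  (add (add (add (sub (sub (sub (sub (add (add C x1998) x2006) x2008) x1966) x2110) x1678) x58) x1030) x1274)
  (sub (sub (add (add (sub (sub (sub (sub (add (add C x1998) x2002) x2018) x1970) x2114) x1682) x62) x1034) x546) x1276)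
  (add (add (add (sub (sub (sub (sub (sub C x2010) x2002) x1990) x2116) x1684) x64) x1036) x1280)
  (add (add (add (sub (sub (sub (add (add (sub C x2008) x1998) x2022) x1992) x2118) x1686) x66) x1038) x554)
  (sub (sub (add (add (sub (sub (add (add (sub (sub C x2022) x2006) x1946) x1982) x2126) x1694) x74) x1046) x558) x1288)
  (add (add (add (sub (sub (add (add (add (add (sub C x2018) x1998) x2010) x1950) x1986) x2130) x1698) x78) x1050) x566)
  (sub (sub (add (add (sub (sub (add (add (sub (sub C x2032) x2036) x2066) x2102) x1976) x1868) x86) x1058) x570) x1300)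
  (add (add (add (sub (sub (add (add (sub (sub C x2030) x2044) x2068) x2104) x1978) x1870) x88) x1060) x1304)
  (sub (sub (add (add (sub (sub (sub (sub (sub C x2040) x2030) x2054) x1982) x1874) x92) x1064) x576) x1306)
  (add (add (add (sub (sub (sub (sub (sub C x2036) x2046) x2058) x1986) x1878) x96) x1068) x584)
  (add (add (add (sub (sub (sub (sub (sub C x2046) x2032) x2080) x1990) x1882) x100) x1072) x1316)
  (add (add (add (sub (sub (sub (sub (sub C x2044) x2040) x2082) x1992) x1884) x102) x1074) x590)
  (sub (sub (add (add (sub (add (add (sub (add (add (sub C x2058) x2066) x2078) x2036) x1946) x2162) x1892) x110) x1082) x594) x1324)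
  (add (add (add (sub (add (add (sub (sub (sub C x2054) x2070) x2040) x1950) x2166) x1896) x114) x1086) x602)
  (sub (sub (add (add (sub (add (add (add (add (add (add (sub C x2068) x2054) x2078) x2030) x2102) x1958) x2174) x1904) x122) x1094) x606) x1336)
  (add (add (add (sub (add (add (add (add (sub (sub C x2066) x2074) x2032) x2104) x1960) x2176) x1906) x124) x1096) x1340)
  (add (add (add (sub (add (add (sub (sub (add (add C x2074) x2078) x2058) x2088) x1962) x2178) x1908) x126) x1098) x614)
  (add (add (add (sub (add (add (sub (sub (add (add C x2070) x2078) x2068) x2092) x1966) x2182) x1912) x130) x1102) x1346)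
  (sub (sub (add (add (sub (add (add (sub (add (add (add (add C x2070) x2074) x2054) x2066) x2096) x1970) x2186) x1916) x134) x1106) x618) x1348)
  (add (add (add (sub (sub (sub (add (add (sub C x2082) x2092) x2104) x2044) x2134) x1918) x136) x1108) x1352)
  (add (add (add (sub (sub (sub (sub (sub C x2080) x2088) x2046) x2136) x1920) x138) x1110) x626)
  (add (add (add (sub (sub (sub (sub (add (add C x2092) x2096) x2082) x2070) x2142) x1926) x144) x1116) x632)
  (add (add (add (sub (sub (sub (add (add (add (add C x2088) x2096) x2080) x2104) x2074) x2146) x1930) x148) x1120) x1364)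
  (sub (sub (add (add (sub (sub (sub (sub (add (add C x2088) x2092) x2102) x2078) x2150) x1934) x152) x1124) x636) x1366)
  (sub (sub (add (add (sub (sub (add (add (sub (sub C x2104) x2096) x2030) x2066) x2156) x1940) x158) x1130) x642) x1372)
  (add (add (add (sub (sub (add (add (add (add (sub C x2102) x2080) x2092) x2032) x2068) x2158) x1942) x160) x1132) x1376)
  (add (add (add (add (add (sub (add (add (add (add (add (add C x2110) x2114) x2118) x2130) x2142) x2178) x1998) x1458) x1782) x162) x1134) x650)
  (add (add (add (add (add (sub (add (add (sub (add (add C x2106) x2114) x2116) x2146) x2182) x2002) x1462) x1786) x166) x1138) x1382)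
  (sub (sub (add (add (add (add (sub (add (add (sub (add (add C x2106) x2110) x2126) x2150) x2186) x2006) x1466) x1790) x170) x1142) x654) x1384)
  (add (add (add (add (add (sub (sub (sub (sub C x2118) x2110) x2134) x2008) x1468) x1792) x172) x1144) x1388)
  (add (add (add (add (add (sub (sub (add (add (sub C x2116) x2106) x2130) x2136) x2010) x1470) x1794) x174) x1146) x662)
  (sub (sub (add (add (add (add (sub (sub (sub (sub C x2130) x2114) x2162) x2018) x1478) x1802) x182) x1154) x666) x1396)
  (add (add (add (add (add (sub (sub (add (add (sub C x2126) x2106) x2118) x2166) x2022) x1482) x1806) x186) x1158) x674)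
  (add (add (add (add (add (sub (sub (add (add (sub C x2136) x2146) x2158) x2116) x2080) x1486) x1810) x190) x1162) x1406)
  (add (add (add (add (add (sub (sub (sub (sub C x2134) x2142) x2118) x2082) x1488) x1812) x192) x1164) x680)
  (add (add (add (add (add (sub (add (add (sub (add (add C x2146) x2150) x2136) x2106) x2178) x2088) x1494) x1818) x198) x1170) x686)
  (add (add (add (add (add (sub (add (add (add (add (add (add C x2142) x2150) x2134) x2158) x2110) x2182) x2092) x1498) x1822) x202) x1174) x1418)
  (sub (sub (add (add (add (add (sub (add (add (sub (add (add C x2142) x2146) x2156) x2114) x2186) x2096) x1502) x1826) x206) x1178) x690) x1420)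
  (sub (sub (add (add (add (add (sub (sub (sub (sub C x2158) x2150) x2174) x2102) x1508) x1832) x212) x1184) x696) x1426)
  (add (add (add (add (add (sub (sub (add (add (sub C x2156) x2134) x2146) x2176) x2104) x1510) x1834) x214) x1186) x1430)
  (sub (sub (add (add (add (add (add (add (sub (add (add (sub C x2166) x2174) x2186) x2126) x1946) x2054) x1514) x1838) x218) x1190) x702) x1432)
  (add (add (add (add (add (add (add (sub (sub (sub C x2162) x2178) x2130) x1950) x2058) x1518) x1842) x222) x1194) x710)
  (sub (sub (add (add (add (add (add (add (sub (add (add (sub C x2176) x2162) x2186) x2156) x1958) x2066) x1526) x1850) x230) x1202) x714) x1444)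
  (add (add (add (add (add (add (add (sub (sub (sub C x2174) x2182) x2158) x1960) x2068) x1528) x1852) x232) x1204) x1448)
  (add (add (add (add (add (add (add (add (add (sub (add (add C x2182) x2186) x2166) x2106) x2142) x1962) x2070) x1530) x1854) x234) x1206) x722)
  (add (add (add (add (add (add (add (add (add (sub (add (add C x2178) x2186) x2176) x2110) x2146) x1966) x2074) x1534) x1858) x238) x1210) x1454)
  (sub (sub (add (add (add (add (add (add (add (add (add (add (add (add C x2178) x2182) x2162) x2174) x2114) x2150) x1970) x2078) x1538) x1862) x242) x1214) x726) x1456))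
  (chk [x2, x14, x16, x26, x32, x34, x38, x62, x86, x92, x100, x110,
  x134, x152, x158, x160, x170, x182, x206, x212, x242, x296, x314, x422,
  x428, x440, x452, x566, x674, x2186])

noncomputable def RK : Nat := nat_lit 0x88a02a2023601c401b801ac01a6013a012800f200d400ce00b600aa00a0009e00980086006e0064005c0056003e002600220020001a0010000e0002

noncomputable def CK : Nat := nat_lit 0x1000e000e000e000e000e000e001c000e000e000e000e000e000e000e001c001c000e000e000e001c001c001c001c001c001c000e000e001c000e

noncomputable def H : Nat := nat_lit 0xc3c0000000000000877000000000000087600000b6b0000089500000000000000000000000000000b6a00000000000008940000000000000bd700000b950000000000000000000008a1000000000000014b00000000000005160000000000000000000008e2000006780000000000000bd60000000000000b9400000000000000000000000000000679000008e3000008a00000000000000517000000000000014a00000bdd00000c0d000000000000000000000ba100000000000002fb000000000000058200000000000000000000094e0000060c000008a700000000000006c7000000000000079e0000033100000181000000000000000000000000000005b9000000000000054d000000000000000000000000000009ba00000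a9300000000000009850000000000000919000000000000062a0000068400000000000000000000000000000bdc0000000000000c0c0000000000000000000000000000060d0000094f00000ba0000000000000058300000000000002fa000000000000000000000a92000009bb000000000000062b00000000000006850000000000000984000009180000000000000000000008a6000000000000079f00000000000006c6000005b80000054c0000000000000000000000000000033000000000000001800000000000000b7100000be9000000000000000000000c13000000000000031900000000000005ee00000000000000000000096c000005a000000b9b0000000000000733000000000000080a0000075d0000034300000000000000000000000000000b2900000000000005ca00000000000000000000000000000a2600000aff0000000000000a50000000000000099600000000000008340000061800000000000000000000089b00000000000006d900000000000007b000000757000007090000000000000000000000000000082f00000000000007e1000000000000032b0000033d000000000000000000000187000000000000000700000000000000b50000000000000000000001f9000002d1000000000000063100000000000005c5000000000000000000000000000003a9000004150000055200000000000004ab00000000000000720000000000000000000009cd00000aa40000000000000a4a0000000000000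9fd0000000000000b2200000ad50000000000000000000000000000097f00000000000009910000000000000000000000000000026b000004690000091e00000000000003d300000000000001b6000005b20000061e00000000000000000000068a000000000000028f0000000000000366000000000000000000000258000001140000000000000b700000000000000be8000000000000000000000000000005a10000096d00000c1200000000000005ef0000000000000318000000000000000000000afe00000a27000000000000083500000000000006190000000000000a5100000997000000000000000000000b9a000000000000080b000000000000073200000b28000005cb0000000000000000000000000000075c000000000000034200000000000000000000000000000aa5000009cc0000000000000b230000000000000ad40000000000000a4b000009fc000000000000000000000000000005b3000000000000061f00000000000000000000000000000115000002590000068b0000000000000367000000000000028e0000097e0000099000000000000000000000091f00000000000001b700000000000003d20000000000000000000004680000026a0000089a00000000000007b100000000000006d80000082e000007e00000000000000000000000000000075600000000000007080000000000000630000005c4000000000000000000000553000000000000007300000000000004aa000000000000000000000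414000003a8000000000000032a000000000000033c000000000000000000000000000002d0000001f80000018600000000000000b400000000000000060000087d00000b77000000000000000000000be30000000000000157000000000000065a0000000000000000000008ef0000052300000bd100000000000003070000000000000600000006d30000032500000000000000000000000000000a9f00000000000006360000000000000000000000000000095b0000058f00000000000009c7000000000000097800000000000007ab000005ac000000000000000000000b65000000000000030d0000000000000594000007390000075100000000000000000000000000000b04000000000000082800000000000006cd00000763000000000000000000000337000000000000001300000000000002c5000000000000000000000409000004b70000000000000a980000000000000b2e0000000000000000000000000000045d000003df000005be000000000000029b00000000000000de000000000000000000000961000005fb0000000000000a2c0000000000000a45000000000000081100000b1c000000000000000000000000000009c00000000000000a570000000000000000000000000000024d000003730000098a00000000000001c30000000000000222000007a50000083a000000000000000000000624000000000000007f000000000000039c0000000000000000000001ec000000a8000008710000000000000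15d000000000000052800000313000006df0000000000000000000000000000059b00000000000007b700000000000003010000072d0000000000000000000006c1000000000000001f00000000000004c30000000000000000000003eb000002a7000000000000060700000000000008050000000000000000000000000000037f000001cf00000799000000000000008b000000000000009c000001510000031f0000000000000000000002f5000000000000002500000000000002b30000000000000000000001db0000009700000145000000000000001900000000000000a30000000d00000001000000000000000000000000000000d9000000000000006d00000000000000000000000000000247000000e5000000000000021d00000000000001b10000000000000079000002890000000000000000000000000000065500000000000005e9000000000000000000000000000003850000023b0000057d00000000000000f100000000000002ac0000000000000000000004390000022900000000000003a3000000000000036100000000000001bd000003cd000000000000000000000511000000000000008500000000000004bc00000295000004a5000000000000000000000000000002ca00000000000000ba000000000000000000000000000008f500000661000000000000096600000000000009d200000000000005f500000aaa000000000000000000000000000009540000000000000a21000000000000000000000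000000001e100000391000009b5000000000000022f00000000000002400000058900000af9000000000000000000000a8d00000000000000eb000000000000043e0000000000000000000003fc000002b800000000000008e80000000000000973000000000000000000000000000003f10000044500000949000000000000023500000000000001d40000000000000000000004030000039700000000000001f3000000000000025f000000000000036d0000046f0000000000000000000008dd00000000000001c900000000000003e4000003d90000041b0000000000000000000000000000040e00000000000001fe000000000000051d000005a60000000000000000000006120000000000000091000000000000038a0000000000000000000003f6000004c80000067e00000000000002a10000000000000378000004b1000002d70000000000000000000000000000046200000000000003ae000000000000000000000000000001e6000002be0000000000000252000000000000026400000000000000ae0000011a0000000000000000000000000000087c0000000000000b7600000000000000000000000000000522000008ee00000be2000000000000065b000000000000015600000000000000000000058e0000095a00000000000007aa00000000000005ad00000000000009c600000979000000000000000000000bd00000000000000601000000000000030600000a9e0000063700000000000000000000000000000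6d20000000000000324000000000000000000000000000005fa0000096000000000000008100000000000000b1d0000000000000a2d00000a44000000000000000000000000000007a4000000000000083b000000000000000000000000000000a9000001ed00000625000000000000039d000000000000007e000009c100000a5600000000000000000000098b000000000000022300000000000001c20000000000000000000003720000024c00000b640000000000000595000000000000030c00000b05000008290000000000000000000000000000073800000000000007500000000000000a9900000b2f0000000000000000000005bf00000000000000df000000000000029a0000000000000000000003de0000045c00000000000006cc0000000000000762000000000000000000000000000004b6000004080000033600000000000002c40000000000000012000000000000000000000660000008f400000000000005f40000000000000aab0000000000000967000009d3000000000000000000000000000005880000000000000af8000000000000000000000000000002b9000003fd00000a8c000000000000043f00000000000000ea0000095500000a200000000000000000000009b40000000000000241000000000000022e000000000000000000000390000001e0000000000000051c00000000000005a7000000000000000000000000000004c9000003f700000613000000000000038b000000000000009000000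00000000000000002bf000001e700000000000000af000000000000011b00000000000002530000026500000000000000000000067f000000000000037900000000000002a000000463000003af000000000000000000000000000004b000000000000002d600000000000008e90000097200000000000000000000094800000000000001d50000000000000234000000000000000000000444000003f0000008dc00000000000003e500000000000001c80000040f000001ff000000000000000000000000000003d8000000000000041a0000000000000000000000000000039600000402000000000000036c000000000000046e00000000000001f20000025e0000000000000000000008700000000000000529000000000000015c0000059a000007b60000000000000000000000000000031200000000000006de000000000000060600000804000000000000000000000798000000000000009d000000000000008a0000000000000000000001ce0000037e0000000000000300000000000000072c000000000000000000000000000002a6000003ea000006c000000000000004c2000000000000001e00000654000005e800000000000000000000057c00000000000002ad00000000000000f000000000000000000000023a000003840000051000000000000004bd0000000000000084000002cb000000bb0000000000000000000000000000029400000000000004a4000000000000000000000000000002280000043800000000000001bc00000000000003cc00000000000003a20000036000000000000000000000000000000150000000000000031e00000000000000000000000000000096000001da000002f400000000000002b200000000000000240000000000000000000000e40000024600000000000000780000000000000288000000000000021c000001b000000000000000000000014400000000000000a20000000000000018000000d80000006c0000000000000000000000000000000c000000000000000000000000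

theorem spec : Spec 6 true idx RK 30 G := fun _ _ _ _ => by eq_refl

theorem cover : cov 7 true H RK CK 30 3 = true := by decide +kernel

end S7x2

namespace S7x2

noncomputable def ts0 : List Nat :=
  [nat_lit 190601681618691419662813092111541464746426915,
   nat_lit 190601681618691419662813092111541464746426368,
   nat_lit 190601681618691419662813092111541464746431478,
   nat_lit 190601681618691419662813092111541464746428930,
   nat_lit 190601681618691419662813092111541464746552690,
   nat_lit 190601681618691419662813092111541464746628178,
   nat_lit 190601681618691419662813092111541464751132454,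
   nat_lit 190601681618691419662813092111541464761764726,
   nat_lit 190601681618691419662813092111541464981552882,
   nat_lit 190601681618691419662813092111541465985047990,
   nat_lit 190601681618691419662813092111541479708851258,
   nat_lit 190601681618691419662813092111541571019107806,
   nat_lit 190601681618691419662813092111542603246151374,
   nat_lit 190601681618691419662813092111551004550666698,
   nat_lit 190601681618691419662813092111638355133942402,
   nat_lit 190601681618691419662813092112424151684891070,
   nat_lit 190601681618691419662813092120317834963723218,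
   nat_lit 190601681618691419662813092194799035495114242,
   nat_lit 190601681618691419662813092933146257840225502,
   nat_lit 190601681618691419662813100058611618547209814,
   nat_lit 190601681618691419662813170366652447342472370,
   nat_lit 190601681618691419662813856218394792918315974,
   nat_lit 190601681618691419662820614489282709175678970,
   nat_lit 190601681618691419662886888649012491715578558,
   nat_lit 190601681618691419663539829775778803347513790,
   nat_lit 190601681618691419669959790846325540651497078,
   nat_lit 190601681618691419733221541954379792990493426,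
   nat_lit 190601681618691420356092720787420381104427662,
   nat_lit 190601681618691426495299805688560871290631010,
   nat_lit 190601681618691486986476360851428006133099502,
   nat_lit 190601681618692083331035541839310241634267314,
   nat_lit 190601681618697961701831380353904264245760150,
   nat_lit 190601681618755922079375135580420525248471122,
   nat_lit 190601681619327393463854181307210908481344570,
   nat_lit 190601681624962703215637867289815690669872634,
   nat_lit 190601681680532955161999660095190217787235666,
   nat_lit 190601682228556799225439828679585056070040078]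

theorem run0 : go idx G base H RK CK 139 0 30 ts0 = true := by decide +kernel

end S7x2

namespace S7x3

noncomputable def idx : List Nat :=
  [nat_lit 5, nat_lit 7, nat_lit 11, nat_lit 15, nat_lit 19, nat_lit 21, nat_lit 29, nat_lit 33,
  nat_lit 41, nat_lit 43, nat_lit 45, nat_lit 49, nat_lit 53, nat_lit 55, nat_lit 57, nat_lit 63,
  nat_lit 67, nat_lit 71, nat_lit 77, nat_lit 79, nat_lit 83, nat_lit 87, nat_lit 95, nat_lit 97,
  nat_lit 99, nat_lit 103, nat_lit 107, nat_lit 113, nat_lit 115, nat_lit 119, nat_lit 123, nat_lit 127,
  nat_lit 129, nat_lit 135, nat_lit 139, nat_lit 143, nat_lit 145, nat_lit 147, nat_lit 155, nat_lit 159,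
  nat_lit 163, nat_lit 165, nat_lit 171, nat_lit 175, nat_lit 179, nat_lit 185, nat_lit 187, nat_lit 189,
  nat_lit 193, nat_lit 197, nat_lit 199, nat_lit 201, nat_lit 209, nat_lit 213, nat_lit 221, nat_lit 223,
  nat_lit 227, nat_lit 231, nat_lit 235, nat_lit 237, nat_lit 245, nat_lit 249, nat_lit 257, nat_lit 259,
  nat_lit 261, nat_lit 265, nat_lit 269, nat_lit 275, nat_lit 277, nat_lit 281, nat_lit 285, nat_lit 289,
  nat_lit 291, nat_lit 297, nat_lit 301, nat_lit 305, nat_lit 307, nat_lit 309, nat_lit 317, nat_lit 321,
  nat_lit 329, nat_lit 331, nat_lit 335, nat_lit 339, nat_lit 343, nat_lit 345, nat_lit 353, nat_lit 357,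
  nat_lit 365, nat_lit 367, nat_lit 369, nat_lit 373, nat_lit 377, nat_lit 379, nat_lit 381, nat_lit 387,
  nat_lit 391, nat_lit 395, nat_lit 401, nat_lit 403, nat_lit 405, nat_lit 409, nat_lit 413, nat_lit 415,
  nat_lit 417, nat_lit 425, nat_lit 429, nat_lit 433, nat_lit 435, nat_lit 441, nat_lit 445, nat_lit 449,
  nat_lit 455, nat_lit 457, nat_lit 461, nat_lit 465, nat_lit 473, nat_lit 475, nat_lit 477, nat_lit 481,
  nat_lit 485, nat_lit 487, nat_lit 489, nat_lit 495, nat_lit 499, nat_lit 503, nat_lit 509, nat_lit 511,
  nat_lit 513, nat_lit 517, nat_lit 521, nat_lit 523, nat_lit 525, nat_lit 533, nat_lit 537, nat_lit 545,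
  nat_lit 547, nat_lit 551, nat_lit 555, nat_lit 559, nat_lit 561, nat_lit 567, nat_lit 571, nat_lit 575,
  nat_lit 577, nat_lit 579, nat_lit 587, nat_lit 591, nat_lit 595, nat_lit 597, nat_lit 603, nat_lit 607,
  nat_lit 611, nat_lit 617, nat_lit 619, nat_lit 623, nat_lit 627, nat_lit 635, nat_lit 637, nat_lit 639,
  nat_lit 643, nat_lit 647, nat_lit 653, nat_lit 655, nat_lit 659, nat_lit 663, nat_lit 667, nat_lit 669,
  nat_lit 677, nat_lit 681, nat_lit 689, nat_lit 691, nat_lit 693, nat_lit 697, nat_lit 701, nat_lit 703,
  nat_lit 705, nat_lit 711, nat_lit 715, nat_lit 719, nat_lit 725, nat_lit 727, nat_lit 731, nat_lit 735,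
  nat_lit 743, nat_lit 745, nat_lit 747, nat_lit 751, nat_lit 755, nat_lit 761, nat_lit 763, nat_lit 767,
  nat_lit 771, nat_lit 775, nat_lit 777, nat_lit 783, nat_lit 787, nat_lit 791, nat_lit 793, nat_lit 795,
  nat_lit 803, nat_lit 807, nat_lit 815, nat_lit 817, nat_lit 821, nat_lit 825, nat_lit 829, nat_lit 831,
  nat_lit 839, nat_lit 843, nat_lit 851, nat_lit 853, nat_lit 855, nat_lit 859, nat_lit 863, nat_lit 865,
  nat_lit 867, nat_lit 873, nat_lit 877, nat_lit 881, nat_lit 887, nat_lit 889, nat_lit 891, nat_lit 895,
  nat_lit 899, nat_lit 901, nat_lit 903, nat_lit 911, nat_lit 915, nat_lit 919, nat_lit 921, nat_lit 927,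
  nat_lit 931, nat_lit 935, nat_lit 941, nat_lit 943, nat_lit 947, nat_lit 951, nat_lit 959, nat_lit 961,
  nat_lit 963, nat_lit 967, nat_lit 971, nat_lit 977, nat_lit 979, nat_lit 983, nat_lit 987, nat_lit 991,
  nat_lit 993, nat_lit 1001, nat_lit 1005, nat_lit 1013, nat_lit 1015, nat_lit 1017, nat_lit 1021, nat_lit 1025,
  nat_lit 1027, nat_lit 1029, nat_lit 1035, nat_lit 1039, nat_lit 1043, nat_lit 1049, nat_lit 1051, nat_lit 1055,
  nat_lit 1059, nat_lit 1067, nat_lit 1069, nat_lit 1071, nat_lit 1075, nat_lit 1079, nat_lit 1085, nat_lit 1087,
  nat_lit 1091, nat_lit 1095, nat_lit 1099, nat_lit 1101, nat_lit 1107, nat_lit 1111, nat_lit 1115, nat_lit 1117,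
  nat_lit 1119, nat_lit 1127, nat_lit 1131, nat_lit 1135, nat_lit 1137, nat_lit 1143, nat_lit 1147, nat_lit 1151,
  nat_lit 1157, nat_lit 1159, nat_lit 1161, nat_lit 1165, nat_lit 1169, nat_lit 1171, nat_lit 1173, nat_lit 1181,
  nat_lit 1185, nat_lit 1193, nat_lit 1195, nat_lit 1199, nat_lit 1203, nat_lit 1207, nat_lit 1209, nat_lit 1215,
  nat_lit 1219, nat_lit 1223, nat_lit 1225, nat_lit 1227, nat_lit 1235, nat_lit 1239, nat_lit 1243, nat_lit 1245,
  nat_lit 1251, nat_lit 1255, nat_lit 1259, nat_lit 1265, nat_lit 1267, nat_lit 1271, nat_lit 1275, nat_lit 1283,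
  nat_lit 1285, nat_lit 1287, nat_lit 1291, nat_lit 1295, nat_lit 1297, nat_lit 1299, nat_lit 1305, nat_lit 1309,
  nat_lit 1313, nat_lit 1319, nat_lit 1321, nat_lit 1323, nat_lit 1327, nat_lit 1331, nat_lit 1333, nat_lit 1335,
  nat_lit 1343, nat_lit 1347, nat_lit 1355, nat_lit 1357, nat_lit 1361, nat_lit 1365, nat_lit 1369, nat_lit 1371,
  nat_lit 1379, nat_lit 1383, nat_lit 1391, nat_lit 1393, nat_lit 1395, nat_lit 1399, nat_lit 1403, nat_lit 1409,
  nat_lit 1411, nat_lit 1415, nat_lit 1419, nat_lit 1423, nat_lit 1425, nat_lit 1431, nat_lit 1435, nat_lit 1439,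
  nat_lit 1441, nat_lit 1443, nat_lit 1451, nat_lit 1455, nat_lit 1459, nat_lit 1461, nat_lit 1467, nat_lit 1471,
  nat_lit 1475, nat_lit 1481, nat_lit 1483, nat_lit 1485, nat_lit 1489, nat_lit 1493, nat_lit 1495, nat_lit 1497,
  nat_lit 1505, nat_lit 1509, nat_lit 1517, nat_lit 1519, nat_lit 1523, nat_lit 1527, nat_lit 1531, nat_lit 1533,
  nat_lit 1539, nat_lit 1543, nat_lit 1547, nat_lit 1549, nat_lit 1551, nat_lit 1559, nat_lit 1563, nat_lit 1567,
  nat_lit 1569, nat_lit 1575, nat_lit 1579, nat_lit 1583, nat_lit 1589, nat_lit 1591, nat_lit 1595, nat_lit 1599,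
  nat_lit 1607, nat_lit 1609, nat_lit 1611, nat_lit 1615, nat_lit 1619, nat_lit 1625, nat_lit 1627, nat_lit 1631,
  nat_lit 1635, nat_lit 1639, nat_lit 1641, nat_lit 1649, nat_lit 1653, nat_lit 1661, nat_lit 1663, nat_lit 1665,
  nat_lit 1669, nat_lit 1673, nat_lit 1675, nat_lit 1677, nat_lit 1683, nat_lit 1687, nat_lit 1691, nat_lit 1697,
  nat_lit 1699, nat_lit 1701, nat_lit 1705, nat_lit 1709, nat_lit 1711, nat_lit 1713, nat_lit 1721, nat_lit 1725,
  nat_lit 1729, nat_lit 1731, nat_lit 1737, nat_lit 1741, nat_lit 1745, nat_lit 1751, nat_lit 1753, nat_lit 1757,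
  nat_lit 1761, nat_lit 1769, nat_lit 1771, nat_lit 1773, nat_lit 1777, nat_lit 1781, nat_lit 1783, nat_lit 1785,
  nat_lit 1791, nat_lit 1795, nat_lit 1799, nat_lit 1805, nat_lit 1807, nat_lit 1809, nat_lit 1813, nat_lit 1817,
  nat_lit 1819, nat_lit 1821, nat_lit 1829, nat_lit 1833, nat_lit 1841, nat_lit 1843, nat_lit 1847, nat_lit 1851,
  nat_lit 1855, nat_lit 1857, nat_lit 1865, nat_lit 1869, nat_lit 1877, nat_lit 1879, nat_lit 1881, nat_lit 1885,
  nat_lit 1889, nat_lit 1895, nat_lit 1897, nat_lit 1901, nat_lit 1905, nat_lit 1909, nat_lit 1911, nat_lit 1917,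
  nat_lit 1921, nat_lit 1925, nat_lit 1927, nat_lit 1929, nat_lit 1937, nat_lit 1941, nat_lit 1949, nat_lit 1951,
  nat_lit 1955, nat_lit 1959, nat_lit 1963, nat_lit 1965, nat_lit 1973, nat_lit 1977, nat_lit 1985, nat_lit 1987,
  nat_lit 1989, nat_lit 1993, nat_lit 1997, nat_lit 1999, nat_lit 2001, nat_lit 2007, nat_lit 2011, nat_lit 2015,
  nat_lit 2021, nat_lit 2023, nat_lit 2027, nat_lit 2031, nat_lit 2039, nat_lit 2041, nat_lit 2043, nat_lit 2047,
  nat_lit 2051, nat_lit 2057, nat_lit 2059, nat_lit 2063, nat_lit 2067, nat_lit 2071, nat_lit 2073, nat_lit 2079,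
  nat_lit 2083, nat_lit 2087, nat_lit 2089, nat_lit 2091, nat_lit 2099, nat_lit 2103, nat_lit 2107, nat_lit 2109,
  nat_lit 2115, nat_lit 2119, nat_lit 2123, nat_lit 2129, nat_lit 2131, nat_lit 2133, nat_lit 2137, nat_lit 2141,
  nat_lit 2143, nat_lit 2145, nat_lit 2153, nat_lit 2157, nat_lit 2165, nat_lit 2167, nat_lit 2171, nat_lit 2175,
  nat_lit 2179, nat_lit 2181]

def TT : Type :=
  Nat → Nat → Nat → Nat → Nat → Nat → Nat → Nat → Nat → Nat → Nat → Nat → Nat → Nat → Nat → Nat →
  Nat → Nat → Nat → Nat → Nat → Nat → Nat → Nat → Nat → Nat → Nat → Nat → Nat → Nat → Nat → Nat →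
  Nat → Nat → Nat → Nat → Nat → Nat → Nat → Nat → Nat → Nat → Nat → Nat → Nat → Nat → Nat → Nat →
  Nat → Nat → Nat → Nat → Nat → Nat → Nat → Nat → Nat → Nat → Nat → Nat → Nat → Nat → Nat → Nat →
  Nat → Nat → Nat → Nat → Nat → Nat → Nat → Nat → Nat → Nat → Nat → Nat → Nat → Nat → Nat → Nat →
  Nat → Nat → Nat → Nat → Nat → Nat → Nat → Nat → Nat → Nat → Nat → Nat → Nat → Nat → Nat → Nat →
  Nat → Nat → Nat → Nat → Nat → Nat → Nat → Nat → Nat → Nat → Nat → Nat → Nat → Nat → Nat → Nat →
  Nat → Nat → Nat → Nat → Nat → Nat → Nat → Nat → Nat → Nat → Nat → Nat → Nat → Nat → Nat → Nat →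
  Nat → Nat → Nat → Nat → Nat → Nat → Nat → Nat → Nat → Nat → Nat → Nat → Nat → Nat → Nat → Nat →
  Nat → Nat → Nat → Nat → Nat → Nat → Nat → Nat → Nat → Nat → Nat → Nat → Nat → Nat → Nat → Nat →
  Nat → Nat → Nat → Nat → Nat → Nat → Nat → Nat → Nat → Nat → Nat → Nat → Nat → Nat → Nat → Nat →
  Nat → Nat → Nat → Nat → Nat → Nat → Nat → Nat → Nat → Nat → Nat → Nat → Nat → Nat → Nat → Nat →
  Nat → Nat → Nat → Nat → Nat → Nat → Nat → Nat → Nat → Nat → Nat → Nat → Nat → Nat → Nat → Nat →
  Nat → Nat → Nat → Nat → Nat → Nat → Nat → Nat → Nat → Nat → Nat → Nat → Nat → Nat → Nat → Nat →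
  Nat → Nat → Nat → Nat → Nat → Nat → Nat → Nat → Nat → Nat → Nat → Nat → Nat → Nat → Nat → Nat →
  Nat → Nat → Nat → Nat → Nat → Nat → Nat → Nat → Nat → Nat → Nat → Nat → Nat → Nat → Nat → Nat →
  Nat → Nat → Nat → Nat → Nat → Nat → Nat → Nat → Nat → Nat → Nat → Nat → Nat → Nat → Nat → Nat →
  Nat → Nat → Nat → Nat → Nat → Nat → Nat → Nat → Nat → Nat → Nat → Nat → Nat → Nat → Nat → Nat →
  Nat → Nat → Nat → Nat → Nat → Nat → Nat → Nat → Nat → Nat → Nat → Nat → Nat → Nat → Nat → Nat →
  Nat → Nat → Nat → Nat → Nat → Nat → Nat → Nat → Nat → Nat → Nat → Nat → Nat → Nat → Nat → Nat →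
  Nat → Nat → Nat → Nat → Nat → Nat → Nat → Nat → Nat → Nat → Nat → Nat → Nat → Nat → Nat → Nat →
  Nat → Nat → Nat → Nat → Nat → Nat → Nat → Nat → Nat → Nat → Nat → Nat → Nat → Nat → Nat → Nat →
  Nat → Nat → Nat → Nat → Nat → Nat → Nat → Nat → Nat → Nat → Nat → Nat → Nat → Nat → Nat → Nat →
  Nat → Nat → Nat → Nat → Nat → Nat → Nat → Nat → Nat → Nat → Nat → Nat → Nat → Nat → Nat → Nat →
  Nat → Nat → Nat → Nat → Nat → Nat → Nat → Nat → Nat → Nat → Nat → Nat → Nat → Nat → Nat → Nat →
  Nat → Nat → Nat → Nat → Nat → Nat → Nat → Nat → Nat → Nat → Nat → Nat → Nat → Nat → Nat → Nat →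
  Nat → Nat → Nat → Nat → Nat → Nat → Nat → Nat → Nat → Nat → Nat → Nat → Nat → Nat → Nat → Nat →
  Nat → Nat → Nat → Nat → Nat → Nat → Nat → Nat → Nat → Nat → Nat → Nat → Nat → Nat → Nat → Nat →
  Nat → Nat → Nat → Nat → Nat → Nat → Nat → Nat → Nat → Nat → Nat → Nat → Nat → Nat → Nat → Nat →
  Nat → Nat → Nat → Nat → Nat → Nat → Nat → Nat → Nat → Nat → Nat → Nat → Nat → Nat → Nat → Nat →
  Nat → Nat → Nat → Nat → Nat → Nat → Nat → Nat → Nat → Nat → Nat → Nat → Nat → Nat → Nat → Nat →
  Nat → Nat → Nat → Nat → Nat → Nat → Nat → Nat → Nat → Nat → Nat → Nat → Nat → Nat → Nat → Nat →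
  Nat → Nat → Nat → Nat → Nat → Nat → Nat → Nat → Nat → Nat → Nat → Nat → Nat → Nat → Nat → Nat →
  Nat → Nat → Nat → Nat → Nat → Nat → Nat → Nat → Nat → Nat → Nat → Nat → Nat → Nat → Nat → Nat →
  Nat → Nat → Bool

noncomputable def base : TT :=
  fun _ _ _ _ _ _ _ _ _ _ _ _ _ _ _ _ _ _ _ _ _ _ _ _ _ _ _ _ _ _ _ _ _ _ _ _ _ _ _ _
  _ _ _ _ _ _ _ _ _ _ _ _ _ _ _ _ _ _ _ _ _ _ _ _ _ _ _ _ _ _ _ _ _ _ _ _ _ _ _ _
  _ _ _ _ _ _ _ _ _ _ _ _ _ _ _ _ _ _ _ _ _ _ _ _ _ _ _ _ _ _ _ _ _ _ _ _ _ _ _ _
  _ _ _ _ _ _ _ _ _ _ _ _ _ _ _ _ _ _ _ _ _ _ _ _ _ _ _ _ _ _ _ _ _ _ _ _ _ _ _ _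
  _ _ _ _ _ _ _ _ _ _ _ _ _ _ _ _ _ _ _ _ _ _ _ _ _ _ _ _ _ _ _ _ _ _ _ _ _ _ _ _
  _ _ _ _ _ _ _ _ _ _ _ _ _ _ _ _ _ _ _ _ _ _ _ _ _ _ _ _ _ _ _ _ _ _ _ _ _ _ _ _
  _ _ _ _ _ _ _ _ _ _ _ _ _ _ _ _ _ _ _ _ _ _ _ _ _ _ _ _ _ _ _ _ _ _ _ _ _ _ _ _
  _ _ _ _ _ _ _ _ _ _ _ _ _ _ _ _ _ _ _ _ _ _ _ _ _ _ _ _ _ _ _ _ _ _ _ _ _ _ _ _
  _ _ _ _ _ _ _ _ _ _ _ _ _ _ _ _ _ _ _ _ _ _ _ _ _ _ _ _ _ _ _ _ _ _ _ _ _ _ _ _
  _ _ _ _ _ _ _ _ _ _ _ _ _ _ _ _ _ _ _ _ _ _ _ _ _ _ _ _ _ _ _ _ _ _ _ _ _ _ _ _
  _ _ _ _ _ _ _ _ _ _ _ _ _ _ _ _ _ _ _ _ _ _ _ _ _ _ _ _ _ _ _ _ _ _ _ _ _ _ _ _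
  _ _ _ _ _ _ _ _ _ _ _ _ _ _ _ _ _ _ _ _ _ _ _ _ _ _ _ _ _ _ _ _ _ _ _ _ _ _ _ _
  _ _ _ _ _ _ _ _ _ _ _ _ _ _ _ _ _ _ _ _ _ _ _ _ _ _ _ _ _ _ _ _ _ _ _ _ _ _ _ _
  _ _ _ _ _ _ _ _ _ _ _ _ _ _ _ _ _ _ _ _ _ _ _ _ _ _ => true

noncomputable def G (chk : List Nat → Bool) (C : Nat) (k : TT) : TT :=
  fun x5 x7 x11 x15 x19 x21 x29 x33 x41 x43 x45 x49 x53 x55 x57 x63
  x67 x71 x77 x79 x83 x87 x95 x97 x99 x103 x107 x113 x115 x119 x123 x127
  x129 x135 x139 x143 x145 x147 x155 x159 x163 x165 x171 x175 x179 x185 x187 x189
  x193 x197 x199 x201 x209 x213 x221 x223 x227 x231 x235 x237 x245 x249 x257 x259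
  x261 x265 x269 x275 x277 x281 x285 x289 x291 x297 x301 x305 x307 x309 x317 x321
  x329 x331 x335 x339 x343 x345 x353 x357 x365 x367 x369 x373 x377 x379 x381 x387
  x391 x395 x401 x403 x405 x409 x413 x415 x417 x425 x429 x433 x435 x441 x445 x449
  x455 x457 x461 x465 x473 x475 x477 x481 x485 x487 x489 x495 x499 x503 x509 x511
  x513 x517 x521 x523 x525 x533 x537 x545 x547 x551 x555 x559 x561 x567 x571 x575
  x577 x579 x587 x591 x595 x597 x603 x607 x611 x617 x619 x623 x627 x635 x637 x639
  x643 x647 x653 x655 x659 x663 x667 x669 x677 x681 x689 x691 x693 x697 x701 x703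
  x705 x711 x715 x719 x725 x727 x731 x735 x743 x745 x747 x751 x755 x761 x763 x767
  x771 x775 x777 x783 x787 x791 x793 x795 x803 x807 x815 x817 x821 x825 x829 x831
  x839 x843 x851 x853 x855 x859 x863 x865 x867 x873 x877 x881 x887 x889 x891 x895
  x899 x901 x903 x911 x915 x919 x921 x927 x931 x935 x941 x943 x947 x951 x959 x961
  x963 x967 x971 x977 x979 x983 x987 x991 x993 x1001 x1005 x1013 x1015 x1017 x1021 x1025
  x1027 x1029 x1035 x1039 x1043 x1049 x1051 x1055 x1059 x1067 x1069 x1071 x1075 x1079 x1085 x1087
  x1091 x1095 x1099 x1101 x1107 x1111 x1115 x1117 x1119 x1127 x1131 x1135 x1137 x1143 x1147 x1151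
  x1157 x1159 x1161 x1165 x1169 x1171 x1173 x1181 x1185 x1193 x1195 x1199 x1203 x1207 x1209 x1215
  x1219 x1223 x1225 x1227 x1235 x1239 x1243 x1245 x1251 x1255 x1259 x1265 x1267 x1271 x1275 x1283
  x1285 x1287 x1291 x1295 x1297 x1299 x1305 x1309 x1313 x1319 x1321 x1323 x1327 x1331 x1333 x1335
  x1343 x1347 x1355 x1357 x1361 x1365 x1369 x1371 x1379 x1383 x1391 x1393 x1395 x1399 x1403 x1409
  x1411 x1415 x1419 x1423 x1425 x1431 x1435 x1439 x1441 x1443 x1451 x1455 x1459 x1461 x1467 x1471
  x1475 x1481 x1483 x1485 x1489 x1493 x1495 x1497 x1505 x1509 x1517 x1519 x1523 x1527 x1531 x1533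
  x1539 x1543 x1547 x1549 x1551 x1559 x1563 x1567 x1569 x1575 x1579 x1583 x1589 x1591 x1595 x1599
  x1607 x1609 x1611 x1615 x1619 x1625 x1627 x1631 x1635 x1639 x1641 x1649 x1653 x1661 x1663 x1665
  x1669 x1673 x1675 x1677 x1683 x1687 x1691 x1697 x1699 x1701 x1705 x1709 x1711 x1713 x1721 x1725
  x1729 x1731 x1737 x1741 x1745 x1751 x1753 x1757 x1761 x1769 x1771 x1773 x1777 x1781 x1783 x1785
  x1791 x1795 x1799 x1805 x1807 x1809 x1813 x1817 x1819 x1821 x1829 x1833 x1841 x1843 x1847 x1851
  x1855 x1857 x1865 x1869 x1877 x1879 x1881 x1885 x1889 x1895 x1897 x1901 x1905 x1909 x1911 x1917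
  x1921 x1925 x1927 x1929 x1937 x1941 x1949 x1951 x1955 x1959 x1963 x1965 x1973 x1977 x1985 x1987
  x1989 x1993 x1997 x1999 x2001 x2007 x2011 x2015 x2021 x2023 x2027 x2031 x2039 x2041 x2043 x2047
  x2051 x2057 x2059 x2063 x2067 x2071 x2073 x2079 x2083 x2087 x2089 x2091 x2099 x2103 x2107 x2109
  x2115 x2119 x2123 x2129 x2131 x2133 x2137 x2141 x2143 x2145 x2153 x2157 x2165 x2167 x2171 x2175
  x2179 x2181 =>
  Bool.rec false (k
  (add (add (add (add (add (add (add (add (add (sub (sub C x7) x11) x41) x77) x113) x221) x329) x653) x977) x1949) x1461)
  (sub (add (add (add (add (add (add (add (add (sub (sub C x5) x19) x43) x79) x115) x223) x331) x655) x979) x1951) x735)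
  (add (add (add (add (add (add (add (sub (sub (sub C x15) x5) x29) x119) x227) x335) x659) x983) x1955) x1467)
  (sub (add (add (add (add (add (add (add (sub (sub (sub C x11) x21) x33) x123) x231) x339) x663) x987) x1959) x745) x1475)
  (sub (add (add (add (add (add (add (sub (sub (sub C x21) x7) x55) x127) x235) x343) x667) x991) x1963) x747)
  (sub (add (add (add (add (add (add (add (sub (sub (sub C x19) x15) x57) x129) x237) x345) x669) x993) x1965) x751) x1481)
  (add (add (add (add (add (sub (sub (add (add (sub C x33) x41) x53) x11) x83) x353) x677) x1001) x1973) x1485)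
  (sub (add (add (add (add (add (sub (sub (sub (sub C x29) x45) x15) x87) x357) x681) x1005) x1977) x763) x1493)
  (add (add (add (add (add (sub (add (add (add (add (sub C x43) x29) x53) x5) x77) x95) x365) x689) x1013) x1985) x1497)
  (sub (add (add (add (add (sub (add (add (sub (sub C x41) x49) x7) x79) x97) x367) x691) x1015) x1987) x771)
  (sub (add (add (add (add (add (sub (sub (sub (add (add C x49) x53) x33) x63) x99) x369) x693) x1017) x1989) x775) x1505)
  (sub (add (add (add (add (sub (sub (sub (add (add C x45) x53) x43) x67) x103) x373) x697) x1021) x1993) x777)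
  (add (add (add (add (add (sub (sub (add (add (add (add C x45) x49) x29) x41) x71) x107) x377) x701) x1025) x1997) x1509)
  (sub (add (add (add (add (sub (sub (add (add (sub C x57) x67) x79) x19) x163) x379) x703) x1027) x1999) x783)
  (sub (add (add (add (add (add (sub (sub (sub (sub C x55) x63) x21) x165) x381) x705) x1029) x2001) x787) x1517)
  (sub (add (add (add (add (add (sub (sub (sub (add (add C x67) x71) x57) x45) x171) x387) x711) x1035) x2007) x793) x1523)
  (sub (add (add (add (add (sub (sub (add (add (add (add C x63) x71) x55) x79) x49) x175) x391) x715) x1039) x2011) x795)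
  (add (add (add (add (add (sub (sub (sub (add (add C x63) x67) x77) x53) x179) x395) x719) x1043) x2015) x1527)
  (add (add (add (add (add (sub (add (add (sub (sub C x79) x71) x5) x41) x185) x401) x725) x1049) x2021) x1533)
  (sub (add (add (add (add (sub (add (add (add (add (sub C x77) x55) x67) x7) x43) x187) x403) x727) x1051) x2023) x807)
  (add (add (add (sub (sub (add (add (add (add (sub C x87) x95) x107) x119) x155) x29) x245) x1055) x2027) x1539)
  (sub (add (add (add (sub (sub (add (add (sub (sub C x83) x99) x123) x159) x33) x249) x1059) x2031) x817) x1547)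
  (add (add (add (sub (sub (sub (add (add (sub C x97) x83) x107) x113) x41) x257) x1067) x2039) x1551)
  (sub (add (add (sub (sub (sub (sub (sub C x95) x103) x115) x43) x259) x1069) x2041) x825)
  (sub (add (add (add (sub (sub (sub (sub (add (add C x103) x107) x87) x135) x45) x261) x1071) x2043) x829) x1559)
  (sub (add (add (sub (sub (sub (sub (add (add C x99) x107) x97) x139) x49) x265) x1075) x2047) x831)
  (add (add (add (sub (sub (sub (add (add (add (add C x99) x103) x83) x95) x143) x53) x269) x1079) x2051) x1563)
  (add (add (add (sub (add (add (sub (sub (sub C x115) x119) x95) x5) x221) x275) x1085) x2057) x1569)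
  (sub (add (add (sub (add (add (sub (sub (sub C x113) x127) x97) x7) x223) x277) x1087) x2059) x843)
  (add (add (add (sub (add (add (add (add (sub (sub C x123) x113) x83) x155) x11) x227) x281) x1091) x2063) x1575)
  (sub (add (add (add (sub (add (add (add (add (sub (sub C x119) x129) x87) x159) x15) x231) x285) x1095) x2067) x853) x1583)
  (sub (add (add (sub (add (add (sub (sub (sub C x129) x115) x145) x19) x235) x289) x1099) x2071) x855)
  (sub (add (add (add (sub (add (add (sub (sub (sub C x127) x123) x147) x21) x237) x291) x1101) x2073) x859) x1589)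
  (sub (add (add (add (sub (sub (sub (add (add (add (add C x139) x143) x147) x159) x99) x189) x297) x1107) x2079) x865) x1595)
  (sub (add (add (sub (sub (sub (sub (add (add C x135) x143) x145) x103) x193) x301) x1111) x2083) x867)
  (add (add (add (sub (sub (sub (sub (add (add C x135) x139) x155) x107) x197) x305) x1115) x2087) x1599)
  (sub (add (add (sub (sub (sub (sub (sub C x147) x139) x127) x199) x307) x1117) x2089) x873)
  (sub (add (add (add (sub (sub (sub (add (add (sub C x145) x135) x159) x129) x201) x309) x1119) x2091) x877) x1607)
  (add (add (add (sub (sub (add (add (sub (sub C x159) x143) x83) x119) x209) x317) x1127) x2099) x1611)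
  (sub (add (add (add (sub (sub (add (add (add (add (sub C x155) x135) x147) x87) x123) x213) x321) x1131) x2103) x889) x1619)
  (sub (add (add (sub (sub (add (add (add (add (sub C x165) x175) x187) x199) x235) x55) x487) x1135) x2107) x891)
  (sub (add (add (add (sub (sub (add (add (sub (sub C x163) x171) x201) x237) x57) x489) x1137) x2109) x895) x1625)
  (sub (add (add (add (sub (sub (sub (sub (add (add C x175) x179) x165) x189) x63) x495) x1143) x2115) x901) x1631)
  (sub (add (add (sub (sub (sub (add (add (add (add C x171) x179) x163) x187) x193) x67) x499) x1147) x2119) x903)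
  (add (add (add (sub (sub (sub (sub (add (add C x171) x175) x185) x197) x71) x503) x1151) x2123) x1635)
  (add (add (add (sub (sub (sub (sub (sub C x187) x179) x221) x77) x509) x1157) x2129) x1641)
  (sub (add (add (sub (sub (sub (add (add (sub C x185) x163) x175) x223) x79) x511) x1159) x2131) x915)
  (sub (add (add (add (sub (sub (sub (add (add (add (add C x193) x197) x201) x213) x171) x135) x513) x1161) x2133) x919) x1649)
  (sub (add (add (sub (sub (sub (sub (add (add C x189) x197) x199) x175) x139) x517) x1165) x2137) x921)
  (add (add (add (sub (sub (sub (sub (add (add C x189) x193) x209) x179) x143) x521) x1169) x2141) x1653)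
  (sub (add (add (sub (sub (add (add (sub (sub C x201) x193) x163) x235) x145) x523) x1171) x2143) x927)
  (sub (add (add (add (sub (sub (add (add (add (add (sub C x199) x189) x213) x165) x237) x147) x525) x1173) x2145) x931) x1661)
  (add (add (add (sub (sub (sub (sub (sub C x213) x197) x227) x155) x533) x1181) x2153) x1665)
  (sub (add (add (add (sub (sub (sub (add (add (sub C x209) x189) x201) x231) x159) x537) x1185) x2157) x943) x1673)
  (add (add (add (sub (add (add (sub (sub (sub C x223) x227) x185) x5) x113) x545) x1193) x2165) x1677)
  (sub (add (add (sub (add (add (sub (sub (sub C x221) x235) x187) x7) x115) x547) x1195) x2167) x951)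
  (add (add (add (sub (add (add (sub (sub (sub C x231) x221) x209) x11) x119) x551) x1199) x2171) x1683)
  (sub (add (add (add (sub (add (add (sub (sub (sub C x227) x237) x213) x15) x123) x555) x1203) x2175) x961) x1691)
  (sub (add (add (sub (add (add (add (add (sub (sub C x237) x223) x163) x199) x19) x127) x559) x1207) x2179) x963)
  (sub (add (add (add (sub (add (add (add (add (sub (sub C x235) x231) x165) x201) x21) x129) x561) x1209) x2181) x967) x1697)
  (add (sub (sub (add (add (add (add (add (add (sub C x249) x257) x269) x281) x317) x353) x461) x83) x731) x1701)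
  (sub (add (sub (sub (add (add (add (add (sub (sub C x245) x261) x285) x321) x357) x465) x87) x735) x979) x1709)
  (add (sub (sub (add (add (sub (add (add (sub C x259) x245) x269) x275) x365) x473) x95) x743) x1713)
  (sub (sub (sub (add (add (sub (sub (sub C x257) x265) x277) x367) x475) x97) x745) x987)
  (sub (add (sub (sub (add (add (sub (sub (add (add C x265) x269) x249) x297) x369) x477) x99) x747) x991) x1721)
  (sub (sub (sub (add (add (sub (sub (add (add C x261) x269) x259) x301) x373) x481) x103) x751) x993)
  (add (sub (sub (add (add (sub (add (add (add (add C x261) x265) x245) x257) x305) x377) x485) x107) x755) x1725)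
  (add (sub (sub (sub (sub (sub (sub C x277) x281) x257) x329) x113) x761) x1731)
  (sub (sub (sub (sub (sub (sub (sub C x275) x289) x259) x331) x115) x763) x1005)
  (add (sub (sub (sub (add (add (sub (sub C x285) x275) x245) x317) x335) x119) x767) x1737)
  (sub (add (sub (sub (sub (add (add (sub (sub C x281) x291) x249) x321) x339) x123) x771) x1015) x1745)
  (sub (sub (sub (sub (sub (sub (sub C x291) x277) x307) x343) x127) x775) x1017)
  (sub (add (sub (sub (sub (sub (sub (sub C x289) x285) x309) x345) x129) x777) x1021) x1751)
  (sub (add (sub (sub (sub (sub (add (add (add (add C x301) x305) x309) x321) x261) x405) x135) x783) x1027) x1757)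
  (sub (sub (sub (sub (sub (sub (add (add C x297) x305) x307) x265) x409) x139) x787) x1029)
  (add (sub (sub (sub (sub (sub (add (add C x297) x301) x317) x269) x413) x143) x791) x1761)
  (sub (sub (sub (sub (sub (sub (sub C x309) x301) x289) x415) x145) x793) x1035)
  (sub (add (sub (sub (sub (sub (add (add (sub C x307) x297) x321) x291) x417) x147) x795) x1039) x1769)
  (add (sub (sub (sub (add (add (sub (sub C x321) x305) x245) x281) x425) x155) x803) x1773)
  (sub (add (sub (sub (sub (add (add (add (add (sub C x317) x297) x309) x249) x285) x429) x159) x807) x1051) x1781)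
  (add (sub (add (add (sub (add (add (sub (sub C x331) x335) x365) x401) x275) x5) x653) x815) x1785)
  (sub (sub (add (add (sub (add (add (sub (sub C x329) x343) x367) x403) x277) x7) x655) x817) x1059)
  (add (sub (add (add (sub (sub (sub (sub C x339) x329) x353) x281) x11) x659) x821) x1791)
  (sub (add (sub (add (add (sub (sub (sub (sub C x335) x345) x357) x285) x15) x663) x825) x1069) x1799)
  (sub (sub (add (add (sub (sub (sub (sub C x345) x331) x379) x289) x19) x667) x829) x1071)
  (sub (add (sub (add (add (sub (sub (sub (sub C x343) x339) x381) x291) x21) x669) x831) x1075) x1805)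
  (add (sub (add (add (add (add (sub (add (add (sub C x357) x365) x377) x335) x245) x461) x29) x677) x839) x1809)
  (sub (add (sub (add (add (add (add (sub (sub (sub C x353) x369) x339) x249) x465) x33) x681) x843) x1087) x1817)
  (add (sub (add (add (add (add (add (add (add (add (sub C x367) x353) x377) x329) x401) x257) x473) x41) x689) x851) x1821)
  (sub (sub (add (add (add (add (add (add (sub (sub C x365) x373) x331) x403) x259) x475) x43) x691) x853) x1095)
  (sub (add (sub (add (add (add (add (sub (sub (add (add C x373) x377) x357) x387) x261) x477) x45) x693) x855) x1099) x1829)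
  (sub (sub (add (add (add (add (sub (sub (add (add C x369) x377) x367) x391) x265) x481) x49) x697) x859) x1101)
  (add (sub (add (add (add (add (sub (add (add (add (add C x369) x373) x353) x365) x395) x269) x485) x53) x701) x863) x1833)
  (sub (sub (add (add (sub (sub (add (add (sub C x381) x391) x403) x343) x433) x55) x703) x865) x1107)
  (sub (add (sub (add (add (sub (sub (sub (sub C x379) x387) x345) x435) x57) x705) x867) x1111) x1841)
  (sub (add (sub (add (add (sub (sub (sub (add (add C x391) x395) x381) x369) x441) x63) x711) x873) x1117) x1847)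
  (sub (sub (add (add (sub (sub (add (add (add (add C x387) x395) x379) x403) x373) x445) x67) x715) x877) x1119)
  (add (sub (add (add (sub (sub (sub (add (add C x387) x391) x401) x377) x449) x71) x719) x881) x1851)
  (add (sub (add (add (sub (add (add (sub (sub C x403) x395) x329) x365) x455) x77) x725) x887) x1857)
  (sub (sub (add (add (sub (add (add (add (add (sub C x401) x379) x391) x331) x367) x457) x79) x727) x889) x1131)
  (sub (add (sub (sub (sub (add (add (add (add (add (add C x409) x413) x417) x429) x441) x477) x297) x567) x891) x1135) x1865)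
  (sub (sub (sub (sub (add (add (sub (add (add C x405) x413) x415) x445) x481) x301) x571) x895) x1137)
  (add (sub (sub (sub (add (add (sub (add (add C x405) x409) x425) x449) x485) x305) x575) x899) x1869)
  (sub (sub (sub (sub (sub (sub (sub C x417) x409) x433) x307) x577) x901) x1143)
  (sub (add (sub (sub (sub (sub (add (add (sub C x415) x405) x429) x435) x309) x579) x903) x1147) x1877)
  (add (sub (sub (sub (sub (sub (sub C x429) x413) x461) x317) x587) x911) x1881)
  (sub (add (sub (sub (sub (sub (add (add (sub C x425) x405) x417) x465) x321) x591) x915) x1159) x1889)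
  (sub (sub (sub (sub (sub (add (add (sub C x435) x445) x457) x415) x379) x595) x919) x1161)
  (sub (add (sub (sub (sub (sub (sub (sub C x433) x441) x417) x381) x597) x921) x1165) x1895)
  (sub (add (sub (sub (sub (add (add (sub (add (add C x445) x449) x435) x405) x477) x387) x603) x927) x1171) x1901)
  (sub (sub (sub (sub (add (add (add (add (add (add C x441) x449) x433) x457) x409) x481) x391) x607) x931) x1173)
  (add (sub (sub (sub (add (add (sub (add (add C x441) x445) x455) x413) x485) x395) x611) x935) x1905)
  (add (sub (sub (sub (sub (sub (sub C x457) x449) x473) x401) x617) x941) x1911)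
  (sub (sub (sub (sub (sub (add (add (sub C x455) x433) x445) x475) x403) x619) x943) x1185)
  (add (sub (sub (add (add (sub (add (add (sub C x465) x473) x485) x425) x245) x353) x623) x947) x1917)
  (sub (add (sub (sub (add (add (sub (sub (sub C x461) x477) x429) x249) x357) x627) x951) x1195) x1925)
  (add (sub (sub (add (add (sub (add (add (sub C x475) x461) x485) x455) x257) x365) x635) x959) x1929)
  (sub (sub (sub (add (add (sub (sub (sub C x473) x481) x457) x259) x367) x637) x961) x1203)
  (sub (add (sub (sub (add (add (add (add (sub (add (add C x481) x485) x465) x405) x441) x261) x369) x639) x963) x1207) x1937)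
  (sub (sub (sub (add (add (add (add (sub (add (add C x477) x485) x475) x409) x445) x265) x373) x643) x967) x1209)
  (add (sub (sub (add (add (add (add (add (add (add (add C x477) x481) x461) x473) x413) x449) x269) x377) x647) x971) x1941)
  (sub (sub (sub (add (add (add (add (add (add (sub C x489) x499) x511) x523) x559) x595) x703) x163) x1459) x1215)
  (sub (add (sub (sub (add (add (add (add (sub (sub C x487) x495) x525) x561) x597) x705) x165) x1461) x1219) x1949)
  (sub (add (sub (sub (add (add (sub (sub (add (add C x499) x503) x489) x513) x603) x711) x171) x1467) x1225) x1955)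
  (sub (sub (sub (add (add (sub (add (add (add (add C x495) x503) x487) x511) x517) x607) x715) x175) x1471) x1227)
  (add (sub (sub (add (add (sub (sub (add (add C x495) x499) x509) x521) x611) x719) x179) x1475) x1959)
  (add (sub (sub (add (add (sub (sub (sub C x511) x503) x545) x617) x725) x185) x1481) x1965)
  (sub (sub (sub (add (add (sub (add (add (sub C x509) x487) x499) x547) x619) x727) x187) x1483) x1239)
  (sub (add (sub (sub (sub (sub (add (add (add (add C x517) x521) x525) x537) x495) x567) x189) x1485) x1243) x1973)
  (sub (sub (sub (sub (sub (sub (add (add C x513) x521) x523) x499) x571) x193) x1489) x1245)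
  (add (sub (sub (sub (sub (sub (add (add C x513) x517) x533) x503) x575) x197) x1493) x1977)
  (sub (sub (sub (sub (add (add (sub (sub C x525) x517) x487) x559) x577) x199) x1495) x1251)
  (sub (add (sub (sub (sub (add (add (add (add (sub C x523) x513) x537) x489) x561) x579) x201) x1497) x1255) x1985)
  (add (sub (sub (sub (sub (sub (sub C x537) x521) x551) x587) x209) x1505) x1989)
  (sub (add (sub (sub (sub (sub (add (add (sub C x533) x513) x525) x555) x591) x213) x1509) x1267) x1997)
  (add (sub (sub (sub (sub (sub (sub C x547) x551) x509) x653) x221) x1517) x2001)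
  (sub (sub (sub (sub (sub (sub (sub C x545) x559) x511) x655) x223) x1519) x1275)
  (add (sub (sub (sub (sub (sub (sub C x555) x545) x533) x659) x227) x1523) x2007)
  (sub (add (sub (sub (sub (sub (sub (sub C x551) x561) x537) x663) x231) x1527) x1285) x2015)
  (sub (sub (sub (sub (add (add (sub (sub C x561) x547) x487) x523) x667) x235) x1531) x1287)
  (sub (add (sub (sub (sub (add (add (sub (sub C x559) x555) x489) x525) x669) x237) x1533) x1291) x2021)
  (sub (add (sub (sub (sub (add (add (add (add (add (add C x571) x575) x579) x591) x603) x639) x513) x405) x1539) x1297) x2027)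
  (sub (sub (sub (sub (add (add (sub (add (add C x567) x575) x577) x607) x643) x517) x409) x1543) x1299)
  (add (sub (sub (sub (add (add (sub (add (add C x567) x571) x587) x611) x647) x521) x413) x1547) x2031)
  (sub (sub (sub (sub (sub (sub (sub C x579) x571) x595) x523) x415) x1549) x1305)
  (sub (add (sub (sub (sub (sub (add (add (sub C x577) x567) x591) x597) x525) x417) x1551) x1309) x2039)
  (add (sub (sub (sub (sub (sub (sub C x591) x575) x623) x533) x425) x1559) x2043)
  (sub (add (sub (sub (sub (sub (add (add (sub C x587) x567) x579) x627) x537) x429) x1563) x1321) x2051)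
  (sub (sub (sub (add (add (sub (add (add (sub C x597) x607) x619) x577) x487) x703) x433) x1567) x1323)
  (sub (add (sub (sub (add (add (sub (sub (sub C x595) x603) x579) x489) x705) x435) x1569) x1327) x2057)
  (sub (add (sub (sub (add (add (add (add (sub (add (add C x607) x611) x597) x567) x639) x495) x711) x441) x1575) x1333) x2063)
  (sub (sub (sub (add (add (add (add (add (add (add (add C x603) x611) x595) x619) x571) x643) x499) x715) x445) x1579) x1335)
  (add (sub (sub (add (add (add (add (sub (add (add C x603) x607) x617) x575) x647) x503) x719) x449) x1583) x2067)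
  (add (sub (sub (add (add (sub (sub (sub C x619) x611) x635) x509) x725) x455) x1589) x2073)
  (sub (sub (sub (add (add (sub (add (add (sub C x617) x595) x607) x637) x511) x727) x457) x1591) x1347)
  (add (sub (sub (sub (sub (add (add (sub C x627) x635) x647) x587) x677) x461) x1595) x2079)
  (sub (add (sub (sub (sub (sub (sub (sub C x623) x639) x591) x681) x465) x1599) x1357) x2087)
  (add (sub (sub (sub (sub (add (add (sub C x637) x623) x647) x617) x689) x473) x1607) x2091)
  (sub (sub (sub (sub (sub (sub (sub C x635) x643) x619) x691) x475) x1609) x1365)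
  (sub (add (sub (sub (sub (add (add (sub (add (add C x643) x647) x627) x567) x603) x693) x477) x1611) x1369) x2099)
  (sub (sub (sub (sub (add (add (sub (add (add C x639) x647) x637) x571) x607) x697) x481) x1615) x1371)
  (add (sub (sub (sub (add (add (add (add (add (add C x639) x643) x623) x635) x575) x611) x701) x485) x1619) x2103)
  (add (sub (add (add (sub (add (add (sub (sub C x655) x659) x689) x725) x545) x5) x329) x1625) x2109)
  (sub (sub (add (add (sub (add (add (sub (sub C x653) x667) x691) x727) x547) x7) x331) x1627) x1383)
  (add (sub (add (add (sub (sub (sub (sub C x663) x653) x677) x551) x11) x335) x1631) x2115)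
  (sub (add (sub (add (add (sub (sub (sub (sub C x659) x669) x681) x555) x15) x339) x1635) x1393) x2123)
  (sub (sub (add (add (sub (sub (sub (sub C x669) x655) x703) x559) x19) x343) x1639) x1395)
  (sub (add (sub (add (add (sub (sub (sub (sub C x667) x663) x705) x561) x21) x345) x1641) x1399) x2129)
  (add (sub (add (add (sub (sub (add (add (sub C x681) x689) x701) x659) x623) x29) x353) x1649) x2133)
  (sub (add (sub (add (add (sub (sub (sub (sub C x677) x693) x663) x627) x33) x357) x1653) x1411) x2141)
  (add (sub (add (add (sub (add (add (add (add (sub C x691) x677) x701) x653) x725) x635) x41) x365) x1661) x2145)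
  (sub (sub (add (add (sub (add (add (sub (sub C x689) x697) x655) x727) x637) x43) x367) x1663) x1419)
  (sub (add (sub (add (add (sub (sub (sub (add (add C x697) x701) x681) x711) x639) x45) x369) x1665) x1423) x2153)
  (sub (sub (add (add (sub (sub (sub (add (add C x693) x701) x691) x715) x643) x49) x373) x1669) x1425)
  (add (sub (add (add (sub (sub (add (add (add (add C x693) x697) x677) x689) x719) x647) x53) x377) x1673) x2157)
  (sub (sub (add (add (add (add (sub (add (add (sub C x705) x715) x727) x667) x487) x595) x55) x379) x1675) x1431)
  (sub (add (sub (add (add (add (add (sub (sub (sub C x703) x711) x669) x489) x597) x57) x381) x1677) x1435) x2165)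
  (sub (add (sub (add (add (add (add (sub (sub (add (add C x715) x719) x705) x693) x495) x603) x63) x387) x1683) x1441) x2171)
  (sub (sub (add (add (add (add (sub (add (add (add (add C x711) x719) x703) x727) x697) x499) x607) x67) x391) x1687) x1443)
  (add (sub (add (add (add (add (sub (sub (add (add C x711) x715) x725) x701) x503) x611) x71) x395) x1691) x2175)
  (add (sub (add (add (add (add (add (add (sub (sub C x727) x719) x653) x689) x509) x617) x77) x401) x1697) x2181)
  (sub (sub (add (add (add (add (add (add (add (add (sub C x725) x703) x715) x655) x691) x511) x619) x79) x403) x1699) x1455)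
  (add (sub (add (add (add (add (add (add (add (add (sub C x735) x743) x755) x767) x803) x839) x947) x1055) x1379) x245) x1459)
  (sub (sub (add (add (add (add (add (add (sub (sub C x731) x747) x771) x807) x843) x951) x1059) x1383) x249) x7)
  (add (sub (add (add (add (add (sub (add (add (sub C x745) x731) x755) x761) x851) x959) x1067) x1391) x257) x1471)
  (sub (add (sub (add (add (add (add (sub (sub (sub C x743) x751) x763) x853) x961) x1069) x1393) x259) x15) x1475)
  (sub (sub (add (add (add (add (sub (sub (add (add C x751) x755) x735) x783) x855) x963) x1071) x1395) x261) x19)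
  (sub (add (sub (add (add (add (add (sub (sub (add (add C x747) x755) x745) x787) x859) x967) x1075) x1399) x265) x21) x1481)
  (add (sub (add (add (add (add (sub (add (add (add (add C x747) x751) x731) x743) x791) x863) x971) x1079) x1403) x269) x1483)
  (add (sub (add (add (sub (sub (sub (sub C x763) x767) x743) x815) x1085) x1409) x275) x1489)
  (sub (add (sub (add (add (sub (sub (sub (sub C x761) x775) x745) x817) x1087) x1411) x277) x33) x1493)
  (add (sub (add (add (sub (add (add (sub (sub C x771) x761) x731) x803) x821) x1091) x1415) x281) x1495)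
  (sub (sub (add (add (sub (add (add (sub (sub C x767) x777) x735) x807) x825) x1095) x1419) x285) x43)
  (sub (add (sub (add (add (sub (sub (sub (sub C x777) x763) x793) x829) x1099) x1423) x289) x45) x1505)
  (sub (sub (add (add (sub (sub (sub (sub C x775) x771) x795) x831) x1101) x1425) x291) x49)
  (sub (sub (add (add (sub (sub (add (add (add (add C x787) x791) x795) x807) x747) x891) x1107) x1431) x297) x55)
  (sub (add (sub (add (add (sub (sub (sub (add (add C x783) x791) x793) x751) x895) x1111) x1435) x301) x57) x1517)
  (add (sub (add (add (sub (sub (sub (add (add C x783) x787) x803) x755) x899) x1115) x1439) x305) x1519)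
  (sub (add (sub (add (add (sub (sub (sub (sub C x795) x787) x775) x901) x1117) x1441) x307) x63) x1523)
  (sub (sub (add (add (sub (sub (add (add (sub C x793) x783) x807) x777) x903) x1119) x1443) x309) x67)
  (add (sub (add (add (sub (add (add (sub (sub C x807) x791) x731) x767) x911) x1127) x1451) x317) x1531)
  (sub (sub (add (add (sub (add (add (add (add (sub C x803) x783) x795) x735) x771) x915) x1131) x1455) x321) x79)
  (add (sub (sub (sub (add (add (sub (sub C x817) x821) x851) x887) x761) x977) x329) x1543)
  (sub (add (sub (sub (sub (add (add (sub (sub C x815) x829) x853) x889) x763) x979) x331) x87) x1547)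
  (add (sub (sub (sub (sub (sub (sub C x825) x815) x839) x767) x983) x335) x1549)
  (sub (sub (sub (sub (sub (sub (sub C x821) x831) x843) x771) x987) x339) x97)
  (sub (add (sub (sub (sub (sub (sub (sub C x831) x817) x865) x775) x991) x343) x99) x1559)
  (sub (sub (sub (sub (sub (sub (sub C x829) x825) x867) x777) x993) x345) x103)
  (add (sub (sub (add (add (sub (add (add (sub C x843) x851) x863) x821) x731) x947) x1001) x353) x1567)
  (sub (sub (sub (add (add (sub (sub (sub C x839) x855) x825) x735) x951) x1005) x357) x115)
  (add (sub (sub (add (add (add (add (add (add (sub C x853) x839) x863) x815) x887) x743) x959) x1013) x365) x1579)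
  (sub (add (sub (sub (add (add (add (add (sub (sub C x851) x859) x817) x889) x745) x961) x1015) x367) x123) x1583)
  (sub (sub (sub (add (add (sub (sub (add (add C x859) x863) x843) x873) x747) x963) x1017) x369) x127)
  (sub (add (sub (sub (add (add (sub (sub (add (add C x855) x863) x853) x877) x751) x967) x1021) x373) x129) x1589)
  (add (sub (sub (add (add (sub (add (add (add (add C x855) x859) x839) x851) x881) x755) x971) x1025) x377) x1591)
  (sub (add (sub (sub (sub (sub (add (add (sub C x867) x877) x889) x829) x919) x1027) x379) x135) x1595)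
  (sub (sub (sub (sub (sub (sub (sub C x865) x873) x831) x921) x1029) x381) x139)
  (sub (sub (sub (sub (sub (sub (add (add C x877) x881) x867) x855) x927) x1035) x387) x145)
  (sub (add (sub (sub (sub (sub (add (add (add (add C x873) x881) x865) x889) x859) x931) x1039) x391) x147) x1607)
  (add (sub (sub (sub (sub (sub (add (add C x873) x877) x887) x863) x935) x1043) x395) x1609)
  (add (sub (sub (sub (add (add (sub (sub C x889) x881) x815) x851) x941) x1049) x401) x1615)
  (sub (add (sub (sub (sub (add (add (add (add (sub C x887) x865) x877) x817) x853) x943) x1051) x403) x159) x1619)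
  (sub (sub (sub (sub (add (add (add (add (add (add C x895) x899) x903) x915) x927) x963) x783) x1215) x405) x163)
  (sub (add (sub (sub (sub (add (add (sub (add (add C x891) x899) x901) x931) x967) x787) x1219) x409) x165) x1625)
  (add (sub (sub (sub (add (add (sub (add (add C x891) x895) x911) x935) x971) x791) x1223) x413) x1627)
  (sub (add (sub (sub (sub (sub (sub (sub C x903) x895) x919) x793) x1225) x415) x171) x1631)
  (sub (sub (sub (sub (sub (add (add (sub C x901) x891) x915) x921) x795) x1227) x417) x175)
  (add (sub (sub (sub (sub (sub (sub C x915) x899) x947) x803) x1235) x425) x1639)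
  (sub (sub (sub (sub (sub (add (add (sub C x911) x891) x903) x951) x807) x1239) x429) x187)
  (sub (add (sub (sub (sub (sub (add (add (sub C x921) x931) x943) x901) x865) x1243) x433) x189) x1649)
  (sub (sub (sub (sub (sub (sub (sub C x919) x927) x903) x867) x1245) x435) x193)
  (sub (sub (sub (sub (add (add (sub (add (add C x931) x935) x921) x891) x963) x873) x1251) x441) x199)
  (sub (add (sub (sub (sub (add (add (add (add (add (add C x927) x935) x919) x943) x895) x967) x877) x1255) x445) x201) x1661)
  (add (sub (sub (sub (add (add (sub (add (add C x927) x931) x941) x899) x971) x881) x1259) x449) x1663)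
  (add (sub (sub (sub (sub (sub (sub C x943) x935) x959) x887) x1265) x455) x1669)
  (sub (add (sub (sub (sub (sub (add (add (sub C x941) x919) x931) x961) x889) x1267) x457) x213) x1673)
  (add (sub (sub (add (add (sub (add (add (sub C x951) x959) x971) x911) x731) x839) x1271) x461) x1675)
  (sub (sub (sub (add (add (sub (sub (sub C x947) x963) x915) x735) x843) x1275) x465) x223)
  (add (sub (sub (add (add (sub (add (add (sub C x961) x947) x971) x941) x743) x851) x1283) x473) x1687)
  (sub (add (sub (sub (add (add (sub (sub (sub C x959) x967) x943) x745) x853) x1285) x475) x231) x1691)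
  (sub (sub (sub (add (add (add (add (sub (add (add C x967) x971) x951) x891) x927) x747) x855) x1287) x477) x235)
  (sub (add (sub (sub (add (add (add (add (sub (add (add C x963) x971) x961) x895) x931) x751) x859) x1291) x481) x237) x1697)
  (add (sub (sub (add (add (add (add (add (add (add (add C x963) x967) x947) x959) x899) x935) x755) x863) x1295) x485) x1699)
  (add (add (add (sub (add (add (add (add (sub (sub C x979) x983) x1013) x1049) x1085) x1193) x815) x5) x1949) x1705)
  (sub (add (add (add (sub (add (add (add (add (sub (sub C x977) x991) x1015) x1051) x1087) x1195) x817) x7) x1951) x249) x1709)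
  (add (add (add (sub (add (add (sub (sub (sub C x987) x977) x1001) x1091) x1199) x821) x11) x1955) x1711)
  (sub (add (add (sub (add (add (sub (sub (sub C x983) x993) x1005) x1095) x1203) x825) x15) x1959) x259)
  (sub (add (add (add (sub (add (add (sub (sub (sub C x993) x979) x1027) x1099) x1207) x829) x19) x1963) x261) x1721)
  (sub (add (add (sub (add (add (sub (sub (sub C x991) x987) x1029) x1101) x1209) x831) x21) x1965) x265)
  (add (add (add (sub (sub (sub (add (add (sub C x1005) x1013) x1025) x983) x1055) x839) x29) x1973) x1729)
  (sub (add (add (sub (sub (sub (sub (sub C x1001) x1017) x987) x1059) x843) x33) x1977) x277)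
  (add (add (add (sub (sub (add (add (add (add (sub C x1015) x1001) x1025) x977) x1049) x1067) x851) x41) x1985) x1741)
  (sub (add (add (add (sub (sub (add (add (sub (sub C x1013) x1021) x979) x1051) x1069) x853) x43) x1987) x285) x1745)
  (sub (add (add (sub (sub (sub (sub (add (add C x1021) x1025) x1005) x1035) x1071) x855) x45) x1989) x289)
  (sub (add (add (add (sub (sub (sub (sub (add (add C x1017) x1025) x1015) x1039) x1075) x859) x49) x1993) x291) x1751)
  (add (add (add (sub (sub (sub (add (add (add (add C x1017) x1021) x1001) x1013) x1043) x1079) x863) x53) x1997) x1753)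
  (sub (add (add (add (sub (sub (sub (add (add (sub C x1029) x1039) x1051) x991) x1135) x865) x55) x1999) x297) x1757)
  (sub (add (add (sub (sub (sub (sub (sub C x1027) x1035) x993) x1137) x867) x57) x2001) x301)
  (sub (add (add (sub (sub (sub (sub (add (add C x1039) x1043) x1029) x1017) x1143) x873) x63) x2007) x307)
  (sub (add (add (add (sub (sub (sub (add (add (add (add C x1035) x1043) x1027) x1051) x1021) x1147) x877) x67) x2011) x309) x1769)
  (add (add (add (sub (sub (sub (sub (add (add C x1035) x1039) x1049) x1025) x1151) x881) x71) x2015) x1771)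
  (add (add (add (sub (sub (add (add (sub (sub C x1051) x1043) x977) x1013) x1157) x887) x77) x2021) x1777)
  (sub (add (add (add (sub (sub (add (add (add (add (sub C x1049) x1027) x1039) x979) x1015) x1159) x889) x79) x2023) x321) x1781)
  (add (add (add (add (add (sub (add (add (add (add (sub C x1059) x1067) x1079) x1091) x1127) x1001) x731) x1379) x83) x2027) x1783)
  (sub (add (add (add (add (sub (add (add (sub (sub C x1055) x1071) x1095) x1131) x1005) x735) x1383) x87) x2031) x331)
  (add (add (add (add (add (sub (sub (add (add (sub C x1069) x1055) x1079) x1085) x1013) x743) x1391) x95) x2039) x1795)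
  (sub (add (add (add (add (add (sub (sub (sub (sub C x1067) x1075) x1087) x1015) x745) x1393) x97) x2041) x339) x1799)
  (sub (add (add (add (add (sub (sub (sub (add (add C x1075) x1079) x1059) x1107) x1017) x747) x1395) x99) x2043) x343)
  (sub (add (add (add (add (add (sub (sub (sub (add (add C x1071) x1079) x1069) x1111) x1021) x751) x1399) x103) x2047) x345) x1805)
  (add (add (add (add (add (sub (sub (add (add (add (add C x1071) x1075) x1055) x1067) x1115) x1025) x755) x1403) x107) x2051) x1807)
  (add (add (add (add (add (add (add (sub (sub (sub C x1087) x1091) x1067) x977) x1193) x761) x1409) x113) x2057) x1813)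
  (sub (add (add (add (add (add (add (add (sub (sub (sub C x1085) x1099) x1069) x979) x1195) x763) x1411) x115) x2059) x357) x1817)
  (add (add (add (add (add (add (add (add (add (sub (sub C x1095) x1085) x1055) x1127) x983) x1199) x767) x1415) x119) x2063) x1819)
  (sub (add (add (add (add (add (add (add (add (sub (sub C x1091) x1101) x1059) x1131) x987) x1203) x771) x1419) x123) x2067) x367)
  (sub (add (add (add (add (add (add (add (sub (sub (sub C x1101) x1087) x1117) x991) x1207) x775) x1423) x127) x2071) x369) x1829)
  (sub (add (add (add (add (add (add (sub (sub (sub C x1099) x1095) x1119) x993) x1209) x777) x1425) x129) x2073) x373)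
  (sub (add (add (add (add (sub (sub (add (add (add (add C x1111) x1115) x1119) x1131) x1071) x1161) x783) x1431) x135) x2079) x379)
  (sub (add (add (add (add (add (sub (sub (sub (add (add C x1107) x1115) x1117) x1075) x1165) x787) x1435) x139) x2083) x381) x1841)
  (add (add (add (add (add (sub (sub (sub (add (add C x1107) x1111) x1127) x1079) x1169) x791) x1439) x143) x2087) x1843)
  (sub (add (add (add (add (add (sub (sub (sub (sub C x1119) x1111) x1099) x1171) x793) x1441) x145) x2089) x387) x1847)
  (sub (add (add (add (add (sub (sub (add (add (sub C x1117) x1107) x1131) x1101) x1173) x795) x1443) x147) x2091) x391)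
  (add (add (add (add (add (sub (add (add (sub (sub C x1131) x1115) x1055) x1091) x1181) x803) x1451) x155) x2099) x1855)
  (sub (add (add (add (add (sub (add (add (add (add (sub C x1127) x1107) x1119) x1059) x1095) x1185) x807) x1455) x159) x2103) x403)
  (sub (add (add (add (sub (sub (add (add (add (add (sub C x1137) x1147) x1159) x1171) x1207) x1027) x1297) x163) x2107) x405) x1865)
  (sub (add (add (sub (sub (add (add (sub (sub C x1135) x1143) x1173) x1209) x1029) x1299) x165) x2109) x409)
  (sub (add (add (sub (sub (sub (sub (add (add C x1147) x1151) x1137) x1161) x1035) x1305) x171) x2115) x415)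
  (sub (add (add (add (sub (sub (sub (add (add (add (add C x1143) x1151) x1135) x1159) x1165) x1039) x1309) x175) x2119) x417) x1877)
  (add (add (add (sub (sub (sub (sub (add (add C x1143) x1147) x1157) x1169) x1043) x1313) x179) x2123) x1879)
  (add (add (add (sub (sub (sub (sub (sub C x1159) x1151) x1193) x1049) x1319) x185) x2129) x1885)
  (sub (add (add (add (sub (sub (sub (add (add (sub C x1157) x1135) x1147) x1195) x1051) x1321) x187) x2131) x429) x1889)
  (sub (add (add (sub (sub (sub (add (add (add (add C x1165) x1169) x1173) x1185) x1143) x1107) x1323) x189) x2133) x433)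
  (sub (add (add (add (sub (sub (sub (sub (add (add C x1161) x1169) x1171) x1147) x1111) x1327) x193) x2137) x435) x1895)
  (add (add (add (sub (sub (sub (sub (add (add C x1161) x1165) x1181) x1151) x1115) x1331) x197) x2141) x1897)
  (sub (add (add (add (sub (sub (add (add (sub (sub C x1173) x1165) x1135) x1207) x1117) x1333) x199) x2143) x441) x1901)
  (sub (add (add (sub (sub (add (add (add (add (sub C x1171) x1161) x1185) x1137) x1209) x1119) x1335) x201) x2145) x445)
  (add (add (add (sub (sub (sub (sub (sub C x1185) x1169) x1199) x1127) x1343) x209) x2153) x1909)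
  (sub (add (add (sub (sub (sub (add (add (sub C x1181) x1161) x1173) x1203) x1131) x1347) x213) x2157) x457)
  (add (add (add (sub (add (add (sub (sub (sub C x1195) x1199) x1157) x977) x1085) x1355) x221) x2165) x1921)
  (sub (add (add (add (sub (add (add (sub (sub (sub C x1193) x1207) x1159) x979) x1087) x1357) x223) x2167) x465) x1925)
  (add (add (add (sub (add (add (sub (sub (sub C x1203) x1193) x1181) x983) x1091) x1361) x227) x2171) x1927)
  (sub (add (add (sub (add (add (sub (sub (sub C x1199) x1209) x1185) x987) x1095) x1365) x231) x2175) x475)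
  (sub (add (add (add (sub (add (add (add (add (sub (sub C x1209) x1195) x1135) x1171) x991) x1099) x1369) x235) x2179) x477) x1937)
  (sub (add (add (sub (add (add (add (add (sub (sub C x1207) x1203) x1137) x1173) x993) x1101) x1371) x237) x2181) x481)
  (sub (sub (sub (add (add (add (add (add (add (add (add C x1219) x1223) x1227) x1239) x1251) x1287) x1323) x1431) x891) x1701) x487)
  (sub (add (sub (sub (add (add (add (add (sub (add (add C x1215) x1223) x1225) x1255) x1291) x1327) x1435) x895) x1705) x489) x1949)
  (add (sub (sub (add (add (add (add (sub (add (add C x1215) x1219) x1235) x1259) x1295) x1331) x1439) x899) x1709) x1951)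
  (sub (add (sub (sub (add (add (sub (sub (sub C x1227) x1219) x1243) x1333) x1441) x901) x1711) x495) x1955)
  (sub (sub (sub (add (add (sub (add (add (sub C x1225) x1215) x1239) x1245) x1335) x1443) x903) x1713) x499)
  (add (sub (sub (add (add (sub (sub (sub C x1239) x1223) x1271) x1343) x1451) x911) x1721) x1963)
  (sub (sub (sub (add (add (sub (add (add (sub C x1235) x1215) x1227) x1275) x1347) x1455) x915) x1725) x511)
  (sub (add (sub (sub (sub (sub (add (add (sub C x1245) x1255) x1267) x1225) x1297) x919) x1729) x513) x1973)
  (sub (sub (sub (sub (sub (sub (sub C x1243) x1251) x1227) x1299) x921) x1731) x517)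
  (sub (sub (sub (sub (add (add (sub (add (add C x1255) x1259) x1245) x1215) x1287) x1305) x927) x1737) x523)
  (sub (add (sub (sub (sub (add (add (add (add (add (add C x1251) x1259) x1243) x1267) x1219) x1291) x1309) x931) x1741) x525) x1985)
  (add (sub (sub (sub (add (add (sub (add (add C x1251) x1255) x1265) x1223) x1295) x1313) x935) x1745) x1987)
  (add (sub (sub (sub (sub (sub (sub C x1267) x1259) x1283) x1319) x941) x1751) x1993)
  (sub (add (sub (sub (sub (sub (add (add (sub C x1265) x1243) x1255) x1285) x1321) x943) x1753) x537) x1997)
  (add (sub (sub (sub (sub (add (add (sub C x1275) x1283) x1295) x1235) x1379) x947) x1757) x1999)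
  (sub (sub (sub (sub (sub (sub (sub C x1271) x1287) x1239) x1383) x951) x1761) x547)
  (add (sub (sub (sub (sub (add (add (sub C x1285) x1271) x1295) x1265) x1391) x959) x1769) x2011)
  (sub (add (sub (sub (sub (sub (sub (sub C x1283) x1291) x1267) x1393) x961) x1771) x555) x2015)
  (sub (sub (sub (sub (add (add (sub (add (add C x1291) x1295) x1275) x1215) x1251) x1395) x963) x1773) x559)
  (sub (add (sub (sub (sub (add (add (sub (add (add C x1287) x1295) x1285) x1219) x1255) x1399) x967) x1777) x561) x2021)
  (add (sub (sub (sub (add (add (add (add (add (add C x1287) x1291) x1271) x1283) x1223) x1259) x1403) x971) x1781) x2023)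
  (sub (add (sub (sub (sub (add (add (add (add (sub C x1299) x1309) x1321) x1333) x1369) x1243) x1135) x1783) x567) x2027)
  (sub (sub (sub (sub (add (add (sub (sub C x1297) x1305) x1335) x1371) x1245) x1137) x1785) x571)
  (sub (sub (sub (sub (sub (sub (add (add C x1309) x1313) x1299) x1323) x1251) x1143) x1791) x577)
  (sub (add (sub (sub (sub (sub (add (add (add (add C x1305) x1313) x1297) x1321) x1327) x1255) x1147) x1795) x579) x2039)
  (add (sub (sub (sub (sub (sub (add (add C x1305) x1309) x1319) x1331) x1259) x1151) x1799) x2041)
  (add (sub (sub (sub (sub (sub (sub C x1321) x1313) x1355) x1265) x1157) x1805) x2047)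
  (sub (add (sub (sub (sub (sub (add (add (sub C x1319) x1297) x1309) x1357) x1267) x1159) x1807) x591) x2051)
  (sub (sub (sub (add (add (sub (add (add (add (add C x1327) x1331) x1335) x1347) x1305) x1215) x1431) x1161) x1809) x595)
  (sub (add (sub (sub (add (add (sub (sub (add (add C x1323) x1331) x1333) x1309) x1219) x1435) x1165) x1813) x597) x2057)
  (add (sub (sub (add (add (sub (sub (add (add C x1323) x1327) x1343) x1313) x1223) x1439) x1169) x1817) x2059)
  (sub (add (sub (sub (add (add (add (add (sub (sub C x1335) x1327) x1297) x1369) x1225) x1441) x1171) x1819) x603) x2063)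
  (sub (sub (sub (add (add (add (add (add (add (sub C x1333) x1323) x1347) x1299) x1371) x1227) x1443) x1173) x1821) x607)
  (add (sub (sub (add (add (sub (sub (sub C x1347) x1331) x1361) x1235) x1451) x1181) x1829) x2071)
  (sub (sub (sub (add (add (sub (add (add (sub C x1343) x1323) x1335) x1365) x1239) x1455) x1185) x1833) x619)
  (add (sub (sub (sub (sub (sub (sub C x1357) x1361) x1319) x1409) x1193) x1841) x2083)
  (sub (add (sub (sub (sub (sub (sub (sub C x1355) x1369) x1321) x1411) x1195) x1843) x627) x2087)
  (add (sub (sub (sub (sub (sub (sub C x1365) x1355) x1343) x1415) x1199) x1847) x2089)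
  (sub (sub (sub (sub (sub (sub (sub C x1361) x1371) x1347) x1419) x1203) x1851) x637)
  (sub (add (sub (sub (sub (add (add (sub (sub C x1371) x1357) x1297) x1333) x1423) x1207) x1855) x639) x2099)
  (sub (sub (sub (sub (add (add (sub (sub C x1369) x1365) x1299) x1335) x1425) x1209) x1857) x643)
  (add (sub (add (add (sub (add (add (add (add (sub C x1383) x1391) x1403) x1415) x1451) x1271) x731) x1055) x1865) x2107)
  (sub (sub (add (add (sub (add (add (sub (sub C x1379) x1395) x1419) x1455) x1275) x735) x1059) x1869) x655)
  (add (sub (add (add (sub (sub (add (add (sub C x1393) x1379) x1403) x1409) x1283) x743) x1067) x1877) x2119)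
  (sub (add (sub (add (add (sub (sub (sub (sub C x1391) x1399) x1411) x1285) x745) x1069) x1879) x663) x2123)
  (sub (sub (add (add (sub (sub (sub (add (add C x1399) x1403) x1383) x1431) x1287) x747) x1071) x1881) x667)
  (sub (add (sub (add (add (sub (sub (sub (add (add C x1395) x1403) x1393) x1435) x1291) x751) x1075) x1885) x669) x2129)
  (add (sub (add (add (sub (sub (add (add (add (add C x1395) x1399) x1379) x1391) x1439) x1295) x755) x1079) x1889) x2131)
  (add (sub (add (add (sub (sub (sub (sub C x1411) x1415) x1391) x1355) x761) x1085) x1895) x2137)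
  (sub (add (sub (add (add (sub (sub (sub (sub C x1409) x1423) x1393) x1357) x763) x1087) x1897) x681) x2141)
  (add (sub (add (add (sub (add (add (sub (sub C x1419) x1409) x1379) x1451) x1361) x767) x1091) x1901) x2143)
  (sub (sub (add (add (sub (add (add (sub (sub C x1415) x1425) x1383) x1455) x1365) x771) x1095) x1905) x691)
  (sub (add (sub (add (add (sub (sub (sub (sub C x1425) x1411) x1441) x1369) x775) x1099) x1909) x693) x2153)
  (sub (sub (add (add (sub (sub (sub (sub C x1423) x1419) x1443) x1371) x777) x1101) x1911) x697)
  (sub (sub (add (add (add (add (sub (add (add (add (add C x1435) x1439) x1443) x1455) x1395) x1215) x1323) x783) x1107) x1917) x703)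
  (sub (add (sub (add (add (add (add (sub (sub (add (add C x1431) x1439) x1441) x1399) x1219) x1327) x787) x1111) x1921) x705) x2165)
  (add (sub (add (add (add (add (sub (sub (add (add C x1431) x1435) x1451) x1403) x1223) x1331) x791) x1115) x1925) x2167)
  (sub (add (sub (add (add (add (add (sub (sub (sub C x1443) x1435) x1423) x1225) x1333) x793) x1117) x1927) x711) x2171)
  (sub (sub (add (add (add (add (sub (add (add (sub C x1441) x1431) x1455) x1425) x1227) x1335) x795) x1119) x1929) x715)
  (add (sub (add (add (add (add (add (add (sub (sub C x1455) x1439) x1379) x1415) x1235) x1343) x803) x1127) x1937) x2179)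
  (sub (sub (add (add (add (add (add (add (add (add (sub C x1451) x1431) x1443) x1383) x1419) x1239) x1347) x807) x1131) x1941) x727)
  (add (sub (add (add (add (add (add (add (add (add (sub C x1461) x1471) x1483) x1495) x1531) x1567) x1675) x1783) x2107) x487) x731)
  (add (sub (add (add (add (add (add (add (sub (sub C x1459) x1467) x1497) x1533) x1569) x1677) x1785) x2109) x489) x5)
  (add (sub (add (add (add (add (sub (sub (add (add C x1471) x1475) x1461) x1485) x1575) x1683) x1791) x2115) x495) x11)
  (add (sub (add (add (add (add (sub (add (add (add (add C x1467) x1475) x1459) x1483) x1489) x1579) x1687) x1795) x2119) x499) x743)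
  (sub (sub (sub (add (add (add (add (sub (sub (add (add C x1467) x1471) x1481) x1493) x1583) x1691) x1799) x2123) x503) x15) x745)
  (sub (sub (sub (add (add (add (add (sub (sub (sub C x1483) x1475) x1517) x1589) x1697) x1805) x2129) x509) x21) x751)
  (add (sub (add (add (add (add (sub (add (add (sub C x1481) x1459) x1471) x1519) x1591) x1699) x1807) x2131) x511) x755)
  (add (sub (add (add (sub (sub (add (add (add (add C x1489) x1493) x1497) x1509) x1467) x1539) x1809) x2133) x513) x29)
  (add (sub (add (add (sub (sub (sub (add (add C x1485) x1493) x1495) x1471) x1543) x1813) x2137) x517) x761)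
  (sub (sub (sub (add (add (sub (sub (sub (add (add C x1485) x1489) x1505) x1475) x1547) x1817) x2141) x521) x33) x763)
  (add (sub (add (add (sub (add (add (sub (sub C x1497) x1489) x1459) x1531) x1549) x1819) x2143) x523) x767)
  (add (sub (add (add (sub (add (add (add (add (sub C x1495) x1485) x1509) x1461) x1533) x1551) x1821) x2145) x525) x41)
  (sub (sub (sub (add (add (sub (sub (sub (sub C x1509) x1493) x1523) x1559) x1829) x2153) x533) x45) x775)
  (add (sub (add (add (sub (sub (add (add (sub C x1505) x1485) x1497) x1527) x1563) x1833) x2157) x537) x53)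
  (sub (sub (sub (add (add (sub (sub (sub (sub C x1519) x1523) x1481) x1625) x1841) x2165) x545) x57) x787)
  (add (sub (add (add (sub (sub (sub (sub C x1517) x1531) x1483) x1627) x1843) x2167) x547) x791)
  (sub (sub (sub (add (add (sub (sub (sub (sub C x1527) x1517) x1505) x1631) x1847) x2171) x551) x63) x793)
  (add (sub (add (add (sub (sub (sub (sub C x1523) x1533) x1509) x1635) x1851) x2175) x555) x71)
  (add (sub (add (add (sub (add (add (sub (sub C x1533) x1519) x1459) x1495) x1639) x1855) x2179) x559) x803)
  (add (sub (add (add (sub (add (add (sub (sub C x1531) x1527) x1461) x1497) x1641) x1857) x2181) x561) x77)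
  (add (sub (sub (sub (add (add (add (add (add (add C x1543) x1547) x1551) x1563) x1575) x1611) x1485) x1701) x567) x83)
  (add (sub (sub (sub (add (add (sub (add (add C x1539) x1547) x1549) x1579) x1615) x1489) x1705) x571) x815)
  (sub (sub (sub (sub (sub (add (add (sub (add (add C x1539) x1543) x1559) x1583) x1619) x1493) x1709) x575) x87) x817)
  (add (sub (sub (sub (sub (sub (sub C x1551) x1543) x1567) x1495) x1711) x577) x821)
  (add (sub (sub (sub (sub (add (add (sub C x1549) x1539) x1563) x1569) x1497) x1713) x579) x95)
  (sub (sub (sub (sub (sub (sub (sub (sub C x1563) x1547) x1595) x1505) x1721) x587) x99) x829)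
  (add (sub (sub (sub (sub (add (add (sub C x1559) x1539) x1551) x1599) x1509) x1725) x591) x107)
  (add (sub (sub (add (add (sub (add (add (sub C x1569) x1579) x1591) x1549) x1459) x1675) x1729) x595) x839)
  (add (sub (sub (add (add (sub (sub (sub C x1567) x1575) x1551) x1461) x1677) x1731) x597) x113)
  (add (sub (sub (add (add (add (add (sub (add (add C x1579) x1583) x1569) x1539) x1611) x1467) x1683) x1737) x603) x119)
  (add (sub (sub (add (add (add (add (add (add (add (add C x1575) x1583) x1567) x1591) x1543) x1615) x1471) x1687) x1741) x607) x851)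
  (sub (sub (sub (sub (add (add (add (add (sub (add (add C x1575) x1579) x1589) x1547) x1619) x1475) x1691) x1745) x611) x123) x853)
  (sub (sub (sub (sub (add (add (sub (sub (sub C x1591) x1583) x1607) x1481) x1697) x1751) x617) x129) x859)
  (add (sub (sub (add (add (sub (add (add (sub C x1589) x1567) x1579) x1609) x1483) x1699) x1753) x619) x863)
  (sub (sub (sub (sub (sub (sub (add (add (sub C x1599) x1607) x1619) x1559) x1649) x1757) x623) x135) x865)
  (add (sub (sub (sub (sub (sub (sub C x1595) x1611) x1563) x1653) x1761) x627) x143)
  (sub (sub (sub (sub (sub (sub (add (add (sub C x1609) x1595) x1619) x1589) x1661) x1769) x635) x147) x877)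
  (add (sub (sub (sub (sub (sub (sub C x1607) x1615) x1591) x1663) x1771) x637) x881)
  (add (sub (sub (sub (add (add (sub (add (add C x1615) x1619) x1599) x1539) x1575) x1665) x1773) x639) x155)
  (add (sub (sub (sub (add (add (sub (add (add C x1611) x1619) x1609) x1543) x1579) x1669) x1777) x643) x887)
  (sub (sub (sub (sub (sub (add (add (add (add (add (add C x1611) x1615) x1595) x1607) x1547) x1583) x1673) x1781) x647) x159) x889)
  (sub (sub (sub (sub (sub (add (add (sub (sub C x1627) x1631) x1661) x1697) x1517) x1949) x653) x165) x895)
  (add (sub (sub (sub (add (add (sub (sub C x1625) x1639) x1663) x1699) x1519) x1951) x655) x899)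
  (sub (sub (sub (sub (sub (sub (sub (sub C x1635) x1625) x1649) x1523) x1955) x659) x171) x901)
  (add (sub (sub (sub (sub (sub (sub C x1631) x1641) x1653) x1527) x1959) x663) x179)
  (add (sub (sub (sub (sub (sub (sub C x1641) x1627) x1675) x1531) x1963) x667) x911)
  (add (sub (sub (sub (sub (sub (sub C x1639) x1635) x1677) x1533) x1965) x669) x185)
  (sub (sub (sub (sub (sub (sub (add (add (sub C x1653) x1661) x1673) x1631) x1595) x1973) x677) x189) x919)
  (add (sub (sub (sub (sub (sub (sub C x1649) x1665) x1635) x1599) x1977) x681) x197)
  (sub (sub (sub (sub (sub (add (add (add (add (sub C x1663) x1649) x1673) x1625) x1697) x1607) x1985) x689) x201) x931)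
  (add (sub (sub (sub (add (add (sub (sub C x1661) x1669) x1627) x1699) x1609) x1987) x691) x935)
  (add (sub (sub (sub (sub (sub (add (add C x1669) x1673) x1653) x1683) x1611) x1989) x693) x209)
  (add (sub (sub (sub (sub (sub (add (add C x1665) x1673) x1663) x1687) x1615) x1993) x697) x941)
  (sub (sub (sub (sub (sub (sub (add (add (add (add C x1665) x1669) x1649) x1661) x1691) x1619) x1997) x701) x213) x943)
  (add (sub (sub (add (add (sub (add (add (sub C x1677) x1687) x1699) x1639) x1459) x1567) x1999) x703) x947)
  (add (sub (sub (add (add (sub (sub (sub C x1675) x1683) x1641) x1461) x1569) x2001) x705) x221)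
  (add (sub (sub (add (add (sub (sub (add (add C x1687) x1691) x1677) x1665) x1467) x1575) x2007) x711) x227)
  (add (sub (sub (add (add (sub (add (add (add (add C x1683) x1691) x1675) x1699) x1669) x1471) x1579) x2011) x715) x959)
  (sub (sub (sub (sub (add (add (sub (sub (add (add C x1683) x1687) x1697) x1673) x1475) x1583) x2015) x719) x231) x961)
  (sub (sub (sub (sub (add (add (add (add (sub (sub C x1699) x1691) x1625) x1661) x1481) x1589) x2021) x725) x237) x967)
  (add (sub (sub (add (add (add (add (add (add (sub C x1697) x1675) x1687) x1627) x1663) x1483) x1591) x2023) x727) x971)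
  (add (sub (sub (add (add (add (add (add (add (add (add C x1705) x1709) x1713) x1725) x1737) x1773) x1809) x1917) x1539) x1215) x245)
  (add (sub (sub (add (add (add (add (sub (add (add C x1701) x1709) x1711) x1741) x1777) x1813) x1921) x1543) x1219) x977)
  (sub (sub (sub (sub (add (add (add (add (sub (add (add C x1701) x1705) x1721) x1745) x1781) x1817) x1925) x1547) x1223) x249) x979)
  (add (sub (sub (add (add (sub (sub (sub C x1713) x1705) x1729) x1819) x1927) x1549) x1225) x983)
  (add (sub (sub (add (add (sub (add (add (sub C x1711) x1701) x1725) x1731) x1821) x1929) x1551) x1227) x257)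
  (sub (sub (sub (sub (add (add (sub (sub (sub C x1725) x1709) x1757) x1829) x1937) x1559) x1235) x261) x991)
  (add (sub (sub (add (add (sub (add (add (sub C x1721) x1701) x1713) x1761) x1833) x1941) x1563) x1239) x269)
  (add (sub (sub (sub (sub (add (add (sub C x1731) x1741) x1753) x1711) x1783) x1567) x1243) x1001)
  (add (sub (sub (sub (sub (sub (sub C x1729) x1737) x1713) x1785) x1569) x1245) x275)
  (add (sub (sub (sub (add (add (sub (add (add C x1741) x1745) x1731) x1701) x1773) x1791) x1575) x1251) x281)
  (add (sub (sub (sub (add (add (add (add (add (add C x1737) x1745) x1729) x1753) x1705) x1777) x1795) x1579) x1255) x1013)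
  (sub (sub (sub (sub (sub (add (add (sub (add (add C x1737) x1741) x1751) x1709) x1781) x1799) x1583) x1259) x285) x1015)
  (sub (sub (sub (sub (sub (sub (sub (sub C x1753) x1745) x1769) x1805) x1589) x1265) x291) x1021)
  (add (sub (sub (sub (sub (add (add (sub C x1751) x1729) x1741) x1771) x1807) x1591) x1267) x1025)
  (sub (sub (sub (sub (sub (sub (add (add (sub C x1761) x1769) x1781) x1721) x1865) x1595) x1271) x297) x1027)
  (add (sub (sub (sub (sub (sub (sub C x1757) x1773) x1725) x1869) x1599) x1275) x305)
  (sub (sub (sub (sub (sub (sub (add (add (sub C x1771) x1757) x1781) x1751) x1877) x1607) x1283) x309) x1039)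
  (add (sub (sub (sub (sub (sub (sub C x1769) x1777) x1753) x1879) x1609) x1285) x1043)
  (add (sub (sub (sub (add (add (sub (add (add C x1777) x1781) x1761) x1701) x1737) x1881) x1611) x1287) x317)
  (add (sub (sub (sub (add (add (sub (add (add C x1773) x1781) x1771) x1705) x1741) x1885) x1615) x1291) x1049)
  (sub (sub (sub (sub (sub (add (add (add (add (add (add C x1773) x1777) x1757) x1769) x1709) x1745) x1889) x1619) x1295) x321) x1051)
  (add (sub (add (add (sub (add (add (add (add (sub C x1785) x1795) x1807) x1819) x1855) x1729) x1459) x2107) x1297) x1055)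
  (add (sub (add (add (sub (add (add (sub (sub C x1783) x1791) x1821) x1857) x1731) x1461) x2109) x1299) x329)
  (add (sub (add (add (sub (sub (sub (add (add C x1795) x1799) x1785) x1809) x1737) x1467) x2115) x1305) x335)
  (add (sub (add (add (sub (sub (add (add (add (add C x1791) x1799) x1783) x1807) x1813) x1741) x1471) x2119) x1309) x1067)
  (sub (sub (sub (add (add (sub (sub (sub (add (add C x1791) x1795) x1805) x1817) x1745) x1475) x2123) x1313) x339) x1069)
  (sub (sub (sub (add (add (sub (sub (sub (sub C x1807) x1799) x1841) x1751) x1481) x2129) x1319) x345) x1075)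
  (add (sub (add (add (sub (sub (add (add (sub C x1805) x1783) x1795) x1843) x1753) x1483) x2131) x1321) x1079)
  (add (sub (add (add (add (add (sub (add (add (add (add C x1813) x1817) x1821) x1833) x1791) x1701) x1917) x1485) x2133) x1323) x353)
  (add (sub (add (add (add (add (sub (sub (add (add C x1809) x1817) x1819) x1795) x1705) x1921) x1489) x2137) x1327) x1085)
  (sub (sub (sub (add (add (add (add (sub (sub (add (add C x1809) x1813) x1829) x1799) x1709) x1925) x1493) x2141) x1331) x357) x1087)
  (add (sub (add (add (add (add (add (add (sub (sub C x1821) x1813) x1783) x1855) x1711) x1927) x1495) x2143) x1333) x1091)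
  (add (sub (add (add (add (add (add (add (add (add (sub C x1819) x1809) x1833) x1785) x1857) x1713) x1929) x1497) x2145) x1335) x365)
  (sub (sub (sub (add (add (add (add (sub (sub (sub C x1833) x1817) x1847) x1721) x1937) x1505) x2153) x1343) x369) x1099)
  (add (sub (add (add (add (add (sub (add (add (sub C x1829) x1809) x1821) x1851) x1725) x1941) x1509) x2157) x1347) x377)
  (sub (sub (sub (add (add (sub (sub (sub (sub C x1843) x1847) x1805) x1895) x1517) x2165) x1355) x381) x1111)
  (add (sub (add (add (sub (sub (sub (sub C x1841) x1855) x1807) x1897) x1519) x2167) x1357) x1115)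
  (sub (sub (sub (add (add (sub (sub (sub (sub C x1851) x1841) x1829) x1901) x1523) x2171) x1361) x387) x1117)
  (add (sub (add (add (sub (sub (sub (sub C x1847) x1857) x1833) x1905) x1527) x2175) x1365) x395)
  (add (sub (add (add (sub (add (add (sub (sub C x1857) x1843) x1783) x1819) x1909) x1531) x2179) x1369) x1127)
  (add (sub (add (add (sub (add (add (sub (sub C x1855) x1851) x1785) x1821) x1911) x1533) x2181) x1371) x401)
  (sub (sub (sub (sub (sub (add (add (add (add (sub C x1869) x1877) x1889) x1901) x1937) x1757) x2027) x1379) x405) x1135)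
  (add (sub (sub (sub (add (add (sub (sub C x1865) x1881) x1905) x1941) x1761) x2031) x1383) x413)
  (sub (sub (sub (sub (sub (sub (add (add (sub C x1879) x1865) x1889) x1895) x1769) x2039) x1391) x417) x1147)
  (add (sub (sub (sub (sub (sub (sub C x1877) x1885) x1897) x1771) x2041) x1393) x1151)
  (add (sub (sub (sub (sub (sub (add (add C x1885) x1889) x1869) x1917) x1773) x2043) x1395) x425)
  (add (sub (sub (sub (sub (sub (add (add C x1881) x1889) x1879) x1921) x1777) x2047) x1399) x1157)
  (sub (sub (sub (sub (sub (sub (add (add (add (add C x1881) x1885) x1865) x1877) x1925) x1781) x2051) x1403) x429) x1159)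
  (sub (sub (sub (sub (sub (sub (sub (sub C x1897) x1901) x1877) x1841) x2057) x1409) x435) x1165)
  (add (sub (sub (sub (sub (sub (sub C x1895) x1909) x1879) x1843) x2059) x1411) x1169)
  (sub (sub (sub (sub (sub (add (add (sub (sub C x1905) x1895) x1865) x1937) x1847) x2063) x1415) x441) x1171)
  (add (sub (sub (sub (add (add (sub (sub C x1901) x1911) x1869) x1941) x1851) x2067) x1419) x449)
  (add (sub (sub (sub (sub (sub (sub C x1911) x1897) x1927) x1855) x2071) x1423) x1181)
  (add (sub (sub (sub (sub (sub (sub C x1909) x1905) x1929) x1857) x2073) x1425) x455)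
  (add (sub (sub (add (add (sub (add (add (add (add C x1921) x1925) x1929) x1941) x1881) x1701) x1809) x2079) x1431) x461)
  (add (sub (sub (add (add (sub (sub (add (add C x1917) x1925) x1927) x1885) x1705) x1813) x2083) x1435) x1193)
  (sub (sub (sub (sub (add (add (sub (sub (add (add C x1917) x1921) x1937) x1889) x1709) x1817) x2087) x1439) x465) x1195)
  (add (sub (sub (add (add (sub (sub (sub C x1929) x1921) x1909) x1711) x1819) x2089) x1441) x1199)
  (add (sub (sub (add (add (sub (add (add (sub C x1927) x1917) x1941) x1911) x1713) x1821) x2091) x1443) x473)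
  (sub (sub (sub (sub (add (add (add (add (sub (sub C x1941) x1925) x1865) x1901) x1721) x1829) x2099) x1451) x477) x1207)
  (add (sub (sub (add (add (add (add (add (add (sub C x1937) x1917) x1929) x1869) x1905) x1725) x1833) x2103) x1455) x485)
  (sub (sub (add (add (sub (add (add (add (add (sub (sub C x1951) x1955) x1985) x2021) x2057) x2165) x1625) x5) x977) x489) x1219)
  (add (add (add (sub (add (add (add (add (sub (sub C x1949) x1963) x1987) x2023) x2059) x2167) x1627) x7) x979) x1223)
  (sub (sub (add (add (sub (add (add (sub (sub (sub C x1959) x1949) x1973) x2063) x2171) x1631) x11) x983) x495) x1225)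
  (add (add (add (sub (add (add (sub (sub (sub C x1955) x1965) x1977) x2067) x2175) x1635) x15) x987) x503)
  (add (add (add (sub (add (add (sub (sub (sub C x1965) x1951) x1999) x2071) x2179) x1639) x19) x991) x1235)
  (add (add (add (sub (add (add (sub (sub (sub C x1963) x1959) x2001) x2073) x2181) x1641) x21) x993) x509)
  (sub (sub (add (add (sub (sub (sub (add (add (sub C x1977) x1985) x1997) x1955) x2027) x1649) x29) x1001) x513) x1243)
  (add (add (add (sub (sub (sub (sub (sub C x1973) x1989) x1959) x2031) x1653) x33) x1005) x521)
  (sub (sub (add (add (sub (sub (add (add (add (add (sub C x1987) x1973) x1997) x1949) x2021) x2039) x1661) x41) x1013) x525) x1255)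
  (add (add (add (sub (sub (add (add (sub (sub C x1985) x1993) x1951) x2023) x2041) x1663) x43) x1015) x1259)
  (add (add (add (sub (sub (sub (sub (add (add C x1993) x1997) x1977) x2007) x2043) x1665) x45) x1017) x533)
  (add (add (add (sub (sub (sub (sub (add (add C x1989) x1997) x1987) x2011) x2047) x1669) x49) x1021) x1265)
  (sub (sub (add (add (sub (sub (sub (add (add (add (add C x1989) x1993) x1973) x1985) x2015) x2051) x1673) x53) x1025) x537) x1267)
  (add (add (add (sub (sub (sub (add (add (sub C x2001) x2011) x2023) x1963) x2107) x1675) x55) x1027) x1271)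
  (add (add (add (sub (sub (sub (sub (sub C x1999) x2007) x1965) x2109) x1677) x57) x1029) x545)
  (add (add (add (sub (sub (sub (sub (add (add C x2011) x2015) x2001) x1989) x2115) x1683) x63) x1035) x551)
  (add (add (add (sub (sub (sub (add (add (add (add C x2007) x2015) x1999) x2023) x1993) x2119) x1687) x67) x1039) x1283)
  (sub (sub (add (add (sub (sub (sub (sub (add (add C x2007) x2011) x2021) x1997) x2123) x1691) x71) x1043) x555) x1285)
  (sub (sub (add (add (sub (sub (add (add (sub (sub C x2023) x2015) x1949) x1985) x2129) x1697) x77) x1049) x561) x1291)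
  (add (add (add (sub (sub (add (add (add (add (sub C x2021) x1999) x2011) x1951) x1987) x2131) x1699) x79) x1051) x1295)
  (sub (sub (add (add (sub (sub (add (add (add (add (sub C x2031) x2039) x2051) x2063) x2099) x1973) x1865) x83) x1055) x567) x1297)
  (add (add (add (sub (sub (add (add (sub (sub C x2027) x2043) x2067) x2103) x1977) x1869) x87) x1059) x575)
  (sub (sub (add (add (sub (sub (sub (add (add (sub C x2041) x2027) x2051) x2057) x1985) x1877) x95) x1067) x579) x1309)
  (add (add (add (sub (sub (sub (sub (sub C x2039) x2047) x2059) x1987) x1879) x97) x1069) x1313)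
  (add (add (add (sub (sub (sub (sub (add (add C x2047) x2051) x2031) x2079) x1989) x1881) x99) x1071) x587)
  (add (add (add (sub (sub (sub (sub (add (add C x2043) x2051) x2041) x2083) x1993) x1885) x103) x1075) x1319)
  (sub (sub (add (add (sub (sub (sub (add (add (add (add C x2043) x2047) x2027) x2039) x2087) x1997) x1889) x107) x1079) x591) x1321)
  (sub (sub (add (add (sub (add (add (sub (sub (sub C x2059) x2063) x2039) x1949) x2165) x1895) x113) x1085) x597) x1327)
  (add (add (add (sub (add (add (sub (sub (sub C x2057) x2071) x2041) x1951) x2167) x1897) x115) x1087) x1331)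
  (sub (sub (add (add (sub (add (add (add (add (sub (sub C x2067) x2057) x2027) x2099) x1955) x2171) x1901) x119) x1091) x603) x1333)
  (add (add (add (sub (add (add (add (add (sub (sub C x2063) x2073) x2031) x2103) x1959) x2175) x1905) x123) x1095) x611)
  (add (add (add (sub (add (add (sub (sub (sub C x2073) x2059) x2089) x1963) x2179) x1909) x127) x1099) x1343)
  (add (add (add (sub (add (add (sub (sub (sub C x2071) x2067) x2091) x1965) x2181) x1911) x129) x1101) x617)
  (add (add (add (sub (sub (sub (add (add (add (add C x2083) x2087) x2091) x2103) x2043) x2133) x1917) x135) x1107) x623)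
  (add (add (add (sub (sub (sub (sub (add (add C x2079) x2087) x2089) x2047) x2137) x1921) x139) x1111) x1355)
  (sub (sub (add (add (sub (sub (sub (sub (add (add C x2079) x2083) x2099) x2051) x2141) x1925) x143) x1115) x627) x1357)
  (add (add (add (sub (sub (sub (sub (sub C x2091) x2083) x2071) x2143) x1927) x145) x1117) x1361)
  (add (add (add (sub (sub (sub (add (add (sub C x2089) x2079) x2103) x2073) x2145) x1929) x147) x1119) x635)
  (sub (sub (add (add (sub (sub (add (add (sub (sub C x2103) x2087) x2027) x2063) x2153) x1937) x155) x1127) x639) x1369)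
  (add (add (add (sub (sub (add (add (add (add (sub C x2099) x2079) x2091) x2031) x2067) x2157) x1941) x159) x1131) x647)
  (add (add (add (add (add (sub (add (add (add (add (sub C x2109) x2119) x2131) x2143) x2179) x1999) x1459) x1783) x163) x1135) x1379)
  (add (add (add (add (add (sub (add (add (sub (sub C x2107) x2115) x2145) x2181) x2001) x1461) x1785) x165) x1137) x653)
  (add (add (add (add (add (sub (sub (sub (add (add C x2119) x2123) x2109) x2133) x2007) x1467) x1791) x171) x1143) x659)
  (add (add (add (add (add (sub (sub (add (add (add (add C x2115) x2123) x2107) x2131) x2137) x2011) x1471) x1795) x175) x1147) x1391)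
  (sub (sub (add (add (add (add (sub (sub (sub (add (add C x2115) x2119) x2129) x2141) x2015) x1475) x1799) x179) x1151) x663) x1393)
  (sub (sub (add (add (add (add (sub (sub (sub (sub C x2131) x2123) x2165) x2021) x1481) x1805) x185) x1157) x669) x1399)
  (add (add (add (add (add (sub (sub (add (add (sub C x2129) x2107) x2119) x2167) x2023) x1483) x1807) x187) x1159) x1403)
  (add (add (add (add (add (sub (sub (add (add (add (add C x2137) x2141) x2145) x2157) x2115) x2079) x1485) x1809) x189) x1161) x677)
  (add (add (add (add (add (sub (sub (sub (add (add C x2133) x2141) x2143) x2119) x2083) x1489) x1813) x193) x1165) x1409)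
  (sub (sub (add (add (add (add (sub (sub (sub (add (add C x2133) x2137) x2153) x2123) x2087) x1493) x1817) x197) x1169) x681) x1411)
  (add (add (add (add (add (sub (add (add (sub (sub C x2145) x2137) x2107) x2179) x2089) x1495) x1819) x199) x1171) x1415)
  (add (add (add (add (add (sub (add (add (add (add (sub C x2143) x2133) x2157) x2109) x2181) x2091) x1497) x1821) x201) x1173) x689)
  (sub (sub (add (add (add (add (sub (sub (sub (sub C x2157) x2141) x2171) x2099) x1505) x1829) x209) x1181) x693) x1423)
  (add (add (add (add (add (sub (sub (add (add (sub C x2153) x2133) x2145) x2175) x2103) x1509) x1833) x213) x1185) x701)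
  (sub (sub (add (add (add (add (add (add (sub (sub (sub C x2167) x2171) x2129) x1949) x2057) x1517) x1841) x221) x1193) x705) x1435)
  (add (add (add (add (add (add (add (sub (sub (sub C x2165) x2179) x2131) x1951) x2059) x1519) x1843) x223) x1195) x1439)
  (sub (sub (add (add (add (add (add (add (sub (sub (sub C x2175) x2165) x2153) x1955) x2063) x1523) x1847) x227) x1199) x711) x1441)
  (add (add (add (add (add (add (add (sub (sub (sub C x2171) x2181) x2157) x1959) x2067) x1527) x1851) x231) x1203) x719)
  (add (add (add (add (add (add (add (add (add (sub (sub C x2181) x2167) x2107) x2143) x1963) x2071) x1531) x1855) x235) x1207) x1451)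
  (add (add (add (add (add (add (add (add (add (sub (sub C x2179) x2175) x2109) x2145) x1965) x2073) x1533) x1857) x237) x1209) x725))
  (chk [x5, x11, x29, x41, x43, x53, x71, x95, x97, x103, x107, x115,
  x143, x155, x179, x185, x197, x275, x305, x425, x485, x647, x701])

noncomputable def RK : Nat := nat_lit 0x2bd028701e501a90131011300c500b900b3009b008f0073006b00670061005f00470035002b0029001d000b0005

noncomputable def CK : Nat := nat_lit 0xe000e000e001c001c000e001c001c001c001c001c000e001c001c001c000e001c001c001c000e001c001c001c

noncomputable def H : Nat := nat_lit 0x8760000087700000000000008e2000000000000089500000000000008e3000008940000000000000000000000000000094e000000000000090d0000000000000000000000000000024d00000469000008a1000000000000043f00000000000002220000094f0000090c0000000000000000000008a00000000000000223000000000000043e0000000000000000000004680000024c00000000000009540000000000000985000000000000000000000000000005a10000079f000009190000000000000517000000000000028e000000000000000000000625000006fd00000000000002c50000000000000259000000000000054d000004750000000000000000000008a60000000000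0006c700000000000005ee000007d500000487000000000000000000000000000005be000000000000026a000000000000095500000984000000000000000000000918000000000000028f000000000000051600000000000000000000079e000005a0000008a700000000000005ef00000000000006c6000005bf0000026b000000000000000000000000000007d40000000000000486000000000000000000000000000006fc00000624000000000000054c000000000000047400000000000002c400000258000000000000000000000000000008e8000000000000096000000000000000000000000000000535000007bd0000098a000000000000058300000000000002ac00000000000000000000081d0000080b000000000000069700000000000005ad0000000000000835000007e7000000000000000000000912000000000000066d000000000000065a000008470000055f0000000000000000000000000000068400000000000002d6000000000000000000000000000006eb00000613000000000000069d0000000000000631000000000000067f00000709000000000000000000000000000002bf00000000000002d100000000000000000000000000000049000000b5000002650000000000000121000000000000014a000005c50000055900000000000000000000048100000000000000df00000000000002fa0000000000000000000003fc000001fe0000089a000000000000060100000000000006d80000084d00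00070f0000000000000000000000000000082e000000000000063600000000000007cf000007e100000000000000000000047b0000000000000073000000000000040f000000000000000000000732000003ae000000000000054600000000000005b2000000000000000000000000000004e00000039c0000025e00000000000001ec0000000000000006000008e90000096100000000000000000000098b00000000000002ad00000000000005820000000000000000000007bc0000053400000913000000000000065b000000000000066c00000685000002d700000000000000000000000000000846000000000000055e0000000000000000000000000000080a0000081c000000000000083400000000000007e60000000000000696000005ac00000000000000000000089b00000000000006d900000000000006000000082f000006370000000000000000000000000000084c000000000000070e0000000000000547000005b300000000000000000000025f000000000000000700000000000001ed00000000000000000000039d000004e100000000000007ce00000000000007e0000000000000000000000000000003af000007330000047a000000000000040e0000000000000072000000000000000000000612000006ea000000000000067e0000000000000708000000000000069c00000630000000000000000000000000000005c40000000000000558000000000000000000000000000001ff000003fd0000048000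000000000002fb00000000000000de000002be000002d0000000000000000000000264000000000000014b00000000000001200000000000000000000000b400000048000000000000087c00000000000008ef0000000000000000000000000000045d0000044b0000095b000000000000022f00000000000002400000000000000000000007ab0000052300000000000006f1000000000000054100000000000006d3000007c9000000000000000000000949000000000000029b0000000000000594000005fb000005cb0000000000000000000000000000061800000000000002b8000000000000000000000000000007b10000058f000000000000081700000000000008290000000000000661000008530000000000000000000000000000061f000000000000068b000000000000000000000000000000a900000115000005b900000000000000eb00000000000001b6000005f5000008410000000000000000000007db000000000000007f0000000000000366000000000000000000000390000001e0000008dd00000000000002a1000000000000052800000667000006790000000000000000000000000000081000000000000006a200000000000006cd0000083b000000000000000000000553000000000000001300000000000004aa00000000000000000000073f0000041a00000000000006f60000000000000690000000000000000000000000000003f100000307000002ca0000000000000157000000000000003c00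00000000000000000004570000023b000000000000052f00000000000006df00000000000002a7000006070000000000000000000000000000059b000000000000065500000000000000000000000000000109000000f7000005e9000000000000008b00000000000001d400000295000006730000000000000000000006c1000000000000001f00000000000003d200000000000000000000031300000163000000000000024700000000000002b3000000000000000000000000000001030000009700000289000000000000002b00000000000001680000000000000000000000a30000003700000000000000430000000000000001000000000000000d0000006d00000000000000000000021d000000000000001900000000000001db00000079000000d9000000000000000000000000000001b1000000000000014500000000000002290000057d000000000000000000000511000000000000002500000000000004bc00000000000000000000037f000001cf00000439000000000000008500000000000003cd000000e5000001270000000000000000000000000000036100000000000002f5000000000000000000000000000003eb000001bd00000000000004a500000000000004080000000000000151000001f200000000000000000000087100000000000002350000000000000450000005890000060d000000000000000000000000000007b600000000000006e4000000000000051d00000805000000000000000000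000703000000000000003100000000000003e400000000000000000000074a000004b700000000000007a4000000000000082200000000000000000000000000000385000003730000062a00000000000001c3000000000000009c00000445000007c300000000000000000000079900000000000000910000000000000378000000000000000000000750000003d90000046f00000000000000f1000000000000030c0000011b000000bb000000000000000000000000000003970000000000000403000000000000000000000000000007450000036d0000000000000738000000000000072d0000000000000301000003a200000000000000000000000000000462000000000000053a00000000000000000000000000000319000003df000005a600000000000001c900000000000000fc00000000000000000000038a000004b100000000000003f600000000000004e70000000000000414000003a8000000000000000000000252000000000000015d000000000000010e000001e6000001f8000000000000000000000000000000ae000000000000004e000000000000087d000008ee00000000000000000000095a0000000000000241000000000000022e00000000000000000000044a0000045c000009480000000000000595000000000000029a00000619000002b9000000000000000000000000000005fa00000000000005ca00000000000000000000000000000522000007aa00000000000006d200000000000007c800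000000000006f0000005400000000000000000000008dc000000000000052900000000000002a000000811000006a300000000000000000000000000000666000000000000067800000000000006f7000006910000000000000000000002cb000000000000003d0000000000000156000000000000000000000306000003f000000000000006cc000000000000083a0000000000000000000000000000041b0000073e0000055200000000000004ab000000000000001200000000000000000000058e000007b000000000000006600000000000000852000000000000081600000828000000000000000000000000000005f40000000000000840000000000000000000000000000001e100000391000007da0000000000000367000000000000007e0000061e0000068a0000000000000000000005b800000000000001b700000000000000ea000000000000000000000114000000a80000087000000000000004510000000000000234000007b7000006e500000000000000000000000000000588000000000000060c00000000000007a50000082300000000000000000000062b000000000000009d00000000000001c200000000000000000000037200000384000000000000051c0000000000000804000000000000000000000000000004b60000074b0000070200000000000003e50000000000000030000004630000053b0000000000000000000005a700000000000000fd00000000000001c80000000000000000000003de00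00031800000253000000000000010f000000000000015c000000af0000004f000000000000000000000000000001e700000000000001f9000000000000000000000000000004b00000038b000000000000041500000000000003a900000000000003f7000004e60000000000000000000000000000044400000000000007c2000000000000000000000000000003d800000751000007980000000000000379000000000000009000000000000000000000036c00000744000000000000030000000000000003a300000000000007390000072c00000000000000000000046e000000000000030d00000000000000f000000396000004020000000000000000000000000000011a00000000000000ba0000000000000000000000000000023a0000045600000000000002a60000000000000606000000000000052e000006de0000000000000000000000000000029400000000000006720000000000000000000000000000016200000312000006c000000000000003d3000000000000001e0000059a000006540000000000000000000005e800000000000001d5000000000000008a0000000000000000000000f6000001080000000000000228000000000000057c000000000000000000000000000001ce0000037e0000051000000000000004bd00000000000000240000000000000000000001bc000003ea000000000000015000000000000001f300000000000004a40000040900000000000000000000043800000000000003cc000000000000008400000360000002f4000000000000000000000000000000e400000000000001260000000000000246000002b20000000000000000000002880000000000000169000000000000002a000000000000000000000096000001020000021c00000000000001da0000000000000018000001b0000001440000000000000000000000000000007800000000000000d800000000000000000000000000000036000000a2000000000000000c000000000000006c00000000000000420000000000000000000000000000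

theorem spec : Spec 6 true idx RK 23 G := fun _ _ _ _ => by eq_refl

theorem cover : cov 7 true H RK CK 23 0 = true := by decide +kernel

end S7x3

namespace S7x3

noncomputable def ts0 : List Nat :=
  [nat_lit 190253232474964378676226596513531334097895970,
   nat_lit 190253232474964378676226596513531334097895424,
   nat_lit 190253232474964378676226596513531334097900506,
   nat_lit 190253232474964378676226596513531334097897944,
   nat_lit 190253232474964378676226596513531334098019954,
   nat_lit 190253232474964378676226596513531334098089464,
   nat_lit 190253232474964378676226596513531334102447342,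
   nat_lit 190253232474964378676226596513531334111501156,
   nat_lit 190253232474964378676226596513531334308610642,
   nat_lit 190253232474964378676226596513531335040327040,
   nat_lit 190253232474964378676226596513531345486825466,
   nat_lit 190253232474964378676226596513531399576932432,
   nat_lit 190253232474964378676226596513532016952452494,
   nat_lit 190253232474964378676226596513535918768067324,
   nat_lit 190253232474964378676226596513575208105361762,
   nat_lit 190253232474964378676226596513855277383613924,
   nat_lit 190253232474964378676226596516482858406293586,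
   nat_lit 190253232474964378676226596536628853626023168,
   nat_lit 190253232474964378676226596718289874691887214,
   nat_lit 190253232474964378676226598174225501796959292,
   nat_lit 190253232474964378676226611018623457231432594,
   nat_lit 190253232474964378676226716800249447185971484,
   nat_lit 190253232474964378676227639101120706210617362,
   nat_lit 190253232474964378676235364501769785340841548,
   nat_lit 190253232474964378676302314914383408258986558,
   nat_lit 190253232474964378676869149483167117613946564,
   nat_lit 190253232474964378681767379689072910964366978,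
   nat_lit 190253232474964378723526525523108446239263120,
   nat_lit 190253232474964379083970999746604289901067122,
   nat_lit 190253232474964382171018499139826200543003480,
   nat_lit 190253232474964408810845816604948119087246162,
   nat_lit 190253232474964637681535105174393168162366440,
   nat_lit 190253232474966613183297580693987928072228178,
   nat_lit 190253232474983622271938490742483133877088956,
   nat_lit 190253232475130499738304572550102381213636802,
   nat_lit 190253232476397089466364394894221608294095816,
   nat_lit 190253232487339817025613888813334744391499854]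

theorem run0 : go idx G base H RK CK 139 0 23 ts0 = true := by decide +kernel

end S7x3

namespace S7x4

noncomputable def idx : List Nat :=
  [nat_lit 0, nat_lit 4, nat_lit 8, nat_lit 10, nat_lit 12, nat_lit 20, nat_lit 24, nat_lit 28,
  nat_lit 30, nat_lit 36, nat_lit 40, nat_lit 44, nat_lit 50, nat_lit 52, nat_lit 56, nat_lit 60,
  nat_lit 68, nat_lit 70, nat_lit 72, nat_lit 76, nat_lit 80, nat_lit 82, nat_lit 84, nat_lit 90,
  nat_lit 94, nat_lit 98, nat_lit 104, nat_lit 106, nat_lit 108, nat_lit 112, nat_lit 116, nat_lit 118,
  nat_lit 120, nat_lit 128, nat_lit 132, nat_lit 140, nat_lit 142, nat_lit 146, nat_lit 150, nat_lit 154,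
  nat_lit 156, nat_lit 164, nat_lit 168, nat_lit 176, nat_lit 178, nat_lit 180, nat_lit 184, nat_lit 188,
  nat_lit 194, nat_lit 196, nat_lit 200, nat_lit 204, nat_lit 208, nat_lit 210, nat_lit 216, nat_lit 220,
  nat_lit 224, nat_lit 226, nat_lit 228, nat_lit 236, nat_lit 240, nat_lit 244, nat_lit 246, nat_lit 252,
  nat_lit 256, nat_lit 260, nat_lit 266, nat_lit 268, nat_lit 270, nat_lit 274, nat_lit 278, nat_lit 280,
  nat_lit 282, nat_lit 290, nat_lit 294, nat_lit 302, nat_lit 304, nat_lit 308, nat_lit 312, nat_lit 316,
  nat_lit 318, nat_lit 324, nat_lit 328, nat_lit 332, nat_lit 334, nat_lit 336, nat_lit 344, nat_lit 348,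
  nat_lit 352, nat_lit 354, nat_lit 360, nat_lit 364, nat_lit 368, nat_lit 374, nat_lit 376, nat_lit 380,
  nat_lit 384, nat_lit 392, nat_lit 394, nat_lit 396, nat_lit 400, nat_lit 404, nat_lit 410, nat_lit 412,
  nat_lit 416, nat_lit 420, nat_lit 424, nat_lit 426, nat_lit 434, nat_lit 438, nat_lit 446, nat_lit 448,
  nat_lit 450, nat_lit 454, nat_lit 458, nat_lit 460, nat_lit 462, nat_lit 468, nat_lit 472, nat_lit 476,
  nat_lit 482, nat_lit 484, nat_lit 488, nat_lit 492, nat_lit 500, nat_lit 502, nat_lit 504, nat_lit 508,
  nat_lit 512, nat_lit 518, nat_lit 520, nat_lit 524, nat_lit 528, nat_lit 532, nat_lit 534, nat_lit 540,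
  nat_lit 544, nat_lit 548, nat_lit 550, nat_lit 552, nat_lit 560, nat_lit 564, nat_lit 572, nat_lit 574,
  nat_lit 578, nat_lit 582, nat_lit 586, nat_lit 588, nat_lit 596, nat_lit 600, nat_lit 608, nat_lit 610,
  nat_lit 612, nat_lit 616, nat_lit 620, nat_lit 622, nat_lit 624, nat_lit 630, nat_lit 634, nat_lit 638,
  nat_lit 644, nat_lit 646, nat_lit 648, nat_lit 652, nat_lit 656, nat_lit 658, nat_lit 660, nat_lit 668,
  nat_lit 672, nat_lit 676, nat_lit 678, nat_lit 684, nat_lit 688, nat_lit 692, nat_lit 698, nat_lit 700,
  nat_lit 704, nat_lit 708, nat_lit 716, nat_lit 718, nat_lit 720, nat_lit 724, nat_lit 728, nat_lit 730,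
  nat_lit 732, nat_lit 738, nat_lit 742, nat_lit 746, nat_lit 752, nat_lit 754, nat_lit 756, nat_lit 760,
  nat_lit 764, nat_lit 766, nat_lit 768, nat_lit 776, nat_lit 780, nat_lit 788, nat_lit 790, nat_lit 794,
  nat_lit 798, nat_lit 802, nat_lit 804, nat_lit 810, nat_lit 814, nat_lit 818, nat_lit 820, nat_lit 822,
  nat_lit 830, nat_lit 834, nat_lit 838, nat_lit 840, nat_lit 846, nat_lit 850, nat_lit 854, nat_lit 860,
  nat_lit 862, nat_lit 866, nat_lit 870, nat_lit 878, nat_lit 880, nat_lit 882, nat_lit 886, nat_lit 890,
  nat_lit 896, nat_lit 898, nat_lit 902, nat_lit 906, nat_lit 910, nat_lit 912, nat_lit 920, nat_lit 924,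
  nat_lit 932, nat_lit 934, nat_lit 936, nat_lit 940, nat_lit 944, nat_lit 946, nat_lit 948, nat_lit 954,
  nat_lit 958, nat_lit 962, nat_lit 968, nat_lit 970, nat_lit 972, nat_lit 976, nat_lit 980, nat_lit 982,
  nat_lit 984, nat_lit 992, nat_lit 996, nat_lit 1000, nat_lit 1002, nat_lit 1008, nat_lit 1012, nat_lit 1016,
  nat_lit 1022, nat_lit 1024, nat_lit 1028, nat_lit 1032, nat_lit 1040, nat_lit 1042, nat_lit 1044, nat_lit 1048,
  nat_lit 1052, nat_lit 1054, nat_lit 1056, nat_lit 1062, nat_lit 1066, nat_lit 1070, nat_lit 1076, nat_lit 1078,
  nat_lit 1080, nat_lit 1084, nat_lit 1088, nat_lit 1090, nat_lit 1092, nat_lit 1100, nat_lit 1104, nat_lit 1112,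
  nat_lit 1114, nat_lit 1118, nat_lit 1122, nat_lit 1126, nat_lit 1128, nat_lit 1136, nat_lit 1140, nat_lit 1148,
  nat_lit 1150, nat_lit 1152, nat_lit 1156, nat_lit 1160, nat_lit 1166, nat_lit 1168, nat_lit 1172, nat_lit 1176,
  nat_lit 1180, nat_lit 1182, nat_lit 1188, nat_lit 1192, nat_lit 1196, nat_lit 1198, nat_lit 1200, nat_lit 1208,
  nat_lit 1212, nat_lit 1220, nat_lit 1222, nat_lit 1226, nat_lit 1230, nat_lit 1234, nat_lit 1236, nat_lit 1244,
  nat_lit 1248, nat_lit 1256, nat_lit 1258, nat_lit 1260, nat_lit 1264, nat_lit 1268, nat_lit 1270, nat_lit 1272,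
  nat_lit 1278, nat_lit 1282, nat_lit 1286, nat_lit 1292, nat_lit 1294, nat_lit 1298, nat_lit 1302, nat_lit 1310,
  nat_lit 1312, nat_lit 1314, nat_lit 1318, nat_lit 1322, nat_lit 1328, nat_lit 1330, nat_lit 1334, nat_lit 1338,
  nat_lit 1342, nat_lit 1344, nat_lit 1350, nat_lit 1354, nat_lit 1358, nat_lit 1360, nat_lit 1362, nat_lit 1370,
  nat_lit 1374, nat_lit 1378, nat_lit 1380, nat_lit 1386, nat_lit 1390, nat_lit 1394, nat_lit 1400, nat_lit 1402,
  nat_lit 1404, nat_lit 1408, nat_lit 1412, nat_lit 1414, nat_lit 1416, nat_lit 1424, nat_lit 1428, nat_lit 1436,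
  nat_lit 1438, nat_lit 1442, nat_lit 1446, nat_lit 1450, nat_lit 1452, nat_lit 1460, nat_lit 1464, nat_lit 1472,
  nat_lit 1474, nat_lit 1476, nat_lit 1480, nat_lit 1484, nat_lit 1490, nat_lit 1492, nat_lit 1496, nat_lit 1500,
  nat_lit 1504, nat_lit 1506, nat_lit 1512, nat_lit 1516, nat_lit 1520, nat_lit 1522, nat_lit 1524, nat_lit 1532,
  nat_lit 1536, nat_lit 1544, nat_lit 1546, nat_lit 1550, nat_lit 1554, nat_lit 1558, nat_lit 1560, nat_lit 1568,
  nat_lit 1572, nat_lit 1580, nat_lit 1582, nat_lit 1584, nat_lit 1588, nat_lit 1592, nat_lit 1594, nat_lit 1596,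
  nat_lit 1602, nat_lit 1606, nat_lit 1610, nat_lit 1616, nat_lit 1618, nat_lit 1620, nat_lit 1624, nat_lit 1628,
  nat_lit 1630, nat_lit 1632, nat_lit 1640, nat_lit 1644, nat_lit 1648, nat_lit 1650, nat_lit 1656, nat_lit 1660,
  nat_lit 1664, nat_lit 1670, nat_lit 1672, nat_lit 1676, nat_lit 1680, nat_lit 1688, nat_lit 1690, nat_lit 1692,
  nat_lit 1696, nat_lit 1700, nat_lit 1706, nat_lit 1708, nat_lit 1712, nat_lit 1716, nat_lit 1720, nat_lit 1722,
  nat_lit 1730, nat_lit 1734, nat_lit 1742, nat_lit 1744, nat_lit 1746, nat_lit 1750, nat_lit 1754, nat_lit 1756,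
  nat_lit 1758, nat_lit 1764, nat_lit 1768, nat_lit 1772, nat_lit 1778, nat_lit 1780, nat_lit 1784, nat_lit 1788,
  nat_lit 1796, nat_lit 1798, nat_lit 1800, nat_lit 1804, nat_lit 1808, nat_lit 1814, nat_lit 1816, nat_lit 1820,
  nat_lit 1824, nat_lit 1828, nat_lit 1830, nat_lit 1836, nat_lit 1840, nat_lit 1844, nat_lit 1846, nat_lit 1848,
  nat_lit 1856, nat_lit 1860, nat_lit 1864, nat_lit 1866, nat_lit 1872, nat_lit 1876, nat_lit 1880, nat_lit 1886,
  nat_lit 1888, nat_lit 1890, nat_lit 1894, nat_lit 1898, nat_lit 1900, nat_lit 1902, nat_lit 1910, nat_lit 1914,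
  nat_lit 1922, nat_lit 1924, nat_lit 1928, nat_lit 1932, nat_lit 1936, nat_lit 1938, nat_lit 1944, nat_lit 1948,
  nat_lit 1952, nat_lit 1954, nat_lit 1956, nat_lit 1964, nat_lit 1968, nat_lit 1972, nat_lit 1974, nat_lit 1980,
  nat_lit 1984, nat_lit 1988, nat_lit 1994, nat_lit 1996, nat_lit 2000, nat_lit 2004, nat_lit 2012, nat_lit 2014,
  nat_lit 2016, nat_lit 2020, nat_lit 2024, nat_lit 2026, nat_lit 2028, nat_lit 2034, nat_lit 2038, nat_lit 2042,
  nat_lit 2048, nat_lit 2050, nat_lit 2052, nat_lit 2056, nat_lit 2060, nat_lit 2062, nat_lit 2064, nat_lit 2072,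
  nat_lit 2076, nat_lit 2084, nat_lit 2086, nat_lit 2090, nat_lit 2094, nat_lit 2098, nat_lit 2100, nat_lit 2108,
  nat_lit 2112, nat_lit 2120, nat_lit 2122, nat_lit 2124, nat_lit 2128, nat_lit 2132, nat_lit 2138, nat_lit 2140,
  nat_lit 2144, nat_lit 2148, nat_lit 2152, nat_lit 2154, nat_lit 2160, nat_lit 2164, nat_lit 2168, nat_lit 2170,
  nat_lit 2172, nat_lit 2180, nat_lit 2184]

def TT : Type :=
  Nat → Nat → Nat → Nat → Nat → Nat → Nat → Nat → Nat → Nat → Nat → Nat → Nat → Nat → Nat → Nat →
  Nat → Nat → Nat → Nat → Nat → Nat → Nat → Nat → Nat → Nat → Nat → Nat → Nat → Nat → Nat → Nat →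
  Nat → Nat → Nat → Nat → Nat → Nat → Nat → Nat → Nat → Nat → Nat → Nat → Nat → Nat → Nat → Nat →
  Nat → Nat → Nat → Nat → Nat → Nat → Nat → Nat → Nat → Nat → Nat → Nat → Nat → Nat → Nat → Nat →
  Nat → Nat → Nat → Nat → Nat → Nat → Nat → Nat → Nat → Nat → Nat → Nat → Nat → Nat → Nat → Nat →
  Nat → Nat → Nat → Nat → Nat → Nat → Nat → Nat → Nat → Nat → Nat → Nat → Nat → Nat → Nat → Nat →
  Nat → Nat → Nat → Nat → Nat → Nat → Nat → Nat → Nat → Nat → Nat → Nat → Nat → Nat → Nat → Nat →
  Nat → Nat → Nat → Nat → Nat → Nat → Nat → Nat → Nat → Nat → Nat → Nat → Nat → Nat → Nat → Nat →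
  Nat → Nat → Nat → Nat → Nat → Nat → Nat → Nat → Nat → Nat → Nat → Nat → Nat → Nat → Nat → Nat →
  Nat → Nat → Nat → Nat → Nat → Nat → Nat → Nat → Nat → Nat → Nat → Nat → Nat → Nat → Nat → Nat →
  Nat → Nat → Nat → Nat → Nat → Nat → Nat → Nat → Nat → Nat → Nat → Nat → Nat → Nat → Nat → Nat →
  Nat → Nat → Nat → Nat → Nat → Nat → Nat → Nat → Nat → Nat → Nat → Nat → Nat → Nat → Nat → Nat →
  Nat → Nat → Nat → Nat → Nat → Nat → Nat → Nat → Nat → Nat → Nat → Nat → Nat → Nat → Nat → Nat →
  Nat → Nat → Nat → Nat → Nat → Nat → Nat → Nat → Nat → Nat → Nat → Nat → Nat → Nat → Nat → Nat →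
  Nat → Nat → Nat → Nat → Nat → Nat → Nat → Nat → Nat → Nat → Nat → Nat → Nat → Nat → Nat → Nat →
  Nat → Nat → Nat → Nat → Nat → Nat → Nat → Nat → Nat → Nat → Nat → Nat → Nat → Nat → Nat → Nat →
  Nat → Nat → Nat → Nat → Nat → Nat → Nat → Nat → Nat → Nat → Nat → Nat → Nat → Nat → Nat → Nat →
  Nat → Nat → Nat → Nat → Nat → Nat → Nat → Nat → Nat → Nat → Nat → Nat → Nat → Nat → Nat → Nat →
  Nat → Nat → Nat → Nat → Nat → Nat → Nat → Nat → Nat → Nat → Nat → Nat → Nat → Nat → Nat → Nat →
  Nat → Nat → Nat → Nat → Nat → Nat → Nat → Nat → Nat → Nat → Nat → Nat → Nat → Nat → Nat → Nat →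
  Nat → Nat → Nat → Nat → Nat → Nat → Nat → Nat → Nat → Nat → Nat → Nat → Nat → Nat → Nat → Nat →
  Nat → Nat → Nat → Nat → Nat → Nat → Nat → Nat → Nat → Nat → Nat → Nat → Nat → Nat → Nat → Nat →
  Nat → Nat → Nat → Nat → Nat → Nat → Nat → Nat → Nat → Nat → Nat → Nat → Nat → Nat → Nat → Nat →
  Nat → Nat → Nat → Nat → Nat → Nat → Nat → Nat → Nat → Nat → Nat → Nat → Nat → Nat → Nat → Nat →
  Nat → Nat → Nat → Nat → Nat → Nat → Nat → Nat → Nat → Nat → Nat → Nat → Nat → Nat → Nat → Nat →
  Nat → Nat → Nat → Nat → Nat → Nat → Nat → Nat → Nat → Nat → Nat → Nat → Nat → Nat → Nat → Nat →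
  Nat → Nat → Nat → Nat → Nat → Nat → Nat → Nat → Nat → Nat → Nat → Nat → Nat → Nat → Nat → Nat →
  Nat → Nat → Nat → Nat → Nat → Nat → Nat → Nat → Nat → Nat → Nat → Nat → Nat → Nat → Nat → Nat →
  Nat → Nat → Nat → Nat → Nat → Nat → Nat → Nat → Nat → Nat → Nat → Nat → Nat → Nat → Nat → Nat →
  Nat → Nat → Nat → Nat → Nat → Nat → Nat → Nat → Nat → Nat → Nat → Nat → Nat → Nat → Nat → Nat →
  Nat → Nat → Nat → Nat → Nat → Nat → Nat → Nat → Nat → Nat → Nat → Nat → Nat → Nat → Nat → Nat →
  Nat → Nat → Nat → Nat → Nat → Nat → Nat → Nat → Nat → Nat → Nat → Nat → Nat → Nat → Nat → Nat →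
  Nat → Nat → Nat → Nat → Nat → Nat → Nat → Nat → Nat → Nat → Nat → Nat → Nat → Nat → Nat → Nat →
  Nat → Nat → Nat → Nat → Nat → Nat → Nat → Nat → Nat → Nat → Nat → Nat → Nat → Nat → Nat → Nat →
  Nat → Nat → Nat → Bool

noncomputable def base : TT :=
  fun _ _ _ _ _ _ _ _ _ _ _ _ _ _ _ _ _ _ _ _ _ _ _ _ _ _ _ _ _ _ _ _ _ _ _ _ _ _ _ _
  _ _ _ _ _ _ _ _ _ _ _ _ _ _ _ _ _ _ _ _ _ _ _ _ _ _ _ _ _ _ _ _ _ _ _ _ _ _ _ _
  _ _ _ _ _ _ _ _ _ _ _ _ _ _ _ _ _ _ _ _ _ _ _ _ _ _ _ _ _ _ _ _ _ _ _ _ _ _ _ _
  _ _ _ _ _ _ _ _ _ _ _ _ _ _ _ _ _ _ _ _ _ _ _ _ _ _ _ _ _ _ _ _ _ _ _ _ _ _ _ _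
  _ _ _ _ _ _ _ _ _ _ _ _ _ _ _ _ _ _ _ _ _ _ _ _ _ _ _ _ _ _ _ _ _ _ _ _ _ _ _ _
  _ _ _ _ _ _ _ _ _ _ _ _ _ _ _ _ _ _ _ _ _ _ _ _ _ _ _ _ _ _ _ _ _ _ _ _ _ _ _ _
  _ _ _ _ _ _ _ _ _ _ _ _ _ _ _ _ _ _ _ _ _ _ _ _ _ _ _ _ _ _ _ _ _ _ _ _ _ _ _ _
  _ _ _ _ _ _ _ _ _ _ _ _ _ _ _ _ _ _ _ _ _ _ _ _ _ _ _ _ _ _ _ _ _ _ _ _ _ _ _ _
  _ _ _ _ _ _ _ _ _ _ _ _ _ _ _ _ _ _ _ _ _ _ _ _ _ _ _ _ _ _ _ _ _ _ _ _ _ _ _ _
  _ _ _ _ _ _ _ _ _ _ _ _ _ _ _ _ _ _ _ _ _ _ _ _ _ _ _ _ _ _ _ _ _ _ _ _ _ _ _ _
  _ _ _ _ _ _ _ _ _ _ _ _ _ _ _ _ _ _ _ _ _ _ _ _ _ _ _ _ _ _ _ _ _ _ _ _ _ _ _ _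
  _ _ _ _ _ _ _ _ _ _ _ _ _ _ _ _ _ _ _ _ _ _ _ _ _ _ _ _ _ _ _ _ _ _ _ _ _ _ _ _
  _ _ _ _ _ _ _ _ _ _ _ _ _ _ _ _ _ _ _ _ _ _ _ _ _ _ _ _ _ _ _ _ _ _ _ _ _ _ _ _
  _ _ _ _ _ _ _ _ _ _ _ _ _ _ _ _ _ _ _ _ _ _ _ _ _ _ _ => true

noncomputable def G (chk : List Nat → Bool) (C : Nat) (k : TT) : TT :=
  fun x0 x4 x8 x10 x12 x20 x24 x28 x30 x36 x40 x44 x50 x52 x56 x60
  x68 x70 x72 x76 x80 x82 x84 x90 x94 x98 x104 x106 x108 x112 x116 x118
  x120 x128 x132 x140 x142 x146 x150 x154 x156 x164 x168 x176 x178 x180 x184 x188
  x194 x196 x200 x204 x208 x210 x216 x220 x224 x226 x228 x236 x240 x244 x246 x252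
  x256 x260 x266 x268 x270 x274 x278 x280 x282 x290 x294 x302 x304 x308 x312 x316
  x318 x324 x328 x332 x334 x336 x344 x348 x352 x354 x360 x364 x368 x374 x376 x380
  x384 x392 x394 x396 x400 x404 x410 x412 x416 x420 x424 x426 x434 x438 x446 x448
  x450 x454 x458 x460 x462 x468 x472 x476 x482 x484 x488 x492 x500 x502 x504 x508
  x512 x518 x520 x524 x528 x532 x534 x540 x544 x548 x550 x552 x560 x564 x572 x574
  x578 x582 x586 x588 x596 x600 x608 x610 x612 x616 x620 x622 x624 x630 x634 x638
  x644 x646 x648 x652 x656 x658 x660 x668 x672 x676 x678 x684 x688 x692 x698 x700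
  x704 x708 x716 x718 x720 x724 x728 x730 x732 x738 x742 x746 x752 x754 x756 x760
  x764 x766 x768 x776 x780 x788 x790 x794 x798 x802 x804 x810 x814 x818 x820 x822
  x830 x834 x838 x840 x846 x850 x854 x860 x862 x866 x870 x878 x880 x882 x886 x890
  x896 x898 x902 x906 x910 x912 x920 x924 x932 x934 x936 x940 x944 x946 x948 x954
  x958 x962 x968 x970 x972 x976 x980 x982 x984 x992 x996 x1000 x1002 x1008 x1012 x1016
  x1022 x1024 x1028 x1032 x1040 x1042 x1044 x1048 x1052 x1054 x1056 x1062 x1066 x1070 x1076 x1078
  x1080 x1084 x1088 x1090 x1092 x1100 x1104 x1112 x1114 x1118 x1122 x1126 x1128 x1136 x1140 x1148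
  x1150 x1152 x1156 x1160 x1166 x1168 x1172 x1176 x1180 x1182 x1188 x1192 x1196 x1198 x1200 x1208
  x1212 x1220 x1222 x1226 x1230 x1234 x1236 x1244 x1248 x1256 x1258 x1260 x1264 x1268 x1270 x1272
  x1278 x1282 x1286 x1292 x1294 x1298 x1302 x1310 x1312 x1314 x1318 x1322 x1328 x1330 x1334 x1338
  x1342 x1344 x1350 x1354 x1358 x1360 x1362 x1370 x1374 x1378 x1380 x1386 x1390 x1394 x1400 x1402
  x1404 x1408 x1412 x1414 x1416 x1424 x1428 x1436 x1438 x1442 x1446 x1450 x1452 x1460 x1464 x1472
  x1474 x1476 x1480 x1484 x1490 x1492 x1496 x1500 x1504 x1506 x1512 x1516 x1520 x1522 x1524 x1532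
  x1536 x1544 x1546 x1550 x1554 x1558 x1560 x1568 x1572 x1580 x1582 x1584 x1588 x1592 x1594 x1596
  x1602 x1606 x1610 x1616 x1618 x1620 x1624 x1628 x1630 x1632 x1640 x1644 x1648 x1650 x1656 x1660
  x1664 x1670 x1672 x1676 x1680 x1688 x1690 x1692 x1696 x1700 x1706 x1708 x1712 x1716 x1720 x1722
  x1730 x1734 x1742 x1744 x1746 x1750 x1754 x1756 x1758 x1764 x1768 x1772 x1778 x1780 x1784 x1788
  x1796 x1798 x1800 x1804 x1808 x1814 x1816 x1820 x1824 x1828 x1830 x1836 x1840 x1844 x1846 x1848
  x1856 x1860 x1864 x1866 x1872 x1876 x1880 x1886 x1888 x1890 x1894 x1898 x1900 x1902 x1910 x1914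
  x1922 x1924 x1928 x1932 x1936 x1938 x1944 x1948 x1952 x1954 x1956 x1964 x1968 x1972 x1974 x1980
  x1984 x1988 x1994 x1996 x2000 x2004 x2012 x2014 x2016 x2020 x2024 x2026 x2028 x2034 x2038 x2042
  x2048 x2050 x2052 x2056 x2060 x2062 x2064 x2072 x2076 x2084 x2086 x2090 x2094 x2098 x2100 x2108
  x2112 x2120 x2122 x2124 x2128 x2132 x2138 x2140 x2144 x2148 x2152 x2154 x2160 x2164 x2168 x2170
  x2172 x2180 x2184 =>
  Bool.rec false (k
  (sub (add (add (add (add (add (add (add (add (add (add (add (add (add C x4) x8) x12) x24) x36) x72) x108) x216) x324) x648) x972) x1944) x730) x1460)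
  (sub (add (add (add (add (add (add (add (add (sub (add (add C x0) x8) x10) x40) x76) x112) x220) x328) x652) x976) x1948) x732)
  (add (add (add (add (add (add (add (add (add (sub (add (add C x0) x4) x20) x44) x80) x116) x224) x332) x656) x980) x1952) x1464)
  (sub (add (add (add (add (add (add (sub (sub (sub C x12) x4) x28) x118) x226) x334) x658) x982) x1954) x738)
  (sub (add (add (add (add (add (add (add (sub (add (add (sub C x10) x0) x24) x30) x120) x228) x336) x660) x984) x1956) x742) x1472)
  (add (add (add (add (add (add (add (sub (sub (sub C x24) x8) x56) x128) x236) x344) x668) x992) x1964) x1476)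
  (sub (add (add (add (add (add (add (add (sub (add (add (sub C x20) x0) x12) x60) x132) x240) x348) x672) x996) x1968) x754) x1484)
  (sub (add (add (add (add (sub (sub (add (add (sub C x30) x40) x52) x10) x82) x352) x676) x1000) x1972) x756)
  (sub (add (add (add (add (add (sub (sub (sub (sub C x28) x36) x12) x84) x354) x678) x1002) x1974) x760) x1490)
  (sub (add (add (add (add (add (sub (add (add (sub (add (add C x40) x44) x30) x0) x72) x90) x360) x684) x1008) x1980) x766) x1496)
  (sub (add (add (add (add (sub (add (add (add (add (add (add C x36) x44) x28) x52) x4) x76) x94) x364) x688) x1012) x1984) x768)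
  (add (add (add (add (add (sub (add (add (sub (add (add C x36) x40) x50) x8) x80) x98) x368) x692) x1016) x1988) x1500)
  (add (add (add (add (add (sub (sub (sub (sub C x52) x44) x68) x104) x374) x698) x1022) x1994) x1506)
  (sub (add (add (add (add (sub (sub (add (add (sub C x50) x28) x40) x70) x106) x376) x700) x1024) x1996) x780)
  (add (add (add (add (add (sub (sub (add (add (sub C x60) x68) x80) x20) x164) x380) x704) x1028) x2000) x1512)
  (sub (add (add (add (add (add (sub (sub (sub (sub C x56) x72) x24) x168) x384) x708) x1032) x2004) x790) x1520)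
  (add (add (add (add (add (sub (sub (add (add (sub C x70) x56) x80) x50) x176) x392) x716) x1040) x2012) x1524)
  (sub (add (add (add (add (sub (sub (sub (sub C x68) x76) x52) x178) x394) x718) x1042) x2014) x798)
  (sub (add (add (add (add (add (sub (add (add (sub (add (add C x76) x80) x60) x0) x36) x180) x396) x720) x1044) x2016) x802) x1532)
  (sub (add (add (add (add (sub (add (add (sub (add (add C x72) x80) x70) x4) x40) x184) x400) x724) x1048) x2020) x804)
  (add (add (add (add (add (sub (add (add (add (add (add (add C x72) x76) x56) x68) x8) x44) x188) x404) x728) x1052) x2024) x1536)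
  (sub (add (add (sub (sub (add (add (add (add (sub C x84) x94) x106) x118) x154) x28) x244) x1054) x2026) x810)
  (sub (add (add (add (sub (sub (add (add (sub (sub C x82) x90) x120) x156) x30) x246) x1056) x2028) x814) x1544)
  (sub (add (add (add (sub (sub (sub (sub (add (add C x94) x98) x84) x108) x36) x252) x1062) x2034) x820) x1550)
  (sub (add (add (sub (sub (sub (add (add (add (add C x90) x98) x82) x106) x112) x40) x256) x1066) x2038) x822)
  (add (add (add (sub (sub (sub (sub (add (add C x90) x94) x104) x116) x44) x260) x1070) x2042) x1554)
  (add (add (add (sub (sub (sub (sub (sub C x106) x98) x140) x50) x266) x1076) x2048) x1560)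
  (sub (add (add (sub (sub (sub (add (add (sub C x104) x82) x94) x142) x52) x268) x1078) x2050) x834)
  (sub (add (add (add (sub (add (add (sub (add (add (add (add C x112) x116) x120) x132) x90) x0) x216) x270) x1080) x2052) x838) x1568)
  (sub (add (add (sub (add (add (sub (sub (add (add C x108) x116) x118) x94) x4) x220) x274) x1084) x2056) x840)
  (add (add (add (sub (add (add (sub (sub (add (add C x108) x112) x128) x98) x8) x224) x278) x1088) x2060) x1572)
  (sub (add (add (sub (add (add (add (add (sub (sub C x120) x112) x82) x154) x10) x226) x280) x1090) x2062) x846)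
  (sub (add (add (add (sub (add (add (add (add (add (add (sub C x118) x108) x132) x84) x156) x12) x228) x282) x1092) x2064) x850) x1580)
  (add (add (add (sub (add (add (sub (sub (sub C x132) x116) x146) x20) x236) x290) x1100) x2072) x1584)
  (sub (add (add (add (sub (add (add (sub (add (add (sub C x128) x108) x120) x150) x24) x240) x294) x1104) x2076) x862) x1592)
  (add (add (add (sub (sub (sub (sub (sub C x142) x146) x104) x194) x302) x1112) x2084) x1596)
  (sub (add (add (sub (sub (sub (sub (sub C x140) x154) x106) x196) x304) x1114) x2086) x870)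
  (add (add (add (sub (sub (sub (sub (sub C x150) x140) x128) x200) x308) x1118) x2090) x1602)
  (sub (add (add (add (sub (sub (sub (sub (sub C x146) x156) x132) x204) x312) x1122) x2094) x880) x1610)
  (sub (add (add (sub (sub (add (add (sub (sub C x156) x142) x82) x118) x208) x316) x1126) x2098) x882)
  (sub (add (add (add (sub (sub (add (add (sub (sub C x154) x150) x84) x120) x210) x318) x1128) x2100) x886) x1616)
  (add (add (add (sub (sub (add (add (add (add (sub C x168) x176) x188) x200) x236) x56) x488) x1136) x2108) x1620)
  (sub (add (add (add (sub (sub (add (add (sub (sub C x164) x180) x204) x240) x60) x492) x1140) x2112) x898) x1628)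
  (add (add (add (sub (sub (sub (add (add (sub C x178) x164) x188) x194) x68) x500) x1148) x2120) x1632)
  (sub (add (add (sub (sub (sub (sub (sub C x176) x184) x196) x70) x502) x1150) x2122) x906)
  (sub (add (add (add (sub (sub (sub (sub (add (add C x184) x188) x168) x216) x72) x504) x1152) x2124) x910) x1640)
  (sub (add (add (sub (sub (sub (sub (add (add C x180) x188) x178) x220) x76) x508) x1156) x2128) x912)
  (add (add (add (sub (sub (sub (add (add (add (add C x180) x184) x164) x176) x224) x80) x512) x1160) x2132) x1644)
  (add (add (add (sub (sub (sub (sub (sub C x196) x200) x176) x140) x518) x1166) x2138) x1650)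
  (sub (add (add (sub (sub (sub (sub (sub C x194) x208) x178) x142) x520) x1168) x2140) x924)
  (add (add (add (sub (sub (add (add (sub (sub C x204) x194) x164) x236) x146) x524) x1172) x2144) x1656)
  (sub (add (add (add (sub (sub (add (add (sub (sub C x200) x210) x168) x240) x150) x528) x1176) x2148) x934) x1664)
  (sub (add (add (sub (sub (sub (sub (sub C x210) x196) x226) x154) x532) x1180) x2152) x936)
  (sub (add (add (add (sub (sub (sub (sub (sub C x208) x204) x228) x156) x534) x1182) x2154) x940) x1670)
  (sub (add (add (add (sub (add (add (sub (add (add (add (add C x220) x224) x228) x240) x180) x0) x108) x540) x1188) x2160) x946) x1676)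
  (sub (add (add (sub (add (add (sub (sub (add (add C x216) x224) x226) x184) x4) x112) x544) x1192) x2164) x948)
  (add (add (add (sub (add (add (sub (sub (add (add C x216) x220) x236) x188) x8) x116) x548) x1196) x2168) x1680)
  (sub (add (add (sub (add (add (sub (sub (sub C x228) x220) x208) x10) x118) x550) x1198) x2170) x954)
  (sub (add (add (add (sub (add (add (sub (add (add (sub C x226) x216) x240) x210) x12) x120) x552) x1200) x2172) x958) x1688)
  (add (add (add (sub (add (add (add (add (sub (sub C x240) x224) x164) x200) x20) x128) x560) x1208) x2180) x1692)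
  (sub (add (add (add (sub (add (add (add (add (add (add (sub C x236) x216) x228) x168) x204) x24) x132) x564) x1212) x2184) x970) x1700)
  (sub (sub (sub (add (add (add (add (add (add (sub C x246) x256) x268) x280) x316) x352) x460) x82) x730) x972)
  (sub (add (sub (sub (add (add (add (add (sub (sub C x244) x252) x282) x318) x354) x462) x84) x732) x976) x1706)
  (sub (add (sub (sub (add (add (sub (sub (add (add C x256) x260) x246) x270) x360) x468) x90) x738) x982) x1712)
  (sub (sub (sub (add (add (sub (add (add (add (add C x252) x260) x244) x268) x274) x364) x472) x94) x742) x984)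
  (add (sub (sub (add (add (sub (sub (add (add C x252) x256) x266) x278) x368) x476) x98) x746) x1716)
  (add (sub (sub (add (add (sub (sub (sub C x268) x260) x302) x374) x482) x104) x752) x1722)
  (sub (sub (sub (add (add (sub (add (add (sub C x266) x244) x256) x304) x376) x484) x106) x754) x996)
  (sub (add (sub (sub (sub (sub (add (add (add (add C x274) x278) x282) x294) x252) x324) x108) x756) x1000) x1730)
  (sub (sub (sub (sub (sub (sub (add (add C x270) x278) x280) x256) x328) x112) x760) x1002)
  (add (sub (sub (sub (sub (sub (add (add C x270) x274) x290) x260) x332) x116) x764) x1734)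
  (sub (sub (sub (sub (add (add (sub (sub C x282) x274) x244) x316) x334) x118) x766) x1008)
  (sub (add (sub (sub (sub (add (add (add (add (sub C x280) x270) x294) x246) x318) x336) x120) x768) x1012) x1742)
  (add (sub (sub (sub (sub (sub (sub C x294) x278) x308) x344) x128) x776) x1746)
  (sub (add (sub (sub (sub (sub (add (add (sub C x290) x270) x282) x312) x348) x132) x780) x1024) x1754)
  (add (sub (sub (sub (sub (sub (sub C x304) x308) x266) x410) x140) x788) x1758)
  (sub (sub (sub (sub (sub (sub (sub C x302) x316) x268) x412) x142) x790) x1032)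
  (add (sub (sub (sub (sub (sub (sub C x312) x302) x290) x416) x146) x794) x1764)
  (sub (add (sub (sub (sub (sub (sub (sub C x308) x318) x294) x420) x150) x798) x1042) x1772)
  (sub (sub (sub (sub (add (add (sub (sub C x318) x304) x244) x280) x424) x154) x802) x1044)
  (sub (add (sub (sub (sub (add (add (sub (sub C x316) x312) x246) x282) x426) x156) x804) x1048) x1778)
  (sub (add (sub (add (add (sub (add (add (add (add (add (add C x328) x332) x336) x348) x360) x396) x270) x0) x648) x810) x1054) x1784)
  (sub (sub (add (add (sub (add (add (sub (add (add C x324) x332) x334) x364) x400) x274) x4) x652) x814) x1056)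
  (add (sub (add (add (sub (add (add (sub (add (add C x324) x328) x344) x368) x404) x278) x8) x656) x818) x1788)
  (sub (sub (add (add (sub (sub (sub (sub C x336) x328) x352) x280) x10) x658) x820) x1062)
  (sub (add (sub (add (add (sub (sub (add (add (sub C x334) x324) x348) x354) x282) x12) x660) x822) x1066) x1796)
  (add (sub (add (add (sub (sub (sub (sub C x348) x332) x380) x290) x20) x668) x830) x1800)
  (sub (add (sub (add (add (sub (sub (add (add (sub C x344) x324) x336) x384) x294) x24) x672) x834) x1078) x1808)
  (sub (sub (add (add (add (add (sub (add (add (sub C x354) x364) x376) x334) x244) x460) x28) x676) x838) x1080)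
  (sub (add (sub (add (add (add (add (sub (sub (sub C x352) x360) x336) x246) x462) x30) x678) x840) x1084) x1814)
  (sub (add (sub (add (add (add (add (add (add (sub (add (add C x364) x368) x354) x324) x396) x252) x468) x36) x684) x846) x1090) x1820)
  (sub (sub (add (add (add (add (add (add (add (add (add (add C x360) x368) x352) x376) x328) x400) x256) x472) x40) x688) x850) x1092)
  (add (sub (add (add (add (add (add (add (sub (add (add C x360) x364) x374) x332) x404) x260) x476) x44) x692) x854) x1824)
  (add (sub (add (add (add (add (sub (sub (sub C x376) x368) x392) x266) x482) x50) x698) x860) x1830)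
  (sub (sub (add (add (add (add (sub (add (add (sub C x374) x352) x364) x394) x268) x484) x52) x700) x862) x1104)
  (add (sub (add (add (sub (sub (add (add (sub C x384) x392) x404) x344) x434) x56) x704) x866) x1836)
  (sub (add (sub (add (add (sub (sub (sub (sub C x380) x396) x348) x438) x60) x708) x870) x1114) x1844)
  (add (sub (add (add (sub (sub (add (add (sub C x394) x380) x404) x374) x446) x68) x716) x878) x1848)
  (sub (sub (add (add (sub (sub (sub (sub C x392) x400) x376) x448) x70) x718) x880) x1122)
  (sub (add (sub (add (add (sub (add (add (sub (add (add C x400) x404) x384) x324) x360) x450) x72) x720) x882) x1126) x1856)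
  (sub (sub (add (add (sub (add (add (sub (add (add C x396) x404) x394) x328) x364) x454) x76) x724) x886) x1128)
  (add (sub (add (add (sub (add (add (add (add (add (add C x396) x400) x380) x392) x332) x368) x458) x80) x728) x890) x1860)
  (add (sub (sub (sub (add (add (sub (sub C x412) x416) x446) x482) x302) x572) x896) x1866)
  (sub (sub (sub (sub (add (add (sub (sub C x410) x424) x448) x484) x304) x574) x898) x1140)
  (add (sub (sub (sub (sub (sub (sub C x420) x410) x434) x308) x578) x902) x1872)
  (sub (add (sub (sub (sub (sub (sub (sub C x416) x426) x438) x312) x582) x906) x1150) x1880)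
  (sub (sub (sub (sub (sub (sub (sub C x426) x412) x460) x316) x586) x910) x1152)
  (sub (add (sub (sub (sub (sub (sub (sub C x424) x420) x462) x318) x588) x912) x1156) x1886)
  (add (sub (sub (sub (sub (add (add (sub C x438) x446) x458) x416) x380) x596) x920) x1890)
  (sub (add (sub (sub (sub (sub (sub (sub C x434) x450) x420) x384) x600) x924) x1168) x1898)
  (add (sub (sub (sub (add (add (add (add (sub C x448) x434) x458) x410) x482) x392) x608) x932) x1902)
  (sub (sub (sub (sub (add (add (sub (sub C x446) x454) x412) x484) x394) x610) x934) x1176)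
  (sub (add (sub (sub (sub (sub (sub (add (add C x454) x458) x438) x468) x396) x612) x936) x1180) x1910)
  (sub (sub (sub (sub (sub (sub (add (add C x450) x458) x448) x472) x400) x616) x940) x1182)
  (add (sub (sub (sub (sub (add (add (add (add C x450) x454) x434) x446) x476) x404) x620) x944) x1914)
  (sub (sub (sub (add (add (sub (add (add (sub C x462) x472) x484) x424) x244) x352) x622) x946) x1188)
  (sub (add (sub (sub (add (add (sub (sub (sub C x460) x468) x426) x246) x354) x624) x948) x1192) x1922)
  (sub (add (sub (sub (add (add (sub (sub (add (add C x472) x476) x462) x450) x252) x360) x630) x954) x1198) x1928)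
  (sub (sub (sub (add (add (sub (add (add (add (add C x468) x476) x460) x484) x454) x256) x364) x634) x958) x1200)
  (add (sub (sub (add (add (sub (sub (add (add C x468) x472) x482) x458) x260) x368) x638) x962) x1932)
  (add (sub (sub (add (add (add (add (sub (sub C x484) x476) x410) x446) x266) x374) x644) x968) x1938)
  (sub (sub (sub (add (add (add (add (add (add (sub C x482) x460) x472) x412) x448) x268) x376) x646) x970) x1212)
  (add (sub (sub (add (add (add (add (add (add (sub C x492) x500) x512) x524) x560) x596) x704) x164) x1460) x1944)
  (sub (add (sub (sub (add (add (add (add (sub (sub C x488) x504) x528) x564) x600) x708) x168) x1464) x1222) x1952)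
  (add (sub (sub (add (add (sub (add (add (sub C x502) x488) x512) x518) x608) x716) x176) x1472) x1956)
  (sub (sub (sub (add (add (sub (sub (sub C x500) x508) x520) x610) x718) x178) x1474) x1230)
  (sub (add (sub (sub (add (add (sub (sub (add (add C x508) x512) x492) x540) x612) x720) x180) x1476) x1234) x1964)
  (sub (sub (sub (add (add (sub (sub (add (add C x504) x512) x502) x544) x616) x724) x184) x1480) x1236)
  (add (sub (sub (add (add (sub (add (add (add (add C x504) x508) x488) x500) x548) x620) x728) x188) x1484) x1968)
  (add (sub (sub (sub (sub (sub (sub C x520) x524) x500) x572) x194) x1490) x1974)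
  (sub (sub (sub (sub (sub (sub (sub C x518) x532) x502) x574) x196) x1492) x1248)
  (add (sub (sub (sub (add (add (sub (sub C x528) x518) x488) x560) x578) x200) x1496) x1980)
  (sub (add (sub (sub (sub (add (add (sub (sub C x524) x534) x492) x564) x582) x204) x1500) x1258) x1988)
  (sub (sub (sub (sub (sub (sub (sub C x534) x520) x550) x586) x208) x1504) x1260)
  (sub (add (sub (sub (sub (sub (sub (sub C x532) x528) x552) x588) x210) x1506) x1264) x1994)
  (sub (add (sub (sub (sub (sub (add (add (add (add C x544) x548) x552) x564) x504) x648) x216) x1512) x1270) x2000)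
  (sub (sub (sub (sub (sub (sub (add (add C x540) x548) x550) x508) x652) x220) x1516) x1272)
  (add (sub (sub (sub (sub (sub (add (add C x540) x544) x560) x512) x656) x224) x1520) x2004)
  (sub (sub (sub (sub (sub (sub (sub C x552) x544) x532) x658) x226) x1522) x1278)
  (sub (add (sub (sub (sub (sub (add (add (sub C x550) x540) x564) x534) x660) x228) x1524) x1282) x2012)
  (add (sub (sub (sub (add (add (sub (sub C x564) x548) x488) x524) x668) x236) x1532) x2016)
  (sub (add (sub (sub (sub (add (add (add (add (sub C x560) x540) x552) x492) x528) x672) x240) x1536) x1294) x2024)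
  (add (sub (sub (sub (add (add (sub (sub C x574) x578) x608) x644) x518) x410) x1544) x2028)
  (sub (sub (sub (sub (add (add (sub (sub C x572) x586) x610) x646) x520) x412) x1546) x1302)
  (add (sub (sub (sub (sub (sub (sub C x582) x572) x596) x524) x416) x1550) x2034)
  (sub (add (sub (sub (sub (sub (sub (sub C x578) x588) x600) x528) x420) x1554) x1312) x2042)
  (sub (sub (sub (sub (sub (sub (sub C x588) x574) x622) x532) x424) x1558) x1314)
  (sub (add (sub (sub (sub (sub (sub (sub C x586) x582) x624) x534) x426) x1560) x1318) x2048)
  (add (sub (sub (add (add (sub (add (add (sub C x600) x608) x620) x578) x488) x704) x434) x1568) x2052)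
  (sub (add (sub (sub (add (add (sub (sub (sub C x596) x612) x582) x492) x708) x438) x1572) x1330) x2060)
  (add (sub (sub (add (add (add (add (add (add (sub C x610) x596) x620) x572) x644) x500) x716) x446) x1580) x2064)
  (sub (sub (sub (add (add (add (add (sub (sub C x608) x616) x574) x646) x502) x718) x448) x1582) x1338)
  (sub (add (sub (sub (add (add (sub (sub (add (add C x616) x620) x600) x630) x504) x720) x450) x1584) x1342) x2072)
  (sub (sub (sub (add (add (sub (sub (add (add C x612) x620) x610) x634) x508) x724) x454) x1588) x1344)
  (add (sub (sub (add (add (sub (add (add (add (add C x612) x616) x596) x608) x638) x512) x728) x458) x1592) x2076)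
  (sub (sub (sub (sub (sub (add (add (sub C x624) x634) x646) x586) x676) x460) x1594) x1350)
  (sub (add (sub (sub (sub (sub (sub (sub C x622) x630) x588) x678) x462) x1596) x1354) x2084)
  (sub (add (sub (sub (sub (sub (sub (add (add C x634) x638) x624) x612) x684) x468) x1602) x1360) x2090)
  (sub (sub (sub (sub (sub (add (add (add (add C x630) x638) x622) x646) x616) x688) x472) x1606) x1362)
  (add (sub (sub (sub (sub (sub (add (add C x630) x634) x644) x620) x692) x476) x1610) x2094)
  (add (sub (sub (sub (add (add (sub (sub C x646) x638) x572) x608) x698) x482) x1616) x2100)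
  (sub (sub (sub (sub (add (add (add (add (sub C x644) x622) x634) x574) x610) x700) x484) x1618) x1374)
  (sub (add (sub (add (add (sub (add (add (add (add (add (add C x652) x656) x660) x672) x684) x720) x540) x0) x324) x1620) x1378) x2108)
  (sub (sub (add (add (sub (add (add (sub (add (add C x648) x656) x658) x688) x724) x544) x4) x328) x1624) x1380)
  (add (sub (add (add (sub (add (add (sub (add (add C x648) x652) x668) x692) x728) x548) x8) x332) x1628) x2112)
  (sub (sub (add (add (sub (sub (sub (sub C x660) x652) x676) x550) x10) x334) x1630) x1386)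
  (sub (add (sub (add (add (sub (sub (add (add (sub C x658) x648) x672) x678) x552) x12) x336) x1632) x1390) x2120)
  (add (sub (add (add (sub (sub (sub (sub C x672) x656) x704) x560) x20) x344) x1640) x2124)
  (sub (add (sub (add (add (sub (sub (add (add (sub C x668) x648) x660) x708) x564) x24) x348) x1644) x1402) x2132)
  (sub (sub (add (add (sub (sub (add (add (sub C x678) x688) x700) x658) x622) x28) x352) x1648) x1404)
  (sub (add (sub (add (add (sub (sub (sub (sub C x676) x684) x660) x624) x30) x354) x1650) x1408) x2138)
  (sub (add (sub (add (add (sub (add (add (sub (add (add C x688) x692) x678) x648) x720) x630) x36) x360) x1656) x1414) x2144)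
  (sub (sub (add (add (sub (add (add (add (add (add (add C x684) x692) x676) x700) x652) x724) x634) x40) x364) x1660) x1416)
  (add (sub (add (add (sub (add (add (sub (add (add C x684) x688) x698) x656) x728) x638) x44) x368) x1664) x2148)
  (add (sub (add (add (sub (sub (sub (sub C x700) x692) x716) x644) x50) x374) x1670) x2154)
  (sub (sub (add (add (sub (sub (add (add (sub C x698) x676) x688) x718) x646) x52) x376) x1672) x1428)
  (add (sub (add (add (add (add (sub (add (add (sub C x708) x716) x728) x668) x488) x596) x56) x380) x1676) x2160)
  (sub (add (sub (add (add (add (add (sub (sub (sub C x704) x720) x672) x492) x600) x60) x384) x1680) x1438) x2168)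
  (add (sub (add (add (add (add (sub (add (add (sub C x718) x704) x728) x698) x500) x608) x68) x392) x1688) x2172)
  (sub (sub (add (add (add (add (sub (sub (sub C x716) x724) x700) x502) x610) x70) x394) x1690) x1446)
  (sub (add (sub (add (add (add (add (add (add (sub (add (add C x724) x728) x708) x648) x684) x504) x612) x72) x396) x1692) x1450) x2180)
  (sub (sub (add (add (add (add (add (add (sub (add (add C x720) x728) x718) x652) x688) x508) x616) x76) x400) x1696) x1452)
  (add (sub (add (add (add (add (add (add (add (add (add (add C x720) x724) x704) x716) x656) x692) x512) x620) x80) x404) x1700) x2184)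
  (sub (add (sub (add (add (add (add (add (add (add (add (sub C x732) x742) x754) x766) x802) x838) x946) x1054) x1378) x244) x0) x1460)
  (sub (sub (add (add (add (add (add (add (sub (sub C x730) x738) x768) x804) x840) x948) x1056) x1380) x246) x4)
  (sub (sub (add (add (add (add (sub (sub (add (add C x742) x746) x732) x756) x846) x954) x1062) x1386) x252) x10)
  (sub (add (sub (add (add (add (add (sub (add (add (add (add C x738) x746) x730) x754) x760) x850) x958) x1066) x1390) x256) x12) x1472)
  (add (sub (add (add (add (add (sub (sub (add (add C x738) x742) x752) x764) x854) x962) x1070) x1394) x260) x1474)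
  (add (sub (add (add (add (add (sub (sub (sub C x754) x746) x788) x860) x968) x1076) x1400) x266) x1480)
  (sub (add (sub (add (add (add (add (sub (add (add (sub C x752) x730) x742) x790) x862) x970) x1078) x1402) x268) x24) x1484)
  (sub (sub (add (add (sub (sub (add (add (add (add C x760) x764) x768) x780) x738) x810) x1080) x1404) x270) x28)
  (sub (add (sub (add (add (sub (sub (sub (add (add C x756) x764) x766) x742) x814) x1084) x1408) x274) x30) x1490)
  (add (sub (add (add (sub (sub (sub (add (add C x756) x760) x776) x746) x818) x1088) x1412) x278) x1492)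
  (sub (add (sub (add (add (sub (add (add (sub (sub C x768) x760) x730) x802) x820) x1090) x1414) x280) x36) x1496)
  (sub (sub (add (add (sub (add (add (add (add (sub C x766) x756) x780) x732) x804) x822) x1092) x1416) x282) x40)
  (add (sub (add (add (sub (sub (sub (sub C x780) x764) x794) x830) x1100) x1424) x290) x1504)
  (sub (sub (add (add (sub (sub (add (add (sub C x776) x756) x768) x798) x834) x1104) x1428) x294) x52)
  (add (sub (add (add (sub (sub (sub (sub C x790) x794) x752) x896) x1112) x1436) x302) x1516)
  (sub (add (sub (add (add (sub (sub (sub (sub C x788) x802) x754) x898) x1114) x1438) x304) x60) x1520)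
  (add (sub (add (add (sub (sub (sub (sub C x798) x788) x776) x902) x1118) x1442) x308) x1522)
  (sub (sub (add (add (sub (sub (sub (sub C x794) x804) x780) x906) x1122) x1446) x312) x70)
  (sub (add (sub (add (add (sub (add (add (sub (sub C x804) x790) x730) x766) x910) x1126) x1450) x316) x72) x1532)
  (sub (sub (add (add (sub (add (add (sub (sub C x802) x798) x732) x768) x912) x1128) x1452) x318) x76)
  (sub (sub (sub (sub (add (add (add (add (add (add C x814) x818) x822) x834) x846) x882) x756) x972) x324) x82)
  (sub (add (sub (sub (sub (add (add (sub (add (add C x810) x818) x820) x850) x886) x760) x976) x328) x84) x1544)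
  (add (sub (sub (sub (add (add (sub (add (add C x810) x814) x830) x854) x890) x764) x980) x332) x1546)
  (sub (add (sub (sub (sub (sub (sub (sub C x822) x814) x838) x766) x982) x334) x90) x1550)
  (sub (sub (sub (sub (sub (add (add (sub C x820) x810) x834) x840) x768) x984) x336) x94)
  (add (sub (sub (sub (sub (sub (sub C x834) x818) x866) x776) x992) x344) x1558)
  (sub (sub (sub (sub (sub (add (add (sub C x830) x810) x822) x870) x780) x996) x348) x106)
  (sub (add (sub (sub (add (add (sub (add (add (sub C x840) x850) x862) x820) x730) x946) x1000) x352) x108) x1568)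
  (sub (sub (sub (add (add (sub (sub (sub C x838) x846) x822) x732) x948) x1002) x354) x112)
  (sub (sub (sub (add (add (add (add (sub (add (add C x850) x854) x840) x810) x882) x738) x954) x1008) x360) x118)
  (sub (add (sub (sub (add (add (add (add (add (add (add (add C x846) x854) x838) x862) x814) x886) x742) x958) x1012) x364) x120) x1580)
  (add (sub (sub (add (add (add (add (sub (add (add C x846) x850) x860) x818) x890) x746) x962) x1016) x368) x1582)
  (add (sub (sub (add (add (sub (sub (sub C x862) x854) x878) x752) x968) x1022) x374) x1588)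
  (sub (add (sub (sub (add (add (sub (add (add (sub C x860) x838) x850) x880) x754) x970) x1024) x376) x132) x1592)
  (add (sub (sub (sub (sub (add (add (sub C x870) x878) x890) x830) x920) x1028) x380) x1594)
  (sub (sub (sub (sub (sub (sub (sub C x866) x882) x834) x924) x1032) x384) x142)
  (add (sub (sub (sub (sub (add (add (sub C x880) x866) x890) x860) x932) x1040) x392) x1606)
  (sub (add (sub (sub (sub (sub (sub (sub C x878) x886) x862) x934) x1042) x394) x150) x1610)
  (sub (sub (sub (sub (add (add (sub (add (add C x886) x890) x870) x810) x846) x936) x1044) x396) x154)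
  (sub (add (sub (sub (sub (add (add (sub (add (add C x882) x890) x880) x814) x850) x940) x1048) x400) x156) x1616)
  (add (sub (sub (sub (add (add (add (add (add (add C x882) x886) x866) x878) x818) x854) x944) x1052) x404) x1618)
  (add (sub (sub (sub (add (add (sub (sub C x898) x902) x932) x968) x788) x1220) x410) x1624)
  (sub (add (sub (sub (sub (add (add (sub (sub C x896) x910) x934) x970) x790) x1222) x412) x168) x1628)
  (add (sub (sub (sub (sub (sub (sub C x906) x896) x920) x794) x1226) x416) x1630)
  (sub (sub (sub (sub (sub (sub (sub C x902) x912) x924) x798) x1230) x420) x178)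
  (sub (add (sub (sub (sub (sub (sub (sub C x912) x898) x946) x802) x1234) x424) x180) x1640)
  (sub (sub (sub (sub (sub (sub (sub C x910) x906) x948) x804) x1236) x426) x184)
  (add (sub (sub (sub (sub (add (add (sub C x924) x932) x944) x902) x866) x1244) x434) x1648)
  (sub (sub (sub (sub (sub (sub (sub C x920) x936) x906) x870) x1248) x438) x196)
  (add (sub (sub (sub (add (add (add (add (sub C x934) x920) x944) x896) x968) x878) x1256) x446) x1660)
  (sub (add (sub (sub (sub (add (add (sub (sub C x932) x940) x898) x970) x880) x1258) x448) x204) x1664)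
  (sub (sub (sub (sub (sub (sub (add (add C x940) x944) x924) x954) x882) x1260) x450) x208)
  (sub (add (sub (sub (sub (sub (sub (add (add C x936) x944) x934) x958) x886) x1264) x454) x210) x1670)
  (add (sub (sub (sub (sub (add (add (add (add C x936) x940) x920) x932) x962) x890) x1268) x458) x1672)
  (sub (add (sub (sub (add (add (sub (add (add (sub C x948) x958) x970) x910) x730) x838) x1270) x460) x216) x1676)
  (sub (sub (sub (add (add (sub (sub (sub C x946) x954) x912) x732) x840) x1272) x462) x220)
  (sub (sub (sub (add (add (sub (sub (add (add C x958) x962) x948) x936) x738) x846) x1278) x468) x226)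
  (sub (add (sub (sub (add (add (sub (add (add (add (add C x954) x962) x946) x970) x940) x742) x850) x1282) x472) x228) x1688)
  (add (sub (sub (add (add (sub (sub (add (add C x954) x958) x968) x944) x746) x854) x1286) x476) x1690)
  (add (sub (sub (add (add (add (add (sub (sub C x970) x962) x896) x932) x752) x860) x1292) x482) x1696)
  (sub (add (sub (sub (add (add (add (add (add (add (sub C x968) x946) x958) x898) x934) x754) x862) x1294) x484) x240) x1700)
  (sub (add (add (sub (add (add (add (add (add (add (add (add C x976) x980) x984) x996) x1008) x1044) x1080) x1188) x810) x0) x1944) x244)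
  (sub (add (add (add (sub (add (add (add (add (sub (add (add C x972) x980) x982) x1012) x1048) x1084) x1192) x814) x4) x1948) x246) x1706)
  (add (add (add (sub (add (add (add (add (sub (add (add C x972) x976) x992) x1016) x1052) x1088) x1196) x818) x8) x1952) x1708)
  (sub (add (add (add (sub (add (add (sub (sub (sub C x984) x976) x1000) x1090) x1198) x820) x10) x1954) x252) x1712)
  (sub (add (add (sub (add (add (sub (add (add (sub C x982) x972) x996) x1002) x1092) x1200) x822) x12) x1956) x256)
  (add (add (add (sub (add (add (sub (sub (sub C x996) x980) x1028) x1100) x1208) x830) x20) x1964) x1720)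
  (sub (add (add (sub (add (add (sub (add (add (sub C x992) x972) x984) x1032) x1104) x1212) x834) x24) x1968) x268)
  (sub (add (add (add (sub (sub (sub (add (add (sub C x1002) x1012) x1024) x982) x1054) x838) x28) x1972) x270) x1730)
  (sub (add (add (sub (sub (sub (sub (sub C x1000) x1008) x984) x1056) x840) x30) x1974) x274)
  (sub (add (add (sub (sub (add (add (sub (add (add C x1012) x1016) x1002) x972) x1044) x1062) x846) x36) x1980) x280)
  (sub (add (add (add (sub (sub (add (add (add (add (add (add C x1008) x1016) x1000) x1024) x976) x1048) x1066) x850) x40) x1984) x282) x1742)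
  (add (add (add (sub (sub (add (add (sub (add (add C x1008) x1012) x1022) x980) x1052) x1070) x854) x44) x1988) x1744)
  (add (add (add (sub (sub (sub (sub (sub C x1024) x1016) x1040) x1076) x860) x50) x1994) x1750)
  (sub (add (add (add (sub (sub (sub (add (add (sub C x1022) x1000) x1012) x1042) x1078) x862) x52) x1996) x294) x1754)
  (add (add (add (sub (sub (sub (add (add (sub C x1032) x1040) x1052) x992) x1136) x866) x56) x2000) x1756)
  (sub (add (add (sub (sub (sub (sub (sub C x1028) x1044) x996) x1140) x870) x60) x2004) x304)
  (add (add (add (sub (sub (sub (add (add (sub C x1042) x1028) x1052) x1022) x1148) x878) x68) x2012) x1768)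
  (sub (add (add (add (sub (sub (sub (sub (sub C x1040) x1048) x1024) x1150) x880) x70) x2014) x312) x1772)
  (sub (add (add (sub (sub (add (add (sub (add (add C x1048) x1052) x1032) x972) x1008) x1152) x882) x72) x2016) x316)
  (sub (add (add (add (sub (sub (add (add (sub (add (add C x1044) x1052) x1042) x976) x1012) x1156) x886) x76) x2020) x318) x1778)
  (add (add (add (sub (sub (add (add (add (add (add (add C x1044) x1048) x1028) x1040) x980) x1016) x1160) x890) x80) x2024) x1780)
  (sub (add (add (add (add (add (sub (add (add (add (add (sub C x1056) x1066) x1078) x1090) x1126) x1000) x730) x1378) x82) x2026) x324) x1784)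
  (sub (add (add (add (add (sub (add (add (sub (sub C x1054) x1062) x1092) x1128) x1002) x732) x1380) x84) x2028) x328)
  (sub (add (add (add (add (sub (sub (sub (add (add C x1066) x1070) x1056) x1080) x1008) x738) x1386) x90) x2034) x334)
  (sub (add (add (add (add (add (sub (sub (add (add (add (add C x1062) x1070) x1054) x1078) x1084) x1012) x742) x1390) x94) x2038) x336) x1796)
  (add (add (add (add (add (sub (sub (sub (add (add C x1062) x1066) x1076) x1088) x1016) x746) x1394) x98) x2042) x1798)
  (add (add (add (add (add (sub (sub (sub (sub C x1078) x1070) x1112) x1022) x752) x1400) x104) x2048) x1804)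
  (sub (add (add (add (add (add (sub (sub (add (add (sub C x1076) x1054) x1066) x1114) x1024) x754) x1402) x106) x2050) x348) x1808)
  (sub (add (add (add (add (add (add (sub (add (add (add (add C x1084) x1088) x1092) x1104) x1062) x972) x1188) x756) x1404) x108) x2052) x352)
  (sub (add (add (add (add (add (add (add (sub (sub (add (add C x1080) x1088) x1090) x1066) x976) x1192) x760) x1408) x112) x2056) x354) x1814)
  (add (add (add (add (add (add (add (sub (sub (add (add C x1080) x1084) x1100) x1070) x980) x1196) x764) x1412) x116) x2060) x1816)
  (sub (add (add (add (add (add (add (add (add (add (sub (sub C x1092) x1084) x1054) x1126) x982) x1198) x766) x1414) x118) x2062) x360) x1820)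
  (sub (add (add (add (add (add (add (add (add (add (add (sub C x1090) x1080) x1104) x1056) x1128) x984) x1200) x768) x1416) x120) x2064) x364)
  (add (add (add (add (add (add (add (sub (sub (sub C x1104) x1088) x1118) x992) x1208) x776) x1424) x128) x2072) x1828)
  (sub (add (add (add (add (add (add (sub (add (add (sub C x1100) x1080) x1092) x1122) x996) x1212) x780) x1428) x132) x2076) x376)
  (add (add (add (add (add (sub (sub (sub (sub C x1114) x1118) x1076) x1166) x788) x1436) x140) x2084) x1840)
  (sub (add (add (add (add (add (sub (sub (sub (sub C x1112) x1126) x1078) x1168) x790) x1438) x142) x2086) x384) x1844)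
  (add (add (add (add (add (sub (sub (sub (sub C x1122) x1112) x1100) x1172) x794) x1442) x146) x2090) x1846)
  (sub (add (add (add (add (sub (sub (sub (sub C x1118) x1128) x1104) x1176) x798) x1446) x150) x2094) x394)
  (sub (add (add (add (add (add (sub (add (add (sub (sub C x1128) x1114) x1054) x1090) x1180) x802) x1450) x154) x2098) x396) x1856)
  (sub (add (add (add (add (sub (add (add (sub (sub C x1126) x1122) x1056) x1092) x1182) x804) x1452) x156) x2100) x400)
  (add (add (add (sub (sub (add (add (add (add (sub C x1140) x1148) x1160) x1172) x1208) x1028) x1298) x164) x2108) x1864)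
  (sub (add (add (sub (sub (add (add (sub (sub C x1136) x1152) x1176) x1212) x1032) x1302) x168) x2112) x412)
  (add (add (add (sub (sub (sub (add (add (sub C x1150) x1136) x1160) x1166) x1040) x1310) x176) x2120) x1876)
  (sub (add (add (add (sub (sub (sub (sub (sub C x1148) x1156) x1168) x1042) x1312) x178) x2122) x420) x1880)
  (sub (add (add (sub (sub (sub (sub (add (add C x1156) x1160) x1140) x1188) x1044) x1314) x180) x2124) x424)
  (sub (add (add (add (sub (sub (sub (sub (add (add C x1152) x1160) x1150) x1192) x1048) x1318) x184) x2128) x426) x1886)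
  (add (add (add (sub (sub (sub (add (add (add (add C x1152) x1156) x1136) x1148) x1196) x1052) x1322) x188) x2132) x1888)
  (add (add (add (sub (sub (sub (sub (sub C x1168) x1172) x1148) x1112) x1328) x194) x2138) x1894)
  (sub (add (add (add (sub (sub (sub (sub (sub C x1166) x1180) x1150) x1114) x1330) x196) x2140) x438) x1898)
  (add (add (add (sub (sub (add (add (sub (sub C x1176) x1166) x1136) x1208) x1118) x1334) x200) x2144) x1900)
  (sub (add (add (sub (sub (add (add (sub (sub C x1172) x1182) x1140) x1212) x1122) x1338) x204) x2148) x448)
  (sub (add (add (add (sub (sub (sub (sub (sub C x1182) x1168) x1198) x1126) x1342) x208) x2152) x450) x1910)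
  (sub (add (add (sub (sub (sub (sub (sub C x1180) x1176) x1200) x1128) x1344) x210) x2154) x454)
  (sub (add (add (sub (add (add (sub (add (add (add (add C x1192) x1196) x1200) x1212) x1152) x972) x1080) x1350) x216) x2160) x460)
  (sub (add (add (add (sub (add (add (sub (sub (add (add C x1188) x1196) x1198) x1156) x976) x1084) x1354) x220) x2164) x462) x1922)
  (add (add (add (sub (add (add (sub (sub (add (add C x1188) x1192) x1208) x1160) x980) x1088) x1358) x224) x2168) x1924)
  (sub (add (add (add (sub (add (add (sub (sub (sub C x1200) x1192) x1180) x982) x1090) x1360) x226) x2170) x468) x1928)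
  (sub (add (add (sub (add (add (sub (add (add (sub C x1198) x1188) x1212) x1182) x984) x1092) x1362) x228) x2172) x472)
  (add (add (add (sub (add (add (add (add (sub (sub C x1212) x1196) x1136) x1172) x992) x1100) x1370) x236) x2180) x1936)
  (sub (add (add (sub (add (add (add (add (add (add (sub C x1208) x1188) x1200) x1140) x1176) x996) x1104) x1374) x240) x2184) x484)
  (add (sub (sub (add (add (add (add (sub (sub C x1222) x1226) x1256) x1292) x1328) x1436) x896) x1706) x1948)
  (sub (add (sub (sub (add (add (add (add (sub (sub C x1220) x1234) x1258) x1294) x1330) x1438) x898) x1708) x492) x1952)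
  (add (sub (sub (add (add (sub (sub (sub C x1230) x1220) x1244) x1334) x1442) x902) x1712) x1954)
  (sub (sub (sub (add (add (sub (sub (sub C x1226) x1236) x1248) x1338) x1446) x906) x1716) x502)
  (sub (add (sub (sub (add (add (sub (sub (sub C x1236) x1222) x1270) x1342) x1450) x910) x1720) x504) x1964)
  (sub (sub (sub (add (add (sub (sub (sub C x1234) x1230) x1272) x1344) x1452) x912) x1722) x508)
  (add (sub (sub (sub (sub (add (add (sub C x1248) x1256) x1268) x1226) x1298) x920) x1730) x1972)
  (sub (sub (sub (sub (sub (sub (sub C x1244) x1260) x1230) x1302) x924) x1734) x520)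
  (add (sub (sub (sub (add (add (add (add (sub C x1258) x1244) x1268) x1220) x1292) x1310) x932) x1742) x1984)
  (sub (add (sub (sub (sub (add (add (sub (sub C x1256) x1264) x1222) x1294) x1312) x934) x1744) x528) x1988)
  (sub (sub (sub (sub (sub (sub (add (add C x1264) x1268) x1248) x1278) x1314) x936) x1746) x532)
  (sub (add (sub (sub (sub (sub (sub (add (add C x1260) x1268) x1258) x1282) x1318) x940) x1750) x534) x1994)
  (add (sub (sub (sub (sub (add (add (add (add C x1260) x1264) x1244) x1256) x1286) x1322) x944) x1754) x1996)
  (sub (add (sub (sub (sub (sub (add (add (sub C x1272) x1282) x1294) x1234) x1378) x946) x1756) x540) x2000)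
  (sub (sub (sub (sub (sub (sub (sub C x1270) x1278) x1236) x1380) x948) x1758) x544)
  (sub (sub (sub (sub (sub (sub (add (add C x1282) x1286) x1272) x1260) x1386) x954) x1764) x550)
  (sub (add (sub (sub (sub (sub (add (add (add (add C x1278) x1286) x1270) x1294) x1264) x1390) x958) x1768) x552) x2012)
  (add (sub (sub (sub (sub (sub (add (add C x1278) x1282) x1292) x1268) x1394) x962) x1772) x2014)
  (add (sub (sub (sub (add (add (sub (sub C x1294) x1286) x1220) x1256) x1400) x968) x1778) x2020)
  (sub (add (sub (sub (sub (add (add (add (add (sub C x1292) x1270) x1282) x1222) x1258) x1402) x970) x1780) x564) x2024)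
  (add (sub (sub (sub (add (add (add (add (sub C x1302) x1310) x1322) x1334) x1370) x1244) x1136) x1784) x2026)
  (sub (sub (sub (sub (add (add (sub (sub C x1298) x1314) x1338) x1374) x1248) x1140) x1788) x574)
  (add (sub (sub (sub (sub (add (add (sub C x1312) x1298) x1322) x1328) x1256) x1148) x1796) x2038)
  (sub (add (sub (sub (sub (sub (sub (sub C x1310) x1318) x1330) x1258) x1150) x1798) x582) x2042)
  (sub (sub (sub (sub (sub (sub (add (add C x1318) x1322) x1302) x1350) x1260) x1152) x1800) x586)
  (sub (add (sub (sub (sub (sub (sub (add (add C x1314) x1322) x1312) x1354) x1264) x1156) x1804) x588) x2048)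
  (add (sub (sub (sub (sub (add (add (add (add C x1314) x1318) x1298) x1310) x1358) x1268) x1160) x1808) x2050)
  (add (sub (sub (add (add (sub (sub (sub C x1330) x1334) x1310) x1220) x1436) x1166) x1814) x2056)
  (sub (add (sub (sub (add (add (sub (sub (sub C x1328) x1342) x1312) x1222) x1438) x1168) x1816) x600) x2060)
  (add (sub (sub (add (add (add (add (sub (sub C x1338) x1328) x1298) x1370) x1226) x1442) x1172) x1820) x2062)
  (sub (sub (sub (add (add (add (add (sub (sub C x1334) x1344) x1302) x1374) x1230) x1446) x1176) x1824) x610)
  (sub (add (sub (sub (add (add (sub (sub (sub C x1344) x1330) x1360) x1234) x1450) x1180) x1828) x612) x2072)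
  (sub (sub (sub (add (add (sub (sub (sub C x1342) x1338) x1362) x1236) x1452) x1182) x1830) x616)
  (sub (sub (sub (sub (sub (add (add (add (add C x1354) x1358) x1362) x1374) x1314) x1404) x1188) x1836) x622)
  (sub (add (sub (sub (sub (sub (sub (add (add C x1350) x1358) x1360) x1318) x1408) x1192) x1840) x624) x2084)
  (add (sub (sub (sub (sub (sub (add (add C x1350) x1354) x1370) x1322) x1412) x1196) x1844) x2086)
  (sub (add (sub (sub (sub (sub (sub (sub C x1362) x1354) x1342) x1414) x1198) x1846) x630) x2090)
  (sub (sub (sub (sub (sub (add (add (sub C x1360) x1350) x1374) x1344) x1416) x1200) x1848) x634)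
  (add (sub (sub (sub (add (add (sub (sub C x1374) x1358) x1298) x1334) x1424) x1208) x1856) x2098)
  (sub (sub (sub (sub (add (add (add (add (sub C x1370) x1350) x1362) x1302) x1338) x1428) x1212) x1860) x646)
  (sub (add (sub (add (add (sub (add (add (add (add (sub C x1380) x1390) x1402) x1414) x1450) x1270) x730) x1054) x1864) x648) x2108)
  (sub (sub (add (add (sub (add (add (sub (sub C x1378) x1386) x1416) x1452) x1272) x732) x1056) x1866) x652)
  (sub (sub (add (add (sub (sub (sub (add (add C x1390) x1394) x1380) x1404) x1278) x738) x1062) x1872) x658)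
  (sub (add (sub (add (add (sub (sub (add (add (add (add C x1386) x1394) x1378) x1402) x1408) x1282) x742) x1066) x1876) x660) x2120)
  (add (sub (add (add (sub (sub (sub (add (add C x1386) x1390) x1400) x1412) x1286) x746) x1070) x1880) x2122)
  (add (sub (add (add (sub (sub (sub (sub C x1402) x1394) x1436) x1292) x752) x1076) x1886) x2128)
  (sub (add (sub (add (add (sub (sub (add (add (sub C x1400) x1378) x1390) x1438) x1294) x754) x1078) x1888) x672) x2132)
  (sub (sub (add (add (sub (sub (add (add (add (add C x1408) x1412) x1416) x1428) x1386) x1350) x756) x1080) x1890) x676)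
  (sub (add (sub (add (add (sub (sub (sub (add (add C x1404) x1412) x1414) x1390) x1354) x760) x1084) x1894) x678) x2138)
  (add (sub (add (add (sub (sub (sub (add (add C x1404) x1408) x1424) x1394) x1358) x764) x1088) x1898) x2140)
  (sub (add (sub (add (add (sub (add (add (sub (sub C x1416) x1408) x1378) x1450) x1360) x766) x1090) x1900) x684) x2144)
  (sub (sub (add (add (sub (add (add (add (add (sub C x1414) x1404) x1428) x1380) x1452) x1362) x768) x1092) x1902) x688)
  (add (sub (add (add (sub (sub (sub (sub C x1428) x1412) x1442) x1370) x776) x1100) x1910) x2152)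
  (sub (sub (add (add (sub (sub (add (add (sub C x1424) x1404) x1416) x1446) x1374) x780) x1104) x1914) x700)
  (add (sub (add (add (add (add (sub (sub (sub C x1438) x1442) x1400) x1220) x1328) x788) x1112) x1922) x2164)
  (sub (add (sub (add (add (add (add (sub (sub (sub C x1436) x1450) x1402) x1222) x1330) x790) x1114) x1924) x708) x2168)
  (add (sub (add (add (add (add (sub (sub (sub C x1446) x1436) x1424) x1226) x1334) x794) x1118) x1928) x2170)
  (sub (sub (add (add (add (add (sub (sub (sub C x1442) x1452) x1428) x1230) x1338) x798) x1122) x1932) x718)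
  (sub (add (sub (add (add (add (add (add (add (sub (sub C x1452) x1438) x1378) x1414) x1234) x1342) x802) x1126) x1936) x720) x2180)
  (sub (sub (add (add (add (add (add (add (sub (sub C x1450) x1446) x1380) x1416) x1236) x1344) x804) x1128) x1938) x724)
  (sub (sub (sub (add (add (add (add (add (add (add (add (sub C x1464) x1472) x1484) x1496) x1532) x1568) x1676) x1784) x2108) x488) x0) x730)
  (add (sub (add (add (add (add (add (add (sub (sub C x1460) x1476) x1500) x1536) x1572) x1680) x1788) x2112) x492) x8)
  (sub (sub (sub (add (add (add (add (sub (add (add (sub C x1474) x1460) x1484) x1490) x1580) x1688) x1796) x2120) x500) x12) x742)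
  (add (sub (add (add (add (add (sub (sub (sub C x1472) x1480) x1492) x1582) x1690) x1798) x2122) x502) x746)
  (add (sub (add (add (add (add (sub (sub (add (add C x1480) x1484) x1464) x1512) x1584) x1692) x1800) x2124) x504) x20)
  (add (sub (add (add (add (add (sub (sub (add (add C x1476) x1484) x1474) x1516) x1588) x1696) x1804) x2128) x508) x752)
  (sub (sub (sub (add (add (add (add (sub (add (add (add (add C x1476) x1480) x1460) x1472) x1520) x1592) x1700) x1808) x2132) x512) x24) x754)
  (sub (sub (sub (add (add (sub (sub (sub (sub C x1492) x1496) x1472) x1544) x1814) x2138) x518) x30) x760)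
  (add (sub (add (add (sub (sub (sub (sub C x1490) x1504) x1474) x1546) x1816) x2140) x520) x764)
  (sub (sub (sub (add (add (sub (add (add (sub (sub C x1500) x1490) x1460) x1532) x1550) x1820) x2144) x524) x36) x766)
  (add (sub (add (add (sub (add (add (sub (sub C x1496) x1506) x1464) x1536) x1554) x1824) x2148) x528) x44)
  (add (sub (add (add (sub (sub (sub (sub C x1506) x1492) x1522) x1558) x1828) x2152) x532) x776)
  (add (sub (add (add (sub (sub (sub (sub C x1504) x1500) x1524) x1560) x1830) x2154) x534) x50)
  (add (sub (add (add (sub (sub (add (add (add (add C x1516) x1520) x1524) x1536) x1476) x1620) x1836) x2160) x540) x56)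
  (add (sub (add (add (sub (sub (sub (add (add C x1512) x1520) x1522) x1480) x1624) x1840) x2164) x544) x788)
  (sub (sub (sub (add (add (sub (sub (sub (add (add C x1512) x1516) x1532) x1484) x1628) x1844) x2168) x548) x60) x790)
  (add (sub (add (add (sub (sub (sub (sub C x1524) x1516) x1504) x1630) x1846) x2170) x550) x794)
  (add (sub (add (add (sub (sub (add (add (sub C x1522) x1512) x1536) x1506) x1632) x1848) x2172) x552) x68)
  (sub (sub (sub (add (add (sub (add (add (sub (sub C x1536) x1520) x1460) x1496) x1640) x1856) x2180) x560) x72) x802)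
  (add (sub (add (add (sub (add (add (add (add (sub C x1532) x1512) x1524) x1464) x1500) x1644) x1860) x2184) x564) x80)
  (sub (sub (sub (sub (sub (add (add (sub (sub C x1546) x1550) x1580) x1616) x1490) x1706) x572) x84) x814)
  (add (sub (sub (sub (add (add (sub (sub C x1544) x1558) x1582) x1618) x1492) x1708) x574) x818)
  (sub (sub (sub (sub (sub (sub (sub (sub C x1554) x1544) x1568) x1496) x1712) x578) x90) x820)
  (add (sub (sub (sub (sub (sub (sub C x1550) x1560) x1572) x1500) x1716) x582) x98)
  (add (sub (sub (sub (sub (sub (sub C x1560) x1546) x1594) x1504) x1720) x586) x830)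
  (add (sub (sub (sub (sub (sub (sub C x1558) x1554) x1596) x1506) x1722) x588) x104)
  (sub (sub (sub (sub (add (add (sub (add (add (sub C x1572) x1580) x1592) x1550) x1460) x1676) x1730) x596) x108) x838)
  (add (sub (sub (add (add (sub (sub (sub C x1568) x1584) x1554) x1464) x1680) x1734) x600) x116)
  (sub (sub (sub (sub (add (add (add (add (add (add (sub C x1582) x1568) x1592) x1544) x1616) x1472) x1688) x1742) x608) x120) x850)
  (add (sub (sub (add (add (add (add (sub (sub C x1580) x1588) x1546) x1618) x1474) x1690) x1744) x610) x854)
  (add (sub (sub (add (add (sub (sub (add (add C x1588) x1592) x1572) x1602) x1476) x1692) x1746) x612) x128)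
  (add (sub (sub (add (add (sub (sub (add (add C x1584) x1592) x1582) x1606) x1480) x1696) x1750) x616) x860)
  (sub (sub (sub (sub (add (add (sub (add (add (add (add C x1584) x1588) x1568) x1580) x1610) x1484) x1700) x1754) x620) x132) x862)
  (add (sub (sub (sub (sub (add (add (sub C x1596) x1606) x1618) x1558) x1648) x1756) x622) x866)
  (add (sub (sub (sub (sub (sub (sub C x1594) x1602) x1560) x1650) x1758) x624) x140)
  (add (sub (sub (sub (sub (sub (add (add C x1606) x1610) x1596) x1584) x1656) x1764) x630) x146)
  (add (sub (sub (sub (sub (add (add (add (add C x1602) x1610) x1594) x1618) x1588) x1660) x1768) x634) x878)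
  (sub (sub (sub (sub (sub (sub (sub (add (add C x1602) x1606) x1616) x1592) x1664) x1772) x638) x150) x880)
  (sub (sub (sub (sub (sub (add (add (sub (sub C x1618) x1610) x1544) x1580) x1670) x1778) x644) x156) x886)
  (add (sub (sub (sub (add (add (add (add (sub C x1616) x1594) x1606) x1546) x1582) x1672) x1780) x646) x890)
  (add (sub (sub (sub (add (add (add (add (add (add C x1624) x1628) x1632) x1644) x1656) x1692) x1512) x1944) x648) x164)
  (add (sub (sub (sub (add (add (sub (add (add C x1620) x1628) x1630) x1660) x1696) x1516) x1948) x652) x896)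
  (sub (sub (sub (sub (sub (add (add (sub (add (add C x1620) x1624) x1640) x1664) x1700) x1520) x1952) x656) x168) x898)
  (add (sub (sub (sub (sub (sub (sub C x1632) x1624) x1648) x1522) x1954) x658) x902)
  (add (sub (sub (sub (sub (add (add (sub C x1630) x1620) x1644) x1650) x1524) x1956) x660) x176)
  (sub (sub (sub (sub (sub (sub (sub (sub C x1644) x1628) x1676) x1532) x1964) x668) x180) x910)
  (add (sub (sub (sub (sub (add (add (sub C x1640) x1620) x1632) x1680) x1536) x1968) x672) x188)
  (add (sub (sub (sub (sub (add (add (sub C x1650) x1660) x1672) x1630) x1594) x1972) x676) x920)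
  (add (sub (sub (sub (sub (sub (sub C x1648) x1656) x1632) x1596) x1974) x678) x194)
  (add (sub (sub (sub (add (add (sub (add (add C x1660) x1664) x1650) x1620) x1692) x1602) x1980) x684) x200)
  (add (sub (sub (sub (add (add (add (add (add (add C x1656) x1664) x1648) x1672) x1624) x1696) x1606) x1984) x688) x932)
  (sub (sub (sub (sub (sub (add (add (sub (add (add C x1656) x1660) x1670) x1628) x1700) x1610) x1988) x692) x204) x934)
  (sub (sub (sub (sub (sub (sub (sub (sub C x1672) x1664) x1688) x1616) x1994) x698) x210) x940)
  (add (sub (sub (sub (sub (add (add (sub C x1670) x1648) x1660) x1690) x1618) x1996) x700) x944)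
  (sub (sub (sub (sub (add (add (sub (add (add (sub C x1680) x1688) x1700) x1640) x1460) x1568) x2000) x704) x216) x946)
  (add (sub (sub (add (add (sub (sub (sub C x1676) x1692) x1644) x1464) x1572) x2004) x708) x224)
  (sub (sub (sub (sub (add (add (sub (add (add (sub C x1690) x1676) x1700) x1670) x1472) x1580) x2012) x716) x228) x958)
  (add (sub (sub (add (add (sub (sub (sub C x1688) x1696) x1672) x1474) x1582) x2014) x718) x962)
  (add (sub (sub (add (add (add (add (sub (add (add C x1696) x1700) x1680) x1620) x1656) x1476) x1584) x2016) x720) x236)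
  (add (sub (sub (add (add (add (add (sub (add (add C x1692) x1700) x1690) x1624) x1660) x1480) x1588) x2020) x724) x968)
  (sub (sub (sub (sub (add (add (add (add (add (add (add (add C x1692) x1696) x1676) x1688) x1628) x1664) x1484) x1592) x2024) x728) x240) x970)
  (sub (sub (sub (sub (add (add (add (add (sub (sub C x1708) x1712) x1742) x1778) x1814) x1922) x1544) x1220) x246) x976)
  (add (sub (sub (add (add (add (add (sub (sub C x1706) x1720) x1744) x1780) x1816) x1924) x1546) x1222) x980)
  (sub (sub (sub (sub (add (add (sub (sub (sub C x1716) x1706) x1730) x1820) x1928) x1550) x1226) x252) x982)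
  (add (sub (sub (add (add (sub (sub (sub C x1712) x1722) x1734) x1824) x1932) x1554) x1230) x260)
  (add (sub (sub (add (add (sub (sub (sub C x1722) x1708) x1756) x1828) x1936) x1558) x1234) x992)
  (add (sub (sub (add (add (sub (sub (sub C x1720) x1716) x1758) x1830) x1938) x1560) x1236) x266)
  (sub (sub (sub (sub (sub (sub (add (add (sub C x1734) x1742) x1754) x1712) x1784) x1568) x1244) x270) x1000)
  (add (sub (sub (sub (sub (sub (sub C x1730) x1746) x1716) x1788) x1572) x1248) x278)
  (sub (sub (sub (sub (sub (add (add (add (add (sub C x1744) x1730) x1754) x1706) x1778) x1796) x1580) x1256) x282) x1012)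
  (add (sub (sub (sub (add (add (sub (sub C x1742) x1750) x1708) x1780) x1798) x1582) x1258) x1016)
  (add (sub (sub (sub (sub (sub (add (add C x1750) x1754) x1734) x1764) x1800) x1584) x1260) x290)
  (add (sub (sub (sub (sub (sub (add (add C x1746) x1754) x1744) x1768) x1804) x1588) x1264) x1022)
  (sub (sub (sub (sub (sub (sub (add (add (add (add C x1746) x1750) x1730) x1742) x1772) x1808) x1592) x1268) x294) x1024)
  (add (sub (sub (sub (sub (add (add (sub C x1758) x1768) x1780) x1720) x1864) x1594) x1270) x1028)
  (add (sub (sub (sub (sub (sub (sub C x1756) x1764) x1722) x1866) x1596) x1272) x302)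
  (add (sub (sub (sub (sub (sub (add (add C x1768) x1772) x1758) x1746) x1872) x1602) x1278) x308)
  (add (sub (sub (sub (sub (add (add (add (add C x1764) x1772) x1756) x1780) x1750) x1876) x1606) x1282) x1040)
  (sub (sub (sub (sub (sub (sub (sub (add (add C x1764) x1768) x1778) x1754) x1880) x1610) x1286) x312) x1042)
  (sub (sub (sub (sub (sub (add (add (sub (sub C x1780) x1772) x1706) x1742) x1886) x1616) x1292) x318) x1048)
  (add (sub (sub (sub (add (add (add (add (sub C x1778) x1756) x1768) x1708) x1744) x1888) x1618) x1294) x1052)
  (sub (sub (sub (add (add (sub (add (add (add (add (sub C x1788) x1796) x1808) x1820) x1856) x1730) x1460) x2108) x1298) x324) x1054)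
  (add (sub (add (add (sub (add (add (sub (sub C x1784) x1800) x1824) x1860) x1734) x1464) x2112) x1302) x332)
  (sub (sub (sub (add (add (sub (sub (add (add (sub C x1798) x1784) x1808) x1814) x1742) x1472) x2120) x1310) x336) x1066)
  (add (sub (add (add (sub (sub (sub (sub C x1796) x1804) x1816) x1744) x1474) x2122) x1312) x1070)
  (add (sub (add (add (sub (sub (sub (add (add C x1804) x1808) x1788) x1836) x1746) x1476) x2124) x1314) x344)
  (add (sub (add (add (sub (sub (sub (add (add C x1800) x1808) x1798) x1840) x1750) x1480) x2128) x1318) x1076)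
  (sub (sub (sub (add (add (sub (sub (add (add (add (add C x1800) x1804) x1784) x1796) x1844) x1754) x1484) x2132) x1322) x348) x1078)
  (sub (sub (sub (add (add (add (add (sub (sub (sub C x1816) x1820) x1796) x1706) x1922) x1490) x2138) x1328) x354) x1084)
  (add (sub (add (add (add (add (sub (sub (sub C x1814) x1828) x1798) x1708) x1924) x1492) x2140) x1330) x1088)
  (sub (sub (sub (add (add (add (add (add (add (sub (sub C x1824) x1814) x1784) x1856) x1712) x1928) x1496) x2144) x1334) x360) x1090)
  (add (sub (add (add (add (add (add (add (sub (sub C x1820) x1830) x1788) x1860) x1716) x1932) x1500) x2148) x1338) x368)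
  (add (sub (add (add (add (add (sub (sub (sub C x1830) x1816) x1846) x1720) x1936) x1504) x2152) x1342) x1100)
  (add (sub (add (add (add (add (sub (sub (sub C x1828) x1824) x1848) x1722) x1938) x1506) x2154) x1344) x374)
  (add (sub (add (add (sub (sub (add (add (add (add C x1840) x1844) x1848) x1860) x1800) x1890) x1512) x2160) x1350) x380)
  (add (sub (add (add (sub (sub (sub (add (add C x1836) x1844) x1846) x1804) x1894) x1516) x2164) x1354) x1112)
  (sub (sub (sub (add (add (sub (sub (sub (add (add C x1836) x1840) x1856) x1808) x1898) x1520) x2168) x1358) x384) x1114)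
  (add (sub (add (add (sub (sub (sub (sub C x1848) x1840) x1828) x1900) x1522) x2170) x1360) x1118)
  (add (sub (add (add (sub (sub (add (add (sub C x1846) x1836) x1860) x1830) x1902) x1524) x2172) x1362) x392)
  (sub (sub (sub (add (add (sub (add (add (sub (sub C x1860) x1844) x1784) x1820) x1910) x1532) x2180) x1370) x396) x1126)
  (add (sub (add (add (sub (add (add (add (add (sub C x1856) x1836) x1848) x1788) x1824) x1914) x1536) x2184) x1374) x404)
  (add (sub (sub (sub (add (add (add (add (sub C x1866) x1876) x1888) x1900) x1936) x1756) x2026) x1378) x1136)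
  (add (sub (sub (sub (add (add (sub (sub C x1864) x1872) x1902) x1938) x1758) x2028) x1380) x410)
  (add (sub (sub (sub (sub (sub (add (add C x1876) x1880) x1866) x1890) x1764) x2034) x1386) x416)
  (add (sub (sub (sub (sub (add (add (add (add C x1872) x1880) x1864) x1888) x1894) x1768) x2038) x1390) x1148)
  (sub (sub (sub (sub (sub (sub (sub (add (add C x1872) x1876) x1886) x1898) x1772) x2042) x1394) x420) x1150)
  (sub (sub (sub (sub (sub (sub (sub (sub C x1888) x1880) x1922) x1778) x2048) x1400) x426) x1156)
  (add (sub (sub (sub (sub (add (add (sub C x1886) x1864) x1876) x1924) x1780) x2050) x1402) x1160)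
  (add (sub (sub (sub (sub (add (add (add (add C x1894) x1898) x1902) x1914) x1872) x1836) x2052) x1404) x434)
  (add (sub (sub (sub (sub (sub (add (add C x1890) x1898) x1900) x1876) x1840) x2056) x1408) x1166)
  (sub (sub (sub (sub (sub (sub (sub (add (add C x1890) x1894) x1910) x1880) x1844) x2060) x1412) x438) x1168)
  (add (sub (sub (sub (add (add (sub (sub C x1902) x1894) x1864) x1936) x1846) x2062) x1414) x1172)
  (add (sub (sub (sub (add (add (add (add (sub C x1900) x1890) x1914) x1866) x1938) x1848) x2064) x1416) x446)
  (sub (sub (sub (sub (sub (sub (sub (sub C x1914) x1898) x1928) x1856) x2072) x1424) x450) x1180)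
  (add (sub (sub (sub (sub (add (add (sub C x1910) x1890) x1902) x1932) x1860) x2076) x1428) x458)
  (sub (sub (sub (sub (add (add (sub (sub (sub C x1924) x1928) x1886) x1706) x1814) x2084) x1436) x462) x1192)
  (add (sub (sub (add (add (sub (sub (sub C x1922) x1936) x1888) x1708) x1816) x2086) x1438) x1196)
  (sub (sub (sub (sub (add (add (sub (sub (sub C x1932) x1922) x1910) x1712) x1820) x2090) x1442) x468) x1198)
  (add (sub (sub (add (add (sub (sub (sub C x1928) x1938) x1914) x1716) x1824) x2094) x1446) x476)
  (add (sub (sub (add (add (add (add (sub (sub C x1938) x1924) x1864) x1900) x1720) x1828) x2098) x1450) x1208)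
  (add (sub (sub (add (add (add (add (sub (sub C x1936) x1932) x1866) x1902) x1722) x1830) x2100) x1452) x482)
  (add (add (add (sub (add (add (add (add (add (add (add (add C x1948) x1952) x1956) x1968) x1980) x2016) x2052) x2160) x1620) x0) x972) x488)
  (add (add (add (sub (add (add (add (add (sub (add (add C x1944) x1952) x1954) x1984) x2020) x2056) x2164) x1624) x4) x976) x1220)
  (sub (sub (add (add (sub (add (add (add (add (sub (add (add C x1944) x1948) x1964) x1988) x2024) x2060) x2168) x1628) x8) x980) x492) x1222)
  (add (add (add (sub (add (add (sub (sub (sub C x1956) x1948) x1972) x2062) x2170) x1630) x10) x982) x1226)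
  (add (add (add (sub (add (add (sub (add (add (sub C x1954) x1944) x1968) x1974) x2064) x2172) x1632) x12) x984) x500)
  (sub (sub (add (add (sub (add (add (sub (sub (sub C x1968) x1952) x2000) x2072) x2180) x1640) x20) x992) x504) x1234)
  (add (add (add (sub (add (add (sub (add (add (sub C x1964) x1944) x1956) x2004) x2076) x2184) x1644) x24) x996) x512)
  (add (add (add (sub (sub (sub (add (add (sub C x1974) x1984) x1996) x1954) x2026) x1648) x28) x1000) x1244)
  (add (add (add (sub (sub (sub (sub (sub C x1972) x1980) x1956) x2028) x1650) x30) x1002) x518)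
  (add (add (add (sub (sub (add (add (sub (add (add C x1984) x1988) x1974) x1944) x2016) x2034) x1656) x36) x1008) x524)
  (add (add (add (sub (sub (add (add (add (add (add (add C x1980) x1988) x1972) x1996) x1948) x2020) x2038) x1660) x40) x1012) x1256)
  (sub (sub (add (add (sub (sub (add (add (sub (add (add C x1980) x1984) x1994) x1952) x2024) x2042) x1664) x44) x1016) x528) x1258)
  (sub (sub (add (add (sub (sub (sub (sub (sub C x1996) x1988) x2012) x2048) x1670) x50) x1022) x534) x1264)
  (add (add (add (sub (sub (sub (add (add (sub C x1994) x1972) x1984) x2014) x2050) x1672) x52) x1024) x1268)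
  (sub (sub (add (add (sub (sub (sub (add (add (sub C x2004) x2012) x2024) x1964) x2108) x1676) x56) x1028) x540) x1270)
  (add (add (add (sub (sub (sub (sub (sub C x2000) x2016) x1968) x2112) x1680) x60) x1032) x548)
  (sub (sub (add (add (sub (sub (sub (add (add (sub C x2014) x2000) x2024) x1994) x2120) x1688) x68) x1040) x552) x1282)
  (add (add (add (sub (sub (sub (sub (sub C x2012) x2020) x1996) x2122) x1690) x70) x1042) x1286)
  (add (add (add (sub (sub (add (add (sub (add (add C x2020) x2024) x2004) x1944) x1980) x2124) x1692) x72) x1044) x560)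
  (add (add (add (sub (sub (add (add (sub (add (add C x2016) x2024) x2014) x1948) x1984) x2128) x1696) x76) x1048) x1292)
  (sub (sub (add (add (sub (sub (add (add (add (add (add (add C x2016) x2020) x2000) x2012) x1952) x1988) x2132) x1700) x80) x1052) x564) x1294)
  (add (add (add (sub (sub (add (add (add (add (sub C x2028) x2038) x2050) x2062) x2098) x1972) x1864) x82) x1054) x1298)
  (add (add (add (sub (sub (add (add (sub (sub C x2026) x2034) x2064) x2100) x1974) x1866) x84) x1056) x572)
  (add (add (add (sub (sub (sub (sub (add (add C x2038) x2042) x2028) x2052) x1980) x1872) x90) x1062) x578)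
  (add (add (add (sub (sub (sub (add (add (add (add C x2034) x2042) x2026) x2050) x2056) x1984) x1876) x94) x1066) x1310)
  (sub (sub (add (add (sub (sub (sub (sub (add (add C x2034) x2038) x2048) x2060) x1988) x1880) x98) x1070) x582) x1312)
  (sub (sub (add (add (sub (sub (sub (sub (sub C x2050) x2042) x2084) x1994) x1886) x104) x1076) x588) x1318)
  (add (add (add (sub (sub (sub (add (add (sub C x2048) x2026) x2038) x2086) x1996) x1888) x106) x1078) x1322)
  (add (add (add (sub (add (add (sub (add (add (add (add C x2056) x2060) x2064) x2076) x2034) x1944) x2160) x1890) x108) x1080) x596)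
  (add (add (add (sub (add (add (sub (sub (add (add C x2052) x2060) x2062) x2038) x1948) x2164) x1894) x112) x1084) x1328)
  (sub (sub (add (add (sub (add (add (sub (sub (add (add C x2052) x2056) x2072) x2042) x1952) x2168) x1898) x116) x1088) x600) x1330)
  (add (add (add (sub (add (add (add (add (sub (sub C x2064) x2056) x2026) x2098) x1954) x2170) x1900) x118) x1090) x1334)
  (add (add (add (sub (add (add (add (add (add (add (sub C x2062) x2052) x2076) x2028) x2100) x1956) x2172) x1902) x120) x1092) x608)
  (sub (sub (add (add (sub (add (add (sub (sub (sub C x2076) x2060) x2090) x1964) x2180) x1910) x128) x1100) x612) x1342)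
  (add (add (add (sub (add (add (sub (add (add (sub C x2072) x2052) x2064) x2094) x1968) x2184) x1914) x132) x1104) x620)
  (sub (sub (add (add (sub (sub (sub (sub (sub C x2086) x2090) x2048) x2138) x1922) x140) x1112) x624) x1354)
  (add (add (add (sub (sub (sub (sub (sub C x2084) x2098) x2050) x2140) x1924) x142) x1114) x1358)
  (sub (sub (add (add (sub (sub (sub (sub (sub C x2094) x2084) x2072) x2144) x1928) x146) x1118) x630) x1360)
  (add (add (add (sub (sub (sub (sub (sub C x2090) x2100) x2076) x2148) x1932) x150) x1122) x638)
  (add (add (add (sub (sub (add (add (sub (sub C x2100) x2086) x2026) x2062) x2152) x1936) x154) x1126) x1370)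
  (add (add (add (sub (sub (add (add (sub (sub C x2098) x2094) x2028) x2064) x2154) x1938) x156) x1128) x644)
  (sub (sub (add (add (add (add (sub (add (add (add (add (sub C x2112) x2120) x2132) x2144) x2180) x2000) x1460) x1784) x164) x1136) x648) x1378)
  (add (add (add (add (add (sub (add (add (sub (sub C x2108) x2124) x2148) x2184) x2004) x1464) x1788) x168) x1140) x656)
  (sub (sub (add (add (add (add (sub (sub (add (add (sub C x2122) x2108) x2132) x2138) x2012) x1472) x1796) x176) x1148) x660) x1390)
  (add (add (add (add (add (sub (sub (sub (sub C x2120) x2128) x2140) x2014) x1474) x1798) x178) x1150) x1394)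
  (add (add (add (add (add (sub (sub (sub (add (add C x2128) x2132) x2112) x2160) x2016) x1476) x1800) x180) x1152) x668)
  (add (add (add (add (add (sub (sub (sub (add (add C x2124) x2132) x2122) x2164) x2020) x1480) x1804) x184) x1156) x1400)
  (sub (sub (add (add (add (add (sub (sub (add (add (add (add C x2124) x2128) x2108) x2120) x2168) x2024) x1484) x1808) x188) x1160) x672) x1402)
  (sub (sub (add (add (add (add (sub (sub (sub (sub C x2140) x2144) x2120) x2084) x1490) x1814) x194) x1166) x678) x1408)
  (add (add (add (add (add (sub (sub (sub (sub C x2138) x2152) x2122) x2086) x1492) x1816) x196) x1168) x1412)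
  (sub (sub (add (add (add (add (sub (add (add (sub (sub C x2148) x2138) x2108) x2180) x2090) x1496) x1820) x200) x1172) x684) x1414)
  (add (add (add (add (add (sub (add (add (sub (sub C x2144) x2154) x2112) x2184) x2094) x1500) x1824) x204) x1176) x692)
  (add (add (add (add (add (sub (sub (sub (sub C x2154) x2140) x2170) x2098) x1504) x1828) x208) x1180) x1424)
  (add (add (add (add (add (sub (sub (sub (sub C x2152) x2148) x2172) x2100) x1506) x1830) x210) x1182) x698)
  (add (add (add (add (add (add (add (sub (add (add (add (add C x2164) x2168) x2172) x2184) x2124) x1944) x2052) x1512) x1836) x216) x1188) x704)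
  (add (add (add (add (add (add (add (sub (sub (add (add C x2160) x2168) x2170) x2128) x1948) x2056) x1516) x1840) x220) x1192) x1436)
  (sub (sub (add (add (add (add (add (add (sub (sub (add (add C x2160) x2164) x2180) x2132) x1952) x2060) x1520) x1844) x224) x1196) x708) x1438)
  (add (add (add (add (add (add (add (sub (sub (sub C x2172) x2164) x2152) x1954) x2062) x1522) x1846) x226) x1198) x1442)
  (add (add (add (add (add (add (add (sub (add (add (sub C x2170) x2160) x2184) x2154) x1956) x2064) x1524) x1848) x228) x1200) x716)
  (sub (sub (add (add (add (add (add (add (add (add (sub (sub C x2184) x2168) x2108) x2144) x1964) x2072) x1532) x1856) x236) x1208) x720) x1450)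
  (add (add (add (add (add (add (add (add (add (add (add (sub C x2180) x2160) x2172) x2112) x2148) x1968) x2076) x1536) x1860) x240) x1212) x728))
  (chk [x0, x4, x8, x10, x20, x28, x40, x44, x50, x52, x56, x68,
  x80, x94, x98, x104, x106, x112, x116, x128, x140, x142, x146, x176,
  x188, x194, x224, x274, x278, x290, x302, x344, x364, x368, x374, x376,
  x392, x394, x400, x404, x446, x448, x458, x476, x482, x484, x548, x608,
  x620, x638, x644, x692, x728])

noncomputable def RK : Nat := nat_lit 0x2d802b40284027e026c0260022401e401e201dc01ca01c001be01940190018a0188017801760170016c0158012e01220116011200e000c200bc00b00092008e008c008000740070006a00680062005e00500044003800340032002c0028001c0014000a000800040000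

noncomputable def CK : Nat := nat_lit 0x700070007000e000e000700070007000e000e000e0007000e000e0007000e000e000e000e000e00070007000e000e0007000700070007000e000e000e0007000e000e000e0007000e000e000e000e0007000700070007000e000e0007000700070007000700070001

noncomputable def H : Nat := nat_lit 0x15f600000000000016080000000000000000000000000000107a0000131400001614000000000000109800000000000005160000000000000000000011be000012a8000000000000144600000000000010c200000000000012d20000132000000000000000000000162000000000000014700000000000000a26000011e8000010a400000000000000000000000000000a5000000000000005400000000000000000000000000000122a0000123c00000000000014b20000000000001206000000000000153c000012b40000000000000000000000000000158a000000000000148e00000000000000000000000000000df200000f12000010b6000000000000102c00000000000002fa0000125a000012c600000000000000000000132c0000000000000ef400000000000005ee0000000000000000000006f0000003fc0000161a00000000000015ae0000000000000afe000014e80000147c0000000000000000000000000000136e0000000000000a6e0000000000001260000011f40000000000000000000010b00000000000000e28000000000000079e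000000000000000000000bd60000070e0000000000000b2e0000000000000a5c000000000000000000000000000007d4000006240000054c000000000000033000000000000000de000000000000000000001296000011d0000000000000151e000000000000127200000000000014d000001248000000000000000000000000000014b800000000000014fa00000000000000000000000000000e5e00000fea000011fa0000000000000fc00000000000000366000014e2000015480000000000000000000012c00000000000000e88000000000000065a00000000000000000000068400000390000000000000144c000000000000159c00000000000000000000000000000f3600001164000014820000000000000f5400000000000004aa0000000000000000000010e6000010f800000000000013da0000000000000e3a0000000000000e9a00000f060000000000000000000010aa0000000000000f6600000000000009ba00000fd20000103800000000000000000000000000000846000000000000034200000000000011e20000124e0000000000000000000012ba000000000000110a0000000000000876000000000000000000000cae0000096c0000132600000000000011760000000000000a9200000fd800000f0000000000000000000000000000000c7e0000000000000636000000000000000000000000000008a60000097e000000000000091200000000000006fc00000000000003a2000004080000000000000000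0000160e000000000000145e0000000000000a38000014ca000015a2000000000000000000000000000013860000000000000b1c0000000000001536000014f400000000000000000000148800000000000013f2000000000000080a000000000000000000000c4200000900000000000000137400000000000013b000000000000000000000000000000d1a00000c6c00000a62000000000000083400000000000001b6000012d80000126c0000000000000000000012000000000000001128000000000000094e000000000000000000000ccc00000894000010bc0000000000000f7800000000000009cc00000ea000000e3400000000000000000000000000000d5600000000000007e600000000000000000000000000000cde00000cf00000000000000c840000000000000c1800000000000006960000070200000000000000000000000000000a4a0000000000000b22000000000000000000000000000009de00000ab600000a6800000000000009fc000000000000043e000000000000000000000990000008b8000000000000084c00000000000007e0000000000000069c0000063000000000000000000000054600000000000004da000000000000046e000003a80000033c000000000000000000000000000001f20000000000000120000000000000000000000000000013020000108c000000000000129c00000000000012de0000000000001464000011dc000000000000000000000000000012300000000000001530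00000000000000000000000000000eca00001020000012660000000000000ee800000000000003d2000015b4000014dc0000000000000000000012540000000000000e1c00000000000006c60000000000000000000006180000032400000000000011c400000000000014c400000000000000000000000000000fa200000fb4000014ee0000000000000e7c000000000000038400000000000000000000115200000f4800000000000010ec0000000000000ea60000000000000f7200000fde0000000000000000000011ee000000000000111600000000000009600000117c00000fcc0000000000000000000000000000098a00000000000003ae000000000000146a000014d600000000000000000000154200000000000013fe00000000000008e2000000000000000000000c6000000828000012cc000000000000111c000000000000088800000f6c00000e9400000000000000000000000000000ce400000000000006a200000000000000000000000000000ac2000009f000000000000008ac000000000000069000000000000004e00000039c0000000000000000000000000000108000000000000014580000000000000000000000000000100e00000edc000015a80000000000000e100000000000000318000000000000000000000fa800000e700000000000000f3c0000000000000f7e0000000000001122000011700000000000000000000014760000000000001404000000000000081c0000111000000f6000000000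0000000000000000000009e400000000000004d400000000000000000000000000000ed000000e040000000000000e64000000000000112e00000000000013f80000110400000000000000000000000000000df800000000000013ec00000000000000000000000000000d8600000d9800000e2e0000000000000da4000000000000028e00000e2200000e8e000000000000000000000efa0000000000000db000000000000005820000000000000000000005ac000002b80000109e0000000000000e1600000000000007b000000e8200000f5a00000000000000000000000000000d200000000000000a020000000000000eee00000fc60000000000000000000010320000000000000daa0000000000000732000000000000000000000b6a000005ca00000000000007ce000000000000083a00000000000000000000000000000762000005b80000033600000000000002c4000000000000007200001092000011d60000000000000000000012420000000000000e0a00000000000006d8000000000000000000000bee000007bc000012ae0000000000000e76000000000000066c00000f4e000010fe00000000000000000000000000000cc600000000000008be00000000000000000000000000000c5a00000d2c0000000000000cb40000000000000cf600000000000009f60000097800000000000000000000131a0000000000000ee2000000000000060000000fba0000116a00000000000000000000000000000c4800000000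00000ab0000000000000102600000fe4000000000000000000000f0c0000000000000d9e0000000000000594000000000000000000000b82000007500000000000000bdc0000000000000c7200000000000000000000000000000b7000000bac0000062a00000000000005be000000000000014a000000000000000000000612000007c2000000000000067e000000000000089a000000000000082e00000972000000000000000000000000000006ea0000000000000906000000000000000000000000000005a6000007560000070800000000000005c400000000000002220000032a0000039600000000000000000000040200000000000002be0000000000000252000000000000000000000186000000b4000015f000000000000010860000000000000522000011ca0000145200000000000000000000000000000a320000000000000a440000000000001236000014be0000000000000000000015840000000000000dfe00000000000003060000000000000000000005fa000006e40000000000000b04000000000000137a000000000000000000000000000007aa00000be200000b2800000000000007c800000000000000ea000012a2000015180000000000000000000014ac0000000000000e6a000000000000037200000000000000000000066600000678000014400000000000000f4200000000000004b6000010f2000013d4000000000000000000000000000009c60000000000000852000000000000000000000000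0000088200000cba0000000000000a980000000000000c8a00000000000008b20000090c00000000000000000000000000000a2c00000000000013800000000000000000000000000000081600000c4e000013680000000000000d2600000000000001c200000000000000000000095a00000cc000000000000009c00000000000000d500000000000000cea00000c78000000000000000000000a5600000000000009ea000000000000044a00000984000008400000000000000000000000000000047400000000000001ec00000000000012fc000012900000000000000000000012240000000000000ed600000000000003de0000000000000000000006d20000060c000011b80000000000000fae00000000000003780000114c000010e0000000000000000000000000000009540000000000000996000000000000000000000000000008e800000c54000000000000087c0000000000000cd80000000000000abc000008a00000000000000000000010740000000000001008000000000000030c00000f9c00000f300000000000000000000000000000081000000000000009d80000000000000ec400000e58000000000000000000000dec0000000000000d80000000000000029a00000000000000000000058e000005a000000000000007a40000000000000d140000000000000000000000000000073800000b76000007da000000000000075c000000000000007e0000000000000000000006cc00000be80000000000000660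0000000000000cd20000000000000c6600000ca8000000000000000000000000000005f40000000000000c3c0000000000000000000000000000058800000b7c00000bd00000000000000b6400000000000001560000061e0000068a0000000000000000000006f600000000000005b2000000000000022e00000000000000000000025800000180000000000000051c0000000000000a3e000000000000000000000000000003120000060600000af800000000000007b600000000000000f600000000000000000000037e0000067200000000000004b000000000000009d2000000000000088e00000a8c000000000000000000000a20000000000000082200000000000001c800000966000009b4000000000000000000000000000004440000000000000468000000000000000000000000000003d8000006de000000000000036c000000000000094800000000000008dc00000870000000000000000000000000000003000000000000000804000000000000000000000000000002940000059a00000798000000000000072c000000000000008a000006c0000006540000000000000000000005e8000000000000057c000000000000015c0000000000000000000002280000024c00000510000000000000031e00000000000000f00000038a000004a4000000000000000000000000000001bc000000000000043800000000000003cc000003600000000000000000000002f4000000000000028800000000000000840000000000000000000001500000021c00000000000000e400000000000001b00000000000000000000000000000007800000144000000d8000000000000006c0000000000000000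

theorem spec : Spec 6 true idx RK 53 G := fun _ _ _ _ => by eq_refl

theorem cover : cov 7 true H RK CK 53 1 = true := by decide +kernel

end S7x4

namespace S7x4

noncomputable def ts0 : List Nat :=
  [nat_lit 190601681618691419662813092111541464746426915,
   nat_lit 190601681618691419662813092111541464746426368,
   nat_lit 190601681618691419662813092111541464746431478,
   nat_lit 190601681618691419662813092111541464746428930,
   nat_lit 190601681618691419662813092111541464746552690,
   nat_lit 190601681618691419662813092111541464746628178,
   nat_lit 190601681618691419662813092111541464751132454,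
   nat_lit 190601681618691419662813092111541464761119606,
   nat_lit 190601681618691419662813092111541464972521202,
   nat_lit 190601681618691419662813092111541465822477750,
   nat_lit 190601681618691419662813092111541477737687098,
   nat_lit 190601681618691419662813092111541545348170206,
   nat_lit 190601681618691419662813092111542313757394894,
   nat_lit 190601681618691419662813092111547664343075978,
   nat_lit 190601681618691419662813092111602217696232994,
   nat_lit 190601681618691419662813092112030680605851150,
   nat_lit 190601681618691419662813092116168569126041554,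
   nat_lit 190601681618691419662813092151024866083428690,
   nat_lit 190601681618691419662813092479182250507264510,
   nat_lit 190601681618691419662813095358151098720779014,
   nat_lit 190601681618691419662813122170508153945171890,
   nat_lit 190601681618691419662813363062005716852923646,
   nat_lit 190601681618691419662815598169283787408879706,
   nat_lit 190601681618691419662835965515878817677927318,
   nat_lit 190601681618691419663024844006400297900446654,
   nat_lit 190601681618691419664760896078139628228565678,
   nat_lit 190601681618691419680872542191882570637747794,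
   nat_lit 190601681618691419829760263733604960266431670,
   nat_lit 190601681618691421213110029682513301100222098,
   nat_lit 190601681618691434040854872771527495427311566,
   nat_lit 190601681618691553361777650454029351315164434,
   nat_lit 190601681618692662332193324275831676451944966,
   nat_lit 190601681618702987887120420495961765627381970,
   nat_lit 190601681618799100005133284797129846970296026,
   nat_lit 190601681619694707708074535898035033334264314,
   nat_lit 190601681628039872749523695734857499237236786,
   nat_lit 190601681705851602484956077711912817667076222]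

theorem run0 : go idx G base H RK CK 139 0 53 ts0 = true := by decide +kernel

end S7x4


end Vale.Agent.P348.MomK
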