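import Vale.Agent.P348.MomK

/-! Generated kernel computation of sector moments. -/

open Nat (add sub)

set_option maxRecDepth 1000000
set_option maxHeartbeats 0
set_option linter.unusedVariables false

namespace Vale.Agent.P348.MomK

namespace S8x2

noncomputable def idx : List Nat :=
  [nat_lit 1, nat_lit 3, nat_lit 9, nat_lit 13, nat_lit 17, nat_lit 23, nat_lit 25, nat_lit 27,
  nat_lit 31, nat_lit 35, nat_lit 37, nat_lit 39, nat_lit 47, nat_lit 51, nat_lit 59, nat_lit 61,
  nat_lit 65, nat_lit 69, nat_lit 73, nat_lit 75, nat_lit 81, nat_lit 85, nat_lit 89, nat_lit 91,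
  nat_lit 93, nat_lit 101, nat_lit 105, nat_lit 109, nat_lit 111, nat_lit 117, nat_lit 121, nat_lit 125,
  nat_lit 131, nat_lit 133, nat_lit 137, nat_lit 141, nat_lit 149, nat_lit 151, nat_lit 153, nat_lit 157,
  nat_lit 161, nat_lit 167, nat_lit 169, nat_lit 173, nat_lit 177, nat_lit 181, nat_lit 183, nat_lit 191,
  nat_lit 195, nat_lit 203, nat_lit 205, nat_lit 207, nat_lit 211, nat_lit 215, nat_lit 217, nat_lit 219,
  nat_lit 225, nat_lit 229, nat_lit 233, nat_lit 239, nat_lit 241, nat_lit 243, nat_lit 247, nat_lit 251,
  nat_lit 253, nat_lit 255, nat_lit 263, nat_lit 267, nat_lit 271, nat_lit 273, nat_lit 279, nat_lit 283,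
  nat_lit 287, nat_lit 293, nat_lit 295, nat_lit 299, nat_lit 303, nat_lit 311, nat_lit 313, nat_lit 315,
  nat_lit 319, nat_lit 323, nat_lit 325, nat_lit 327, nat_lit 333, nat_lit 337, nat_lit 341, nat_lit 347,
  nat_lit 349, nat_lit 351, nat_lit 355, nat_lit 359, nat_lit 361, nat_lit 363, nat_lit 371, nat_lit 375,
  nat_lit 383, nat_lit 385, nat_lit 389, nat_lit 393, nat_lit 397, nat_lit 399, nat_lit 407, nat_lit 411,
  nat_lit 419, nat_lit 421, nat_lit 423, nat_lit 427, nat_lit 431, nat_lit 437, nat_lit 439, nat_lit 443,
  nat_lit 447, nat_lit 451, nat_lit 453, nat_lit 459, nat_lit 463, nat_lit 467, nat_lit 469, nat_lit 471,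
  nat_lit 479, nat_lit 483, nat_lit 491, nat_lit 493, nat_lit 497, nat_lit 501, nat_lit 505, nat_lit 507,
  nat_lit 515, nat_lit 519, nat_lit 527, nat_lit 529, nat_lit 531, nat_lit 535, nat_lit 539, nat_lit 541,
  nat_lit 543, nat_lit 549, nat_lit 553, nat_lit 557, nat_lit 563, nat_lit 565, nat_lit 569, nat_lit 573,
  nat_lit 581, nat_lit 583, nat_lit 585, nat_lit 589, nat_lit 593, nat_lit 599, nat_lit 601, nat_lit 605,
  nat_lit 609, nat_lit 613, nat_lit 615, nat_lit 621, nat_lit 625, nat_lit 629, nat_lit 631, nat_lit 633,
  nat_lit 641, nat_lit 645, nat_lit 649, nat_lit 651, nat_lit 657, nat_lit 661, nat_lit 665, nat_lit 671,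
  nat_lit 673, nat_lit 675, nat_lit 679, nat_lit 683, nat_lit 685, nat_lit 687, nat_lit 695, nat_lit 699,
  nat_lit 707, nat_lit 709, nat_lit 713, nat_lit 717, nat_lit 721, nat_lit 723, nat_lit 729, nat_lit 733,
  nat_lit 737, nat_lit 739, nat_lit 741, nat_lit 749, nat_lit 753, nat_lit 757, nat_lit 759, nat_lit 765,
  nat_lit 769, nat_lit 773, nat_lit 779, nat_lit 781, nat_lit 785, nat_lit 789, nat_lit 797, nat_lit 799,
  nat_lit 801, nat_lit 805, nat_lit 809, nat_lit 811, nat_lit 813, nat_lit 819, nat_lit 823, nat_lit 827,
  nat_lit 833, nat_lit 835, nat_lit 837, nat_lit 841, nat_lit 845, nat_lit 847, nat_lit 849, nat_lit 857,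
  nat_lit 861, nat_lit 869, nat_lit 871, nat_lit 875, nat_lit 879, nat_lit 883, nat_lit 885, nat_lit 893,
  nat_lit 897, nat_lit 905, nat_lit 907, nat_lit 909, nat_lit 913, nat_lit 917, nat_lit 923, nat_lit 925,
  nat_lit 929, nat_lit 933, nat_lit 937, nat_lit 939, nat_lit 945, nat_lit 949, nat_lit 953, nat_lit 955,
  nat_lit 957, nat_lit 965, nat_lit 969, nat_lit 973, nat_lit 975, nat_lit 981, nat_lit 985, nat_lit 989,
  nat_lit 995, nat_lit 997, nat_lit 999, nat_lit 1003, nat_lit 1007, nat_lit 1009, nat_lit 1011, nat_lit 1019,
  nat_lit 1023, nat_lit 1031, nat_lit 1033, nat_lit 1037, nat_lit 1041, nat_lit 1045, nat_lit 1047, nat_lit 1053,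
  nat_lit 1057, nat_lit 1061, nat_lit 1063, nat_lit 1065, nat_lit 1073, nat_lit 1077, nat_lit 1081, nat_lit 1083,
  nat_lit 1089, nat_lit 1093, nat_lit 1097, nat_lit 1103, nat_lit 1105, nat_lit 1109, nat_lit 1113, nat_lit 1121,
  nat_lit 1123, nat_lit 1125, nat_lit 1129, nat_lit 1133, nat_lit 1139, nat_lit 1141, nat_lit 1145, nat_lit 1149,
  nat_lit 1153, nat_lit 1155, nat_lit 1163, nat_lit 1167, nat_lit 1175, nat_lit 1177, nat_lit 1179, nat_lit 1183,
  nat_lit 1187, nat_lit 1189, nat_lit 1191, nat_lit 1197, nat_lit 1201, nat_lit 1205, nat_lit 1211, nat_lit 1213,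
  nat_lit 1217, nat_lit 1221, nat_lit 1229, nat_lit 1231, nat_lit 1233, nat_lit 1237, nat_lit 1241, nat_lit 1247,
  nat_lit 1249, nat_lit 1253, nat_lit 1257, nat_lit 1261, nat_lit 1263, nat_lit 1269, nat_lit 1273, nat_lit 1277,
  nat_lit 1279, nat_lit 1281, nat_lit 1289, nat_lit 1293, nat_lit 1301, nat_lit 1303, nat_lit 1307, nat_lit 1311,
  nat_lit 1315, nat_lit 1317, nat_lit 1325, nat_lit 1329, nat_lit 1337, nat_lit 1339, nat_lit 1341, nat_lit 1345,
  nat_lit 1349, nat_lit 1351, nat_lit 1353, nat_lit 1359, nat_lit 1363, nat_lit 1367, nat_lit 1373, nat_lit 1375,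
  nat_lit 1377, nat_lit 1381, nat_lit 1385, nat_lit 1387, nat_lit 1389, nat_lit 1397, nat_lit 1401, nat_lit 1405,
  nat_lit 1407, nat_lit 1413, nat_lit 1417, nat_lit 1421, nat_lit 1427, nat_lit 1429, nat_lit 1433, nat_lit 1437,
  nat_lit 1445, nat_lit 1447, nat_lit 1449, nat_lit 1453, nat_lit 1457, nat_lit 1463, nat_lit 1465, nat_lit 1469,
  nat_lit 1473, nat_lit 1477, nat_lit 1479, nat_lit 1487, nat_lit 1491, nat_lit 1499, nat_lit 1501, nat_lit 1503,
  nat_lit 1507, nat_lit 1511, nat_lit 1513, nat_lit 1515, nat_lit 1521, nat_lit 1525, nat_lit 1529, nat_lit 1535,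
  nat_lit 1537, nat_lit 1541, nat_lit 1545, nat_lit 1553, nat_lit 1555, nat_lit 1557, nat_lit 1561, nat_lit 1565,
  nat_lit 1571, nat_lit 1573, nat_lit 1577, nat_lit 1581, nat_lit 1585, nat_lit 1587, nat_lit 1593, nat_lit 1597,
  nat_lit 1601, nat_lit 1603, nat_lit 1605, nat_lit 1613, nat_lit 1617, nat_lit 1621, nat_lit 1623, nat_lit 1629,
  nat_lit 1633, nat_lit 1637, nat_lit 1643, nat_lit 1645, nat_lit 1647, nat_lit 1651, nat_lit 1655, nat_lit 1657,
  nat_lit 1659, nat_lit 1667, nat_lit 1671, nat_lit 1679, nat_lit 1681, nat_lit 1685, nat_lit 1689, nat_lit 1693,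
  nat_lit 1695, nat_lit 1703, nat_lit 1707, nat_lit 1715, nat_lit 1717, nat_lit 1719, nat_lit 1723, nat_lit 1727,
  nat_lit 1733, nat_lit 1735, nat_lit 1739, nat_lit 1743, nat_lit 1747, nat_lit 1749, nat_lit 1755, nat_lit 1759,
  nat_lit 1763, nat_lit 1765, nat_lit 1767, nat_lit 1775, nat_lit 1779, nat_lit 1787, nat_lit 1789, nat_lit 1793,
  nat_lit 1797, nat_lit 1801, nat_lit 1803, nat_lit 1811, nat_lit 1815, nat_lit 1823, nat_lit 1825, nat_lit 1827,
  nat_lit 1831, nat_lit 1835, nat_lit 1837, nat_lit 1839, nat_lit 1845, nat_lit 1849, nat_lit 1853, nat_lit 1859,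
  nat_lit 1861, nat_lit 1863, nat_lit 1867, nat_lit 1871, nat_lit 1873, nat_lit 1875, nat_lit 1883, nat_lit 1887,
  nat_lit 1891, nat_lit 1893, nat_lit 1899, nat_lit 1903, nat_lit 1907, nat_lit 1913, nat_lit 1915, nat_lit 1919,
  nat_lit 1923, nat_lit 1931, nat_lit 1933, nat_lit 1935, nat_lit 1939, nat_lit 1943, nat_lit 1945, nat_lit 1947,
  nat_lit 1953, nat_lit 1957, nat_lit 1961, nat_lit 1967, nat_lit 1969, nat_lit 1971, nat_lit 1975, nat_lit 1979,
  nat_lit 1981, nat_lit 1983, nat_lit 1991, nat_lit 1995, nat_lit 2003, nat_lit 2005, nat_lit 2009, nat_lit 2013,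
  nat_lit 2017, nat_lit 2019, nat_lit 2025, nat_lit 2029, nat_lit 2033, nat_lit 2035, nat_lit 2037, nat_lit 2045,
  nat_lit 2049, nat_lit 2053, nat_lit 2055, nat_lit 2061, nat_lit 2065, nat_lit 2069, nat_lit 2075, nat_lit 2077,
  nat_lit 2081, nat_lit 2085, nat_lit 2093, nat_lit 2095, nat_lit 2097, nat_lit 2101, nat_lit 2105, nat_lit 2111,
  nat_lit 2113, nat_lit 2117, nat_lit 2121, nat_lit 2125, nat_lit 2127, nat_lit 2135, nat_lit 2139, nat_lit 2147,
  nat_lit 2149, nat_lit 2151, nat_lit 2155, nat_lit 2159, nat_lit 2161, nat_lit 2163, nat_lit 2169, nat_lit 2173,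
  nat_lit 2177, nat_lit 2183, nat_lit 2185, nat_lit 2187, nat_lit 2191, nat_lit 2195, nat_lit 2197, nat_lit 2199,
  nat_lit 2207, nat_lit 2211, nat_lit 2215, nat_lit 2217, nat_lit 2223, nat_lit 2227, nat_lit 2231, nat_lit 2237,
  nat_lit 2239, nat_lit 2243, nat_lit 2247, nat_lit 2255, nat_lit 2257, nat_lit 2259, nat_lit 2263, nat_lit 2267,
  nat_lit 2269, nat_lit 2271, nat_lit 2277, nat_lit 2281, nat_lit 2285, nat_lit 2291, nat_lit 2293, nat_lit 2295,
  nat_lit 2299, nat_lit 2303, nat_lit 2305, nat_lit 2307, nat_lit 2315, nat_lit 2319, nat_lit 2327, nat_lit 2329,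
  nat_lit 2333, nat_lit 2337, nat_lit 2341, nat_lit 2343, nat_lit 2351, nat_lit 2355, nat_lit 2363, nat_lit 2365,
  nat_lit 2367, nat_lit 2371, nat_lit 2375, nat_lit 2381, nat_lit 2383, nat_lit 2387, nat_lit 2391, nat_lit 2395,
  nat_lit 2397, nat_lit 2403, nat_lit 2407, nat_lit 2411, nat_lit 2413, nat_lit 2415, nat_lit 2423, nat_lit 2427,
  nat_lit 2431, nat_lit 2433, nat_lit 2439, nat_lit 2443, nat_lit 2447, nat_lit 2453, nat_lit 2455, nat_lit 2457,
  nat_lit 2461, nat_lit 2465, nat_lit 2467, nat_lit 2469, nat_lit 2477, nat_lit 2481, nat_lit 2489, nat_lit 2491,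
  nat_lit 2495, nat_lit 2499, nat_lit 2503, nat_lit 2505, nat_lit 2511, nat_lit 2515, nat_lit 2519, nat_lit 2521,
  nat_lit 2523, nat_lit 2531, nat_lit 2535, nat_lit 2539, nat_lit 2541, nat_lit 2547, nat_lit 2551, nat_lit 2555,
  nat_lit 2561, nat_lit 2563, nat_lit 2567, nat_lit 2571, nat_lit 2579, nat_lit 2581, nat_lit 2583, nat_lit 2587,
  nat_lit 2591, nat_lit 2597, nat_lit 2599, nat_lit 2603, nat_lit 2607, nat_lit 2611, nat_lit 2613, nat_lit 2621,
  nat_lit 2625, nat_lit 2633, nat_lit 2635, nat_lit 2637, nat_lit 2641, nat_lit 2645, nat_lit 2647, nat_lit 2649,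
  nat_lit 2655, nat_lit 2659, nat_lit 2663, nat_lit 2669, nat_lit 2671, nat_lit 2675, nat_lit 2679, nat_lit 2687,
  nat_lit 2689, nat_lit 2691, nat_lit 2695, nat_lit 2699, nat_lit 2705, nat_lit 2707, nat_lit 2711, nat_lit 2715,
  nat_lit 2719, nat_lit 2721, nat_lit 2727, nat_lit 2731, nat_lit 2735, nat_lit 2737, nat_lit 2739, nat_lit 2747,
  nat_lit 2751, nat_lit 2759, nat_lit 2761, nat_lit 2765, nat_lit 2769, nat_lit 2773, nat_lit 2775, nat_lit 2783,
  nat_lit 2787, nat_lit 2795, nat_lit 2797, nat_lit 2799, nat_lit 2803, nat_lit 2807, nat_lit 2809, nat_lit 2811,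
  nat_lit 2817, nat_lit 2821, nat_lit 2825, nat_lit 2831, nat_lit 2833, nat_lit 2835, nat_lit 2839, nat_lit 2843,
  nat_lit 2845, nat_lit 2847, nat_lit 2855, nat_lit 2859, nat_lit 2863, nat_lit 2865, nat_lit 2871, nat_lit 2875,
  nat_lit 2879, nat_lit 2885, nat_lit 2887, nat_lit 2891, nat_lit 2895, nat_lit 2903, nat_lit 2905, nat_lit 2907,
  nat_lit 2911, nat_lit 2915, nat_lit 2917, nat_lit 2919, nat_lit 2925, nat_lit 2929, nat_lit 2933, nat_lit 2939,
  nat_lit 2941, nat_lit 2943, nat_lit 2947, nat_lit 2951, nat_lit 2953, nat_lit 2955, nat_lit 2963, nat_lit 2967,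
  nat_lit 2975, nat_lit 2977, nat_lit 2981, nat_lit 2985, nat_lit 2989, nat_lit 2991, nat_lit 2997, nat_lit 3001,
  nat_lit 3005, nat_lit 3007, nat_lit 3009, nat_lit 3017, nat_lit 3021, nat_lit 3025, nat_lit 3027, nat_lit 3033,
  nat_lit 3037, nat_lit 3041, nat_lit 3047, nat_lit 3049, nat_lit 3053, nat_lit 3057, nat_lit 3065, nat_lit 3067,
  nat_lit 3069, nat_lit 3073, nat_lit 3077, nat_lit 3083, nat_lit 3085, nat_lit 3089, nat_lit 3093, nat_lit 3097,
  nat_lit 3099, nat_lit 3107, nat_lit 3111, nat_lit 3119, nat_lit 3121, nat_lit 3123, nat_lit 3127, nat_lit 3131,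
  nat_lit 3133, nat_lit 3135, nat_lit 3141, nat_lit 3145, nat_lit 3149, nat_lit 3155, nat_lit 3157, nat_lit 3159,
  nat_lit 3163, nat_lit 3167, nat_lit 3169, nat_lit 3171, nat_lit 3179, nat_lit 3183, nat_lit 3187, nat_lit 3189,
  nat_lit 3195, nat_lit 3199, nat_lit 3203, nat_lit 3209, nat_lit 3211, nat_lit 3215, nat_lit 3219, nat_lit 3227,
  nat_lit 3229, nat_lit 3231, nat_lit 3235, nat_lit 3239, nat_lit 3241, nat_lit 3243, nat_lit 3249, nat_lit 3253,
  nat_lit 3257, nat_lit 3263, nat_lit 3265, nat_lit 3267, nat_lit 3271, nat_lit 3275, nat_lit 3277, nat_lit 3279,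
  nat_lit 3287, nat_lit 3291, nat_lit 3299, nat_lit 3301, nat_lit 3305, nat_lit 3309, nat_lit 3313, nat_lit 3315,
  nat_lit 3323, nat_lit 3327, nat_lit 3335, nat_lit 3337, nat_lit 3339, nat_lit 3343, nat_lit 3347, nat_lit 3353,
  nat_lit 3355, nat_lit 3359, nat_lit 3363, nat_lit 3367, nat_lit 3369, nat_lit 3375, nat_lit 3379, nat_lit 3383,
  nat_lit 3385, nat_lit 3387, nat_lit 3395, nat_lit 3399, nat_lit 3407, nat_lit 3409, nat_lit 3413, nat_lit 3417,
  nat_lit 3421, nat_lit 3423, nat_lit 3431, nat_lit 3435, nat_lit 3443, nat_lit 3445, nat_lit 3447, nat_lit 3451,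
  nat_lit 3455, nat_lit 3457, nat_lit 3459, nat_lit 3465, nat_lit 3469, nat_lit 3473, nat_lit 3479, nat_lit 3481,
  nat_lit 3485, nat_lit 3489, nat_lit 3497, nat_lit 3499, nat_lit 3501, nat_lit 3505, nat_lit 3509, nat_lit 3515,
  nat_lit 3517, nat_lit 3521, nat_lit 3525, nat_lit 3529, nat_lit 3531, nat_lit 3537, nat_lit 3541, nat_lit 3545,
  nat_lit 3547, nat_lit 3549, nat_lit 3557, nat_lit 3561, nat_lit 3565, nat_lit 3567, nat_lit 3573, nat_lit 3577,
  nat_lit 3581, nat_lit 3587, nat_lit 3589, nat_lit 3591, nat_lit 3595, nat_lit 3599, nat_lit 3601, nat_lit 3603,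
  nat_lit 3611, nat_lit 3615, nat_lit 3623, nat_lit 3625, nat_lit 3629, nat_lit 3633, nat_lit 3637, nat_lit 3639,
  nat_lit 3647, nat_lit 3651, nat_lit 3659, nat_lit 3661, nat_lit 3663, nat_lit 3667, nat_lit 3671, nat_lit 3677,
  nat_lit 3679, nat_lit 3683, nat_lit 3687, nat_lit 3691, nat_lit 3693, nat_lit 3699, nat_lit 3703, nat_lit 3707,
  nat_lit 3709, nat_lit 3711, nat_lit 3719, nat_lit 3723, nat_lit 3731, nat_lit 3733, nat_lit 3737, nat_lit 3741,
  nat_lit 3745, nat_lit 3747, nat_lit 3755, nat_lit 3759, nat_lit 3767, nat_lit 3769, nat_lit 3771, nat_lit 3775,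
  nat_lit 3779, nat_lit 3781, nat_lit 3783, nat_lit 3789, nat_lit 3793, nat_lit 3797, nat_lit 3803, nat_lit 3805,
  nat_lit 3807, nat_lit 3811, nat_lit 3815, nat_lit 3817, nat_lit 3819, nat_lit 3827, nat_lit 3831, nat_lit 3835,
  nat_lit 3837, nat_lit 3843, nat_lit 3847, nat_lit 3851, nat_lit 3857, nat_lit 3859, nat_lit 3863, nat_lit 3867,
  nat_lit 3875, nat_lit 3877, nat_lit 3879, nat_lit 3883, nat_lit 3887, nat_lit 3893, nat_lit 3895, nat_lit 3899,
  nat_lit 3903, nat_lit 3907, nat_lit 3909, nat_lit 3917, nat_lit 3921, nat_lit 3929, nat_lit 3931, nat_lit 3933,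
  nat_lit 3937, nat_lit 3941, nat_lit 3943, nat_lit 3945, nat_lit 3951, nat_lit 3955, nat_lit 3959, nat_lit 3965,
  nat_lit 3967, nat_lit 3971, nat_lit 3975, nat_lit 3983, nat_lit 3985, nat_lit 3987, nat_lit 3991, nat_lit 3995,
  nat_lit 4001, nat_lit 4003, nat_lit 4007, nat_lit 4011, nat_lit 4015, nat_lit 4017, nat_lit 4023, nat_lit 4027,
  nat_lit 4031, nat_lit 4033, nat_lit 4035, nat_lit 4043, nat_lit 4047, nat_lit 4051, nat_lit 4053, nat_lit 4059,
  nat_lit 4063, nat_lit 4067, nat_lit 4073, nat_lit 4075, nat_lit 4077, nat_lit 4081, nat_lit 4085, nat_lit 4087,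
  nat_lit 4089, nat_lit 4097, nat_lit 4101, nat_lit 4109, nat_lit 4111, nat_lit 4115, nat_lit 4119, nat_lit 4123,
  nat_lit 4125, nat_lit 4131, nat_lit 4135, nat_lit 4139, nat_lit 4141, nat_lit 4143, nat_lit 4151, nat_lit 4155,
  nat_lit 4159, nat_lit 4161, nat_lit 4167, nat_lit 4171, nat_lit 4175, nat_lit 4181, nat_lit 4183, nat_lit 4187,
  nat_lit 4191, nat_lit 4199, nat_lit 4201, nat_lit 4203, nat_lit 4207, nat_lit 4211, nat_lit 4213, nat_lit 4215,
  nat_lit 4221, nat_lit 4225, nat_lit 4229, nat_lit 4235, nat_lit 4237, nat_lit 4239, nat_lit 4243, nat_lit 4247,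
  nat_lit 4249, nat_lit 4251, nat_lit 4259, nat_lit 4263, nat_lit 4271, nat_lit 4273, nat_lit 4277, nat_lit 4281,
  nat_lit 4285, nat_lit 4287, nat_lit 4295, nat_lit 4299, nat_lit 4307, nat_lit 4309, nat_lit 4311, nat_lit 4315,
  nat_lit 4319, nat_lit 4325, nat_lit 4327, nat_lit 4331, nat_lit 4335, nat_lit 4339, nat_lit 4341, nat_lit 4347,
  nat_lit 4351, nat_lit 4355, nat_lit 4357, nat_lit 4359, nat_lit 4367, nat_lit 4371, nat_lit 4379, nat_lit 4381,
  nat_lit 4385, nat_lit 4389, nat_lit 4393, nat_lit 4395, nat_lit 4403, nat_lit 4407, nat_lit 4415, nat_lit 4417,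
  nat_lit 4419, nat_lit 4423, nat_lit 4427, nat_lit 4429, nat_lit 4431, nat_lit 4437, nat_lit 4441, nat_lit 4445,
  nat_lit 4451, nat_lit 4453, nat_lit 4457, nat_lit 4461, nat_lit 4469, nat_lit 4471, nat_lit 4473, nat_lit 4477,
  nat_lit 4481, nat_lit 4487, nat_lit 4489, nat_lit 4493, nat_lit 4497, nat_lit 4501, nat_lit 4503, nat_lit 4509,
  nat_lit 4513, nat_lit 4517, nat_lit 4519, nat_lit 4521, nat_lit 4529, nat_lit 4533, nat_lit 4537, nat_lit 4539,
  nat_lit 4545, nat_lit 4549, nat_lit 4553, nat_lit 4559, nat_lit 4561, nat_lit 4563, nat_lit 4567, nat_lit 4571,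
  nat_lit 4573, nat_lit 4575, nat_lit 4583, nat_lit 4587, nat_lit 4595, nat_lit 4597, nat_lit 4601, nat_lit 4605,
  nat_lit 4609, nat_lit 4611, nat_lit 4619, nat_lit 4623, nat_lit 4631, nat_lit 4633, nat_lit 4635, nat_lit 4639,
  nat_lit 4643, nat_lit 4649, nat_lit 4651, nat_lit 4655, nat_lit 4659, nat_lit 4663, nat_lit 4665, nat_lit 4671,
  nat_lit 4675, nat_lit 4679, nat_lit 4681, nat_lit 4683, nat_lit 4691, nat_lit 4695, nat_lit 4703, nat_lit 4705,
  nat_lit 4709, nat_lit 4713, nat_lit 4717, nat_lit 4719, nat_lit 4727, nat_lit 4731, nat_lit 4739, nat_lit 4741,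
  nat_lit 4743, nat_lit 4747, nat_lit 4751, nat_lit 4753, nat_lit 4755, nat_lit 4761, nat_lit 4765, nat_lit 4769,
  nat_lit 4775, nat_lit 4777, nat_lit 4779, nat_lit 4783, nat_lit 4787, nat_lit 4789, nat_lit 4791, nat_lit 4799,
  nat_lit 4803, nat_lit 4807, nat_lit 4809, nat_lit 4815, nat_lit 4819, nat_lit 4823, nat_lit 4829, nat_lit 4831,
  nat_lit 4835, nat_lit 4839, nat_lit 4847, nat_lit 4849, nat_lit 4851, nat_lit 4855, nat_lit 4859, nat_lit 4861,
  nat_lit 4863, nat_lit 4869, nat_lit 4873, nat_lit 4877, nat_lit 4883, nat_lit 4885, nat_lit 4887, nat_lit 4891,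
  nat_lit 4895, nat_lit 4897, nat_lit 4899, nat_lit 4907, nat_lit 4911, nat_lit 4919, nat_lit 4921, nat_lit 4925,
  nat_lit 4929, nat_lit 4933, nat_lit 4935, nat_lit 4941, nat_lit 4945, nat_lit 4949, nat_lit 4951, nat_lit 4953,
  nat_lit 4961, nat_lit 4965, nat_lit 4969, nat_lit 4971, nat_lit 4977, nat_lit 4981, nat_lit 4985, nat_lit 4991,
  nat_lit 4993, nat_lit 4997, nat_lit 5001, nat_lit 5009, nat_lit 5011, nat_lit 5013, nat_lit 5017, nat_lit 5021,
  nat_lit 5027, nat_lit 5029, nat_lit 5033, nat_lit 5037, nat_lit 5041, nat_lit 5043, nat_lit 5051, nat_lit 5055,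
  nat_lit 5063, nat_lit 5065, nat_lit 5067, nat_lit 5071, nat_lit 5075, nat_lit 5077, nat_lit 5079, nat_lit 5085,
  nat_lit 5089, nat_lit 5093, nat_lit 5099, nat_lit 5101, nat_lit 5105, nat_lit 5109, nat_lit 5117, nat_lit 5119,
  nat_lit 5121, nat_lit 5125, nat_lit 5129, nat_lit 5135, nat_lit 5137, nat_lit 5141, nat_lit 5145, nat_lit 5149,
  nat_lit 5151, nat_lit 5157, nat_lit 5161, nat_lit 5165, nat_lit 5167, nat_lit 5169, nat_lit 5177, nat_lit 5181,
  nat_lit 5189, nat_lit 5191, nat_lit 5195, nat_lit 5199, nat_lit 5203, nat_lit 5205, nat_lit 5213, nat_lit 5217,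
  nat_lit 5225, nat_lit 5227, nat_lit 5229, nat_lit 5233, nat_lit 5237, nat_lit 5239, nat_lit 5241, nat_lit 5247,
  nat_lit 5251, nat_lit 5255, nat_lit 5261, nat_lit 5263, nat_lit 5265, nat_lit 5269, nat_lit 5273, nat_lit 5275,
  nat_lit 5277, nat_lit 5285, nat_lit 5289, nat_lit 5293, nat_lit 5295, nat_lit 5301, nat_lit 5305, nat_lit 5309,
  nat_lit 5315, nat_lit 5317, nat_lit 5321, nat_lit 5325, nat_lit 5333, nat_lit 5335, nat_lit 5337, nat_lit 5341,
  nat_lit 5345, nat_lit 5351, nat_lit 5353, nat_lit 5357, nat_lit 5361, nat_lit 5365, nat_lit 5367, nat_lit 5375,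
  nat_lit 5379, nat_lit 5387, nat_lit 5389, nat_lit 5391, nat_lit 5395, nat_lit 5399, nat_lit 5401, nat_lit 5403,
  nat_lit 5409, nat_lit 5413, nat_lit 5417, nat_lit 5423, nat_lit 5425, nat_lit 5429, nat_lit 5433, nat_lit 5441,
  nat_lit 5443, nat_lit 5445, nat_lit 5449, nat_lit 5453, nat_lit 5459, nat_lit 5461, nat_lit 5465, nat_lit 5469,
  nat_lit 5473, nat_lit 5475, nat_lit 5481, nat_lit 5485, nat_lit 5489, nat_lit 5491, nat_lit 5493, nat_lit 5501,
  nat_lit 5505, nat_lit 5509, nat_lit 5511, nat_lit 5517, nat_lit 5521, nat_lit 5525, nat_lit 5531, nat_lit 5533,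
  nat_lit 5535, nat_lit 5539, nat_lit 5543, nat_lit 5545, nat_lit 5547, nat_lit 5555, nat_lit 5559, nat_lit 5567,
  nat_lit 5569, nat_lit 5573, nat_lit 5577, nat_lit 5581, nat_lit 5583, nat_lit 5589, nat_lit 5593, nat_lit 5597,
  nat_lit 5599, nat_lit 5601, nat_lit 5609, nat_lit 5613, nat_lit 5617, nat_lit 5619, nat_lit 5625, nat_lit 5629,
  nat_lit 5633, nat_lit 5639, nat_lit 5641, nat_lit 5645, nat_lit 5649, nat_lit 5657, nat_lit 5659, nat_lit 5661,
  nat_lit 5665, nat_lit 5669, nat_lit 5671, nat_lit 5673, nat_lit 5679, nat_lit 5683, nat_lit 5687, nat_lit 5693,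
  nat_lit 5695, nat_lit 5697, nat_lit 5701, nat_lit 5705, nat_lit 5707, nat_lit 5709, nat_lit 5717, nat_lit 5721,
  nat_lit 5729, nat_lit 5731, nat_lit 5735, nat_lit 5739, nat_lit 5743, nat_lit 5745, nat_lit 5753, nat_lit 5757,
  nat_lit 5765, nat_lit 5767, nat_lit 5769, nat_lit 5773, nat_lit 5777, nat_lit 5783, nat_lit 5785, nat_lit 5789,
  nat_lit 5793, nat_lit 5797, nat_lit 5799, nat_lit 5805, nat_lit 5809, nat_lit 5813, nat_lit 5815, nat_lit 5817,
  nat_lit 5825, nat_lit 5829, nat_lit 5833, nat_lit 5835, nat_lit 5841, nat_lit 5845, nat_lit 5849, nat_lit 5855,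
  nat_lit 5857, nat_lit 5859, nat_lit 5863, nat_lit 5867, nat_lit 5869, nat_lit 5871, nat_lit 5879, nat_lit 5883,
  nat_lit 5891, nat_lit 5893, nat_lit 5897, nat_lit 5901, nat_lit 5905, nat_lit 5907, nat_lit 5913, nat_lit 5917,
  nat_lit 5921, nat_lit 5923, nat_lit 5925, nat_lit 5933, nat_lit 5937, nat_lit 5941, nat_lit 5943, nat_lit 5949,
  nat_lit 5953, nat_lit 5957, nat_lit 5963, nat_lit 5965, nat_lit 5969, nat_lit 5973, nat_lit 5981, nat_lit 5983,
  nat_lit 5985, nat_lit 5989, nat_lit 5993, nat_lit 5999, nat_lit 6001, nat_lit 6005, nat_lit 6009, nat_lit 6013,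
  nat_lit 6015, nat_lit 6023, nat_lit 6027, nat_lit 6035, nat_lit 6037, nat_lit 6039, nat_lit 6043, nat_lit 6047,
  nat_lit 6049, nat_lit 6051, nat_lit 6057, nat_lit 6061, nat_lit 6065, nat_lit 6071, nat_lit 6073, nat_lit 6075,
  nat_lit 6079, nat_lit 6083, nat_lit 6085, nat_lit 6087, nat_lit 6095, nat_lit 6099, nat_lit 6103, nat_lit 6105,
  nat_lit 6111, nat_lit 6115, nat_lit 6119, nat_lit 6125, nat_lit 6127, nat_lit 6131, nat_lit 6135, nat_lit 6143,
  nat_lit 6145, nat_lit 6147, nat_lit 6151, nat_lit 6155, nat_lit 6157, nat_lit 6159, nat_lit 6165, nat_lit 6169,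
  nat_lit 6173, nat_lit 6179, nat_lit 6181, nat_lit 6183, nat_lit 6187, nat_lit 6191, nat_lit 6193, nat_lit 6195,
  nat_lit 6203, nat_lit 6207, nat_lit 6215, nat_lit 6217, nat_lit 6221, nat_lit 6225, nat_lit 6229, nat_lit 6231,
  nat_lit 6239, nat_lit 6243, nat_lit 6251, nat_lit 6253, nat_lit 6255, nat_lit 6259, nat_lit 6263, nat_lit 6269,
  nat_lit 6271, nat_lit 6275, nat_lit 6279, nat_lit 6283, nat_lit 6285, nat_lit 6291, nat_lit 6295, nat_lit 6299,
  nat_lit 6301, nat_lit 6303, nat_lit 6311, nat_lit 6315, nat_lit 6323, nat_lit 6325, nat_lit 6329, nat_lit 6333,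
  nat_lit 6337, nat_lit 6339, nat_lit 6347, nat_lit 6351, nat_lit 6359, nat_lit 6361, nat_lit 6363, nat_lit 6367,
  nat_lit 6371, nat_lit 6373, nat_lit 6375, nat_lit 6381, nat_lit 6385, nat_lit 6389, nat_lit 6395, nat_lit 6397,
  nat_lit 6401, nat_lit 6405, nat_lit 6413, nat_lit 6415, nat_lit 6417, nat_lit 6421, nat_lit 6425, nat_lit 6431,
  nat_lit 6433, nat_lit 6437, nat_lit 6441, nat_lit 6445, nat_lit 6447, nat_lit 6453, nat_lit 6457, nat_lit 6461,
  nat_lit 6463, nat_lit 6465, nat_lit 6473, nat_lit 6477, nat_lit 6481, nat_lit 6483, nat_lit 6489, nat_lit 6493,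
  nat_lit 6497, nat_lit 6503, nat_lit 6505, nat_lit 6507, nat_lit 6511, nat_lit 6515, nat_lit 6517, nat_lit 6519,
  nat_lit 6527, nat_lit 6531, nat_lit 6539, nat_lit 6541, nat_lit 6545, nat_lit 6549, nat_lit 6553, nat_lit 6555]

def TT : Type :=
  Nat → Nat → Nat → Nat → Nat → Nat → Nat → Nat → Nat → Nat → Nat → Nat → Nat → Nat → Nat → Nat →
  Nat → Nat → Nat → Nat → Nat → Nat → Nat → Nat → Nat → Nat → Nat → Nat → Nat → Nat → Nat → Nat →
  Nat → Nat → Nat → Nat → Nat → Nat → Nat → Nat → Nat → Nat → Nat → Nat → Nat → Nat → Nat → Nat →
  Nat → Nat → Nat → Nat → Nat → Nat → Nat → Nat → Nat → Nat → Nat → Nat → Nat → Nat → Nat → Nat →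
  Nat → Nat → Nat → Nat → Nat → Nat → Nat → Nat → Nat → Nat → Nat → Nat → Nat → Nat → Nat → Nat →
  Nat → Nat → Nat → Nat → Nat → Nat → Nat → Nat → Nat → Nat → Nat → Nat → Nat → Nat → Nat → Nat →
  Nat → Nat → Nat → Nat → Nat → Nat → Nat → Nat → Nat → Nat → Nat → Nat → Nat → Nat → Nat → Nat →
  Nat → Nat → Nat → Nat → Nat → Nat → Nat → Nat → Nat → Nat → Nat → Nat → Nat → Nat → Nat → Nat →
  Nat → Nat → Nat → Nat → Nat → Nat → Nat → Nat → Nat → Nat → Nat → Nat → Nat → Nat → Nat → Nat →
  Nat → Nat → Nat → Nat → Nat → Nat → Nat → Nat → Nat → Nat → Nat → Nat → Nat → Nat → Nat → Nat →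
  Nat → Nat → Nat → Nat → Nat → Nat → Nat → Nat → Nat → Nat → Nat → Nat → Nat → Nat → Nat → Nat →
  Nat → Nat → Nat → Nat → Nat → Nat → Nat → Nat → Nat → Nat → Nat → Nat → Nat → Nat → Nat → Nat →
  Nat → Nat → Nat → Nat → Nat → Nat → Nat → Nat → Nat → Nat → Nat → Nat → Nat → Nat → Nat → Nat →
  Nat → Nat → Nat → Nat → Nat → Nat → Nat → Nat → Nat → Nat → Nat → Nat → Nat → Nat → Nat → Nat →
  Nat → Nat → Nat → Nat → Nat → Nat → Nat → Nat → Nat → Nat → Nat → Nat → Nat → Nat → Nat → Nat →
  Nat → Nat → Nat → Nat → Nat → Nat → Nat → Nat → Nat → Nat → Nat → Nat → Nat → Nat → Nat → Nat →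
  Nat → Nat → Nat → Nat → Nat → Nat → Nat → Nat → Nat → Nat → Nat → Nat → Nat → Nat → Nat → Nat →
  Nat → Nat → Nat → Nat → Nat → Nat → Nat → Nat → Nat → Nat → Nat → Nat → Nat → Nat → Nat → Nat →
  Nat → Nat → Nat → Nat → Nat → Nat → Nat → Nat → Nat → Nat → Nat → Nat → Nat → Nat → Nat → Nat →
  Nat → Nat → Nat → Nat → Nat → Nat → Nat → Nat → Nat → Nat → Nat → Nat → Nat → Nat → Nat → Nat →
  Nat → Nat → Nat → Nat → Nat → Nat → Nat → Nat → Nat → Nat → Nat → Nat → Nat → Nat → Nat → Nat →
  Nat → Nat → Nat → Nat → Nat → Nat → Nat → Nat → Nat → Nat → Nat → Nat → Nat → Nat → Nat → Nat →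
  Nat → Nat → Nat → Nat → Nat → Nat → Nat → Nat → Nat → Nat → Nat → Nat → Nat → Nat → Nat → Nat →
  Nat → Nat → Nat → Nat → Nat → Nat → Nat → Nat → Nat → Nat → Nat → Nat → Nat → Nat → Nat → Nat →
  Nat → Nat → Nat → Nat → Nat → Nat → Nat → Nat → Nat → Nat → Nat → Nat → Nat → Nat → Nat → Nat →
  Nat → Nat → Nat → Nat → Nat → Nat → Nat → Nat → Nat → Nat → Nat → Nat → Nat → Nat → Nat → Nat →
  Nat → Nat → Nat → Nat → Nat → Nat → Nat → Nat → Nat → Nat → Nat → Nat → Nat → Nat → Nat → Nat →
  Nat → Nat → Nat → Nat → Nat → Nat → Nat → Nat → Nat → Nat → Nat → Nat → Nat → Nat → Nat → Nat →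
  Nat → Nat → Nat → Nat → Nat → Nat → Nat → Nat → Nat → Nat → Nat → Nat → Nat → Nat → Nat → Nat →
  Nat → Nat → Nat → Nat → Nat → Nat → Nat → Nat → Nat → Nat → Nat → Nat → Nat → Nat → Nat → Nat →
  Nat → Nat → Nat → Nat → Nat → Nat → Nat → Nat → Nat → Nat → Nat → Nat → Nat → Nat → Nat → Nat →
  Nat → Nat → Nat → Nat → Nat → Nat → Nat → Nat → Nat → Nat → Nat → Nat → Nat → Nat → Nat → Nat →
  Nat → Nat → Nat → Nat → Nat → Nat → Nat → Nat → Nat → Nat → Nat → Nat → Nat → Nat → Nat → Nat →
  Nat → Nat → Nat → Nat → Nat → Nat → Nat → Nat → Nat → Nat → Nat → Nat → Nat → Nat → Nat → Nat →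
  Nat → Nat → Nat → Nat → Nat → Nat → Nat → Nat → Nat → Nat → Nat → Nat → Nat → Nat → Nat → Nat →
  Nat → Nat → Nat → Nat → Nat → Nat → Nat → Nat → Nat → Nat → Nat → Nat → Nat → Nat → Nat → Nat →
  Nat → Nat → Nat → Nat → Nat → Nat → Nat → Nat → Nat → Nat → Nat → Nat → Nat → Nat → Nat → Nat →
  Nat → Nat → Nat → Nat → Nat → Nat → Nat → Nat → Nat → Nat → Nat → Nat → Nat → Nat → Nat → Nat →
  Nat → Nat → Nat → Nat → Nat → Nat → Nat → Nat → Nat → Nat → Nat → Nat → Nat → Nat → Nat → Nat →
  Nat → Nat → Nat → Nat → Nat → Nat → Nat → Nat → Nat → Nat → Nat → Nat → Nat → Nat → Nat → Nat →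
  Nat → Nat → Nat → Nat → Nat → Nat → Nat → Nat → Nat → Nat → Nat → Nat → Nat → Nat → Nat → Nat →
  Nat → Nat → Nat → Nat → Nat → Nat → Nat → Nat → Nat → Nat → Nat → Nat → Nat → Nat → Nat → Nat →
  Nat → Nat → Nat → Nat → Nat → Nat → Nat → Nat → Nat → Nat → Nat → Nat → Nat → Nat → Nat → Nat →
  Nat → Nat → Nat → Nat → Nat → Nat → Nat → Nat → Nat → Nat → Nat → Nat → Nat → Nat → Nat → Nat →
  Nat → Nat → Nat → Nat → Nat → Nat → Nat → Nat → Nat → Nat → Nat → Nat → Nat → Nat → Nat → Nat →
  Nat → Nat → Nat → Nat → Nat → Nat → Nat → Nat → Nat → Nat → Nat → Nat → Nat → Nat → Nat → Nat →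
  Nat → Nat → Nat → Nat → Nat → Nat → Nat → Nat → Nat → Nat → Nat → Nat → Nat → Nat → Nat → Nat →
  Nat → Nat → Nat → Nat → Nat → Nat → Nat → Nat → Nat → Nat → Nat → Nat → Nat → Nat → Nat → Nat →
  Nat → Nat → Nat → Nat → Nat → Nat → Nat → Nat → Nat → Nat → Nat → Nat → Nat → Nat → Nat → Nat →
  Nat → Nat → Nat → Nat → Nat → Nat → Nat → Nat → Nat → Nat → Nat → Nat → Nat → Nat → Nat → Nat →
  Nat → Nat → Nat → Nat → Nat → Nat → Nat → Nat → Nat → Nat → Nat → Nat → Nat → Nat → Nat → Nat →
  Nat → Nat → Nat → Nat → Nat → Nat → Nat → Nat → Nat → Nat → Nat → Nat → Nat → Nat → Nat → Nat →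
  Nat → Nat → Nat → Nat → Nat → Nat → Nat → Nat → Nat → Nat → Nat → Nat → Nat → Nat → Nat → Nat →
  Nat → Nat → Nat → Nat → Nat → Nat → Nat → Nat → Nat → Nat → Nat → Nat → Nat → Nat → Nat → Nat →
  Nat → Nat → Nat → Nat → Nat → Nat → Nat → Nat → Nat → Nat → Nat → Nat → Nat → Nat → Nat → Nat →
  Nat → Nat → Nat → Nat → Nat → Nat → Nat → Nat → Nat → Nat → Nat → Nat → Nat → Nat → Nat → Nat →
  Nat → Nat → Nat → Nat → Nat → Nat → Nat → Nat → Nat → Nat → Nat → Nat → Nat → Nat → Nat → Nat →
  Nat → Nat → Nat → Nat → Nat → Nat → Nat → Nat → Nat → Nat → Nat → Nat → Nat → Nat → Nat → Nat →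
  Nat → Nat → Nat → Nat → Nat → Nat → Nat → Nat → Nat → Nat → Nat → Nat → Nat → Nat → Nat → Nat →
  Nat → Nat → Nat → Nat → Nat → Nat → Nat → Nat → Nat → Nat → Nat → Nat → Nat → Nat → Nat → Nat →
  Nat → Nat → Nat → Nat → Nat → Nat → Nat → Nat → Nat → Nat → Nat → Nat → Nat → Nat → Nat → Nat →
  Nat → Nat → Nat → Nat → Nat → Nat → Nat → Nat → Nat → Nat → Nat → Nat → Nat → Nat → Nat → Nat →
  Nat → Nat → Nat → Nat → Nat → Nat → Nat → Nat → Nat → Nat → Nat → Nat → Nat → Nat → Nat → Nat →
  Nat → Nat → Nat → Nat → Nat → Nat → Nat → Nat → Nat → Nat → Nat → Nat → Nat → Nat → Nat → Nat →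
  Nat → Nat → Nat → Nat → Nat → Nat → Nat → Nat → Nat → Nat → Nat → Nat → Nat → Nat → Nat → Nat →
  Nat → Nat → Nat → Nat → Nat → Nat → Nat → Nat → Nat → Nat → Nat → Nat → Nat → Nat → Nat → Nat →
  Nat → Nat → Nat → Nat → Nat → Nat → Nat → Nat → Nat → Nat → Nat → Nat → Nat → Nat → Nat → Nat →
  Nat → Nat → Nat → Nat → Nat → Nat → Nat → Nat → Nat → Nat → Nat → Nat → Nat → Nat → Nat → Nat →
  Nat → Nat → Nat → Nat → Nat → Nat → Nat → Nat → Nat → Nat → Nat → Nat → Nat → Nat → Nat → Nat →
  Nat → Nat → Nat → Nat → Nat → Nat → Nat → Nat → Nat → Nat → Nat → Nat → Nat → Nat → Nat → Nat →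
  Nat → Nat → Nat → Nat → Nat → Nat → Nat → Nat → Nat → Nat → Nat → Nat → Nat → Nat → Nat → Nat →
  Nat → Nat → Nat → Nat → Nat → Nat → Nat → Nat → Nat → Nat → Nat → Nat → Nat → Nat → Nat → Nat →
  Nat → Nat → Nat → Nat → Nat → Nat → Nat → Nat → Nat → Nat → Nat → Nat → Nat → Nat → Nat → Nat →
  Nat → Nat → Nat → Nat → Nat → Nat → Nat → Nat → Nat → Nat → Nat → Nat → Nat → Nat → Nat → Nat →
  Nat → Nat → Nat → Nat → Nat → Nat → Nat → Nat → Nat → Nat → Nat → Nat → Nat → Nat → Nat → Nat →
  Nat → Nat → Nat → Nat → Nat → Nat → Nat → Nat → Nat → Nat → Nat → Nat → Nat → Nat → Nat → Nat →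
  Nat → Nat → Nat → Nat → Nat → Nat → Nat → Nat → Nat → Nat → Nat → Nat → Nat → Nat → Nat → Nat →
  Nat → Nat → Nat → Nat → Nat → Nat → Nat → Nat → Nat → Nat → Nat → Nat → Nat → Nat → Nat → Nat →
  Nat → Nat → Nat → Nat → Nat → Nat → Nat → Nat → Nat → Nat → Nat → Nat → Nat → Nat → Nat → Nat →
  Nat → Nat → Nat → Nat → Nat → Nat → Nat → Nat → Nat → Nat → Nat → Nat → Nat → Nat → Nat → Nat →
  Nat → Nat → Nat → Nat → Nat → Nat → Nat → Nat → Nat → Nat → Nat → Nat → Nat → Nat → Nat → Nat →
  Nat → Nat → Nat → Nat → Nat → Nat → Nat → Nat → Nat → Nat → Nat → Nat → Nat → Nat → Nat → Nat →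
  Nat → Nat → Nat → Nat → Nat → Nat → Nat → Nat → Nat → Nat → Nat → Nat → Nat → Nat → Nat → Nat →
  Nat → Nat → Nat → Nat → Nat → Nat → Nat → Nat → Nat → Nat → Nat → Nat → Nat → Nat → Nat → Nat →
  Nat → Nat → Nat → Nat → Nat → Nat → Nat → Nat → Nat → Nat → Nat → Nat → Nat → Nat → Nat → Nat →
  Nat → Nat → Nat → Nat → Nat → Nat → Nat → Nat → Nat → Nat → Nat → Nat → Nat → Nat → Nat → Nat →
  Nat → Nat → Nat → Nat → Nat → Nat → Nat → Nat → Nat → Nat → Nat → Nat → Nat → Nat → Nat → Nat →
  Nat → Nat → Nat → Nat → Nat → Nat → Nat → Nat → Nat → Nat → Nat → Nat → Nat → Nat → Nat → Nat →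
  Nat → Nat → Nat → Nat → Nat → Nat → Nat → Nat → Nat → Nat → Nat → Nat → Nat → Nat → Nat → Nat →
  Nat → Nat → Nat → Nat → Nat → Nat → Nat → Nat → Nat → Nat → Nat → Nat → Nat → Nat → Nat → Nat →
  Nat → Nat → Nat → Nat → Nat → Nat → Nat → Nat → Nat → Nat → Nat → Nat → Nat → Nat → Nat → Nat →
  Nat → Nat → Nat → Nat → Nat → Nat → Nat → Nat → Nat → Nat → Nat → Nat → Nat → Nat → Nat → Nat →
  Nat → Nat → Nat → Nat → Nat → Nat → Nat → Nat → Nat → Nat → Nat → Nat → Nat → Nat → Nat → Nat →
  Nat → Nat → Nat → Nat → Nat → Nat → Nat → Nat → Nat → Nat → Nat → Nat → Nat → Nat → Nat → Nat →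
  Nat → Nat → Nat → Nat → Nat → Nat → Nat → Nat → Nat → Nat → Nat → Nat → Nat → Nat → Nat → Nat →
  Nat → Nat → Nat → Nat → Nat → Nat → Nat → Nat → Nat → Nat → Nat → Nat → Nat → Nat → Nat → Nat →
  Nat → Nat → Nat → Nat → Nat → Nat → Nat → Nat → Nat → Nat → Nat → Nat → Nat → Nat → Nat → Nat →
  Nat → Nat → Nat → Nat → Nat → Nat → Nat → Nat → Nat → Nat → Nat → Nat → Nat → Nat → Nat → Nat →
  Nat → Nat → Nat → Nat → Nat → Nat → Nat → Nat → Nat → Nat → Nat → Nat → Nat → Nat → Nat → Nat →
  Nat → Nat → Nat → Nat → Nat → Nat → Nat → Nat → Nat → Nat → Nat → Nat → Nat → Nat → Nat → Nat →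
  Nat → Nat → Nat → Nat → Nat → Nat → Nat → Nat → Nat → Nat → Nat → Nat → Nat → Nat → Nat → Nat →
  Nat → Nat → Nat → Nat → Nat → Nat → Nat → Nat → Nat → Nat → Nat → Nat → Nat → Nat → Nat → Nat →
  Nat → Nat → Nat → Nat → Nat → Nat → Nat → Nat → Bool

noncomputable def base : TT :=
  fun _ _ _ _ _ _ _ _ _ _ _ _ _ _ _ _ _ _ _ _ _ _ _ _ _ _ _ _ _ _ _ _ _ _ _ _ _ _ _ _
  _ _ _ _ _ _ _ _ _ _ _ _ _ _ _ _ _ _ _ _ _ _ _ _ _ _ _ _ _ _ _ _ _ _ _ _ _ _ _ _
  _ _ _ _ _ _ _ _ _ _ _ _ _ _ _ _ _ _ _ _ _ _ _ _ _ _ _ _ _ _ _ _ _ _ _ _ _ _ _ _
  _ _ _ _ _ _ _ _ _ _ _ _ _ _ _ _ _ _ _ _ _ _ _ _ _ _ _ _ _ _ _ _ _ _ _ _ _ _ _ _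
  _ _ _ _ _ _ _ _ _ _ _ _ _ _ _ _ _ _ _ _ _ _ _ _ _ _ _ _ _ _ _ _ _ _ _ _ _ _ _ _
  _ _ _ _ _ _ _ _ _ _ _ _ _ _ _ _ _ _ _ _ _ _ _ _ _ _ _ _ _ _ _ _ _ _ _ _ _ _ _ _
  _ _ _ _ _ _ _ _ _ _ _ _ _ _ _ _ _ _ _ _ _ _ _ _ _ _ _ _ _ _ _ _ _ _ _ _ _ _ _ _
  _ _ _ _ _ _ _ _ _ _ _ _ _ _ _ _ _ _ _ _ _ _ _ _ _ _ _ _ _ _ _ _ _ _ _ _ _ _ _ _
  _ _ _ _ _ _ _ _ _ _ _ _ _ _ _ _ _ _ _ _ _ _ _ _ _ _ _ _ _ _ _ _ _ _ _ _ _ _ _ _
  _ _ _ _ _ _ _ _ _ _ _ _ _ _ _ _ _ _ _ _ _ _ _ _ _ _ _ _ _ _ _ _ _ _ _ _ _ _ _ _
  _ _ _ _ _ _ _ _ _ _ _ _ _ _ _ _ _ _ _ _ _ _ _ _ _ _ _ _ _ _ _ _ _ _ _ _ _ _ _ _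
  _ _ _ _ _ _ _ _ _ _ _ _ _ _ _ _ _ _ _ _ _ _ _ _ _ _ _ _ _ _ _ _ _ _ _ _ _ _ _ _
  _ _ _ _ _ _ _ _ _ _ _ _ _ _ _ _ _ _ _ _ _ _ _ _ _ _ _ _ _ _ _ _ _ _ _ _ _ _ _ _
  _ _ _ _ _ _ _ _ _ _ _ _ _ _ _ _ _ _ _ _ _ _ _ _ _ _ _ _ _ _ _ _ _ _ _ _ _ _ _ _
  _ _ _ _ _ _ _ _ _ _ _ _ _ _ _ _ _ _ _ _ _ _ _ _ _ _ _ _ _ _ _ _ _ _ _ _ _ _ _ _
  _ _ _ _ _ _ _ _ _ _ _ _ _ _ _ _ _ _ _ _ _ _ _ _ _ _ _ _ _ _ _ _ _ _ _ _ _ _ _ _
  _ _ _ _ _ _ _ _ _ _ _ _ _ _ _ _ _ _ _ _ _ _ _ _ _ _ _ _ _ _ _ _ _ _ _ _ _ _ _ _
  _ _ _ _ _ _ _ _ _ _ _ _ _ _ _ _ _ _ _ _ _ _ _ _ _ _ _ _ _ _ _ _ _ _ _ _ _ _ _ _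
  _ _ _ _ _ _ _ _ _ _ _ _ _ _ _ _ _ _ _ _ _ _ _ _ _ _ _ _ _ _ _ _ _ _ _ _ _ _ _ _
  _ _ _ _ _ _ _ _ _ _ _ _ _ _ _ _ _ _ _ _ _ _ _ _ _ _ _ _ _ _ _ _ _ _ _ _ _ _ _ _
  _ _ _ _ _ _ _ _ _ _ _ _ _ _ _ _ _ _ _ _ _ _ _ _ _ _ _ _ _ _ _ _ _ _ _ _ _ _ _ _
  _ _ _ _ _ _ _ _ _ _ _ _ _ _ _ _ _ _ _ _ _ _ _ _ _ _ _ _ _ _ _ _ _ _ _ _ _ _ _ _
  _ _ _ _ _ _ _ _ _ _ _ _ _ _ _ _ _ _ _ _ _ _ _ _ _ _ _ _ _ _ _ _ _ _ _ _ _ _ _ _
  _ _ _ _ _ _ _ _ _ _ _ _ _ _ _ _ _ _ _ _ _ _ _ _ _ _ _ _ _ _ _ _ _ _ _ _ _ _ _ _
  _ _ _ _ _ _ _ _ _ _ _ _ _ _ _ _ _ _ _ _ _ _ _ _ _ _ _ _ _ _ _ _ _ _ _ _ _ _ _ _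
  _ _ _ _ _ _ _ _ _ _ _ _ _ _ _ _ _ _ _ _ _ _ _ _ _ _ _ _ _ _ _ _ _ _ _ _ _ _ _ _
  _ _ _ _ _ _ _ _ _ _ _ _ _ _ _ _ _ _ _ _ _ _ _ _ _ _ _ _ _ _ _ _ _ _ _ _ _ _ _ _
  _ _ _ _ _ _ _ _ _ _ _ _ _ _ _ _ _ _ _ _ _ _ _ _ _ _ _ _ _ _ _ _ _ _ _ _ _ _ _ _
  _ _ _ _ _ _ _ _ _ _ _ _ _ _ _ _ _ _ _ _ _ _ _ _ _ _ _ _ _ _ _ _ _ _ _ _ _ _ _ _
  _ _ _ _ _ _ _ _ _ _ _ _ _ _ _ _ _ _ _ _ _ _ _ _ _ _ _ _ _ _ _ _ _ _ _ _ _ _ _ _
  _ _ _ _ _ _ _ _ _ _ _ _ _ _ _ _ _ _ _ _ _ _ _ _ _ _ _ _ _ _ _ _ _ _ _ _ _ _ _ _
  _ _ _ _ _ _ _ _ _ _ _ _ _ _ _ _ _ _ _ _ _ _ _ _ _ _ _ _ _ _ _ _ _ _ _ _ _ _ _ _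
  _ _ _ _ _ _ _ _ _ _ _ _ _ _ _ _ _ _ _ _ _ _ _ _ _ _ _ _ _ _ _ _ _ _ _ _ _ _ _ _
  _ _ _ _ _ _ _ _ _ _ _ _ _ _ _ _ _ _ _ _ _ _ _ _ _ _ _ _ _ _ _ _ _ _ _ _ _ _ _ _
  _ _ _ _ _ _ _ _ _ _ _ _ _ _ _ _ _ _ _ _ _ _ _ _ _ _ _ _ _ _ _ _ _ _ _ _ _ _ _ _
  _ _ _ _ _ _ _ _ _ _ _ _ _ _ _ _ _ _ _ _ _ _ _ _ _ _ _ _ _ _ _ _ _ _ _ _ _ _ _ _
  _ _ _ _ _ _ _ _ _ _ _ _ _ _ _ _ _ _ _ _ _ _ _ _ _ _ _ _ _ _ _ _ _ _ _ _ _ _ _ _
  _ _ _ _ _ _ _ _ _ _ _ _ _ _ _ _ _ _ _ _ _ _ _ _ _ _ _ _ _ _ _ _ _ _ _ _ _ _ _ _
  _ _ _ _ _ _ _ _ _ _ _ _ _ _ _ _ _ _ _ _ _ _ _ _ _ _ _ _ _ _ _ _ _ _ _ _ _ _ _ _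
  _ _ _ _ _ _ _ _ _ _ _ _ _ _ _ _ _ _ _ _ _ _ _ _ _ _ _ _ _ _ _ _ _ _ _ _ _ _ _ _
  _ _ _ _ _ _ _ _ _ _ _ _ _ _ _ _ _ _ _ _ _ _ _ _ _ _ _ _ _ _ _ _ _ _ _ _ _ _ _ _ => true

noncomputable def G (chk : List Nat → Bool) (C : Nat) (k : TT) : TT :=
  fun x1 x3 x9 x13 x17 x23 x25 x27 x31 x35 x37 x39 x47 x51 x59 x61
  x65 x69 x73 x75 x81 x85 x89 x91 x93 x101 x105 x109 x111 x117 x121 x125
  x131 x133 x137 x141 x149 x151 x153 x157 x161 x167 x169 x173 x177 x181 x183 x191
  x195 x203 x205 x207 x211 x215 x217 x219 x225 x229 x233 x239 x241 x243 x247 x251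
  x253 x255 x263 x267 x271 x273 x279 x283 x287 x293 x295 x299 x303 x311 x313 x315
  x319 x323 x325 x327 x333 x337 x341 x347 x349 x351 x355 x359 x361 x363 x371 x375
  x383 x385 x389 x393 x397 x399 x407 x411 x419 x421 x423 x427 x431 x437 x439 x443
  x447 x451 x453 x459 x463 x467 x469 x471 x479 x483 x491 x493 x497 x501 x505 x507
  x515 x519 x527 x529 x531 x535 x539 x541 x543 x549 x553 x557 x563 x565 x569 x573
  x581 x583 x585 x589 x593 x599 x601 x605 x609 x613 x615 x621 x625 x629 x631 x633
  x641 x645 x649 x651 x657 x661 x665 x671 x673 x675 x679 x683 x685 x687 x695 x699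
  x707 x709 x713 x717 x721 x723 x729 x733 x737 x739 x741 x749 x753 x757 x759 x765
  x769 x773 x779 x781 x785 x789 x797 x799 x801 x805 x809 x811 x813 x819 x823 x827
  x833 x835 x837 x841 x845 x847 x849 x857 x861 x869 x871 x875 x879 x883 x885 x893
  x897 x905 x907 x909 x913 x917 x923 x925 x929 x933 x937 x939 x945 x949 x953 x955
  x957 x965 x969 x973 x975 x981 x985 x989 x995 x997 x999 x1003 x1007 x1009 x1011 x1019
  x1023 x1031 x1033 x1037 x1041 x1045 x1047 x1053 x1057 x1061 x1063 x1065 x1073 x1077 x1081 x1083
  x1089 x1093 x1097 x1103 x1105 x1109 x1113 x1121 x1123 x1125 x1129 x1133 x1139 x1141 x1145 x1149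
  x1153 x1155 x1163 x1167 x1175 x1177 x1179 x1183 x1187 x1189 x1191 x1197 x1201 x1205 x1211 x1213
  x1217 x1221 x1229 x1231 x1233 x1237 x1241 x1247 x1249 x1253 x1257 x1261 x1263 x1269 x1273 x1277
  x1279 x1281 x1289 x1293 x1301 x1303 x1307 x1311 x1315 x1317 x1325 x1329 x1337 x1339 x1341 x1345
  x1349 x1351 x1353 x1359 x1363 x1367 x1373 x1375 x1377 x1381 x1385 x1387 x1389 x1397 x1401 x1405
  x1407 x1413 x1417 x1421 x1427 x1429 x1433 x1437 x1445 x1447 x1449 x1453 x1457 x1463 x1465 x1469
  x1473 x1477 x1479 x1487 x1491 x1499 x1501 x1503 x1507 x1511 x1513 x1515 x1521 x1525 x1529 x1535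
  x1537 x1541 x1545 x1553 x1555 x1557 x1561 x1565 x1571 x1573 x1577 x1581 x1585 x1587 x1593 x1597
  x1601 x1603 x1605 x1613 x1617 x1621 x1623 x1629 x1633 x1637 x1643 x1645 x1647 x1651 x1655 x1657
  x1659 x1667 x1671 x1679 x1681 x1685 x1689 x1693 x1695 x1703 x1707 x1715 x1717 x1719 x1723 x1727
  x1733 x1735 x1739 x1743 x1747 x1749 x1755 x1759 x1763 x1765 x1767 x1775 x1779 x1787 x1789 x1793
  x1797 x1801 x1803 x1811 x1815 x1823 x1825 x1827 x1831 x1835 x1837 x1839 x1845 x1849 x1853 x1859
  x1861 x1863 x1867 x1871 x1873 x1875 x1883 x1887 x1891 x1893 x1899 x1903 x1907 x1913 x1915 x1919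
  x1923 x1931 x1933 x1935 x1939 x1943 x1945 x1947 x1953 x1957 x1961 x1967 x1969 x1971 x1975 x1979
  x1981 x1983 x1991 x1995 x2003 x2005 x2009 x2013 x2017 x2019 x2025 x2029 x2033 x2035 x2037 x2045
  x2049 x2053 x2055 x2061 x2065 x2069 x2075 x2077 x2081 x2085 x2093 x2095 x2097 x2101 x2105 x2111
  x2113 x2117 x2121 x2125 x2127 x2135 x2139 x2147 x2149 x2151 x2155 x2159 x2161 x2163 x2169 x2173
  x2177 x2183 x2185 x2187 x2191 x2195 x2197 x2199 x2207 x2211 x2215 x2217 x2223 x2227 x2231 x2237
  x2239 x2243 x2247 x2255 x2257 x2259 x2263 x2267 x2269 x2271 x2277 x2281 x2285 x2291 x2293 x2295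
  x2299 x2303 x2305 x2307 x2315 x2319 x2327 x2329 x2333 x2337 x2341 x2343 x2351 x2355 x2363 x2365
  x2367 x2371 x2375 x2381 x2383 x2387 x2391 x2395 x2397 x2403 x2407 x2411 x2413 x2415 x2423 x2427
  x2431 x2433 x2439 x2443 x2447 x2453 x2455 x2457 x2461 x2465 x2467 x2469 x2477 x2481 x2489 x2491
  x2495 x2499 x2503 x2505 x2511 x2515 x2519 x2521 x2523 x2531 x2535 x2539 x2541 x2547 x2551 x2555
  x2561 x2563 x2567 x2571 x2579 x2581 x2583 x2587 x2591 x2597 x2599 x2603 x2607 x2611 x2613 x2621
  x2625 x2633 x2635 x2637 x2641 x2645 x2647 x2649 x2655 x2659 x2663 x2669 x2671 x2675 x2679 x2687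
  x2689 x2691 x2695 x2699 x2705 x2707 x2711 x2715 x2719 x2721 x2727 x2731 x2735 x2737 x2739 x2747
  x2751 x2759 x2761 x2765 x2769 x2773 x2775 x2783 x2787 x2795 x2797 x2799 x2803 x2807 x2809 x2811
  x2817 x2821 x2825 x2831 x2833 x2835 x2839 x2843 x2845 x2847 x2855 x2859 x2863 x2865 x2871 x2875
  x2879 x2885 x2887 x2891 x2895 x2903 x2905 x2907 x2911 x2915 x2917 x2919 x2925 x2929 x2933 x2939
  x2941 x2943 x2947 x2951 x2953 x2955 x2963 x2967 x2975 x2977 x2981 x2985 x2989 x2991 x2997 x3001
  x3005 x3007 x3009 x3017 x3021 x3025 x3027 x3033 x3037 x3041 x3047 x3049 x3053 x3057 x3065 x3067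
  x3069 x3073 x3077 x3083 x3085 x3089 x3093 x3097 x3099 x3107 x3111 x3119 x3121 x3123 x3127 x3131
  x3133 x3135 x3141 x3145 x3149 x3155 x3157 x3159 x3163 x3167 x3169 x3171 x3179 x3183 x3187 x3189
  x3195 x3199 x3203 x3209 x3211 x3215 x3219 x3227 x3229 x3231 x3235 x3239 x3241 x3243 x3249 x3253
  x3257 x3263 x3265 x3267 x3271 x3275 x3277 x3279 x3287 x3291 x3299 x3301 x3305 x3309 x3313 x3315
  x3323 x3327 x3335 x3337 x3339 x3343 x3347 x3353 x3355 x3359 x3363 x3367 x3369 x3375 x3379 x3383
  x3385 x3387 x3395 x3399 x3407 x3409 x3413 x3417 x3421 x3423 x3431 x3435 x3443 x3445 x3447 x3451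
  x3455 x3457 x3459 x3465 x3469 x3473 x3479 x3481 x3485 x3489 x3497 x3499 x3501 x3505 x3509 x3515
  x3517 x3521 x3525 x3529 x3531 x3537 x3541 x3545 x3547 x3549 x3557 x3561 x3565 x3567 x3573 x3577
  x3581 x3587 x3589 x3591 x3595 x3599 x3601 x3603 x3611 x3615 x3623 x3625 x3629 x3633 x3637 x3639
  x3647 x3651 x3659 x3661 x3663 x3667 x3671 x3677 x3679 x3683 x3687 x3691 x3693 x3699 x3703 x3707
  x3709 x3711 x3719 x3723 x3731 x3733 x3737 x3741 x3745 x3747 x3755 x3759 x3767 x3769 x3771 x3775
  x3779 x3781 x3783 x3789 x3793 x3797 x3803 x3805 x3807 x3811 x3815 x3817 x3819 x3827 x3831 x3835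
  x3837 x3843 x3847 x3851 x3857 x3859 x3863 x3867 x3875 x3877 x3879 x3883 x3887 x3893 x3895 x3899
  x3903 x3907 x3909 x3917 x3921 x3929 x3931 x3933 x3937 x3941 x3943 x3945 x3951 x3955 x3959 x3965
  x3967 x3971 x3975 x3983 x3985 x3987 x3991 x3995 x4001 x4003 x4007 x4011 x4015 x4017 x4023 x4027
  x4031 x4033 x4035 x4043 x4047 x4051 x4053 x4059 x4063 x4067 x4073 x4075 x4077 x4081 x4085 x4087
  x4089 x4097 x4101 x4109 x4111 x4115 x4119 x4123 x4125 x4131 x4135 x4139 x4141 x4143 x4151 x4155
  x4159 x4161 x4167 x4171 x4175 x4181 x4183 x4187 x4191 x4199 x4201 x4203 x4207 x4211 x4213 x4215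
  x4221 x4225 x4229 x4235 x4237 x4239 x4243 x4247 x4249 x4251 x4259 x4263 x4271 x4273 x4277 x4281
  x4285 x4287 x4295 x4299 x4307 x4309 x4311 x4315 x4319 x4325 x4327 x4331 x4335 x4339 x4341 x4347
  x4351 x4355 x4357 x4359 x4367 x4371 x4379 x4381 x4385 x4389 x4393 x4395 x4403 x4407 x4415 x4417
  x4419 x4423 x4427 x4429 x4431 x4437 x4441 x4445 x4451 x4453 x4457 x4461 x4469 x4471 x4473 x4477
  x4481 x4487 x4489 x4493 x4497 x4501 x4503 x4509 x4513 x4517 x4519 x4521 x4529 x4533 x4537 x4539
  x4545 x4549 x4553 x4559 x4561 x4563 x4567 x4571 x4573 x4575 x4583 x4587 x4595 x4597 x4601 x4605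
  x4609 x4611 x4619 x4623 x4631 x4633 x4635 x4639 x4643 x4649 x4651 x4655 x4659 x4663 x4665 x4671
  x4675 x4679 x4681 x4683 x4691 x4695 x4703 x4705 x4709 x4713 x4717 x4719 x4727 x4731 x4739 x4741
  x4743 x4747 x4751 x4753 x4755 x4761 x4765 x4769 x4775 x4777 x4779 x4783 x4787 x4789 x4791 x4799
  x4803 x4807 x4809 x4815 x4819 x4823 x4829 x4831 x4835 x4839 x4847 x4849 x4851 x4855 x4859 x4861
  x4863 x4869 x4873 x4877 x4883 x4885 x4887 x4891 x4895 x4897 x4899 x4907 x4911 x4919 x4921 x4925
  x4929 x4933 x4935 x4941 x4945 x4949 x4951 x4953 x4961 x4965 x4969 x4971 x4977 x4981 x4985 x4991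
  x4993 x4997 x5001 x5009 x5011 x5013 x5017 x5021 x5027 x5029 x5033 x5037 x5041 x5043 x5051 x5055
  x5063 x5065 x5067 x5071 x5075 x5077 x5079 x5085 x5089 x5093 x5099 x5101 x5105 x5109 x5117 x5119
  x5121 x5125 x5129 x5135 x5137 x5141 x5145 x5149 x5151 x5157 x5161 x5165 x5167 x5169 x5177 x5181
  x5189 x5191 x5195 x5199 x5203 x5205 x5213 x5217 x5225 x5227 x5229 x5233 x5237 x5239 x5241 x5247
  x5251 x5255 x5261 x5263 x5265 x5269 x5273 x5275 x5277 x5285 x5289 x5293 x5295 x5301 x5305 x5309
  x5315 x5317 x5321 x5325 x5333 x5335 x5337 x5341 x5345 x5351 x5353 x5357 x5361 x5365 x5367 x5375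
  x5379 x5387 x5389 x5391 x5395 x5399 x5401 x5403 x5409 x5413 x5417 x5423 x5425 x5429 x5433 x5441
  x5443 x5445 x5449 x5453 x5459 x5461 x5465 x5469 x5473 x5475 x5481 x5485 x5489 x5491 x5493 x5501
  x5505 x5509 x5511 x5517 x5521 x5525 x5531 x5533 x5535 x5539 x5543 x5545 x5547 x5555 x5559 x5567
  x5569 x5573 x5577 x5581 x5583 x5589 x5593 x5597 x5599 x5601 x5609 x5613 x5617 x5619 x5625 x5629
  x5633 x5639 x5641 x5645 x5649 x5657 x5659 x5661 x5665 x5669 x5671 x5673 x5679 x5683 x5687 x5693
  x5695 x5697 x5701 x5705 x5707 x5709 x5717 x5721 x5729 x5731 x5735 x5739 x5743 x5745 x5753 x5757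
  x5765 x5767 x5769 x5773 x5777 x5783 x5785 x5789 x5793 x5797 x5799 x5805 x5809 x5813 x5815 x5817
  x5825 x5829 x5833 x5835 x5841 x5845 x5849 x5855 x5857 x5859 x5863 x5867 x5869 x5871 x5879 x5883
  x5891 x5893 x5897 x5901 x5905 x5907 x5913 x5917 x5921 x5923 x5925 x5933 x5937 x5941 x5943 x5949
  x5953 x5957 x5963 x5965 x5969 x5973 x5981 x5983 x5985 x5989 x5993 x5999 x6001 x6005 x6009 x6013
  x6015 x6023 x6027 x6035 x6037 x6039 x6043 x6047 x6049 x6051 x6057 x6061 x6065 x6071 x6073 x6075
  x6079 x6083 x6085 x6087 x6095 x6099 x6103 x6105 x6111 x6115 x6119 x6125 x6127 x6131 x6135 x6143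
  x6145 x6147 x6151 x6155 x6157 x6159 x6165 x6169 x6173 x6179 x6181 x6183 x6187 x6191 x6193 x6195
  x6203 x6207 x6215 x6217 x6221 x6225 x6229 x6231 x6239 x6243 x6251 x6253 x6255 x6259 x6263 x6269
  x6271 x6275 x6279 x6283 x6285 x6291 x6295 x6299 x6301 x6303 x6311 x6315 x6323 x6325 x6329 x6333
  x6337 x6339 x6347 x6351 x6359 x6361 x6363 x6367 x6371 x6373 x6375 x6381 x6385 x6389 x6395 x6397
  x6401 x6405 x6413 x6415 x6417 x6421 x6425 x6431 x6433 x6437 x6441 x6445 x6447 x6453 x6457 x6461
  x6463 x6465 x6473 x6477 x6481 x6483 x6489 x6493 x6497 x6503 x6505 x6507 x6511 x6515 x6517 x6519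
  x6527 x6531 x6539 x6541 x6545 x6549 x6553 x6555 =>
  Bool.rec false (k
  (sub (add (add (add (add (add (add (add (add (add (add (add (add (sub C x3) x13) x25) x37) x73) x109) x217) x325) x649) x973) x1945) x2917) x5833) x2187)
  (sub (add (add (add (add (add (add (add (add (add (add (add (sub (sub C x1) x9) x39) x75) x111) x219) x327) x651) x975) x1947) x2919) x5835) x2191) x4379)
  (sub (add (add (add (add (add (add (add (add (add (sub (sub (add (add C x13) x17) x3) x27) x117) x225) x333) x657) x981) x1953) x2925) x5841) x2197) x4385)
  (sub (add (add (add (add (add (add (add (add (sub (add (add (add (add C x9) x17) x1) x25) x31) x121) x229) x337) x661) x985) x1957) x2929) x5845) x2199)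
  (add (add (add (add (add (add (add (add (add (sub (sub (add (add C x9) x13) x23) x35) x125) x233) x341) x665) x989) x1961) x2933) x5849) x4389)
  (add (add (add (add (add (add (add (add (add (sub (sub (sub C x25) x17) x59) x131) x239) x347) x671) x995) x1967) x2939) x5855) x4395)
  (sub (add (add (add (add (add (add (add (add (sub (add (add (sub C x23) x1) x13) x61) x133) x241) x349) x673) x997) x1969) x2941) x5857) x2211)
  (sub (add (add (add (add (add (add (add (sub (sub (add (add (add (add C x31) x35) x39) x51) x9) x81) x351) x675) x999) x1971) x2943) x5859) x2215) x4403)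
  (sub (add (add (add (add (add (add (sub (sub (sub (add (add C x27) x35) x37) x13) x85) x355) x679) x1003) x1975) x2947) x5863) x2217)
  (add (add (add (add (add (add (add (sub (sub (sub (add (add C x27) x31) x47) x17) x89) x359) x683) x1007) x1979) x2951) x5867) x4407)
  (sub (add (add (add (add (add (add (sub (add (add (sub (sub C x39) x31) x1) x73) x91) x361) x685) x1009) x1981) x2953) x5869) x2223)
  (sub (add (add (add (add (add (add (add (sub (add (add (add (add (sub C x37) x27) x51) x3) x75) x93) x363) x687) x1011) x1983) x2955) x5871) x2227) x4415)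
  (add (add (add (add (add (add (add (sub (sub (sub (sub C x51) x35) x65) x101) x371) x695) x1019) x1991) x2963) x5879) x4419)
  (sub (add (add (add (add (add (add (add (sub (sub (add (add (sub C x47) x27) x39) x69) x105) x375) x699) x1023) x1995) x2967) x5883) x2239) x4427)
  (add (add (add (add (add (add (add (sub (sub (sub (sub C x61) x65) x23) x167) x383) x707) x1031) x2003) x2975) x5891) x4431)
  (sub (add (add (add (add (add (add (sub (sub (sub (sub C x59) x73) x25) x169) x385) x709) x1033) x2005) x2977) x5893) x2247)
  (add (add (add (add (add (add (add (sub (sub (sub (sub C x69) x59) x47) x173) x389) x713) x1037) x2009) x2981) x5897) x4437)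
  (sub (add (add (add (add (add (add (add (sub (sub (sub (sub C x65) x75) x51) x177) x393) x717) x1041) x2013) x2985) x5901) x2257) x4445)
  (sub (add (add (add (add (add (add (sub (add (add (sub (sub C x75) x61) x1) x37) x181) x397) x721) x1045) x2017) x2989) x5905) x2259)
  (sub (add (add (add (add (add (add (add (sub (add (add (sub (sub C x73) x69) x3) x39) x183) x399) x723) x1047) x2019) x2991) x5907) x2263) x4451)
  (sub (add (add (add (add (add (sub (sub (add (add (add (add (add (add C x85) x89) x93) x105) x117) x153) x27) x243) x1053) x2025) x2997) x5913) x2269) x4457)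
  (sub (add (add (add (add (sub (sub (add (add (sub (add (add C x81) x89) x91) x121) x157) x31) x247) x1057) x2029) x3001) x5917) x2271)
  (add (add (add (add (add (sub (sub (add (add (sub (add (add C x81) x85) x101) x125) x161) x35) x251) x1061) x2033) x3005) x5921) x4461)
  (sub (add (add (add (add (sub (sub (sub (sub (sub C x93) x85) x109) x37) x253) x1063) x2035) x3007) x5923) x2277)
  (sub (add (add (add (add (add (sub (sub (sub (add (add (sub C x91) x81) x105) x111) x39) x255) x1065) x2037) x3009) x5925) x2281) x4469)
  (add (add (add (add (add (sub (sub (sub (sub (sub C x105) x89) x137) x47) x263) x1073) x2045) x3017) x5933) x4473)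
  (sub (add (add (add (add (add (sub (sub (sub (add (add (sub C x101) x81) x93) x141) x51) x267) x1077) x2049) x3021) x5937) x2293) x4481)
  (sub (add (add (add (add (sub (add (add (sub (add (add (sub C x111) x121) x133) x91) x1) x217) x271) x1081) x2053) x3025) x5941) x2295)
  (sub (add (add (add (add (add (sub (add (add (sub (sub (sub C x109) x117) x93) x3) x219) x273) x1083) x2055) x3027) x5943) x2299) x4487)
  (sub (add (add (add (add (add (sub (add (add (add (add (sub (add (add C x121) x125) x111) x81) x153) x9) x225) x279) x1089) x2061) x3033) x5949) x2305) x4493)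
  (sub (add (add (add (add (sub (add (add (add (add (add (add (add (add C x117) x125) x109) x133) x85) x157) x13) x229) x283) x1093) x2065) x3037) x5953) x2307)
  (add (add (add (add (add (sub (add (add (add (add (sub (add (add C x117) x121) x131) x89) x161) x17) x233) x287) x1097) x2069) x3041) x5957) x4497)
  (add (add (add (add (add (sub (add (add (sub (sub (sub C x133) x125) x149) x23) x239) x293) x1103) x2075) x3047) x5963) x4503)
  (sub (add (add (add (add (sub (add (add (sub (add (add (sub C x131) x109) x121) x151) x25) x241) x295) x1105) x2077) x3049) x5965) x2319)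
  (add (add (add (add (add (sub (sub (sub (add (add (sub C x141) x149) x161) x101) x191) x299) x1109) x2081) x3053) x5969) x4509)
  (sub (add (add (add (add (add (sub (sub (sub (sub (sub C x137) x153) x105) x195) x303) x1113) x2085) x3057) x5973) x2329) x4517)
  (add (add (add (add (add (sub (sub (sub (add (add (sub C x151) x137) x161) x131) x203) x311) x1121) x2093) x3065) x5981) x4521)
  (sub (add (add (add (add (sub (sub (sub (sub (sub C x149) x157) x133) x205) x313) x1123) x2095) x3067) x5983) x2337)
  (sub (add (add (add (add (add (sub (sub (add (add (sub (add (add C x157) x161) x141) x81) x117) x207) x315) x1125) x2097) x3069) x5985) x2341) x4529)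
  (sub (add (add (add (add (sub (sub (add (add (sub (add (add C x153) x161) x151) x85) x121) x211) x319) x1129) x2101) x3073) x5989) x2343)
  (add (add (add (add (add (sub (sub (add (add (add (add (add (add C x153) x157) x137) x149) x89) x125) x215) x323) x1133) x2105) x3077) x5993) x4533)
  (add (add (add (add (add (sub (sub (add (add (sub (sub C x169) x173) x203) x239) x59) x491) x1139) x2111) x3083) x5999) x4539)
  (sub (add (add (add (add (sub (sub (add (add (sub (sub C x167) x181) x205) x241) x61) x493) x1141) x2113) x3085) x6001) x2355)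
  (add (add (add (add (add (sub (sub (sub (sub (sub C x177) x167) x191) x65) x497) x1145) x2117) x3089) x6005) x4545)
  (sub (add (add (add (add (add (sub (sub (sub (sub (sub C x173) x183) x195) x69) x501) x1149) x2121) x3093) x6009) x2365) x4553)
  (sub (add (add (add (add (sub (sub (sub (sub (sub C x183) x169) x217) x73) x505) x1153) x2125) x3097) x6013) x2367)
  (sub (add (add (add (add (add (sub (sub (sub (sub (sub C x181) x177) x219) x75) x507) x1155) x2127) x3099) x6015) x2371) x4559)
  (add (add (add (add (add (sub (sub (sub (add (add (sub C x195) x203) x215) x173) x137) x515) x1163) x2135) x3107) x6023) x4563)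
  (sub (add (add (add (add (add (sub (sub (sub (sub (sub C x191) x207) x177) x141) x519) x1167) x2139) x3111) x6027) x2383) x4571)
  (add (add (add (add (add (sub (sub (add (add (add (add (sub C x205) x191) x215) x167) x239) x149) x527) x1175) x2147) x3119) x6035) x4575)
  (sub (add (add (add (add (sub (sub (add (add (sub (sub C x203) x211) x169) x241) x151) x529) x1177) x2149) x3121) x6037) x2391)
  (sub (add (add (add (add (add (sub (sub (sub (sub (add (add C x211) x215) x195) x225) x153) x531) x1179) x2151) x3123) x6039) x2395) x4583)
  (sub (add (add (add (add (sub (sub (sub (sub (add (add C x207) x215) x205) x229) x157) x535) x1183) x2155) x3127) x6043) x2397)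
  (add (add (add (add (add (sub (sub (sub (add (add (add (add C x207) x211) x191) x203) x233) x161) x539) x1187) x2159) x3131) x6047) x4587)
  (sub (add (add (add (add (sub (add (add (sub (add (add (sub C x219) x229) x241) x181) x1) x109) x541) x1189) x2161) x3133) x6049) x2403)
  (sub (add (add (add (add (add (sub (add (add (sub (sub (sub C x217) x225) x183) x3) x111) x543) x1191) x2163) x3135) x6051) x2407) x4595)
  (sub (add (add (add (add (add (sub (add (add (sub (sub (add (add C x229) x233) x219) x207) x9) x117) x549) x1197) x2169) x3141) x6057) x2413) x4601)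
  (sub (add (add (add (add (sub (add (add (sub (add (add (add (add C x225) x233) x217) x241) x211) x13) x121) x553) x1201) x2173) x3145) x6061) x2415)
  (add (add (add (add (add (sub (add (add (sub (sub (add (add C x225) x229) x239) x215) x17) x125) x557) x1205) x2177) x3149) x6065) x4605)
  (add (add (add (add (add (sub (add (add (add (add (sub (sub C x241) x233) x167) x203) x23) x131) x563) x1211) x2183) x3155) x6071) x4611)
  (sub (add (add (add (add (sub (add (add (add (add (add (add (sub C x239) x217) x229) x169) x205) x25) x133) x565) x1213) x2185) x3157) x6073) x2427)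
  (sub (add (add (add (sub (sub (add (add (add (add (add (add (add (add C x247) x251) x255) x267) x279) x315) x351) x459) x81) x729) x3159) x6075) x2431) x4619)
  (sub (add (add (sub (sub (add (add (add (add (sub (add (add C x243) x251) x253) x283) x319) x355) x463) x85) x733) x3163) x6079) x2433)
  (add (add (add (sub (sub (add (add (add (add (sub (add (add C x243) x247) x263) x287) x323) x359) x467) x89) x737) x3167) x6083) x4623)
  (sub (add (add (sub (sub (add (add (sub (sub (sub C x255) x247) x271) x361) x469) x91) x739) x3169) x6085) x2439)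
  (sub (add (add (add (sub (sub (add (add (sub (add (add (sub C x253) x243) x267) x273) x363) x471) x93) x741) x3171) x6087) x2443) x4631)
  (add (add (add (sub (sub (add (add (sub (sub (sub C x267) x251) x299) x371) x479) x101) x749) x3179) x6095) x4635)
  (sub (add (add (add (sub (sub (add (add (sub (add (add (sub C x263) x243) x255) x303) x375) x483) x105) x753) x3183) x6099) x2455) x4643)
  (sub (add (add (sub (sub (sub (sub (add (add (sub C x273) x283) x295) x253) x325) x109) x757) x3187) x6103) x2457)
  (sub (add (add (add (sub (sub (sub (sub (sub (sub C x271) x279) x255) x327) x111) x759) x3189) x6105) x2461) x4649)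
  (sub (add (add (add (sub (sub (sub (add (add (sub (add (add C x283) x287) x273) x243) x315) x333) x117) x765) x3195) x6111) x2467) x4655)
  (sub (add (add (sub (sub (sub (add (add (add (add (add (add C x279) x287) x271) x295) x247) x319) x337) x121) x769) x3199) x6115) x2469)
  (add (add (add (sub (sub (sub (add (add (sub (add (add C x279) x283) x293) x251) x323) x341) x125) x773) x3203) x6119) x4659)
  (add (add (add (sub (sub (sub (sub (sub (sub C x295) x287) x311) x347) x131) x779) x3209) x6125) x4665)
  (sub (add (add (sub (sub (sub (sub (add (add (sub C x293) x271) x283) x313) x349) x133) x781) x3211) x6127) x2481)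
  (add (add (add (sub (sub (sub (sub (add (add (sub C x303) x311) x323) x263) x407) x137) x785) x3215) x6131) x4671)
  (sub (add (add (add (sub (sub (sub (sub (sub (sub C x299) x315) x267) x411) x141) x789) x3219) x6135) x2491) x4679)
  (add (add (add (sub (sub (sub (sub (add (add (sub C x313) x299) x323) x293) x419) x149) x797) x3227) x6143) x4683)
  (sub (add (add (sub (sub (sub (sub (sub (sub C x311) x319) x295) x421) x151) x799) x3229) x6145) x2499)
  (sub (add (add (add (sub (sub (sub (add (add (sub (add (add C x319) x323) x303) x243) x279) x423) x153) x801) x3231) x6147) x2503) x4691)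
  (sub (add (add (sub (sub (sub (add (add (sub (add (add C x315) x323) x313) x247) x283) x427) x157) x805) x3235) x6151) x2505)
  (add (add (add (sub (sub (sub (add (add (add (add (add (add C x315) x319) x299) x311) x251) x287) x431) x161) x809) x3239) x6155) x4695)
  (sub (add (add (sub (add (add (sub (add (add (add (add (sub C x327) x337) x349) x361) x397) x271) x1) x649) x811) x3241) x6157) x2511)
  (sub (add (add (add (sub (add (add (sub (add (add (sub (sub C x325) x333) x363) x399) x273) x3) x651) x813) x3243) x6159) x2515) x4703)
  (sub (add (add (add (sub (add (add (sub (sub (sub (add (add C x337) x341) x327) x351) x279) x9) x657) x819) x3249) x6165) x2521) x4709)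
  (sub (add (add (sub (add (add (sub (sub (add (add (add (add C x333) x341) x325) x349) x355) x283) x13) x661) x823) x3253) x6169) x2523)
  (add (add (add (sub (add (add (sub (sub (sub (add (add C x333) x337) x347) x359) x287) x17) x665) x827) x3257) x6173) x4713)
  (add (add (add (sub (add (add (sub (sub (sub (sub C x349) x341) x383) x293) x23) x671) x833) x3263) x6179) x4719)
  (sub (add (add (sub (add (add (sub (sub (add (add (sub C x347) x325) x337) x385) x295) x25) x673) x835) x3265) x6181) x2535)
  (sub (add (add (add (sub (add (add (add (add (sub (add (add (add (add C x355) x359) x363) x375) x333) x243) x459) x27) x675) x837) x3267) x6183) x2539) x4727)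
  (sub (add (add (sub (add (add (add (add (sub (sub (add (add C x351) x359) x361) x337) x247) x463) x31) x679) x841) x3271) x6187) x2541)
  (add (add (add (sub (add (add (add (add (sub (sub (add (add C x351) x355) x371) x341) x251) x467) x35) x683) x845) x3275) x6191) x4731)
  (sub (add (add (sub (add (add (add (add (add (add (sub (sub C x363) x355) x325) x397) x253) x469) x37) x685) x847) x3277) x6193) x2547)
  (sub (add (add (add (sub (add (add (add (add (add (add (add (add (sub C x361) x351) x375) x327) x399) x255) x471) x39) x687) x849) x3279) x6195) x2551) x4739)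
  (add (add (add (sub (add (add (add (add (sub (sub (sub C x375) x359) x389) x263) x479) x47) x695) x857) x3287) x6203) x4743)
  (sub (add (add (add (sub (add (add (add (add (sub (add (add (sub C x371) x351) x363) x393) x267) x483) x51) x699) x861) x3291) x6207) x2563) x4751)
  (add (add (add (sub (add (add (sub (sub (sub (sub C x385) x389) x347) x437) x59) x707) x869) x3299) x6215) x4755)
  (sub (add (add (sub (add (add (sub (sub (sub (sub C x383) x397) x349) x439) x61) x709) x871) x3301) x6217) x2571)
  (add (add (add (sub (add (add (sub (sub (sub (sub C x393) x383) x371) x443) x65) x713) x875) x3305) x6221) x4761)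
  (sub (add (add (add (sub (add (add (sub (sub (sub (sub C x389) x399) x375) x447) x69) x717) x879) x3309) x6225) x2581) x4769)
  (sub (add (add (sub (add (add (sub (add (add (sub (sub C x399) x385) x325) x361) x451) x73) x721) x883) x3313) x6229) x2583)
  (sub (add (add (add (sub (add (add (sub (add (add (sub (sub C x397) x393) x327) x363) x453) x75) x723) x885) x3315) x6231) x2587) x4775)
  (add (add (add (sub (sub (sub (add (add (add (add (sub C x411) x419) x431) x443) x479) x299) x569) x893) x3323) x6239) x4779)
  (sub (add (add (add (sub (sub (sub (add (add (sub (sub C x407) x423) x447) x483) x303) x573) x897) x3327) x6243) x2599) x4787)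
  (add (add (add (sub (sub (sub (sub (add (add (sub C x421) x407) x431) x437) x311) x581) x905) x3335) x6251) x4791)
  (sub (add (add (sub (sub (sub (sub (sub (sub C x419) x427) x439) x313) x583) x907) x3337) x6253) x2607)
  (sub (add (add (add (sub (sub (sub (sub (sub (add (add C x427) x431) x411) x459) x315) x585) x909) x3339) x6255) x2611) x4799)
  (sub (add (add (sub (sub (sub (sub (sub (add (add C x423) x431) x421) x463) x319) x589) x913) x3343) x6259) x2613)
  (add (add (add (sub (sub (sub (sub (add (add (add (add C x423) x427) x407) x419) x467) x323) x593) x917) x3347) x6263) x4803)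
  (add (add (add (sub (sub (sub (sub (sub (sub C x439) x443) x419) x383) x599) x923) x3353) x6269) x4809)
  (sub (add (add (sub (sub (sub (sub (sub (sub C x437) x451) x421) x385) x601) x925) x3355) x6271) x2625)
  (add (add (add (sub (sub (sub (add (add (sub (sub C x447) x437) x407) x479) x389) x605) x929) x3359) x6275) x4815)
  (sub (add (add (add (sub (sub (sub (add (add (sub (sub C x443) x453) x411) x483) x393) x609) x933) x3363) x6279) x2635) x4823)
  (sub (add (add (sub (sub (sub (sub (sub (sub C x453) x439) x469) x397) x613) x937) x3367) x6283) x2637)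
  (sub (add (add (add (sub (sub (sub (sub (sub (sub C x451) x447) x471) x399) x615) x939) x3369) x6285) x2641) x4829)
  (sub (add (add (add (sub (sub (add (add (sub (add (add (add (add C x463) x467) x471) x483) x423) x243) x351) x621) x945) x3375) x6291) x2647) x4835)
  (sub (add (add (sub (sub (add (add (sub (sub (add (add C x459) x467) x469) x427) x247) x355) x625) x949) x3379) x6295) x2649)
  (add (add (add (sub (sub (add (add (sub (sub (add (add C x459) x463) x479) x431) x251) x359) x629) x953) x3383) x6299) x4839)
  (sub (add (add (sub (sub (add (add (sub (sub (sub C x471) x463) x451) x253) x361) x631) x955) x3385) x6301) x2655)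
  (sub (add (add (add (sub (sub (add (add (sub (add (add (sub C x469) x459) x483) x453) x255) x363) x633) x957) x3387) x6303) x2659) x4847)
  (add (add (add (sub (sub (add (add (add (add (sub (sub C x483) x467) x407) x443) x263) x371) x641) x965) x3395) x6311) x4851)
  (sub (add (add (add (sub (sub (add (add (add (add (add (add (sub C x479) x459) x471) x411) x447) x267) x375) x645) x969) x3399) x6315) x2671) x4859)
  (add (add (add (sub (sub (add (add (add (add (sub (sub C x493) x497) x527) x563) x599) x707) x167) x1463) x3407) x6323) x4863)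
  (sub (add (add (sub (sub (add (add (add (add (sub (sub C x491) x505) x529) x565) x601) x709) x169) x1465) x3409) x6325) x2679)
  (add (add (add (sub (sub (add (add (sub (sub (sub C x501) x491) x515) x605) x713) x173) x1469) x3413) x6329) x4869)
  (sub (add (add (add (sub (sub (add (add (sub (sub (sub C x497) x507) x519) x609) x717) x177) x1473) x3417) x6333) x2689) x4877)
  (sub (add (add (sub (sub (add (add (sub (sub (sub C x507) x493) x541) x613) x721) x181) x1477) x3421) x6337) x2691)
  (sub (add (add (add (sub (sub (add (add (sub (sub (sub C x505) x501) x543) x615) x723) x183) x1479) x3423) x6339) x2695) x4883)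
  (add (add (add (sub (sub (sub (sub (add (add (sub C x519) x527) x539) x497) x569) x191) x1487) x3431) x6347) x4887)
  (sub (add (add (add (sub (sub (sub (sub (sub (sub C x515) x531) x501) x573) x195) x1491) x3435) x6351) x2707) x4895)
  (add (add (add (sub (sub (sub (add (add (add (add (sub C x529) x515) x539) x491) x563) x581) x203) x1499) x3443) x6359) x4899)
  (sub (add (add (sub (sub (sub (add (add (sub (sub C x527) x535) x493) x565) x583) x205) x1501) x3445) x6361) x2715)
  (sub (add (add (add (sub (sub (sub (sub (sub (add (add C x535) x539) x519) x549) x585) x207) x1503) x3447) x6363) x2719) x4907)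
  (sub (add (add (sub (sub (sub (sub (sub (add (add C x531) x539) x529) x553) x589) x211) x1507) x3451) x6367) x2721)
  (add (add (add (sub (sub (sub (sub (add (add (add (add C x531) x535) x515) x527) x557) x593) x215) x1511) x3455) x6371) x4911)
  (sub (add (add (sub (sub (sub (sub (add (add (sub C x543) x553) x565) x505) x649) x217) x1513) x3457) x6373) x2727)
  (sub (add (add (add (sub (sub (sub (sub (sub (sub C x541) x549) x507) x651) x219) x1515) x3459) x6375) x2731) x4919)
  (sub (add (add (add (sub (sub (sub (sub (sub (add (add C x553) x557) x543) x531) x657) x225) x1521) x3465) x6381) x2737) x4925)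
  (sub (add (add (sub (sub (sub (sub (add (add (add (add C x549) x557) x541) x565) x535) x661) x229) x1525) x3469) x6385) x2739)
  (add (add (add (sub (sub (sub (sub (sub (add (add C x549) x553) x563) x539) x665) x233) x1529) x3473) x6389) x4929)
  (add (add (add (sub (sub (sub (add (add (sub (sub C x565) x557) x491) x527) x671) x239) x1535) x3479) x6395) x4935)
  (sub (add (add (sub (sub (sub (add (add (add (add (sub C x563) x541) x553) x493) x529) x673) x241) x1537) x3481) x6397) x2751)
  (add (add (add (sub (sub (sub (add (add (add (add (sub C x573) x581) x593) x605) x641) x515) x407) x1541) x3485) x6401) x4941)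
  (sub (add (add (add (sub (sub (sub (add (add (sub (sub C x569) x585) x609) x645) x519) x411) x1545) x3489) x6405) x2761) x4949)
  (add (add (add (sub (sub (sub (sub (add (add (sub C x583) x569) x593) x599) x527) x419) x1553) x3497) x6413) x4953)
  (sub (add (add (sub (sub (sub (sub (sub (sub C x581) x589) x601) x529) x421) x1555) x3499) x6415) x2769)
  (sub (add (add (add (sub (sub (sub (sub (sub (add (add C x589) x593) x573) x621) x531) x423) x1557) x3501) x6417) x2773) x4961)
  (sub (add (add (sub (sub (sub (sub (sub (add (add C x585) x593) x583) x625) x535) x427) x1561) x3505) x6421) x2775)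
  (add (add (add (sub (sub (sub (sub (add (add (add (add C x585) x589) x569) x581) x629) x539) x431) x1565) x3509) x6425) x4965)
  (add (add (add (sub (sub (add (add (sub (sub (sub C x601) x605) x581) x491) x707) x437) x1571) x3515) x6431) x4971)
  (sub (add (add (sub (sub (add (add (sub (sub (sub C x599) x613) x583) x493) x709) x439) x1573) x3517) x6433) x2787)
  (add (add (add (sub (sub (add (add (add (add (sub (sub C x609) x599) x569) x641) x497) x713) x443) x1577) x3521) x6437) x4977)
  (sub (add (add (add (sub (sub (add (add (add (add (sub (sub C x605) x615) x573) x645) x501) x717) x447) x1581) x3525) x6441) x2797) x4985)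
  (sub (add (add (sub (sub (add (add (sub (sub (sub C x615) x601) x631) x505) x721) x451) x1585) x3529) x6445) x2799)
  (sub (add (add (add (sub (sub (add (add (sub (sub (sub C x613) x609) x633) x507) x723) x453) x1587) x3531) x6447) x2803) x4991)
  (sub (add (add (add (sub (sub (sub (sub (add (add (add (add C x625) x629) x633) x645) x585) x675) x459) x1593) x3537) x6453) x2809) x4997)
  (sub (add (add (sub (sub (sub (sub (sub (add (add C x621) x629) x631) x589) x679) x463) x1597) x3541) x6457) x2811)
  (add (add (add (sub (sub (sub (sub (sub (add (add C x621) x625) x641) x593) x683) x467) x1601) x3545) x6461) x5001)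
  (sub (add (add (sub (sub (sub (sub (sub (sub C x633) x625) x613) x685) x469) x1603) x3547) x6463) x2817)
  (sub (add (add (add (sub (sub (sub (sub (add (add (sub C x631) x621) x645) x615) x687) x471) x1605) x3549) x6465) x2821) x5009)
  (add (add (add (sub (sub (sub (add (add (sub (sub C x645) x629) x569) x605) x695) x479) x1613) x3557) x6473) x5013)
  (sub (add (add (add (sub (sub (sub (add (add (add (add (sub C x641) x621) x633) x573) x609) x699) x483) x1617) x3561) x6477) x2833) x5021)
  (sub (add (add (sub (add (add (sub (add (add (add (add (sub C x651) x661) x673) x685) x721) x541) x1) x325) x1621) x3565) x6481) x2835)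
  (sub (add (add (add (sub (add (add (sub (add (add (sub (sub C x649) x657) x687) x723) x543) x3) x327) x1623) x3567) x6483) x2839) x5027)
  (sub (add (add (add (sub (add (add (sub (sub (sub (add (add C x661) x665) x651) x675) x549) x9) x333) x1629) x3573) x6489) x2845) x5033)
  (sub (add (add (sub (add (add (sub (sub (add (add (add (add C x657) x665) x649) x673) x679) x553) x13) x337) x1633) x3577) x6493) x2847)
  (add (add (add (sub (add (add (sub (sub (sub (add (add C x657) x661) x671) x683) x557) x17) x341) x1637) x3581) x6497) x5037)
  (add (add (add (sub (add (add (sub (sub (sub (sub C x673) x665) x707) x563) x23) x347) x1643) x3587) x6503) x5043)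
  (sub (add (add (sub (add (add (sub (sub (add (add (sub C x671) x649) x661) x709) x565) x25) x349) x1645) x3589) x6505) x2859)
  (sub (add (add (add (sub (add (add (sub (sub (add (add (add (add C x679) x683) x687) x699) x657) x621) x27) x351) x1647) x3591) x6507) x2863) x5051)
  (sub (add (add (sub (add (add (sub (sub (sub (add (add C x675) x683) x685) x661) x625) x31) x355) x1651) x3595) x6511) x2865)
  (add (add (add (sub (add (add (sub (sub (sub (add (add C x675) x679) x695) x665) x629) x35) x359) x1655) x3599) x6515) x5055)
  (sub (add (add (sub (add (add (sub (add (add (sub (sub C x687) x679) x649) x721) x631) x37) x361) x1657) x3601) x6517) x2871)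
  (sub (add (add (add (sub (add (add (sub (add (add (add (add (sub C x685) x675) x699) x651) x723) x633) x39) x363) x1659) x3603) x6519) x2875) x5063)
  (add (add (add (sub (add (add (sub (sub (sub (sub C x699) x683) x713) x641) x47) x371) x1667) x3611) x6527) x5067)
  (sub (add (add (add (sub (add (add (sub (sub (add (add (sub C x695) x675) x687) x717) x645) x51) x375) x1671) x3615) x6531) x2887) x5075)
  (add (add (add (sub (add (add (add (add (sub (sub (sub C x709) x713) x671) x491) x599) x59) x383) x1679) x3623) x6539) x5079)
  (sub (add (add (sub (add (add (add (add (sub (sub (sub C x707) x721) x673) x493) x601) x61) x385) x1681) x3625) x6541) x2895)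
  (add (add (add (sub (add (add (add (add (sub (sub (sub C x717) x707) x695) x497) x605) x65) x389) x1685) x3629) x6545) x5085)
  (sub (add (add (add (sub (add (add (add (add (sub (sub (sub C x713) x723) x699) x501) x609) x69) x393) x1689) x3633) x6549) x2905) x5093)
  (sub (add (add (sub (add (add (add (add (add (add (sub (sub C x723) x709) x649) x685) x505) x613) x73) x397) x1693) x3637) x6553) x2907)
  (sub (add (add (add (sub (add (add (add (add (add (add (sub (sub C x721) x717) x651) x687) x507) x615) x75) x399) x1695) x3639) x6555) x2911) x5099)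
  (sub (add (sub (sub (add (add (add (add (add (add (add (add (add (add C x733) x737) x741) x753) x765) x801) x837) x945) x1053) x1377) x243) x2187) x2917) x5105)
  (sub (sub (sub (add (add (add (add (add (add (sub (add (add C x729) x737) x739) x769) x805) x841) x949) x1057) x1381) x247) x2191) x2919)
  (add (sub (sub (add (add (add (add (add (add (sub (add (add C x729) x733) x749) x773) x809) x845) x953) x1061) x1385) x251) x2195) x5109)
  (sub (sub (sub (add (add (add (add (sub (sub (sub C x741) x733) x757) x847) x955) x1063) x1387) x253) x2197) x2925)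
  (sub (add (sub (sub (add (add (add (add (sub (add (add (sub C x739) x729) x753) x759) x849) x957) x1065) x1389) x255) x2199) x2929) x5117)
  (add (sub (sub (add (add (add (add (sub (sub (sub C x753) x737) x785) x857) x965) x1073) x1397) x263) x2207) x5121)
  (sub (add (sub (sub (add (add (add (add (sub (add (add (sub C x749) x729) x741) x789) x861) x969) x1077) x1401) x267) x2211) x2941) x5129)
  (sub (sub (sub (add (add (sub (sub (add (add (sub C x759) x769) x781) x739) x811) x1081) x1405) x271) x2215) x2943)
  (sub (add (sub (sub (add (add (sub (sub (sub (sub C x757) x765) x741) x813) x1083) x1407) x273) x2217) x2947) x5135)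
  (sub (add (sub (sub (add (add (sub (add (add (sub (add (add C x769) x773) x759) x729) x801) x819) x1089) x1413) x279) x2223) x2953) x5141)
  (sub (sub (sub (add (add (sub (add (add (add (add (add (add C x765) x773) x757) x781) x733) x805) x823) x1093) x1417) x283) x2227) x2955)
  (add (sub (sub (add (add (sub (add (add (sub (add (add C x765) x769) x779) x737) x809) x827) x1097) x1421) x287) x2231) x5145)
  (add (sub (sub (add (add (sub (sub (sub (sub C x781) x773) x797) x833) x1103) x1427) x293) x2237) x5151)
  (sub (sub (sub (add (add (sub (sub (add (add (sub C x779) x757) x769) x799) x835) x1105) x1429) x295) x2239) x2967)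
  (add (sub (sub (add (add (sub (sub (add (add (sub C x789) x797) x809) x749) x893) x1109) x1433) x299) x2243) x5157)
  (sub (add (sub (sub (add (add (sub (sub (sub (sub C x785) x801) x753) x897) x1113) x1437) x303) x2247) x2977) x5165)
  (add (sub (sub (add (add (sub (sub (add (add (sub C x799) x785) x809) x779) x905) x1121) x1445) x311) x2255) x5169)
  (sub (sub (sub (add (add (sub (sub (sub (sub C x797) x805) x781) x907) x1123) x1447) x313) x2257) x2985)
  (sub (add (sub (sub (add (add (sub (add (add (sub (add (add C x805) x809) x789) x729) x765) x909) x1125) x1449) x315) x2259) x2989) x5177)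
  (sub (sub (sub (add (add (sub (add (add (sub (add (add C x801) x809) x799) x733) x769) x913) x1129) x1453) x319) x2263) x2991)
  (add (sub (sub (add (add (sub (add (add (add (add (add (add C x801) x805) x785) x797) x737) x773) x917) x1133) x1457) x323) x2267) x5181)
  (sub (sub (sub (sub (sub (add (add (add (add (sub C x813) x823) x835) x847) x883) x757) x973) x325) x2269) x2997)
  (sub (add (sub (sub (sub (sub (add (add (sub (sub C x811) x819) x849) x885) x759) x975) x327) x2271) x3001) x5189)
  (sub (add (sub (sub (sub (sub (sub (sub (add (add C x823) x827) x813) x837) x765) x981) x333) x2277) x3007) x5195)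
  (sub (sub (sub (sub (sub (sub (add (add (add (add C x819) x827) x811) x835) x841) x769) x985) x337) x2281) x3009)
  (add (sub (sub (sub (sub (sub (sub (add (add C x819) x823) x833) x845) x773) x989) x341) x2285) x5199)
  (add (sub (sub (sub (sub (sub (sub (sub C x835) x827) x869) x779) x995) x347) x2291) x5205)
  (sub (sub (sub (sub (sub (sub (add (add (sub C x833) x811) x823) x871) x781) x997) x349) x2293) x3021)
  (sub (add (sub (sub (sub (add (add (sub (add (add (add (add C x841) x845) x849) x861) x819) x729) x945) x999) x351) x2295) x3025) x5213)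
  (sub (sub (sub (sub (add (add (sub (sub (add (add C x837) x845) x847) x823) x733) x949) x1003) x355) x2299) x3027)
  (add (sub (sub (sub (add (add (sub (sub (add (add C x837) x841) x857) x827) x737) x953) x1007) x359) x2303) x5217)
  (sub (sub (sub (sub (add (add (add (add (sub (sub C x849) x841) x811) x883) x739) x955) x1009) x361) x2305) x3033)
  (sub (add (sub (sub (sub (add (add (add (add (add (add (sub C x847) x837) x861) x813) x885) x741) x957) x1011) x363) x2307) x3037) x5225)
  (add (sub (sub (sub (add (add (sub (sub (sub C x861) x845) x875) x749) x965) x1019) x371) x2315) x5229)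
  (sub (add (sub (sub (sub (add (add (sub (add (add (sub C x857) x837) x849) x879) x753) x969) x1023) x375) x2319) x3049) x5237)
  (add (sub (sub (sub (sub (sub (sub (sub C x871) x875) x833) x923) x1031) x383) x2327) x5241)
  (sub (sub (sub (sub (sub (sub (sub (sub C x869) x883) x835) x925) x1033) x385) x2329) x3057)
  (add (sub (sub (sub (sub (sub (sub (sub C x879) x869) x857) x929) x1037) x389) x2333) x5247)
  (sub (add (sub (sub (sub (sub (sub (sub (sub C x875) x885) x861) x933) x1041) x393) x2337) x3067) x5255)
  (sub (sub (sub (sub (sub (add (add (sub (sub C x885) x871) x811) x847) x937) x1045) x397) x2341) x3069)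
  (sub (add (sub (sub (sub (sub (add (add (sub (sub C x883) x879) x813) x849) x939) x1047) x399) x2343) x3073) x5261)
  (add (sub (sub (sub (sub (add (add (add (add (sub C x897) x905) x917) x929) x965) x785) x1217) x407) x2351) x5265)
  (sub (add (sub (sub (sub (sub (add (add (sub (sub C x893) x909) x933) x969) x789) x1221) x411) x2355) x3085) x5273)
  (add (sub (sub (sub (sub (sub (add (add (sub C x907) x893) x917) x923) x797) x1229) x419) x2363) x5277)
  (sub (sub (sub (sub (sub (sub (sub (sub C x905) x913) x925) x799) x1231) x421) x2365) x3093)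
  (sub (add (sub (sub (sub (sub (sub (sub (add (add C x913) x917) x897) x945) x801) x1233) x423) x2367) x3097) x5285)
  (sub (sub (sub (sub (sub (sub (sub (add (add C x909) x917) x907) x949) x805) x1237) x427) x2371) x3099)
  (add (sub (sub (sub (sub (sub (add (add (add (add C x909) x913) x893) x905) x953) x809) x1241) x431) x2375) x5289)
  (add (sub (sub (sub (sub (sub (sub (sub C x925) x929) x905) x869) x1247) x437) x2381) x5295)
  (sub (sub (sub (sub (sub (sub (sub (sub C x923) x937) x907) x871) x1249) x439) x2383) x3111)
  (add (sub (sub (sub (sub (add (add (sub (sub C x933) x923) x893) x965) x875) x1253) x443) x2387) x5301)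
  (sub (add (sub (sub (sub (sub (add (add (sub (sub C x929) x939) x897) x969) x879) x1257) x447) x2391) x3121) x5309)
  (sub (sub (sub (sub (sub (sub (sub (sub C x939) x925) x955) x883) x1261) x451) x2395) x3123)
  (sub (add (sub (sub (sub (sub (sub (sub (sub C x937) x933) x957) x885) x1263) x453) x2397) x3127) x5315)
  (sub (add (sub (sub (sub (add (add (sub (add (add (add (add C x949) x953) x957) x969) x909) x729) x837) x1269) x459) x2403) x3133) x5321)
  (sub (sub (sub (sub (add (add (sub (sub (add (add C x945) x953) x955) x913) x733) x841) x1273) x463) x2407) x3135)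
  (add (sub (sub (sub (add (add (sub (sub (add (add C x945) x949) x965) x917) x737) x845) x1277) x467) x2411) x5325)
  (sub (sub (sub (sub (add (add (sub (sub (sub C x957) x949) x937) x739) x847) x1279) x469) x2413) x3141)
  (sub (add (sub (sub (sub (add (add (sub (add (add (sub C x955) x945) x969) x939) x741) x849) x1281) x471) x2415) x3145) x5333)
  (add (sub (sub (sub (add (add (add (add (sub (sub C x969) x953) x893) x929) x749) x857) x1289) x479) x2423) x5337)
  (sub (add (sub (sub (sub (add (add (add (add (add (add (sub C x965) x945) x957) x897) x933) x753) x861) x1293) x483) x2427) x3157) x5345)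
  (sub (sub (add (add (sub (add (add (add (add (add (add (sub C x975) x985) x997) x1009) x1045) x1081) x1189) x811) x1) x1945) x2431) x3159)
  (sub (add (sub (add (add (sub (add (add (add (add (sub (sub C x973) x981) x1011) x1047) x1083) x1191) x813) x3) x1947) x2433) x3163) x5351)
  (sub (add (sub (add (add (sub (add (add (sub (sub (add (add C x985) x989) x975) x999) x1089) x1197) x819) x9) x1953) x2439) x3169) x5357)
  (sub (sub (add (add (sub (add (add (sub (add (add (add (add C x981) x989) x973) x997) x1003) x1093) x1201) x823) x13) x1957) x2443) x3171)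
  (add (sub (add (add (sub (add (add (sub (sub (add (add C x981) x985) x995) x1007) x1097) x1205) x827) x17) x1961) x2447) x5361)
  (add (sub (add (add (sub (add (add (sub (sub (sub C x997) x989) x1031) x1103) x1211) x833) x23) x1967) x2453) x5367)
  (sub (sub (add (add (sub (add (add (sub (add (add (sub C x995) x973) x985) x1033) x1105) x1213) x835) x25) x1969) x2455) x3183)
  (sub (add (sub (add (add (sub (sub (sub (add (add (add (add C x1003) x1007) x1011) x1023) x981) x1053) x837) x27) x1971) x2457) x3187) x5375)
  (sub (sub (add (add (sub (sub (sub (sub (add (add C x999) x1007) x1009) x985) x1057) x841) x31) x1975) x2461) x3189)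
  (add (sub (add (add (sub (sub (sub (sub (add (add C x999) x1003) x1019) x989) x1061) x845) x35) x1979) x2465) x5379)
  (sub (sub (add (add (sub (sub (add (add (sub (sub C x1011) x1003) x973) x1045) x1063) x847) x37) x1981) x2467) x3195)
  (sub (add (sub (add (add (sub (sub (add (add (add (add (sub C x1009) x999) x1023) x975) x1047) x1065) x849) x39) x1983) x2469) x3199) x5387)
  (add (sub (add (add (sub (sub (sub (sub (sub C x1023) x1007) x1037) x1073) x857) x47) x1991) x2477) x5391)
  (sub (add (sub (add (add (sub (sub (sub (add (add (sub C x1019) x999) x1011) x1041) x1077) x861) x51) x1995) x2481) x3211) x5399)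
  (add (sub (add (add (sub (sub (sub (sub (sub C x1033) x1037) x995) x1139) x869) x59) x2003) x2489) x5403)
  (sub (sub (add (add (sub (sub (sub (sub (sub C x1031) x1045) x997) x1141) x871) x61) x2005) x2491) x3219)
  (add (sub (add (add (sub (sub (sub (sub (sub C x1041) x1031) x1019) x1145) x875) x65) x2009) x2495) x5409)
  (sub (add (sub (add (add (sub (sub (sub (sub (sub C x1037) x1047) x1023) x1149) x879) x69) x2013) x2499) x3229) x5417)
  (sub (sub (add (add (sub (sub (add (add (sub (sub C x1047) x1033) x973) x1009) x1153) x883) x73) x2017) x2503) x3231)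
  (sub (add (sub (add (add (sub (sub (add (add (sub (sub C x1045) x1041) x975) x1011) x1155) x885) x75) x2019) x2505) x3235) x5423)
  (sub (add (sub (add (add (add (add (sub (add (add (add (add (add (add C x1057) x1061) x1065) x1077) x1089) x1125) x999) x729) x1377) x81) x2025) x2511) x3241) x5429)
  (sub (sub (add (add (add (add (sub (add (add (sub (add (add C x1053) x1061) x1063) x1093) x1129) x1003) x733) x1381) x85) x2029) x2515) x3243)
  (add (sub (add (add (add (add (sub (add (add (sub (add (add C x1053) x1057) x1073) x1097) x1133) x1007) x737) x1385) x89) x2033) x2519) x5433)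
  (sub (sub (add (add (add (add (sub (sub (sub (sub C x1065) x1057) x1081) x1009) x739) x1387) x91) x2035) x2521) x3249)
  (sub (add (sub (add (add (add (add (sub (sub (add (add (sub C x1063) x1053) x1077) x1083) x1011) x741) x1389) x93) x2037) x2523) x3253) x5441)
  (add (sub (add (add (add (add (sub (sub (sub (sub C x1077) x1061) x1109) x1019) x749) x1397) x101) x2045) x2531) x5445)
  (sub (add (sub (add (add (add (add (sub (sub (add (add (sub C x1073) x1053) x1065) x1113) x1023) x753) x1401) x105) x2049) x2535) x3265) x5453)
  (sub (sub (add (add (add (add (add (add (sub (add (add (sub C x1083) x1093) x1105) x1063) x973) x1189) x757) x1405) x109) x2053) x2539) x3267)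
  (sub (add (sub (add (add (add (add (add (add (sub (sub (sub C x1081) x1089) x1065) x975) x1191) x759) x1407) x111) x2055) x2541) x3271) x5459)
  (sub (add (sub (add (add (add (add (add (add (add (add (sub (add (add C x1093) x1097) x1083) x1053) x1125) x981) x1197) x765) x1413) x117) x2061) x2547) x3277) x5465)
  (sub (sub (add (add (add (add (add (add (add (add (add (add (add (add C x1089) x1097) x1081) x1105) x1057) x1129) x985) x1201) x769) x1417) x121) x2065) x2551) x3279)
  (add (sub (add (add (add (add (add (add (add (add (sub (add (add C x1089) x1093) x1103) x1061) x1133) x989) x1205) x773) x1421) x125) x2069) x2555) x5469)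
  (add (sub (add (add (add (add (add (add (sub (sub (sub C x1105) x1097) x1121) x995) x1211) x779) x1427) x131) x2075) x2561) x5475)
  (sub (sub (add (add (add (add (add (add (sub (add (add (sub C x1103) x1081) x1093) x1123) x997) x1213) x781) x1429) x133) x2077) x2563) x3291)
  (add (sub (add (add (add (add (sub (sub (add (add (sub C x1113) x1121) x1133) x1073) x1163) x785) x1433) x137) x2081) x2567) x5481)
  (sub (add (sub (add (add (add (add (sub (sub (sub (sub C x1109) x1125) x1077) x1167) x789) x1437) x141) x2085) x2571) x3301) x5489)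
  (add (sub (add (add (add (add (sub (sub (add (add (sub C x1123) x1109) x1133) x1103) x1175) x797) x1445) x149) x2093) x2579) x5493)
  (sub (sub (add (add (add (add (sub (sub (sub (sub C x1121) x1129) x1105) x1177) x799) x1447) x151) x2095) x2581) x3309)
  (sub (add (sub (add (add (add (add (sub (add (add (sub (add (add C x1129) x1133) x1113) x1053) x1089) x1179) x801) x1449) x153) x2097) x2583) x3313) x5501)
  (sub (sub (add (add (add (add (sub (add (add (sub (add (add C x1125) x1133) x1123) x1057) x1093) x1183) x805) x1453) x157) x2101) x2587) x3315)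
  (add (sub (add (add (add (add (sub (add (add (add (add (add (add C x1125) x1129) x1109) x1121) x1061) x1097) x1187) x809) x1457) x161) x2105) x2591) x5505)
  (add (sub (add (add (sub (sub (add (add (sub (sub C x1141) x1145) x1175) x1211) x1031) x1301) x167) x2111) x2597) x5511)
  (sub (sub (add (add (sub (sub (add (add (sub (sub C x1139) x1153) x1177) x1213) x1033) x1303) x169) x2113) x2599) x3327)
  (add (sub (add (add (sub (sub (sub (sub (sub C x1149) x1139) x1163) x1037) x1307) x173) x2117) x2603) x5517)
  (sub (add (sub (add (add (sub (sub (sub (sub (sub C x1145) x1155) x1167) x1041) x1311) x177) x2121) x2607) x3337) x5525)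
  (sub (sub (add (add (sub (sub (sub (sub (sub C x1155) x1141) x1189) x1045) x1315) x181) x2125) x2611) x3339)
  (sub (add (sub (add (add (sub (sub (sub (sub (sub C x1153) x1149) x1191) x1047) x1317) x183) x2127) x2613) x3343) x5531)
  (add (sub (add (add (sub (sub (sub (add (add (sub C x1167) x1175) x1187) x1145) x1109) x1325) x191) x2135) x2621) x5535)
  (sub (add (sub (add (add (sub (sub (sub (sub (sub C x1163) x1179) x1149) x1113) x1329) x195) x2139) x2625) x3355) x5543)
  (add (sub (add (add (sub (sub (add (add (add (add (sub C x1177) x1163) x1187) x1139) x1211) x1121) x1337) x203) x2147) x2633) x5547)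
  (sub (sub (add (add (sub (sub (add (add (sub (sub C x1175) x1183) x1141) x1213) x1123) x1339) x205) x2149) x2635) x3363)
  (sub (add (sub (add (add (sub (sub (sub (sub (add (add C x1183) x1187) x1167) x1197) x1125) x1341) x207) x2151) x2637) x3367) x5555)
  (sub (sub (add (add (sub (sub (sub (sub (add (add C x1179) x1187) x1177) x1201) x1129) x1345) x211) x2155) x2641) x3369)
  (add (sub (add (add (sub (sub (sub (add (add (add (add C x1179) x1183) x1163) x1175) x1205) x1133) x1349) x215) x2159) x2645) x5559)
  (sub (sub (add (add (sub (add (add (sub (add (add (sub C x1191) x1201) x1213) x1153) x973) x1081) x1351) x217) x2161) x2647) x3375)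
  (sub (add (sub (add (add (sub (add (add (sub (sub (sub C x1189) x1197) x1155) x975) x1083) x1353) x219) x2163) x2649) x3379) x5567)
  (sub (add (sub (add (add (sub (add (add (sub (sub (add (add C x1201) x1205) x1191) x1179) x981) x1089) x1359) x225) x2169) x2655) x3385) x5573)
  (sub (sub (add (add (sub (add (add (sub (add (add (add (add C x1197) x1205) x1189) x1213) x1183) x985) x1093) x1363) x229) x2173) x2659) x3387)
  (add (sub (add (add (sub (add (add (sub (sub (add (add C x1197) x1201) x1211) x1187) x989) x1097) x1367) x233) x2177) x2663) x5577)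
  (add (sub (add (add (sub (add (add (add (add (sub (sub C x1213) x1205) x1139) x1175) x995) x1103) x1373) x239) x2183) x2669) x5583)
  (sub (sub (add (add (sub (add (add (add (add (add (add (sub C x1211) x1189) x1201) x1141) x1177) x997) x1105) x1375) x241) x2185) x2671) x3399)
  (add (sub (sub (sub (add (add (add (add (add (add (sub C x1221) x1229) x1241) x1253) x1289) x1325) x1433) x893) x1703) x2675) x5589)
  (sub (add (sub (sub (sub (add (add (add (add (sub (sub C x1217) x1233) x1257) x1293) x1329) x1437) x897) x1707) x2679) x3409) x5597)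
  (add (sub (sub (sub (add (add (sub (add (add (sub C x1231) x1217) x1241) x1247) x1337) x1445) x905) x1715) x2687) x5601)
  (sub (sub (sub (sub (add (add (sub (sub (sub C x1229) x1237) x1249) x1339) x1447) x907) x1717) x2689) x3417)
  (sub (add (sub (sub (sub (add (add (sub (sub (add (add C x1237) x1241) x1221) x1269) x1341) x1449) x909) x1719) x2691) x3421) x5609)
  (sub (sub (sub (sub (add (add (sub (sub (add (add C x1233) x1241) x1231) x1273) x1345) x1453) x913) x1723) x2695) x3423)
  (add (sub (sub (sub (add (add (sub (add (add (add (add C x1233) x1237) x1217) x1229) x1277) x1349) x1457) x917) x1727) x2699) x5613)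
  (add (sub (sub (sub (sub (sub (sub (sub C x1249) x1253) x1229) x1301) x923) x1733) x2705) x5619)
  (sub (sub (sub (sub (sub (sub (sub (sub C x1247) x1261) x1231) x1303) x925) x1735) x2707) x3435)
  (add (sub (sub (sub (sub (add (add (sub (sub C x1257) x1247) x1217) x1289) x1307) x929) x1739) x2711) x5625)
  (sub (add (sub (sub (sub (sub (add (add (sub (sub C x1253) x1263) x1221) x1293) x1311) x933) x1743) x2715) x3445) x5633)
  (sub (sub (sub (sub (sub (sub (sub (sub C x1263) x1249) x1279) x1315) x937) x1747) x2719) x3447)
  (sub (add (sub (sub (sub (sub (sub (sub (sub C x1261) x1257) x1281) x1317) x939) x1749) x2721) x3451) x5639)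
  (sub (add (sub (sub (sub (sub (sub (add (add (add (add C x1273) x1277) x1281) x1293) x1233) x1377) x945) x1755) x2727) x3457) x5645)
  (sub (sub (sub (sub (sub (sub (sub (add (add C x1269) x1277) x1279) x1237) x1381) x949) x1759) x2731) x3459)
  (add (sub (sub (sub (sub (sub (sub (add (add C x1269) x1273) x1289) x1241) x1385) x953) x1763) x2735) x5649)
  (sub (sub (sub (sub (sub (sub (sub (sub C x1281) x1273) x1261) x1387) x955) x1765) x2737) x3465)
  (sub (add (sub (sub (sub (sub (sub (add (add (sub C x1279) x1269) x1293) x1263) x1389) x957) x1767) x2739) x3469) x5657)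
  (add (sub (sub (sub (sub (add (add (sub (sub C x1293) x1277) x1217) x1253) x1397) x965) x1775) x2747) x5661)
  (sub (add (sub (sub (sub (sub (add (add (add (add (sub C x1289) x1269) x1281) x1221) x1257) x1401) x969) x1779) x2751) x3481) x5669)
  (add (sub (sub (sub (sub (add (add (sub (sub C x1303) x1307) x1337) x1373) x1247) x1139) x1787) x2759) x5673)
  (sub (sub (sub (sub (sub (add (add (sub (sub C x1301) x1315) x1339) x1375) x1249) x1141) x1789) x2761) x3489)
  (add (sub (sub (sub (sub (sub (sub (sub C x1311) x1301) x1325) x1253) x1145) x1793) x2765) x5679)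
  (sub (add (sub (sub (sub (sub (sub (sub (sub C x1307) x1317) x1329) x1257) x1149) x1797) x2769) x3499) x5687)
  (sub (sub (sub (sub (sub (sub (sub (sub C x1317) x1303) x1351) x1261) x1153) x1801) x2773) x3501)
  (sub (add (sub (sub (sub (sub (sub (sub (sub C x1315) x1311) x1353) x1263) x1155) x1803) x2775) x3505) x5693)
  (add (sub (sub (sub (add (add (sub (add (add (sub C x1329) x1337) x1349) x1307) x1217) x1433) x1163) x1811) x2783) x5697)
  (sub (add (sub (sub (sub (add (add (sub (sub (sub C x1325) x1341) x1311) x1221) x1437) x1167) x1815) x2787) x3517) x5705)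
  (add (sub (sub (sub (add (add (add (add (add (add (sub C x1339) x1325) x1349) x1301) x1373) x1229) x1445) x1175) x1823) x2795) x5709)
  (sub (sub (sub (sub (add (add (add (add (sub (sub C x1337) x1345) x1303) x1375) x1231) x1447) x1177) x1825) x2797) x3525)
  (sub (add (sub (sub (sub (add (add (sub (sub (add (add C x1345) x1349) x1329) x1359) x1233) x1449) x1179) x1827) x2799) x3529) x5717)
  (sub (sub (sub (sub (add (add (sub (sub (add (add C x1341) x1349) x1339) x1363) x1237) x1453) x1183) x1831) x2803) x3531)
  (add (sub (sub (sub (add (add (sub (add (add (add (add C x1341) x1345) x1325) x1337) x1367) x1241) x1457) x1187) x1835) x2807) x5721)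
  (sub (sub (sub (sub (sub (sub (add (add (sub C x1353) x1363) x1375) x1315) x1405) x1189) x1837) x2809) x3537)
  (sub (add (sub (sub (sub (sub (sub (sub (sub C x1351) x1359) x1317) x1407) x1191) x1839) x2811) x3541) x5729)
  (sub (add (sub (sub (sub (sub (sub (sub (add (add C x1363) x1367) x1353) x1341) x1413) x1197) x1845) x2817) x3547) x5735)
  (sub (sub (sub (sub (sub (sub (add (add (add (add C x1359) x1367) x1351) x1375) x1345) x1417) x1201) x1849) x2821) x3549)
  (add (sub (sub (sub (sub (sub (sub (add (add C x1359) x1363) x1373) x1349) x1421) x1205) x1853) x2825) x5739)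
  (add (sub (sub (sub (sub (add (add (sub (sub C x1375) x1367) x1301) x1337) x1427) x1211) x1859) x2831) x5745)
  (sub (sub (sub (sub (sub (add (add (add (add (sub C x1373) x1351) x1363) x1303) x1339) x1429) x1213) x1861) x2833) x3561)
  (sub (add (sub (sub (add (add (sub (add (add (add (add (add (add C x1381) x1385) x1389) x1401) x1413) x1449) x1269) x729) x1053) x1863) x2835) x3565) x5753)
  (sub (sub (sub (add (add (sub (add (add (sub (add (add C x1377) x1385) x1387) x1417) x1453) x1273) x733) x1057) x1867) x2839) x3567)
  (add (sub (sub (add (add (sub (add (add (sub (add (add C x1377) x1381) x1397) x1421) x1457) x1277) x737) x1061) x1871) x2843) x5757)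
  (sub (sub (sub (add (add (sub (sub (sub (sub C x1389) x1381) x1405) x1279) x739) x1063) x1873) x2845) x3573)
  (sub (add (sub (sub (add (add (sub (sub (add (add (sub C x1387) x1377) x1401) x1407) x1281) x741) x1065) x1875) x2847) x3577) x5765)
  (add (sub (sub (add (add (sub (sub (sub (sub C x1401) x1385) x1433) x1289) x749) x1073) x1883) x2855) x5769)
  (sub (add (sub (sub (add (add (sub (sub (add (add (sub C x1397) x1377) x1389) x1437) x1293) x753) x1077) x1887) x2859) x3589) x5777)
  (sub (sub (sub (add (add (sub (sub (add (add (sub C x1407) x1417) x1429) x1387) x1351) x757) x1081) x1891) x2863) x3591)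
  (sub (add (sub (sub (add (add (sub (sub (sub (sub C x1405) x1413) x1389) x1353) x759) x1083) x1893) x2865) x3595) x5783)
  (sub (add (sub (sub (add (add (sub (add (add (sub (add (add C x1417) x1421) x1407) x1377) x1449) x1359) x765) x1089) x1899) x2871) x3601) x5789)
  (sub (sub (sub (add (add (sub (add (add (add (add (add (add C x1413) x1421) x1405) x1429) x1381) x1453) x1363) x769) x1093) x1903) x2875) x3603)
  (add (sub (sub (add (add (sub (add (add (sub (add (add C x1413) x1417) x1427) x1385) x1457) x1367) x773) x1097) x1907) x2879) x5793)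
  (add (sub (sub (add (add (sub (sub (sub (sub C x1429) x1421) x1445) x1373) x779) x1103) x1913) x2885) x5799)
  (sub (sub (sub (add (add (sub (sub (add (add (sub C x1427) x1405) x1417) x1447) x1375) x781) x1105) x1915) x2887) x3615)
  (add (sub (sub (add (add (add (add (sub (add (add (sub C x1437) x1445) x1457) x1397) x1217) x1325) x785) x1109) x1919) x2891) x5805)
  (sub (add (sub (sub (add (add (add (add (sub (sub (sub C x1433) x1449) x1401) x1221) x1329) x789) x1113) x1923) x2895) x3625) x5813)
  (add (sub (sub (add (add (add (add (sub (add (add (sub C x1447) x1433) x1457) x1427) x1229) x1337) x797) x1121) x1931) x2903) x5817)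
  (sub (sub (sub (add (add (add (add (sub (sub (sub C x1445) x1453) x1429) x1231) x1339) x799) x1123) x1933) x2905) x3633)
  (sub (add (sub (sub (add (add (add (add (add (add (sub (add (add C x1453) x1457) x1437) x1377) x1413) x1233) x1341) x801) x1125) x1935) x2907) x3637) x5825)
  (sub (sub (sub (add (add (add (add (add (add (sub (add (add C x1449) x1457) x1447) x1381) x1417) x1237) x1345) x805) x1129) x1939) x2911) x3639)
  (add (sub (sub (add (add (add (add (add (add (add (add (add (add C x1449) x1453) x1433) x1445) x1385) x1421) x1241) x1349) x809) x1133) x1943) x2915) x5829)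
  (add (sub (sub (add (add (add (add (add (add (sub (sub C x1465) x1469) x1499) x1535) x1571) x1679) x1787) x2111) x491) x4379) x5835)
  (sub (sub (sub (add (add (add (add (add (add (sub (sub C x1463) x1477) x1501) x1537) x1573) x1681) x1789) x2113) x493) x4381) x3651)
  (add (sub (sub (add (add (add (add (sub (sub (sub C x1473) x1463) x1487) x1577) x1685) x1793) x2117) x497) x4385) x5841)
  (sub (add (sub (sub (add (add (add (add (sub (sub (sub C x1469) x1479) x1491) x1581) x1689) x1797) x2121) x501) x4389) x3661) x5849)
  (sub (sub (sub (add (add (add (add (sub (sub (sub C x1479) x1465) x1513) x1585) x1693) x1801) x2125) x505) x4393) x3663)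
  (sub (add (sub (sub (add (add (add (add (sub (sub (sub C x1477) x1473) x1515) x1587) x1695) x1803) x2127) x507) x4395) x3667) x5855)
  (add (sub (sub (add (add (sub (sub (add (add (sub C x1491) x1499) x1511) x1469) x1541) x1811) x2135) x515) x4403) x5859)
  (sub (add (sub (sub (add (add (sub (sub (sub (sub C x1487) x1503) x1473) x1545) x1815) x2139) x519) x4407) x3679) x5867)
  (add (sub (sub (add (add (sub (add (add (add (add (sub C x1501) x1487) x1511) x1463) x1535) x1553) x1823) x2147) x527) x4415) x5871)
  (sub (sub (sub (add (add (sub (add (add (sub (sub C x1499) x1507) x1465) x1537) x1555) x1825) x2149) x529) x4417) x3687)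
  (sub (add (sub (sub (add (add (sub (sub (sub (add (add C x1507) x1511) x1491) x1521) x1557) x1827) x2151) x531) x4419) x3691) x5879)
  (sub (sub (sub (add (add (sub (sub (sub (add (add C x1503) x1511) x1501) x1525) x1561) x1831) x2155) x535) x4423) x3693)
  (add (sub (sub (add (add (sub (sub (add (add (add (add C x1503) x1507) x1487) x1499) x1529) x1565) x1835) x2159) x539) x4427) x5883)
  (sub (sub (sub (add (add (sub (sub (add (add (sub C x1515) x1525) x1537) x1477) x1621) x1837) x2161) x541) x4429) x3699)
  (sub (add (sub (sub (add (add (sub (sub (sub (sub C x1513) x1521) x1479) x1623) x1839) x2163) x543) x4431) x3703) x5891)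
  (sub (add (sub (sub (add (add (sub (sub (sub (add (add C x1525) x1529) x1515) x1503) x1629) x1845) x2169) x549) x4437) x3709) x5897)
  (sub (sub (sub (add (add (sub (sub (add (add (add (add C x1521) x1529) x1513) x1537) x1507) x1633) x1849) x2173) x553) x4441) x3711)
  (add (sub (sub (add (add (sub (sub (sub (add (add C x1521) x1525) x1535) x1511) x1637) x1853) x2177) x557) x4445) x5901)
  (add (sub (sub (add (add (sub (add (add (sub (sub C x1537) x1529) x1463) x1499) x1643) x1859) x2183) x563) x4451) x5907)
  (sub (sub (sub (add (add (sub (add (add (add (add (sub C x1535) x1513) x1525) x1465) x1501) x1645) x1861) x2185) x565) x4453) x3723)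
  (add (sub (sub (sub (sub (add (add (add (add (sub C x1545) x1553) x1565) x1577) x1613) x1487) x1703) x569) x4457) x5913)
  (sub (add (sub (sub (sub (sub (add (add (sub (sub C x1541) x1557) x1581) x1617) x1491) x1707) x573) x4461) x3733) x5921)
  (add (sub (sub (sub (sub (sub (add (add (sub C x1555) x1541) x1565) x1571) x1499) x1715) x581) x4469) x5925)
  (sub (sub (sub (sub (sub (sub (sub (sub C x1553) x1561) x1573) x1501) x1717) x583) x4471) x3741)
  (sub (add (sub (sub (sub (sub (sub (sub (add (add C x1561) x1565) x1545) x1593) x1503) x1719) x585) x4473) x3745) x5933)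
  (sub (sub (sub (sub (sub (sub (sub (add (add C x1557) x1565) x1555) x1597) x1507) x1723) x589) x4477) x3747)
  (add (sub (sub (sub (sub (sub (add (add (add (add C x1557) x1561) x1541) x1553) x1601) x1511) x1727) x593) x4481) x5937)
  (add (sub (sub (sub (add (add (sub (sub (sub C x1573) x1577) x1553) x1463) x1679) x1733) x599) x4487) x5943)
  (sub (sub (sub (sub (add (add (sub (sub (sub C x1571) x1585) x1555) x1465) x1681) x1735) x601) x4489) x3759)
  (add (sub (sub (sub (add (add (add (add (sub (sub C x1581) x1571) x1541) x1613) x1469) x1685) x1739) x605) x4493) x5949)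
  (sub (add (sub (sub (sub (add (add (add (add (sub (sub C x1577) x1587) x1545) x1617) x1473) x1689) x1743) x609) x4497) x3769) x5957)
  (sub (sub (sub (sub (add (add (sub (sub (sub C x1587) x1573) x1603) x1477) x1693) x1747) x613) x4501) x3771)
  (sub (add (sub (sub (sub (add (add (sub (sub (sub C x1585) x1581) x1605) x1479) x1695) x1749) x615) x4503) x3775) x5963)
  (sub (add (sub (sub (sub (sub (sub (add (add (add (add C x1597) x1601) x1605) x1617) x1557) x1647) x1755) x621) x4509) x3781) x5969)
  (sub (sub (sub (sub (sub (sub (sub (add (add C x1593) x1601) x1603) x1561) x1651) x1759) x625) x4513) x3783)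
  (add (sub (sub (sub (sub (sub (sub (add (add C x1593) x1597) x1613) x1565) x1655) x1763) x629) x4517) x5973)
  (sub (sub (sub (sub (sub (sub (sub (sub C x1605) x1597) x1585) x1657) x1765) x631) x4519) x3789)
  (sub (add (sub (sub (sub (sub (sub (add (add (sub C x1603) x1593) x1617) x1587) x1659) x1767) x633) x4521) x3793) x5981)
  (add (sub (sub (sub (sub (add (add (sub (sub C x1617) x1601) x1541) x1577) x1667) x1775) x641) x4529) x5985)
  (sub (add (sub (sub (sub (sub (add (add (add (add (sub C x1613) x1593) x1605) x1545) x1581) x1671) x1779) x645) x4533) x3805) x5993)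
  (sub (sub (sub (sub (sub (add (add (add (add (sub C x1623) x1633) x1645) x1657) x1693) x1513) x1945) x649) x4537) x3807)
  (sub (add (sub (sub (sub (sub (add (add (sub (sub C x1621) x1629) x1659) x1695) x1515) x1947) x651) x4539) x3811) x5999)
  (sub (add (sub (sub (sub (sub (sub (sub (add (add C x1633) x1637) x1623) x1647) x1521) x1953) x657) x4545) x3817) x6005)
  (sub (sub (sub (sub (sub (sub (add (add (add (add C x1629) x1637) x1621) x1645) x1651) x1525) x1957) x661) x4549) x3819)
  (add (sub (sub (sub (sub (sub (sub (add (add C x1629) x1633) x1643) x1655) x1529) x1961) x665) x4553) x6009)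
  (add (sub (sub (sub (sub (sub (sub (sub C x1645) x1637) x1679) x1535) x1967) x671) x4559) x6015)
  (sub (sub (sub (sub (sub (sub (add (add (sub C x1643) x1621) x1633) x1681) x1537) x1969) x673) x4561) x3831)
  (sub (add (sub (sub (sub (sub (sub (add (add (add (add C x1651) x1655) x1659) x1671) x1629) x1593) x1971) x675) x4563) x3835) x6023)
  (sub (sub (sub (sub (sub (sub (sub (add (add C x1647) x1655) x1657) x1633) x1597) x1975) x679) x4567) x3837)
  (add (sub (sub (sub (sub (sub (sub (add (add C x1647) x1651) x1667) x1637) x1601) x1979) x683) x4571) x6027)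
  (sub (sub (sub (sub (sub (add (add (sub (sub C x1659) x1651) x1621) x1693) x1603) x1981) x685) x4573) x3843)
  (sub (add (sub (sub (sub (sub (add (add (add (add (sub C x1657) x1647) x1671) x1623) x1695) x1605) x1983) x687) x4575) x3847) x6035)
  (add (sub (sub (sub (sub (sub (sub (sub C x1671) x1655) x1685) x1613) x1991) x695) x4583) x6039)
  (sub (add (sub (sub (sub (sub (sub (add (add (sub C x1667) x1647) x1659) x1689) x1617) x1995) x699) x4587) x3859) x6047)
  (add (sub (sub (sub (add (add (sub (sub (sub C x1681) x1685) x1643) x1463) x1571) x2003) x707) x4595) x6051)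
  (sub (sub (sub (sub (add (add (sub (sub (sub C x1679) x1693) x1645) x1465) x1573) x2005) x709) x4597) x3867)
  (add (sub (sub (sub (add (add (sub (sub (sub C x1689) x1679) x1667) x1469) x1577) x2009) x713) x4601) x6057)
  (sub (add (sub (sub (sub (add (add (sub (sub (sub C x1685) x1695) x1671) x1473) x1581) x2013) x717) x4605) x3877) x6065)
  (sub (sub (sub (sub (add (add (add (add (sub (sub C x1695) x1681) x1621) x1657) x1477) x1585) x2017) x721) x4609) x3879)
  (sub (add (sub (sub (sub (add (add (add (add (sub (sub C x1693) x1689) x1623) x1659) x1479) x1587) x2019) x723) x4611) x3883) x6071)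
  (add (sub (sub (sub (add (add (add (add (add (add (sub C x1707) x1715) x1727) x1739) x1775) x1811) x1919) x1541) x1217) x4619) x6075)
  (sub (add (sub (sub (sub (add (add (add (add (sub (sub C x1703) x1719) x1743) x1779) x1815) x1923) x1545) x1221) x4623) x3895) x6083)
  (add (sub (sub (sub (add (add (sub (add (add (sub C x1717) x1703) x1727) x1733) x1823) x1931) x1553) x1229) x4631) x6087)
  (sub (sub (sub (sub (add (add (sub (sub (sub C x1715) x1723) x1735) x1825) x1933) x1555) x1231) x4633) x3903)
  (sub (add (sub (sub (sub (add (add (sub (sub (add (add C x1723) x1727) x1707) x1755) x1827) x1935) x1557) x1233) x4635) x3907) x6095)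
  (sub (sub (sub (sub (add (add (sub (sub (add (add C x1719) x1727) x1717) x1759) x1831) x1939) x1561) x1237) x4639) x3909)
  (add (sub (sub (sub (add (add (sub (add (add (add (add C x1719) x1723) x1703) x1715) x1763) x1835) x1943) x1565) x1241) x4643) x6099)
  (add (sub (sub (sub (sub (sub (sub (sub C x1735) x1739) x1715) x1787) x1571) x1247) x4649) x6105)
  (sub (sub (sub (sub (sub (sub (sub (sub C x1733) x1747) x1717) x1789) x1573) x1249) x4651) x3921)
  (add (sub (sub (sub (sub (add (add (sub (sub C x1743) x1733) x1703) x1775) x1793) x1577) x1253) x4655) x6111)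
  (sub (add (sub (sub (sub (sub (add (add (sub (sub C x1739) x1749) x1707) x1779) x1797) x1581) x1257) x4659) x3931) x6119)
  (sub (sub (sub (sub (sub (sub (sub (sub C x1749) x1735) x1765) x1801) x1585) x1261) x4663) x3933)
  (sub (add (sub (sub (sub (sub (sub (sub (sub C x1747) x1743) x1767) x1803) x1587) x1263) x4665) x3937) x6125)
  (sub (add (sub (sub (sub (sub (sub (add (add (add (add C x1759) x1763) x1767) x1779) x1719) x1863) x1593) x1269) x4671) x3943) x6131)
  (sub (sub (sub (sub (sub (sub (sub (add (add C x1755) x1763) x1765) x1723) x1867) x1597) x1273) x4675) x3945)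
  (add (sub (sub (sub (sub (sub (sub (add (add C x1755) x1759) x1775) x1727) x1871) x1601) x1277) x4679) x6135)
  (sub (sub (sub (sub (sub (sub (sub (sub C x1767) x1759) x1747) x1873) x1603) x1279) x4681) x3951)
  (sub (add (sub (sub (sub (sub (sub (add (add (sub C x1765) x1755) x1779) x1749) x1875) x1605) x1281) x4683) x3955) x6143)
  (add (sub (sub (sub (sub (add (add (sub (sub C x1779) x1763) x1703) x1739) x1883) x1613) x1289) x4691) x6147)
  (sub (add (sub (sub (sub (sub (add (add (add (add (sub C x1775) x1755) x1767) x1707) x1743) x1887) x1617) x1293) x4695) x3967) x6155)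
  (add (sub (sub (add (add (sub (add (add (sub (sub C x1789) x1793) x1823) x1859) x1733) x1463) x2111) x1301) x4703) x6159)
  (sub (sub (sub (add (add (sub (add (add (sub (sub C x1787) x1801) x1825) x1861) x1735) x1465) x2113) x1303) x4705) x3975)
  (add (sub (sub (add (add (sub (sub (sub (sub C x1797) x1787) x1811) x1739) x1469) x2117) x1307) x4709) x6165)
  (sub (add (sub (sub (add (add (sub (sub (sub (sub C x1793) x1803) x1815) x1743) x1473) x2121) x1311) x4713) x3985) x6173)
  (sub (sub (sub (add (add (sub (sub (sub (sub C x1803) x1789) x1837) x1747) x1477) x2125) x1315) x4717) x3987)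
  (sub (add (sub (sub (add (add (sub (sub (sub (sub C x1801) x1797) x1839) x1749) x1479) x2127) x1317) x4719) x3991) x6179)
  (add (sub (sub (add (add (add (add (sub (add (add (sub C x1815) x1823) x1835) x1793) x1703) x1919) x1487) x2135) x1325) x4727) x6183)
  (sub (add (sub (sub (add (add (add (add (sub (sub (sub C x1811) x1827) x1797) x1707) x1923) x1491) x2139) x1329) x4731) x4003) x6191)
  (add (sub (sub (add (add (add (add (add (add (add (add (sub C x1825) x1811) x1835) x1787) x1859) x1715) x1931) x1499) x2147) x1337) x4739) x6195)
  (sub (sub (sub (add (add (add (add (add (add (sub (sub C x1823) x1831) x1789) x1861) x1717) x1933) x1501) x2149) x1339) x4741) x4011)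
  (sub (add (sub (sub (add (add (add (add (sub (sub (add (add C x1831) x1835) x1815) x1845) x1719) x1935) x1503) x2151) x1341) x4743) x4015) x6203)
  (sub (sub (sub (add (add (add (add (sub (sub (add (add C x1827) x1835) x1825) x1849) x1723) x1939) x1507) x2155) x1345) x4747) x4017)
  (add (sub (sub (add (add (add (add (sub (add (add (add (add C x1827) x1831) x1811) x1823) x1853) x1727) x1943) x1511) x2159) x1349) x4751) x6207)
  (sub (sub (sub (add (add (sub (sub (add (add (sub C x1839) x1849) x1861) x1801) x1891) x1513) x2161) x1351) x4753) x4023)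
  (sub (add (sub (sub (add (add (sub (sub (sub (sub C x1837) x1845) x1803) x1893) x1515) x2163) x1353) x4755) x4027) x6215)
  (sub (add (sub (sub (add (add (sub (sub (sub (add (add C x1849) x1853) x1839) x1827) x1899) x1521) x2169) x1359) x4761) x4033) x6221)
  (sub (sub (sub (add (add (sub (sub (add (add (add (add C x1845) x1853) x1837) x1861) x1831) x1903) x1525) x2173) x1363) x4765) x4035)
  (add (sub (sub (add (add (sub (sub (sub (add (add C x1845) x1849) x1859) x1835) x1907) x1529) x2177) x1367) x4769) x6225)
  (add (sub (sub (add (add (sub (add (add (sub (sub C x1861) x1853) x1787) x1823) x1913) x1535) x2183) x1373) x4775) x6231)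
  (sub (sub (sub (add (add (sub (add (add (add (add (sub C x1859) x1837) x1849) x1789) x1825) x1915) x1537) x2185) x1375) x4777) x4047)
  (sub (add (sub (sub (sub (sub (add (add (add (add (add (add C x1867) x1871) x1875) x1887) x1899) x1935) x1755) x2025) x1377) x4779) x4051) x6239)
  (sub (sub (sub (sub (sub (add (add (sub (add (add C x1863) x1871) x1873) x1903) x1939) x1759) x2029) x1381) x4783) x4053)
  (add (sub (sub (sub (sub (add (add (sub (add (add C x1863) x1867) x1883) x1907) x1943) x1763) x2033) x1385) x4787) x6243)
  (sub (sub (sub (sub (sub (sub (sub (sub C x1875) x1867) x1891) x1765) x2035) x1387) x4789) x4059)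
  (sub (add (sub (sub (sub (sub (sub (add (add (sub C x1873) x1863) x1887) x1893) x1767) x2037) x1389) x4791) x4063) x6251)
  (add (sub (sub (sub (sub (sub (sub (sub C x1887) x1871) x1919) x1775) x2045) x1397) x4799) x6255)
  (sub (add (sub (sub (sub (sub (sub (add (add (sub C x1883) x1863) x1875) x1923) x1779) x2049) x1401) x4803) x4075) x6263)
  (sub (sub (sub (sub (sub (sub (add (add (sub C x1893) x1903) x1915) x1873) x1837) x2053) x1405) x4807) x4077)
  (sub (add (sub (sub (sub (sub (sub (sub (sub C x1891) x1899) x1875) x1839) x2055) x1407) x4809) x4081) x6269)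
  (sub (add (sub (sub (sub (sub (add (add (sub (add (add C x1903) x1907) x1893) x1863) x1935) x1845) x2061) x1413) x4815) x4087) x6275)
  (sub (sub (sub (sub (sub (add (add (add (add (add (add C x1899) x1907) x1891) x1915) x1867) x1939) x1849) x2065) x1417) x4819) x4089)
  (add (sub (sub (sub (sub (add (add (sub (add (add C x1899) x1903) x1913) x1871) x1943) x1853) x2069) x1421) x4823) x6279)
  (add (sub (sub (sub (sub (sub (sub (sub C x1915) x1907) x1931) x1859) x2075) x1427) x4829) x6285)
  (sub (sub (sub (sub (sub (sub (add (add (sub C x1913) x1891) x1903) x1933) x1861) x2077) x1429) x4831) x4101)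
  (add (sub (sub (sub (add (add (sub (add (add (sub C x1923) x1931) x1943) x1883) x1703) x1811) x2081) x1433) x4835) x6291)
  (sub (add (sub (sub (sub (add (add (sub (sub (sub C x1919) x1935) x1887) x1707) x1815) x2085) x1437) x4839) x4111) x6299)
  (add (sub (sub (sub (add (add (sub (add (add (sub C x1933) x1919) x1943) x1913) x1715) x1823) x2093) x1445) x4847) x6303)
  (sub (sub (sub (sub (add (add (sub (sub (sub C x1931) x1939) x1915) x1717) x1825) x2095) x1447) x4849) x4119)
  (sub (add (sub (sub (sub (add (add (add (add (sub (add (add C x1939) x1943) x1923) x1863) x1899) x1719) x1827) x2097) x1449) x4851) x4123) x6311)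
  (sub (sub (sub (sub (add (add (add (add (sub (add (add C x1935) x1943) x1933) x1867) x1903) x1723) x1831) x2101) x1453) x4855) x4125)
  (add (sub (sub (sub (add (add (add (add (add (add (add (add C x1935) x1939) x1919) x1931) x1871) x1907) x1727) x1835) x2105) x1457) x4859) x6315)
  (sub (sub (add (add (sub (add (add (add (add (add (add (sub C x1947) x1957) x1969) x1981) x2017) x2053) x2161) x1621) x1) x973) x4861) x4131)
  (sub (add (sub (add (add (sub (add (add (add (add (sub (sub C x1945) x1953) x1983) x2019) x2055) x2163) x1623) x3) x975) x4863) x4135) x6323)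
  (sub (add (sub (add (add (sub (add (add (sub (sub (add (add C x1957) x1961) x1947) x1971) x2061) x2169) x1629) x9) x981) x4869) x4141) x6329)
  (sub (sub (add (add (sub (add (add (sub (add (add (add (add C x1953) x1961) x1945) x1969) x1975) x2065) x2173) x1633) x13) x985) x4873) x4143)
  (add (sub (add (add (sub (add (add (sub (sub (add (add C x1953) x1957) x1967) x1979) x2069) x2177) x1637) x17) x989) x4877) x6333)
  (add (sub (add (add (sub (add (add (sub (sub (sub C x1969) x1961) x2003) x2075) x2183) x1643) x23) x995) x4883) x6339)
  (sub (sub (add (add (sub (add (add (sub (add (add (sub C x1967) x1945) x1957) x2005) x2077) x2185) x1645) x25) x997) x4885) x4155)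
  (sub (add (sub (add (add (sub (sub (sub (add (add (add (add C x1975) x1979) x1983) x1995) x1953) x2025) x1647) x27) x999) x4887) x4159) x6347)
  (sub (sub (add (add (sub (sub (sub (sub (add (add C x1971) x1979) x1981) x1957) x2029) x1651) x31) x1003) x4891) x4161)
  (add (sub (add (add (sub (sub (sub (sub (add (add C x1971) x1975) x1991) x1961) x2033) x1655) x35) x1007) x4895) x6351)
  (sub (sub (add (add (sub (sub (add (add (sub (sub C x1983) x1975) x1945) x2017) x2035) x1657) x37) x1009) x4897) x4167)
  (sub (add (sub (add (add (sub (sub (add (add (add (add (sub C x1981) x1971) x1995) x1947) x2019) x2037) x1659) x39) x1011) x4899) x4171) x6359)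
  (add (sub (add (add (sub (sub (sub (sub (sub C x1995) x1979) x2009) x2045) x1667) x47) x1019) x4907) x6363)
  (sub (add (sub (add (add (sub (sub (sub (add (add (sub C x1991) x1971) x1983) x2013) x2049) x1671) x51) x1023) x4911) x4183) x6371)
  (add (sub (add (add (sub (sub (sub (sub (sub C x2005) x2009) x1967) x2111) x1679) x59) x1031) x4919) x6375)
  (sub (sub (add (add (sub (sub (sub (sub (sub C x2003) x2017) x1969) x2113) x1681) x61) x1033) x4921) x4191)
  (add (sub (add (add (sub (sub (sub (sub (sub C x2013) x2003) x1991) x2117) x1685) x65) x1037) x4925) x6381)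
  (sub (add (sub (add (add (sub (sub (sub (sub (sub C x2009) x2019) x1995) x2121) x1689) x69) x1041) x4929) x4201) x6389)
  (sub (sub (add (add (sub (sub (add (add (sub (sub C x2019) x2005) x1945) x1981) x2125) x1693) x73) x1045) x4933) x4203)
  (sub (add (sub (add (add (sub (sub (add (add (sub (sub C x2017) x2013) x1947) x1983) x2127) x1695) x75) x1047) x4935) x4207) x6395)
  (sub (add (sub (add (add (sub (sub (add (add (add (add (add (add C x2029) x2033) x2037) x2049) x2061) x2097) x1971) x1863) x81) x1053) x4941) x4213) x6401)
  (sub (sub (add (add (sub (sub (add (add (sub (add (add C x2025) x2033) x2035) x2065) x2101) x1975) x1867) x85) x1057) x4945) x4215)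
  (add (sub (add (add (sub (sub (add (add (sub (add (add C x2025) x2029) x2045) x2069) x2105) x1979) x1871) x89) x1061) x4949) x6405)
  (sub (sub (add (add (sub (sub (sub (sub (sub C x2037) x2029) x2053) x1981) x1873) x91) x1063) x4951) x4221)
  (sub (add (sub (add (add (sub (sub (sub (add (add (sub C x2035) x2025) x2049) x2055) x1983) x1875) x93) x1065) x4953) x4225) x6413)
  (add (sub (add (add (sub (sub (sub (sub (sub C x2049) x2033) x2081) x1991) x1883) x101) x1073) x4961) x6417)
  (sub (add (sub (add (add (sub (sub (sub (add (add (sub C x2045) x2025) x2037) x2085) x1995) x1887) x105) x1077) x4965) x4237) x6425)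
  (sub (sub (add (add (sub (add (add (sub (add (add (sub C x2055) x2065) x2077) x2035) x1945) x2161) x1891) x109) x1081) x4969) x4239)
  (sub (add (sub (add (add (sub (add (add (sub (sub (sub C x2053) x2061) x2037) x1947) x2163) x1893) x111) x1083) x4971) x4243) x6431)
  (sub (add (sub (add (add (sub (add (add (add (add (sub (add (add C x2065) x2069) x2055) x2025) x2097) x1953) x2169) x1899) x117) x1089) x4977) x4249) x6437)
  (sub (sub (add (add (sub (add (add (add (add (add (add (add (add C x2061) x2069) x2053) x2077) x2029) x2101) x1957) x2173) x1903) x121) x1093) x4981) x4251)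
  (add (sub (add (add (sub (add (add (add (add (sub (add (add C x2061) x2065) x2075) x2033) x2105) x1961) x2177) x1907) x125) x1097) x4985) x6441)
  (add (sub (add (add (sub (add (add (sub (sub (sub C x2077) x2069) x2093) x1967) x2183) x1913) x131) x1103) x4991) x6447)
  (sub (sub (add (add (sub (add (add (sub (add (add (sub C x2075) x2053) x2065) x2095) x1969) x2185) x1915) x133) x1105) x4993) x4263)
  (add (sub (add (add (sub (sub (sub (add (add (sub C x2085) x2093) x2105) x2045) x2135) x1919) x137) x1109) x4997) x6453)
  (sub (add (sub (add (add (sub (sub (sub (sub (sub C x2081) x2097) x2049) x2139) x1923) x141) x1113) x5001) x4273) x6461)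
  (add (sub (add (add (sub (sub (sub (add (add (sub C x2095) x2081) x2105) x2075) x2147) x1931) x149) x1121) x5009) x6465)
  (sub (sub (add (add (sub (sub (sub (sub (sub C x2093) x2101) x2077) x2149) x1933) x151) x1123) x5011) x4281)
  (sub (add (sub (add (add (sub (sub (add (add (sub (add (add C x2101) x2105) x2085) x2025) x2061) x2151) x1935) x153) x1125) x5013) x4285) x6473)
  (sub (sub (add (add (sub (sub (add (add (sub (add (add C x2097) x2105) x2095) x2029) x2065) x2155) x1939) x157) x1129) x5017) x4287)
  (add (sub (add (add (sub (sub (add (add (add (add (add (add C x2097) x2101) x2081) x2093) x2033) x2069) x2159) x1943) x161) x1133) x5021) x6477)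
  (add (sub (add (add (add (add (sub (add (add (sub (sub C x2113) x2117) x2147) x2183) x2003) x1463) x1787) x167) x1139) x5027) x6483)
  (sub (sub (add (add (add (add (sub (add (add (sub (sub C x2111) x2125) x2149) x2185) x2005) x1465) x1789) x169) x1141) x5029) x4299)
  (add (sub (add (add (add (add (sub (sub (sub (sub C x2121) x2111) x2135) x2009) x1469) x1793) x173) x1145) x5033) x6489)
  (sub (add (sub (add (add (add (add (sub (sub (sub (sub C x2117) x2127) x2139) x2013) x1473) x1797) x177) x1149) x5037) x4309) x6497)
  (sub (sub (add (add (add (add (sub (sub (sub (sub C x2127) x2113) x2161) x2017) x1477) x1801) x181) x1153) x5041) x4311)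
  (sub (add (sub (add (add (add (add (sub (sub (sub (sub C x2125) x2121) x2163) x2019) x1479) x1803) x183) x1155) x5043) x4315) x6503)
  (add (sub (add (add (add (add (sub (sub (add (add (sub C x2139) x2147) x2159) x2117) x2081) x1487) x1811) x191) x1163) x5051) x6507)
  (sub (add (sub (add (add (add (add (sub (sub (sub (sub C x2135) x2151) x2121) x2085) x1491) x1815) x195) x1167) x5055) x4327) x6515)
  (add (sub (add (add (add (add (sub (add (add (add (add (sub C x2149) x2135) x2159) x2111) x2183) x2093) x1499) x1823) x203) x1175) x5063) x6519)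
  (sub (sub (add (add (add (add (sub (add (add (sub (sub C x2147) x2155) x2113) x2185) x2095) x1501) x1825) x205) x1177) x5065) x4335)
  (sub (add (sub (add (add (add (add (sub (sub (sub (add (add C x2155) x2159) x2139) x2169) x2097) x1503) x1827) x207) x1179) x5067) x4339) x6527)
  (sub (sub (add (add (add (add (sub (sub (sub (add (add C x2151) x2159) x2149) x2173) x2101) x1507) x1831) x211) x1183) x5071) x4341)
  (add (sub (add (add (add (add (sub (sub (add (add (add (add C x2151) x2155) x2135) x2147) x2177) x2105) x1511) x1835) x215) x1187) x5075) x6531)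
  (sub (sub (add (add (add (add (add (add (sub (add (add (sub C x2163) x2173) x2185) x2125) x1945) x2053) x1513) x1837) x217) x1189) x5077) x4347)
  (sub (add (sub (add (add (add (add (add (add (sub (sub (sub C x2161) x2169) x2127) x1947) x2055) x1515) x1839) x219) x1191) x5079) x4351) x6539)
  (sub (add (sub (add (add (add (add (add (add (sub (sub (add (add C x2173) x2177) x2163) x2151) x1953) x2061) x1521) x1845) x225) x1197) x5085) x4357) x6545)
  (sub (sub (add (add (add (add (add (add (sub (add (add (add (add C x2169) x2177) x2161) x2185) x2155) x1957) x2065) x1525) x1849) x229) x1201) x5089) x4359)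
  (add (sub (add (add (add (add (add (add (sub (sub (add (add C x2169) x2173) x2183) x2159) x1961) x2069) x1529) x1853) x233) x1205) x5093) x6549)
  (add (sub (add (add (add (add (add (add (add (add (sub (sub C x2185) x2177) x2111) x2147) x1967) x2075) x1535) x1859) x239) x1211) x5099) x6555)
  (sub (sub (add (add (add (add (add (add (add (add (add (add (sub C x2183) x2161) x2173) x2113) x2149) x1969) x2077) x1537) x1861) x241) x1213) x5101) x4371)
  (sub (sub (add (add (add (add (add (add (add (add (add (add (add (add C x2191) x2195) x2199) x2211) x2223) x2259) x2295) x2403) x2511) x2835) x3159) x4131) x729) x1)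
  (sub (add (sub (add (add (add (add (add (add (add (add (sub (add (add C x2187) x2195) x2197) x2227) x2263) x2299) x2407) x2515) x2839) x3163) x4135) x733) x3) x4379)
  (add (sub (add (add (add (add (add (add (add (add (sub (add (add C x2187) x2191) x2207) x2231) x2267) x2303) x2411) x2519) x2843) x3167) x4139) x737) x4381)
  (sub (add (sub (add (add (add (add (add (add (sub (sub (sub C x2199) x2191) x2215) x2305) x2413) x2521) x2845) x3169) x4141) x739) x9) x4385)
  (sub (sub (add (add (add (add (add (add (sub (add (add (sub C x2197) x2187) x2211) x2217) x2307) x2415) x2523) x2847) x3171) x4143) x741) x13)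
  (add (sub (add (add (add (add (add (add (sub (sub (sub C x2211) x2195) x2243) x2315) x2423) x2531) x2855) x3179) x4151) x749) x4393)
  (sub (sub (add (add (add (add (add (add (sub (add (add (sub C x2207) x2187) x2199) x2247) x2319) x2427) x2535) x2859) x3183) x4155) x753) x25)
  (sub (add (sub (add (add (add (add (sub (sub (add (add (sub C x2217) x2227) x2239) x2197) x2269) x2539) x2863) x3187) x4159) x757) x27) x4403)
  (sub (sub (add (add (add (add (sub (sub (sub (sub C x2215) x2223) x2199) x2271) x2541) x2865) x3189) x4161) x759) x31)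
  (sub (sub (add (add (add (add (sub (add (add (sub (add (add C x2227) x2231) x2217) x2187) x2259) x2277) x2547) x2871) x3195) x4167) x765) x37)
  (sub (add (sub (add (add (add (add (sub (add (add (add (add (add (add C x2223) x2231) x2215) x2239) x2191) x2263) x2281) x2551) x2875) x3199) x4171) x769) x39) x4415)
  (add (sub (add (add (add (add (sub (add (add (sub (add (add C x2223) x2227) x2237) x2195) x2267) x2285) x2555) x2879) x3203) x4175) x773) x4417)
  (add (sub (add (add (add (add (sub (sub (sub (sub C x2239) x2231) x2255) x2291) x2561) x2885) x3209) x4181) x779) x4423)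
  (sub (add (sub (add (add (add (add (sub (sub (add (add (sub C x2237) x2215) x2227) x2257) x2293) x2563) x2887) x3211) x4183) x781) x51) x4427)
  (add (sub (add (add (add (add (sub (sub (add (add (sub C x2247) x2255) x2267) x2207) x2351) x2567) x2891) x3215) x4187) x785) x4429)
  (sub (sub (add (add (add (add (sub (sub (sub (sub C x2243) x2259) x2211) x2355) x2571) x2895) x3219) x4191) x789) x61)
  (add (sub (add (add (add (add (sub (sub (add (add (sub C x2257) x2243) x2267) x2237) x2363) x2579) x2903) x3227) x4199) x797) x4441)
  (sub (add (sub (add (add (add (add (sub (sub (sub (sub C x2255) x2263) x2239) x2365) x2581) x2905) x3229) x4201) x799) x69) x4445)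
  (sub (sub (add (add (add (add (sub (add (add (sub (add (add C x2263) x2267) x2247) x2187) x2223) x2367) x2583) x2907) x3231) x4203) x801) x73)
  (sub (add (sub (add (add (add (add (sub (add (add (sub (add (add C x2259) x2267) x2257) x2191) x2227) x2371) x2587) x2911) x3235) x4207) x805) x75) x4451)
  (add (sub (add (add (add (add (sub (add (add (add (add (add (add C x2259) x2263) x2243) x2255) x2195) x2231) x2375) x2591) x2915) x3239) x4211) x809) x4453)
  (sub (add (sub (add (add (sub (sub (add (add (add (add (sub C x2271) x2281) x2293) x2305) x2341) x2215) x2431) x3241) x4213) x811) x81) x4457)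
  (sub (sub (add (add (sub (sub (add (add (sub (sub C x2269) x2277) x2307) x2343) x2217) x2433) x3243) x4215) x813) x85)
  (sub (sub (add (add (sub (sub (sub (sub (add (add C x2281) x2285) x2271) x2295) x2223) x2439) x3249) x4221) x819) x91)
  (sub (add (sub (add (add (sub (sub (sub (add (add (add (add C x2277) x2285) x2269) x2293) x2299) x2227) x2443) x3253) x4225) x823) x93) x4469)
  (add (sub (add (add (sub (sub (sub (sub (add (add C x2277) x2281) x2291) x2303) x2231) x2447) x3257) x4229) x827) x4471)
  (add (sub (add (add (sub (sub (sub (sub (sub C x2293) x2285) x2327) x2237) x2453) x3263) x4235) x833) x4477)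
  (sub (add (sub (add (add (sub (sub (sub (add (add (sub C x2291) x2269) x2281) x2329) x2239) x2455) x3265) x4237) x835) x105) x4481)
  (sub (sub (add (add (sub (add (add (sub (add (add (add (add C x2299) x2303) x2307) x2319) x2277) x2187) x2403) x2457) x3267) x4239) x837) x109)
  (sub (add (sub (add (add (sub (add (add (sub (sub (add (add C x2295) x2303) x2305) x2281) x2191) x2407) x2461) x3271) x4243) x841) x111) x4487)
  (add (sub (add (add (sub (add (add (sub (sub (add (add C x2295) x2299) x2315) x2285) x2195) x2411) x2465) x3275) x4247) x845) x4489)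
  (sub (add (sub (add (add (sub (add (add (add (add (sub (sub C x2307) x2299) x2269) x2341) x2197) x2413) x2467) x3277) x4249) x847) x117) x4493)
  (sub (sub (add (add (sub (add (add (add (add (add (add (sub C x2305) x2295) x2319) x2271) x2343) x2199) x2415) x2469) x3279) x4251) x849) x121)
  (add (sub (add (add (sub (add (add (sub (sub (sub C x2319) x2303) x2333) x2207) x2423) x2477) x3287) x4259) x857) x4501)
  (sub (sub (add (add (sub (add (add (sub (add (add (sub C x2315) x2295) x2307) x2337) x2211) x2427) x2481) x3291) x4263) x861) x133)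
  (add (sub (add (add (sub (sub (sub (sub (sub C x2329) x2333) x2291) x2381) x2489) x3299) x4271) x869) x4513)
  (sub (add (sub (add (add (sub (sub (sub (sub (sub C x2327) x2341) x2293) x2383) x2491) x3301) x4273) x871) x141) x4517)
  (add (sub (add (add (sub (sub (sub (sub (sub C x2337) x2327) x2315) x2387) x2495) x3305) x4277) x875) x4519)
  (sub (sub (add (add (sub (sub (sub (sub (sub C x2333) x2343) x2319) x2391) x2499) x3309) x4281) x879) x151)
  (sub (add (sub (add (add (sub (sub (add (add (sub (sub C x2343) x2329) x2269) x2305) x2395) x2503) x3313) x4285) x883) x153) x4529)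
  (sub (sub (add (add (sub (sub (add (add (sub (sub C x2341) x2337) x2271) x2307) x2397) x2505) x3315) x4287) x885) x157)
  (add (sub (add (add (sub (sub (add (add (add (add (sub C x2355) x2363) x2375) x2387) x2423) x2243) x2675) x3323) x4295) x893) x4537)
  (sub (sub (add (add (sub (sub (add (add (sub (sub C x2351) x2367) x2391) x2427) x2247) x2679) x3327) x4299) x897) x169)
  (add (sub (add (add (sub (sub (sub (add (add (sub C x2365) x2351) x2375) x2381) x2255) x2687) x3335) x4307) x905) x4549)
  (sub (add (sub (add (add (sub (sub (sub (sub (sub C x2363) x2371) x2383) x2257) x2689) x3337) x4309) x907) x177) x4553)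
  (sub (sub (add (add (sub (sub (sub (sub (add (add C x2371) x2375) x2355) x2403) x2259) x2691) x3339) x4311) x909) x181)
  (sub (add (sub (add (add (sub (sub (sub (sub (add (add C x2367) x2375) x2365) x2407) x2263) x2695) x3343) x4315) x913) x183) x4559)
  (add (sub (add (add (sub (sub (sub (add (add (add (add C x2367) x2371) x2351) x2363) x2411) x2267) x2699) x3347) x4319) x917) x4561)
  (add (sub (add (add (sub (sub (sub (sub (sub C x2383) x2387) x2363) x2327) x2705) x3353) x4325) x923) x4567)
  (sub (add (sub (add (add (sub (sub (sub (sub (sub C x2381) x2395) x2365) x2329) x2707) x3355) x4327) x925) x195) x4571)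
  (add (sub (add (add (sub (sub (add (add (sub (sub C x2391) x2381) x2351) x2423) x2333) x2711) x3359) x4331) x929) x4573)
  (sub (sub (add (add (sub (sub (add (add (sub (sub C x2387) x2397) x2355) x2427) x2337) x2715) x3363) x4335) x933) x205)
  (sub (add (sub (add (add (sub (sub (sub (sub (sub C x2397) x2383) x2413) x2341) x2719) x3367) x4339) x937) x207) x4583)
  (sub (sub (add (add (sub (sub (sub (sub (sub C x2395) x2391) x2415) x2343) x2721) x3369) x4341) x939) x211)
  (sub (sub (add (add (sub (add (add (sub (add (add (add (add C x2407) x2411) x2415) x2427) x2367) x2187) x2295) x2727) x3375) x4347) x945) x217)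
  (sub (add (sub (add (add (sub (add (add (sub (sub (add (add C x2403) x2411) x2413) x2371) x2191) x2299) x2731) x3379) x4351) x949) x219) x4595)
  (add (sub (add (add (sub (add (add (sub (sub (add (add C x2403) x2407) x2423) x2375) x2195) x2303) x2735) x3383) x4355) x953) x4597)
  (sub (add (sub (add (add (sub (add (add (sub (sub (sub C x2415) x2407) x2395) x2197) x2305) x2737) x3385) x4357) x955) x225) x4601)
  (sub (sub (add (add (sub (add (add (sub (add (add (sub C x2413) x2403) x2427) x2397) x2199) x2307) x2739) x3387) x4359) x957) x229)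
  (add (sub (add (add (sub (add (add (add (add (sub (sub C x2427) x2411) x2351) x2387) x2207) x2315) x2747) x3395) x4367) x965) x4609)
  (sub (sub (add (add (sub (add (add (add (add (add (add (sub C x2423) x2403) x2415) x2355) x2391) x2211) x2319) x2751) x3399) x4371) x969) x241)
  (sub (add (sub (sub (sub (add (add (add (add (add (add (sub C x2433) x2443) x2455) x2467) x2503) x2539) x2647) x2269) x2917) x973) x243) x4619)
  (sub (sub (sub (sub (add (add (add (add (sub (sub C x2431) x2439) x2469) x2505) x2541) x2649) x2271) x2919) x975) x247)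
  (sub (sub (sub (sub (add (add (sub (sub (add (add C x2443) x2447) x2433) x2457) x2547) x2655) x2277) x2925) x981) x253)
  (sub (add (sub (sub (sub (add (add (sub (add (add (add (add C x2439) x2447) x2431) x2455) x2461) x2551) x2659) x2281) x2929) x985) x255) x4631)
  (add (sub (sub (sub (add (add (sub (sub (add (add C x2439) x2443) x2453) x2465) x2555) x2663) x2285) x2933) x989) x4633)
  (add (sub (sub (sub (add (add (sub (sub (sub C x2455) x2447) x2489) x2561) x2669) x2291) x2939) x995) x4639)
  (sub (add (sub (sub (sub (add (add (sub (add (add (sub C x2453) x2431) x2443) x2491) x2563) x2671) x2293) x2941) x997) x267) x4643)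
  (sub (sub (sub (sub (sub (sub (add (add (add (add C x2461) x2465) x2469) x2481) x2439) x2511) x2295) x2943) x999) x271)
  (sub (add (sub (sub (sub (sub (sub (sub (add (add C x2457) x2465) x2467) x2443) x2515) x2299) x2947) x1003) x273) x4649)
  (add (sub (sub (sub (sub (sub (sub (add (add C x2457) x2461) x2477) x2447) x2519) x2303) x2951) x1007) x4651)
  (sub (add (sub (sub (sub (sub (add (add (sub (sub C x2469) x2461) x2431) x2503) x2521) x2305) x2953) x1009) x279) x4655)
  (sub (sub (sub (sub (sub (add (add (add (add (sub C x2467) x2457) x2481) x2433) x2505) x2523) x2307) x2955) x1011) x283)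
  (add (sub (sub (sub (sub (sub (sub (sub C x2481) x2465) x2495) x2531) x2315) x2963) x1019) x4663)
  (sub (sub (sub (sub (sub (sub (add (add (sub C x2477) x2457) x2469) x2499) x2535) x2319) x2967) x1023) x295)
  (add (sub (sub (sub (sub (sub (sub (sub C x2491) x2495) x2453) x2597) x2327) x2975) x1031) x4675)
  (sub (add (sub (sub (sub (sub (sub (sub (sub C x2489) x2503) x2455) x2599) x2329) x2977) x1033) x303) x4679)
  (add (sub (sub (sub (sub (sub (sub (sub C x2499) x2489) x2477) x2603) x2333) x2981) x1037) x4681)
  (sub (sub (sub (sub (sub (sub (sub (sub C x2495) x2505) x2481) x2607) x2337) x2985) x1041) x313)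
  (sub (add (sub (sub (sub (sub (add (add (sub (sub C x2505) x2491) x2431) x2467) x2611) x2341) x2989) x1045) x315) x4691)
  (sub (sub (sub (sub (sub (add (add (sub (sub C x2503) x2499) x2433) x2469) x2613) x2343) x2991) x1047) x319)
  (sub (sub (sub (add (add (sub (add (add (add (add (add (add C x2515) x2519) x2523) x2535) x2547) x2583) x2457) x2187) x2835) x2997) x1053) x325)
  (sub (add (sub (sub (add (add (sub (add (add (sub (add (add C x2511) x2519) x2521) x2551) x2587) x2461) x2191) x2839) x3001) x1057) x327) x4703)
  (add (sub (sub (add (add (sub (add (add (sub (add (add C x2511) x2515) x2531) x2555) x2591) x2465) x2195) x2843) x3005) x1061) x4705)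
  (sub (add (sub (sub (add (add (sub (sub (sub (sub C x2523) x2515) x2539) x2467) x2197) x2845) x3007) x1063) x333) x4709)
  (sub (sub (sub (add (add (sub (sub (add (add (sub C x2521) x2511) x2535) x2541) x2469) x2199) x2847) x3009) x1065) x337)
  (add (sub (sub (add (add (sub (sub (sub (sub C x2535) x2519) x2567) x2477) x2207) x2855) x3017) x1073) x4717)
  (sub (sub (sub (add (add (sub (sub (add (add (sub C x2531) x2511) x2523) x2571) x2481) x2211) x2859) x3021) x1077) x349)
  (sub (add (sub (sub (add (add (add (add (sub (add (add (sub C x2541) x2551) x2563) x2521) x2431) x2647) x2215) x2863) x3025) x1081) x351) x4727)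
  (sub (sub (sub (add (add (add (add (sub (sub (sub C x2539) x2547) x2523) x2433) x2649) x2217) x2865) x3027) x1083) x355)
  (sub (sub (sub (add (add (add (add (add (add (sub (add (add C x2551) x2555) x2541) x2511) x2583) x2439) x2655) x2223) x2871) x3033) x1089) x361)
  (sub (add (sub (sub (add (add (add (add (add (add (add (add (add (add C x2547) x2555) x2539) x2563) x2515) x2587) x2443) x2659) x2227) x2875) x3037) x1093) x363) x4739)
  (add (sub (sub (add (add (add (add (add (add (sub (add (add C x2547) x2551) x2561) x2519) x2591) x2447) x2663) x2231) x2879) x3041) x1097) x4741)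
  (add (sub (sub (add (add (add (add (sub (sub (sub C x2563) x2555) x2579) x2453) x2669) x2237) x2885) x3047) x1103) x4747)
  (sub (add (sub (sub (add (add (add (add (sub (add (add (sub C x2561) x2539) x2551) x2581) x2455) x2671) x2239) x2887) x3049) x1105) x375) x4751)
  (add (sub (sub (add (add (sub (sub (add (add (sub C x2571) x2579) x2591) x2531) x2621) x2243) x2891) x3053) x1109) x4753)
  (sub (sub (sub (add (add (sub (sub (sub (sub C x2567) x2583) x2535) x2625) x2247) x2895) x3057) x1113) x385)
  (add (sub (sub (add (add (sub (sub (add (add (sub C x2581) x2567) x2591) x2561) x2633) x2255) x2903) x3065) x1121) x4765)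
  (sub (add (sub (sub (add (add (sub (sub (sub (sub C x2579) x2587) x2563) x2635) x2257) x2905) x3067) x1123) x393) x4769)
  (sub (sub (sub (add (add (sub (add (add (sub (add (add C x2587) x2591) x2571) x2511) x2547) x2637) x2259) x2907) x3069) x1125) x397)
  (sub (add (sub (sub (add (add (sub (add (add (sub (add (add C x2583) x2591) x2581) x2515) x2551) x2641) x2263) x2911) x3073) x1129) x399) x4775)
  (add (sub (sub (add (add (sub (add (add (add (add (add (add C x2583) x2587) x2567) x2579) x2519) x2555) x2645) x2267) x2915) x3077) x1133) x4777)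
  (add (sub (sub (sub (sub (add (add (sub (sub C x2599) x2603) x2633) x2669) x2489) x2759) x3083) x1139) x4783)
  (sub (add (sub (sub (sub (sub (add (add (sub (sub C x2597) x2611) x2635) x2671) x2491) x2761) x3085) x1141) x411) x4787)
  (add (sub (sub (sub (sub (sub (sub (sub C x2607) x2597) x2621) x2495) x2765) x3089) x1145) x4789)
  (sub (sub (sub (sub (sub (sub (sub (sub C x2603) x2613) x2625) x2499) x2769) x3093) x1149) x421)
  (sub (add (sub (sub (sub (sub (sub (sub (sub C x2613) x2599) x2647) x2503) x2773) x3097) x1153) x423) x4799)
  (sub (sub (sub (sub (sub (sub (sub (sub C x2611) x2607) x2649) x2505) x2775) x3099) x1155) x427)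
  (add (sub (sub (sub (sub (sub (add (add (sub C x2625) x2633) x2645) x2603) x2567) x2783) x3107) x1163) x4807)
  (sub (sub (sub (sub (sub (sub (sub (sub C x2621) x2637) x2607) x2571) x2787) x3111) x1167) x439)
  (add (sub (sub (sub (sub (add (add (add (add (sub C x2635) x2621) x2645) x2597) x2669) x2579) x2795) x3119) x1175) x4819)
  (sub (add (sub (sub (sub (sub (add (add (sub (sub C x2633) x2641) x2599) x2671) x2581) x2797) x3121) x1177) x447) x4823)
  (sub (sub (sub (sub (sub (sub (sub (add (add C x2641) x2645) x2625) x2655) x2583) x2799) x3123) x1179) x451)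
  (sub (add (sub (sub (sub (sub (sub (sub (add (add C x2637) x2645) x2635) x2659) x2587) x2803) x3127) x1183) x453) x4829)
  (add (sub (sub (sub (sub (sub (add (add (add (add C x2637) x2641) x2621) x2633) x2663) x2591) x2807) x3131) x1187) x4831)
  (sub (add (sub (sub (sub (add (add (sub (add (add (sub C x2649) x2659) x2671) x2611) x2431) x2539) x2809) x3133) x1189) x459) x4835)
  (sub (sub (sub (sub (add (add (sub (sub (sub C x2647) x2655) x2613) x2433) x2541) x2811) x3135) x1191) x463)
  (sub (sub (sub (sub (add (add (sub (sub (add (add C x2659) x2663) x2649) x2637) x2439) x2547) x2817) x3141) x1197) x469)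
  (sub (add (sub (sub (sub (add (add (sub (add (add (add (add C x2655) x2663) x2647) x2671) x2641) x2443) x2551) x2821) x3145) x1201) x471) x4847)
  (add (sub (sub (sub (add (add (sub (sub (add (add C x2655) x2659) x2669) x2645) x2447) x2555) x2825) x3149) x1205) x4849)
  (add (sub (sub (sub (add (add (add (add (sub (sub C x2671) x2663) x2597) x2633) x2453) x2561) x2831) x3155) x1211) x4855)
  (sub (add (sub (sub (sub (add (add (add (add (add (add (sub C x2669) x2647) x2659) x2599) x2635) x2455) x2563) x2833) x3157) x1213) x483) x4859)
  (add (sub (sub (sub (add (add (add (add (add (add (sub C x2679) x2687) x2699) x2711) x2747) x2783) x2891) x2351) x3647) x1217) x4861)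
  (sub (sub (sub (sub (add (add (add (add (sub (sub C x2675) x2691) x2715) x2751) x2787) x2895) x2355) x3651) x1221) x493)
  (add (sub (sub (sub (add (add (sub (add (add (sub C x2689) x2675) x2699) x2705) x2795) x2903) x2363) x3659) x1229) x4873)
  (sub (add (sub (sub (sub (add (add (sub (sub (sub C x2687) x2695) x2707) x2797) x2905) x2365) x3661) x1231) x501) x4877)
  (sub (sub (sub (sub (add (add (sub (sub (add (add C x2695) x2699) x2679) x2727) x2799) x2907) x2367) x3663) x1233) x505)
  (sub (add (sub (sub (sub (add (add (sub (sub (add (add C x2691) x2699) x2689) x2731) x2803) x2911) x2371) x3667) x1237) x507) x4883)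
  (add (sub (sub (sub (add (add (sub (add (add (add (add C x2691) x2695) x2675) x2687) x2735) x2807) x2915) x2375) x3671) x1241) x4885)
  (add (sub (sub (sub (sub (sub (sub (sub C x2707) x2711) x2687) x2759) x2381) x3677) x1247) x4891)
  (sub (add (sub (sub (sub (sub (sub (sub (sub C x2705) x2719) x2689) x2761) x2383) x3679) x1249) x519) x4895)
  (add (sub (sub (sub (sub (add (add (sub (sub C x2715) x2705) x2675) x2747) x2765) x2387) x3683) x1253) x4897)
  (sub (sub (sub (sub (sub (add (add (sub (sub C x2711) x2721) x2679) x2751) x2769) x2391) x3687) x1257) x529)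
  (sub (add (sub (sub (sub (sub (sub (sub (sub C x2721) x2707) x2737) x2773) x2395) x3691) x1261) x531) x4907)
  (sub (sub (sub (sub (sub (sub (sub (sub C x2719) x2715) x2739) x2775) x2397) x3693) x1263) x535)
  (sub (sub (sub (sub (sub (sub (add (add (add (add C x2731) x2735) x2739) x2751) x2691) x2835) x2403) x3699) x1269) x541)
  (sub (add (sub (sub (sub (sub (sub (sub (add (add C x2727) x2735) x2737) x2695) x2839) x2407) x3703) x1273) x543) x4919)
  (add (sub (sub (sub (sub (sub (sub (add (add C x2727) x2731) x2747) x2699) x2843) x2411) x3707) x1277) x4921)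
  (sub (add (sub (sub (sub (sub (sub (sub (sub C x2739) x2731) x2719) x2845) x2413) x3709) x1279) x549) x4925)
  (sub (sub (sub (sub (sub (sub (add (add (sub C x2737) x2727) x2751) x2721) x2847) x2415) x3711) x1281) x553)
  (add (sub (sub (sub (sub (add (add (sub (sub C x2751) x2735) x2675) x2711) x2855) x2423) x3719) x1289) x4933)
  (sub (sub (sub (sub (sub (add (add (add (add (sub C x2747) x2727) x2739) x2679) x2715) x2859) x2427) x3723) x1293) x565)
  (add (sub (sub (sub (sub (add (add (sub (sub C x2761) x2765) x2795) x2831) x2705) x2597) x3731) x1301) x4945)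
  (sub (add (sub (sub (sub (sub (add (add (sub (sub C x2759) x2773) x2797) x2833) x2707) x2599) x3733) x1303) x573) x4949)
  (add (sub (sub (sub (sub (sub (sub (sub C x2769) x2759) x2783) x2711) x2603) x3737) x1307) x4951)
  (sub (sub (sub (sub (sub (sub (sub (sub C x2765) x2775) x2787) x2715) x2607) x3741) x1311) x583)
  (sub (add (sub (sub (sub (sub (sub (sub (sub C x2775) x2761) x2809) x2719) x2611) x3745) x1315) x585) x4961)
  (sub (sub (sub (sub (sub (sub (sub (sub C x2773) x2769) x2811) x2721) x2613) x3747) x1317) x589)
  (add (sub (sub (sub (add (add (sub (add (add (sub C x2787) x2795) x2807) x2765) x2675) x2891) x2621) x3755) x1325) x4969)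
  (sub (sub (sub (sub (add (add (sub (sub (sub C x2783) x2799) x2769) x2679) x2895) x2625) x3759) x1329) x601)
  (add (sub (sub (sub (add (add (add (add (add (add (sub C x2797) x2783) x2807) x2759) x2831) x2687) x2903) x2633) x3767) x1337) x4981)
  (sub (add (sub (sub (sub (add (add (add (add (sub (sub C x2795) x2803) x2761) x2833) x2689) x2905) x2635) x3769) x1339) x609) x4985)
  (sub (sub (sub (sub (add (add (sub (sub (add (add C x2803) x2807) x2787) x2817) x2691) x2907) x2637) x3771) x1341) x613)
  (sub (add (sub (sub (sub (add (add (sub (sub (add (add C x2799) x2807) x2797) x2821) x2695) x2911) x2641) x3775) x1345) x615) x4991)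
  (add (sub (sub (sub (add (add (sub (add (add (add (add C x2799) x2803) x2783) x2795) x2825) x2699) x2915) x2645) x3779) x1349) x4993)
  (sub (add (sub (sub (sub (sub (sub (add (add (sub C x2811) x2821) x2833) x2773) x2863) x2647) x3781) x1351) x621) x4997)
  (sub (sub (sub (sub (sub (sub (sub (sub C x2809) x2817) x2775) x2865) x2649) x3783) x1353) x625)
  (sub (sub (sub (sub (sub (sub (sub (add (add C x2821) x2825) x2811) x2799) x2871) x2655) x3789) x1359) x631)
  (sub (add (sub (sub (sub (sub (sub (add (add (add (add C x2817) x2825) x2809) x2833) x2803) x2875) x2659) x3793) x1363) x633) x5009)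
  (add (sub (sub (sub (sub (sub (sub (add (add C x2817) x2821) x2831) x2807) x2879) x2663) x3797) x1367) x5011)
  (add (sub (sub (sub (sub (add (add (sub (sub C x2833) x2825) x2759) x2795) x2885) x2669) x3803) x1373) x5017)
  (sub (add (sub (sub (sub (sub (add (add (add (add (sub C x2831) x2809) x2821) x2761) x2797) x2887) x2671) x3805) x1375) x645) x5021)
  (sub (sub (sub (add (add (sub (add (add (add (add (add (add C x2839) x2843) x2847) x2859) x2871) x2907) x2727) x2187) x2511) x3807) x1377) x649)
  (sub (add (sub (sub (add (add (sub (add (add (sub (add (add C x2835) x2843) x2845) x2875) x2911) x2731) x2191) x2515) x3811) x1381) x651) x5027)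
  (add (sub (sub (add (add (sub (add (add (sub (add (add C x2835) x2839) x2855) x2879) x2915) x2735) x2195) x2519) x3815) x1385) x5029)
  (sub (add (sub (sub (add (add (sub (sub (sub (sub C x2847) x2839) x2863) x2737) x2197) x2521) x3817) x1387) x657) x5033)
  (sub (sub (sub (add (add (sub (sub (add (add (sub C x2845) x2835) x2859) x2865) x2739) x2199) x2523) x3819) x1389) x661)
  (add (sub (sub (add (add (sub (sub (sub (sub C x2859) x2843) x2891) x2747) x2207) x2531) x3827) x1397) x5041)
  (sub (sub (sub (add (add (sub (sub (add (add (sub C x2855) x2835) x2847) x2895) x2751) x2211) x2535) x3831) x1401) x673)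
  (sub (add (sub (sub (add (add (sub (sub (add (add (sub C x2865) x2875) x2887) x2845) x2809) x2215) x2539) x3835) x1405) x675) x5051)
  (sub (sub (sub (add (add (sub (sub (sub (sub C x2863) x2871) x2847) x2811) x2217) x2541) x3837) x1407) x679)
  (sub (sub (sub (add (add (sub (add (add (sub (add (add C x2875) x2879) x2865) x2835) x2907) x2817) x2223) x2547) x3843) x1413) x685)
  (sub (add (sub (sub (add (add (sub (add (add (add (add (add (add C x2871) x2879) x2863) x2887) x2839) x2911) x2821) x2227) x2551) x3847) x1417) x687) x5063)
  (add (sub (sub (add (add (sub (add (add (sub (add (add C x2871) x2875) x2885) x2843) x2915) x2825) x2231) x2555) x3851) x1421) x5065)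
  (add (sub (sub (add (add (sub (sub (sub (sub C x2887) x2879) x2903) x2831) x2237) x2561) x3857) x1427) x5071)
  (sub (add (sub (sub (add (add (sub (sub (add (add (sub C x2885) x2863) x2875) x2905) x2833) x2239) x2563) x3859) x1429) x699) x5075)
  (add (sub (sub (add (add (add (add (sub (add (add (sub C x2895) x2903) x2915) x2855) x2675) x2783) x2243) x2567) x3863) x1433) x5077)
  (sub (sub (sub (add (add (add (add (sub (sub (sub C x2891) x2907) x2859) x2679) x2787) x2247) x2571) x3867) x1437) x709)
  (add (sub (sub (add (add (add (add (sub (add (add (sub C x2905) x2891) x2915) x2885) x2687) x2795) x2255) x2579) x3875) x1445) x5089)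
  (sub (add (sub (sub (add (add (add (add (sub (sub (sub C x2903) x2911) x2887) x2689) x2797) x2257) x2581) x3877) x1447) x717) x5093)
  (sub (sub (sub (add (add (add (add (add (add (sub (add (add C x2911) x2915) x2895) x2835) x2871) x2691) x2799) x2259) x2583) x3879) x1449) x721)
  (sub (add (sub (sub (add (add (add (add (add (add (sub (add (add C x2907) x2915) x2905) x2839) x2875) x2695) x2803) x2263) x2587) x3883) x1453) x723) x5099)
  (add (sub (sub (add (add (add (add (add (add (add (add (add (add C x2907) x2911) x2891) x2903) x2843) x2879) x2699) x2807) x2267) x2591) x3887) x1457) x5101)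
  (sub (add (add (add (sub (add (add (add (add (add (add (add (add (sub C x2919) x2929) x2941) x2953) x2989) x3025) x3133) x3241) x3565) x2431) x1) x5833) x729) x5105)
  (sub (add (add (sub (add (add (add (add (add (add (sub (sub C x2917) x2925) x2955) x2991) x3027) x3135) x3243) x3567) x2433) x3) x5835) x733)
  (sub (add (add (sub (add (add (add (add (sub (sub (add (add C x2929) x2933) x2919) x2943) x3033) x3141) x3249) x3573) x2439) x9) x5841) x739)
  (sub (add (add (add (sub (add (add (add (add (sub (add (add (add (add C x2925) x2933) x2917) x2941) x2947) x3037) x3145) x3253) x3577) x2443) x13) x5845) x741) x5117)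
  (add (add (add (sub (add (add (add (add (sub (sub (add (add C x2925) x2929) x2939) x2951) x3041) x3149) x3257) x3581) x2447) x17) x5849) x5119)
  (add (add (add (sub (add (add (add (add (sub (sub (sub C x2941) x2933) x2975) x3047) x3155) x3263) x3587) x2453) x23) x5855) x5125)
  (sub (add (add (add (sub (add (add (add (add (sub (add (add (sub C x2939) x2917) x2929) x2977) x3049) x3157) x3265) x3589) x2455) x25) x5857) x753) x5129)
  (sub (add (add (sub (add (add (sub (sub (add (add (add (add C x2947) x2951) x2955) x2967) x2925) x2997) x3267) x3591) x2457) x27) x5859) x757)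
  (sub (add (add (add (sub (add (add (sub (sub (sub (add (add C x2943) x2951) x2953) x2929) x3001) x3271) x3595) x2461) x31) x5863) x759) x5135)
  (add (add (add (sub (add (add (sub (sub (sub (add (add C x2943) x2947) x2963) x2933) x3005) x3275) x3599) x2465) x35) x5867) x5137)
  (sub (add (add (add (sub (add (add (sub (add (add (sub (sub C x2955) x2947) x2917) x2989) x3007) x3277) x3601) x2467) x37) x5869) x765) x5141)
  (sub (add (add (sub (add (add (sub (add (add (add (add (sub C x2953) x2943) x2967) x2919) x2991) x3009) x3279) x3603) x2469) x39) x5871) x769)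
  (add (add (add (sub (add (add (sub (sub (sub (sub C x2967) x2951) x2981) x3017) x3287) x3611) x2477) x47) x5879) x5149)
  (sub (add (add (sub (add (add (sub (sub (add (add (sub C x2963) x2943) x2955) x2985) x3021) x3291) x3615) x2481) x51) x5883) x781)
  (add (add (add (sub (add (add (sub (sub (sub (sub C x2977) x2981) x2939) x3083) x3299) x3623) x2489) x59) x5891) x5161)
  (sub (add (add (add (sub (add (add (sub (sub (sub (sub C x2975) x2989) x2941) x3085) x3301) x3625) x2491) x61) x5893) x789) x5165)
  (add (add (add (sub (add (add (sub (sub (sub (sub C x2985) x2975) x2963) x3089) x3305) x3629) x2495) x65) x5897) x5167)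
  (sub (add (add (sub (add (add (sub (sub (sub (sub C x2981) x2991) x2967) x3093) x3309) x3633) x2499) x69) x5901) x799)
  (sub (add (add (add (sub (add (add (sub (add (add (sub (sub C x2991) x2977) x2917) x2953) x3097) x3313) x3637) x2503) x73) x5905) x801) x5177)
  (sub (add (add (sub (add (add (sub (add (add (sub (sub C x2989) x2985) x2919) x2955) x3099) x3315) x3639) x2505) x75) x5907) x805)
  (sub (add (add (sub (sub (sub (add (add (add (add (add (add C x3001) x3005) x3009) x3021) x3033) x3069) x2943) x3159) x2511) x81) x5913) x811)
  (sub (add (add (add (sub (sub (sub (add (add (sub (add (add C x2997) x3005) x3007) x3037) x3073) x2947) x3163) x2515) x85) x5917) x813) x5189)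
  (add (add (add (sub (sub (sub (add (add (sub (add (add C x2997) x3001) x3017) x3041) x3077) x2951) x3167) x2519) x89) x5921) x5191)
  (sub (add (add (add (sub (sub (sub (sub (sub (sub C x3009) x3001) x3025) x2953) x3169) x2521) x91) x5923) x819) x5195)
  (sub (add (add (sub (sub (sub (sub (add (add (sub C x3007) x2997) x3021) x3027) x2955) x3171) x2523) x93) x5925) x823)
  (add (add (add (sub (sub (sub (sub (sub (sub C x3021) x3005) x3053) x2963) x3179) x2531) x101) x5933) x5203)
  (sub (add (add (sub (sub (sub (sub (add (add (sub C x3017) x2997) x3009) x3057) x2967) x3183) x2535) x105) x5937) x835)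
  (sub (add (add (add (sub (sub (add (add (sub (add (add (sub C x3027) x3037) x3049) x3007) x2917) x3133) x3187) x2539) x109) x5941) x837) x5213)
  (sub (add (add (sub (sub (add (add (sub (sub (sub C x3025) x3033) x3009) x2919) x3135) x3189) x2541) x111) x5943) x841)
  (sub (add (add (sub (sub (add (add (add (add (sub (add (add C x3037) x3041) x3027) x2997) x3069) x2925) x3141) x3195) x2547) x117) x5949) x847)
  (sub (add (add (add (sub (sub (add (add (add (add (add (add (add (add C x3033) x3041) x3025) x3049) x3001) x3073) x2929) x3145) x3199) x2551) x121) x5953) x849) x5225)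
  (add (add (add (sub (sub (add (add (add (add (sub (add (add C x3033) x3037) x3047) x3005) x3077) x2933) x3149) x3203) x2555) x125) x5957) x5227)
  (add (add (add (sub (sub (add (add (sub (sub (sub C x3049) x3041) x3065) x2939) x3155) x3209) x2561) x131) x5963) x5233)
  (sub (add (add (add (sub (sub (add (add (sub (add (add (sub C x3047) x3025) x3037) x3067) x2941) x3157) x3211) x2563) x133) x5965) x861) x5237)
  (add (add (add (sub (sub (sub (sub (add (add (sub C x3057) x3065) x3077) x3017) x3107) x3215) x2567) x137) x5969) x5239)
  (sub (add (add (sub (sub (sub (sub (sub (sub C x3053) x3069) x3021) x3111) x3219) x2571) x141) x5973) x871)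
  (add (add (add (sub (sub (sub (sub (add (add (sub C x3067) x3053) x3077) x3047) x3119) x3227) x2579) x149) x5981) x5251)
  (sub (add (add (add (sub (sub (sub (sub (sub (sub C x3065) x3073) x3049) x3121) x3229) x2581) x151) x5983) x879) x5255)
  (sub (add (add (sub (sub (sub (add (add (sub (add (add C x3073) x3077) x3057) x2997) x3033) x3123) x3231) x2583) x153) x5985) x883)
  (sub (add (add (add (sub (sub (sub (add (add (sub (add (add C x3069) x3077) x3067) x3001) x3037) x3127) x3235) x2587) x157) x5989) x885) x5261)
  (add (add (add (sub (sub (sub (add (add (add (add (add (add C x3069) x3073) x3053) x3065) x3005) x3041) x3131) x3239) x2591) x161) x5993) x5263)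
  (add (add (add (sub (sub (sub (add (add (sub (sub C x3085) x3089) x3119) x3155) x2975) x3407) x2597) x167) x5999) x5269)
  (sub (add (add (add (sub (sub (sub (add (add (sub (sub C x3083) x3097) x3121) x3157) x2977) x3409) x2599) x169) x6001) x897) x5273)
  (add (add (add (sub (sub (sub (sub (sub (sub C x3093) x3083) x3107) x2981) x3413) x2603) x173) x6005) x5275)
  (sub (add (add (sub (sub (sub (sub (sub (sub C x3089) x3099) x3111) x2985) x3417) x2607) x177) x6009) x907)
  (sub (add (add (add (sub (sub (sub (sub (sub (sub C x3099) x3085) x3133) x2989) x3421) x2611) x181) x6013) x909) x5285)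
  (sub (add (add (sub (sub (sub (sub (sub (sub C x3097) x3093) x3135) x2991) x3423) x2613) x183) x6015) x913)
  (add (add (add (sub (sub (sub (sub (add (add (sub C x3111) x3119) x3131) x3089) x3053) x3431) x2621) x191) x6023) x5293)
  (sub (add (add (sub (sub (sub (sub (sub (sub C x3107) x3123) x3093) x3057) x3435) x2625) x195) x6027) x925)
  (add (add (add (sub (sub (sub (add (add (add (add (sub C x3121) x3107) x3131) x3083) x3155) x3065) x3443) x2633) x203) x6035) x5305)
  (sub (add (add (add (sub (sub (sub (add (add (sub (sub C x3119) x3127) x3085) x3157) x3067) x3445) x2635) x205) x6037) x933) x5309)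
  (sub (add (add (sub (sub (sub (sub (sub (add (add C x3127) x3131) x3111) x3141) x3069) x3447) x2637) x207) x6039) x937)
  (sub (add (add (add (sub (sub (sub (sub (sub (add (add C x3123) x3131) x3121) x3145) x3073) x3451) x2641) x211) x6043) x939) x5315)
  (add (add (add (sub (sub (sub (sub (add (add (add (add C x3123) x3127) x3107) x3119) x3149) x3077) x3455) x2645) x215) x6047) x5317)
  (sub (add (add (add (sub (sub (add (add (sub (add (add (sub C x3135) x3145) x3157) x3097) x2917) x3025) x3457) x2647) x217) x6049) x945) x5321)
  (sub (add (add (sub (sub (add (add (sub (sub (sub C x3133) x3141) x3099) x2919) x3027) x3459) x2649) x219) x6051) x949)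
  (sub (add (add (sub (sub (add (add (sub (sub (add (add C x3145) x3149) x3135) x3123) x2925) x3033) x3465) x2655) x225) x6057) x955)
  (sub (add (add (add (sub (sub (add (add (sub (add (add (add (add C x3141) x3149) x3133) x3157) x3127) x2929) x3037) x3469) x2659) x229) x6061) x957) x5333)
  (add (add (add (sub (sub (add (add (sub (sub (add (add C x3141) x3145) x3155) x3131) x2933) x3041) x3473) x2663) x233) x6065) x5335)
  (add (add (add (sub (sub (add (add (add (add (sub (sub C x3157) x3149) x3083) x3119) x2939) x3047) x3479) x2669) x239) x6071) x5341)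
  (sub (add (add (add (sub (sub (add (add (add (add (add (add (sub C x3155) x3133) x3145) x3085) x3121) x2941) x3049) x3481) x2671) x241) x6073) x969) x5345)
  (sub (add (add (add (add (sub (add (add (add (add (add (add (add (add C x3163) x3167) x3171) x3183) x3195) x3231) x3267) x3375) x2997) x2187) x4131) x243) x6075) x973)
  (sub (add (add (add (add (add (sub (add (add (add (add (sub (add (add C x3159) x3167) x3169) x3199) x3235) x3271) x3379) x3001) x2191) x4135) x247) x6079) x975) x5351)
  (add (add (add (add (add (sub (add (add (add (add (sub (add (add C x3159) x3163) x3179) x3203) x3239) x3275) x3383) x3005) x2195) x4139) x251) x6083) x5353)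
  (sub (add (add (add (add (add (sub (add (add (sub (sub (sub C x3171) x3163) x3187) x3277) x3385) x3007) x2197) x4141) x253) x6085) x981) x5357)
  (sub (add (add (add (add (sub (add (add (sub (add (add (sub C x3169) x3159) x3183) x3189) x3279) x3387) x3009) x2199) x4143) x255) x6087) x985)
  (add (add (add (add (add (sub (add (add (sub (sub (sub C x3183) x3167) x3215) x3287) x3395) x3017) x2207) x4151) x263) x6095) x5365)
  (sub (add (add (add (add (sub (add (add (sub (add (add (sub C x3179) x3159) x3171) x3219) x3291) x3399) x3021) x2211) x4155) x267) x6099) x997)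
  (sub (add (add (add (add (add (sub (sub (sub (add (add (sub C x3189) x3199) x3211) x3169) x3241) x3025) x2215) x4159) x271) x6103) x999) x5375)
  (sub (add (add (add (add (sub (sub (sub (sub (sub C x3187) x3195) x3171) x3243) x3027) x2217) x4161) x273) x6105) x1003)
  (sub (add (add (add (add (sub (sub (add (add (sub (add (add C x3199) x3203) x3189) x3159) x3231) x3249) x3033) x2223) x4167) x279) x6111) x1009)
  (sub (add (add (add (add (add (sub (sub (add (add (add (add (add (add C x3195) x3203) x3187) x3211) x3163) x3235) x3253) x3037) x2227) x4171) x283) x6115) x1011) x5387)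
  (add (add (add (add (add (sub (sub (add (add (sub (add (add C x3195) x3199) x3209) x3167) x3239) x3257) x3041) x2231) x4175) x287) x6119) x5389)
  (add (add (add (add (add (sub (sub (sub (sub (sub C x3211) x3203) x3227) x3263) x3047) x2237) x4181) x293) x6125) x5395)
  (sub (add (add (add (add (add (sub (sub (sub (add (add (sub C x3209) x3187) x3199) x3229) x3265) x3049) x2239) x4183) x295) x6127) x1023) x5399)
  (add (add (add (add (add (sub (sub (sub (add (add (sub C x3219) x3227) x3239) x3179) x3323) x3053) x2243) x4187) x299) x6131) x5401)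
  (sub (add (add (add (add (sub (sub (sub (sub (sub C x3215) x3231) x3183) x3327) x3057) x2247) x4191) x303) x6135) x1033)
  (add (add (add (add (add (sub (sub (sub (add (add (sub C x3229) x3215) x3239) x3209) x3335) x3065) x2255) x4199) x311) x6143) x5413)
  (sub (add (add (add (add (add (sub (sub (sub (sub (sub C x3227) x3235) x3211) x3337) x3067) x2257) x4201) x313) x6145) x1041) x5417)
  (sub (add (add (add (add (sub (sub (add (add (sub (add (add C x3235) x3239) x3219) x3159) x3195) x3339) x3069) x2259) x4203) x315) x6147) x1045)
  (sub (add (add (add (add (add (sub (sub (add (add (sub (add (add C x3231) x3239) x3229) x3163) x3199) x3343) x3073) x2263) x4207) x319) x6151) x1047) x5423)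
  (add (add (add (add (add (sub (sub (add (add (add (add (add (add C x3231) x3235) x3215) x3227) x3167) x3203) x3347) x3077) x2267) x4211) x323) x6155) x5425)
  (sub (add (add (add (add (add (add (add (sub (add (add (add (add (sub C x3243) x3253) x3265) x3277) x3313) x3187) x2917) x3565) x2269) x4213) x325) x6157) x1053) x5429)
  (sub (add (add (add (add (add (add (sub (add (add (sub (sub C x3241) x3249) x3279) x3315) x3189) x2919) x3567) x2271) x4215) x327) x6159) x1057)
  (sub (add (add (add (add (add (add (sub (sub (sub (add (add C x3253) x3257) x3243) x3267) x3195) x2925) x3573) x2277) x4221) x333) x6165) x1063)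
  (sub (add (add (add (add (add (add (add (sub (sub (add (add (add (add C x3249) x3257) x3241) x3265) x3271) x3199) x2929) x3577) x2281) x4225) x337) x6169) x1065) x5441)
  (add (add (add (add (add (add (add (sub (sub (sub (add (add C x3249) x3253) x3263) x3275) x3203) x2933) x3581) x2285) x4229) x341) x6173) x5443)
  (add (add (add (add (add (add (add (sub (sub (sub (sub C x3265) x3257) x3299) x3209) x2939) x3587) x2291) x4235) x347) x6179) x5449)
  (sub (add (add (add (add (add (add (add (sub (sub (add (add (sub C x3263) x3241) x3253) x3301) x3211) x2941) x3589) x2293) x4237) x349) x6181) x1077) x5453)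
  (sub (add (add (add (add (add (add (add (add (sub (add (add (add (add C x3271) x3275) x3279) x3291) x3249) x3159) x3375) x2943) x3591) x2295) x4239) x351) x6183) x1081)
  (sub (add (add (add (add (add (add (add (add (add (sub (sub (add (add C x3267) x3275) x3277) x3253) x3163) x3379) x2947) x3595) x2299) x4243) x355) x6187) x1083) x5459)
  (add (add (add (add (add (add (add (add (add (sub (sub (add (add C x3267) x3271) x3287) x3257) x3167) x3383) x2951) x3599) x2303) x4247) x359) x6191) x5461)
  (sub (add (add (add (add (add (add (add (add (add (add (add (sub (sub C x3279) x3271) x3241) x3313) x3169) x3385) x2953) x3601) x2305) x4249) x361) x6193) x1089) x5465)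
  (sub (add (add (add (add (add (add (add (add (add (add (add (add (sub C x3277) x3267) x3291) x3243) x3315) x3171) x3387) x2955) x3603) x2307) x4251) x363) x6195) x1093)
  (add (add (add (add (add (add (add (add (add (sub (sub (sub C x3291) x3275) x3305) x3179) x3395) x2963) x3611) x2315) x4259) x371) x6203) x5473)
  (sub (add (add (add (add (add (add (add (add (sub (add (add (sub C x3287) x3267) x3279) x3309) x3183) x3399) x2967) x3615) x2319) x4263) x375) x6207) x1105)
  (add (add (add (add (add (add (add (sub (sub (sub (sub C x3301) x3305) x3263) x3353) x2975) x3623) x2327) x4271) x383) x6215) x5485)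
  (sub (add (add (add (add (add (add (add (sub (sub (sub (sub C x3299) x3313) x3265) x3355) x2977) x3625) x2329) x4273) x385) x6217) x1113) x5489)
  (add (add (add (add (add (add (add (sub (sub (sub (sub C x3309) x3299) x3287) x3359) x2981) x3629) x2333) x4277) x389) x6221) x5491)
  (sub (add (add (add (add (add (add (sub (sub (sub (sub C x3305) x3315) x3291) x3363) x2985) x3633) x2337) x4281) x393) x6225) x1123)
  (sub (add (add (add (add (add (add (add (sub (add (add (sub (sub C x3315) x3301) x3241) x3277) x3367) x2989) x3637) x2341) x4285) x397) x6229) x1125) x5501)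
  (sub (add (add (add (add (add (add (sub (add (add (sub (sub C x3313) x3309) x3243) x3279) x3369) x2991) x3639) x2343) x4287) x399) x6231) x1129)
  (add (add (add (add (add (sub (sub (add (add (add (add (sub C x3327) x3335) x3347) x3359) x3395) x3215) x3485) x2351) x4295) x407) x6239) x5509)
  (sub (add (add (add (add (sub (sub (add (add (sub (sub C x3323) x3339) x3363) x3399) x3219) x3489) x2355) x4299) x411) x6243) x1141)
  (add (add (add (add (add (sub (sub (sub (add (add (sub C x3337) x3323) x3347) x3353) x3227) x3497) x2363) x4307) x419) x6251) x5521)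
  (sub (add (add (add (add (add (sub (sub (sub (sub (sub C x3335) x3343) x3355) x3229) x3499) x2365) x4309) x421) x6253) x1149) x5525)
  (sub (add (add (add (add (sub (sub (sub (sub (add (add C x3343) x3347) x3327) x3375) x3231) x3501) x2367) x4311) x423) x6255) x1153)
  (sub (add (add (add (add (add (sub (sub (sub (sub (add (add C x3339) x3347) x3337) x3379) x3235) x3505) x2371) x4315) x427) x6259) x1155) x5531)
  (add (add (add (add (add (sub (sub (sub (add (add (add (add C x3339) x3343) x3323) x3335) x3383) x3239) x3509) x2375) x4319) x431) x6263) x5533)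
  (add (add (add (add (add (sub (sub (sub (sub (sub C x3355) x3359) x3335) x3299) x3515) x2381) x4325) x437) x6269) x5539)
  (sub (add (add (add (add (add (sub (sub (sub (sub (sub C x3353) x3367) x3337) x3301) x3517) x2383) x4327) x439) x6271) x1167) x5543)
  (add (add (add (add (add (sub (sub (add (add (sub (sub C x3363) x3353) x3323) x3395) x3305) x3521) x2387) x4331) x443) x6275) x5545)
  (sub (add (add (add (add (sub (sub (add (add (sub (sub C x3359) x3369) x3327) x3399) x3309) x3525) x2391) x4335) x447) x6279) x1177)
  (sub (add (add (add (add (add (sub (sub (sub (sub (sub C x3369) x3355) x3385) x3313) x3529) x2395) x4339) x451) x6283) x1179) x5555)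
  (sub (add (add (add (add (sub (sub (sub (sub (sub C x3367) x3363) x3387) x3315) x3531) x2397) x4341) x453) x6285) x1183)
  (sub (add (add (add (add (sub (add (add (sub (add (add (add (add C x3379) x3383) x3387) x3399) x3339) x3159) x3267) x3537) x2403) x4347) x459) x6291) x1189)
  (sub (add (add (add (add (add (sub (add (add (sub (sub (add (add C x3375) x3383) x3385) x3343) x3163) x3271) x3541) x2407) x4351) x463) x6295) x1191) x5567)
  (add (add (add (add (add (sub (add (add (sub (sub (add (add C x3375) x3379) x3395) x3347) x3167) x3275) x3545) x2411) x4355) x467) x6299) x5569)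
  (sub (add (add (add (add (add (sub (add (add (sub (sub (sub C x3387) x3379) x3367) x3169) x3277) x3547) x2413) x4357) x469) x6301) x1197) x5573)
  (sub (add (add (add (add (sub (add (add (sub (add (add (sub C x3385) x3375) x3399) x3369) x3171) x3279) x3549) x2415) x4359) x471) x6303) x1201)
  (add (add (add (add (add (sub (add (add (add (add (sub (sub C x3399) x3383) x3323) x3359) x3179) x3287) x3557) x2423) x4367) x479) x6311) x5581)
  (sub (add (add (add (add (sub (add (add (add (add (add (add (sub C x3395) x3375) x3387) x3327) x3363) x3183) x3291) x3561) x2427) x4371) x483) x6315) x1213)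
  (add (add (add (sub (sub (add (add (add (add (sub (sub C x3409) x3413) x3443) x3479) x3515) x3623) x3083) x3893) x491) x6323) x5593)
  (sub (add (add (add (sub (sub (add (add (add (add (sub (sub C x3407) x3421) x3445) x3481) x3517) x3625) x3085) x3895) x493) x6325) x1221) x5597)
  (add (add (add (sub (sub (add (add (sub (sub (sub C x3417) x3407) x3431) x3521) x3629) x3089) x3899) x497) x6329) x5599)
  (sub (add (add (sub (sub (add (add (sub (sub (sub C x3413) x3423) x3435) x3525) x3633) x3093) x3903) x501) x6333) x1231)
  (sub (add (add (add (sub (sub (add (add (sub (sub (sub C x3423) x3409) x3457) x3529) x3637) x3097) x3907) x505) x6337) x1233) x5609)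
  (sub (add (add (sub (sub (add (add (sub (sub (sub C x3421) x3417) x3459) x3531) x3639) x3099) x3909) x507) x6339) x1237)
  (add (add (add (sub (sub (sub (sub (add (add (sub C x3435) x3443) x3455) x3413) x3485) x3107) x3917) x515) x6347) x5617)
  (sub (add (add (sub (sub (sub (sub (sub (sub C x3431) x3447) x3417) x3489) x3111) x3921) x519) x6351) x1249)
  (add (add (add (sub (sub (sub (add (add (add (add (sub C x3445) x3431) x3455) x3407) x3479) x3497) x3119) x3929) x527) x6359) x5629)
  (sub (add (add (add (sub (sub (sub (add (add (sub (sub C x3443) x3451) x3409) x3481) x3499) x3121) x3931) x529) x6361) x1257) x5633)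
  (sub (add (add (sub (sub (sub (sub (sub (add (add C x3451) x3455) x3435) x3465) x3501) x3123) x3933) x531) x6363) x1261)
  (sub (add (add (add (sub (sub (sub (sub (sub (add (add C x3447) x3455) x3445) x3469) x3505) x3127) x3937) x535) x6367) x1263) x5639)
  (add (add (add (sub (sub (sub (sub (add (add (add (add C x3447) x3451) x3431) x3443) x3473) x3509) x3131) x3941) x539) x6371) x5641)
  (sub (add (add (add (sub (sub (sub (sub (add (add (sub C x3459) x3469) x3481) x3421) x3565) x3133) x3943) x541) x6373) x1269) x5645)
  (sub (add (add (sub (sub (sub (sub (sub (sub C x3457) x3465) x3423) x3567) x3135) x3945) x543) x6375) x1273)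
  (sub (add (add (sub (sub (sub (sub (sub (add (add C x3469) x3473) x3459) x3447) x3573) x3141) x3951) x549) x6381) x1279)
  (sub (add (add (add (sub (sub (sub (sub (add (add (add (add C x3465) x3473) x3457) x3481) x3451) x3577) x3145) x3955) x553) x6385) x1281) x5657)
  (add (add (add (sub (sub (sub (sub (sub (add (add C x3465) x3469) x3479) x3455) x3581) x3149) x3959) x557) x6389) x5659)
  (add (add (add (sub (sub (sub (add (add (sub (sub C x3481) x3473) x3407) x3443) x3587) x3155) x3965) x563) x6395) x5665)
  (sub (add (add (add (sub (sub (sub (add (add (add (add (sub C x3479) x3457) x3469) x3409) x3445) x3589) x3157) x3967) x565) x6397) x1293) x5669)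
  (add (add (add (sub (sub (sub (add (add (add (add (sub C x3489) x3497) x3509) x3521) x3557) x3431) x3323) x3971) x569) x6401) x5671)
  (sub (add (add (sub (sub (sub (add (add (sub (sub C x3485) x3501) x3525) x3561) x3435) x3327) x3975) x573) x6405) x1303)
  (add (add (add (sub (sub (sub (sub (add (add (sub C x3499) x3485) x3509) x3515) x3443) x3335) x3983) x581) x6413) x5683)
  (sub (add (add (add (sub (sub (sub (sub (sub (sub C x3497) x3505) x3517) x3445) x3337) x3985) x583) x6415) x1311) x5687)
  (sub (add (add (sub (sub (sub (sub (sub (add (add C x3505) x3509) x3489) x3537) x3447) x3339) x3987) x585) x6417) x1315)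
  (sub (add (add (add (sub (sub (sub (sub (sub (add (add C x3501) x3509) x3499) x3541) x3451) x3343) x3991) x589) x6421) x1317) x5693)
  (add (add (add (sub (sub (sub (sub (add (add (add (add C x3501) x3505) x3485) x3497) x3545) x3455) x3347) x3995) x593) x6425) x5695)
  (add (add (add (sub (sub (add (add (sub (sub (sub C x3517) x3521) x3497) x3407) x3623) x3353) x4001) x599) x6431) x5701)
  (sub (add (add (add (sub (sub (add (add (sub (sub (sub C x3515) x3529) x3499) x3409) x3625) x3355) x4003) x601) x6433) x1329) x5705)
  (add (add (add (sub (sub (add (add (add (add (sub (sub C x3525) x3515) x3485) x3557) x3413) x3629) x3359) x4007) x605) x6437) x5707)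
  (sub (add (add (sub (sub (add (add (add (add (sub (sub C x3521) x3531) x3489) x3561) x3417) x3633) x3363) x4011) x609) x6441) x1339)
  (sub (add (add (add (sub (sub (add (add (sub (sub (sub C x3531) x3517) x3547) x3421) x3637) x3367) x4015) x613) x6445) x1341) x5717)
  (sub (add (add (sub (sub (add (add (sub (sub (sub C x3529) x3525) x3549) x3423) x3639) x3369) x4017) x615) x6447) x1345)
  (sub (add (add (sub (sub (sub (sub (add (add (add (add C x3541) x3545) x3549) x3561) x3501) x3591) x3375) x4023) x621) x6453) x1351)
  (sub (add (add (add (sub (sub (sub (sub (sub (add (add C x3537) x3545) x3547) x3505) x3595) x3379) x4027) x625) x6457) x1353) x5729)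
  (add (add (add (sub (sub (sub (sub (sub (add (add C x3537) x3541) x3557) x3509) x3599) x3383) x4031) x629) x6461) x5731)
  (sub (add (add (add (sub (sub (sub (sub (sub (sub C x3549) x3541) x3529) x3601) x3385) x4033) x631) x6463) x1359) x5735)
  (sub (add (add (sub (sub (sub (sub (add (add (sub C x3547) x3537) x3561) x3531) x3603) x3387) x4035) x633) x6465) x1363)
  (add (add (add (sub (sub (sub (add (add (sub (sub C x3561) x3545) x3485) x3521) x3611) x3395) x4043) x641) x6473) x5743)
  (sub (add (add (sub (sub (sub (add (add (add (add (sub C x3557) x3537) x3549) x3489) x3525) x3615) x3399) x4047) x645) x6477) x1375)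
  (sub (add (add (add (sub (add (add (sub (add (add (add (add (sub C x3567) x3577) x3589) x3601) x3637) x3457) x2917) x3241) x4051) x649) x6481) x1377) x5753)
  (sub (add (add (sub (add (add (sub (add (add (sub (sub C x3565) x3573) x3603) x3639) x3459) x2919) x3243) x4053) x651) x6483) x1381)
  (sub (add (add (sub (add (add (sub (sub (sub (add (add C x3577) x3581) x3567) x3591) x3465) x2925) x3249) x4059) x657) x6489) x1387)
  (sub (add (add (add (sub (add (add (sub (sub (add (add (add (add C x3573) x3581) x3565) x3589) x3595) x3469) x2929) x3253) x4063) x661) x6493) x1389) x5765)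
  (add (add (add (sub (add (add (sub (sub (sub (add (add C x3573) x3577) x3587) x3599) x3473) x2933) x3257) x4067) x665) x6497) x5767)
  (add (add (add (sub (add (add (sub (sub (sub (sub C x3589) x3581) x3623) x3479) x2939) x3263) x4073) x671) x6503) x5773)
  (sub (add (add (add (sub (add (add (sub (sub (add (add (sub C x3587) x3565) x3577) x3625) x3481) x2941) x3265) x4075) x673) x6505) x1401) x5777)
  (sub (add (add (sub (add (add (sub (sub (add (add (add (add C x3595) x3599) x3603) x3615) x3573) x3537) x2943) x3267) x4077) x675) x6507) x1405)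
  (sub (add (add (add (sub (add (add (sub (sub (sub (add (add C x3591) x3599) x3601) x3577) x3541) x2947) x3271) x4081) x679) x6511) x1407) x5783)
  (add (add (add (sub (add (add (sub (sub (sub (add (add C x3591) x3595) x3611) x3581) x3545) x2951) x3275) x4085) x683) x6515) x5785)
  (sub (add (add (add (sub (add (add (sub (add (add (sub (sub C x3603) x3595) x3565) x3637) x3547) x2953) x3277) x4087) x685) x6517) x1413) x5789)
  (sub (add (add (sub (add (add (sub (add (add (add (add (sub C x3601) x3591) x3615) x3567) x3639) x3549) x2955) x3279) x4089) x687) x6519) x1417)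
  (add (add (add (sub (add (add (sub (sub (sub (sub C x3615) x3599) x3629) x3557) x2963) x3287) x4097) x695) x6527) x5797)
  (sub (add (add (sub (add (add (sub (sub (add (add (sub C x3611) x3591) x3603) x3633) x3561) x2967) x3291) x4101) x699) x6531) x1429)
  (add (add (add (sub (add (add (add (add (sub (sub (sub C x3625) x3629) x3587) x3407) x3515) x2975) x3299) x4109) x707) x6539) x5809)
  (sub (add (add (add (sub (add (add (add (add (sub (sub (sub C x3623) x3637) x3589) x3409) x3517) x2977) x3301) x4111) x709) x6541) x1437) x5813)
  (add (add (add (sub (add (add (add (add (sub (sub (sub C x3633) x3623) x3611) x3413) x3521) x2981) x3305) x4115) x713) x6545) x5815)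
  (sub (add (add (sub (add (add (add (add (sub (sub (sub C x3629) x3639) x3615) x3417) x3525) x2985) x3309) x4119) x717) x6549) x1447)
  (sub (add (add (add (sub (add (add (add (add (add (add (sub (sub C x3639) x3625) x3565) x3601) x3421) x3529) x2989) x3313) x4123) x721) x6553) x1449) x5825)
  (sub (add (add (sub (add (add (add (add (add (add (sub (sub C x3637) x3633) x3567) x3603) x3423) x3531) x2991) x3315) x4125) x723) x6555) x1453)
  (add (sub (sub (add (add (add (add (add (add (add (add (sub C x3651) x3659) x3671) x3683) x3719) x3755) x3863) x3971) x4295) x2675) x5105) x5833)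
  (sub (sub (sub (add (add (add (add (add (add (sub (sub C x3647) x3663) x3687) x3723) x3759) x3867) x3975) x4299) x2679) x5109) x1465)
  (add (sub (sub (add (add (add (add (sub (add (add (sub C x3661) x3647) x3671) x3677) x3767) x3875) x3983) x4307) x2687) x5117) x5845)
  (sub (add (sub (sub (add (add (add (add (sub (sub (sub C x3659) x3667) x3679) x3769) x3877) x3985) x4309) x2689) x5119) x1473) x5849)
  (sub (sub (sub (add (add (add (add (sub (sub (add (add C x3667) x3671) x3651) x3699) x3771) x3879) x3987) x4311) x2691) x5121) x1477)
  (sub (add (sub (sub (add (add (add (add (sub (sub (add (add C x3663) x3671) x3661) x3703) x3775) x3883) x3991) x4315) x2695) x5125) x1479) x5855)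
  (add (sub (sub (add (add (add (add (sub (add (add (add (add C x3663) x3667) x3647) x3659) x3707) x3779) x3887) x3995) x4319) x2699) x5129) x5857)
  (add (sub (sub (add (add (sub (sub (sub (sub C x3679) x3683) x3659) x3731) x4001) x4325) x2705) x5135) x5863)
  (sub (add (sub (sub (add (add (sub (sub (sub (sub C x3677) x3691) x3661) x3733) x4003) x4327) x2707) x5137) x1491) x5867)
  (add (sub (sub (add (add (sub (add (add (sub (sub C x3687) x3677) x3647) x3719) x3737) x4007) x4331) x2711) x5141) x5869)
  (sub (sub (sub (add (add (sub (add (add (sub (sub C x3683) x3693) x3651) x3723) x3741) x4011) x4335) x2715) x5145) x1501)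
  (sub (add (sub (sub (add (add (sub (sub (sub (sub C x3693) x3679) x3709) x3745) x4015) x4339) x2719) x5149) x1503) x5879)
  (sub (sub (sub (add (add (sub (sub (sub (sub C x3691) x3687) x3711) x3747) x4017) x4341) x2721) x5151) x1507)
  (sub (sub (sub (add (add (sub (sub (add (add (add (add C x3703) x3707) x3711) x3723) x3663) x3807) x4023) x4347) x2727) x5157) x1513)
  (sub (add (sub (sub (add (add (sub (sub (sub (add (add C x3699) x3707) x3709) x3667) x3811) x4027) x4351) x2731) x5161) x1515) x5891)
  (add (sub (sub (add (add (sub (sub (sub (add (add C x3699) x3703) x3719) x3671) x3815) x4031) x4355) x2735) x5165) x5893)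
  (sub (add (sub (sub (add (add (sub (sub (sub (sub C x3711) x3703) x3691) x3817) x4033) x4357) x2737) x5167) x1521) x5897)
  (sub (sub (sub (add (add (sub (sub (add (add (sub C x3709) x3699) x3723) x3693) x3819) x4035) x4359) x2739) x5169) x1525)
  (add (sub (sub (add (add (sub (add (add (sub (sub C x3723) x3707) x3647) x3683) x3827) x4043) x4367) x2747) x5177) x5905)
  (sub (sub (sub (add (add (sub (add (add (add (add (sub C x3719) x3699) x3711) x3651) x3687) x3831) x4047) x4371) x2751) x5181) x1537)
  (add (sub (sub (sub (sub (add (add (sub (sub C x3733) x3737) x3767) x3803) x3677) x3893) x2759) x5189) x5917)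
  (sub (add (sub (sub (sub (sub (add (add (sub (sub C x3731) x3745) x3769) x3805) x3679) x3895) x2761) x5191) x1545) x5921)
  (add (sub (sub (sub (sub (sub (sub (sub C x3741) x3731) x3755) x3683) x3899) x2765) x5195) x5923)
  (sub (sub (sub (sub (sub (sub (sub (sub C x3737) x3747) x3759) x3687) x3903) x2769) x5199) x1555)
  (sub (add (sub (sub (sub (sub (sub (sub (sub C x3747) x3733) x3781) x3691) x3907) x2773) x5203) x1557) x5933)
  (sub (sub (sub (sub (sub (sub (sub (sub C x3745) x3741) x3783) x3693) x3909) x2775) x5205) x1561)
  (add (sub (sub (sub (add (add (sub (add (add (sub C x3759) x3767) x3779) x3737) x3647) x3863) x3917) x2783) x5213) x5941)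
  (sub (sub (sub (sub (add (add (sub (sub (sub C x3755) x3771) x3741) x3651) x3867) x3921) x2787) x5217) x1573)
  (add (sub (sub (sub (add (add (add (add (add (add (sub C x3769) x3755) x3779) x3731) x3803) x3659) x3875) x3929) x2795) x5225) x5953)
  (sub (add (sub (sub (sub (add (add (add (add (sub (sub C x3767) x3775) x3733) x3805) x3661) x3877) x3931) x2797) x5227) x1581) x5957)
  (sub (sub (sub (sub (add (add (sub (sub (add (add C x3775) x3779) x3759) x3789) x3663) x3879) x3933) x2799) x5229) x1585)
  (sub (add (sub (sub (sub (add (add (sub (sub (add (add C x3771) x3779) x3769) x3793) x3667) x3883) x3937) x2803) x5233) x1587) x5963)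
  (add (sub (sub (sub (add (add (sub (add (add (add (add C x3771) x3775) x3755) x3767) x3797) x3671) x3887) x3941) x2807) x5237) x5965)
  (sub (add (sub (sub (sub (sub (sub (add (add (sub C x3783) x3793) x3805) x3745) x3835) x3943) x2809) x5239) x1593) x5969)
  (sub (sub (sub (sub (sub (sub (sub (sub C x3781) x3789) x3747) x3837) x3945) x2811) x5241) x1597)
  (sub (sub (sub (sub (sub (sub (sub (add (add C x3793) x3797) x3783) x3771) x3843) x3951) x2817) x5247) x1603)
  (sub (add (sub (sub (sub (sub (sub (add (add (add (add C x3789) x3797) x3781) x3805) x3775) x3847) x3955) x2821) x5251) x1605) x5981)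
  (add (sub (sub (sub (sub (sub (sub (add (add C x3789) x3793) x3803) x3779) x3851) x3959) x2825) x5255) x5983)
  (add (sub (sub (sub (sub (add (add (sub (sub C x3805) x3797) x3731) x3767) x3857) x3965) x2831) x5261) x5989)
  (sub (add (sub (sub (sub (sub (add (add (add (add (sub C x3803) x3781) x3793) x3733) x3769) x3859) x3967) x2833) x5263) x1617) x5993)
  (sub (sub (sub (sub (sub (add (add (add (add (add (add C x3811) x3815) x3819) x3831) x3843) x3879) x3699) x4131) x2835) x5265) x1621)
  (sub (add (sub (sub (sub (sub (add (add (sub (add (add C x3807) x3815) x3817) x3847) x3883) x3703) x4135) x2839) x5269) x1623) x5999)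
  (add (sub (sub (sub (sub (add (add (sub (add (add C x3807) x3811) x3827) x3851) x3887) x3707) x4139) x2843) x5273) x6001)
  (sub (add (sub (sub (sub (sub (sub (sub (sub C x3819) x3811) x3835) x3709) x4141) x2845) x5275) x1629) x6005)
  (sub (sub (sub (sub (sub (sub (add (add (sub C x3817) x3807) x3831) x3837) x3711) x4143) x2847) x5277) x1633)
  (add (sub (sub (sub (sub (sub (sub (sub C x3831) x3815) x3863) x3719) x4151) x2855) x5285) x6013)
  (sub (sub (sub (sub (sub (sub (add (add (sub C x3827) x3807) x3819) x3867) x3723) x4155) x2859) x5289) x1645)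
  (sub (add (sub (sub (sub (sub (sub (add (add (sub C x3837) x3847) x3859) x3817) x3781) x4159) x2863) x5293) x1647) x6023)
  (sub (sub (sub (sub (sub (sub (sub (sub C x3835) x3843) x3819) x3783) x4161) x2865) x5295) x1651)
  (sub (sub (sub (sub (sub (add (add (sub (add (add C x3847) x3851) x3837) x3807) x3879) x3789) x4167) x2871) x5301) x1657)
  (sub (add (sub (sub (sub (sub (add (add (add (add (add (add C x3843) x3851) x3835) x3859) x3811) x3883) x3793) x4171) x2875) x5305) x1659) x6035)
  (add (sub (sub (sub (sub (add (add (sub (add (add C x3843) x3847) x3857) x3815) x3887) x3797) x4175) x2879) x5309) x6037)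
  (add (sub (sub (sub (sub (sub (sub (sub C x3859) x3851) x3875) x3803) x4181) x2885) x5315) x6043)
  (sub (add (sub (sub (sub (sub (sub (add (add (sub C x3857) x3835) x3847) x3877) x3805) x4183) x2887) x5317) x1671) x6047)
  (add (sub (sub (sub (add (add (sub (add (add (sub C x3867) x3875) x3887) x3827) x3647) x3755) x4187) x2891) x5321) x6049)
  (sub (sub (sub (sub (add (add (sub (sub (sub C x3863) x3879) x3831) x3651) x3759) x4191) x2895) x5325) x1681)
  (add (sub (sub (sub (add (add (sub (add (add (sub C x3877) x3863) x3887) x3857) x3659) x3767) x4199) x2903) x5333) x6061)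
  (sub (add (sub (sub (sub (add (add (sub (sub (sub C x3875) x3883) x3859) x3661) x3769) x4201) x2905) x5335) x1689) x6065)
  (sub (sub (sub (sub (add (add (add (add (sub (add (add C x3883) x3887) x3867) x3807) x3843) x3663) x3771) x4203) x2907) x5337) x1693)
  (sub (add (sub (sub (sub (add (add (add (add (sub (add (add C x3879) x3887) x3877) x3811) x3847) x3667) x3775) x4207) x2911) x5341) x1695) x6071)
  (add (sub (sub (sub (add (add (add (add (add (add (add (add C x3879) x3883) x3863) x3875) x3815) x3851) x3671) x3779) x4211) x2915) x5345) x6073)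
  (add (sub (sub (sub (add (add (add (add (sub (sub C x3895) x3899) x3929) x3965) x4001) x4109) x3731) x3407) x5351) x6079)
  (sub (add (sub (sub (sub (add (add (add (add (sub (sub C x3893) x3907) x3931) x3967) x4003) x4111) x3733) x3409) x5353) x1707) x6083)
  (add (sub (sub (sub (add (add (sub (sub (sub C x3903) x3893) x3917) x4007) x4115) x3737) x3413) x5357) x6085)
  (sub (sub (sub (sub (add (add (sub (sub (sub C x3899) x3909) x3921) x4011) x4119) x3741) x3417) x5361) x1717)
  (sub (add (sub (sub (sub (add (add (sub (sub (sub C x3909) x3895) x3943) x4015) x4123) x3745) x3421) x5365) x1719) x6095)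
  (sub (sub (sub (sub (add (add (sub (sub (sub C x3907) x3903) x3945) x4017) x4125) x3747) x3423) x5367) x1723)
  (add (sub (sub (sub (sub (sub (add (add (sub C x3921) x3929) x3941) x3899) x3971) x3755) x3431) x5375) x6103)
  (sub (sub (sub (sub (sub (sub (sub (sub C x3917) x3933) x3903) x3975) x3759) x3435) x5379) x1735)
  (add (sub (sub (sub (sub (add (add (add (add (sub C x3931) x3917) x3941) x3893) x3965) x3983) x3767) x3443) x5387) x6115)
  (sub (add (sub (sub (sub (sub (add (add (sub (sub C x3929) x3937) x3895) x3967) x3985) x3769) x3445) x5389) x1743) x6119)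
  (sub (sub (sub (sub (sub (sub (sub (add (add C x3937) x3941) x3921) x3951) x3987) x3771) x3447) x5391) x1747)
  (sub (add (sub (sub (sub (sub (sub (sub (add (add C x3933) x3941) x3931) x3955) x3991) x3775) x3451) x5395) x1749) x6125)
  (add (sub (sub (sub (sub (sub (add (add (add (add C x3933) x3937) x3917) x3929) x3959) x3995) x3779) x3455) x5399) x6127)
  (sub (add (sub (sub (sub (sub (sub (add (add (sub C x3945) x3955) x3967) x3907) x4051) x3781) x3457) x5401) x1755) x6131)
  (sub (sub (sub (sub (sub (sub (sub (sub C x3943) x3951) x3909) x4053) x3783) x3459) x5403) x1759)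
  (sub (sub (sub (sub (sub (sub (sub (add (add C x3955) x3959) x3945) x3933) x4059) x3789) x3465) x5409) x1765)
  (sub (add (sub (sub (sub (sub (sub (add (add (add (add C x3951) x3959) x3943) x3967) x3937) x4063) x3793) x3469) x5413) x1767) x6143)
  (add (sub (sub (sub (sub (sub (sub (add (add C x3951) x3955) x3965) x3941) x4067) x3797) x3473) x5417) x6145)
  (add (sub (sub (sub (sub (add (add (sub (sub C x3967) x3959) x3893) x3929) x4073) x3803) x3479) x5423) x6151)
  (sub (add (sub (sub (sub (sub (add (add (add (add (sub C x3965) x3943) x3955) x3895) x3931) x4075) x3805) x3481) x5425) x1779) x6155)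
  (add (sub (sub (add (add (sub (add (add (add (add (sub C x3975) x3983) x3995) x4007) x4043) x3917) x3647) x4295) x3485) x5429) x6157)
  (sub (sub (sub (add (add (sub (add (add (sub (sub C x3971) x3987) x4011) x4047) x3921) x3651) x4299) x3489) x5433) x1789)
  (add (sub (sub (add (add (sub (sub (add (add (sub C x3985) x3971) x3995) x4001) x3929) x3659) x4307) x3497) x5441) x6169)
  (sub (add (sub (sub (add (add (sub (sub (sub (sub C x3983) x3991) x4003) x3931) x3661) x4309) x3499) x5443) x1797) x6173)
  (sub (sub (sub (add (add (sub (sub (sub (add (add C x3991) x3995) x3975) x4023) x3933) x3663) x4311) x3501) x5445) x1801)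
  (sub (add (sub (sub (add (add (sub (sub (sub (add (add C x3987) x3995) x3985) x4027) x3937) x3667) x4315) x3505) x5449) x1803) x6179)
  (add (sub (sub (add (add (sub (sub (add (add (add (add C x3987) x3991) x3971) x3983) x4031) x3941) x3671) x4319) x3509) x5453) x6181)
  (add (sub (sub (add (add (add (add (sub (sub (sub C x4003) x4007) x3983) x3893) x4109) x3677) x4325) x3515) x5459) x6187)
  (sub (add (sub (sub (add (add (add (add (sub (sub (sub C x4001) x4015) x3985) x3895) x4111) x3679) x4327) x3517) x5461) x1815) x6191)
  (add (sub (sub (add (add (add (add (add (add (sub (sub C x4011) x4001) x3971) x4043) x3899) x4115) x3683) x4331) x3521) x5465) x6193)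
  (sub (sub (sub (add (add (add (add (add (add (sub (sub C x4007) x4017) x3975) x4047) x3903) x4119) x3687) x4335) x3525) x5469) x1825)
  (sub (add (sub (sub (add (add (add (add (sub (sub (sub C x4017) x4003) x4033) x3907) x4123) x3691) x4339) x3529) x5473) x1827) x6203)
  (sub (sub (sub (add (add (add (add (sub (sub (sub C x4015) x4011) x4035) x3909) x4125) x3693) x4341) x3531) x5475) x1831)
  (sub (sub (sub (add (add (sub (sub (add (add (add (add C x4027) x4031) x4035) x4047) x3987) x4077) x3699) x4347) x3537) x5481) x1837)
  (sub (add (sub (sub (add (add (sub (sub (sub (add (add C x4023) x4031) x4033) x3991) x4081) x3703) x4351) x3541) x5485) x1839) x6215)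
  (add (sub (sub (add (add (sub (sub (sub (add (add C x4023) x4027) x4043) x3995) x4085) x3707) x4355) x3545) x5489) x6217)
  (sub (add (sub (sub (add (add (sub (sub (sub (sub C x4035) x4027) x4015) x4087) x3709) x4357) x3547) x5491) x1845) x6221)
  (sub (sub (sub (add (add (sub (sub (add (add (sub C x4033) x4023) x4047) x4017) x4089) x3711) x4359) x3549) x5493) x1849)
  (add (sub (sub (add (add (sub (add (add (sub (sub C x4047) x4031) x3971) x4007) x4097) x3719) x4367) x3557) x5501) x6229)
  (sub (sub (sub (add (add (sub (add (add (add (add (sub C x4043) x4023) x4035) x3975) x4011) x4101) x3723) x4371) x3561) x5505) x1861)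
  (sub (add (sub (sub (sub (sub (add (add (add (add (sub C x4053) x4063) x4075) x4087) x4123) x3943) x4213) x3565) x5509) x1863) x6239)
  (sub (sub (sub (sub (sub (add (add (sub (sub C x4051) x4059) x4089) x4125) x3945) x4215) x3567) x5511) x1867)
  (sub (sub (sub (sub (sub (sub (sub (add (add C x4063) x4067) x4053) x4077) x3951) x4221) x3573) x5517) x1873)
  (sub (add (sub (sub (sub (sub (sub (add (add (add (add C x4059) x4067) x4051) x4075) x4081) x3955) x4225) x3577) x5521) x1875) x6251)
  (add (sub (sub (sub (sub (sub (sub (add (add C x4059) x4063) x4073) x4085) x3959) x4229) x3581) x5525) x6253)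
  (add (sub (sub (sub (sub (sub (sub (sub C x4075) x4067) x4109) x3965) x4235) x3587) x5531) x6259)
  (sub (add (sub (sub (sub (sub (sub (add (add (sub C x4073) x4051) x4063) x4111) x3967) x4237) x3589) x5533) x1887) x6263)
  (sub (sub (sub (sub (sub (sub (add (add (add (add C x4081) x4085) x4089) x4101) x4059) x4023) x4239) x3591) x5535) x1891)
  (sub (add (sub (sub (sub (sub (sub (sub (add (add C x4077) x4085) x4087) x4063) x4027) x4243) x3595) x5539) x1893) x6269)
  (add (sub (sub (sub (sub (sub (sub (add (add C x4077) x4081) x4097) x4067) x4031) x4247) x3599) x5543) x6271)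
  (sub (add (sub (sub (sub (sub (add (add (sub (sub C x4089) x4081) x4051) x4123) x4033) x4249) x3601) x5545) x1899) x6275)
  (sub (sub (sub (sub (sub (add (add (add (add (sub C x4087) x4077) x4101) x4053) x4125) x4035) x4251) x3603) x5547) x1903)
  (add (sub (sub (sub (sub (sub (sub (sub C x4101) x4085) x4115) x4043) x4259) x3611) x5555) x6283)
  (sub (sub (sub (sub (sub (sub (add (add (sub C x4097) x4077) x4089) x4119) x4047) x4263) x3615) x5559) x1915)
  (add (sub (sub (sub (add (add (sub (sub (sub C x4111) x4115) x4073) x3893) x4001) x4271) x3623) x5567) x6295)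
  (sub (add (sub (sub (sub (add (add (sub (sub (sub C x4109) x4123) x4075) x3895) x4003) x4273) x3625) x5569) x1923) x6299)
  (add (sub (sub (sub (add (add (sub (sub (sub C x4119) x4109) x4097) x3899) x4007) x4277) x3629) x5573) x6301)
  (sub (sub (sub (sub (add (add (sub (sub (sub C x4115) x4125) x4101) x3903) x4011) x4281) x3633) x5577) x1933)
  (sub (add (sub (sub (sub (add (add (add (add (sub (sub C x4125) x4111) x4051) x4087) x3907) x4015) x4285) x3637) x5581) x1935) x6311)
  (sub (sub (sub (sub (add (add (add (add (sub (sub C x4123) x4119) x4053) x4089) x3909) x4017) x4287) x3639) x5583) x1939)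
  (sub (sub (add (add (sub (add (add (add (add (add (add (add (add C x4135) x4139) x4143) x4155) x4167) x4203) x4239) x4347) x3807) x2187) x3159) x5589) x1945)
  (sub (add (sub (add (add (sub (add (add (add (add (sub (add (add C x4131) x4139) x4141) x4171) x4207) x4243) x4351) x3811) x2191) x3163) x5593) x1947) x6323)
  (add (sub (add (add (sub (add (add (add (add (sub (add (add C x4131) x4135) x4151) x4175) x4211) x4247) x4355) x3815) x2195) x3167) x5597) x6325)
  (sub (add (sub (add (add (sub (add (add (sub (sub (sub C x4143) x4135) x4159) x4249) x4357) x3817) x2197) x3169) x5599) x1953) x6329)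
  (sub (sub (add (add (sub (add (add (sub (add (add (sub C x4141) x4131) x4155) x4161) x4251) x4359) x3819) x2199) x3171) x5601) x1957)
  (add (sub (add (add (sub (add (add (sub (sub (sub C x4155) x4139) x4187) x4259) x4367) x3827) x2207) x3179) x5609) x6337)
  (sub (sub (add (add (sub (add (add (sub (add (add (sub C x4151) x4131) x4143) x4191) x4263) x4371) x3831) x2211) x3183) x5613) x1969)
  (sub (add (sub (add (add (sub (sub (sub (add (add (sub C x4161) x4171) x4183) x4141) x4213) x3835) x2215) x3187) x5617) x1971) x6347)
  (sub (sub (add (add (sub (sub (sub (sub (sub C x4159) x4167) x4143) x4215) x3837) x2217) x3189) x5619) x1975)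
  (sub (sub (add (add (sub (sub (add (add (sub (add (add C x4171) x4175) x4161) x4131) x4203) x4221) x3843) x2223) x3195) x5625) x1981)
  (sub (add (sub (add (add (sub (sub (add (add (add (add (add (add C x4167) x4175) x4159) x4183) x4135) x4207) x4225) x3847) x2227) x3199) x5629) x1983) x6359)
  (add (sub (add (add (sub (sub (add (add (sub (add (add C x4167) x4171) x4181) x4139) x4211) x4229) x3851) x2231) x3203) x5633) x6361)
  (add (sub (add (add (sub (sub (sub (sub (sub C x4183) x4175) x4199) x4235) x3857) x2237) x3209) x5639) x6367)
  (sub (add (sub (add (add (sub (sub (sub (add (add (sub C x4181) x4159) x4171) x4201) x4237) x3859) x2239) x3211) x5641) x1995) x6371)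
  (add (sub (add (add (sub (sub (sub (add (add (sub C x4191) x4199) x4211) x4151) x4295) x3863) x2243) x3215) x5645) x6373)
  (sub (sub (add (add (sub (sub (sub (sub (sub C x4187) x4203) x4155) x4299) x3867) x2247) x3219) x5649) x2005)
  (add (sub (add (add (sub (sub (sub (add (add (sub C x4201) x4187) x4211) x4181) x4307) x3875) x2255) x3227) x5657) x6385)
  (sub (add (sub (add (add (sub (sub (sub (sub (sub C x4199) x4207) x4183) x4309) x3877) x2257) x3229) x5659) x2013) x6389)
  (sub (sub (add (add (sub (sub (add (add (sub (add (add C x4207) x4211) x4191) x4131) x4167) x4311) x3879) x2259) x3231) x5661) x2017)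
  (sub (add (sub (add (add (sub (sub (add (add (sub (add (add C x4203) x4211) x4201) x4135) x4171) x4315) x3883) x2263) x3235) x5665) x2019) x6395)
  (add (sub (add (add (sub (sub (add (add (add (add (add (add C x4203) x4207) x4187) x4199) x4139) x4175) x4319) x3887) x2267) x3239) x5669) x6397)
  (sub (add (sub (add (add (sub (sub (add (add (add (add (sub C x4215) x4225) x4237) x4249) x4285) x4159) x4051) x2269) x3241) x5671) x2025) x6401)
  (sub (sub (add (add (sub (sub (add (add (sub (sub C x4213) x4221) x4251) x4287) x4161) x4053) x2271) x3243) x5673) x2029)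
  (sub (sub (add (add (sub (sub (sub (sub (add (add C x4225) x4229) x4215) x4239) x4167) x4059) x2277) x3249) x5679) x2035)
  (sub (add (sub (add (add (sub (sub (sub (add (add (add (add C x4221) x4229) x4213) x4237) x4243) x4171) x4063) x2281) x3253) x5683) x2037) x6413)
  (add (sub (add (add (sub (sub (sub (sub (add (add C x4221) x4225) x4235) x4247) x4175) x4067) x2285) x3257) x5687) x6415)
  (add (sub (add (add (sub (sub (sub (sub (sub C x4237) x4229) x4271) x4181) x4073) x2291) x3263) x5693) x6421)
  (sub (add (sub (add (add (sub (sub (sub (add (add (sub C x4235) x4213) x4225) x4273) x4183) x4075) x2293) x3265) x5695) x2049) x6425)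
  (sub (sub (add (add (sub (add (add (sub (add (add (add (add C x4243) x4247) x4251) x4263) x4221) x4131) x4347) x4077) x2295) x3267) x5697) x2053)
  (sub (add (sub (add (add (sub (add (add (sub (sub (add (add C x4239) x4247) x4249) x4225) x4135) x4351) x4081) x2299) x3271) x5701) x2055) x6431)
  (add (sub (add (add (sub (add (add (sub (sub (add (add C x4239) x4243) x4259) x4229) x4139) x4355) x4085) x2303) x3275) x5705) x6433)
  (sub (add (sub (add (add (sub (add (add (add (add (sub (sub C x4251) x4243) x4213) x4285) x4141) x4357) x4087) x2305) x3277) x5707) x2061) x6437)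
  (sub (sub (add (add (sub (add (add (add (add (add (add (sub C x4249) x4239) x4263) x4215) x4287) x4143) x4359) x4089) x2307) x3279) x5709) x2065)
  (add (sub (add (add (sub (add (add (sub (sub (sub C x4263) x4247) x4277) x4151) x4367) x4097) x2315) x3287) x5717) x6445)
  (sub (sub (add (add (sub (add (add (sub (add (add (sub C x4259) x4239) x4251) x4281) x4155) x4371) x4101) x2319) x3291) x5721) x2077)
  (add (sub (add (add (sub (sub (sub (sub (sub C x4273) x4277) x4235) x4325) x4109) x2327) x3299) x5729) x6457)
  (sub (add (sub (add (add (sub (sub (sub (sub (sub C x4271) x4285) x4237) x4327) x4111) x2329) x3301) x5731) x2085) x6461)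
  (add (sub (add (add (sub (sub (sub (sub (sub C x4281) x4271) x4259) x4331) x4115) x2333) x3305) x5735) x6463)
  (sub (sub (add (add (sub (sub (sub (sub (sub C x4277) x4287) x4263) x4335) x4119) x2337) x3309) x5739) x2095)
  (sub (add (sub (add (add (sub (sub (add (add (sub (sub C x4287) x4273) x4213) x4249) x4339) x4123) x2341) x3313) x5743) x2097) x6473)
  (sub (sub (add (add (sub (sub (add (add (sub (sub C x4285) x4281) x4215) x4251) x4341) x4125) x2343) x3315) x5745) x2101)
  (add (sub (add (add (add (add (sub (add (add (add (add (sub C x4299) x4307) x4319) x4331) x4367) x4187) x3647) x3971) x2351) x3323) x5753) x6481)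
  (sub (sub (add (add (add (add (sub (add (add (sub (sub C x4295) x4311) x4335) x4371) x4191) x3651) x3975) x2355) x3327) x5757) x2113)
  (add (sub (add (add (add (add (sub (sub (add (add (sub C x4309) x4295) x4319) x4325) x4199) x3659) x3983) x2363) x3335) x5765) x6493)
  (sub (add (sub (add (add (add (add (sub (sub (sub (sub C x4307) x4315) x4327) x4201) x3661) x3985) x2365) x3337) x5767) x2121) x6497)
  (sub (sub (add (add (add (add (sub (sub (sub (add (add C x4315) x4319) x4299) x4347) x4203) x3663) x3987) x2367) x3339) x5769) x2125)
  (sub (add (sub (add (add (add (add (sub (sub (sub (add (add C x4311) x4319) x4309) x4351) x4207) x3667) x3991) x2371) x3343) x5773) x2127) x6503)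
  (add (sub (add (add (add (add (sub (sub (add (add (add (add C x4311) x4315) x4295) x4307) x4355) x4211) x3671) x3995) x2375) x3347) x5777) x6505)
  (add (sub (add (add (add (add (sub (sub (sub (sub C x4327) x4331) x4307) x4271) x3677) x4001) x2381) x3353) x5783) x6511)
  (sub (add (sub (add (add (add (add (sub (sub (sub (sub C x4325) x4339) x4309) x4273) x3679) x4003) x2383) x3355) x5785) x2139) x6515)
  (add (sub (add (add (add (add (sub (add (add (sub (sub C x4335) x4325) x4295) x4367) x4277) x3683) x4007) x2387) x3359) x5789) x6517)
  (sub (sub (add (add (add (add (sub (add (add (sub (sub C x4331) x4341) x4299) x4371) x4281) x3687) x4011) x2391) x3363) x5793) x2149)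
  (sub (add (sub (add (add (add (add (sub (sub (sub (sub C x4341) x4327) x4357) x4285) x3691) x4015) x2395) x3367) x5797) x2151) x6527)
  (sub (sub (add (add (add (add (sub (sub (sub (sub C x4339) x4335) x4359) x4287) x3693) x4017) x2397) x3369) x5799) x2155)
  (sub (sub (add (add (add (add (add (add (sub (add (add (add (add C x4351) x4355) x4359) x4371) x4311) x4131) x4239) x3699) x4023) x2403) x3375) x5805) x2161)
  (sub (add (sub (add (add (add (add (add (add (sub (sub (add (add C x4347) x4355) x4357) x4315) x4135) x4243) x3703) x4027) x2407) x3379) x5809) x2163) x6539)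
  (add (sub (add (add (add (add (add (add (sub (sub (add (add C x4347) x4351) x4367) x4319) x4139) x4247) x3707) x4031) x2411) x3383) x5813) x6541)
  (sub (add (sub (add (add (add (add (add (add (sub (sub (sub C x4359) x4351) x4339) x4141) x4249) x3709) x4033) x2413) x3385) x5815) x2169) x6545)
  (sub (sub (add (add (add (add (add (add (sub (add (add (sub C x4357) x4347) x4371) x4341) x4143) x4251) x3711) x4035) x2415) x3387) x5817) x2173)
  (add (sub (add (add (add (add (add (add (add (add (sub (sub C x4371) x4355) x4295) x4331) x4151) x4259) x3719) x4043) x2423) x3395) x5825) x6553)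
  (sub (sub (add (add (add (add (add (add (add (add (add (add (sub C x4367) x4347) x4359) x4299) x4335) x4155) x4263) x3723) x4047) x2427) x3399) x5829) x2185)
  (sub (sub (sub (add (add (add (add (add (add (add (add (sub (sub C x4381) x4385) x4415) x4451) x4487) x4595) x4703) x5027) x5351) x6323) x1463) x3) x2191)
  (add (sub (add (add (add (add (add (add (add (add (sub (sub C x4379) x4393) x4417) x4453) x4489) x4597) x4705) x5029) x5353) x6325) x1465) x2195)
  (sub (sub (sub (add (add (add (add (add (add (sub (sub (sub C x4389) x4379) x4403) x4493) x4601) x4709) x5033) x5357) x6329) x1469) x9) x2197)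
  (add (sub (add (add (add (add (add (add (sub (sub (sub C x4385) x4395) x4407) x4497) x4605) x4713) x5037) x5361) x6333) x1473) x17)
  (add (sub (add (add (add (add (add (add (sub (sub (sub C x4395) x4381) x4429) x4501) x4609) x4717) x5041) x5365) x6337) x1477) x2207)
  (add (sub (add (add (add (add (add (add (sub (sub (sub C x4393) x4389) x4431) x4503) x4611) x4719) x5043) x5367) x6339) x1479) x23)
  (sub (sub (sub (add (add (add (add (sub (sub (add (add (sub C x4407) x4415) x4427) x4385) x4457) x4727) x5051) x5375) x6347) x1487) x27) x2215)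
  (add (sub (add (add (add (add (sub (sub (sub (sub C x4403) x4419) x4389) x4461) x4731) x5055) x5379) x6351) x1491) x35)
  (sub (sub (sub (add (add (add (add (sub (add (add (add (add (sub C x4417) x4403) x4427) x4379) x4451) x4469) x4739) x5063) x5387) x6359) x1499) x39) x2227)
  (add (sub (add (add (add (add (sub (add (add (sub (sub C x4415) x4423) x4381) x4453) x4471) x4741) x5065) x5389) x6361) x1501) x2231)
  (add (sub (add (add (add (add (sub (sub (sub (add (add C x4423) x4427) x4407) x4437) x4473) x4743) x5067) x5391) x6363) x1503) x47)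
  (add (sub (add (add (add (add (sub (sub (sub (add (add C x4419) x4427) x4417) x4441) x4477) x4747) x5071) x5395) x6367) x1507) x2237)
  (sub (sub (sub (add (add (add (add (sub (sub (add (add (add (add C x4419) x4423) x4403) x4415) x4445) x4481) x4751) x5075) x5399) x6371) x1511) x51) x2239)
  (add (sub (add (add (add (add (sub (sub (add (add (sub C x4431) x4441) x4453) x4393) x4537) x4753) x5077) x5401) x6373) x1513) x2243)
  (add (sub (add (add (add (add (sub (sub (sub (sub C x4429) x4437) x4395) x4539) x4755) x5079) x5403) x6375) x1515) x59)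
  (add (sub (add (add (add (add (sub (sub (sub (add (add C x4441) x4445) x4431) x4419) x4545) x4761) x5085) x5409) x6381) x1521) x65)
  (add (sub (add (add (add (add (sub (sub (add (add (add (add C x4437) x4445) x4429) x4453) x4423) x4549) x4765) x5089) x5413) x6385) x1525) x2255)
  (sub (sub (sub (add (add (add (add (sub (sub (sub (add (add C x4437) x4441) x4451) x4427) x4553) x4769) x5093) x5417) x6389) x1529) x69) x2257)
  (sub (sub (sub (add (add (add (add (sub (add (add (sub (sub C x4453) x4445) x4379) x4415) x4559) x4775) x5099) x5423) x6395) x1535) x75) x2263)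
  (add (sub (add (add (add (add (sub (add (add (add (add (sub C x4451) x4429) x4441) x4381) x4417) x4561) x4777) x5101) x5425) x6397) x1537) x2267)
  (sub (sub (sub (add (add (sub (sub (add (add (add (add (sub C x4461) x4469) x4481) x4493) x4529) x4403) x4619) x5429) x6401) x1541) x81) x2269)
  (add (sub (add (add (sub (sub (add (add (sub (sub C x4457) x4473) x4497) x4533) x4407) x4623) x5433) x6405) x1545) x89)
  (sub (sub (sub (add (add (sub (sub (sub (add (add (sub C x4471) x4457) x4481) x4487) x4415) x4631) x5441) x6413) x1553) x93) x2281)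
  (add (sub (add (add (sub (sub (sub (sub (sub C x4469) x4477) x4489) x4417) x4633) x5443) x6415) x1555) x2285)
  (add (sub (add (add (sub (sub (sub (sub (add (add C x4477) x4481) x4461) x4509) x4419) x4635) x5445) x6417) x1557) x101)
  (add (sub (add (add (sub (sub (sub (sub (add (add C x4473) x4481) x4471) x4513) x4423) x4639) x5449) x6421) x1561) x2291)
  (sub (sub (sub (add (add (sub (sub (sub (add (add (add (add C x4473) x4477) x4457) x4469) x4517) x4427) x4643) x5453) x6425) x1565) x105) x2293)
  (sub (sub (sub (add (add (sub (add (add (sub (sub (sub C x4489) x4493) x4469) x4379) x4595) x4649) x5459) x6431) x1571) x111) x2299)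
  (add (sub (add (add (sub (add (add (sub (sub (sub C x4487) x4501) x4471) x4381) x4597) x4651) x5461) x6433) x1573) x2303)
  (sub (sub (sub (add (add (sub (add (add (add (add (sub (sub C x4497) x4487) x4457) x4529) x4385) x4601) x4655) x5465) x6437) x1577) x117) x2305)
  (add (sub (add (add (sub (add (add (add (add (sub (sub C x4493) x4503) x4461) x4533) x4389) x4605) x4659) x5469) x6441) x1581) x125)
  (add (sub (add (add (sub (add (add (sub (sub (sub C x4503) x4489) x4519) x4393) x4609) x4663) x5473) x6445) x1585) x2315)
  (add (sub (add (add (sub (add (add (sub (sub (sub C x4501) x4497) x4521) x4395) x4611) x4665) x5475) x6447) x1587) x131)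
  (add (sub (add (add (sub (sub (sub (add (add (add (add C x4513) x4517) x4521) x4533) x4473) x4563) x4671) x5481) x6453) x1593) x137)
  (add (sub (add (add (sub (sub (sub (sub (add (add C x4509) x4517) x4519) x4477) x4567) x4675) x5485) x6457) x1597) x2327)
  (sub (sub (sub (add (add (sub (sub (sub (sub (add (add C x4509) x4513) x4529) x4481) x4571) x4679) x5489) x6461) x1601) x141) x2329)
  (add (sub (add (add (sub (sub (sub (sub (sub C x4521) x4513) x4501) x4573) x4681) x5491) x6463) x1603) x2333)
  (add (sub (add (add (sub (sub (sub (add (add (sub C x4519) x4509) x4533) x4503) x4575) x4683) x5493) x6465) x1605) x149)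
  (sub (sub (sub (add (add (sub (sub (add (add (sub (sub C x4533) x4517) x4457) x4493) x4583) x4691) x5501) x6473) x1613) x153) x2341)
  (add (sub (add (add (sub (sub (add (add (add (add (sub C x4529) x4509) x4521) x4461) x4497) x4587) x4695) x5505) x6477) x1617) x161)
  (add (sub (add (add (sub (sub (add (add (add (add (sub C x4539) x4549) x4561) x4573) x4609) x4429) x4861) x5509) x6481) x1621) x2351)
  (add (sub (add (add (sub (sub (add (add (sub (sub C x4537) x4545) x4575) x4611) x4431) x4863) x5511) x6483) x1623) x167)
  (add (sub (add (add (sub (sub (sub (sub (add (add C x4549) x4553) x4539) x4563) x4437) x4869) x5517) x6489) x1629) x173)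
  (add (sub (add (add (sub (sub (sub (add (add (add (add C x4545) x4553) x4537) x4561) x4567) x4441) x4873) x5521) x6493) x1633) x2363)
  (sub (sub (sub (add (add (sub (sub (sub (sub (add (add C x4545) x4549) x4559) x4571) x4445) x4877) x5525) x6497) x1637) x177) x2365)
  (sub (sub (sub (add (add (sub (sub (sub (sub (sub C x4561) x4553) x4595) x4451) x4883) x5531) x6503) x1643) x183) x2371)
  (add (sub (add (add (sub (sub (sub (add (add (sub C x4559) x4537) x4549) x4597) x4453) x4885) x5533) x6505) x1645) x2375)
  (add (sub (add (add (sub (sub (sub (add (add (add (add C x4567) x4571) x4575) x4587) x4545) x4509) x4887) x5535) x6507) x1647) x191)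
  (add (sub (add (add (sub (sub (sub (sub (add (add C x4563) x4571) x4573) x4549) x4513) x4891) x5539) x6511) x1651) x2381)
  (sub (sub (sub (add (add (sub (sub (sub (sub (add (add C x4563) x4567) x4583) x4553) x4517) x4895) x5543) x6515) x1655) x195) x2383)
  (add (sub (add (add (sub (sub (add (add (sub (sub C x4575) x4567) x4537) x4609) x4519) x4897) x5545) x6517) x1657) x2387)
  (add (sub (add (add (sub (sub (add (add (add (add (sub C x4573) x4563) x4587) x4539) x4611) x4521) x4899) x5547) x6519) x1659) x203)
  (sub (sub (sub (add (add (sub (sub (sub (sub (sub C x4587) x4571) x4601) x4529) x4907) x5555) x6527) x1667) x207) x2395)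
  (add (sub (add (add (sub (sub (sub (add (add (sub C x4583) x4563) x4575) x4605) x4533) x4911) x5559) x6531) x1671) x215)
  (sub (sub (sub (add (add (sub (add (add (sub (sub (sub C x4597) x4601) x4559) x4379) x4487) x4919) x5567) x6539) x1679) x219) x2407)
  (add (sub (add (add (sub (add (add (sub (sub (sub C x4595) x4609) x4561) x4381) x4489) x4921) x5569) x6541) x1681) x2411)
  (sub (sub (sub (add (add (sub (add (add (sub (sub (sub C x4605) x4595) x4583) x4385) x4493) x4925) x5573) x6545) x1685) x225) x2413)
  (add (sub (add (add (sub (add (add (sub (sub (sub C x4601) x4611) x4587) x4389) x4497) x4929) x5577) x6549) x1689) x233)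
  (add (sub (add (add (sub (add (add (add (add (sub (sub C x4611) x4597) x4537) x4573) x4393) x4501) x4933) x5581) x6553) x1693) x2423)
  (add (sub (add (add (sub (add (add (add (add (sub (sub C x4609) x4605) x4539) x4575) x4395) x4503) x4935) x5583) x6555) x1695) x239)
  (sub (sub (sub (sub (sub (add (add (add (add (add (add (sub C x4623) x4631) x4643) x4655) x4691) x4727) x4835) x4457) x5105) x1703) x243) x2431)
  (add (sub (sub (sub (add (add (add (add (sub (sub C x4619) x4635) x4659) x4695) x4731) x4839) x4461) x5109) x1707) x251)
  (sub (sub (sub (sub (sub (add (add (sub (add (add (sub C x4633) x4619) x4643) x4649) x4739) x4847) x4469) x5117) x1715) x255) x2443)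
  (add (sub (sub (sub (add (add (sub (sub (sub C x4631) x4639) x4651) x4741) x4849) x4471) x5119) x1717) x2447)
  (add (sub (sub (sub (add (add (sub (sub (add (add C x4639) x4643) x4623) x4671) x4743) x4851) x4473) x5121) x1719) x263)
  (add (sub (sub (sub (add (add (sub (sub (add (add C x4635) x4643) x4633) x4675) x4747) x4855) x4477) x5125) x1723) x2453)
  (sub (sub (sub (sub (sub (add (add (sub (add (add (add (add C x4635) x4639) x4619) x4631) x4679) x4751) x4859) x4481) x5129) x1727) x267) x2455)
  (sub (sub (sub (sub (sub (sub (sub (sub (sub C x4651) x4655) x4631) x4703) x4487) x5135) x1733) x273) x2461)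
  (add (sub (sub (sub (sub (sub (sub (sub C x4649) x4663) x4633) x4705) x4489) x5137) x1735) x2465)
  (sub (sub (sub (sub (sub (sub (add (add (sub (sub C x4659) x4649) x4619) x4691) x4709) x4493) x5141) x1739) x279) x2467)
  (add (sub (sub (sub (sub (add (add (sub (sub C x4655) x4665) x4623) x4695) x4713) x4497) x5145) x1743) x287)
  (add (sub (sub (sub (sub (sub (sub (sub C x4665) x4651) x4681) x4717) x4501) x5149) x1747) x2477)
  (add (sub (sub (sub (sub (sub (sub (sub C x4663) x4659) x4683) x4719) x4503) x5151) x1749) x293)
  (add (sub (sub (sub (sub (sub (add (add (add (add C x4675) x4679) x4683) x4695) x4635) x4779) x4509) x5157) x1755) x299)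
  (add (sub (sub (sub (sub (sub (sub (add (add C x4671) x4679) x4681) x4639) x4783) x4513) x5161) x1759) x2489)
  (sub (sub (sub (sub (sub (sub (sub (sub (add (add C x4671) x4675) x4691) x4643) x4787) x4517) x5165) x1763) x303) x2491)
  (add (sub (sub (sub (sub (sub (sub (sub C x4683) x4675) x4663) x4789) x4519) x5167) x1765) x2495)
  (add (sub (sub (sub (sub (sub (add (add (sub C x4681) x4671) x4695) x4665) x4791) x4521) x5169) x1767) x311)
  (sub (sub (sub (sub (sub (sub (add (add (sub (sub C x4695) x4679) x4619) x4655) x4799) x4529) x5177) x1775) x315) x2503)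
  (add (sub (sub (sub (sub (add (add (add (add (sub C x4691) x4671) x4683) x4623) x4659) x4803) x4533) x5181) x1779) x323)
  (sub (sub (sub (sub (add (add (sub (add (add (sub (sub C x4705) x4709) x4739) x4775) x4649) x4379) x5027) x5189) x1787) x327) x2515)
  (add (sub (sub (add (add (sub (add (add (sub (sub C x4703) x4717) x4741) x4777) x4651) x4381) x5029) x5191) x1789) x2519)
  (sub (sub (sub (sub (add (add (sub (sub (sub (sub C x4713) x4703) x4727) x4655) x4385) x5033) x5195) x1793) x333) x2521)
  (add (sub (sub (add (add (sub (sub (sub (sub C x4709) x4719) x4731) x4659) x4389) x5037) x5199) x1797) x341)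
  (add (sub (sub (add (add (sub (sub (sub (sub C x4719) x4705) x4753) x4663) x4393) x5041) x5203) x1801) x2531)
  (add (sub (sub (add (add (sub (sub (sub (sub C x4717) x4713) x4755) x4665) x4395) x5043) x5205) x1803) x347)
  (sub (sub (sub (sub (add (add (add (add (sub (add (add (sub C x4731) x4739) x4751) x4709) x4619) x4835) x4403) x5051) x5213) x1811) x351) x2539)
  (add (sub (sub (add (add (add (add (sub (sub (sub C x4727) x4743) x4713) x4623) x4839) x4407) x5055) x5217) x1815) x359)
  (sub (sub (sub (sub (add (add (add (add (add (add (add (add (sub C x4741) x4727) x4751) x4703) x4775) x4631) x4847) x4415) x5063) x5225) x1823) x363) x2551)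
  (add (sub (sub (add (add (add (add (add (add (sub (sub C x4739) x4747) x4705) x4777) x4633) x4849) x4417) x5065) x5227) x1825) x2555)
  (add (sub (sub (add (add (add (add (sub (sub (add (add C x4747) x4751) x4731) x4761) x4635) x4851) x4419) x5067) x5229) x1827) x371)
  (add (sub (sub (add (add (add (add (sub (sub (add (add C x4743) x4751) x4741) x4765) x4639) x4855) x4423) x5071) x5233) x1831) x2561)
  (sub (sub (sub (sub (add (add (add (add (sub (add (add (add (add C x4743) x4747) x4727) x4739) x4769) x4643) x4859) x4427) x5075) x5237) x1835) x375) x2563)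
  (add (sub (sub (add (add (sub (sub (add (add (sub C x4755) x4765) x4777) x4717) x4807) x4429) x5077) x5239) x1837) x2567)
  (add (sub (sub (add (add (sub (sub (sub (sub C x4753) x4761) x4719) x4809) x4431) x5079) x5241) x1839) x383)
  (add (sub (sub (add (add (sub (sub (sub (add (add C x4765) x4769) x4755) x4743) x4815) x4437) x5085) x5247) x1845) x389)
  (add (sub (sub (add (add (sub (sub (add (add (add (add C x4761) x4769) x4753) x4777) x4747) x4819) x4441) x5089) x5251) x1849) x2579)
  (sub (sub (sub (sub (add (add (sub (sub (sub (add (add C x4761) x4765) x4775) x4751) x4823) x4445) x5093) x5255) x1853) x393) x2581)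
  (sub (sub (sub (sub (add (add (sub (add (add (sub (sub C x4777) x4769) x4703) x4739) x4829) x4451) x5099) x5261) x1859) x399) x2587)
  (add (sub (sub (add (add (sub (add (add (add (add (sub C x4775) x4753) x4765) x4705) x4741) x4831) x4453) x5101) x5263) x1861) x2591)
  (add (sub (sub (sub (sub (add (add (add (add (add (add C x4783) x4787) x4791) x4803) x4815) x4851) x4671) x4941) x5265) x1863) x407)
  (add (sub (sub (sub (sub (add (add (sub (add (add C x4779) x4787) x4789) x4819) x4855) x4675) x4945) x5269) x1867) x2597)
  (sub (sub (sub (sub (sub (sub (add (add (sub (add (add C x4779) x4783) x4799) x4823) x4859) x4679) x4949) x5273) x1871) x411) x2599)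
  (add (sub (sub (sub (sub (sub (sub (sub C x4791) x4783) x4807) x4681) x4951) x5275) x1873) x2603)
  (add (sub (sub (sub (sub (sub (add (add (sub C x4789) x4779) x4803) x4809) x4683) x4953) x5277) x1875) x419)
  (sub (sub (sub (sub (sub (sub (sub (sub (sub C x4803) x4787) x4835) x4691) x4961) x5285) x1883) x423) x2611)
  (add (sub (sub (sub (sub (sub (add (add (sub C x4799) x4779) x4791) x4839) x4695) x4965) x5289) x1887) x431)
  (add (sub (sub (sub (sub (sub (add (add (sub C x4809) x4819) x4831) x4789) x4753) x4969) x5293) x1891) x2621)
  (add (sub (sub (sub (sub (sub (sub (sub C x4807) x4815) x4791) x4755) x4971) x5295) x1893) x437)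
  (add (sub (sub (sub (sub (add (add (sub (add (add C x4819) x4823) x4809) x4779) x4851) x4761) x4977) x5301) x1899) x443)
  (add (sub (sub (sub (sub (add (add (add (add (add (add C x4815) x4823) x4807) x4831) x4783) x4855) x4765) x4981) x5305) x1903) x2633)
  (sub (sub (sub (sub (sub (sub (add (add (sub (add (add C x4815) x4819) x4829) x4787) x4859) x4769) x4985) x5309) x1907) x447) x2635)
  (sub (sub (sub (sub (sub (sub (sub (sub (sub C x4831) x4823) x4847) x4775) x4991) x5315) x1913) x453) x2641)
  (add (sub (sub (sub (sub (sub (add (add (sub C x4829) x4807) x4819) x4849) x4777) x4993) x5317) x1915) x2645)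
  (sub (sub (sub (sub (sub (add (add (sub (add (add (sub C x4839) x4847) x4859) x4799) x4619) x4727) x4997) x5321) x1919) x459) x2647)
  (add (sub (sub (sub (add (add (sub (sub (sub C x4835) x4851) x4803) x4623) x4731) x5001) x5325) x1923) x467)
  (sub (sub (sub (sub (sub (add (add (sub (add (add (sub C x4849) x4835) x4859) x4829) x4631) x4739) x5009) x5333) x1931) x471) x2659)
  (add (sub (sub (sub (add (add (sub (sub (sub C x4847) x4855) x4831) x4633) x4741) x5011) x5335) x1933) x2663)
  (add (sub (sub (sub (add (add (add (add (sub (add (add C x4855) x4859) x4839) x4779) x4815) x4635) x4743) x5013) x5337) x1935) x479)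
  (add (sub (sub (sub (add (add (add (add (sub (add (add C x4851) x4859) x4849) x4783) x4819) x4639) x4747) x5017) x5341) x1939) x2669)
  (sub (sub (sub (sub (sub (add (add (add (add (add (add (add (add C x4851) x4855) x4835) x4847) x4787) x4823) x4643) x4751) x5021) x5345) x1943) x483) x2671)
  (add (sub (sub (sub (add (add (add (add (add (add (sub C x4863) x4873) x4885) x4897) x4933) x4969) x5077) x4537) x5833) x1945) x2675)
  (add (sub (sub (sub (add (add (add (add (sub (sub C x4861) x4869) x4899) x4935) x4971) x5079) x4539) x5835) x1947) x491)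
  (add (sub (sub (sub (add (add (sub (sub (add (add C x4873) x4877) x4863) x4887) x4977) x5085) x4545) x5841) x1953) x497)
  (add (sub (sub (sub (add (add (sub (add (add (add (add C x4869) x4877) x4861) x4885) x4891) x4981) x5089) x4549) x5845) x1957) x2687)
  (sub (sub (sub (sub (sub (add (add (sub (sub (add (add C x4869) x4873) x4883) x4895) x4985) x5093) x4553) x5849) x1961) x501) x2689)
  (sub (sub (sub (sub (sub (add (add (sub (sub (sub C x4885) x4877) x4919) x4991) x5099) x4559) x5855) x1967) x507) x2695)
  (add (sub (sub (sub (add (add (sub (add (add (sub C x4883) x4861) x4873) x4921) x4993) x5101) x4561) x5857) x1969) x2699)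
  (add (sub (sub (sub (sub (sub (add (add (add (add C x4891) x4895) x4899) x4911) x4869) x4941) x4563) x5859) x1971) x515)
  (add (sub (sub (sub (sub (sub (sub (add (add C x4887) x4895) x4897) x4873) x4945) x4567) x5863) x1975) x2705)
  (sub (sub (sub (sub (sub (sub (sub (sub (add (add C x4887) x4891) x4907) x4877) x4949) x4571) x5867) x1979) x519) x2707)
  (add (sub (sub (sub (sub (add (add (sub (sub C x4899) x4891) x4861) x4933) x4951) x4573) x5869) x1981) x2711)
  (add (sub (sub (sub (sub (add (add (add (add (sub C x4897) x4887) x4911) x4863) x4935) x4953) x4575) x5871) x1983) x527)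
  (sub (sub (sub (sub (sub (sub (sub (sub (sub C x4911) x4895) x4925) x4961) x4583) x5879) x1991) x531) x2719)
  (add (sub (sub (sub (sub (sub (add (add (sub C x4907) x4887) x4899) x4929) x4965) x4587) x5883) x1995) x539)
  (sub (sub (sub (sub (sub (sub (sub (sub (sub C x4921) x4925) x4883) x5027) x4595) x5891) x2003) x543) x2731)
  (add (sub (sub (sub (sub (sub (sub (sub C x4919) x4933) x4885) x5029) x4597) x5893) x2005) x2735)
  (sub (sub (sub (sub (sub (sub (sub (sub (sub C x4929) x4919) x4907) x5033) x4601) x5897) x2009) x549) x2737)
  (add (sub (sub (sub (sub (sub (sub (sub C x4925) x4935) x4911) x5037) x4605) x5901) x2013) x557)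
  (add (sub (sub (sub (sub (add (add (sub (sub C x4935) x4921) x4861) x4897) x5041) x4609) x5905) x2017) x2747)
  (add (sub (sub (sub (sub (add (add (sub (sub C x4933) x4929) x4863) x4899) x5043) x4611) x5907) x2019) x563)
  (add (sub (sub (sub (sub (add (add (add (add (add (add C x4945) x4949) x4953) x4965) x4977) x5013) x4887) x4779) x5913) x2025) x569)
  (add (sub (sub (sub (sub (add (add (sub (add (add C x4941) x4949) x4951) x4981) x5017) x4891) x4783) x5917) x2029) x2759)
  (sub (sub (sub (sub (sub (sub (add (add (sub (add (add C x4941) x4945) x4961) x4985) x5021) x4895) x4787) x5921) x2033) x573) x2761)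
  (add (sub (sub (sub (sub (sub (sub (sub C x4953) x4945) x4969) x4897) x4789) x5923) x2035) x2765)
  (add (sub (sub (sub (sub (sub (add (add (sub C x4951) x4941) x4965) x4971) x4899) x4791) x5925) x2037) x581)
  (sub (sub (sub (sub (sub (sub (sub (sub (sub C x4965) x4949) x4997) x4907) x4799) x5933) x2045) x585) x2773)
  (add (sub (sub (sub (sub (sub (add (add (sub C x4961) x4941) x4953) x5001) x4911) x4803) x5937) x2049) x593)
  (add (sub (sub (sub (add (add (sub (add (add (sub C x4971) x4981) x4993) x4951) x4861) x5077) x4807) x5941) x2053) x2783)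
  (add (sub (sub (sub (add (add (sub (sub (sub C x4969) x4977) x4953) x4863) x5079) x4809) x5943) x2055) x599)
  (add (sub (sub (sub (add (add (add (add (sub (add (add C x4981) x4985) x4971) x4941) x5013) x4869) x5085) x4815) x5949) x2061) x605)
  (add (sub (sub (sub (add (add (add (add (add (add (add (add C x4977) x4985) x4969) x4993) x4945) x5017) x4873) x5089) x4819) x5953) x2065) x2795)
  (sub (sub (sub (sub (sub (add (add (add (add (sub (add (add C x4977) x4981) x4991) x4949) x5021) x4877) x5093) x4823) x5957) x2069) x609) x2797)
  (sub (sub (sub (sub (sub (add (add (sub (sub (sub C x4993) x4985) x5009) x4883) x5099) x4829) x5963) x2075) x615) x2803)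
  (add (sub (sub (sub (add (add (sub (add (add (sub C x4991) x4969) x4981) x5011) x4885) x5101) x4831) x5965) x2077) x2807)
  (sub (sub (sub (sub (sub (sub (sub (add (add (sub C x5001) x5009) x5021) x4961) x5051) x4835) x5969) x2081) x621) x2809)
  (add (sub (sub (sub (sub (sub (sub (sub C x4997) x5013) x4965) x5055) x4839) x5973) x2085) x629)
  (sub (sub (sub (sub (sub (sub (sub (add (add (sub C x5011) x4997) x5021) x4991) x5063) x4847) x5981) x2093) x633) x2821)
  (add (sub (sub (sub (sub (sub (sub (sub C x5009) x5017) x4993) x5065) x4849) x5983) x2095) x2825)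
  (add (sub (sub (sub (sub (add (add (sub (add (add C x5017) x5021) x5001) x4941) x4977) x5067) x4851) x5985) x2097) x641)
  (add (sub (sub (sub (sub (add (add (sub (add (add C x5013) x5021) x5011) x4945) x4981) x5071) x4855) x5989) x2101) x2831)
  (sub (sub (sub (sub (sub (sub (add (add (add (add (add (add C x5013) x5017) x4997) x5009) x4949) x4985) x5075) x4859) x5993) x2105) x645) x2833)
  (sub (sub (sub (sub (add (add (sub (add (add (sub (sub C x5029) x5033) x5063) x5099) x4919) x4379) x4703) x5999) x2111) x651) x2839)
  (add (sub (sub (add (add (sub (add (add (sub (sub C x5027) x5041) x5065) x5101) x4921) x4381) x4705) x6001) x2113) x2843)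
  (sub (sub (sub (sub (add (add (sub (sub (sub (sub C x5037) x5027) x5051) x4925) x4385) x4709) x6005) x2117) x657) x2845)
  (add (sub (sub (add (add (sub (sub (sub (sub C x5033) x5043) x5055) x4929) x4389) x4713) x6009) x2121) x665)
  (add (sub (sub (add (add (sub (sub (sub (sub C x5043) x5029) x5077) x4933) x4393) x4717) x6013) x2125) x2855)
  (add (sub (sub (add (add (sub (sub (sub (sub C x5041) x5037) x5079) x4935) x4395) x4719) x6015) x2127) x671)
  (sub (sub (sub (sub (add (add (sub (sub (add (add (sub C x5055) x5063) x5075) x5033) x4997) x4403) x4727) x6023) x2135) x675) x2863)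
  (add (sub (sub (add (add (sub (sub (sub (sub C x5051) x5067) x5037) x5001) x4407) x4731) x6027) x2139) x683)
  (sub (sub (sub (sub (add (add (sub (add (add (add (add (sub C x5065) x5051) x5075) x5027) x5099) x5009) x4415) x4739) x6035) x2147) x687) x2875)
  (add (sub (sub (add (add (sub (add (add (sub (sub C x5063) x5071) x5029) x5101) x5011) x4417) x4741) x6037) x2149) x2879)
  (add (sub (sub (add (add (sub (sub (sub (add (add C x5071) x5075) x5055) x5085) x5013) x4419) x4743) x6039) x2151) x695)
  (add (sub (sub (add (add (sub (sub (sub (add (add C x5067) x5075) x5065) x5089) x5017) x4423) x4747) x6043) x2155) x2885)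
  (sub (sub (sub (sub (add (add (sub (sub (add (add (add (add C x5067) x5071) x5051) x5063) x5093) x5021) x4427) x4751) x6047) x2159) x699) x2887)
  (add (sub (sub (add (add (add (add (sub (add (add (sub C x5079) x5089) x5101) x5041) x4861) x4969) x4429) x4753) x6049) x2161) x2891)
  (add (sub (sub (add (add (add (add (sub (sub (sub C x5077) x5085) x5043) x4863) x4971) x4431) x4755) x6051) x2163) x707)
  (add (sub (sub (add (add (add (add (sub (sub (add (add C x5089) x5093) x5079) x5067) x4869) x4977) x4437) x4761) x6057) x2169) x713)
  (add (sub (sub (add (add (add (add (sub (add (add (add (add C x5085) x5093) x5077) x5101) x5071) x4873) x4981) x4441) x4765) x6061) x2173) x2903)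
  (sub (sub (sub (sub (add (add (add (add (sub (sub (add (add C x5085) x5089) x5099) x5075) x4877) x4985) x4445) x4769) x6065) x2177) x717) x2905)
  (sub (sub (sub (sub (add (add (add (add (add (add (sub (sub C x5101) x5093) x5027) x5063) x4883) x4991) x4451) x4775) x6071) x2183) x723) x2911)
  (add (sub (sub (add (add (add (add (add (add (add (add (sub C x5099) x5077) x5089) x5029) x5065) x4885) x4993) x4453) x4777) x6073) x2185) x2915)
  (sub (sub (sub (sub (add (add (add (add (add (add (add (add (sub C x5109) x5117) x5129) x5141) x5177) x5213) x5321) x5429) x5753) x4619) x3647) x729) x2917)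
  (add (sub (sub (add (add (add (add (add (add (sub (sub C x5105) x5121) x5145) x5181) x5217) x5325) x5433) x5757) x4623) x3651) x737)
  (sub (sub (sub (sub (add (add (add (add (sub (add (add (sub C x5119) x5105) x5129) x5135) x5225) x5333) x5441) x5765) x4631) x3659) x741) x2929)
  (add (sub (sub (add (add (add (add (sub (sub (sub C x5117) x5125) x5137) x5227) x5335) x5443) x5767) x4633) x3661) x2933)
  (add (sub (sub (add (add (add (add (sub (sub (add (add C x5125) x5129) x5109) x5157) x5229) x5337) x5445) x5769) x4635) x3663) x749)
  (add (sub (sub (add (add (add (add (sub (sub (add (add C x5121) x5129) x5119) x5161) x5233) x5341) x5449) x5773) x4639) x3667) x2939)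
  (sub (sub (sub (sub (add (add (add (add (sub (add (add (add (add C x5121) x5125) x5105) x5117) x5165) x5237) x5345) x5453) x5777) x4643) x3671) x753) x2941)
  (sub (sub (sub (sub (add (add (sub (sub (sub (sub C x5137) x5141) x5117) x5189) x5459) x5783) x4649) x3677) x759) x2947)
  (add (sub (sub (add (add (sub (sub (sub (sub C x5135) x5149) x5119) x5191) x5461) x5785) x4651) x3679) x2951)
  (sub (sub (sub (sub (add (add (sub (add (add (sub (sub C x5145) x5135) x5105) x5177) x5195) x5465) x5789) x4655) x3683) x765) x2953)
  (add (sub (sub (add (add (sub (add (add (sub (sub C x5141) x5151) x5109) x5181) x5199) x5469) x5793) x4659) x3687) x773)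
  (add (sub (sub (add (add (sub (sub (sub (sub C x5151) x5137) x5167) x5203) x5473) x5797) x4663) x3691) x2963)
  (add (sub (sub (add (add (sub (sub (sub (sub C x5149) x5145) x5169) x5205) x5475) x5799) x4665) x3693) x779)
  (add (sub (sub (add (add (sub (sub (add (add (add (add C x5161) x5165) x5169) x5181) x5121) x5265) x5481) x5805) x4671) x3699) x785)
  (add (sub (sub (add (add (sub (sub (sub (add (add C x5157) x5165) x5167) x5125) x5269) x5485) x5809) x4675) x3703) x2975)
  (sub (sub (sub (sub (add (add (sub (sub (sub (add (add C x5157) x5161) x5177) x5129) x5273) x5489) x5813) x4679) x3707) x789) x2977)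
  (add (sub (sub (add (add (sub (sub (sub (sub C x5169) x5161) x5149) x5275) x5491) x5815) x4681) x3709) x2981)
  (add (sub (sub (add (add (sub (sub (add (add (sub C x5167) x5157) x5181) x5151) x5277) x5493) x5817) x4683) x3711) x797)
  (sub (sub (sub (sub (add (add (sub (add (add (sub (sub C x5181) x5165) x5105) x5141) x5285) x5501) x5825) x4691) x3719) x801) x2989)
  (add (sub (sub (add (add (sub (add (add (add (add (sub C x5177) x5157) x5169) x5109) x5145) x5289) x5505) x5829) x4695) x3723) x809)
  (sub (sub (sub (sub (sub (sub (add (add (sub (sub C x5191) x5195) x5225) x5261) x5135) x5351) x4703) x3731) x813) x3001)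
  (add (sub (sub (sub (sub (add (add (sub (sub C x5189) x5203) x5227) x5263) x5137) x5353) x4705) x3733) x3005)
  (sub (sub (sub (sub (sub (sub (sub (sub (sub C x5199) x5189) x5213) x5141) x5357) x4709) x3737) x819) x3007)
  (add (sub (sub (sub (sub (sub (sub (sub C x5195) x5205) x5217) x5145) x5361) x4713) x3741) x827)
  (add (sub (sub (sub (sub (sub (sub (sub C x5205) x5191) x5239) x5149) x5365) x4717) x3745) x3017)
  (add (sub (sub (sub (sub (sub (sub (sub C x5203) x5199) x5241) x5151) x5367) x4719) x3747) x833)
  (sub (sub (sub (sub (sub (add (add (sub (add (add (sub C x5217) x5225) x5237) x5195) x5105) x5321) x5375) x4727) x3755) x837) x3025)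
  (add (sub (sub (sub (add (add (sub (sub (sub C x5213) x5229) x5199) x5109) x5325) x5379) x4731) x3759) x845)
  (sub (sub (sub (sub (sub (add (add (add (add (add (add (sub C x5227) x5213) x5237) x5189) x5261) x5117) x5333) x5387) x4739) x3767) x849) x3037)
  (add (sub (sub (sub (add (add (add (add (sub (sub C x5225) x5233) x5191) x5263) x5119) x5335) x5389) x4741) x3769) x3041)
  (add (sub (sub (sub (add (add (sub (sub (add (add C x5233) x5237) x5217) x5247) x5121) x5337) x5391) x4743) x3771) x857)
  (add (sub (sub (sub (add (add (sub (sub (add (add C x5229) x5237) x5227) x5251) x5125) x5341) x5395) x4747) x3775) x3047)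
  (sub (sub (sub (sub (sub (add (add (sub (add (add (add (add C x5229) x5233) x5213) x5225) x5255) x5129) x5345) x5399) x4751) x3779) x861) x3049)
  (add (sub (sub (sub (sub (sub (add (add (sub C x5241) x5251) x5263) x5203) x5293) x5401) x4753) x3781) x3053)
  (add (sub (sub (sub (sub (sub (sub (sub C x5239) x5247) x5205) x5295) x5403) x4755) x3783) x869)
  (add (sub (sub (sub (sub (sub (sub (add (add C x5251) x5255) x5241) x5229) x5301) x5409) x4761) x3789) x875)
  (add (sub (sub (sub (sub (sub (add (add (add (add C x5247) x5255) x5239) x5263) x5233) x5305) x5413) x4765) x3793) x3065)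
  (sub (sub (sub (sub (sub (sub (sub (sub (add (add C x5247) x5251) x5261) x5237) x5309) x5417) x4769) x3797) x879) x3067)
  (sub (sub (sub (sub (sub (sub (add (add (sub (sub C x5263) x5255) x5189) x5225) x5315) x5423) x4775) x3803) x885) x3073)
  (add (sub (sub (sub (sub (add (add (add (add (sub C x5261) x5239) x5251) x5191) x5227) x5317) x5425) x4777) x3805) x3077)
  (add (sub (sub (sub (sub (add (add (add (add (add (add C x5269) x5273) x5277) x5289) x5301) x5337) x5157) x5589) x4779) x3807) x893)
  (add (sub (sub (sub (sub (add (add (sub (add (add C x5265) x5273) x5275) x5305) x5341) x5161) x5593) x4783) x3811) x3083)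
  (sub (sub (sub (sub (sub (sub (add (add (sub (add (add C x5265) x5269) x5285) x5309) x5345) x5165) x5597) x4787) x3815) x897) x3085)
  (add (sub (sub (sub (sub (sub (sub (sub C x5277) x5269) x5293) x5167) x5599) x4789) x3817) x3089)
  (add (sub (sub (sub (sub (sub (add (add (sub C x5275) x5265) x5289) x5295) x5169) x5601) x4791) x3819) x905)
  (sub (sub (sub (sub (sub (sub (sub (sub (sub C x5289) x5273) x5321) x5177) x5609) x4799) x3827) x909) x3097)
  (add (sub (sub (sub (sub (sub (add (add (sub C x5285) x5265) x5277) x5325) x5181) x5613) x4803) x3831) x917)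
  (add (sub (sub (sub (sub (sub (add (add (sub C x5295) x5305) x5317) x5275) x5239) x5617) x4807) x3835) x3107)
  (add (sub (sub (sub (sub (sub (sub (sub C x5293) x5301) x5277) x5241) x5619) x4809) x3837) x923)
  (add (sub (sub (sub (sub (add (add (sub (add (add C x5305) x5309) x5295) x5265) x5337) x5247) x5625) x4815) x3843) x929)
  (add (sub (sub (sub (sub (add (add (add (add (add (add C x5301) x5309) x5293) x5317) x5269) x5341) x5251) x5629) x4819) x3847) x3119)
  (sub (sub (sub (sub (sub (sub (add (add (sub (add (add C x5301) x5305) x5315) x5273) x5345) x5255) x5633) x4823) x3851) x933) x3121)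
  (sub (sub (sub (sub (sub (sub (sub (sub (sub C x5317) x5309) x5333) x5261) x5639) x4829) x3857) x939) x3127)
  (add (sub (sub (sub (sub (sub (add (add (sub C x5315) x5293) x5305) x5335) x5263) x5641) x4831) x3859) x3131)
  (sub (sub (sub (sub (sub (add (add (sub (add (add (sub C x5325) x5333) x5345) x5285) x5105) x5213) x5645) x4835) x3863) x945) x3133)
  (add (sub (sub (sub (add (add (sub (sub (sub C x5321) x5337) x5289) x5109) x5217) x5649) x4839) x3867) x953)
  (sub (sub (sub (sub (sub (add (add (sub (add (add (sub C x5335) x5321) x5345) x5315) x5117) x5225) x5657) x4847) x3875) x957) x3145)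
  (add (sub (sub (sub (add (add (sub (sub (sub C x5333) x5341) x5317) x5119) x5227) x5659) x4849) x3877) x3149)
  (add (sub (sub (sub (add (add (add (add (sub (add (add C x5341) x5345) x5325) x5265) x5301) x5121) x5229) x5661) x4851) x3879) x965)
  (add (sub (sub (sub (add (add (add (add (sub (add (add C x5337) x5345) x5335) x5269) x5305) x5125) x5233) x5665) x4855) x3883) x3155)
  (sub (sub (sub (sub (sub (add (add (add (add (add (add (add (add C x5337) x5341) x5321) x5333) x5273) x5309) x5129) x5237) x5669) x4859) x3887) x969) x3157)
  (sub (sub (sub (add (add (sub (add (add (add (add (sub (sub C x5353) x5357) x5387) x5423) x5459) x5567) x5189) x4379) x6323) x3893) x975) x3163)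
  (add (sub (add (add (sub (add (add (add (add (sub (sub C x5351) x5365) x5389) x5425) x5461) x5569) x5191) x4381) x6325) x3895) x3167)
  (sub (sub (sub (add (add (sub (add (add (sub (sub (sub C x5361) x5351) x5375) x5465) x5573) x5195) x4385) x6329) x3899) x981) x3169)
  (add (sub (add (add (sub (add (add (sub (sub (sub C x5357) x5367) x5379) x5469) x5577) x5199) x4389) x6333) x3903) x989)
  (add (sub (add (add (sub (add (add (sub (sub (sub C x5367) x5353) x5401) x5473) x5581) x5203) x4393) x6337) x3907) x3179)
  (add (sub (add (add (sub (add (add (sub (sub (sub C x5365) x5361) x5403) x5475) x5583) x5205) x4395) x6339) x3909) x995)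
  (sub (sub (sub (add (add (sub (sub (sub (add (add (sub C x5379) x5387) x5399) x5357) x5429) x5213) x4403) x6347) x3917) x999) x3187)
  (add (sub (add (add (sub (sub (sub (sub (sub C x5375) x5391) x5361) x5433) x5217) x4407) x6351) x3921) x1007)
  (sub (sub (sub (add (add (sub (sub (add (add (add (add (sub C x5389) x5375) x5399) x5351) x5423) x5441) x5225) x4415) x6359) x3929) x1011) x3199)
  (add (sub (add (add (sub (sub (add (add (sub (sub C x5387) x5395) x5353) x5425) x5443) x5227) x4417) x6361) x3931) x3203)
  (add (sub (add (add (sub (sub (sub (sub (add (add C x5395) x5399) x5379) x5409) x5445) x5229) x4419) x6363) x3933) x1019)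
  (add (sub (add (add (sub (sub (sub (sub (add (add C x5391) x5399) x5389) x5413) x5449) x5233) x4423) x6367) x3937) x3209)
  (sub (sub (sub (add (add (sub (sub (sub (add (add (add (add C x5391) x5395) x5375) x5387) x5417) x5453) x5237) x4427) x6371) x3941) x1023) x3211)
  (add (sub (add (add (sub (sub (sub (add (add (sub C x5403) x5413) x5425) x5365) x5509) x5239) x4429) x6373) x3943) x3215)
  (add (sub (add (add (sub (sub (sub (sub (sub C x5401) x5409) x5367) x5511) x5241) x4431) x6375) x3945) x1031)
  (add (sub (add (add (sub (sub (sub (sub (add (add C x5413) x5417) x5403) x5391) x5517) x5247) x4437) x6381) x3951) x1037)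
  (add (sub (add (add (sub (sub (sub (add (add (add (add C x5409) x5417) x5401) x5425) x5395) x5521) x5251) x4441) x6385) x3955) x3227)
  (sub (sub (sub (add (add (sub (sub (sub (sub (add (add C x5409) x5413) x5423) x5399) x5525) x5255) x4445) x6389) x3959) x1041) x3229)
  (sub (sub (sub (add (add (sub (sub (add (add (sub (sub C x5425) x5417) x5351) x5387) x5531) x5261) x4451) x6395) x3965) x1047) x3235)
  (add (sub (add (add (sub (sub (add (add (add (add (sub C x5423) x5401) x5413) x5353) x5389) x5533) x5263) x4453) x6397) x3967) x3239)
  (sub (sub (sub (add (add (add (add (sub (add (add (add (add (sub C x5433) x5441) x5453) x5465) x5501) x5375) x5105) x5753) x4457) x6401) x3971) x1053) x3241)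
  (add (sub (add (add (add (add (sub (add (add (sub (sub C x5429) x5445) x5469) x5505) x5379) x5109) x5757) x4461) x6405) x3975) x1061)
  (sub (sub (sub (add (add (add (add (sub (sub (add (add (sub C x5443) x5429) x5453) x5459) x5387) x5117) x5765) x4469) x6413) x3983) x1065) x3253)
  (add (sub (add (add (add (add (sub (sub (sub (sub C x5441) x5449) x5461) x5389) x5119) x5767) x4471) x6415) x3985) x3257)
  (add (sub (add (add (add (add (sub (sub (sub (add (add C x5449) x5453) x5433) x5481) x5391) x5121) x5769) x4473) x6417) x3987) x1073)
  (add (sub (add (add (add (add (sub (sub (sub (add (add C x5445) x5453) x5443) x5485) x5395) x5125) x5773) x4477) x6421) x3991) x3263)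
  (sub (sub (sub (add (add (add (add (sub (sub (add (add (add (add C x5445) x5449) x5429) x5441) x5489) x5399) x5129) x5777) x4481) x6425) x3995) x1077) x3265)
  (sub (sub (sub (add (add (add (add (add (add (sub (sub (sub C x5461) x5465) x5441) x5351) x5567) x5135) x5783) x4487) x6431) x4001) x1083) x3271)
  (add (sub (add (add (add (add (add (add (sub (sub (sub C x5459) x5473) x5443) x5353) x5569) x5137) x5785) x4489) x6433) x4003) x3275)
  (sub (sub (sub (add (add (add (add (add (add (add (add (sub (sub C x5469) x5459) x5429) x5501) x5357) x5573) x5141) x5789) x4493) x6437) x4007) x1089) x3277)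
  (add (sub (add (add (add (add (add (add (add (add (sub (sub C x5465) x5475) x5433) x5505) x5361) x5577) x5145) x5793) x4497) x6441) x4011) x1097)
  (add (sub (add (add (add (add (add (add (sub (sub (sub C x5475) x5461) x5491) x5365) x5581) x5149) x5797) x4501) x6445) x4015) x3287)
  (add (sub (add (add (add (add (add (add (sub (sub (sub C x5473) x5469) x5493) x5367) x5583) x5151) x5799) x4503) x6447) x4017) x1103)
  (add (sub (add (add (add (add (sub (sub (add (add (add (add C x5485) x5489) x5493) x5505) x5445) x5535) x5157) x5805) x4509) x6453) x4023) x1109)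
  (add (sub (add (add (add (add (sub (sub (sub (add (add C x5481) x5489) x5491) x5449) x5539) x5161) x5809) x4513) x6457) x4027) x3299)
  (sub (sub (sub (add (add (add (add (sub (sub (sub (add (add C x5481) x5485) x5501) x5453) x5543) x5165) x5813) x4517) x6461) x4031) x1113) x3301)
  (add (sub (add (add (add (add (sub (sub (sub (sub C x5493) x5485) x5473) x5545) x5167) x5815) x4519) x6463) x4033) x3305)
  (add (sub (add (add (add (add (sub (sub (add (add (sub C x5491) x5481) x5505) x5475) x5547) x5169) x5817) x4521) x6465) x4035) x1121)
  (sub (sub (sub (add (add (add (add (sub (add (add (sub (sub C x5505) x5489) x5429) x5465) x5555) x5177) x5825) x4529) x6473) x4043) x1125) x3313)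
  (add (sub (add (add (add (add (sub (add (add (add (add (sub C x5501) x5481) x5493) x5433) x5469) x5559) x5181) x5829) x4533) x6477) x4047) x1133)
  (add (sub (add (add (sub (sub (add (add (add (add (sub C x5511) x5521) x5533) x5545) x5581) x5401) x5671) x4537) x6481) x4051) x3323)
  (add (sub (add (add (sub (sub (add (add (sub (sub C x5509) x5517) x5547) x5583) x5403) x5673) x4539) x6483) x4053) x1139)
  (add (sub (add (add (sub (sub (sub (sub (add (add C x5521) x5525) x5511) x5535) x5409) x5679) x4545) x6489) x4059) x1145)
  (add (sub (add (add (sub (sub (sub (add (add (add (add C x5517) x5525) x5509) x5533) x5539) x5413) x5683) x4549) x6493) x4063) x3335)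
  (sub (sub (sub (add (add (sub (sub (sub (sub (add (add C x5517) x5521) x5531) x5543) x5417) x5687) x4553) x6497) x4067) x1149) x3337)
  (sub (sub (sub (add (add (sub (sub (sub (sub (sub C x5533) x5525) x5567) x5423) x5693) x4559) x6503) x4073) x1155) x3343)
  (add (sub (add (add (sub (sub (sub (add (add (sub C x5531) x5509) x5521) x5569) x5425) x5695) x4561) x6505) x4075) x3347)
  (add (sub (add (add (sub (sub (sub (add (add (add (add C x5539) x5543) x5547) x5559) x5517) x5481) x5697) x4563) x6507) x4077) x1163)
  (add (sub (add (add (sub (sub (sub (sub (add (add C x5535) x5543) x5545) x5521) x5485) x5701) x4567) x6511) x4081) x3353)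
  (sub (sub (sub (add (add (sub (sub (sub (sub (add (add C x5535) x5539) x5555) x5525) x5489) x5705) x4571) x6515) x4085) x1167) x3355)
  (add (sub (add (add (sub (sub (add (add (sub (sub C x5547) x5539) x5509) x5581) x5491) x5707) x4573) x6517) x4087) x3359)
  (add (sub (add (add (sub (sub (add (add (add (add (sub C x5545) x5535) x5559) x5511) x5583) x5493) x5709) x4575) x6519) x4089) x1175)
  (sub (sub (sub (add (add (sub (sub (sub (sub (sub C x5559) x5543) x5573) x5501) x5717) x4583) x6527) x4097) x1179) x3367)
  (add (sub (add (add (sub (sub (sub (add (add (sub C x5555) x5535) x5547) x5577) x5505) x5721) x4587) x6531) x4101) x1187)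
  (sub (sub (sub (add (add (sub (add (add (sub (sub (sub C x5569) x5573) x5531) x5351) x5459) x5729) x4595) x6539) x4109) x1191) x3379)
  (add (sub (add (add (sub (add (add (sub (sub (sub C x5567) x5581) x5533) x5353) x5461) x5731) x4597) x6541) x4111) x3383)
  (sub (sub (sub (add (add (sub (add (add (sub (sub (sub C x5577) x5567) x5555) x5357) x5465) x5735) x4601) x6545) x4115) x1197) x3385)
  (add (sub (add (add (sub (add (add (sub (sub (sub C x5573) x5583) x5559) x5361) x5469) x5739) x4605) x6549) x4119) x1205)
  (add (sub (add (add (sub (add (add (add (add (sub (sub C x5583) x5569) x5509) x5545) x5365) x5473) x5743) x4609) x6553) x4123) x3395)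
  (add (sub (add (add (sub (add (add (add (add (sub (sub C x5581) x5577) x5511) x5547) x5367) x5475) x5745) x4611) x6555) x4125) x1211)
  (add (sub (sub (sub (add (add (add (add (add (add (add (add C x5593) x5597) x5601) x5613) x5625) x5661) x5697) x5805) x5265) x6075) x4131) x1217)
  (add (sub (sub (sub (add (add (add (add (sub (add (add C x5589) x5597) x5599) x5629) x5665) x5701) x5809) x5269) x6079) x4135) x3407)
  (sub (sub (sub (sub (sub (add (add (add (add (sub (add (add C x5589) x5593) x5609) x5633) x5669) x5705) x5813) x5273) x6083) x4139) x1221) x3409)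
  (add (sub (sub (sub (add (add (sub (sub (sub C x5601) x5593) x5617) x5707) x5815) x5275) x6085) x4141) x3413)
  (add (sub (sub (sub (add (add (sub (add (add (sub C x5599) x5589) x5613) x5619) x5709) x5817) x5277) x6087) x4143) x1229)
  (sub (sub (sub (sub (sub (add (add (sub (sub (sub C x5613) x5597) x5645) x5717) x5825) x5285) x6095) x4151) x1233) x3421)
  (add (sub (sub (sub (add (add (sub (add (add (sub C x5609) x5589) x5601) x5649) x5721) x5829) x5289) x6099) x4155) x1241)
  (add (sub (sub (sub (sub (sub (add (add (sub C x5619) x5629) x5641) x5599) x5671) x5293) x6103) x4159) x3431)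
  (add (sub (sub (sub (sub (sub (sub (sub C x5617) x5625) x5601) x5673) x5295) x6105) x4161) x1247)
  (add (sub (sub (sub (sub (add (add (sub (add (add C x5629) x5633) x5619) x5589) x5661) x5679) x5301) x6111) x4167) x1253)
  (add (sub (sub (sub (sub (add (add (add (add (add (add C x5625) x5633) x5617) x5641) x5593) x5665) x5683) x5305) x6115) x4171) x3443)
  (sub (sub (sub (sub (sub (sub (add (add (sub (add (add C x5625) x5629) x5639) x5597) x5669) x5687) x5309) x6119) x4175) x1257) x3445)
  (sub (sub (sub (sub (sub (sub (sub (sub (sub C x5641) x5633) x5657) x5693) x5315) x6125) x4181) x1263) x3451)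
  (add (sub (sub (sub (sub (sub (add (add (sub C x5639) x5617) x5629) x5659) x5695) x5317) x6127) x4183) x3455)
  (sub (sub (sub (sub (sub (sub (sub (add (add (sub C x5649) x5657) x5669) x5609) x5753) x5321) x6131) x4187) x1269) x3457)
  (add (sub (sub (sub (sub (sub (sub (sub C x5645) x5661) x5613) x5757) x5325) x6135) x4191) x1277)
  (sub (sub (sub (sub (sub (sub (sub (add (add (sub C x5659) x5645) x5669) x5639) x5765) x5333) x6143) x4199) x1281) x3469)
  (add (sub (sub (sub (sub (sub (sub (sub C x5657) x5665) x5641) x5767) x5335) x6145) x4201) x3473)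
  (add (sub (sub (sub (sub (add (add (sub (add (add C x5665) x5669) x5649) x5589) x5625) x5769) x5337) x6147) x4203) x1289)
  (add (sub (sub (sub (sub (add (add (sub (add (add C x5661) x5669) x5659) x5593) x5629) x5773) x5341) x6151) x4207) x3479)
  (sub (sub (sub (sub (sub (sub (add (add (add (add (add (add C x5661) x5665) x5645) x5657) x5597) x5633) x5777) x5345) x6155) x4211) x1293) x3481)
  (add (sub (sub (sub (sub (add (add (add (add (sub C x5673) x5683) x5695) x5707) x5743) x5617) x5509) x6157) x4213) x3485)
  (add (sub (sub (sub (sub (add (add (sub (sub C x5671) x5679) x5709) x5745) x5619) x5511) x6159) x4215) x1301)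
  (add (sub (sub (sub (sub (sub (sub (add (add C x5683) x5687) x5673) x5697) x5625) x5517) x6165) x4221) x1307)
  (add (sub (sub (sub (sub (sub (add (add (add (add C x5679) x5687) x5671) x5695) x5701) x5629) x5521) x6169) x4225) x3497)
  (sub (sub (sub (sub (sub (sub (sub (sub (add (add C x5679) x5683) x5693) x5705) x5633) x5525) x6173) x4229) x1311) x3499)
  (sub (sub (sub (sub (sub (sub (sub (sub (sub C x5695) x5687) x5729) x5639) x5531) x6179) x4235) x1317) x3505)
  (add (sub (sub (sub (sub (sub (add (add (sub C x5693) x5671) x5683) x5731) x5641) x5533) x6181) x4237) x3509)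
  (add (sub (sub (sub (add (add (sub (add (add (add (add C x5701) x5705) x5709) x5721) x5679) x5589) x5805) x5535) x6183) x4239) x1325)
  (add (sub (sub (sub (add (add (sub (sub (add (add C x5697) x5705) x5707) x5683) x5593) x5809) x5539) x6187) x4243) x3515)
  (sub (sub (sub (sub (sub (add (add (sub (sub (add (add C x5697) x5701) x5717) x5687) x5597) x5813) x5543) x6191) x4247) x1329) x3517)
  (add (sub (sub (sub (add (add (add (add (sub (sub C x5709) x5701) x5671) x5743) x5599) x5815) x5545) x6193) x4249) x3521)
  (add (sub (sub (sub (add (add (add (add (add (add (sub C x5707) x5697) x5721) x5673) x5745) x5601) x5817) x5547) x6195) x4251) x1337)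
  (sub (sub (sub (sub (sub (add (add (sub (sub (sub C x5721) x5705) x5735) x5609) x5825) x5555) x6203) x4259) x1341) x3529)
  (add (sub (sub (sub (add (add (sub (add (add (sub C x5717) x5697) x5709) x5739) x5613) x5829) x5559) x6207) x4263) x1349)
  (sub (sub (sub (sub (sub (sub (sub (sub (sub C x5731) x5735) x5693) x5783) x5567) x6215) x4271) x1353) x3541)
  (add (sub (sub (sub (sub (sub (sub (sub C x5729) x5743) x5695) x5785) x5569) x6217) x4273) x3545)
  (sub (sub (sub (sub (sub (sub (sub (sub (sub C x5739) x5729) x5717) x5789) x5573) x6221) x4277) x1359) x3547)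
  (add (sub (sub (sub (sub (sub (sub (sub C x5735) x5745) x5721) x5793) x5577) x6225) x4281) x1367)
  (add (sub (sub (sub (sub (add (add (sub (sub C x5745) x5731) x5671) x5707) x5797) x5581) x6229) x4285) x3557)
  (add (sub (sub (sub (sub (add (add (sub (sub C x5743) x5739) x5673) x5709) x5799) x5583) x6231) x4287) x1373)
  (sub (sub (sub (sub (add (add (sub (add (add (add (add (sub C x5757) x5765) x5777) x5789) x5825) x5645) x5105) x5429) x6239) x4295) x1377) x3565)
  (add (sub (sub (add (add (sub (add (add (sub (sub C x5753) x5769) x5793) x5829) x5649) x5109) x5433) x6243) x4299) x1385)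
  (sub (sub (sub (sub (add (add (sub (sub (add (add (sub C x5767) x5753) x5777) x5783) x5657) x5117) x5441) x6251) x4307) x1389) x3577)
  (add (sub (sub (add (add (sub (sub (sub (sub C x5765) x5773) x5785) x5659) x5119) x5443) x6253) x4309) x3581)
  (add (sub (sub (add (add (sub (sub (sub (add (add C x5773) x5777) x5757) x5805) x5661) x5121) x5445) x6255) x4311) x1397)
  (add (sub (sub (add (add (sub (sub (sub (add (add C x5769) x5777) x5767) x5809) x5665) x5125) x5449) x6259) x4315) x3587)
  (sub (sub (sub (sub (add (add (sub (sub (add (add (add (add C x5769) x5773) x5753) x5765) x5813) x5669) x5129) x5453) x6263) x4319) x1401) x3589)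
  (sub (sub (sub (sub (add (add (sub (sub (sub (sub C x5785) x5789) x5765) x5729) x5135) x5459) x6269) x4325) x1407) x3595)
  (add (sub (sub (add (add (sub (sub (sub (sub C x5783) x5797) x5767) x5731) x5137) x5461) x6271) x4327) x3599)
  (sub (sub (sub (sub (add (add (sub (add (add (sub (sub C x5793) x5783) x5753) x5825) x5735) x5141) x5465) x6275) x4331) x1413) x3601)
  (add (sub (sub (add (add (sub (add (add (sub (sub C x5789) x5799) x5757) x5829) x5739) x5145) x5469) x6279) x4335) x1421)
  (add (sub (sub (add (add (sub (sub (sub (sub C x5799) x5785) x5815) x5743) x5149) x5473) x6283) x4339) x3611)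
  (add (sub (sub (add (add (sub (sub (sub (sub C x5797) x5793) x5817) x5745) x5151) x5475) x6285) x4341) x1427)
  (add (sub (sub (add (add (add (add (sub (add (add (add (add C x5809) x5813) x5817) x5829) x5769) x5589) x5697) x5157) x5481) x6291) x4347) x1433)
  (add (sub (sub (add (add (add (add (sub (sub (add (add C x5805) x5813) x5815) x5773) x5593) x5701) x5161) x5485) x6295) x4351) x3623)
  (sub (sub (sub (sub (add (add (add (add (sub (sub (add (add C x5805) x5809) x5825) x5777) x5597) x5705) x5165) x5489) x6299) x4355) x1437) x3625)
  (add (sub (sub (add (add (add (add (sub (sub (sub C x5817) x5809) x5797) x5599) x5707) x5167) x5491) x6301) x4357) x3629)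
  (add (sub (sub (add (add (add (add (sub (add (add (sub C x5815) x5805) x5829) x5799) x5601) x5709) x5169) x5493) x6303) x4359) x1445)
  (sub (sub (sub (sub (add (add (add (add (add (add (sub (sub C x5829) x5813) x5753) x5789) x5609) x5717) x5177) x5501) x6311) x4367) x1449) x3637)
  (add (sub (sub (add (add (add (add (add (add (add (add (sub C x5825) x5805) x5817) x5757) x5793) x5613) x5721) x5181) x5505) x6315) x4371) x1457)
  (add (add (add (sub (add (add (add (add (add (add (add (add (sub C x5835) x5845) x5857) x5869) x5905) x5941) x6049) x6157) x6481) x4861) x1) x2917) x3647)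
  (add (add (add (sub (add (add (add (add (add (add (sub (sub C x5833) x5841) x5871) x5907) x5943) x6051) x6159) x6483) x4863) x3) x2919) x1463)
  (add (add (add (sub (add (add (add (add (sub (sub (add (add C x5845) x5849) x5835) x5859) x5949) x6057) x6165) x6489) x4869) x9) x2925) x1469)
  (add (add (add (sub (add (add (add (add (sub (add (add (add (add C x5841) x5849) x5833) x5857) x5863) x5953) x6061) x6169) x6493) x4873) x13) x2929) x3659)
  (sub (sub (add (add (sub (add (add (add (add (sub (sub (add (add C x5841) x5845) x5855) x5867) x5957) x6065) x6173) x6497) x4877) x17) x2933) x1473) x3661)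
  (sub (sub (add (add (sub (add (add (add (add (sub (sub (sub C x5857) x5849) x5891) x5963) x6071) x6179) x6503) x4883) x23) x2939) x1479) x3667)
  (add (add (add (sub (add (add (add (add (sub (add (add (sub C x5855) x5833) x5845) x5893) x5965) x6073) x6181) x6505) x4885) x25) x2941) x3671)
  (add (add (add (sub (add (add (sub (sub (add (add (add (add C x5863) x5867) x5871) x5883) x5841) x5913) x6183) x6507) x4887) x27) x2943) x1487)
  (add (add (add (sub (add (add (sub (sub (sub (add (add C x5859) x5867) x5869) x5845) x5917) x6187) x6511) x4891) x31) x2947) x3677)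
  (sub (sub (add (add (sub (add (add (sub (sub (sub (add (add C x5859) x5863) x5879) x5849) x5921) x6191) x6515) x4895) x35) x2951) x1491) x3679)
  (add (add (add (sub (add (add (sub (add (add (sub (sub C x5871) x5863) x5833) x5905) x5923) x6193) x6517) x4897) x37) x2953) x3683)
  (add (add (add (sub (add (add (sub (add (add (add (add (sub C x5869) x5859) x5883) x5835) x5907) x5925) x6195) x6519) x4899) x39) x2955) x1499)
  (sub (sub (add (add (sub (add (add (sub (sub (sub (sub C x5883) x5867) x5897) x5933) x6203) x6527) x4907) x47) x2963) x1503) x3691)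
  (add (add (add (sub (add (add (sub (sub (add (add (sub C x5879) x5859) x5871) x5901) x5937) x6207) x6531) x4911) x51) x2967) x1511)
  (sub (sub (add (add (sub (add (add (sub (sub (sub (sub C x5893) x5897) x5855) x5999) x6215) x6539) x4919) x59) x2975) x1515) x3703)
  (add (add (add (sub (add (add (sub (sub (sub (sub C x5891) x5905) x5857) x6001) x6217) x6541) x4921) x61) x2977) x3707)
  (sub (sub (add (add (sub (add (add (sub (sub (sub (sub C x5901) x5891) x5879) x6005) x6221) x6545) x4925) x65) x2981) x1521) x3709)
  (add (add (add (sub (add (add (sub (sub (sub (sub C x5897) x5907) x5883) x6009) x6225) x6549) x4929) x69) x2985) x1529)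
  (add (add (add (sub (add (add (sub (add (add (sub (sub C x5907) x5893) x5833) x5869) x6013) x6229) x6553) x4933) x73) x2989) x3719)
  (add (add (add (sub (add (add (sub (add (add (sub (sub C x5905) x5901) x5835) x5871) x6015) x6231) x6555) x4935) x75) x2991) x1535)
  (add (add (add (sub (sub (sub (add (add (add (add (add (add C x5917) x5921) x5925) x5937) x5949) x5985) x5859) x6075) x4941) x81) x2997) x1541)
  (add (add (add (sub (sub (sub (add (add (sub (add (add C x5913) x5921) x5923) x5953) x5989) x5863) x6079) x4945) x85) x3001) x3731)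
  (sub (sub (add (add (sub (sub (sub (add (add (sub (add (add C x5913) x5917) x5933) x5957) x5993) x5867) x6083) x4949) x89) x3005) x1545) x3733)
  (add (add (add (sub (sub (sub (sub (sub (sub C x5925) x5917) x5941) x5869) x6085) x4951) x91) x3007) x3737)
  (add (add (add (sub (sub (sub (sub (add (add (sub C x5923) x5913) x5937) x5943) x5871) x6087) x4953) x93) x3009) x1553)
  (sub (sub (add (add (sub (sub (sub (sub (sub (sub C x5937) x5921) x5969) x5879) x6095) x4961) x101) x3017) x1557) x3745)
  (add (add (add (sub (sub (sub (sub (add (add (sub C x5933) x5913) x5925) x5973) x5883) x6099) x4965) x105) x3021) x1565)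
  (add (add (add (sub (sub (add (add (sub (add (add (sub C x5943) x5953) x5965) x5923) x5833) x6049) x6103) x4969) x109) x3025) x3755)
  (add (add (add (sub (sub (add (add (sub (sub (sub C x5941) x5949) x5925) x5835) x6051) x6105) x4971) x111) x3027) x1571)
  (add (add (add (sub (sub (add (add (add (add (sub (add (add C x5953) x5957) x5943) x5913) x5985) x5841) x6057) x6111) x4977) x117) x3033) x1577)
  (add (add (add (sub (sub (add (add (add (add (add (add (add (add C x5949) x5957) x5941) x5965) x5917) x5989) x5845) x6061) x6115) x4981) x121) x3037) x3767)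
  (sub (sub (add (add (sub (sub (add (add (add (add (sub (add (add C x5949) x5953) x5963) x5921) x5993) x5849) x6065) x6119) x4985) x125) x3041) x1581) x3769)
  (sub (sub (add (add (sub (sub (add (add (sub (sub (sub C x5965) x5957) x5981) x5855) x6071) x6125) x4991) x131) x3047) x1587) x3775)
  (add (add (add (sub (sub (add (add (sub (add (add (sub C x5963) x5941) x5953) x5983) x5857) x6073) x6127) x4993) x133) x3049) x3779)
  (sub (sub (add (add (sub (sub (sub (sub (add (add (sub C x5973) x5981) x5993) x5933) x6023) x6131) x4997) x137) x3053) x1593) x3781)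
  (add (add (add (sub (sub (sub (sub (sub (sub C x5969) x5985) x5937) x6027) x6135) x5001) x141) x3057) x1601)
  (sub (sub (add (add (sub (sub (sub (sub (add (add (sub C x5983) x5969) x5993) x5963) x6035) x6143) x5009) x149) x3065) x1605) x3793)
  (add (add (add (sub (sub (sub (sub (sub (sub C x5981) x5989) x5965) x6037) x6145) x5011) x151) x3067) x3797)
  (add (add (add (sub (sub (sub (add (add (sub (add (add C x5989) x5993) x5973) x5913) x5949) x6039) x6147) x5013) x153) x3069) x1613)
  (add (add (add (sub (sub (sub (add (add (sub (add (add C x5985) x5993) x5983) x5917) x5953) x6043) x6151) x5017) x157) x3073) x3803)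
  (sub (sub (add (add (sub (sub (sub (add (add (add (add (add (add C x5985) x5989) x5969) x5981) x5921) x5957) x6047) x6155) x5021) x161) x3077) x1617) x3805)
  (sub (sub (add (add (sub (sub (sub (add (add (sub (sub C x6001) x6005) x6035) x6071) x5891) x6323) x5027) x167) x3083) x1623) x3811)
  (add (add (add (sub (sub (sub (add (add (sub (sub C x5999) x6013) x6037) x6073) x5893) x6325) x5029) x169) x3085) x3815)
  (sub (sub (add (add (sub (sub (sub (sub (sub (sub C x6009) x5999) x6023) x5897) x6329) x5033) x173) x3089) x1629) x3817)
  (add (add (add (sub (sub (sub (sub (sub (sub C x6005) x6015) x6027) x5901) x6333) x5037) x177) x3093) x1637)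
  (add (add (add (sub (sub (sub (sub (sub (sub C x6015) x6001) x6049) x5905) x6337) x5041) x181) x3097) x3827)
  (add (add (add (sub (sub (sub (sub (sub (sub C x6013) x6009) x6051) x5907) x6339) x5043) x183) x3099) x1643)
  (sub (sub (add (add (sub (sub (sub (sub (add (add (sub C x6027) x6035) x6047) x6005) x5969) x6347) x5051) x191) x3107) x1647) x3835)
  (add (add (add (sub (sub (sub (sub (sub (sub C x6023) x6039) x6009) x5973) x6351) x5055) x195) x3111) x1655)
  (sub (sub (add (add (sub (sub (sub (add (add (add (add (sub C x6037) x6023) x6047) x5999) x6071) x5981) x6359) x5063) x203) x3119) x1659) x3847)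
  (add (add (add (sub (sub (sub (add (add (sub (sub C x6035) x6043) x6001) x6073) x5983) x6361) x5065) x205) x3121) x3851)
  (add (add (add (sub (sub (sub (sub (sub (add (add C x6043) x6047) x6027) x6057) x5985) x6363) x5067) x207) x3123) x1667)
  (add (add (add (sub (sub (sub (sub (sub (add (add C x6039) x6047) x6037) x6061) x5989) x6367) x5071) x211) x3127) x3857)
  (sub (sub (add (add (sub (sub (sub (sub (add (add (add (add C x6039) x6043) x6023) x6035) x6065) x5993) x6371) x5075) x215) x3131) x1671) x3859)
  (add (add (add (sub (sub (add (add (sub (add (add (sub C x6051) x6061) x6073) x6013) x5833) x5941) x6373) x5077) x217) x3133) x3863)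
  (add (add (add (sub (sub (add (add (sub (sub (sub C x6049) x6057) x6015) x5835) x5943) x6375) x5079) x219) x3135) x1679)
  (add (add (add (sub (sub (add (add (sub (sub (add (add C x6061) x6065) x6051) x6039) x5841) x5949) x6381) x5085) x225) x3141) x1685)
  (add (add (add (sub (sub (add (add (sub (add (add (add (add C x6057) x6065) x6049) x6073) x6043) x5845) x5953) x6385) x5089) x229) x3145) x3875)
  (sub (sub (add (add (sub (sub (add (add (sub (sub (add (add C x6057) x6061) x6071) x6047) x5849) x5957) x6389) x5093) x233) x3149) x1689) x3877)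
  (sub (sub (add (add (sub (sub (add (add (add (add (sub (sub C x6073) x6065) x5999) x6035) x5855) x5963) x6395) x5099) x239) x3155) x1695) x3883)
  (add (add (add (sub (sub (add (add (add (add (add (add (sub C x6071) x6049) x6061) x6001) x6037) x5857) x5965) x6397) x5101) x241) x3157) x3887)
  (add (add (add (sub (sub (add (add (add (add (add (add (add (add C x6079) x6083) x6087) x6099) x6111) x6147) x6183) x6291) x5913) x5589) x243) x3159) x1703)
  (add (add (add (sub (sub (add (add (add (add (sub (add (add C x6075) x6083) x6085) x6115) x6151) x6187) x6295) x5917) x5593) x247) x3163) x3893)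
  (sub (sub (add (add (sub (sub (add (add (add (add (sub (add (add C x6075) x6079) x6095) x6119) x6155) x6191) x6299) x5921) x5597) x251) x3167) x1707) x3895)
  (add (add (add (sub (sub (add (add (sub (sub (sub C x6087) x6079) x6103) x6193) x6301) x5923) x5599) x253) x3169) x3899)
  (add (add (add (sub (sub (add (add (sub (add (add (sub C x6085) x6075) x6099) x6105) x6195) x6303) x5925) x5601) x255) x3171) x1715)
  (sub (sub (add (add (sub (sub (add (add (sub (sub (sub C x6099) x6083) x6131) x6203) x6311) x5933) x5609) x263) x3179) x1719) x3907)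
  (add (add (add (sub (sub (add (add (sub (add (add (sub C x6095) x6075) x6087) x6135) x6207) x6315) x5937) x5613) x267) x3183) x1727)
  (add (add (add (sub (sub (sub (sub (add (add (sub C x6105) x6115) x6127) x6085) x6157) x5941) x5617) x271) x3187) x3917)
  (add (add (add (sub (sub (sub (sub (sub (sub C x6103) x6111) x6087) x6159) x5943) x5619) x273) x3189) x1733)
  (add (add (add (sub (sub (sub (add (add (sub (add (add C x6115) x6119) x6105) x6075) x6147) x6165) x5949) x5625) x279) x3195) x1739)
  (add (add (add (sub (sub (sub (add (add (add (add (add (add C x6111) x6119) x6103) x6127) x6079) x6151) x6169) x5953) x5629) x283) x3199) x3929)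
  (sub (sub (add (add (sub (sub (sub (add (add (sub (add (add C x6111) x6115) x6125) x6083) x6155) x6173) x5957) x5633) x287) x3203) x1743) x3931)
  (sub (sub (add (add (sub (sub (sub (sub (sub (sub C x6127) x6119) x6143) x6179) x5963) x5639) x293) x3209) x1749) x3937)
  (add (add (add (sub (sub (sub (sub (add (add (sub C x6125) x6103) x6115) x6145) x6181) x5965) x5641) x295) x3211) x3941)
  (sub (sub (add (add (sub (sub (sub (sub (add (add (sub C x6135) x6143) x6155) x6095) x6239) x5969) x5645) x299) x3215) x1755) x3943)
  (add (add (add (sub (sub (sub (sub (sub (sub C x6131) x6147) x6099) x6243) x5973) x5649) x303) x3219) x1763)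
  (sub (sub (add (add (sub (sub (sub (sub (add (add (sub C x6145) x6131) x6155) x6125) x6251) x5981) x5657) x311) x3227) x1767) x3955)
  (add (add (add (sub (sub (sub (sub (sub (sub C x6143) x6151) x6127) x6253) x5983) x5659) x313) x3229) x3959)
  (add (add (add (sub (sub (sub (add (add (sub (add (add C x6151) x6155) x6135) x6075) x6111) x6255) x5985) x5661) x315) x3231) x1775)
  (add (add (add (sub (sub (sub (add (add (sub (add (add C x6147) x6155) x6145) x6079) x6115) x6259) x5989) x5665) x319) x3235) x3965)
  (sub (sub (add (add (sub (sub (sub (add (add (add (add (add (add C x6147) x6151) x6131) x6143) x6083) x6119) x6263) x5993) x5669) x323) x3239) x1779) x3967)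
  (add (add (add (sub (add (add (sub (add (add (add (add (sub C x6159) x6169) x6181) x6193) x6229) x6103) x5833) x6481) x5671) x325) x3241) x3971)
  (add (add (add (sub (add (add (sub (add (add (sub (sub C x6157) x6165) x6195) x6231) x6105) x5835) x6483) x5673) x327) x3243) x1787)
  (add (add (add (sub (add (add (sub (sub (sub (add (add C x6169) x6173) x6159) x6183) x6111) x5841) x6489) x5679) x333) x3249) x1793)
  (add (add (add (sub (add (add (sub (sub (add (add (add (add C x6165) x6173) x6157) x6181) x6187) x6115) x5845) x6493) x5683) x337) x3253) x3983)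
  (sub (sub (add (add (sub (add (add (sub (sub (sub (add (add C x6165) x6169) x6179) x6191) x6119) x5849) x6497) x5687) x341) x3257) x1797) x3985)
  (sub (sub (add (add (sub (add (add (sub (sub (sub (sub C x6181) x6173) x6215) x6125) x5855) x6503) x5693) x347) x3263) x1803) x3991)
  (add (add (add (sub (add (add (sub (sub (add (add (sub C x6179) x6157) x6169) x6217) x6127) x5857) x6505) x5695) x349) x3265) x3995)
  (add (add (add (sub (add (add (add (add (sub (add (add (add (add C x6187) x6191) x6195) x6207) x6165) x6075) x6291) x5859) x6507) x5697) x351) x3267) x1811)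
  (add (add (add (sub (add (add (add (add (sub (sub (add (add C x6183) x6191) x6193) x6169) x6079) x6295) x5863) x6511) x5701) x355) x3271) x4001)
  (sub (sub (add (add (sub (add (add (add (add (sub (sub (add (add C x6183) x6187) x6203) x6173) x6083) x6299) x5867) x6515) x5705) x359) x3275) x1815) x4003)
  (add (add (add (sub (add (add (add (add (add (add (sub (sub C x6195) x6187) x6157) x6229) x6085) x6301) x5869) x6517) x5707) x361) x3277) x4007)
  (add (add (add (sub (add (add (add (add (add (add (add (add (sub C x6193) x6183) x6207) x6159) x6231) x6087) x6303) x5871) x6519) x5709) x363) x3279) x1823)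
  (sub (sub (add (add (sub (add (add (add (add (sub (sub (sub C x6207) x6191) x6221) x6095) x6311) x5879) x6527) x5717) x371) x3287) x1827) x4015)
  (add (add (add (sub (add (add (add (add (sub (add (add (sub C x6203) x6183) x6195) x6225) x6099) x6315) x5883) x6531) x5721) x375) x3291) x1835)
  (sub (sub (add (add (sub (add (add (sub (sub (sub (sub C x6217) x6221) x6179) x6269) x5891) x6539) x5729) x383) x3299) x1839) x4027)
  (add (add (add (sub (add (add (sub (sub (sub (sub C x6215) x6229) x6181) x6271) x5893) x6541) x5731) x385) x3301) x4031)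
  (sub (sub (add (add (sub (add (add (sub (sub (sub (sub C x6225) x6215) x6203) x6275) x5897) x6545) x5735) x389) x3305) x1845) x4033)
  (add (add (add (sub (add (add (sub (sub (sub (sub C x6221) x6231) x6207) x6279) x5901) x6549) x5739) x393) x3309) x1853)
  (add (add (add (sub (add (add (sub (add (add (sub (sub C x6231) x6217) x6157) x6193) x6283) x5905) x6553) x5743) x397) x3313) x4043)
  (add (add (add (sub (add (add (sub (add (add (sub (sub C x6229) x6225) x6159) x6195) x6285) x5907) x6555) x5745) x399) x3315) x1859)
  (sub (sub (add (add (sub (sub (sub (add (add (add (add (sub C x6243) x6251) x6263) x6275) x6311) x6131) x6401) x5753) x407) x3323) x1863) x4051)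
  (add (add (add (sub (sub (sub (add (add (sub (sub C x6239) x6255) x6279) x6315) x6135) x6405) x5757) x411) x3327) x1871)
  (sub (sub (add (add (sub (sub (sub (sub (add (add (sub C x6253) x6239) x6263) x6269) x6143) x6413) x5765) x419) x3335) x1875) x4063)
  (add (add (add (sub (sub (sub (sub (sub (sub C x6251) x6259) x6271) x6145) x6415) x5767) x421) x3337) x4067)
  (add (add (add (sub (sub (sub (sub (sub (add (add C x6259) x6263) x6243) x6291) x6147) x6417) x5769) x423) x3339) x1883)
  (add (add (add (sub (sub (sub (sub (sub (add (add C x6255) x6263) x6253) x6295) x6151) x6421) x5773) x427) x3343) x4073)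
  (sub (sub (add (add (sub (sub (sub (sub (add (add (add (add C x6255) x6259) x6239) x6251) x6299) x6155) x6425) x5777) x431) x3347) x1887) x4075)
  (sub (sub (add (add (sub (sub (sub (sub (sub (sub C x6271) x6275) x6251) x6215) x6431) x5783) x437) x3353) x1893) x4081)
  (add (add (add (sub (sub (sub (sub (sub (sub C x6269) x6283) x6253) x6217) x6433) x5785) x439) x3355) x4085)
  (sub (sub (add (add (sub (sub (sub (add (add (sub (sub C x6279) x6269) x6239) x6311) x6221) x6437) x5789) x443) x3359) x1899) x4087)
  (add (add (add (sub (sub (sub (add (add (sub (sub C x6275) x6285) x6243) x6315) x6225) x6441) x5793) x447) x3363) x1907)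
  (add (add (add (sub (sub (sub (sub (sub (sub C x6285) x6271) x6301) x6229) x6445) x5797) x451) x3367) x4097)
  (add (add (add (sub (sub (sub (sub (sub (sub C x6283) x6279) x6303) x6231) x6447) x5799) x453) x3369) x1913)
  (add (add (add (sub (sub (add (add (sub (add (add (add (add C x6295) x6299) x6303) x6315) x6255) x6075) x6183) x6453) x5805) x459) x3375) x1919)
  (add (add (add (sub (sub (add (add (sub (sub (add (add C x6291) x6299) x6301) x6259) x6079) x6187) x6457) x5809) x463) x3379) x4109)
  (sub (sub (add (add (sub (sub (add (add (sub (sub (add (add C x6291) x6295) x6311) x6263) x6083) x6191) x6461) x5813) x467) x3383) x1923) x4111)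
  (add (add (add (sub (sub (add (add (sub (sub (sub C x6303) x6295) x6283) x6085) x6193) x6463) x5815) x469) x3385) x4115)
  (add (add (add (sub (sub (add (add (sub (add (add (sub C x6301) x6291) x6315) x6285) x6087) x6195) x6465) x5817) x471) x3387) x1931)
  (sub (sub (add (add (sub (sub (add (add (add (add (sub (sub C x6315) x6299) x6239) x6275) x6095) x6203) x6473) x5825) x479) x3395) x1935) x4123)
  (add (add (add (sub (sub (add (add (add (add (add (add (sub C x6311) x6291) x6303) x6243) x6279) x6099) x6207) x6477) x5829) x483) x3399) x1943)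
  (sub (sub (add (add (add (add (sub (add (add (add (add (sub (sub C x6325) x6329) x6359) x6395) x6431) x6539) x5999) x4379) x5351) x491) x3407) x1947) x4135)
  (add (add (add (add (add (sub (add (add (add (add (sub (sub C x6323) x6337) x6361) x6397) x6433) x6541) x6001) x4381) x5353) x493) x3409) x4139)
  (sub (sub (add (add (add (add (sub (add (add (sub (sub (sub C x6333) x6323) x6347) x6437) x6545) x6005) x4385) x5357) x497) x3413) x1953) x4141)
  (add (add (add (add (add (sub (add (add (sub (sub (sub C x6329) x6339) x6351) x6441) x6549) x6009) x4389) x5361) x501) x3417) x1961)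
  (add (add (add (add (add (sub (add (add (sub (sub (sub C x6339) x6325) x6373) x6445) x6553) x6013) x4393) x5365) x505) x3421) x4151)
  (add (add (add (add (add (sub (add (add (sub (sub (sub C x6337) x6333) x6375) x6447) x6555) x6015) x4395) x5367) x507) x3423) x1967)
  (sub (sub (add (add (add (add (sub (sub (sub (add (add (sub C x6351) x6359) x6371) x6329) x6401) x6023) x4403) x5375) x515) x3431) x1971) x4159)
  (add (add (add (add (add (sub (sub (sub (sub (sub C x6347) x6363) x6333) x6405) x6027) x4407) x5379) x519) x3435) x1979)
  (sub (sub (add (add (add (add (sub (sub (add (add (add (add (sub C x6361) x6347) x6371) x6323) x6395) x6413) x6035) x4415) x5387) x527) x3443) x1983) x4171)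
  (add (add (add (add (add (sub (sub (add (add (sub (sub C x6359) x6367) x6325) x6397) x6415) x6037) x4417) x5389) x529) x3445) x4175)
  (add (add (add (add (add (sub (sub (sub (sub (add (add C x6367) x6371) x6351) x6381) x6417) x6039) x4419) x5391) x531) x3447) x1991)
  (add (add (add (add (add (sub (sub (sub (sub (add (add C x6363) x6371) x6361) x6385) x6421) x6043) x4423) x5395) x535) x3451) x4181)
  (sub (sub (add (add (add (add (sub (sub (sub (add (add (add (add C x6363) x6367) x6347) x6359) x6389) x6425) x6047) x4427) x5399) x539) x3455) x1995) x4183)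
  (add (add (add (add (add (sub (sub (sub (add (add (sub C x6375) x6385) x6397) x6337) x6481) x6049) x4429) x5401) x541) x3457) x4187)
  (add (add (add (add (add (sub (sub (sub (sub (sub C x6373) x6381) x6339) x6483) x6051) x4431) x5403) x543) x3459) x2003)
  (add (add (add (add (add (sub (sub (sub (sub (add (add C x6385) x6389) x6375) x6363) x6489) x6057) x4437) x5409) x549) x3465) x2009)
  (add (add (add (add (add (sub (sub (sub (add (add (add (add C x6381) x6389) x6373) x6397) x6367) x6493) x6061) x4441) x5413) x553) x3469) x4199)
  (sub (sub (add (add (add (add (sub (sub (sub (sub (add (add C x6381) x6385) x6395) x6371) x6497) x6065) x4445) x5417) x557) x3473) x2013) x4201)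
  (sub (sub (add (add (add (add (sub (sub (add (add (sub (sub C x6397) x6389) x6323) x6359) x6503) x6071) x4451) x5423) x563) x3479) x2019) x4207)
  (add (add (add (add (add (sub (sub (add (add (add (add (sub C x6395) x6373) x6385) x6325) x6361) x6505) x6073) x4453) x5425) x565) x3481) x4211)
  (sub (sub (add (add (add (add (sub (sub (add (add (add (add (sub C x6405) x6413) x6425) x6437) x6473) x6347) x6239) x4457) x5429) x569) x3485) x2025) x4213)
  (add (add (add (add (add (sub (sub (add (add (sub (sub C x6401) x6417) x6441) x6477) x6351) x6243) x4461) x5433) x573) x3489) x2033)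
  (sub (sub (add (add (add (add (sub (sub (sub (add (add (sub C x6415) x6401) x6425) x6431) x6359) x6251) x4469) x5441) x581) x3497) x2037) x4225)
  (add (add (add (add (add (sub (sub (sub (sub (sub C x6413) x6421) x6433) x6361) x6253) x4471) x5443) x583) x3499) x4229)
  (add (add (add (add (add (sub (sub (sub (sub (add (add C x6421) x6425) x6405) x6453) x6363) x6255) x4473) x5445) x585) x3501) x2045)
  (add (add (add (add (add (sub (sub (sub (sub (add (add C x6417) x6425) x6415) x6457) x6367) x6259) x4477) x5449) x589) x3505) x4235)
  (sub (sub (add (add (add (add (sub (sub (sub (add (add (add (add C x6417) x6421) x6401) x6413) x6461) x6371) x6263) x4481) x5453) x593) x3509) x2049) x4237)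
  (sub (sub (add (add (add (add (sub (add (add (sub (sub (sub C x6433) x6437) x6413) x6323) x6539) x6269) x4487) x5459) x599) x3515) x2055) x4243)
  (add (add (add (add (add (sub (add (add (sub (sub (sub C x6431) x6445) x6415) x6325) x6541) x6271) x4489) x5461) x601) x3517) x4247)
  (sub (sub (add (add (add (add (sub (add (add (add (add (sub (sub C x6441) x6431) x6401) x6473) x6329) x6545) x6275) x4493) x5465) x605) x3521) x2061) x4249)
  (add (add (add (add (add (sub (add (add (add (add (sub (sub C x6437) x6447) x6405) x6477) x6333) x6549) x6279) x4497) x5469) x609) x3525) x2069)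
  (add (add (add (add (add (sub (add (add (sub (sub (sub C x6447) x6433) x6463) x6337) x6553) x6283) x4501) x5473) x613) x3529) x4259)
  (add (add (add (add (add (sub (add (add (sub (sub (sub C x6445) x6441) x6465) x6339) x6555) x6285) x4503) x5475) x615) x3531) x2075)
  (add (add (add (add (add (sub (sub (sub (add (add (add (add C x6457) x6461) x6465) x6477) x6417) x6507) x6291) x4509) x5481) x621) x3537) x2081)
  (add (add (add (add (add (sub (sub (sub (sub (add (add C x6453) x6461) x6463) x6421) x6511) x6295) x4513) x5485) x625) x3541) x4271)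
  (sub (sub (add (add (add (add (sub (sub (sub (sub (add (add C x6453) x6457) x6473) x6425) x6515) x6299) x4517) x5489) x629) x3545) x2085) x4273)
  (add (add (add (add (add (sub (sub (sub (sub (sub C x6465) x6457) x6445) x6517) x6301) x4519) x5491) x631) x3547) x4277)
  (add (add (add (add (add (sub (sub (sub (add (add (sub C x6463) x6453) x6477) x6447) x6519) x6303) x4521) x5493) x633) x3549) x2093)
  (sub (sub (add (add (add (add (sub (sub (add (add (sub (sub C x6477) x6461) x6401) x6437) x6527) x6311) x4529) x5501) x641) x3557) x2097) x4285)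
  (add (add (add (add (add (sub (sub (add (add (add (add (sub C x6473) x6453) x6465) x6405) x6441) x6531) x6315) x4533) x5505) x645) x3561) x2105)
  (add (add (add (add (add (add (add (sub (add (add (add (add (sub C x6483) x6493) x6505) x6517) x6553) x6373) x5833) x6157) x4537) x5509) x649) x3565) x4295)
  (add (add (add (add (add (add (add (sub (add (add (sub (sub C x6481) x6489) x6519) x6555) x6375) x5835) x6159) x4539) x5511) x651) x3567) x2111)
  (add (add (add (add (add (add (add (sub (sub (sub (add (add C x6493) x6497) x6483) x6507) x6381) x5841) x6165) x4545) x5517) x657) x3573) x2117)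
  (add (add (add (add (add (add (add (sub (sub (add (add (add (add C x6489) x6497) x6481) x6505) x6511) x6385) x5845) x6169) x4549) x5521) x661) x3577) x4307)
  (sub (sub (add (add (add (add (add (add (sub (sub (sub (add (add C x6489) x6493) x6503) x6515) x6389) x5849) x6173) x4553) x5525) x665) x3581) x2121) x4309)
  (sub (sub (add (add (add (add (add (add (sub (sub (sub (sub C x6505) x6497) x6539) x6395) x5855) x6179) x4559) x5531) x671) x3587) x2127) x4315)
  (add (add (add (add (add (add (add (sub (sub (add (add (sub C x6503) x6481) x6493) x6541) x6397) x5857) x6181) x4561) x5533) x673) x3589) x4319)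
  (add (add (add (add (add (add (add (sub (sub (add (add (add (add C x6511) x6515) x6519) x6531) x6489) x6453) x5859) x6183) x4563) x5535) x675) x3591) x2135)
  (add (add (add (add (add (add (add (sub (sub (sub (add (add C x6507) x6515) x6517) x6493) x6457) x5863) x6187) x4567) x5539) x679) x3595) x4325)
  (sub (sub (add (add (add (add (add (add (sub (sub (sub (add (add C x6507) x6511) x6527) x6497) x6461) x5867) x6191) x4571) x5543) x683) x3599) x2139) x4327)
  (add (add (add (add (add (add (add (sub (add (add (sub (sub C x6519) x6511) x6481) x6553) x6463) x5869) x6193) x4573) x5545) x685) x3601) x4331)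
  (add (add (add (add (add (add (add (sub (add (add (add (add (sub C x6517) x6507) x6531) x6483) x6555) x6465) x5871) x6195) x4575) x5547) x687) x3603) x2147)
  (sub (sub (add (add (add (add (add (add (sub (sub (sub (sub C x6531) x6515) x6545) x6473) x5879) x6203) x4583) x5555) x695) x3611) x2151) x4339)
  (add (add (add (add (add (add (add (sub (sub (add (add (sub C x6527) x6507) x6519) x6549) x6477) x5883) x6207) x4587) x5559) x699) x3615) x2159)
  (sub (sub (add (add (add (add (add (add (add (add (sub (sub (sub C x6541) x6545) x6503) x6323) x6431) x5891) x6215) x4595) x5567) x707) x3623) x2163) x4351)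
  (add (add (add (add (add (add (add (add (add (sub (sub (sub C x6539) x6553) x6505) x6325) x6433) x5893) x6217) x4597) x5569) x709) x3625) x4355)
  (sub (sub (add (add (add (add (add (add (add (add (sub (sub (sub C x6549) x6539) x6527) x6329) x6437) x5897) x6221) x4601) x5573) x713) x3629) x2169) x4357)
  (add (add (add (add (add (add (add (add (add (sub (sub (sub C x6545) x6555) x6531) x6333) x6441) x5901) x6225) x4605) x5577) x717) x3633) x2177)
  (add (add (add (add (add (add (add (add (add (add (add (sub (sub C x6555) x6541) x6481) x6517) x6337) x6445) x5905) x6229) x4609) x5581) x721) x3637) x4367)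
  (add (add (add (add (add (add (add (add (add (add (add (sub (sub C x6553) x6549) x6483) x6519) x6339) x6447) x5907) x6231) x4611) x5583) x723) x3639) x2183))
  (chk [x1, x13, x17, x23, x31, x35, x47, x59, x85, x89, x91, x101,
  x125, x131, x133, x137, x149, x151, x161, x167, x173, x203, x215, x233,
  x253, x263, x287, x293, x295, x299, x311, x313, x319, x323, x347, x349,
  x383, x389, x419, x421, x431, x437, x443, x467, x479, x539, x557, x563,
  x593, x629, x665, x827, x833, x869, x875, x917, x923, x953, x1277, x1289,
  x1367, x1457, x1643, x1943, x2105, x2159])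

noncomputable def RK : Nat := nat_lit 0x86f08390797066b05b10557050904fd03b9039b0395036b03650341033b0299027502510233022d021b01df01d301bb01b501af01a501a30185017f015d015b0143013f01390137012b01270125011f010700fd00e900d700cb00ad00a700a100970095008900850083007d0065005b00590055003b002f0023001f00170011000d0001

noncomputable def CK : Nat := nat_lit 0x800100010001000100020002000200010000800200010001000100010002000200020002000200020002000200010002000200020001000100010001000200020002000200020002000200020001000100010001000200008001000200020001000200020002000200010002000100020002000200020002000200010002000100010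

noncomputable def H : Nat := nat_lit 0x19c2000019c30000000000001a9a00000000000019e10000000000001a9b000019e000000000000000000000000000001b060000000000001ac5000000000000000000000000000007c900000e1d000019ed0000000000000df3000000000000079e00001b0700001ac40000000000000000000019ec000000000000079f0000000000000df2000000000000000000000e1c000007c80000000000001b720000000000001b3d000000000000000000000000000012b50000173b00001ad100000000000010e7000000000000094e0000000000000000000013390000147d000000000000098500000000000007d5000000000000111d00000e290000000000000000000019f9000000000000144700000000000013020000177100000e47000000000000000000000000000012de00000000000007f20000000000001b7300001b3c000000000000000000001ad0000000000000094f00000000000010e600000000000000000000173a000012b4000019f800000000000013030000000000001446000012df000007f3000000000000000000000000000017700000000000000e460000000000000000000000000000147c00001338000000000000111c0000000000000e280000000000000984000007d400000000000000000000000000001b0c0000000000001b84000000000000000000000000000012490000181300001b49000000000000122b0000000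0000009ba0000000000000000000019560000187f000000000000142300000000000012c100000000000019150000178f000000000000000000001ad600000000000014b3000000000000136e000019330000113b0000000000000000000000000000140400000000000009a2000000000000000000000000000015610000154f00000000000013b1000000000000134500000000000014f500001489000000000000000000000000000009f700000000000009910000000000000000000000000000012100000265000007e1000000000000041500000000000005160000126d00001129000000000000000000000e3500000000000003d30000000000000afe000000000000000000000db000000642000019f20000000000001531000000000000151e000018c10000149b000000000000000000000000000019990000000000001356000000000000184f0000177d000000000000000000000e3b00000000000002230000000000000dcf00000000000000000000158a00000c2a000000000000126600000000000012d200000000000000000000000000000f0000000c0c000007e6000000000000062400000000000000de00001b0d00001b85000000000000000000001b4800000000000009bb000000000000122a0000000000000000000018120000124800001ad7000000000000136f00000000000014b200001405000009a300000000000000000000000000001932000000000000113a00000000000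00000000000000000187e000019570000000000001914000000000000178e0000000000001422000012c00000000000000000000019f3000000000000151f00000000000015300000199800001357000000000000000000000000000018c0000000000000149a0000000000001267000012d30000000000000000000007e700000000000000df0000000000000625000000000000000000000c0d00000f01000000000000184e000000000000177c00000000000000000000000000000c2b0000158b00000e3a0000000000000dce000000000000022200000000000000000000154e0000156000000000000014f4000000000000148800000000000013b0000013440000000000000000000000000000126c00000000000011280000000000000000000000000000064300000db100000e340000000000000aff00000000000003d2000009f6000009900000000000000000000007e000000000000005170000000000000414000000000000000000000264000001200000000000001aa00000000000001b18000000000000000000000000000011050000175900001b8b0000000000001297000000000000096c0000000000000000000018fd000018eb00000000000014dd000000000000125500000000000018a90000183d000000000000000000001b4200000000000013ed00000000000013da000019800000127f0000000000000000000000000000139800000000000009e400000000000000000000000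000001891000019680000000000001a7700000000000019aa0000000000001a35000018d3000000000000000000000000000013ab0000000000001417000000000000000000000000000002c5000004e1000012cd0000000000000a930000000000000582000019920000192100000000000000000000178300000000000004ab0000000000000b6a000000000000000000000d440000075c00001aca000000000000138100000000000014c400001a470000150700000000000000000000000000001a2e00000000000013c200000000000018bb0000192700000000000000000000112f000000000000028f0000000000000e5e0000000000000000000015f600000d6e00000000000014ee000000000000141000000000000000000000000000000e9400000ba00000099600000000000005b8000000000000014a00000000000000000000146b0000132700000000000014d7000000000000156d0000000000001393000015430000000000000000000000000000142900000000000013bd0000000000000000000000000000068500000c6d000013510000000000000c4300000000000006c6000013ff00001501000000000000000000001495000000000000065b0000000000000cae000000000000000000000cd8000006f0000000000000097f00000000000009eb00000000000000000000000000000859000008a70000099d000000000000083b00000000000008e2000000000000000000000349000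003370000000000000193000000000000012d00000000000002dd000002710000000000000000000007ed00000000000006a90000000000000715000004f900000421000000000000000000000000000005d1000000000000056500000000000012e5000012790000000000000000000011350000000000000829000000000000100e0000000000000000000011a1000011dc00000e410000000000000c910000000000000cfd00000adb0000042700000000000000000000000000000bb90000000000000b4d00000000000000000000000000000f7200000fde0000000000000ead0000000000000dbc00000000000005ca000006360000000000000000000019e6000000000000131500000000000014580000197a0000153d000000000000000000000000000018a200000000000015720000000000001939000018cd00000000000000000000148f00000000000003250000000000000f36000000000000000000001662000010ce000000000000190e00000000000019a500000000000000000000000000001099000016cf0000134a0000000000000fa300000000000002fa0000176b00001843000000000000000000001789000000000000087700000000000011520000000000000000000017a60000117000000e2f0000000000000c7f0000000000000ceb000004f30000027700000000000000000000000000000d570000000000000dc30000000000000000000000000000169e0000170a0000000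00000163f00000000000015d90000000000000bb200000c1e00000000000000000000000000001116000000000000125a0000000000000000000000000000102d00001182000012c600000000000011bf000000000000080a0000000000000000000010aa000010bc0000000000000ea70000000000000f0c0000000000000d5c00000c180000000000000000000007da000000000000070200000000000006960000076e00000630000000000000000000000000000002d600000000000001320000000000001aa100001b19000000000000000000001b8a000000000000096d00000000000012960000000000000000000017580000110400001b4300000000000013db00000000000013ec00001399000009e500000000000000000000000000001981000000000000127e000000000000000000000000000018ea000018fc00000000000018a8000000000000183c00000000000014dc00001254000000000000000000001acb00000000000014c5000000000000138000001a2f000013c300000000000000000000000000001a46000000000000150600000000000014ef00001411000000000000000000000997000000000000014b00000000000005b9000000000000000000000ba100000e9500000000000018ba000000000000192600000000000000000000000000000d6f000015f70000112e0000000000000e5f000000000000028e000000000000000000001969000018900000000000001a34000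00000000018d20000000000001a76000019ab0000000000000000000000000000199300000000000019200000000000000000000000000000075d00000d45000017820000000000000b6b00000000000004aa000013aa000014160000000000000000000012cc00000000000005830000000000000a920000000000000000000004e0000002c4000019e700000000000014590000000000001314000018a3000015730000000000000000000000000000197b000000000000153c000000000000190f000019a400000000000000000000134b00000000000002fb0000000000000fa20000000000000000000016ce00001098000000000000193800000000000018cc000000000000000000000000000010cf000016630000148e0000000000000f370000000000000324000011170000125b0000000000000000000012c7000000000000080b00000000000011be0000000000000000000011830000102c000007db00000000000006970000000000000703000002d7000001330000000000000000000000000000076f0000000000000631000000000000000000000000000010bd000010ab0000000000000d5d0000000000000c190000000000000ea600000f0d0000000000000000000000000000176a000000000000184200000000000000000000000000001171000017a7000017880000000000001153000000000000087600000000000000000000170b0000169f0000000000000bb30000000000000c1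f000000000000163e000015d8000000000000000000000e2e0000000000000cea0000000000000c7e00000d5600000dc2000000000000000000000000000004f20000000000000276000000000000000000000000000013260000146a0000000000001392000000000000154200000000000014d60000156c000000000000000000000000000013fe0000000000001500000000000000000000000000000006f100000cd9000014940000000000000caf000000000000065a00001428000013bc00000000000000000000135000000000000006c70000000000000c42000000000000000000000c6c0000068400000000000012e40000000000001278000000000000000000000000000011dd000011a000001134000000000000100f0000000000000828000000000000000000000fdf00000f7300000000000005cb00000000000006370000000000000eac00000dbd000000000000000000000e400000000000000cfc0000000000000c9000000bb800000b4c00000000000000000000000000000ada0000000000000426000000000000097e000009ea00000000000000000000099c00000000000008e3000000000000083a0000000000000000000008a600000858000007ec000000000000071400000000000006a8000005d000000564000000000000000000000000000004f80000000000000420000000000000000000000000000003360000034800000000000002dc000000000000027000000000000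001920000012c000000000000000000000000000019c80000000000001aa700000000000000000000000000000e1100000dff00001b1300000000000007ab00000000000007bc000000000000000000001747000010f300000000000014710000000000001111000000000000145300001765000000000000000000001b6d000000000000095b00000000000012a80000130f000012eb0000000000000000000000000000132c00000000000009780000000000000000000000000000181f00001237000000000000188b000000000000190900000000000014bf0000193f0000000000000000000000000000155b00000000000014e900000000000000000000000000000259000004090000126100000000000003df00000000000005ee00001525000018b5000000000000000000001849000000000000022f0000000000000bd6000000000000000000000c000000061800001b0100000000000009c7000000000000123c0000137b000013f900000000000000000000000000001963000000000000142e000000000000152b0000198c00000000000000000000127300000000000000eb0000000000000eca00000000000000000000159700000dda000000000000155400000000000013a400000000000000000000000000000da500000b0b000009f00000000000000523000000000000011400000000000000000000174d000012a300000000000018f7000000000000189d00000000000013e10000197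40000000000000000000000000000195c0000000000001a29000000000000000000000000000004d500000a9f0000199e00000000000004b700000000000007320000137500001a410000000000000000000018c7000000000000029b0000000000000d1a000000000000000000000b94000005ac0000000000001333000000000000139f00000000000000000000000000000c6100000c4f0000140b000000000000066700000000000006e40000000000000000000008b300000847000000000000034300000000000002d1000000000000069d000004ed0000000000000000000012d9000000000000081d00000000000011d000000c8500000ad500000000000000000000000000000fe500000000000005d600000000000013090000198600000000000000000000192d0000000000000319000000000000107a0000000000000000000016db00000faf000017770000000000000883000000000000116400000c8b000004ff000000000000000000000000000017110000000000000bbe0000000000000000000000000000118e000011cb00000000000010b00000000000000d50000000000000070e00000768000000000000000000001a95000000000000096100000000000010f8000013e70000138d000000000000000000000000000018f000000000000014d000000000000014b900001a3b0000000000000000000014fb00000000000001570000000000000e89000000000000000000001603000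00e6b00000000000018840000000000001a7000000000000000000000000000000d3900000b77000013b6000000000000058f00000000000002b80000144d000018af00000000000000000000191b0000000000000307000000000000108c00000000000000000000166f00000f430000112300000000000008170000000000001020000006a3000002e3000000000000000000000000000010b70000000000000eb2000000000000000000000000000017b30000115f00000000000016a400000000000016380000000000000cf600000d620000000000000000000000000000147600000000000014e200000000000000000000000000000ccd00000cbb0000141c00000000000006d300000000000006780000000000000000000011940000101b0000000000000f780000000000000ea00000000000000cf000000bac00000000000000000000098a00000000000008ef000000000000084c00000708000005c40000000000000000000000000000033c000000000000018c00000000000000000000000000000e0b000007b700000000000010ff000000000000145f00000000000009670000131b0000000000000000000000000000124300000000000014cb000000000000000000000000000003fd000003eb00001519000000000000023b000000000000060c000009c10000138700000000000000000000153700000000000000f70000000000000d86000000000000000000000b170000052f0000000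0000012af00000000000013d500000000000000000000000000000aab000004c30000136900000000000002a700000000000005a0000000000000000000000c5b0000067300000000000008530000000000000691000000000000081100000c790000000000000000000012fd000000000000030d0000000000000fb40000087d00000c97000000000000000000000000000011d7000000000000071a0000000000000955000013f30000000000000000000014ad00000000000001630000000000000e77000000000000000000000b830000059b0000144100000000000003130000000000000f4800000823000006af0000000000000000000000000000116b0000000000000d0200000000000000000000000000000cc7000006df00000000000010270000000000000ce400000000000008e9000006fc000000000000000000000000000007c30000000000000973000000000000000000000000000003f700000247000009b5000000000000010300000000000005340000000000000000000004cf000002b3000000000000067f0000000000000805000000000000030100000871000000000000000000000949000000000000015d00000000000005a70000031f0000082f000000000000000000000000000006eb00000000000008dd000000000000000000000000000002530000010f00000000000002bf00000000000002f500000000000001510000032b0000000000000000000000000000011b000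0000000000145000000000000000000000000000000010000000d000000d90000000000000019000000000000006d000000e50000028900000000000000000000021d000000000000002500000000000001b10000000000000000000001e7000000790000079900000000000000f1000000000000061300000295000006550000000000000000000000000000072d00000000000006c10000000000000229000004a50000000000000000000003cd000000000000002b0000000000000361000000000000000000000439000001bd00000000000005e9000000000000057d0000000000000000000000000000038b000001db0000051100000000000000850000000000000072000007a50000129100000000000000000000122500000000000000fd0000000000000edc000000000000000000000bef00000607000010e100000000000002a10000000000000e70000006610000083500000000000000000000000000001075000000000000100900000000000000000000000000000d33000007390000000000001093000000000000114d00000000000006cd000011b9000000000000000000000ded00000000000002350000000000000d81000004b100000c3d00000000000000000000000000000d150000000000000ca900000000000003d900000a8d00000000000000000000041b000000000000001f00000000000003af000000000000000000000a210000036d0000000000000bd10000000000000b6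500000000000000000000000000000a3f0000044500000af900000000000001c900000000000001b6000000000000000000000d9f000005f50000000000000e8e0000000000000f31000000000000058900000f9d00000000000000000000000000000ec50000000000000e59000000000000000000000000000003910000037f00000dc800000000000001cf00000000000003660000051d000005be00000000000000000000062a000000000000008b00000000000003a80000000000000000000001f8000000b4000019bd00000000000007b10000000000000e040000129d0000132100000000000000000000000000001752000000000000146400000000000012310000196e00000000000000000000154900000000000001090000000000000d980000000000000000000015a200000ed70000000000001818000000000000189600000000000000000000000000000bf500000be30000156600000000000005fb000000000000024c000010ed000018e500000000000000000000187900000000000002ad0000000000000d2c00000000000000000000160e00000e7c00001483000000000000066d0000000000000cc00000084100000331000000000000000000000000000011890000000000000f6d000000000000000000000000000016750000108100000000000017ac00000000000016990000000000001015000010c200000000000000000000000000001740000000000000190200000000000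000000000000000000b8900000d2700001951000000000000073f00000000000004c80000000000000000000016e100001087000000000000119b00000000000010a500000000000011590000170400000000000000000000133e00000000000006d90000000000000c54000011c500000fd8000000000000000000000000000008ac000000000000034e0000000000000df90000175f00000000000000000000180d00000000000002410000000000000be80000000000000000000015a800000d8d0000173500000000000004bd0000000000000b7c00000c49000008a1000000000000000000000000000016d400000000000011a60000000000000000000000000000160900000d21000000000000166800000000000017a10000000000000cb50000117c000000000000000000000e2300000000000003e50000000000000b1000000a9900000c7300000000000000000000000000000b9b0000000000000cdf000000000000040f000004e700000000000000000000026b000000000000001300000000000001ff00000000000000000000047b000003a30000000000000c070000000000000d4b00000000000000000000000000000a6900000a2d00000db7000000000000037900000000000001e000000000000000000000159d00000bdd00000000000015fc000000000000165d0000000000000b71000016c90000000000000000000000000000159000000000000015f100000000000000000000000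00000046900000a3300001585000000000000044b000000000000043e00000b0500000ba6000000000000000000000c1200000000000001d50000000000000a260000000000000000000004740000020a0000000000000e16000000000000110a00000000000000000000000000000b1d00000d930000124e000000000000060100000000000003f0000000000000000000000b8e00000e820000000000000cd200000000000010320000000000000f3d000011760000000000000000000012ba00000000000005950000000000000aa400000fa9000011e200000000000000000000000000000c66000000000000085e00000000000000000000000000000bfa00000ed10000000000000d3e000000000000109e0000000000000e65000010c800000000000000000000000000000daa0000000000000e9b000000000000000000000000000001ed0000039d00000f070000000000000373000000000000038400000dd400000d68000000000000000000000c2400000000000001c30000000000000a38000000000000000000000a6e000003ba000007ce00000000000005290000000000000402000005b2000006f6000000000000000000000000000004da000000000000068a000000000000061e0000076200000000000000000000063c000000000000007f000000000000039600000000000000000000046e000003b4000000000000025e00000000000002ca000000000000000000000000000001f2000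002040000012600000000000000ba0000000000000006000019c900001aa6000000000000000000001b1200000000000007bd00000000000007aa000000000000000000000dfe00000e1000001b6c00000000000012a9000000000000095a0000132d000009790000000000000000000000000000130e00000000000012ea000000000000000000000000000010f20000174600000000000014520000000000001764000000000000147000001110000000000000000000001b00000000000000123d00000000000009c6000019620000142f0000000000000000000000000000137a00000000000013f80000000000001555000013a50000000000000000000009f100000000000001150000000000000522000000000000000000000b0a00000da4000000000000152a000000000000198d00000000000000000000000000000ddb00001596000012720000000000000ecb00000000000000ea0000000000000000000012360000181e00000000000014be000000000000193e000000000000188a000019080000000000000000000000000000152400000000000018b40000000000000000000000000000061900000c01000018480000000000000bd7000000000000022e0000155a000014e800000000000000000000126000000000000005ef00000000000003de0000000000000000000004080000025800001a9400000000000010f90000000000000960000018f1000014d100000000000000000000000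0000013e6000000000000138c000000000000188500001a710000000000000000000013b700000000000002b9000000000000058e000000000000000000000b7600000d3800000000000014b80000000000001a3a00000000000000000000000000000e6a00001602000014fa0000000000000e88000000000000015600001477000014e300000000000000000000141d000000000000067900000000000006d2000000000000000000000cba00000ccc0000098b000000000000084d00000000000008ee0000033d0000018d0000000000000000000000000000070900000000000005c50000000000000000000000000000101a000011950000000000000cf10000000000000bad0000000000000f7900000ea10000000000000000000000000000144c00000000000018ae00000000000000000000000000000f420000166e0000191a000000000000108d000000000000030600000000000000000000115e000017b20000000000000cf70000000000000d6300000000000016a50000163900000000000000000000112200000000000010210000000000000816000010b600000eb3000000000000000000000000000006a200000000000002e2000000000000000000000000000012a20000174c00000000000013e0000000000000197500000000000018f60000189c000000000000000000000000000013740000000000001a40000000000000000000000000000005ad00000b95000018c600000000000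00d1b000000000000029a0000195d00001a2800000000000000000000199f000000000000073300000000000004b6000000000000000000000a9e000004d40000000000001308000000000000198700000000000000000000000000000fae000016da0000192c000000000000107b00000000000003180000000000000000000011ca0000118f000000000000070f000000000000076900000000000010b100000d51000000000000000000001776000000000000116500000000000008820000171000000bbf00000000000000000000000000000c8a00000000000004fe00000000000013320000139e00000000000000000000140a00000000000006e50000000000000666000000000000000000000c4e00000c60000012d800000000000011d1000000000000081c00000fe4000005d700000000000000000000000000000c840000000000000ad400000000000000000000000000000846000008b2000000000000069c00000000000004ec0000000000000342000002d00000000000000000000019bc0000000000000e0500000000000007b000001753000014650000000000000000000000000000129c0000000000001320000000000000181900001897000000000000000000001567000000000000024d00000000000005fa000000000000000000000be200000bf40000000000001230000000000000196f00000000000000000000000000000ed6000015a3000015480000000000000d990000000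000000108000017410000190300000000000000000000195000000000000004c9000000000000073e000000000000000000000d2600000b880000133f0000000000000c5500000000000006d8000008ad0000034f000000000000000000000000000011c40000000000000fd900000000000000000000000000001086000016e000000000000011580000000000001705000000000000119a000010a4000000000000000000000000000010ec00000000000018e400000000000000000000000000000e7d0000160f000018780000000000000d2d00000000000002ac00000000000000000000108000001674000000000000101400000000000010c300000000000017ad000016980000000000000000000014820000000000000cc1000000000000066c0000118800000f6c0000000000000000000000000000084000000000000003300000000000000e170000110b00000000000000000000124f00000000000003f10000000000000600000000000000000000000d9200000b1c000012bb0000000000000aa5000000000000059400000c670000085f00000000000000000000000000000fa800000000000011e300000000000000000000000000000e8300000b8f0000000000000f3c00000000000011770000000000000cd3000010330000000000000000000007cf00000000000004030000000000000528000004db0000068b000000000000000000000000000005b300000000000006f700000000000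0025f000002cb000000000000000000000127000000000000000700000000000000bb000000000000000000000205000001f3000000000000061f0000000000000763000000000000000000000000000003b50000046f0000063d0000000000000397000000000000007e000000000000000000000ed000000bfb0000000000000e6400000000000010c90000000000000d3f0000109f00000000000000000000000000000dd50000000000000d69000000000000000000000000000003bb00000a6f00000c250000000000000a3900000000000001c200000dab00000e9a000000000000000000000f060000000000000385000000000000037200000000000000000000039c000001ec0000000000000df8000000000000175e00000000000000000000000000000d8c000015a90000180c0000000000000be90000000000000240000000000000000000000d20000016080000000000000cb4000000000000117d0000000000001669000017a00000000000000000000017340000000000000b7d00000000000004bc000016d5000011a700000000000000000000000000000c4800000000000008a000000000000000000000000000000bdc0000159c0000000000000b7000000000000016c800000000000015fd0000165c00000000000000000000000000000b040000000000000ba70000000000000000000000000000020b0000047500000c130000000000000a2700000000000001d400001591000015f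0000000000000000000001584000000000000043f000000000000044a000000000000000000000a320000046800000e220000000000000b1100000000000003e400000b9a00000cde00000000000000000000000000000a980000000000000c720000000000000c0600000d4a000000000000000000000db600000000000001e10000000000000378000000000000000000000a2c00000a68000000000000040e00000000000004e6000000000000000000000000000003a20000047a0000026a00000000000001fe00000000000000120000000000000000000007b600000e0a0000000000000966000000000000131a00000000000010fe0000145e000000000000000000000000000009c000000000000013860000000000000000000000000000052e00000b16000015360000000000000d8700000000000000f600001242000014ca000000000000000000001518000000000000060d000000000000023a0000000000000000000003ea000003fc000000000000095400000000000013f20000000000000000000000000000059a00000b82000014ac0000000000000e7600000000000001620000000000000000000006de00000cc600000000000008e800000000000006fd000000000000102600000ce50000000000000000000014400000000000000f4900000000000003120000116a00000d030000000000000000000000000000082200000000000006ae00000000000012ae000013d400000000000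000000000136800000000000005a100000000000002a60000000000000000000004c200000aaa000012fc0000000000000fb5000000000000030c000011d60000071b0000000000000000000000000000087c0000000000000c960000000000000000000000000000067200000c5a00000000000008100000000000000c78000000000000085200000690000000000000000000000000000007a400000000000012900000000000000000000000000000060600000bee000012240000000000000edd00000000000000fc00000000000000000000073800000d3200000000000006cc00000000000011b800000000000010920000114c0000000000000000000010e00000000000000e7100000000000002a00000107400001008000000000000000000000000000006600000000000000834000000000000000000000000000005f400000d9e00000000000005880000000000000f9c0000000000000e8f00000f300000000000000000000000000000051c00000000000005bf000000000000000000000000000000b5000001f90000062b00000000000003a9000000000000008a00000ec400000e58000000000000000000000dc9000000000000036700000000000001ce00000000000000000000037e0000039000000dec0000000000000d80000000000000023400000d1400000ca8000000000000000000000000000004b00000000000000c3c0000000000000bd000000b64000000000000000000000af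800000000000001b700000000000001c800000000000000000000044400000a3e00000000000003d80000000000000a8c0000000000000000000000000000036c00000a200000041a00000000000003ae000000000000001e000007c2000009720000000000000000000009b400000000000005350000000000000102000000000000000000000246000003f60000094800000000000005a6000000000000015c000006ea000008dc0000000000000000000000000000031e000000000000082e000000000000000000000000000002b2000004ce00000000000003000000000000000870000000000000067e00000804000000000000000000000798000000000000061200000000000000f00000072c000006c000000000000000000000000000000294000000000000065400000000000005e80000057c000000000000000000000510000000000000007300000000000000840000000000000000000001da0000038a000000000000022800000000000004a4000000000000000000000000000001bc00000438000003cc0000000000000360000000000000002a00000000000000000000010e000002520000000000000150000000000000032a00000000000002be000002f4000000000000000000000000000000e4000000000000028800000000000000000000000000000078000001e60000021c00000000000001b000000000000000240000011a000001440000000000000000000000d8000000000000006c000000000000001800000000000000000000000c000000000000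

theorem spec : Spec 7 true idx RK 66 G := fun _ _ _ _ => by eq_refl

theorem cover : cov 8 true H RK CK 66 3 = true := by decide +kernel

end S8x2

namespace S8x2

noncomputable def ts0 : List Nat :=
  [nat_lit 73146444251180443904237155934286625739615766120,
   nat_lit 73146444251180443904237155934286625739615764480,
   nat_lit 73146444251180443904237155934286625739615781968,
   nat_lit 73146444251180443904237155934286625739615773216,
   nat_lit 73146444251180443904237155934286625739616265424,
   nat_lit 73146444251180443904237155934286625739616563680,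
   nat_lit 73146444251180443904237155934286625739637593840,
   nat_lit 73146444251180443904237155934286625739684184832,
   nat_lit 73146444251180443904237155934286625740859728720,
   nat_lit 73146444251180443904237155934286625745765784544,
   nat_lit 73146444251180443904237155934286625827120724688,
   nat_lit 73146444251180443904237155934286626332275845856,
   nat_lit 73146444251180443904237155934286633071504592944,
   nat_lit 73146444251180443904237155934286686846267526272,
   nat_lit 73146444251180443904237155934287330089200438672,
   nat_lit 73146444251180443904237155934293292369765580256,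
   nat_lit 73146444251180443904237155934361167223055413328,
   nat_lit 73146444251180443904237155935045754932401214656,
   nat_lit 73146444251180443904237155942688113687380773936,
   nat_lit 73146444251180443904237156023387459512453415104,
   nat_lit 73146444251180443904237156918771510750318845904,
   nat_lit 73146444251180443904237166608776662482094725536,
   nat_lit 73146444251180443904237274037379478037527054608,
   nat_lit 73146444251180443904238452124266126960929394560,
   nat_lit 73146444251180443904251525564287890026716568848,
   nat_lit 73146444251180443904395932513038637430038843680,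
   nat_lit 73146444251180443906000510319234359812589064304,
   nat_lit 73146444251180443923796246841092322683017669472,
   nat_lit 73146444251180444121758755093047801809919169712,
   nat_lit 73146444251180446322382799086488582728491392288,
   nat_lit 73146444251180470823915231349711168278571420560,
   nat_lit 73146444251180743563795982702524110776944802464,
   nat_lit 73146444251183782144340167388861633332021128144,
   nat_lit 73146444251217634010329269509326351835121239040,
   nat_lit 73146444251594942419338123678916884295857015664,
   nat_lit 73146444255800535170936744219026788615048465312,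
   nat_lit 73146444302689690293905797442749179211022041328]

theorem run0 : go idx G base H RK CK 146 0 66 ts0 = true := by decide +kernel

end S8x2

end Vale.Agent.P348.MomK
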