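import Vale.Agent.P348.MomK

/-! Generated kernel computation of sector moments. -/

open Nat (add sub)

set_option maxRecDepth 1000000
set_option maxHeartbeats 0
set_option linter.unusedVariables false

namespace Vale.Agent.P348.MomK

namespace S8x3

noncomputable def idx : List Nat :=
  [nat_lit 0, nat_lit 4, nat_lit 8, nat_lit 10, nat_lit 12, nat_lit 20, nat_lit 24, nat_lit 28,
  nat_lit 30, nat_lit 36, nat_lit 40, nat_lit 44, nat_lit 50, nat_lit 52, nat_lit 56, nat_lit 60,
  nat_lit 68, nat_lit 70, nat_lit 72, nat_lit 76, nat_lit 80, nat_lit 82, nat_lit 84, nat_lit 90,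
  nat_lit 94, nat_lit 98, nat_lit 104, nat_lit 106, nat_lit 108, nat_lit 112, nat_lit 116, nat_lit 118,
  nat_lit 120, nat_lit 128, nat_lit 132, nat_lit 140, nat_lit 142, nat_lit 146, nat_lit 150, nat_lit 154,
  nat_lit 156, nat_lit 164, nat_lit 168, nat_lit 176, nat_lit 178, nat_lit 180, nat_lit 184, nat_lit 188,
  nat_lit 194, nat_lit 196, nat_lit 200, nat_lit 204, nat_lit 208, nat_lit 210, nat_lit 216, nat_lit 220,
  nat_lit 224, nat_lit 226, nat_lit 228, nat_lit 236, nat_lit 240, nat_lit 244, nat_lit 246, nat_lit 252,
  nat_lit 256, nat_lit 260, nat_lit 266, nat_lit 268, nat_lit 270, nat_lit 274, nat_lit 278, nat_lit 280,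
  nat_lit 282, nat_lit 290, nat_lit 294, nat_lit 302, nat_lit 304, nat_lit 308, nat_lit 312, nat_lit 316,
  nat_lit 318, nat_lit 324, nat_lit 328, nat_lit 332, nat_lit 334, nat_lit 336, nat_lit 344, nat_lit 348,
  nat_lit 352, nat_lit 354, nat_lit 360, nat_lit 364, nat_lit 368, nat_lit 374, nat_lit 376, nat_lit 380,
  nat_lit 384, nat_lit 392, nat_lit 394, nat_lit 396, nat_lit 400, nat_lit 404, nat_lit 410, nat_lit 412,
  nat_lit 416, nat_lit 420, nat_lit 424, nat_lit 426, nat_lit 434, nat_lit 438, nat_lit 446, nat_lit 448,
  nat_lit 450, nat_lit 454, nat_lit 458, nat_lit 460, nat_lit 462, nat_lit 468, nat_lit 472, nat_lit 476,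
  nat_lit 482, nat_lit 484, nat_lit 488, nat_lit 492, nat_lit 500, nat_lit 502, nat_lit 504, nat_lit 508,
  nat_lit 512, nat_lit 518, nat_lit 520, nat_lit 524, nat_lit 528, nat_lit 532, nat_lit 534, nat_lit 540,
  nat_lit 544, nat_lit 548, nat_lit 550, nat_lit 552, nat_lit 560, nat_lit 564, nat_lit 572, nat_lit 574,
  nat_lit 578, nat_lit 582, nat_lit 586, nat_lit 588, nat_lit 596, nat_lit 600, nat_lit 608, nat_lit 610,
  nat_lit 612, nat_lit 616, nat_lit 620, nat_lit 622, nat_lit 624, nat_lit 630, nat_lit 634, nat_lit 638,
  nat_lit 644, nat_lit 646, nat_lit 648, nat_lit 652, nat_lit 656, nat_lit 658, nat_lit 660, nat_lit 668,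
  nat_lit 672, nat_lit 676, nat_lit 678, nat_lit 684, nat_lit 688, nat_lit 692, nat_lit 698, nat_lit 700,
  nat_lit 704, nat_lit 708, nat_lit 716, nat_lit 718, nat_lit 720, nat_lit 724, nat_lit 728, nat_lit 730,
  nat_lit 732, nat_lit 738, nat_lit 742, nat_lit 746, nat_lit 752, nat_lit 754, nat_lit 756, nat_lit 760,
  nat_lit 764, nat_lit 766, nat_lit 768, nat_lit 776, nat_lit 780, nat_lit 788, nat_lit 790, nat_lit 794,
  nat_lit 798, nat_lit 802, nat_lit 804, nat_lit 810, nat_lit 814, nat_lit 818, nat_lit 820, nat_lit 822,
  nat_lit 830, nat_lit 834, nat_lit 838, nat_lit 840, nat_lit 846, nat_lit 850, nat_lit 854, nat_lit 860,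
  nat_lit 862, nat_lit 866, nat_lit 870, nat_lit 878, nat_lit 880, nat_lit 882, nat_lit 886, nat_lit 890,
  nat_lit 896, nat_lit 898, nat_lit 902, nat_lit 906, nat_lit 910, nat_lit 912, nat_lit 920, nat_lit 924,
  nat_lit 932, nat_lit 934, nat_lit 936, nat_lit 940, nat_lit 944, nat_lit 946, nat_lit 948, nat_lit 954,
  nat_lit 958, nat_lit 962, nat_lit 968, nat_lit 970, nat_lit 972, nat_lit 976, nat_lit 980, nat_lit 982,
  nat_lit 984, nat_lit 992, nat_lit 996, nat_lit 1000, nat_lit 1002, nat_lit 1008, nat_lit 1012, nat_lit 1016,
  nat_lit 1022, nat_lit 1024, nat_lit 1028, nat_lit 1032, nat_lit 1040, nat_lit 1042, nat_lit 1044, nat_lit 1048,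
  nat_lit 1052, nat_lit 1054, nat_lit 1056, nat_lit 1062, nat_lit 1066, nat_lit 1070, nat_lit 1076, nat_lit 1078,
  nat_lit 1080, nat_lit 1084, nat_lit 1088, nat_lit 1090, nat_lit 1092, nat_lit 1100, nat_lit 1104, nat_lit 1112,
  nat_lit 1114, nat_lit 1118, nat_lit 1122, nat_lit 1126, nat_lit 1128, nat_lit 1136, nat_lit 1140, nat_lit 1148,
  nat_lit 1150, nat_lit 1152, nat_lit 1156, nat_lit 1160, nat_lit 1166, nat_lit 1168, nat_lit 1172, nat_lit 1176,
  nat_lit 1180, nat_lit 1182, nat_lit 1188, nat_lit 1192, nat_lit 1196, nat_lit 1198, nat_lit 1200, nat_lit 1208,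
  nat_lit 1212, nat_lit 1220, nat_lit 1222, nat_lit 1226, nat_lit 1230, nat_lit 1234, nat_lit 1236, nat_lit 1244,
  nat_lit 1248, nat_lit 1256, nat_lit 1258, nat_lit 1260, nat_lit 1264, nat_lit 1268, nat_lit 1270, nat_lit 1272,
  nat_lit 1278, nat_lit 1282, nat_lit 1286, nat_lit 1292, nat_lit 1294, nat_lit 1298, nat_lit 1302, nat_lit 1310,
  nat_lit 1312, nat_lit 1314, nat_lit 1318, nat_lit 1322, nat_lit 1328, nat_lit 1330, nat_lit 1334, nat_lit 1338,
  nat_lit 1342, nat_lit 1344, nat_lit 1350, nat_lit 1354, nat_lit 1358, nat_lit 1360, nat_lit 1362, nat_lit 1370,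
  nat_lit 1374, nat_lit 1378, nat_lit 1380, nat_lit 1386, nat_lit 1390, nat_lit 1394, nat_lit 1400, nat_lit 1402,
  nat_lit 1404, nat_lit 1408, nat_lit 1412, nat_lit 1414, nat_lit 1416, nat_lit 1424, nat_lit 1428, nat_lit 1436,
  nat_lit 1438, nat_lit 1442, nat_lit 1446, nat_lit 1450, nat_lit 1452, nat_lit 1460, nat_lit 1464, nat_lit 1472,
  nat_lit 1474, nat_lit 1476, nat_lit 1480, nat_lit 1484, nat_lit 1490, nat_lit 1492, nat_lit 1496, nat_lit 1500,
  nat_lit 1504, nat_lit 1506, nat_lit 1512, nat_lit 1516, nat_lit 1520, nat_lit 1522, nat_lit 1524, nat_lit 1532,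
  nat_lit 1536, nat_lit 1544, nat_lit 1546, nat_lit 1550, nat_lit 1554, nat_lit 1558, nat_lit 1560, nat_lit 1568,
  nat_lit 1572, nat_lit 1580, nat_lit 1582, nat_lit 1584, nat_lit 1588, nat_lit 1592, nat_lit 1594, nat_lit 1596,
  nat_lit 1602, nat_lit 1606, nat_lit 1610, nat_lit 1616, nat_lit 1618, nat_lit 1620, nat_lit 1624, nat_lit 1628,
  nat_lit 1630, nat_lit 1632, nat_lit 1640, nat_lit 1644, nat_lit 1648, nat_lit 1650, nat_lit 1656, nat_lit 1660,
  nat_lit 1664, nat_lit 1670, nat_lit 1672, nat_lit 1676, nat_lit 1680, nat_lit 1688, nat_lit 1690, nat_lit 1692,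
  nat_lit 1696, nat_lit 1700, nat_lit 1706, nat_lit 1708, nat_lit 1712, nat_lit 1716, nat_lit 1720, nat_lit 1722,
  nat_lit 1730, nat_lit 1734, nat_lit 1742, nat_lit 1744, nat_lit 1746, nat_lit 1750, nat_lit 1754, nat_lit 1756,
  nat_lit 1758, nat_lit 1764, nat_lit 1768, nat_lit 1772, nat_lit 1778, nat_lit 1780, nat_lit 1784, nat_lit 1788,
  nat_lit 1796, nat_lit 1798, nat_lit 1800, nat_lit 1804, nat_lit 1808, nat_lit 1814, nat_lit 1816, nat_lit 1820,
  nat_lit 1824, nat_lit 1828, nat_lit 1830, nat_lit 1836, nat_lit 1840, nat_lit 1844, nat_lit 1846, nat_lit 1848,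
  nat_lit 1856, nat_lit 1860, nat_lit 1864, nat_lit 1866, nat_lit 1872, nat_lit 1876, nat_lit 1880, nat_lit 1886,
  nat_lit 1888, nat_lit 1890, nat_lit 1894, nat_lit 1898, nat_lit 1900, nat_lit 1902, nat_lit 1910, nat_lit 1914,
  nat_lit 1922, nat_lit 1924, nat_lit 1928, nat_lit 1932, nat_lit 1936, nat_lit 1938, nat_lit 1944, nat_lit 1948,
  nat_lit 1952, nat_lit 1954, nat_lit 1956, nat_lit 1964, nat_lit 1968, nat_lit 1972, nat_lit 1974, nat_lit 1980,
  nat_lit 1984, nat_lit 1988, nat_lit 1994, nat_lit 1996, nat_lit 2000, nat_lit 2004, nat_lit 2012, nat_lit 2014,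
  nat_lit 2016, nat_lit 2020, nat_lit 2024, nat_lit 2026, nat_lit 2028, nat_lit 2034, nat_lit 2038, nat_lit 2042,
  nat_lit 2048, nat_lit 2050, nat_lit 2052, nat_lit 2056, nat_lit 2060, nat_lit 2062, nat_lit 2064, nat_lit 2072,
  nat_lit 2076, nat_lit 2084, nat_lit 2086, nat_lit 2090, nat_lit 2094, nat_lit 2098, nat_lit 2100, nat_lit 2108,
  nat_lit 2112, nat_lit 2120, nat_lit 2122, nat_lit 2124, nat_lit 2128, nat_lit 2132, nat_lit 2138, nat_lit 2140,
  nat_lit 2144, nat_lit 2148, nat_lit 2152, nat_lit 2154, nat_lit 2160, nat_lit 2164, nat_lit 2168, nat_lit 2170,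
  nat_lit 2172, nat_lit 2180, nat_lit 2184, nat_lit 2188, nat_lit 2190, nat_lit 2196, nat_lit 2200, nat_lit 2204,
  nat_lit 2210, nat_lit 2212, nat_lit 2214, nat_lit 2218, nat_lit 2222, nat_lit 2224, nat_lit 2226, nat_lit 2234,
  nat_lit 2238, nat_lit 2246, nat_lit 2248, nat_lit 2252, nat_lit 2256, nat_lit 2260, nat_lit 2262, nat_lit 2268,
  nat_lit 2272, nat_lit 2276, nat_lit 2278, nat_lit 2280, nat_lit 2288, nat_lit 2292, nat_lit 2296, nat_lit 2298,
  nat_lit 2304, nat_lit 2308, nat_lit 2312, nat_lit 2318, nat_lit 2320, nat_lit 2324, nat_lit 2328, nat_lit 2336,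
  nat_lit 2338, nat_lit 2340, nat_lit 2344, nat_lit 2348, nat_lit 2354, nat_lit 2356, nat_lit 2360, nat_lit 2364,
  nat_lit 2368, nat_lit 2370, nat_lit 2378, nat_lit 2382, nat_lit 2390, nat_lit 2392, nat_lit 2394, nat_lit 2398,
  nat_lit 2402, nat_lit 2404, nat_lit 2406, nat_lit 2412, nat_lit 2416, nat_lit 2420, nat_lit 2426, nat_lit 2428,
  nat_lit 2430, nat_lit 2434, nat_lit 2438, nat_lit 2440, nat_lit 2442, nat_lit 2450, nat_lit 2454, nat_lit 2458,
  nat_lit 2460, nat_lit 2466, nat_lit 2470, nat_lit 2474, nat_lit 2480, nat_lit 2482, nat_lit 2486, nat_lit 2490,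
  nat_lit 2498, nat_lit 2500, nat_lit 2502, nat_lit 2506, nat_lit 2510, nat_lit 2512, nat_lit 2514, nat_lit 2520,
  nat_lit 2524, nat_lit 2528, nat_lit 2534, nat_lit 2536, nat_lit 2538, nat_lit 2542, nat_lit 2546, nat_lit 2548,
  nat_lit 2550, nat_lit 2558, nat_lit 2562, nat_lit 2570, nat_lit 2572, nat_lit 2576, nat_lit 2580, nat_lit 2584,
  nat_lit 2586, nat_lit 2594, nat_lit 2598, nat_lit 2606, nat_lit 2608, nat_lit 2610, nat_lit 2614, nat_lit 2618,
  nat_lit 2624, nat_lit 2626, nat_lit 2630, nat_lit 2634, nat_lit 2638, nat_lit 2640, nat_lit 2646, nat_lit 2650,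
  nat_lit 2654, nat_lit 2656, nat_lit 2658, nat_lit 2666, nat_lit 2670, nat_lit 2678, nat_lit 2680, nat_lit 2684,
  nat_lit 2688, nat_lit 2692, nat_lit 2694, nat_lit 2702, nat_lit 2706, nat_lit 2714, nat_lit 2716, nat_lit 2718,
  nat_lit 2722, nat_lit 2726, nat_lit 2728, nat_lit 2730, nat_lit 2736, nat_lit 2740, nat_lit 2744, nat_lit 2750,
  nat_lit 2752, nat_lit 2756, nat_lit 2760, nat_lit 2768, nat_lit 2770, nat_lit 2772, nat_lit 2776, nat_lit 2780,
  nat_lit 2786, nat_lit 2788, nat_lit 2792, nat_lit 2796, nat_lit 2800, nat_lit 2802, nat_lit 2808, nat_lit 2812,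
  nat_lit 2816, nat_lit 2818, nat_lit 2820, nat_lit 2828, nat_lit 2832, nat_lit 2836, nat_lit 2838, nat_lit 2844,
  nat_lit 2848, nat_lit 2852, nat_lit 2858, nat_lit 2860, nat_lit 2862, nat_lit 2866, nat_lit 2870, nat_lit 2872,
  nat_lit 2874, nat_lit 2882, nat_lit 2886, nat_lit 2894, nat_lit 2896, nat_lit 2900, nat_lit 2904, nat_lit 2908,
  nat_lit 2910, nat_lit 2916, nat_lit 2920, nat_lit 2924, nat_lit 2926, nat_lit 2928, nat_lit 2936, nat_lit 2940,
  nat_lit 2944, nat_lit 2946, nat_lit 2952, nat_lit 2956, nat_lit 2960, nat_lit 2966, nat_lit 2968, nat_lit 2972,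
  nat_lit 2976, nat_lit 2984, nat_lit 2986, nat_lit 2988, nat_lit 2992, nat_lit 2996, nat_lit 2998, nat_lit 3000,
  nat_lit 3006, nat_lit 3010, nat_lit 3014, nat_lit 3020, nat_lit 3022, nat_lit 3024, nat_lit 3028, nat_lit 3032,
  nat_lit 3034, nat_lit 3036, nat_lit 3044, nat_lit 3048, nat_lit 3056, nat_lit 3058, nat_lit 3062, nat_lit 3066,
  nat_lit 3070, nat_lit 3072, nat_lit 3080, nat_lit 3084, nat_lit 3092, nat_lit 3094, nat_lit 3096, nat_lit 3100,
  nat_lit 3104, nat_lit 3110, nat_lit 3112, nat_lit 3116, nat_lit 3120, nat_lit 3124, nat_lit 3126, nat_lit 3132,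
  nat_lit 3136, nat_lit 3140, nat_lit 3142, nat_lit 3144, nat_lit 3152, nat_lit 3156, nat_lit 3160, nat_lit 3162,
  nat_lit 3168, nat_lit 3172, nat_lit 3176, nat_lit 3182, nat_lit 3184, nat_lit 3186, nat_lit 3190, nat_lit 3194,
  nat_lit 3196, nat_lit 3198, nat_lit 3206, nat_lit 3210, nat_lit 3218, nat_lit 3220, nat_lit 3224, nat_lit 3228,
  nat_lit 3232, nat_lit 3234, nat_lit 3240, nat_lit 3244, nat_lit 3248, nat_lit 3250, nat_lit 3252, nat_lit 3260,
  nat_lit 3264, nat_lit 3268, nat_lit 3270, nat_lit 3276, nat_lit 3280, nat_lit 3284, nat_lit 3290, nat_lit 3292,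
  nat_lit 3296, nat_lit 3300, nat_lit 3308, nat_lit 3310, nat_lit 3312, nat_lit 3316, nat_lit 3320, nat_lit 3326,
  nat_lit 3328, nat_lit 3332, nat_lit 3336, nat_lit 3340, nat_lit 3342, nat_lit 3350, nat_lit 3354, nat_lit 3362,
  nat_lit 3364, nat_lit 3366, nat_lit 3370, nat_lit 3374, nat_lit 3376, nat_lit 3378, nat_lit 3384, nat_lit 3388,
  nat_lit 3392, nat_lit 3398, nat_lit 3400, nat_lit 3404, nat_lit 3408, nat_lit 3416, nat_lit 3418, nat_lit 3420,
  nat_lit 3424, nat_lit 3428, nat_lit 3434, nat_lit 3436, nat_lit 3440, nat_lit 3444, nat_lit 3448, nat_lit 3450,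
  nat_lit 3456, nat_lit 3460, nat_lit 3464, nat_lit 3466, nat_lit 3468, nat_lit 3476, nat_lit 3480, nat_lit 3488,
  nat_lit 3490, nat_lit 3494, nat_lit 3498, nat_lit 3502, nat_lit 3504, nat_lit 3512, nat_lit 3516, nat_lit 3524,
  nat_lit 3526, nat_lit 3528, nat_lit 3532, nat_lit 3536, nat_lit 3538, nat_lit 3540, nat_lit 3546, nat_lit 3550,
  nat_lit 3554, nat_lit 3560, nat_lit 3562, nat_lit 3564, nat_lit 3568, nat_lit 3572, nat_lit 3574, nat_lit 3576,
  nat_lit 3584, nat_lit 3588, nat_lit 3592, nat_lit 3594, nat_lit 3600, nat_lit 3604, nat_lit 3608, nat_lit 3614,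
  nat_lit 3616, nat_lit 3620, nat_lit 3624, nat_lit 3632, nat_lit 3634, nat_lit 3636, nat_lit 3640, nat_lit 3644,
  nat_lit 3650, nat_lit 3652, nat_lit 3656, nat_lit 3660, nat_lit 3664, nat_lit 3666, nat_lit 3674, nat_lit 3678,
  nat_lit 3686, nat_lit 3688, nat_lit 3690, nat_lit 3694, nat_lit 3698, nat_lit 3700, nat_lit 3702, nat_lit 3708,
  nat_lit 3712, nat_lit 3716, nat_lit 3722, nat_lit 3724, nat_lit 3728, nat_lit 3732, nat_lit 3740, nat_lit 3742,
  nat_lit 3744, nat_lit 3748, nat_lit 3752, nat_lit 3758, nat_lit 3760, nat_lit 3764, nat_lit 3768, nat_lit 3772,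
  nat_lit 3774, nat_lit 3780, nat_lit 3784, nat_lit 3788, nat_lit 3790, nat_lit 3792, nat_lit 3800, nat_lit 3804,
  nat_lit 3808, nat_lit 3810, nat_lit 3816, nat_lit 3820, nat_lit 3824, nat_lit 3830, nat_lit 3832, nat_lit 3834,
  nat_lit 3838, nat_lit 3842, nat_lit 3844, nat_lit 3846, nat_lit 3854, nat_lit 3858, nat_lit 3866, nat_lit 3868,
  nat_lit 3872, nat_lit 3876, nat_lit 3880, nat_lit 3882, nat_lit 3890, nat_lit 3894, nat_lit 3902, nat_lit 3904,
  nat_lit 3906, nat_lit 3910, nat_lit 3914, nat_lit 3920, nat_lit 3922, nat_lit 3926, nat_lit 3930, nat_lit 3934,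
  nat_lit 3936, nat_lit 3942, nat_lit 3946, nat_lit 3950, nat_lit 3952, nat_lit 3954, nat_lit 3962, nat_lit 3966,
  nat_lit 3974, nat_lit 3976, nat_lit 3980, nat_lit 3984, nat_lit 3988, nat_lit 3990, nat_lit 3998, nat_lit 4002,
  nat_lit 4010, nat_lit 4012, nat_lit 4014, nat_lit 4018, nat_lit 4022, nat_lit 4024, nat_lit 4026, nat_lit 4032,
  nat_lit 4036, nat_lit 4040, nat_lit 4046, nat_lit 4048, nat_lit 4050, nat_lit 4054, nat_lit 4058, nat_lit 4060,
  nat_lit 4062, nat_lit 4070, nat_lit 4074, nat_lit 4078, nat_lit 4080, nat_lit 4086, nat_lit 4090, nat_lit 4094,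
  nat_lit 4100, nat_lit 4102, nat_lit 4106, nat_lit 4110, nat_lit 4118, nat_lit 4120, nat_lit 4122, nat_lit 4126,
  nat_lit 4130, nat_lit 4132, nat_lit 4134, nat_lit 4140, nat_lit 4144, nat_lit 4148, nat_lit 4154, nat_lit 4156,
  nat_lit 4158, nat_lit 4162, nat_lit 4166, nat_lit 4168, nat_lit 4170, nat_lit 4178, nat_lit 4182, nat_lit 4190,
  nat_lit 4192, nat_lit 4196, nat_lit 4200, nat_lit 4204, nat_lit 4206, nat_lit 4212, nat_lit 4216, nat_lit 4220,
  nat_lit 4222, nat_lit 4224, nat_lit 4232, nat_lit 4236, nat_lit 4240, nat_lit 4242, nat_lit 4248, nat_lit 4252,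
  nat_lit 4256, nat_lit 4262, nat_lit 4264, nat_lit 4268, nat_lit 4272, nat_lit 4280, nat_lit 4282, nat_lit 4284,
  nat_lit 4288, nat_lit 4292, nat_lit 4298, nat_lit 4300, nat_lit 4304, nat_lit 4308, nat_lit 4312, nat_lit 4314,
  nat_lit 4322, nat_lit 4326, nat_lit 4334, nat_lit 4336, nat_lit 4338, nat_lit 4342, nat_lit 4346, nat_lit 4348,
  nat_lit 4350, nat_lit 4356, nat_lit 4360, nat_lit 4364, nat_lit 4370, nat_lit 4372, nat_lit 4376, nat_lit 4380,
  nat_lit 4388, nat_lit 4390, nat_lit 4392, nat_lit 4396, nat_lit 4400, nat_lit 4406, nat_lit 4408, nat_lit 4412,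
  nat_lit 4416, nat_lit 4420, nat_lit 4422, nat_lit 4428, nat_lit 4432, nat_lit 4436, nat_lit 4438, nat_lit 4440,
  nat_lit 4448, nat_lit 4452, nat_lit 4460, nat_lit 4462, nat_lit 4466, nat_lit 4470, nat_lit 4474, nat_lit 4476,
  nat_lit 4484, nat_lit 4488, nat_lit 4496, nat_lit 4498, nat_lit 4500, nat_lit 4504, nat_lit 4508, nat_lit 4510,
  nat_lit 4512, nat_lit 4518, nat_lit 4522, nat_lit 4526, nat_lit 4532, nat_lit 4534, nat_lit 4536, nat_lit 4540,
  nat_lit 4544, nat_lit 4546, nat_lit 4548, nat_lit 4556, nat_lit 4560, nat_lit 4564, nat_lit 4566, nat_lit 4572,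
  nat_lit 4576, nat_lit 4580, nat_lit 4586, nat_lit 4588, nat_lit 4592, nat_lit 4596, nat_lit 4604, nat_lit 4606,
  nat_lit 4608, nat_lit 4612, nat_lit 4616, nat_lit 4622, nat_lit 4624, nat_lit 4628, nat_lit 4632, nat_lit 4636,
  nat_lit 4638, nat_lit 4646, nat_lit 4650, nat_lit 4658, nat_lit 4660, nat_lit 4662, nat_lit 4666, nat_lit 4670,
  nat_lit 4672, nat_lit 4674, nat_lit 4680, nat_lit 4684, nat_lit 4688, nat_lit 4694, nat_lit 4696, nat_lit 4700,
  nat_lit 4704, nat_lit 4712, nat_lit 4714, nat_lit 4716, nat_lit 4720, nat_lit 4724, nat_lit 4730, nat_lit 4732,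
  nat_lit 4736, nat_lit 4740, nat_lit 4744, nat_lit 4746, nat_lit 4752, nat_lit 4756, nat_lit 4760, nat_lit 4762,
  nat_lit 4764, nat_lit 4772, nat_lit 4776, nat_lit 4780, nat_lit 4782, nat_lit 4788, nat_lit 4792, nat_lit 4796,
  nat_lit 4802, nat_lit 4804, nat_lit 4806, nat_lit 4810, nat_lit 4814, nat_lit 4816, nat_lit 4818, nat_lit 4826,
  nat_lit 4830, nat_lit 4838, nat_lit 4840, nat_lit 4844, nat_lit 4848, nat_lit 4852, nat_lit 4854, nat_lit 4860,
  nat_lit 4864, nat_lit 4868, nat_lit 4870, nat_lit 4872, nat_lit 4880, nat_lit 4884, nat_lit 4888, nat_lit 4890,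
  nat_lit 4896, nat_lit 4900, nat_lit 4904, nat_lit 4910, nat_lit 4912, nat_lit 4916, nat_lit 4920, nat_lit 4928,
  nat_lit 4930, nat_lit 4932, nat_lit 4936, nat_lit 4940, nat_lit 4942, nat_lit 4944, nat_lit 4950, nat_lit 4954,
  nat_lit 4958, nat_lit 4964, nat_lit 4966, nat_lit 4968, nat_lit 4972, nat_lit 4976, nat_lit 4978, nat_lit 4980,
  nat_lit 4988, nat_lit 4992, nat_lit 5000, nat_lit 5002, nat_lit 5006, nat_lit 5010, nat_lit 5014, nat_lit 5016,
  nat_lit 5024, nat_lit 5028, nat_lit 5036, nat_lit 5038, nat_lit 5040, nat_lit 5044, nat_lit 5048, nat_lit 5054,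
  nat_lit 5056, nat_lit 5060, nat_lit 5064, nat_lit 5068, nat_lit 5070, nat_lit 5076, nat_lit 5080, nat_lit 5084,
  nat_lit 5086, nat_lit 5088, nat_lit 5096, nat_lit 5100, nat_lit 5108, nat_lit 5110, nat_lit 5114, nat_lit 5118,
  nat_lit 5122, nat_lit 5124, nat_lit 5132, nat_lit 5136, nat_lit 5144, nat_lit 5146, nat_lit 5148, nat_lit 5152,
  nat_lit 5156, nat_lit 5158, nat_lit 5160, nat_lit 5166, nat_lit 5170, nat_lit 5174, nat_lit 5180, nat_lit 5182,
  nat_lit 5186, nat_lit 5190, nat_lit 5198, nat_lit 5200, nat_lit 5202, nat_lit 5206, nat_lit 5210, nat_lit 5216,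
  nat_lit 5218, nat_lit 5222, nat_lit 5226, nat_lit 5230, nat_lit 5232, nat_lit 5238, nat_lit 5242, nat_lit 5246,
  nat_lit 5248, nat_lit 5250, nat_lit 5258, nat_lit 5262, nat_lit 5266, nat_lit 5268, nat_lit 5274, nat_lit 5278,
  nat_lit 5282, nat_lit 5288, nat_lit 5290, nat_lit 5292, nat_lit 5296, nat_lit 5300, nat_lit 5302, nat_lit 5304,
  nat_lit 5312, nat_lit 5316, nat_lit 5324, nat_lit 5326, nat_lit 5330, nat_lit 5334, nat_lit 5338, nat_lit 5340,
  nat_lit 5348, nat_lit 5352, nat_lit 5360, nat_lit 5362, nat_lit 5364, nat_lit 5368, nat_lit 5372, nat_lit 5378,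
  nat_lit 5380, nat_lit 5384, nat_lit 5388, nat_lit 5392, nat_lit 5394, nat_lit 5400, nat_lit 5404, nat_lit 5408,
  nat_lit 5410, nat_lit 5412, nat_lit 5420, nat_lit 5424, nat_lit 5432, nat_lit 5434, nat_lit 5438, nat_lit 5442,
  nat_lit 5446, nat_lit 5448, nat_lit 5456, nat_lit 5460, nat_lit 5468, nat_lit 5470, nat_lit 5472, nat_lit 5476,
  nat_lit 5480, nat_lit 5482, nat_lit 5484, nat_lit 5490, nat_lit 5494, nat_lit 5498, nat_lit 5504, nat_lit 5506,
  nat_lit 5508, nat_lit 5512, nat_lit 5516, nat_lit 5518, nat_lit 5520, nat_lit 5528, nat_lit 5532, nat_lit 5536,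
  nat_lit 5538, nat_lit 5544, nat_lit 5548, nat_lit 5552, nat_lit 5558, nat_lit 5560, nat_lit 5564, nat_lit 5568,
  nat_lit 5576, nat_lit 5578, nat_lit 5580, nat_lit 5584, nat_lit 5588, nat_lit 5590, nat_lit 5592, nat_lit 5598,
  nat_lit 5602, nat_lit 5606, nat_lit 5612, nat_lit 5614, nat_lit 5616, nat_lit 5620, nat_lit 5624, nat_lit 5626,
  nat_lit 5628, nat_lit 5636, nat_lit 5640, nat_lit 5648, nat_lit 5650, nat_lit 5654, nat_lit 5658, nat_lit 5662,
  nat_lit 5664, nat_lit 5670, nat_lit 5674, nat_lit 5678, nat_lit 5680, nat_lit 5682, nat_lit 5690, nat_lit 5694,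
  nat_lit 5698, nat_lit 5700, nat_lit 5706, nat_lit 5710, nat_lit 5714, nat_lit 5720, nat_lit 5722, nat_lit 5726,
  nat_lit 5730, nat_lit 5738, nat_lit 5740, nat_lit 5742, nat_lit 5746, nat_lit 5750, nat_lit 5756, nat_lit 5758,
  nat_lit 5762, nat_lit 5766, nat_lit 5770, nat_lit 5772, nat_lit 5780, nat_lit 5784, nat_lit 5792, nat_lit 5794,
  nat_lit 5796, nat_lit 5800, nat_lit 5804, nat_lit 5806, nat_lit 5808, nat_lit 5814, nat_lit 5818, nat_lit 5822,
  nat_lit 5828, nat_lit 5830, nat_lit 5832, nat_lit 5836, nat_lit 5840, nat_lit 5842, nat_lit 5844, nat_lit 5852,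
  nat_lit 5856, nat_lit 5860, nat_lit 5862, nat_lit 5868, nat_lit 5872, nat_lit 5876, nat_lit 5882, nat_lit 5884,
  nat_lit 5888, nat_lit 5892, nat_lit 5900, nat_lit 5902, nat_lit 5904, nat_lit 5908, nat_lit 5912, nat_lit 5914,
  nat_lit 5916, nat_lit 5922, nat_lit 5926, nat_lit 5930, nat_lit 5936, nat_lit 5938, nat_lit 5940, nat_lit 5944,
  nat_lit 5948, nat_lit 5950, nat_lit 5952, nat_lit 5960, nat_lit 5964, nat_lit 5972, nat_lit 5974, nat_lit 5978,
  nat_lit 5982, nat_lit 5986, nat_lit 5988, nat_lit 5996, nat_lit 6000, nat_lit 6008, nat_lit 6010, nat_lit 6012,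
  nat_lit 6016, nat_lit 6020, nat_lit 6026, nat_lit 6028, nat_lit 6032, nat_lit 6036, nat_lit 6040, nat_lit 6042,
  nat_lit 6048, nat_lit 6052, nat_lit 6056, nat_lit 6058, nat_lit 6060, nat_lit 6068, nat_lit 6072, nat_lit 6076,
  nat_lit 6078, nat_lit 6084, nat_lit 6088, nat_lit 6092, nat_lit 6098, nat_lit 6100, nat_lit 6102, nat_lit 6106,
  nat_lit 6110, nat_lit 6112, nat_lit 6114, nat_lit 6122, nat_lit 6126, nat_lit 6134, nat_lit 6136, nat_lit 6140,
  nat_lit 6144, nat_lit 6148, nat_lit 6150, nat_lit 6156, nat_lit 6160, nat_lit 6164, nat_lit 6166, nat_lit 6168,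
  nat_lit 6176, nat_lit 6180, nat_lit 6184, nat_lit 6186, nat_lit 6192, nat_lit 6196, nat_lit 6200, nat_lit 6206,
  nat_lit 6208, nat_lit 6212, nat_lit 6216, nat_lit 6224, nat_lit 6226, nat_lit 6228, nat_lit 6232, nat_lit 6236,
  nat_lit 6242, nat_lit 6244, nat_lit 6248, nat_lit 6252, nat_lit 6256, nat_lit 6258, nat_lit 6266, nat_lit 6270,
  nat_lit 6278, nat_lit 6280, nat_lit 6282, nat_lit 6286, nat_lit 6290, nat_lit 6292, nat_lit 6294, nat_lit 6300,
  nat_lit 6304, nat_lit 6308, nat_lit 6314, nat_lit 6316, nat_lit 6320, nat_lit 6324, nat_lit 6332, nat_lit 6334,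
  nat_lit 6336, nat_lit 6340, nat_lit 6344, nat_lit 6350, nat_lit 6352, nat_lit 6356, nat_lit 6360, nat_lit 6364,
  nat_lit 6366, nat_lit 6372, nat_lit 6376, nat_lit 6380, nat_lit 6382, nat_lit 6384, nat_lit 6392, nat_lit 6396,
  nat_lit 6404, nat_lit 6406, nat_lit 6410, nat_lit 6414, nat_lit 6418, nat_lit 6420, nat_lit 6428, nat_lit 6432,
  nat_lit 6440, nat_lit 6442, nat_lit 6444, nat_lit 6448, nat_lit 6452, nat_lit 6454, nat_lit 6456, nat_lit 6462,
  nat_lit 6466, nat_lit 6470, nat_lit 6476, nat_lit 6478, nat_lit 6480, nat_lit 6484, nat_lit 6488, nat_lit 6490,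
  nat_lit 6492, nat_lit 6500, nat_lit 6504, nat_lit 6508, nat_lit 6510, nat_lit 6516, nat_lit 6520, nat_lit 6524,
  nat_lit 6530, nat_lit 6532, nat_lit 6536, nat_lit 6540, nat_lit 6548, nat_lit 6550, nat_lit 6552, nat_lit 6556,
  nat_lit 6560]

def TT : Type :=
  Nat → Nat → Nat → Nat → Nat → Nat → Nat → Nat → Nat → Nat → Nat → Nat → Nat → Nat → Nat → Nat →
  Nat → Nat → Nat → Nat → Nat → Nat → Nat → Nat → Nat → Nat → Nat → Nat → Nat → Nat → Nat → Nat →
  Nat → Nat → Nat → Nat → Nat → Nat → Nat → Nat → Nat → Nat → Nat → Nat → Nat → Nat → Nat → Nat →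
  Nat → Nat → Nat → Nat → Nat → Nat → Nat → Nat → Nat → Nat → Nat → Nat → Nat → Nat → Nat → Nat →
  Nat → Nat → Nat → Nat → Nat → Nat → Nat → Nat → Nat → Nat → Nat → Nat → Nat → Nat → Nat → Nat →
  Nat → Nat → Nat → Nat → Nat → Nat → Nat → Nat → Nat → Nat → Nat → Nat → Nat → Nat → Nat → Nat →
  Nat → Nat → Nat → Nat → Nat → Nat → Nat → Nat → Nat → Nat → Nat → Nat → Nat → Nat → Nat → Nat →
  Nat → Nat → Nat → Nat → Nat → Nat → Nat → Nat → Nat → Nat → Nat → Nat → Nat → Nat → Nat → Nat →
  Nat → Nat → Nat → Nat → Nat → Nat → Nat → Nat → Nat → Nat → Nat → Nat → Nat → Nat → Nat → Nat →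
  Nat → Nat → Nat → Nat → Nat → Nat → Nat → Nat → Nat → Nat → Nat → Nat → Nat → Nat → Nat → Nat →
  Nat → Nat → Nat → Nat → Nat → Nat → Nat → Nat → Nat → Nat → Nat → Nat → Nat → Nat → Nat → Nat →
  Nat → Nat → Nat → Nat → Nat → Nat → Nat → Nat → Nat → Nat → Nat → Nat → Nat → Nat → Nat → Nat →
  Nat → Nat → Nat → Nat → Nat → Nat → Nat → Nat → Nat → Nat → Nat → Nat → Nat → Nat → Nat → Nat →
  Nat → Nat → Nat → Nat → Nat → Nat → Nat → Nat → Nat → Nat → Nat → Nat → Nat → Nat → Nat → Nat →
  Nat → Nat → Nat → Nat → Nat → Nat → Nat → Nat → Nat → Nat → Nat → Nat → Nat → Nat → Nat → Nat →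
  Nat → Nat → Nat → Nat → Nat → Nat → Nat → Nat → Nat → Nat → Nat → Nat → Nat → Nat → Nat → Nat →
  Nat → Nat → Nat → Nat → Nat → Nat → Nat → Nat → Nat → Nat → Nat → Nat → Nat → Nat → Nat → Nat →
  Nat → Nat → Nat → Nat → Nat → Nat → Nat → Nat → Nat → Nat → Nat → Nat → Nat → Nat → Nat → Nat →
  Nat → Nat → Nat → Nat → Nat → Nat → Nat → Nat → Nat → Nat → Nat → Nat → Nat → Nat → Nat → Nat →
  Nat → Nat → Nat → Nat → Nat → Nat → Nat → Nat → Nat → Nat → Nat → Nat → Nat → Nat → Nat → Nat →
  Nat → Nat → Nat → Nat → Nat → Nat → Nat → Nat → Nat → Nat → Nat → Nat → Nat → Nat → Nat → Nat →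
  Nat → Nat → Nat → Nat → Nat → Nat → Nat → Nat → Nat → Nat → Nat → Nat → Nat → Nat → Nat → Nat →
  Nat → Nat → Nat → Nat → Nat → Nat → Nat → Nat → Nat → Nat → Nat → Nat → Nat → Nat → Nat → Nat →
  Nat → Nat → Nat → Nat → Nat → Nat → Nat → Nat → Nat → Nat → Nat → Nat → Nat → Nat → Nat → Nat →
  Nat → Nat → Nat → Nat → Nat → Nat → Nat → Nat → Nat → Nat → Nat → Nat → Nat → Nat → Nat → Nat →
  Nat → Nat → Nat → Nat → Nat → Nat → Nat → Nat → Nat → Nat → Nat → Nat → Nat → Nat → Nat → Nat →
  Nat → Nat → Nat → Nat → Nat → Nat → Nat → Nat → Nat → Nat → Nat → Nat → Nat → Nat → Nat → Nat →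
  Nat → Nat → Nat → Nat → Nat → Nat → Nat → Nat → Nat → Nat → Nat → Nat → Nat → Nat → Nat → Nat →
  Nat → Nat → Nat → Nat → Nat → Nat → Nat → Nat → Nat → Nat → Nat → Nat → Nat → Nat → Nat → Nat →
  Nat → Nat → Nat → Nat → Nat → Nat → Nat → Nat → Nat → Nat → Nat → Nat → Nat → Nat → Nat → Nat →
  Nat → Nat → Nat → Nat → Nat → Nat → Nat → Nat → Nat → Nat → Nat → Nat → Nat → Nat → Nat → Nat →
  Nat → Nat → Nat → Nat → Nat → Nat → Nat → Nat → Nat → Nat → Nat → Nat → Nat → Nat → Nat → Nat →
  Nat → Nat → Nat → Nat → Nat → Nat → Nat → Nat → Nat → Nat → Nat → Nat → Nat → Nat → Nat → Nat →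
  Nat → Nat → Nat → Nat → Nat → Nat → Nat → Nat → Nat → Nat → Nat → Nat → Nat → Nat → Nat → Nat →
  Nat → Nat → Nat → Nat → Nat → Nat → Nat → Nat → Nat → Nat → Nat → Nat → Nat → Nat → Nat → Nat →
  Nat → Nat → Nat → Nat → Nat → Nat → Nat → Nat → Nat → Nat → Nat → Nat → Nat → Nat → Nat → Nat →
  Nat → Nat → Nat → Nat → Nat → Nat → Nat → Nat → Nat → Nat → Nat → Nat → Nat → Nat → Nat → Nat →
  Nat → Nat → Nat → Nat → Nat → Nat → Nat → Nat → Nat → Nat → Nat → Nat → Nat → Nat → Nat → Nat →
  Nat → Nat → Nat → Nat → Nat → Nat → Nat → Nat → Nat → Nat → Nat → Nat → Nat → Nat → Nat → Nat →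
  Nat → Nat → Nat → Nat → Nat → Nat → Nat → Nat → Nat → Nat → Nat → Nat → Nat → Nat → Nat → Nat →
  Nat → Nat → Nat → Nat → Nat → Nat → Nat → Nat → Nat → Nat → Nat → Nat → Nat → Nat → Nat → Nat →
  Nat → Nat → Nat → Nat → Nat → Nat → Nat → Nat → Nat → Nat → Nat → Nat → Nat → Nat → Nat → Nat →
  Nat → Nat → Nat → Nat → Nat → Nat → Nat → Nat → Nat → Nat → Nat → Nat → Nat → Nat → Nat → Nat →
  Nat → Nat → Nat → Nat → Nat → Nat → Nat → Nat → Nat → Nat → Nat → Nat → Nat → Nat → Nat → Nat →
  Nat → Nat → Nat → Nat → Nat → Nat → Nat → Nat → Nat → Nat → Nat → Nat → Nat → Nat → Nat → Nat →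
  Nat → Nat → Nat → Nat → Nat → Nat → Nat → Nat → Nat → Nat → Nat → Nat → Nat → Nat → Nat → Nat →
  Nat → Nat → Nat → Nat → Nat → Nat → Nat → Nat → Nat → Nat → Nat → Nat → Nat → Nat → Nat → Nat →
  Nat → Nat → Nat → Nat → Nat → Nat → Nat → Nat → Nat → Nat → Nat → Nat → Nat → Nat → Nat → Nat →
  Nat → Nat → Nat → Nat → Nat → Nat → Nat → Nat → Nat → Nat → Nat → Nat → Nat → Nat → Nat → Nat →
  Nat → Nat → Nat → Nat → Nat → Nat → Nat → Nat → Nat → Nat → Nat → Nat → Nat → Nat → Nat → Nat →
  Nat → Nat → Nat → Nat → Nat → Nat → Nat → Nat → Nat → Nat → Nat → Nat → Nat → Nat → Nat → Nat →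
  Nat → Nat → Nat → Nat → Nat → Nat → Nat → Nat → Nat → Nat → Nat → Nat → Nat → Nat → Nat → Nat →
  Nat → Nat → Nat → Nat → Nat → Nat → Nat → Nat → Nat → Nat → Nat → Nat → Nat → Nat → Nat → Nat →
  Nat → Nat → Nat → Nat → Nat → Nat → Nat → Nat → Nat → Nat → Nat → Nat → Nat → Nat → Nat → Nat →
  Nat → Nat → Nat → Nat → Nat → Nat → Nat → Nat → Nat → Nat → Nat → Nat → Nat → Nat → Nat → Nat →
  Nat → Nat → Nat → Nat → Nat → Nat → Nat → Nat → Nat → Nat → Nat → Nat → Nat → Nat → Nat → Nat →
  Nat → Nat → Nat → Nat → Nat → Nat → Nat → Nat → Nat → Nat → Nat → Nat → Nat → Nat → Nat → Nat →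
  Nat → Nat → Nat → Nat → Nat → Nat → Nat → Nat → Nat → Nat → Nat → Nat → Nat → Nat → Nat → Nat →
  Nat → Nat → Nat → Nat → Nat → Nat → Nat → Nat → Nat → Nat → Nat → Nat → Nat → Nat → Nat → Nat →
  Nat → Nat → Nat → Nat → Nat → Nat → Nat → Nat → Nat → Nat → Nat → Nat → Nat → Nat → Nat → Nat →
  Nat → Nat → Nat → Nat → Nat → Nat → Nat → Nat → Nat → Nat → Nat → Nat → Nat → Nat → Nat → Nat →
  Nat → Nat → Nat → Nat → Nat → Nat → Nat → Nat → Nat → Nat → Nat → Nat → Nat → Nat → Nat → Nat →
  Nat → Nat → Nat → Nat → Nat → Nat → Nat → Nat → Nat → Nat → Nat → Nat → Nat → Nat → Nat → Nat →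
  Nat → Nat → Nat → Nat → Nat → Nat → Nat → Nat → Nat → Nat → Nat → Nat → Nat → Nat → Nat → Nat →
  Nat → Nat → Nat → Nat → Nat → Nat → Nat → Nat → Nat → Nat → Nat → Nat → Nat → Nat → Nat → Nat →
  Nat → Nat → Nat → Nat → Nat → Nat → Nat → Nat → Nat → Nat → Nat → Nat → Nat → Nat → Nat → Nat →
  Nat → Nat → Nat → Nat → Nat → Nat → Nat → Nat → Nat → Nat → Nat → Nat → Nat → Nat → Nat → Nat →
  Nat → Nat → Nat → Nat → Nat → Nat → Nat → Nat → Nat → Nat → Nat → Nat → Nat → Nat → Nat → Nat →
  Nat → Nat → Nat → Nat → Nat → Nat → Nat → Nat → Nat → Nat → Nat → Nat → Nat → Nat → Nat → Nat →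
  Nat → Nat → Nat → Nat → Nat → Nat → Nat → Nat → Nat → Nat → Nat → Nat → Nat → Nat → Nat → Nat →
  Nat → Nat → Nat → Nat → Nat → Nat → Nat → Nat → Nat → Nat → Nat → Nat → Nat → Nat → Nat → Nat →
  Nat → Nat → Nat → Nat → Nat → Nat → Nat → Nat → Nat → Nat → Nat → Nat → Nat → Nat → Nat → Nat →
  Nat → Nat → Nat → Nat → Nat → Nat → Nat → Nat → Nat → Nat → Nat → Nat → Nat → Nat → Nat → Nat →
  Nat → Nat → Nat → Nat → Nat → Nat → Nat → Nat → Nat → Nat → Nat → Nat → Nat → Nat → Nat → Nat →
  Nat → Nat → Nat → Nat → Nat → Nat → Nat → Nat → Nat → Nat → Nat → Nat → Nat → Nat → Nat → Nat →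
  Nat → Nat → Nat → Nat → Nat → Nat → Nat → Nat → Nat → Nat → Nat → Nat → Nat → Nat → Nat → Nat →
  Nat → Nat → Nat → Nat → Nat → Nat → Nat → Nat → Nat → Nat → Nat → Nat → Nat → Nat → Nat → Nat →
  Nat → Nat → Nat → Nat → Nat → Nat → Nat → Nat → Nat → Nat → Nat → Nat → Nat → Nat → Nat → Nat →
  Nat → Nat → Nat → Nat → Nat → Nat → Nat → Nat → Nat → Nat → Nat → Nat → Nat → Nat → Nat → Nat →
  Nat → Nat → Nat → Nat → Nat → Nat → Nat → Nat → Nat → Nat → Nat → Nat → Nat → Nat → Nat → Nat →
  Nat → Nat → Nat → Nat → Nat → Nat → Nat → Nat → Nat → Nat → Nat → Nat → Nat → Nat → Nat → Nat →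
  Nat → Nat → Nat → Nat → Nat → Nat → Nat → Nat → Nat → Nat → Nat → Nat → Nat → Nat → Nat → Nat →
  Nat → Nat → Nat → Nat → Nat → Nat → Nat → Nat → Nat → Nat → Nat → Nat → Nat → Nat → Nat → Nat →
  Nat → Nat → Nat → Nat → Nat → Nat → Nat → Nat → Nat → Nat → Nat → Nat → Nat → Nat → Nat → Nat →
  Nat → Nat → Nat → Nat → Nat → Nat → Nat → Nat → Nat → Nat → Nat → Nat → Nat → Nat → Nat → Nat →
  Nat → Nat → Nat → Nat → Nat → Nat → Nat → Nat → Nat → Nat → Nat → Nat → Nat → Nat → Nat → Nat →
  Nat → Nat → Nat → Nat → Nat → Nat → Nat → Nat → Nat → Nat → Nat → Nat → Nat → Nat → Nat → Nat →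
  Nat → Nat → Nat → Nat → Nat → Nat → Nat → Nat → Nat → Nat → Nat → Nat → Nat → Nat → Nat → Nat →
  Nat → Nat → Nat → Nat → Nat → Nat → Nat → Nat → Nat → Nat → Nat → Nat → Nat → Nat → Nat → Nat →
  Nat → Nat → Nat → Nat → Nat → Nat → Nat → Nat → Nat → Nat → Nat → Nat → Nat → Nat → Nat → Nat →
  Nat → Nat → Nat → Nat → Nat → Nat → Nat → Nat → Nat → Nat → Nat → Nat → Nat → Nat → Nat → Nat →
  Nat → Nat → Nat → Nat → Nat → Nat → Nat → Nat → Nat → Nat → Nat → Nat → Nat → Nat → Nat → Nat →
  Nat → Nat → Nat → Nat → Nat → Nat → Nat → Nat → Nat → Nat → Nat → Nat → Nat → Nat → Nat → Nat →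
  Nat → Nat → Nat → Nat → Nat → Nat → Nat → Nat → Nat → Nat → Nat → Nat → Nat → Nat → Nat → Nat →
  Nat → Nat → Nat → Nat → Nat → Nat → Nat → Nat → Nat → Nat → Nat → Nat → Nat → Nat → Nat → Nat →
  Nat → Nat → Nat → Nat → Nat → Nat → Nat → Nat → Nat → Nat → Nat → Nat → Nat → Nat → Nat → Nat →
  Nat → Nat → Nat → Nat → Nat → Nat → Nat → Nat → Nat → Nat → Nat → Nat → Nat → Nat → Nat → Nat →
  Nat → Nat → Nat → Nat → Nat → Nat → Nat → Nat → Nat → Nat → Nat → Nat → Nat → Nat → Nat → Nat →
  Nat → Nat → Nat → Nat → Nat → Nat → Nat → Nat → Nat → Nat → Nat → Nat → Nat → Nat → Nat → Nat →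
  Nat → Nat → Nat → Nat → Nat → Nat → Nat → Nat → Nat → Nat → Nat → Nat → Nat → Nat → Nat → Nat →
  Nat → Nat → Nat → Nat → Nat → Nat → Nat → Nat → Nat → Nat → Nat → Nat → Nat → Nat → Nat → Nat →
  Nat → Nat → Nat → Nat → Nat → Nat → Nat → Nat → Nat → Nat → Nat → Nat → Nat → Nat → Nat → Nat →
  Nat → Nat → Nat → Nat → Nat → Nat → Nat → Nat → Nat → Bool

noncomputable def base : TT :=
  fun _ _ _ _ _ _ _ _ _ _ _ _ _ _ _ _ _ _ _ _ _ _ _ _ _ _ _ _ _ _ _ _ _ _ _ _ _ _ _ _
  _ _ _ _ _ _ _ _ _ _ _ _ _ _ _ _ _ _ _ _ _ _ _ _ _ _ _ _ _ _ _ _ _ _ _ _ _ _ _ _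
  _ _ _ _ _ _ _ _ _ _ _ _ _ _ _ _ _ _ _ _ _ _ _ _ _ _ _ _ _ _ _ _ _ _ _ _ _ _ _ _
  _ _ _ _ _ _ _ _ _ _ _ _ _ _ _ _ _ _ _ _ _ _ _ _ _ _ _ _ _ _ _ _ _ _ _ _ _ _ _ _
  _ _ _ _ _ _ _ _ _ _ _ _ _ _ _ _ _ _ _ _ _ _ _ _ _ _ _ _ _ _ _ _ _ _ _ _ _ _ _ _
  _ _ _ _ _ _ _ _ _ _ _ _ _ _ _ _ _ _ _ _ _ _ _ _ _ _ _ _ _ _ _ _ _ _ _ _ _ _ _ _
  _ _ _ _ _ _ _ _ _ _ _ _ _ _ _ _ _ _ _ _ _ _ _ _ _ _ _ _ _ _ _ _ _ _ _ _ _ _ _ _
  _ _ _ _ _ _ _ _ _ _ _ _ _ _ _ _ _ _ _ _ _ _ _ _ _ _ _ _ _ _ _ _ _ _ _ _ _ _ _ _
  _ _ _ _ _ _ _ _ _ _ _ _ _ _ _ _ _ _ _ _ _ _ _ _ _ _ _ _ _ _ _ _ _ _ _ _ _ _ _ _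
  _ _ _ _ _ _ _ _ _ _ _ _ _ _ _ _ _ _ _ _ _ _ _ _ _ _ _ _ _ _ _ _ _ _ _ _ _ _ _ _
  _ _ _ _ _ _ _ _ _ _ _ _ _ _ _ _ _ _ _ _ _ _ _ _ _ _ _ _ _ _ _ _ _ _ _ _ _ _ _ _
  _ _ _ _ _ _ _ _ _ _ _ _ _ _ _ _ _ _ _ _ _ _ _ _ _ _ _ _ _ _ _ _ _ _ _ _ _ _ _ _
  _ _ _ _ _ _ _ _ _ _ _ _ _ _ _ _ _ _ _ _ _ _ _ _ _ _ _ _ _ _ _ _ _ _ _ _ _ _ _ _
  _ _ _ _ _ _ _ _ _ _ _ _ _ _ _ _ _ _ _ _ _ _ _ _ _ _ _ _ _ _ _ _ _ _ _ _ _ _ _ _
  _ _ _ _ _ _ _ _ _ _ _ _ _ _ _ _ _ _ _ _ _ _ _ _ _ _ _ _ _ _ _ _ _ _ _ _ _ _ _ _
  _ _ _ _ _ _ _ _ _ _ _ _ _ _ _ _ _ _ _ _ _ _ _ _ _ _ _ _ _ _ _ _ _ _ _ _ _ _ _ _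
  _ _ _ _ _ _ _ _ _ _ _ _ _ _ _ _ _ _ _ _ _ _ _ _ _ _ _ _ _ _ _ _ _ _ _ _ _ _ _ _
  _ _ _ _ _ _ _ _ _ _ _ _ _ _ _ _ _ _ _ _ _ _ _ _ _ _ _ _ _ _ _ _ _ _ _ _ _ _ _ _
  _ _ _ _ _ _ _ _ _ _ _ _ _ _ _ _ _ _ _ _ _ _ _ _ _ _ _ _ _ _ _ _ _ _ _ _ _ _ _ _
  _ _ _ _ _ _ _ _ _ _ _ _ _ _ _ _ _ _ _ _ _ _ _ _ _ _ _ _ _ _ _ _ _ _ _ _ _ _ _ _
  _ _ _ _ _ _ _ _ _ _ _ _ _ _ _ _ _ _ _ _ _ _ _ _ _ _ _ _ _ _ _ _ _ _ _ _ _ _ _ _
  _ _ _ _ _ _ _ _ _ _ _ _ _ _ _ _ _ _ _ _ _ _ _ _ _ _ _ _ _ _ _ _ _ _ _ _ _ _ _ _
  _ _ _ _ _ _ _ _ _ _ _ _ _ _ _ _ _ _ _ _ _ _ _ _ _ _ _ _ _ _ _ _ _ _ _ _ _ _ _ _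
  _ _ _ _ _ _ _ _ _ _ _ _ _ _ _ _ _ _ _ _ _ _ _ _ _ _ _ _ _ _ _ _ _ _ _ _ _ _ _ _
  _ _ _ _ _ _ _ _ _ _ _ _ _ _ _ _ _ _ _ _ _ _ _ _ _ _ _ _ _ _ _ _ _ _ _ _ _ _ _ _
  _ _ _ _ _ _ _ _ _ _ _ _ _ _ _ _ _ _ _ _ _ _ _ _ _ _ _ _ _ _ _ _ _ _ _ _ _ _ _ _
  _ _ _ _ _ _ _ _ _ _ _ _ _ _ _ _ _ _ _ _ _ _ _ _ _ _ _ _ _ _ _ _ _ _ _ _ _ _ _ _
  _ _ _ _ _ _ _ _ _ _ _ _ _ _ _ _ _ _ _ _ _ _ _ _ _ _ _ _ _ _ _ _ _ _ _ _ _ _ _ _
  _ _ _ _ _ _ _ _ _ _ _ _ _ _ _ _ _ _ _ _ _ _ _ _ _ _ _ _ _ _ _ _ _ _ _ _ _ _ _ _
  _ _ _ _ _ _ _ _ _ _ _ _ _ _ _ _ _ _ _ _ _ _ _ _ _ _ _ _ _ _ _ _ _ _ _ _ _ _ _ _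
  _ _ _ _ _ _ _ _ _ _ _ _ _ _ _ _ _ _ _ _ _ _ _ _ _ _ _ _ _ _ _ _ _ _ _ _ _ _ _ _
  _ _ _ _ _ _ _ _ _ _ _ _ _ _ _ _ _ _ _ _ _ _ _ _ _ _ _ _ _ _ _ _ _ _ _ _ _ _ _ _
  _ _ _ _ _ _ _ _ _ _ _ _ _ _ _ _ _ _ _ _ _ _ _ _ _ _ _ _ _ _ _ _ _ _ _ _ _ _ _ _
  _ _ _ _ _ _ _ _ _ _ _ _ _ _ _ _ _ _ _ _ _ _ _ _ _ _ _ _ _ _ _ _ _ _ _ _ _ _ _ _
  _ _ _ _ _ _ _ _ _ _ _ _ _ _ _ _ _ _ _ _ _ _ _ _ _ _ _ _ _ _ _ _ _ _ _ _ _ _ _ _
  _ _ _ _ _ _ _ _ _ _ _ _ _ _ _ _ _ _ _ _ _ _ _ _ _ _ _ _ _ _ _ _ _ _ _ _ _ _ _ _
  _ _ _ _ _ _ _ _ _ _ _ _ _ _ _ _ _ _ _ _ _ _ _ _ _ _ _ _ _ _ _ _ _ _ _ _ _ _ _ _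
  _ _ _ _ _ _ _ _ _ _ _ _ _ _ _ _ _ _ _ _ _ _ _ _ _ _ _ _ _ _ _ _ _ _ _ _ _ _ _ _
  _ _ _ _ _ _ _ _ _ _ _ _ _ _ _ _ _ _ _ _ _ _ _ _ _ _ _ _ _ _ _ _ _ _ _ _ _ _ _ _
  _ _ _ _ _ _ _ _ _ _ _ _ _ _ _ _ _ _ _ _ _ _ _ _ _ _ _ _ _ _ _ _ _ _ _ _ _ _ _ _
  _ _ _ _ _ _ _ _ _ _ _ _ _ _ _ _ _ _ _ _ _ _ _ _ _ _ _ _ _ _ _ _ _ _ _ _ _ _ _ _
  _ => true

noncomputable def G (chk : List Nat → Bool) (C : Nat) (k : TT) : TT :=
  fun x0 x4 x8 x10 x12 x20 x24 x28 x30 x36 x40 x44 x50 x52 x56 x60
  x68 x70 x72 x76 x80 x82 x84 x90 x94 x98 x104 x106 x108 x112 x116 x118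
  x120 x128 x132 x140 x142 x146 x150 x154 x156 x164 x168 x176 x178 x180 x184 x188
  x194 x196 x200 x204 x208 x210 x216 x220 x224 x226 x228 x236 x240 x244 x246 x252
  x256 x260 x266 x268 x270 x274 x278 x280 x282 x290 x294 x302 x304 x308 x312 x316
  x318 x324 x328 x332 x334 x336 x344 x348 x352 x354 x360 x364 x368 x374 x376 x380
  x384 x392 x394 x396 x400 x404 x410 x412 x416 x420 x424 x426 x434 x438 x446 x448
  x450 x454 x458 x460 x462 x468 x472 x476 x482 x484 x488 x492 x500 x502 x504 x508
  x512 x518 x520 x524 x528 x532 x534 x540 x544 x548 x550 x552 x560 x564 x572 x574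
  x578 x582 x586 x588 x596 x600 x608 x610 x612 x616 x620 x622 x624 x630 x634 x638
  x644 x646 x648 x652 x656 x658 x660 x668 x672 x676 x678 x684 x688 x692 x698 x700
  x704 x708 x716 x718 x720 x724 x728 x730 x732 x738 x742 x746 x752 x754 x756 x760
  x764 x766 x768 x776 x780 x788 x790 x794 x798 x802 x804 x810 x814 x818 x820 x822
  x830 x834 x838 x840 x846 x850 x854 x860 x862 x866 x870 x878 x880 x882 x886 x890
  x896 x898 x902 x906 x910 x912 x920 x924 x932 x934 x936 x940 x944 x946 x948 x954
  x958 x962 x968 x970 x972 x976 x980 x982 x984 x992 x996 x1000 x1002 x1008 x1012 x1016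
  x1022 x1024 x1028 x1032 x1040 x1042 x1044 x1048 x1052 x1054 x1056 x1062 x1066 x1070 x1076 x1078
  x1080 x1084 x1088 x1090 x1092 x1100 x1104 x1112 x1114 x1118 x1122 x1126 x1128 x1136 x1140 x1148
  x1150 x1152 x1156 x1160 x1166 x1168 x1172 x1176 x1180 x1182 x1188 x1192 x1196 x1198 x1200 x1208
  x1212 x1220 x1222 x1226 x1230 x1234 x1236 x1244 x1248 x1256 x1258 x1260 x1264 x1268 x1270 x1272
  x1278 x1282 x1286 x1292 x1294 x1298 x1302 x1310 x1312 x1314 x1318 x1322 x1328 x1330 x1334 x1338
  x1342 x1344 x1350 x1354 x1358 x1360 x1362 x1370 x1374 x1378 x1380 x1386 x1390 x1394 x1400 x1402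
  x1404 x1408 x1412 x1414 x1416 x1424 x1428 x1436 x1438 x1442 x1446 x1450 x1452 x1460 x1464 x1472
  x1474 x1476 x1480 x1484 x1490 x1492 x1496 x1500 x1504 x1506 x1512 x1516 x1520 x1522 x1524 x1532
  x1536 x1544 x1546 x1550 x1554 x1558 x1560 x1568 x1572 x1580 x1582 x1584 x1588 x1592 x1594 x1596
  x1602 x1606 x1610 x1616 x1618 x1620 x1624 x1628 x1630 x1632 x1640 x1644 x1648 x1650 x1656 x1660
  x1664 x1670 x1672 x1676 x1680 x1688 x1690 x1692 x1696 x1700 x1706 x1708 x1712 x1716 x1720 x1722
  x1730 x1734 x1742 x1744 x1746 x1750 x1754 x1756 x1758 x1764 x1768 x1772 x1778 x1780 x1784 x1788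
  x1796 x1798 x1800 x1804 x1808 x1814 x1816 x1820 x1824 x1828 x1830 x1836 x1840 x1844 x1846 x1848
  x1856 x1860 x1864 x1866 x1872 x1876 x1880 x1886 x1888 x1890 x1894 x1898 x1900 x1902 x1910 x1914
  x1922 x1924 x1928 x1932 x1936 x1938 x1944 x1948 x1952 x1954 x1956 x1964 x1968 x1972 x1974 x1980
  x1984 x1988 x1994 x1996 x2000 x2004 x2012 x2014 x2016 x2020 x2024 x2026 x2028 x2034 x2038 x2042
  x2048 x2050 x2052 x2056 x2060 x2062 x2064 x2072 x2076 x2084 x2086 x2090 x2094 x2098 x2100 x2108
  x2112 x2120 x2122 x2124 x2128 x2132 x2138 x2140 x2144 x2148 x2152 x2154 x2160 x2164 x2168 x2170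
  x2172 x2180 x2184 x2188 x2190 x2196 x2200 x2204 x2210 x2212 x2214 x2218 x2222 x2224 x2226 x2234
  x2238 x2246 x2248 x2252 x2256 x2260 x2262 x2268 x2272 x2276 x2278 x2280 x2288 x2292 x2296 x2298
  x2304 x2308 x2312 x2318 x2320 x2324 x2328 x2336 x2338 x2340 x2344 x2348 x2354 x2356 x2360 x2364
  x2368 x2370 x2378 x2382 x2390 x2392 x2394 x2398 x2402 x2404 x2406 x2412 x2416 x2420 x2426 x2428
  x2430 x2434 x2438 x2440 x2442 x2450 x2454 x2458 x2460 x2466 x2470 x2474 x2480 x2482 x2486 x2490
  x2498 x2500 x2502 x2506 x2510 x2512 x2514 x2520 x2524 x2528 x2534 x2536 x2538 x2542 x2546 x2548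
  x2550 x2558 x2562 x2570 x2572 x2576 x2580 x2584 x2586 x2594 x2598 x2606 x2608 x2610 x2614 x2618
  x2624 x2626 x2630 x2634 x2638 x2640 x2646 x2650 x2654 x2656 x2658 x2666 x2670 x2678 x2680 x2684
  x2688 x2692 x2694 x2702 x2706 x2714 x2716 x2718 x2722 x2726 x2728 x2730 x2736 x2740 x2744 x2750
  x2752 x2756 x2760 x2768 x2770 x2772 x2776 x2780 x2786 x2788 x2792 x2796 x2800 x2802 x2808 x2812
  x2816 x2818 x2820 x2828 x2832 x2836 x2838 x2844 x2848 x2852 x2858 x2860 x2862 x2866 x2870 x2872
  x2874 x2882 x2886 x2894 x2896 x2900 x2904 x2908 x2910 x2916 x2920 x2924 x2926 x2928 x2936 x2940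
  x2944 x2946 x2952 x2956 x2960 x2966 x2968 x2972 x2976 x2984 x2986 x2988 x2992 x2996 x2998 x3000
  x3006 x3010 x3014 x3020 x3022 x3024 x3028 x3032 x3034 x3036 x3044 x3048 x3056 x3058 x3062 x3066
  x3070 x3072 x3080 x3084 x3092 x3094 x3096 x3100 x3104 x3110 x3112 x3116 x3120 x3124 x3126 x3132
  x3136 x3140 x3142 x3144 x3152 x3156 x3160 x3162 x3168 x3172 x3176 x3182 x3184 x3186 x3190 x3194
  x3196 x3198 x3206 x3210 x3218 x3220 x3224 x3228 x3232 x3234 x3240 x3244 x3248 x3250 x3252 x3260
  x3264 x3268 x3270 x3276 x3280 x3284 x3290 x3292 x3296 x3300 x3308 x3310 x3312 x3316 x3320 x3326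
  x3328 x3332 x3336 x3340 x3342 x3350 x3354 x3362 x3364 x3366 x3370 x3374 x3376 x3378 x3384 x3388
  x3392 x3398 x3400 x3404 x3408 x3416 x3418 x3420 x3424 x3428 x3434 x3436 x3440 x3444 x3448 x3450
  x3456 x3460 x3464 x3466 x3468 x3476 x3480 x3488 x3490 x3494 x3498 x3502 x3504 x3512 x3516 x3524
  x3526 x3528 x3532 x3536 x3538 x3540 x3546 x3550 x3554 x3560 x3562 x3564 x3568 x3572 x3574 x3576
  x3584 x3588 x3592 x3594 x3600 x3604 x3608 x3614 x3616 x3620 x3624 x3632 x3634 x3636 x3640 x3644
  x3650 x3652 x3656 x3660 x3664 x3666 x3674 x3678 x3686 x3688 x3690 x3694 x3698 x3700 x3702 x3708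
  x3712 x3716 x3722 x3724 x3728 x3732 x3740 x3742 x3744 x3748 x3752 x3758 x3760 x3764 x3768 x3772
  x3774 x3780 x3784 x3788 x3790 x3792 x3800 x3804 x3808 x3810 x3816 x3820 x3824 x3830 x3832 x3834
  x3838 x3842 x3844 x3846 x3854 x3858 x3866 x3868 x3872 x3876 x3880 x3882 x3890 x3894 x3902 x3904
  x3906 x3910 x3914 x3920 x3922 x3926 x3930 x3934 x3936 x3942 x3946 x3950 x3952 x3954 x3962 x3966
  x3974 x3976 x3980 x3984 x3988 x3990 x3998 x4002 x4010 x4012 x4014 x4018 x4022 x4024 x4026 x4032
  x4036 x4040 x4046 x4048 x4050 x4054 x4058 x4060 x4062 x4070 x4074 x4078 x4080 x4086 x4090 x4094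
  x4100 x4102 x4106 x4110 x4118 x4120 x4122 x4126 x4130 x4132 x4134 x4140 x4144 x4148 x4154 x4156
  x4158 x4162 x4166 x4168 x4170 x4178 x4182 x4190 x4192 x4196 x4200 x4204 x4206 x4212 x4216 x4220
  x4222 x4224 x4232 x4236 x4240 x4242 x4248 x4252 x4256 x4262 x4264 x4268 x4272 x4280 x4282 x4284
  x4288 x4292 x4298 x4300 x4304 x4308 x4312 x4314 x4322 x4326 x4334 x4336 x4338 x4342 x4346 x4348
  x4350 x4356 x4360 x4364 x4370 x4372 x4376 x4380 x4388 x4390 x4392 x4396 x4400 x4406 x4408 x4412
  x4416 x4420 x4422 x4428 x4432 x4436 x4438 x4440 x4448 x4452 x4460 x4462 x4466 x4470 x4474 x4476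
  x4484 x4488 x4496 x4498 x4500 x4504 x4508 x4510 x4512 x4518 x4522 x4526 x4532 x4534 x4536 x4540
  x4544 x4546 x4548 x4556 x4560 x4564 x4566 x4572 x4576 x4580 x4586 x4588 x4592 x4596 x4604 x4606
  x4608 x4612 x4616 x4622 x4624 x4628 x4632 x4636 x4638 x4646 x4650 x4658 x4660 x4662 x4666 x4670
  x4672 x4674 x4680 x4684 x4688 x4694 x4696 x4700 x4704 x4712 x4714 x4716 x4720 x4724 x4730 x4732
  x4736 x4740 x4744 x4746 x4752 x4756 x4760 x4762 x4764 x4772 x4776 x4780 x4782 x4788 x4792 x4796
  x4802 x4804 x4806 x4810 x4814 x4816 x4818 x4826 x4830 x4838 x4840 x4844 x4848 x4852 x4854 x4860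
  x4864 x4868 x4870 x4872 x4880 x4884 x4888 x4890 x4896 x4900 x4904 x4910 x4912 x4916 x4920 x4928
  x4930 x4932 x4936 x4940 x4942 x4944 x4950 x4954 x4958 x4964 x4966 x4968 x4972 x4976 x4978 x4980
  x4988 x4992 x5000 x5002 x5006 x5010 x5014 x5016 x5024 x5028 x5036 x5038 x5040 x5044 x5048 x5054
  x5056 x5060 x5064 x5068 x5070 x5076 x5080 x5084 x5086 x5088 x5096 x5100 x5108 x5110 x5114 x5118
  x5122 x5124 x5132 x5136 x5144 x5146 x5148 x5152 x5156 x5158 x5160 x5166 x5170 x5174 x5180 x5182
  x5186 x5190 x5198 x5200 x5202 x5206 x5210 x5216 x5218 x5222 x5226 x5230 x5232 x5238 x5242 x5246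
  x5248 x5250 x5258 x5262 x5266 x5268 x5274 x5278 x5282 x5288 x5290 x5292 x5296 x5300 x5302 x5304
  x5312 x5316 x5324 x5326 x5330 x5334 x5338 x5340 x5348 x5352 x5360 x5362 x5364 x5368 x5372 x5378
  x5380 x5384 x5388 x5392 x5394 x5400 x5404 x5408 x5410 x5412 x5420 x5424 x5432 x5434 x5438 x5442
  x5446 x5448 x5456 x5460 x5468 x5470 x5472 x5476 x5480 x5482 x5484 x5490 x5494 x5498 x5504 x5506
  x5508 x5512 x5516 x5518 x5520 x5528 x5532 x5536 x5538 x5544 x5548 x5552 x5558 x5560 x5564 x5568
  x5576 x5578 x5580 x5584 x5588 x5590 x5592 x5598 x5602 x5606 x5612 x5614 x5616 x5620 x5624 x5626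
  x5628 x5636 x5640 x5648 x5650 x5654 x5658 x5662 x5664 x5670 x5674 x5678 x5680 x5682 x5690 x5694
  x5698 x5700 x5706 x5710 x5714 x5720 x5722 x5726 x5730 x5738 x5740 x5742 x5746 x5750 x5756 x5758
  x5762 x5766 x5770 x5772 x5780 x5784 x5792 x5794 x5796 x5800 x5804 x5806 x5808 x5814 x5818 x5822
  x5828 x5830 x5832 x5836 x5840 x5842 x5844 x5852 x5856 x5860 x5862 x5868 x5872 x5876 x5882 x5884
  x5888 x5892 x5900 x5902 x5904 x5908 x5912 x5914 x5916 x5922 x5926 x5930 x5936 x5938 x5940 x5944
  x5948 x5950 x5952 x5960 x5964 x5972 x5974 x5978 x5982 x5986 x5988 x5996 x6000 x6008 x6010 x6012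
  x6016 x6020 x6026 x6028 x6032 x6036 x6040 x6042 x6048 x6052 x6056 x6058 x6060 x6068 x6072 x6076
  x6078 x6084 x6088 x6092 x6098 x6100 x6102 x6106 x6110 x6112 x6114 x6122 x6126 x6134 x6136 x6140
  x6144 x6148 x6150 x6156 x6160 x6164 x6166 x6168 x6176 x6180 x6184 x6186 x6192 x6196 x6200 x6206
  x6208 x6212 x6216 x6224 x6226 x6228 x6232 x6236 x6242 x6244 x6248 x6252 x6256 x6258 x6266 x6270
  x6278 x6280 x6282 x6286 x6290 x6292 x6294 x6300 x6304 x6308 x6314 x6316 x6320 x6324 x6332 x6334
  x6336 x6340 x6344 x6350 x6352 x6356 x6360 x6364 x6366 x6372 x6376 x6380 x6382 x6384 x6392 x6396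
  x6404 x6406 x6410 x6414 x6418 x6420 x6428 x6432 x6440 x6442 x6444 x6448 x6452 x6454 x6456 x6462
  x6466 x6470 x6476 x6478 x6480 x6484 x6488 x6490 x6492 x6500 x6504 x6508 x6510 x6516 x6520 x6524
  x6530 x6532 x6536 x6540 x6548 x6550 x6552 x6556 x6560 =>
  Bool.rec false (k
  (sub (add (add (add (add (add (add (add (add (add (add (add (add (add (add (add C x4) x8) x12) x24) x36) x72) x108) x216) x324) x648) x972) x1944) x2916) x5832) x2188) x4376)
  (sub (add (add (add (add (add (add (add (add (add (add (sub (add (add C x0) x8) x10) x40) x76) x112) x220) x328) x652) x976) x1948) x2920) x5836) x2190)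
  (add (add (add (add (add (add (add (add (add (add (add (sub (add (add C x0) x4) x20) x44) x80) x116) x224) x332) x656) x980) x1952) x2924) x5840) x4380)
  (sub (add (add (add (add (add (add (add (add (sub (sub (sub C x12) x4) x28) x118) x226) x334) x658) x982) x1954) x2926) x5842) x2196)
  (sub (add (add (add (add (add (add (add (add (add (sub (add (add (sub C x10) x0) x24) x30) x120) x228) x336) x660) x984) x1956) x2928) x5844) x2200) x4388)
  (add (add (add (add (add (add (add (add (add (sub (sub (sub C x24) x8) x56) x128) x236) x344) x668) x992) x1964) x2936) x5852) x4392)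
  (sub (add (add (add (add (add (add (add (add (add (sub (add (add (sub C x20) x0) x12) x60) x132) x240) x348) x672) x996) x1968) x2940) x5856) x2212) x4400)
  (sub (add (add (add (add (add (add (sub (sub (add (add (sub C x30) x40) x52) x10) x82) x352) x676) x1000) x1972) x2944) x5860) x2214)
  (sub (add (add (add (add (add (add (add (sub (sub (sub (sub C x28) x36) x12) x84) x354) x678) x1002) x1974) x2946) x5862) x2218) x4406)
  (sub (add (add (add (add (add (add (add (sub (add (add (sub (add (add C x40) x44) x30) x0) x72) x90) x360) x684) x1008) x1980) x2952) x5868) x2224) x4412)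
  (sub (add (add (add (add (add (add (sub (add (add (add (add (add (add C x36) x44) x28) x52) x4) x76) x94) x364) x688) x1012) x1984) x2956) x5872) x2226)
  (add (add (add (add (add (add (add (sub (add (add (sub (add (add C x36) x40) x50) x8) x80) x98) x368) x692) x1016) x1988) x2960) x5876) x4416)
  (add (add (add (add (add (add (add (sub (sub (sub (sub C x52) x44) x68) x104) x374) x698) x1022) x1994) x2966) x5882) x4422)
  (sub (add (add (add (add (add (add (sub (sub (add (add (sub C x50) x28) x40) x70) x106) x376) x700) x1024) x1996) x2968) x5884) x2238)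
  (add (add (add (add (add (add (add (sub (sub (add (add (sub C x60) x68) x80) x20) x164) x380) x704) x1028) x2000) x2972) x5888) x4428)
  (sub (add (add (add (add (add (add (add (sub (sub (sub (sub C x56) x72) x24) x168) x384) x708) x1032) x2004) x2976) x5892) x2248) x4436)
  (add (add (add (add (add (add (add (sub (sub (add (add (sub C x70) x56) x80) x50) x176) x392) x716) x1040) x2012) x2984) x5900) x4440)
  (sub (add (add (add (add (add (add (sub (sub (sub (sub C x68) x76) x52) x178) x394) x718) x1042) x2014) x2986) x5902) x2256)
  (sub (add (add (add (add (add (add (add (sub (add (add (sub (add (add C x76) x80) x60) x0) x36) x180) x396) x720) x1044) x2016) x2988) x5904) x2260) x4448)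
  (sub (add (add (add (add (add (add (sub (add (add (sub (add (add C x72) x80) x70) x4) x40) x184) x400) x724) x1048) x2020) x2992) x5908) x2262)
  (add (add (add (add (add (add (add (sub (add (add (add (add (add (add C x72) x76) x56) x68) x8) x44) x188) x404) x728) x1052) x2024) x2996) x5912) x4452)
  (sub (add (add (add (add (sub (sub (add (add (add (add (sub C x84) x94) x106) x118) x154) x28) x244) x1054) x2026) x2998) x5914) x2268)
  (sub (add (add (add (add (add (sub (sub (add (add (sub (sub C x82) x90) x120) x156) x30) x246) x1056) x2028) x3000) x5916) x2272) x4460)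
  (sub (add (add (add (add (add (sub (sub (sub (sub (add (add C x94) x98) x84) x108) x36) x252) x1062) x2034) x3006) x5922) x2278) x4466)
  (sub (add (add (add (add (sub (sub (sub (add (add (add (add C x90) x98) x82) x106) x112) x40) x256) x1066) x2038) x3010) x5926) x2280)
  (add (add (add (add (add (sub (sub (sub (sub (add (add C x90) x94) x104) x116) x44) x260) x1070) x2042) x3014) x5930) x4470)
  (add (add (add (add (add (sub (sub (sub (sub (sub C x106) x98) x140) x50) x266) x1076) x2048) x3020) x5936) x4476)
  (sub (add (add (add (add (sub (sub (sub (add (add (sub C x104) x82) x94) x142) x52) x268) x1078) x2050) x3022) x5938) x2292)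
  (sub (add (add (add (add (add (sub (add (add (sub (add (add (add (add C x112) x116) x120) x132) x90) x0) x216) x270) x1080) x2052) x3024) x5940) x2296) x4484)
  (sub (add (add (add (add (sub (add (add (sub (sub (add (add C x108) x116) x118) x94) x4) x220) x274) x1084) x2056) x3028) x5944) x2298)
  (add (add (add (add (add (sub (add (add (sub (sub (add (add C x108) x112) x128) x98) x8) x224) x278) x1088) x2060) x3032) x5948) x4488)
  (sub (add (add (add (add (sub (add (add (add (add (sub (sub C x120) x112) x82) x154) x10) x226) x280) x1090) x2062) x3034) x5950) x2304)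
  (sub (add (add (add (add (add (sub (add (add (add (add (add (add (sub C x118) x108) x132) x84) x156) x12) x228) x282) x1092) x2064) x3036) x5952) x2308) x4496)
  (add (add (add (add (add (sub (add (add (sub (sub (sub C x132) x116) x146) x20) x236) x290) x1100) x2072) x3044) x5960) x4500)
  (sub (add (add (add (add (add (sub (add (add (sub (add (add (sub C x128) x108) x120) x150) x24) x240) x294) x1104) x2076) x3048) x5964) x2320) x4508)
  (add (add (add (add (add (sub (sub (sub (sub (sub C x142) x146) x104) x194) x302) x1112) x2084) x3056) x5972) x4512)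
  (sub (add (add (add (add (sub (sub (sub (sub (sub C x140) x154) x106) x196) x304) x1114) x2086) x3058) x5974) x2328)
  (add (add (add (add (add (sub (sub (sub (sub (sub C x150) x140) x128) x200) x308) x1118) x2090) x3062) x5978) x4518)
  (sub (add (add (add (add (add (sub (sub (sub (sub (sub C x146) x156) x132) x204) x312) x1122) x2094) x3066) x5982) x2338) x4526)
  (sub (add (add (add (add (sub (sub (add (add (sub (sub C x156) x142) x82) x118) x208) x316) x1126) x2098) x3070) x5986) x2340)
  (sub (add (add (add (add (add (sub (sub (add (add (sub (sub C x154) x150) x84) x120) x210) x318) x1128) x2100) x3072) x5988) x2344) x4532)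
  (add (add (add (add (add (sub (sub (add (add (add (add (sub C x168) x176) x188) x200) x236) x56) x488) x1136) x2108) x3080) x5996) x4536)
  (sub (add (add (add (add (add (sub (sub (add (add (sub (sub C x164) x180) x204) x240) x60) x492) x1140) x2112) x3084) x6000) x2356) x4544)
  (add (add (add (add (add (sub (sub (sub (add (add (sub C x178) x164) x188) x194) x68) x500) x1148) x2120) x3092) x6008) x4548)
  (sub (add (add (add (add (sub (sub (sub (sub (sub C x176) x184) x196) x70) x502) x1150) x2122) x3094) x6010) x2364)
  (sub (add (add (add (add (add (sub (sub (sub (sub (add (add C x184) x188) x168) x216) x72) x504) x1152) x2124) x3096) x6012) x2368) x4556)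
  (sub (add (add (add (add (sub (sub (sub (sub (add (add C x180) x188) x178) x220) x76) x508) x1156) x2128) x3100) x6016) x2370)
  (add (add (add (add (add (sub (sub (sub (add (add (add (add C x180) x184) x164) x176) x224) x80) x512) x1160) x2132) x3104) x6020) x4560)
  (add (add (add (add (add (sub (sub (sub (sub (sub C x196) x200) x176) x140) x518) x1166) x2138) x3110) x6026) x4566)
  (sub (add (add (add (add (sub (sub (sub (sub (sub C x194) x208) x178) x142) x520) x1168) x2140) x3112) x6028) x2382)
  (add (add (add (add (add (sub (sub (add (add (sub (sub C x204) x194) x164) x236) x146) x524) x1172) x2144) x3116) x6032) x4572)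
  (sub (add (add (add (add (add (sub (sub (add (add (sub (sub C x200) x210) x168) x240) x150) x528) x1176) x2148) x3120) x6036) x2392) x4580)
  (sub (add (add (add (add (sub (sub (sub (sub (sub C x210) x196) x226) x154) x532) x1180) x2152) x3124) x6040) x2394)
  (sub (add (add (add (add (add (sub (sub (sub (sub (sub C x208) x204) x228) x156) x534) x1182) x2154) x3126) x6042) x2398) x4586)
  (sub (add (add (add (add (add (sub (add (add (sub (add (add (add (add C x220) x224) x228) x240) x180) x0) x108) x540) x1188) x2160) x3132) x6048) x2404) x4592)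
  (sub (add (add (add (add (sub (add (add (sub (sub (add (add C x216) x224) x226) x184) x4) x112) x544) x1192) x2164) x3136) x6052) x2406)
  (add (add (add (add (add (sub (add (add (sub (sub (add (add C x216) x220) x236) x188) x8) x116) x548) x1196) x2168) x3140) x6056) x4596)
  (sub (add (add (add (add (sub (add (add (sub (sub (sub C x228) x220) x208) x10) x118) x550) x1198) x2170) x3142) x6058) x2412)
  (sub (add (add (add (add (add (sub (add (add (sub (add (add (sub C x226) x216) x240) x210) x12) x120) x552) x1200) x2172) x3144) x6060) x2416) x4604)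
  (add (add (add (add (add (sub (add (add (add (add (sub (sub C x240) x224) x164) x200) x20) x128) x560) x1208) x2180) x3152) x6068) x4608)
  (sub (add (add (add (add (add (sub (add (add (add (add (add (add (sub C x236) x216) x228) x168) x204) x24) x132) x564) x1212) x2184) x3156) x6072) x2428) x4616)
  (sub (add (add (sub (sub (add (add (add (add (add (add (sub C x246) x256) x268) x280) x316) x352) x460) x82) x730) x3160) x6076) x2430)
  (sub (add (add (add (sub (sub (add (add (add (add (sub (sub C x244) x252) x282) x318) x354) x462) x84) x732) x3162) x6078) x2434) x4622)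
  (sub (add (add (add (sub (sub (add (add (sub (sub (add (add C x256) x260) x246) x270) x360) x468) x90) x738) x3168) x6084) x2440) x4628)
  (sub (add (add (sub (sub (add (add (sub (add (add (add (add C x252) x260) x244) x268) x274) x364) x472) x94) x742) x3172) x6088) x2442)
  (add (add (add (sub (sub (add (add (sub (sub (add (add C x252) x256) x266) x278) x368) x476) x98) x746) x3176) x6092) x4632)
  (add (add (add (sub (sub (add (add (sub (sub (sub C x268) x260) x302) x374) x482) x104) x752) x3182) x6098) x4638)
  (sub (add (add (sub (sub (add (add (sub (add (add (sub C x266) x244) x256) x304) x376) x484) x106) x754) x3184) x6100) x2454)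
  (sub (add (add (add (sub (sub (sub (sub (add (add (add (add C x274) x278) x282) x294) x252) x324) x108) x756) x3186) x6102) x2458) x4646)
  (sub (add (add (sub (sub (sub (sub (sub (add (add C x270) x278) x280) x256) x328) x112) x760) x3190) x6106) x2460)
  (add (add (add (sub (sub (sub (sub (sub (add (add C x270) x274) x290) x260) x332) x116) x764) x3194) x6110) x4650)
  (sub (add (add (sub (sub (sub (add (add (sub (sub C x282) x274) x244) x316) x334) x118) x766) x3196) x6112) x2466)
  (sub (add (add (add (sub (sub (sub (add (add (add (add (sub C x280) x270) x294) x246) x318) x336) x120) x768) x3198) x6114) x2470) x4658)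
  (add (add (add (sub (sub (sub (sub (sub (sub C x294) x278) x308) x344) x128) x776) x3206) x6122) x4662)
  (sub (add (add (add (sub (sub (sub (sub (add (add (sub C x290) x270) x282) x312) x348) x132) x780) x3210) x6126) x2482) x4670)
  (add (add (add (sub (sub (sub (sub (sub (sub C x304) x308) x266) x410) x140) x788) x3218) x6134) x4674)
  (sub (add (add (sub (sub (sub (sub (sub (sub C x302) x316) x268) x412) x142) x790) x3220) x6136) x2490)
  (add (add (add (sub (sub (sub (sub (sub (sub C x312) x302) x290) x416) x146) x794) x3224) x6140) x4680)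
  (sub (add (add (add (sub (sub (sub (sub (sub (sub C x308) x318) x294) x420) x150) x798) x3228) x6144) x2500) x4688)
  (sub (add (add (sub (sub (sub (add (add (sub (sub C x318) x304) x244) x280) x424) x154) x802) x3232) x6148) x2502)
  (sub (add (add (add (sub (sub (sub (add (add (sub (sub C x316) x312) x246) x282) x426) x156) x804) x3234) x6150) x2506) x4694)
  (sub (add (add (add (sub (add (add (sub (add (add (add (add (add (add C x328) x332) x336) x348) x360) x396) x270) x0) x648) x810) x3240) x6156) x2512) x4700)
  (sub (add (add (sub (add (add (sub (add (add (sub (add (add C x324) x332) x334) x364) x400) x274) x4) x652) x814) x3244) x6160) x2514)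
  (add (add (add (sub (add (add (sub (add (add (sub (add (add C x324) x328) x344) x368) x404) x278) x8) x656) x818) x3248) x6164) x4704)
  (sub (add (add (sub (add (add (sub (sub (sub (sub C x336) x328) x352) x280) x10) x658) x820) x3250) x6166) x2520)
  (sub (add (add (add (sub (add (add (sub (sub (add (add (sub C x334) x324) x348) x354) x282) x12) x660) x822) x3252) x6168) x2524) x4712)
  (add (add (add (sub (add (add (sub (sub (sub (sub C x348) x332) x380) x290) x20) x668) x830) x3260) x6176) x4716)
  (sub (add (add (add (sub (add (add (sub (sub (add (add (sub C x344) x324) x336) x384) x294) x24) x672) x834) x3264) x6180) x2536) x4724)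
  (sub (add (add (sub (add (add (add (add (sub (add (add (sub C x354) x364) x376) x334) x244) x460) x28) x676) x838) x3268) x6184) x2538)
  (sub (add (add (add (sub (add (add (add (add (sub (sub (sub C x352) x360) x336) x246) x462) x30) x678) x840) x3270) x6186) x2542) x4730)
  (sub (add (add (add (sub (add (add (add (add (add (add (sub (add (add C x364) x368) x354) x324) x396) x252) x468) x36) x684) x846) x3276) x6192) x2548) x4736)
  (sub (add (add (sub (add (add (add (add (add (add (add (add (add (add C x360) x368) x352) x376) x328) x400) x256) x472) x40) x688) x850) x3280) x6196) x2550)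
  (add (add (add (sub (add (add (add (add (add (add (sub (add (add C x360) x364) x374) x332) x404) x260) x476) x44) x692) x854) x3284) x6200) x4740)
  (add (add (add (sub (add (add (add (add (sub (sub (sub C x376) x368) x392) x266) x482) x50) x698) x860) x3290) x6206) x4746)
  (sub (add (add (sub (add (add (add (add (sub (add (add (sub C x374) x352) x364) x394) x268) x484) x52) x700) x862) x3292) x6208) x2562)
  (add (add (add (sub (add (add (sub (sub (add (add (sub C x384) x392) x404) x344) x434) x56) x704) x866) x3296) x6212) x4752)
  (sub (add (add (add (sub (add (add (sub (sub (sub (sub C x380) x396) x348) x438) x60) x708) x870) x3300) x6216) x2572) x4760)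
  (add (add (add (sub (add (add (sub (sub (add (add (sub C x394) x380) x404) x374) x446) x68) x716) x878) x3308) x6224) x4764)
  (sub (add (add (sub (add (add (sub (sub (sub (sub C x392) x400) x376) x448) x70) x718) x880) x3310) x6226) x2580)
  (sub (add (add (add (sub (add (add (sub (add (add (sub (add (add C x400) x404) x384) x324) x360) x450) x72) x720) x882) x3312) x6228) x2584) x4772)
  (sub (add (add (sub (add (add (sub (add (add (sub (add (add C x396) x404) x394) x328) x364) x454) x76) x724) x886) x3316) x6232) x2586)
  (add (add (add (sub (add (add (sub (add (add (add (add (add (add C x396) x400) x380) x392) x332) x368) x458) x80) x728) x890) x3320) x6236) x4776)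
  (add (add (add (sub (sub (sub (add (add (sub (sub C x412) x416) x446) x482) x302) x572) x896) x3326) x6242) x4782)
  (sub (add (add (sub (sub (sub (add (add (sub (sub C x410) x424) x448) x484) x304) x574) x898) x3328) x6244) x2598)
  (add (add (add (sub (sub (sub (sub (sub (sub C x420) x410) x434) x308) x578) x902) x3332) x6248) x4788)
  (sub (add (add (add (sub (sub (sub (sub (sub (sub C x416) x426) x438) x312) x582) x906) x3336) x6252) x2608) x4796)
  (sub (add (add (sub (sub (sub (sub (sub (sub C x426) x412) x460) x316) x586) x910) x3340) x6256) x2610)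
  (sub (add (add (add (sub (sub (sub (sub (sub (sub C x424) x420) x462) x318) x588) x912) x3342) x6258) x2614) x4802)
  (add (add (add (sub (sub (sub (sub (add (add (sub C x438) x446) x458) x416) x380) x596) x920) x3350) x6266) x4806)
  (sub (add (add (add (sub (sub (sub (sub (sub (sub C x434) x450) x420) x384) x600) x924) x3354) x6270) x2626) x4814)
  (add (add (add (sub (sub (sub (add (add (add (add (sub C x448) x434) x458) x410) x482) x392) x608) x932) x3362) x6278) x4818)
  (sub (add (add (sub (sub (sub (add (add (sub (sub C x446) x454) x412) x484) x394) x610) x934) x3364) x6280) x2634)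
  (sub (add (add (add (sub (sub (sub (sub (sub (add (add C x454) x458) x438) x468) x396) x612) x936) x3366) x6282) x2638) x4826)
  (sub (add (add (sub (sub (sub (sub (sub (add (add C x450) x458) x448) x472) x400) x616) x940) x3370) x6286) x2640)
  (add (add (add (sub (sub (sub (sub (add (add (add (add C x450) x454) x434) x446) x476) x404) x620) x944) x3374) x6290) x4830)
  (sub (add (add (sub (sub (add (add (sub (add (add (sub C x462) x472) x484) x424) x244) x352) x622) x946) x3376) x6292) x2646)
  (sub (add (add (add (sub (sub (add (add (sub (sub (sub C x460) x468) x426) x246) x354) x624) x948) x3378) x6294) x2650) x4838)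
  (sub (add (add (add (sub (sub (add (add (sub (sub (add (add C x472) x476) x462) x450) x252) x360) x630) x954) x3384) x6300) x2656) x4844)
  (sub (add (add (sub (sub (add (add (sub (add (add (add (add C x468) x476) x460) x484) x454) x256) x364) x634) x958) x3388) x6304) x2658)
  (add (add (add (sub (sub (add (add (sub (sub (add (add C x468) x472) x482) x458) x260) x368) x638) x962) x3392) x6308) x4848)
  (add (add (add (sub (sub (add (add (add (add (sub (sub C x484) x476) x410) x446) x266) x374) x644) x968) x3398) x6314) x4854)
  (sub (add (add (sub (sub (add (add (add (add (add (add (sub C x482) x460) x472) x412) x448) x268) x376) x646) x970) x3400) x6316) x2670)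
  (add (add (add (sub (sub (add (add (add (add (add (add (sub C x492) x500) x512) x524) x560) x596) x704) x164) x1460) x3404) x6320) x4860)
  (sub (add (add (add (sub (sub (add (add (add (add (sub (sub C x488) x504) x528) x564) x600) x708) x168) x1464) x3408) x6324) x2680) x4868)
  (add (add (add (sub (sub (add (add (sub (add (add (sub C x502) x488) x512) x518) x608) x716) x176) x1472) x3416) x6332) x4872)
  (sub (add (add (sub (sub (add (add (sub (sub (sub C x500) x508) x520) x610) x718) x178) x1474) x3418) x6334) x2688)
  (sub (add (add (add (sub (sub (add (add (sub (sub (add (add C x508) x512) x492) x540) x612) x720) x180) x1476) x3420) x6336) x2692) x4880)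
  (sub (add (add (sub (sub (add (add (sub (sub (add (add C x504) x512) x502) x544) x616) x724) x184) x1480) x3424) x6340) x2694)
  (add (add (add (sub (sub (add (add (sub (add (add (add (add C x504) x508) x488) x500) x548) x620) x728) x188) x1484) x3428) x6344) x4884)
  (add (add (add (sub (sub (sub (sub (sub (sub C x520) x524) x500) x572) x194) x1490) x3434) x6350) x4890)
  (sub (add (add (sub (sub (sub (sub (sub (sub C x518) x532) x502) x574) x196) x1492) x3436) x6352) x2706)
  (add (add (add (sub (sub (sub (add (add (sub (sub C x528) x518) x488) x560) x578) x200) x1496) x3440) x6356) x4896)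
  (sub (add (add (add (sub (sub (sub (add (add (sub (sub C x524) x534) x492) x564) x582) x204) x1500) x3444) x6360) x2716) x4904)
  (sub (add (add (sub (sub (sub (sub (sub (sub C x534) x520) x550) x586) x208) x1504) x3448) x6364) x2718)
  (sub (add (add (add (sub (sub (sub (sub (sub (sub C x532) x528) x552) x588) x210) x1506) x3450) x6366) x2722) x4910)
  (sub (add (add (add (sub (sub (sub (sub (add (add (add (add C x544) x548) x552) x564) x504) x648) x216) x1512) x3456) x6372) x2728) x4916)
  (sub (add (add (sub (sub (sub (sub (sub (add (add C x540) x548) x550) x508) x652) x220) x1516) x3460) x6376) x2730)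
  (add (add (add (sub (sub (sub (sub (sub (add (add C x540) x544) x560) x512) x656) x224) x1520) x3464) x6380) x4920)
  (sub (add (add (sub (sub (sub (sub (sub (sub C x552) x544) x532) x658) x226) x1522) x3466) x6382) x2736)
  (sub (add (add (add (sub (sub (sub (sub (add (add (sub C x550) x540) x564) x534) x660) x228) x1524) x3468) x6384) x2740) x4928)
  (add (add (add (sub (sub (sub (add (add (sub (sub C x564) x548) x488) x524) x668) x236) x1532) x3476) x6392) x4932)
  (sub (add (add (add (sub (sub (sub (add (add (add (add (sub C x560) x540) x552) x492) x528) x672) x240) x1536) x3480) x6396) x2752) x4940)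
  (add (add (add (sub (sub (sub (add (add (sub (sub C x574) x578) x608) x644) x518) x410) x1544) x3488) x6404) x4944)
  (sub (add (add (sub (sub (sub (add (add (sub (sub C x572) x586) x610) x646) x520) x412) x1546) x3490) x6406) x2760)
  (add (add (add (sub (sub (sub (sub (sub (sub C x582) x572) x596) x524) x416) x1550) x3494) x6410) x4950)
  (sub (add (add (add (sub (sub (sub (sub (sub (sub C x578) x588) x600) x528) x420) x1554) x3498) x6414) x2770) x4958)
  (sub (add (add (sub (sub (sub (sub (sub (sub C x588) x574) x622) x532) x424) x1558) x3502) x6418) x2772)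
  (sub (add (add (add (sub (sub (sub (sub (sub (sub C x586) x582) x624) x534) x426) x1560) x3504) x6420) x2776) x4964)
  (add (add (add (sub (sub (add (add (sub (add (add (sub C x600) x608) x620) x578) x488) x704) x434) x1568) x3512) x6428) x4968)
  (sub (add (add (add (sub (sub (add (add (sub (sub (sub C x596) x612) x582) x492) x708) x438) x1572) x3516) x6432) x2788) x4976)
  (add (add (add (sub (sub (add (add (add (add (add (add (sub C x610) x596) x620) x572) x644) x500) x716) x446) x1580) x3524) x6440) x4980)
  (sub (add (add (sub (sub (add (add (add (add (sub (sub C x608) x616) x574) x646) x502) x718) x448) x1582) x3526) x6442) x2796)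
  (sub (add (add (add (sub (sub (add (add (sub (sub (add (add C x616) x620) x600) x630) x504) x720) x450) x1584) x3528) x6444) x2800) x4988)
  (sub (add (add (sub (sub (add (add (sub (sub (add (add C x612) x620) x610) x634) x508) x724) x454) x1588) x3532) x6448) x2802)
  (add (add (add (sub (sub (add (add (sub (add (add (add (add C x612) x616) x596) x608) x638) x512) x728) x458) x1592) x3536) x6452) x4992)
  (sub (add (add (sub (sub (sub (sub (add (add (sub C x624) x634) x646) x586) x676) x460) x1594) x3538) x6454) x2808)
  (sub (add (add (add (sub (sub (sub (sub (sub (sub C x622) x630) x588) x678) x462) x1596) x3540) x6456) x2812) x5000)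
  (sub (add (add (add (sub (sub (sub (sub (sub (add (add C x634) x638) x624) x612) x684) x468) x1602) x3546) x6462) x2818) x5006)
  (sub (add (add (sub (sub (sub (sub (add (add (add (add C x630) x638) x622) x646) x616) x688) x472) x1606) x3550) x6466) x2820)
  (add (add (add (sub (sub (sub (sub (sub (add (add C x630) x634) x644) x620) x692) x476) x1610) x3554) x6470) x5010)
  (add (add (add (sub (sub (sub (add (add (sub (sub C x646) x638) x572) x608) x698) x482) x1616) x3560) x6476) x5016)
  (sub (add (add (sub (sub (sub (add (add (add (add (sub C x644) x622) x634) x574) x610) x700) x484) x1618) x3562) x6478) x2832)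
  (sub (add (add (add (sub (add (add (sub (add (add (add (add (add (add C x652) x656) x660) x672) x684) x720) x540) x0) x324) x1620) x3564) x6480) x2836) x5024)
  (sub (add (add (sub (add (add (sub (add (add (sub (add (add C x648) x656) x658) x688) x724) x544) x4) x328) x1624) x3568) x6484) x2838)
  (add (add (add (sub (add (add (sub (add (add (sub (add (add C x648) x652) x668) x692) x728) x548) x8) x332) x1628) x3572) x6488) x5028)
  (sub (add (add (sub (add (add (sub (sub (sub (sub C x660) x652) x676) x550) x10) x334) x1630) x3574) x6490) x2844)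
  (sub (add (add (add (sub (add (add (sub (sub (add (add (sub C x658) x648) x672) x678) x552) x12) x336) x1632) x3576) x6492) x2848) x5036)
  (add (add (add (sub (add (add (sub (sub (sub (sub C x672) x656) x704) x560) x20) x344) x1640) x3584) x6500) x5040)
  (sub (add (add (add (sub (add (add (sub (sub (add (add (sub C x668) x648) x660) x708) x564) x24) x348) x1644) x3588) x6504) x2860) x5048)
  (sub (add (add (sub (add (add (sub (sub (add (add (sub C x678) x688) x700) x658) x622) x28) x352) x1648) x3592) x6508) x2862)
  (sub (add (add (add (sub (add (add (sub (sub (sub (sub C x676) x684) x660) x624) x30) x354) x1650) x3594) x6510) x2866) x5054)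
  (sub (add (add (add (sub (add (add (sub (add (add (sub (add (add C x688) x692) x678) x648) x720) x630) x36) x360) x1656) x3600) x6516) x2872) x5060)
  (sub (add (add (sub (add (add (sub (add (add (add (add (add (add C x684) x692) x676) x700) x652) x724) x634) x40) x364) x1660) x3604) x6520) x2874)
  (add (add (add (sub (add (add (sub (add (add (sub (add (add C x684) x688) x698) x656) x728) x638) x44) x368) x1664) x3608) x6524) x5064)
  (add (add (add (sub (add (add (sub (sub (sub (sub C x700) x692) x716) x644) x50) x374) x1670) x3614) x6530) x5070)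
  (sub (add (add (sub (add (add (sub (sub (add (add (sub C x698) x676) x688) x718) x646) x52) x376) x1672) x3616) x6532) x2886)
  (add (add (add (sub (add (add (add (add (sub (add (add (sub C x708) x716) x728) x668) x488) x596) x56) x380) x1676) x3620) x6536) x5076)
  (sub (add (add (add (sub (add (add (add (add (sub (sub (sub C x704) x720) x672) x492) x600) x60) x384) x1680) x3624) x6540) x2896) x5084)
  (add (add (add (sub (add (add (add (add (sub (add (add (sub C x718) x704) x728) x698) x500) x608) x68) x392) x1688) x3632) x6548) x5088)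
  (sub (add (add (sub (add (add (add (add (sub (sub (sub C x716) x724) x700) x502) x610) x70) x394) x1690) x3634) x6550) x2904)
  (sub (add (add (add (sub (add (add (add (add (add (add (sub (add (add C x724) x728) x708) x648) x684) x504) x612) x72) x396) x1692) x3636) x6552) x2908) x5096)
  (sub (add (add (sub (add (add (add (add (add (add (sub (add (add C x720) x728) x718) x652) x688) x508) x616) x76) x400) x1696) x3640) x6556) x2910)
  (add (add (add (sub (add (add (add (add (add (add (add (add (add (add C x720) x724) x704) x716) x656) x692) x512) x620) x80) x404) x1700) x3644) x6560) x5100)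
  (sub (sub (sub (add (add (add (add (add (add (add (add (sub C x732) x742) x754) x766) x802) x838) x946) x1054) x1378) x244) x2188) x2916)
  (sub (add (sub (sub (add (add (add (add (add (add (sub (sub C x730) x738) x768) x804) x840) x948) x1056) x1380) x246) x2190) x2920) x5108)
  (sub (add (sub (sub (add (add (add (add (sub (sub (add (add C x742) x746) x732) x756) x846) x954) x1062) x1386) x252) x2196) x2926) x5114)
  (sub (sub (sub (add (add (add (add (sub (add (add (add (add C x738) x746) x730) x754) x760) x850) x958) x1066) x1390) x256) x2200) x2928)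
  (add (sub (sub (add (add (add (add (sub (sub (add (add C x738) x742) x752) x764) x854) x962) x1070) x1394) x260) x2204) x5118)
  (add (sub (sub (add (add (add (add (sub (sub (sub C x754) x746) x788) x860) x968) x1076) x1400) x266) x2210) x5124)
  (sub (sub (sub (add (add (add (add (sub (add (add (sub C x752) x730) x742) x790) x862) x970) x1078) x1402) x268) x2212) x2940)
  (sub (add (sub (sub (add (add (sub (sub (add (add (add (add C x760) x764) x768) x780) x738) x810) x1080) x1404) x270) x2214) x2944) x5132)
  (sub (sub (sub (add (add (sub (sub (sub (add (add C x756) x764) x766) x742) x814) x1084) x1408) x274) x2218) x2946)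
  (add (sub (sub (add (add (sub (sub (sub (add (add C x756) x760) x776) x746) x818) x1088) x1412) x278) x2222) x5136)
  (sub (sub (sub (add (add (sub (add (add (sub (sub C x768) x760) x730) x802) x820) x1090) x1414) x280) x2224) x2952)
  (sub (add (sub (sub (add (add (sub (add (add (add (add (sub C x766) x756) x780) x732) x804) x822) x1092) x1416) x282) x2226) x2956) x5144)
  (add (sub (sub (add (add (sub (sub (sub (sub C x780) x764) x794) x830) x1100) x1424) x290) x2234) x5148)
  (sub (add (sub (sub (add (add (sub (sub (add (add (sub C x776) x756) x768) x798) x834) x1104) x1428) x294) x2238) x2968) x5156)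
  (add (sub (sub (add (add (sub (sub (sub (sub C x790) x794) x752) x896) x1112) x1436) x302) x2246) x5160)
  (sub (sub (sub (add (add (sub (sub (sub (sub C x788) x802) x754) x898) x1114) x1438) x304) x2248) x2976)
  (add (sub (sub (add (add (sub (sub (sub (sub C x798) x788) x776) x902) x1118) x1442) x308) x2252) x5166)
  (sub (add (sub (sub (add (add (sub (sub (sub (sub C x794) x804) x780) x906) x1122) x1446) x312) x2256) x2986) x5174)
  (sub (sub (sub (add (add (sub (add (add (sub (sub C x804) x790) x730) x766) x910) x1126) x1450) x316) x2260) x2988)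
  (sub (add (sub (sub (add (add (sub (add (add (sub (sub C x802) x798) x732) x768) x912) x1128) x1452) x318) x2262) x2992) x5180)
  (sub (add (sub (sub (sub (sub (add (add (add (add (add (add C x814) x818) x822) x834) x846) x882) x756) x972) x324) x2268) x2998) x5186)
  (sub (sub (sub (sub (sub (add (add (sub (add (add C x810) x818) x820) x850) x886) x760) x976) x328) x2272) x3000)
  (add (sub (sub (sub (sub (add (add (sub (add (add C x810) x814) x830) x854) x890) x764) x980) x332) x2276) x5190)
  (sub (sub (sub (sub (sub (sub (sub (sub C x822) x814) x838) x766) x982) x334) x2278) x3006)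
  (sub (add (sub (sub (sub (sub (sub (add (add (sub C x820) x810) x834) x840) x768) x984) x336) x2280) x3010) x5198)
  (add (sub (sub (sub (sub (sub (sub (sub C x834) x818) x866) x776) x992) x344) x2288) x5202)
  (sub (add (sub (sub (sub (sub (sub (add (add (sub C x830) x810) x822) x870) x780) x996) x348) x2292) x3022) x5210)
  (sub (sub (sub (sub (add (add (sub (add (add (sub C x840) x850) x862) x820) x730) x946) x1000) x352) x2296) x3024)
  (sub (add (sub (sub (sub (add (add (sub (sub (sub C x838) x846) x822) x732) x948) x1002) x354) x2298) x3028) x5216)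
  (sub (add (sub (sub (sub (add (add (add (add (sub (add (add C x850) x854) x840) x810) x882) x738) x954) x1008) x360) x2304) x3034) x5222)
  (sub (sub (sub (sub (add (add (add (add (add (add (add (add C x846) x854) x838) x862) x814) x886) x742) x958) x1012) x364) x2308) x3036)
  (add (sub (sub (sub (add (add (add (add (sub (add (add C x846) x850) x860) x818) x890) x746) x962) x1016) x368) x2312) x5226)
  (add (sub (sub (sub (add (add (sub (sub (sub C x862) x854) x878) x752) x968) x1022) x374) x2318) x5232)
  (sub (sub (sub (sub (add (add (sub (add (add (sub C x860) x838) x850) x880) x754) x970) x1024) x376) x2320) x3048)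
  (add (sub (sub (sub (sub (sub (add (add (sub C x870) x878) x890) x830) x920) x1028) x380) x2324) x5238)
  (sub (add (sub (sub (sub (sub (sub (sub (sub C x866) x882) x834) x924) x1032) x384) x2328) x3058) x5246)
  (add (sub (sub (sub (sub (sub (add (add (sub C x880) x866) x890) x860) x932) x1040) x392) x2336) x5250)
  (sub (sub (sub (sub (sub (sub (sub (sub C x878) x886) x862) x934) x1042) x394) x2338) x3066)
  (sub (add (sub (sub (sub (sub (add (add (sub (add (add C x886) x890) x870) x810) x846) x936) x1044) x396) x2340) x3070) x5258)
  (sub (sub (sub (sub (sub (add (add (sub (add (add C x882) x890) x880) x814) x850) x940) x1048) x400) x2344) x3072)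
  (add (sub (sub (sub (sub (add (add (add (add (add (add C x882) x886) x866) x878) x818) x854) x944) x1052) x404) x2348) x5262)
  (add (sub (sub (sub (sub (add (add (sub (sub C x898) x902) x932) x968) x788) x1220) x410) x2354) x5268)
  (sub (sub (sub (sub (sub (add (add (sub (sub C x896) x910) x934) x970) x790) x1222) x412) x2356) x3084)
  (add (sub (sub (sub (sub (sub (sub (sub C x906) x896) x920) x794) x1226) x416) x2360) x5274)
  (sub (add (sub (sub (sub (sub (sub (sub (sub C x902) x912) x924) x798) x1230) x420) x2364) x3094) x5282)
  (sub (sub (sub (sub (sub (sub (sub (sub C x912) x898) x946) x802) x1234) x424) x2368) x3096)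
  (sub (add (sub (sub (sub (sub (sub (sub (sub C x910) x906) x948) x804) x1236) x426) x2370) x3100) x5288)
  (add (sub (sub (sub (sub (sub (add (add (sub C x924) x932) x944) x902) x866) x1244) x434) x2378) x5292)
  (sub (add (sub (sub (sub (sub (sub (sub (sub C x920) x936) x906) x870) x1248) x438) x2382) x3112) x5300)
  (add (sub (sub (sub (sub (add (add (add (add (sub C x934) x920) x944) x896) x968) x878) x1256) x446) x2390) x5304)
  (sub (sub (sub (sub (sub (add (add (sub (sub C x932) x940) x898) x970) x880) x1258) x448) x2392) x3120)
  (sub (add (sub (sub (sub (sub (sub (sub (add (add C x940) x944) x924) x954) x882) x1260) x450) x2394) x3124) x5312)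
  (sub (sub (sub (sub (sub (sub (sub (add (add C x936) x944) x934) x958) x886) x1264) x454) x2398) x3126)
  (add (sub (sub (sub (sub (sub (add (add (add (add C x936) x940) x920) x932) x962) x890) x1268) x458) x2402) x5316)
  (sub (sub (sub (sub (add (add (sub (add (add (sub C x948) x958) x970) x910) x730) x838) x1270) x460) x2404) x3132)
  (sub (add (sub (sub (sub (add (add (sub (sub (sub C x946) x954) x912) x732) x840) x1272) x462) x2406) x3136) x5324)
  (sub (add (sub (sub (sub (add (add (sub (sub (add (add C x958) x962) x948) x936) x738) x846) x1278) x468) x2412) x3142) x5330)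
  (sub (sub (sub (sub (add (add (sub (add (add (add (add C x954) x962) x946) x970) x940) x742) x850) x1282) x472) x2416) x3144)
  (add (sub (sub (sub (add (add (sub (sub (add (add C x954) x958) x968) x944) x746) x854) x1286) x476) x2420) x5334)
  (add (sub (sub (sub (add (add (add (add (sub (sub C x970) x962) x896) x932) x752) x860) x1292) x482) x2426) x5340)
  (sub (sub (sub (sub (add (add (add (add (add (add (sub C x968) x946) x958) x898) x934) x754) x862) x1294) x484) x2428) x3156)
  (sub (add (sub (add (add (sub (add (add (add (add (add (add (add (add C x976) x980) x984) x996) x1008) x1044) x1080) x1188) x810) x0) x1944) x2430) x3160) x5348)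
  (sub (sub (add (add (sub (add (add (add (add (sub (add (add C x972) x980) x982) x1012) x1048) x1084) x1192) x814) x4) x1948) x2434) x3162)
  (add (sub (add (add (sub (add (add (add (add (sub (add (add C x972) x976) x992) x1016) x1052) x1088) x1196) x818) x8) x1952) x2438) x5352)
  (sub (sub (add (add (sub (add (add (sub (sub (sub C x984) x976) x1000) x1090) x1198) x820) x10) x1954) x2440) x3168)
  (sub (add (sub (add (add (sub (add (add (sub (add (add (sub C x982) x972) x996) x1002) x1092) x1200) x822) x12) x1956) x2442) x3172) x5360)
  (add (sub (add (add (sub (add (add (sub (sub (sub C x996) x980) x1028) x1100) x1208) x830) x20) x1964) x2450) x5364)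
  (sub (add (sub (add (add (sub (add (add (sub (add (add (sub C x992) x972) x984) x1032) x1104) x1212) x834) x24) x1968) x2454) x3184) x5372)
  (sub (sub (add (add (sub (sub (sub (add (add (sub C x1002) x1012) x1024) x982) x1054) x838) x28) x1972) x2458) x3186)
  (sub (add (sub (add (add (sub (sub (sub (sub (sub C x1000) x1008) x984) x1056) x840) x30) x1974) x2460) x3190) x5378)
  (sub (add (sub (add (add (sub (sub (add (add (sub (add (add C x1012) x1016) x1002) x972) x1044) x1062) x846) x36) x1980) x2466) x3196) x5384)
  (sub (sub (add (add (sub (sub (add (add (add (add (add (add C x1008) x1016) x1000) x1024) x976) x1048) x1066) x850) x40) x1984) x2470) x3198)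
  (add (sub (add (add (sub (sub (add (add (sub (add (add C x1008) x1012) x1022) x980) x1052) x1070) x854) x44) x1988) x2474) x5388)
  (add (sub (add (add (sub (sub (sub (sub (sub C x1024) x1016) x1040) x1076) x860) x50) x1994) x2480) x5394)
  (sub (sub (add (add (sub (sub (sub (add (add (sub C x1022) x1000) x1012) x1042) x1078) x862) x52) x1996) x2482) x3210)
  (add (sub (add (add (sub (sub (sub (add (add (sub C x1032) x1040) x1052) x992) x1136) x866) x56) x2000) x2486) x5400)
  (sub (add (sub (add (add (sub (sub (sub (sub (sub C x1028) x1044) x996) x1140) x870) x60) x2004) x2490) x3220) x5408)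
  (add (sub (add (add (sub (sub (sub (add (add (sub C x1042) x1028) x1052) x1022) x1148) x878) x68) x2012) x2498) x5412)
  (sub (sub (add (add (sub (sub (sub (sub (sub C x1040) x1048) x1024) x1150) x880) x70) x2014) x2500) x3228)
  (sub (add (sub (add (add (sub (sub (add (add (sub (add (add C x1048) x1052) x1032) x972) x1008) x1152) x882) x72) x2016) x2502) x3232) x5420)
  (sub (sub (add (add (sub (sub (add (add (sub (add (add C x1044) x1052) x1042) x976) x1012) x1156) x886) x76) x2020) x2506) x3234)
  (add (sub (add (add (sub (sub (add (add (add (add (add (add C x1044) x1048) x1028) x1040) x980) x1016) x1160) x890) x80) x2024) x2510) x5424)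
  (sub (sub (add (add (add (add (sub (add (add (add (add (sub C x1056) x1066) x1078) x1090) x1126) x1000) x730) x1378) x82) x2026) x2512) x3240)
  (sub (add (sub (add (add (add (add (sub (add (add (sub (sub C x1054) x1062) x1092) x1128) x1002) x732) x1380) x84) x2028) x2514) x3244) x5432)
  (sub (add (sub (add (add (add (add (sub (sub (sub (add (add C x1066) x1070) x1056) x1080) x1008) x738) x1386) x90) x2034) x2520) x3250) x5438)
  (sub (sub (add (add (add (add (sub (sub (add (add (add (add C x1062) x1070) x1054) x1078) x1084) x1012) x742) x1390) x94) x2038) x2524) x3252)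
  (add (sub (add (add (add (add (sub (sub (sub (add (add C x1062) x1066) x1076) x1088) x1016) x746) x1394) x98) x2042) x2528) x5442)
  (add (sub (add (add (add (add (sub (sub (sub (sub C x1078) x1070) x1112) x1022) x752) x1400) x104) x2048) x2534) x5448)
  (sub (sub (add (add (add (add (sub (sub (add (add (sub C x1076) x1054) x1066) x1114) x1024) x754) x1402) x106) x2050) x2536) x3264)
  (sub (add (sub (add (add (add (add (add (add (sub (add (add (add (add C x1084) x1088) x1092) x1104) x1062) x972) x1188) x756) x1404) x108) x2052) x2538) x3268) x5456)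
  (sub (sub (add (add (add (add (add (add (sub (sub (add (add C x1080) x1088) x1090) x1066) x976) x1192) x760) x1408) x112) x2056) x2542) x3270)
  (add (sub (add (add (add (add (add (add (sub (sub (add (add C x1080) x1084) x1100) x1070) x980) x1196) x764) x1412) x116) x2060) x2546) x5460)
  (sub (sub (add (add (add (add (add (add (add (add (sub (sub C x1092) x1084) x1054) x1126) x982) x1198) x766) x1414) x118) x2062) x2548) x3276)
  (sub (add (sub (add (add (add (add (add (add (add (add (add (add (sub C x1090) x1080) x1104) x1056) x1128) x984) x1200) x768) x1416) x120) x2064) x2550) x3280) x5468)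
  (add (sub (add (add (add (add (add (add (sub (sub (sub C x1104) x1088) x1118) x992) x1208) x776) x1424) x128) x2072) x2558) x5472)
  (sub (add (sub (add (add (add (add (add (add (sub (add (add (sub C x1100) x1080) x1092) x1122) x996) x1212) x780) x1428) x132) x2076) x2562) x3292) x5480)
  (add (sub (add (add (add (add (sub (sub (sub (sub C x1114) x1118) x1076) x1166) x788) x1436) x140) x2084) x2570) x5484)
  (sub (sub (add (add (add (add (sub (sub (sub (sub C x1112) x1126) x1078) x1168) x790) x1438) x142) x2086) x2572) x3300)
  (add (sub (add (add (add (add (sub (sub (sub (sub C x1122) x1112) x1100) x1172) x794) x1442) x146) x2090) x2576) x5490)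
  (sub (add (sub (add (add (add (add (sub (sub (sub (sub C x1118) x1128) x1104) x1176) x798) x1446) x150) x2094) x2580) x3310) x5498)
  (sub (sub (add (add (add (add (sub (add (add (sub (sub C x1128) x1114) x1054) x1090) x1180) x802) x1450) x154) x2098) x2584) x3312)
  (sub (add (sub (add (add (add (add (sub (add (add (sub (sub C x1126) x1122) x1056) x1092) x1182) x804) x1452) x156) x2100) x2586) x3316) x5504)
  (add (sub (add (add (sub (sub (add (add (add (add (sub C x1140) x1148) x1160) x1172) x1208) x1028) x1298) x164) x2108) x2594) x5508)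
  (sub (add (sub (add (add (sub (sub (add (add (sub (sub C x1136) x1152) x1176) x1212) x1032) x1302) x168) x2112) x2598) x3328) x5516)
  (add (sub (add (add (sub (sub (sub (add (add (sub C x1150) x1136) x1160) x1166) x1040) x1310) x176) x2120) x2606) x5520)
  (sub (sub (add (add (sub (sub (sub (sub (sub C x1148) x1156) x1168) x1042) x1312) x178) x2122) x2608) x3336)
  (sub (add (sub (add (add (sub (sub (sub (sub (add (add C x1156) x1160) x1140) x1188) x1044) x1314) x180) x2124) x2610) x3340) x5528)
  (sub (sub (add (add (sub (sub (sub (sub (add (add C x1152) x1160) x1150) x1192) x1048) x1318) x184) x2128) x2614) x3342)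
  (add (sub (add (add (sub (sub (sub (add (add (add (add C x1152) x1156) x1136) x1148) x1196) x1052) x1322) x188) x2132) x2618) x5532)
  (add (sub (add (add (sub (sub (sub (sub (sub C x1168) x1172) x1148) x1112) x1328) x194) x2138) x2624) x5538)
  (sub (sub (add (add (sub (sub (sub (sub (sub C x1166) x1180) x1150) x1114) x1330) x196) x2140) x2626) x3354)
  (add (sub (add (add (sub (sub (add (add (sub (sub C x1176) x1166) x1136) x1208) x1118) x1334) x200) x2144) x2630) x5544)
  (sub (add (sub (add (add (sub (sub (add (add (sub (sub C x1172) x1182) x1140) x1212) x1122) x1338) x204) x2148) x2634) x3364) x5552)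
  (sub (sub (add (add (sub (sub (sub (sub (sub C x1182) x1168) x1198) x1126) x1342) x208) x2152) x2638) x3366)
  (sub (add (sub (add (add (sub (sub (sub (sub (sub C x1180) x1176) x1200) x1128) x1344) x210) x2154) x2640) x3370) x5558)
  (sub (add (sub (add (add (sub (add (add (sub (add (add (add (add C x1192) x1196) x1200) x1212) x1152) x972) x1080) x1350) x216) x2160) x2646) x3376) x5564)
  (sub (sub (add (add (sub (add (add (sub (sub (add (add C x1188) x1196) x1198) x1156) x976) x1084) x1354) x220) x2164) x2650) x3378)
  (add (sub (add (add (sub (add (add (sub (sub (add (add C x1188) x1192) x1208) x1160) x980) x1088) x1358) x224) x2168) x2654) x5568)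
  (sub (sub (add (add (sub (add (add (sub (sub (sub C x1200) x1192) x1180) x982) x1090) x1360) x226) x2170) x2656) x3384)
  (sub (add (sub (add (add (sub (add (add (sub (add (add (sub C x1198) x1188) x1212) x1182) x984) x1092) x1362) x228) x2172) x2658) x3388) x5576)
  (add (sub (add (add (sub (add (add (add (add (sub (sub C x1212) x1196) x1136) x1172) x992) x1100) x1370) x236) x2180) x2666) x5580)
  (sub (add (sub (add (add (sub (add (add (add (add (add (add (sub C x1208) x1188) x1200) x1140) x1176) x996) x1104) x1374) x240) x2184) x2670) x3400) x5588)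
  (add (sub (sub (sub (add (add (add (add (sub (sub C x1222) x1226) x1256) x1292) x1328) x1436) x896) x1706) x2678) x5592)
  (sub (sub (sub (sub (add (add (add (add (sub (sub C x1220) x1234) x1258) x1294) x1330) x1438) x898) x1708) x2680) x3408)
  (add (sub (sub (sub (add (add (sub (sub (sub C x1230) x1220) x1244) x1334) x1442) x902) x1712) x2684) x5598)
  (sub (add (sub (sub (sub (add (add (sub (sub (sub C x1226) x1236) x1248) x1338) x1446) x906) x1716) x2688) x3418) x5606)
  (sub (sub (sub (sub (add (add (sub (sub (sub C x1236) x1222) x1270) x1342) x1450) x910) x1720) x2692) x3420)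
  (sub (add (sub (sub (sub (add (add (sub (sub (sub C x1234) x1230) x1272) x1344) x1452) x912) x1722) x2694) x3424) x5612)
  (add (sub (sub (sub (sub (sub (add (add (sub C x1248) x1256) x1268) x1226) x1298) x920) x1730) x2702) x5616)
  (sub (add (sub (sub (sub (sub (sub (sub (sub C x1244) x1260) x1230) x1302) x924) x1734) x2706) x3436) x5624)
  (add (sub (sub (sub (sub (add (add (add (add (sub C x1258) x1244) x1268) x1220) x1292) x1310) x932) x1742) x2714) x5628)
  (sub (sub (sub (sub (sub (add (add (sub (sub C x1256) x1264) x1222) x1294) x1312) x934) x1744) x2716) x3444)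
  (sub (add (sub (sub (sub (sub (sub (sub (add (add C x1264) x1268) x1248) x1278) x1314) x936) x1746) x2718) x3448) x5636)
  (sub (sub (sub (sub (sub (sub (sub (add (add C x1260) x1268) x1258) x1282) x1318) x940) x1750) x2722) x3450)
  (add (sub (sub (sub (sub (sub (add (add (add (add C x1260) x1264) x1244) x1256) x1286) x1322) x944) x1754) x2726) x5640)
  (sub (sub (sub (sub (sub (sub (add (add (sub C x1272) x1282) x1294) x1234) x1378) x946) x1756) x2728) x3456)
  (sub (add (sub (sub (sub (sub (sub (sub (sub C x1270) x1278) x1236) x1380) x948) x1758) x2730) x3460) x5648)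
  (sub (add (sub (sub (sub (sub (sub (sub (add (add C x1282) x1286) x1272) x1260) x1386) x954) x1764) x2736) x3466) x5654)
  (sub (sub (sub (sub (sub (sub (add (add (add (add C x1278) x1286) x1270) x1294) x1264) x1390) x958) x1768) x2740) x3468)
  (add (sub (sub (sub (sub (sub (sub (add (add C x1278) x1282) x1292) x1268) x1394) x962) x1772) x2744) x5658)
  (add (sub (sub (sub (sub (add (add (sub (sub C x1294) x1286) x1220) x1256) x1400) x968) x1778) x2750) x5664)
  (sub (sub (sub (sub (sub (add (add (add (add (sub C x1292) x1270) x1282) x1222) x1258) x1402) x970) x1780) x2752) x3480)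
  (add (sub (sub (sub (sub (add (add (add (add (sub C x1302) x1310) x1322) x1334) x1370) x1244) x1136) x1784) x2756) x5670)
  (sub (add (sub (sub (sub (sub (add (add (sub (sub C x1298) x1314) x1338) x1374) x1248) x1140) x1788) x2760) x3490) x5678)
  (add (sub (sub (sub (sub (sub (add (add (sub C x1312) x1298) x1322) x1328) x1256) x1148) x1796) x2768) x5682)
  (sub (sub (sub (sub (sub (sub (sub (sub C x1310) x1318) x1330) x1258) x1150) x1798) x2770) x3498)
  (sub (add (sub (sub (sub (sub (sub (sub (add (add C x1318) x1322) x1302) x1350) x1260) x1152) x1800) x2772) x3502) x5690)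
  (sub (sub (sub (sub (sub (sub (sub (add (add C x1314) x1322) x1312) x1354) x1264) x1156) x1804) x2776) x3504)
  (add (sub (sub (sub (sub (sub (add (add (add (add C x1314) x1318) x1298) x1310) x1358) x1268) x1160) x1808) x2780) x5694)
  (add (sub (sub (sub (add (add (sub (sub (sub C x1330) x1334) x1310) x1220) x1436) x1166) x1814) x2786) x5700)
  (sub (sub (sub (sub (add (add (sub (sub (sub C x1328) x1342) x1312) x1222) x1438) x1168) x1816) x2788) x3516)
  (add (sub (sub (sub (add (add (add (add (sub (sub C x1338) x1328) x1298) x1370) x1226) x1442) x1172) x1820) x2792) x5706)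
  (sub (add (sub (sub (sub (add (add (add (add (sub (sub C x1334) x1344) x1302) x1374) x1230) x1446) x1176) x1824) x2796) x3526) x5714)
  (sub (sub (sub (sub (add (add (sub (sub (sub C x1344) x1330) x1360) x1234) x1450) x1180) x1828) x2800) x3528)
  (sub (add (sub (sub (sub (add (add (sub (sub (sub C x1342) x1338) x1362) x1236) x1452) x1182) x1830) x2802) x3532) x5720)
  (sub (add (sub (sub (sub (sub (sub (add (add (add (add C x1354) x1358) x1362) x1374) x1314) x1404) x1188) x1836) x2808) x3538) x5726)
  (sub (sub (sub (sub (sub (sub (sub (add (add C x1350) x1358) x1360) x1318) x1408) x1192) x1840) x2812) x3540)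
  (add (sub (sub (sub (sub (sub (sub (add (add C x1350) x1354) x1370) x1322) x1412) x1196) x1844) x2816) x5730)
  (sub (sub (sub (sub (sub (sub (sub (sub C x1362) x1354) x1342) x1414) x1198) x1846) x2818) x3546)
  (sub (add (sub (sub (sub (sub (sub (add (add (sub C x1360) x1350) x1374) x1344) x1416) x1200) x1848) x2820) x3550) x5738)
  (add (sub (sub (sub (sub (add (add (sub (sub C x1374) x1358) x1298) x1334) x1424) x1208) x1856) x2828) x5742)
  (sub (add (sub (sub (sub (sub (add (add (add (add (sub C x1370) x1350) x1362) x1302) x1338) x1428) x1212) x1860) x2832) x3562) x5750)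
  (sub (sub (sub (add (add (sub (add (add (add (add (sub C x1380) x1390) x1402) x1414) x1450) x1270) x730) x1054) x1864) x2836) x3564)
  (sub (add (sub (sub (add (add (sub (add (add (sub (sub C x1378) x1386) x1416) x1452) x1272) x732) x1056) x1866) x2838) x3568) x5756)
  (sub (add (sub (sub (add (add (sub (sub (sub (add (add C x1390) x1394) x1380) x1404) x1278) x738) x1062) x1872) x2844) x3574) x5762)
  (sub (sub (sub (add (add (sub (sub (add (add (add (add C x1386) x1394) x1378) x1402) x1408) x1282) x742) x1066) x1876) x2848) x3576)
  (add (sub (sub (add (add (sub (sub (sub (add (add C x1386) x1390) x1400) x1412) x1286) x746) x1070) x1880) x2852) x5766)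
  (add (sub (sub (add (add (sub (sub (sub (sub C x1402) x1394) x1436) x1292) x752) x1076) x1886) x2858) x5772)
  (sub (sub (sub (add (add (sub (sub (add (add (sub C x1400) x1378) x1390) x1438) x1294) x754) x1078) x1888) x2860) x3588)
  (sub (add (sub (sub (add (add (sub (sub (add (add (add (add C x1408) x1412) x1416) x1428) x1386) x1350) x756) x1080) x1890) x2862) x3592) x5780)
  (sub (sub (sub (add (add (sub (sub (sub (add (add C x1404) x1412) x1414) x1390) x1354) x760) x1084) x1894) x2866) x3594)
  (add (sub (sub (add (add (sub (sub (sub (add (add C x1404) x1408) x1424) x1394) x1358) x764) x1088) x1898) x2870) x5784)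
  (sub (sub (sub (add (add (sub (add (add (sub (sub C x1416) x1408) x1378) x1450) x1360) x766) x1090) x1900) x2872) x3600)
  (sub (add (sub (sub (add (add (sub (add (add (add (add (sub C x1414) x1404) x1428) x1380) x1452) x1362) x768) x1092) x1902) x2874) x3604) x5792)
  (add (sub (sub (add (add (sub (sub (sub (sub C x1428) x1412) x1442) x1370) x776) x1100) x1910) x2882) x5796)
  (sub (add (sub (sub (add (add (sub (sub (add (add (sub C x1424) x1404) x1416) x1446) x1374) x780) x1104) x1914) x2886) x3616) x5804)
  (add (sub (sub (add (add (add (add (sub (sub (sub C x1438) x1442) x1400) x1220) x1328) x788) x1112) x1922) x2894) x5808)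
  (sub (sub (sub (add (add (add (add (sub (sub (sub C x1436) x1450) x1402) x1222) x1330) x790) x1114) x1924) x2896) x3624)
  (add (sub (sub (add (add (add (add (sub (sub (sub C x1446) x1436) x1424) x1226) x1334) x794) x1118) x1928) x2900) x5814)
  (sub (add (sub (sub (add (add (add (add (sub (sub (sub C x1442) x1452) x1428) x1230) x1338) x798) x1122) x1932) x2904) x3634) x5822)
  (sub (sub (sub (add (add (add (add (add (add (sub (sub C x1452) x1438) x1378) x1414) x1234) x1342) x802) x1126) x1936) x2908) x3636)
  (sub (add (sub (sub (add (add (add (add (add (add (sub (sub C x1450) x1446) x1380) x1416) x1236) x1344) x804) x1128) x1938) x2910) x3640) x5828)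
  (add (sub (sub (add (add (add (add (add (add (add (add (sub C x1464) x1472) x1484) x1496) x1532) x1568) x1676) x1784) x2108) x488) x4376) x5832)
  (sub (add (sub (sub (add (add (add (add (add (add (sub (sub C x1460) x1476) x1500) x1536) x1572) x1680) x1788) x2112) x492) x4380) x3652) x5840)
  (add (sub (sub (add (add (add (add (sub (add (add (sub C x1474) x1460) x1484) x1490) x1580) x1688) x1796) x2120) x500) x4388) x5844)
  (sub (sub (sub (add (add (add (add (sub (sub (sub C x1472) x1480) x1492) x1582) x1690) x1798) x2122) x502) x4390) x3660)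
  (sub (add (sub (sub (add (add (add (add (sub (sub (add (add C x1480) x1484) x1464) x1512) x1584) x1692) x1800) x2124) x504) x4392) x3664) x5852)
  (sub (sub (sub (add (add (add (add (sub (sub (add (add C x1476) x1484) x1474) x1516) x1588) x1696) x1804) x2128) x508) x4396) x3666)
  (add (sub (sub (add (add (add (add (sub (add (add (add (add C x1476) x1480) x1460) x1472) x1520) x1592) x1700) x1808) x2132) x512) x4400) x5856)
  (add (sub (sub (add (add (sub (sub (sub (sub C x1492) x1496) x1472) x1544) x1814) x2138) x518) x4406) x5862)
  (sub (sub (sub (add (add (sub (sub (sub (sub C x1490) x1504) x1474) x1546) x1816) x2140) x520) x4408) x3678)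
  (add (sub (sub (add (add (sub (add (add (sub (sub C x1500) x1490) x1460) x1532) x1550) x1820) x2144) x524) x4412) x5868)
  (sub (add (sub (sub (add (add (sub (add (add (sub (sub C x1496) x1506) x1464) x1536) x1554) x1824) x2148) x528) x4416) x3688) x5876)
  (sub (sub (sub (add (add (sub (sub (sub (sub C x1506) x1492) x1522) x1558) x1828) x2152) x532) x4420) x3690)
  (sub (add (sub (sub (add (add (sub (sub (sub (sub C x1504) x1500) x1524) x1560) x1830) x2154) x534) x4422) x3694) x5882)
  (sub (add (sub (sub (add (add (sub (sub (add (add (add (add C x1516) x1520) x1524) x1536) x1476) x1620) x1836) x2160) x540) x4428) x3700) x5888)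
  (sub (sub (sub (add (add (sub (sub (sub (add (add C x1512) x1520) x1522) x1480) x1624) x1840) x2164) x544) x4432) x3702)
  (add (sub (sub (add (add (sub (sub (sub (add (add C x1512) x1516) x1532) x1484) x1628) x1844) x2168) x548) x4436) x5892)
  (sub (sub (sub (add (add (sub (sub (sub (sub C x1524) x1516) x1504) x1630) x1846) x2170) x550) x4438) x3708)
  (sub (add (sub (sub (add (add (sub (sub (add (add (sub C x1522) x1512) x1536) x1506) x1632) x1848) x2172) x552) x4440) x3712) x5900)
  (add (sub (sub (add (add (sub (add (add (sub (sub C x1536) x1520) x1460) x1496) x1640) x1856) x2180) x560) x4448) x5904)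
  (sub (add (sub (sub (add (add (sub (add (add (add (add (sub C x1532) x1512) x1524) x1464) x1500) x1644) x1860) x2184) x564) x4452) x3724) x5912)
  (add (sub (sub (sub (sub (add (add (sub (sub C x1546) x1550) x1580) x1616) x1490) x1706) x572) x4460) x5916)
  (sub (sub (sub (sub (sub (add (add (sub (sub C x1544) x1558) x1582) x1618) x1492) x1708) x574) x4462) x3732)
  (add (sub (sub (sub (sub (sub (sub (sub C x1554) x1544) x1568) x1496) x1712) x578) x4466) x5922)
  (sub (add (sub (sub (sub (sub (sub (sub (sub C x1550) x1560) x1572) x1500) x1716) x582) x4470) x3742) x5930)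
  (sub (sub (sub (sub (sub (sub (sub (sub C x1560) x1546) x1594) x1504) x1720) x586) x4474) x3744)
  (sub (add (sub (sub (sub (sub (sub (sub (sub C x1558) x1554) x1596) x1506) x1722) x588) x4476) x3748) x5936)
  (add (sub (sub (sub (add (add (sub (add (add (sub C x1572) x1580) x1592) x1550) x1460) x1676) x1730) x596) x4484) x5940)
  (sub (add (sub (sub (sub (add (add (sub (sub (sub C x1568) x1584) x1554) x1464) x1680) x1734) x600) x4488) x3760) x5948)
  (add (sub (sub (sub (add (add (add (add (add (add (sub C x1582) x1568) x1592) x1544) x1616) x1472) x1688) x1742) x608) x4496) x5952)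
  (sub (sub (sub (sub (add (add (add (add (sub (sub C x1580) x1588) x1546) x1618) x1474) x1690) x1744) x610) x4498) x3768)
  (sub (add (sub (sub (sub (add (add (sub (sub (add (add C x1588) x1592) x1572) x1602) x1476) x1692) x1746) x612) x4500) x3772) x5960)
  (sub (sub (sub (sub (add (add (sub (sub (add (add C x1584) x1592) x1582) x1606) x1480) x1696) x1750) x616) x4504) x3774)
  (add (sub (sub (sub (add (add (sub (add (add (add (add C x1584) x1588) x1568) x1580) x1610) x1484) x1700) x1754) x620) x4508) x5964)
  (sub (sub (sub (sub (sub (sub (add (add (sub C x1596) x1606) x1618) x1558) x1648) x1756) x622) x4510) x3780)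
  (sub (add (sub (sub (sub (sub (sub (sub (sub C x1594) x1602) x1560) x1650) x1758) x624) x4512) x3784) x5972)
  (sub (add (sub (sub (sub (sub (sub (sub (add (add C x1606) x1610) x1596) x1584) x1656) x1764) x630) x4518) x3790) x5978)
  (sub (sub (sub (sub (sub (sub (add (add (add (add C x1602) x1610) x1594) x1618) x1588) x1660) x1768) x634) x4522) x3792)
  (add (sub (sub (sub (sub (sub (sub (add (add C x1602) x1606) x1616) x1592) x1664) x1772) x638) x4526) x5982)
  (add (sub (sub (sub (sub (add (add (sub (sub C x1618) x1610) x1544) x1580) x1670) x1778) x644) x4532) x5988)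
  (sub (sub (sub (sub (sub (add (add (add (add (sub C x1616) x1594) x1606) x1546) x1582) x1672) x1780) x646) x4534) x3804)
  (sub (add (sub (sub (sub (sub (add (add (add (add (add (add C x1624) x1628) x1632) x1644) x1656) x1692) x1512) x1944) x648) x4536) x3808) x5996)
  (sub (sub (sub (sub (sub (add (add (sub (add (add C x1620) x1628) x1630) x1660) x1696) x1516) x1948) x652) x4540) x3810)
  (add (sub (sub (sub (sub (add (add (sub (add (add C x1620) x1624) x1640) x1664) x1700) x1520) x1952) x656) x4544) x6000)
  (sub (sub (sub (sub (sub (sub (sub (sub C x1632) x1624) x1648) x1522) x1954) x658) x4546) x3816)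
  (sub (add (sub (sub (sub (sub (sub (add (add (sub C x1630) x1620) x1644) x1650) x1524) x1956) x660) x4548) x3820) x6008)
  (add (sub (sub (sub (sub (sub (sub (sub C x1644) x1628) x1676) x1532) x1964) x668) x4556) x6012)
  (sub (add (sub (sub (sub (sub (sub (add (add (sub C x1640) x1620) x1632) x1680) x1536) x1968) x672) x4560) x3832) x6020)
  (sub (sub (sub (sub (sub (sub (add (add (sub C x1650) x1660) x1672) x1630) x1594) x1972) x676) x4564) x3834)
  (sub (add (sub (sub (sub (sub (sub (sub (sub C x1648) x1656) x1632) x1596) x1974) x678) x4566) x3838) x6026)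
  (sub (add (sub (sub (sub (sub (add (add (sub (add (add C x1660) x1664) x1650) x1620) x1692) x1602) x1980) x684) x4572) x3844) x6032)
  (sub (sub (sub (sub (sub (add (add (add (add (add (add C x1656) x1664) x1648) x1672) x1624) x1696) x1606) x1984) x688) x4576) x3846)
  (add (sub (sub (sub (sub (add (add (sub (add (add C x1656) x1660) x1670) x1628) x1700) x1610) x1988) x692) x4580) x6036)
  (add (sub (sub (sub (sub (sub (sub (sub C x1672) x1664) x1688) x1616) x1994) x698) x4586) x6042)
  (sub (sub (sub (sub (sub (sub (add (add (sub C x1670) x1648) x1660) x1690) x1618) x1996) x700) x4588) x3858)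
  (add (sub (sub (sub (add (add (sub (add (add (sub C x1680) x1688) x1700) x1640) x1460) x1568) x2000) x704) x4592) x6048)
  (sub (add (sub (sub (sub (add (add (sub (sub (sub C x1676) x1692) x1644) x1464) x1572) x2004) x708) x4596) x3868) x6056)
  (add (sub (sub (sub (add (add (sub (add (add (sub C x1690) x1676) x1700) x1670) x1472) x1580) x2012) x716) x4604) x6060)
  (sub (sub (sub (sub (add (add (sub (sub (sub C x1688) x1696) x1672) x1474) x1582) x2014) x718) x4606) x3876)
  (sub (add (sub (sub (sub (add (add (add (add (sub (add (add C x1696) x1700) x1680) x1620) x1656) x1476) x1584) x2016) x720) x4608) x3880) x6068)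
  (sub (sub (sub (sub (add (add (add (add (sub (add (add C x1692) x1700) x1690) x1624) x1660) x1480) x1588) x2020) x724) x4612) x3882)
  (add (sub (sub (sub (add (add (add (add (add (add (add (add C x1692) x1696) x1676) x1688) x1628) x1664) x1484) x1592) x2024) x728) x4616) x6072)
  (add (sub (sub (sub (add (add (add (add (sub (sub C x1708) x1712) x1742) x1778) x1814) x1922) x1544) x1220) x4622) x6078)
  (sub (sub (sub (sub (add (add (add (add (sub (sub C x1706) x1720) x1744) x1780) x1816) x1924) x1546) x1222) x4624) x3894)
  (add (sub (sub (sub (add (add (sub (sub (sub C x1716) x1706) x1730) x1820) x1928) x1550) x1226) x4628) x6084)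
  (sub (add (sub (sub (sub (add (add (sub (sub (sub C x1712) x1722) x1734) x1824) x1932) x1554) x1230) x4632) x3904) x6092)
  (sub (sub (sub (sub (add (add (sub (sub (sub C x1722) x1708) x1756) x1828) x1936) x1558) x1234) x4636) x3906)
  (sub (add (sub (sub (sub (add (add (sub (sub (sub C x1720) x1716) x1758) x1830) x1938) x1560) x1236) x4638) x3910) x6098)
  (add (sub (sub (sub (sub (sub (add (add (sub C x1734) x1742) x1754) x1712) x1784) x1568) x1244) x4646) x6102)
  (sub (add (sub (sub (sub (sub (sub (sub (sub C x1730) x1746) x1716) x1788) x1572) x1248) x4650) x3922) x6110)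
  (add (sub (sub (sub (sub (add (add (add (add (sub C x1744) x1730) x1754) x1706) x1778) x1796) x1580) x1256) x4658) x6114)
  (sub (sub (sub (sub (sub (add (add (sub (sub C x1742) x1750) x1708) x1780) x1798) x1582) x1258) x4660) x3930)
  (sub (add (sub (sub (sub (sub (sub (sub (add (add C x1750) x1754) x1734) x1764) x1800) x1584) x1260) x4662) x3934) x6122)
  (sub (sub (sub (sub (sub (sub (sub (add (add C x1746) x1754) x1744) x1768) x1804) x1588) x1264) x4666) x3936)
  (add (sub (sub (sub (sub (sub (add (add (add (add C x1746) x1750) x1730) x1742) x1772) x1808) x1592) x1268) x4670) x6126)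
  (sub (sub (sub (sub (sub (sub (add (add (sub C x1758) x1768) x1780) x1720) x1864) x1594) x1270) x4672) x3942)
  (sub (add (sub (sub (sub (sub (sub (sub (sub C x1756) x1764) x1722) x1866) x1596) x1272) x4674) x3946) x6134)
  (sub (add (sub (sub (sub (sub (sub (sub (add (add C x1768) x1772) x1758) x1746) x1872) x1602) x1278) x4680) x3952) x6140)
  (sub (sub (sub (sub (sub (sub (add (add (add (add C x1764) x1772) x1756) x1780) x1750) x1876) x1606) x1282) x4684) x3954)
  (add (sub (sub (sub (sub (sub (sub (add (add C x1764) x1768) x1778) x1754) x1880) x1610) x1286) x4688) x6144)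
  (add (sub (sub (sub (sub (add (add (sub (sub C x1780) x1772) x1706) x1742) x1886) x1616) x1292) x4694) x6150)
  (sub (sub (sub (sub (sub (add (add (add (add (sub C x1778) x1756) x1768) x1708) x1744) x1888) x1618) x1294) x4696) x3966)
  (add (sub (sub (add (add (sub (add (add (add (add (sub C x1788) x1796) x1808) x1820) x1856) x1730) x1460) x2108) x1298) x4700) x6156)
  (sub (add (sub (sub (add (add (sub (add (add (sub (sub C x1784) x1800) x1824) x1860) x1734) x1464) x2112) x1302) x4704) x3976) x6164)
  (add (sub (sub (add (add (sub (sub (add (add (sub C x1798) x1784) x1808) x1814) x1742) x1472) x2120) x1310) x4712) x6168)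
  (sub (sub (sub (add (add (sub (sub (sub (sub C x1796) x1804) x1816) x1744) x1474) x2122) x1312) x4714) x3984)
  (sub (add (sub (sub (add (add (sub (sub (sub (add (add C x1804) x1808) x1788) x1836) x1746) x1476) x2124) x1314) x4716) x3988) x6176)
  (sub (sub (sub (add (add (sub (sub (sub (add (add C x1800) x1808) x1798) x1840) x1750) x1480) x2128) x1318) x4720) x3990)
  (add (sub (sub (add (add (sub (sub (add (add (add (add C x1800) x1804) x1784) x1796) x1844) x1754) x1484) x2132) x1322) x4724) x6180)
  (add (sub (sub (add (add (add (add (sub (sub (sub C x1816) x1820) x1796) x1706) x1922) x1490) x2138) x1328) x4730) x6186)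
  (sub (sub (sub (add (add (add (add (sub (sub (sub C x1814) x1828) x1798) x1708) x1924) x1492) x2140) x1330) x4732) x4002)
  (add (sub (sub (add (add (add (add (add (add (sub (sub C x1824) x1814) x1784) x1856) x1712) x1928) x1496) x2144) x1334) x4736) x6192)
  (sub (add (sub (sub (add (add (add (add (add (add (sub (sub C x1820) x1830) x1788) x1860) x1716) x1932) x1500) x2148) x1338) x4740) x4012) x6200)
  (sub (sub (sub (add (add (add (add (sub (sub (sub C x1830) x1816) x1846) x1720) x1936) x1504) x2152) x1342) x4744) x4014)
  (sub (add (sub (sub (add (add (add (add (sub (sub (sub C x1828) x1824) x1848) x1722) x1938) x1506) x2154) x1344) x4746) x4018) x6206)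
  (sub (add (sub (sub (add (add (sub (sub (add (add (add (add C x1840) x1844) x1848) x1860) x1800) x1890) x1512) x2160) x1350) x4752) x4024) x6212)
  (sub (sub (sub (add (add (sub (sub (sub (add (add C x1836) x1844) x1846) x1804) x1894) x1516) x2164) x1354) x4756) x4026)
  (add (sub (sub (add (add (sub (sub (sub (add (add C x1836) x1840) x1856) x1808) x1898) x1520) x2168) x1358) x4760) x6216)
  (sub (sub (sub (add (add (sub (sub (sub (sub C x1848) x1840) x1828) x1900) x1522) x2170) x1360) x4762) x4032)
  (sub (add (sub (sub (add (add (sub (sub (add (add (sub C x1846) x1836) x1860) x1830) x1902) x1524) x2172) x1362) x4764) x4036) x6224)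
  (add (sub (sub (add (add (sub (add (add (sub (sub C x1860) x1844) x1784) x1820) x1910) x1532) x2180) x1370) x4772) x6228)
  (sub (add (sub (sub (add (add (sub (add (add (add (add (sub C x1856) x1836) x1848) x1788) x1824) x1914) x1536) x2184) x1374) x4776) x4048) x6236)
  (sub (sub (sub (sub (sub (add (add (add (add (sub C x1866) x1876) x1888) x1900) x1936) x1756) x2026) x1378) x4780) x4050)
  (sub (add (sub (sub (sub (sub (add (add (sub (sub C x1864) x1872) x1902) x1938) x1758) x2028) x1380) x4782) x4054) x6242)
  (sub (add (sub (sub (sub (sub (sub (sub (add (add C x1876) x1880) x1866) x1890) x1764) x2034) x1386) x4788) x4060) x6248)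
  (sub (sub (sub (sub (sub (sub (add (add (add (add C x1872) x1880) x1864) x1888) x1894) x1768) x2038) x1390) x4792) x4062)
  (add (sub (sub (sub (sub (sub (sub (add (add C x1872) x1876) x1886) x1898) x1772) x2042) x1394) x4796) x6252)
  (add (sub (sub (sub (sub (sub (sub (sub C x1888) x1880) x1922) x1778) x2048) x1400) x4802) x6258)
  (sub (sub (sub (sub (sub (sub (add (add (sub C x1886) x1864) x1876) x1924) x1780) x2050) x1402) x4804) x4074)
  (sub (add (sub (sub (sub (sub (sub (add (add (add (add C x1894) x1898) x1902) x1914) x1872) x1836) x2052) x1404) x4806) x4078) x6266)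
  (sub (sub (sub (sub (sub (sub (sub (add (add C x1890) x1898) x1900) x1876) x1840) x2056) x1408) x4810) x4080)
  (add (sub (sub (sub (sub (sub (sub (add (add C x1890) x1894) x1910) x1880) x1844) x2060) x1412) x4814) x6270)
  (sub (sub (sub (sub (sub (add (add (sub (sub C x1902) x1894) x1864) x1936) x1846) x2062) x1414) x4816) x4086)
  (sub (add (sub (sub (sub (sub (add (add (add (add (sub C x1900) x1890) x1914) x1866) x1938) x1848) x2064) x1416) x4818) x4090) x6278)
  (add (sub (sub (sub (sub (sub (sub (sub C x1914) x1898) x1928) x1856) x2072) x1424) x4826) x6282)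
  (sub (add (sub (sub (sub (sub (sub (add (add (sub C x1910) x1890) x1902) x1932) x1860) x2076) x1428) x4830) x4102) x6290)
  (add (sub (sub (sub (add (add (sub (sub (sub C x1924) x1928) x1886) x1706) x1814) x2084) x1436) x4838) x6294)
  (sub (sub (sub (sub (add (add (sub (sub (sub C x1922) x1936) x1888) x1708) x1816) x2086) x1438) x4840) x4110)
  (add (sub (sub (sub (add (add (sub (sub (sub C x1932) x1922) x1910) x1712) x1820) x2090) x1442) x4844) x6300)
  (sub (add (sub (sub (sub (add (add (sub (sub (sub C x1928) x1938) x1914) x1716) x1824) x2094) x1446) x4848) x4120) x6308)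
  (sub (sub (sub (sub (add (add (add (add (sub (sub C x1938) x1924) x1864) x1900) x1720) x1828) x2098) x1450) x4852) x4122)
  (sub (add (sub (sub (sub (add (add (add (add (sub (sub C x1936) x1932) x1866) x1902) x1722) x1830) x2100) x1452) x4854) x4126) x6314)
  (sub (add (sub (add (add (sub (add (add (add (add (add (add (add (add C x1948) x1952) x1956) x1968) x1980) x2016) x2052) x2160) x1620) x0) x972) x4860) x4132) x6320)
  (sub (sub (add (add (sub (add (add (add (add (sub (add (add C x1944) x1952) x1954) x1984) x2020) x2056) x2164) x1624) x4) x976) x4864) x4134)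
  (add (sub (add (add (sub (add (add (add (add (sub (add (add C x1944) x1948) x1964) x1988) x2024) x2060) x2168) x1628) x8) x980) x4868) x6324)
  (sub (sub (add (add (sub (add (add (sub (sub (sub C x1956) x1948) x1972) x2062) x2170) x1630) x10) x982) x4870) x4140)
  (sub (add (sub (add (add (sub (add (add (sub (add (add (sub C x1954) x1944) x1968) x1974) x2064) x2172) x1632) x12) x984) x4872) x4144) x6332)
  (add (sub (add (add (sub (add (add (sub (sub (sub C x1968) x1952) x2000) x2072) x2180) x1640) x20) x992) x4880) x6336)
  (sub (add (sub (add (add (sub (add (add (sub (add (add (sub C x1964) x1944) x1956) x2004) x2076) x2184) x1644) x24) x996) x4884) x4156) x6344)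
  (sub (sub (add (add (sub (sub (sub (add (add (sub C x1974) x1984) x1996) x1954) x2026) x1648) x28) x1000) x4888) x4158)
  (sub (add (sub (add (add (sub (sub (sub (sub (sub C x1972) x1980) x1956) x2028) x1650) x30) x1002) x4890) x4162) x6350)
  (sub (add (sub (add (add (sub (sub (add (add (sub (add (add C x1984) x1988) x1974) x1944) x2016) x2034) x1656) x36) x1008) x4896) x4168) x6356)
  (sub (sub (add (add (sub (sub (add (add (add (add (add (add C x1980) x1988) x1972) x1996) x1948) x2020) x2038) x1660) x40) x1012) x4900) x4170)
  (add (sub (add (add (sub (sub (add (add (sub (add (add C x1980) x1984) x1994) x1952) x2024) x2042) x1664) x44) x1016) x4904) x6360)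
  (add (sub (add (add (sub (sub (sub (sub (sub C x1996) x1988) x2012) x2048) x1670) x50) x1022) x4910) x6366)
  (sub (sub (add (add (sub (sub (sub (add (add (sub C x1994) x1972) x1984) x2014) x2050) x1672) x52) x1024) x4912) x4182)
  (add (sub (add (add (sub (sub (sub (add (add (sub C x2004) x2012) x2024) x1964) x2108) x1676) x56) x1028) x4916) x6372)
  (sub (add (sub (add (add (sub (sub (sub (sub (sub C x2000) x2016) x1968) x2112) x1680) x60) x1032) x4920) x4192) x6380)
  (add (sub (add (add (sub (sub (sub (add (add (sub C x2014) x2000) x2024) x1994) x2120) x1688) x68) x1040) x4928) x6384)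
  (sub (sub (add (add (sub (sub (sub (sub (sub C x2012) x2020) x1996) x2122) x1690) x70) x1042) x4930) x4200)
  (sub (add (sub (add (add (sub (sub (add (add (sub (add (add C x2020) x2024) x2004) x1944) x1980) x2124) x1692) x72) x1044) x4932) x4204) x6392)
  (sub (sub (add (add (sub (sub (add (add (sub (add (add C x2016) x2024) x2014) x1948) x1984) x2128) x1696) x76) x1048) x4936) x4206)
  (add (sub (add (add (sub (sub (add (add (add (add (add (add C x2016) x2020) x2000) x2012) x1952) x1988) x2132) x1700) x80) x1052) x4940) x6396)
  (sub (sub (add (add (sub (sub (add (add (add (add (sub C x2028) x2038) x2050) x2062) x2098) x1972) x1864) x82) x1054) x4942) x4212)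
  (sub (add (sub (add (add (sub (sub (add (add (sub (sub C x2026) x2034) x2064) x2100) x1974) x1866) x84) x1056) x4944) x4216) x6404)
  (sub (add (sub (add (add (sub (sub (sub (sub (add (add C x2038) x2042) x2028) x2052) x1980) x1872) x90) x1062) x4950) x4222) x6410)
  (sub (sub (add (add (sub (sub (sub (add (add (add (add C x2034) x2042) x2026) x2050) x2056) x1984) x1876) x94) x1066) x4954) x4224)
  (add (sub (add (add (sub (sub (sub (sub (add (add C x2034) x2038) x2048) x2060) x1988) x1880) x98) x1070) x4958) x6414)
  (add (sub (add (add (sub (sub (sub (sub (sub C x2050) x2042) x2084) x1994) x1886) x104) x1076) x4964) x6420)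
  (sub (sub (add (add (sub (sub (sub (add (add (sub C x2048) x2026) x2038) x2086) x1996) x1888) x106) x1078) x4966) x4236)
  (sub (add (sub (add (add (sub (add (add (sub (add (add (add (add C x2056) x2060) x2064) x2076) x2034) x1944) x2160) x1890) x108) x1080) x4968) x4240) x6428)
  (sub (sub (add (add (sub (add (add (sub (sub (add (add C x2052) x2060) x2062) x2038) x1948) x2164) x1894) x112) x1084) x4972) x4242)
  (add (sub (add (add (sub (add (add (sub (sub (add (add C x2052) x2056) x2072) x2042) x1952) x2168) x1898) x116) x1088) x4976) x6432)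
  (sub (sub (add (add (sub (add (add (add (add (sub (sub C x2064) x2056) x2026) x2098) x1954) x2170) x1900) x118) x1090) x4978) x4248)
  (sub (add (sub (add (add (sub (add (add (add (add (add (add (sub C x2062) x2052) x2076) x2028) x2100) x1956) x2172) x1902) x120) x1092) x4980) x4252) x6440)
  (add (sub (add (add (sub (add (add (sub (sub (sub C x2076) x2060) x2090) x1964) x2180) x1910) x128) x1100) x4988) x6444)
  (sub (add (sub (add (add (sub (add (add (sub (add (add (sub C x2072) x2052) x2064) x2094) x1968) x2184) x1914) x132) x1104) x4992) x4264) x6452)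
  (add (sub (add (add (sub (sub (sub (sub (sub C x2086) x2090) x2048) x2138) x1922) x140) x1112) x5000) x6456)
  (sub (sub (add (add (sub (sub (sub (sub (sub C x2084) x2098) x2050) x2140) x1924) x142) x1114) x5002) x4272)
  (add (sub (add (add (sub (sub (sub (sub (sub C x2094) x2084) x2072) x2144) x1928) x146) x1118) x5006) x6462)
  (sub (add (sub (add (add (sub (sub (sub (sub (sub C x2090) x2100) x2076) x2148) x1932) x150) x1122) x5010) x4282) x6470)
  (sub (sub (add (add (sub (sub (add (add (sub (sub C x2100) x2086) x2026) x2062) x2152) x1936) x154) x1126) x5014) x4284)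
  (sub (add (sub (add (add (sub (sub (add (add (sub (sub C x2098) x2094) x2028) x2064) x2154) x1938) x156) x1128) x5016) x4288) x6476)
  (add (sub (add (add (add (add (sub (add (add (add (add (sub C x2112) x2120) x2132) x2144) x2180) x2000) x1460) x1784) x164) x1136) x5024) x6480)
  (sub (add (sub (add (add (add (add (sub (add (add (sub (sub C x2108) x2124) x2148) x2184) x2004) x1464) x1788) x168) x1140) x5028) x4300) x6488)
  (add (sub (add (add (add (add (sub (sub (add (add (sub C x2122) x2108) x2132) x2138) x2012) x1472) x1796) x176) x1148) x5036) x6492)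
  (sub (sub (add (add (add (add (sub (sub (sub (sub C x2120) x2128) x2140) x2014) x1474) x1798) x178) x1150) x5038) x4308)
  (sub (add (sub (add (add (add (add (sub (sub (sub (add (add C x2128) x2132) x2112) x2160) x2016) x1476) x1800) x180) x1152) x5040) x4312) x6500)
  (sub (sub (add (add (add (add (sub (sub (sub (add (add C x2124) x2132) x2122) x2164) x2020) x1480) x1804) x184) x1156) x5044) x4314)
  (add (sub (add (add (add (add (sub (sub (add (add (add (add C x2124) x2128) x2108) x2120) x2168) x2024) x1484) x1808) x188) x1160) x5048) x6504)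
  (add (sub (add (add (add (add (sub (sub (sub (sub C x2140) x2144) x2120) x2084) x1490) x1814) x194) x1166) x5054) x6510)
  (sub (sub (add (add (add (add (sub (sub (sub (sub C x2138) x2152) x2122) x2086) x1492) x1816) x196) x1168) x5056) x4326)
  (add (sub (add (add (add (add (sub (add (add (sub (sub C x2148) x2138) x2108) x2180) x2090) x1496) x1820) x200) x1172) x5060) x6516)
  (sub (add (sub (add (add (add (add (sub (add (add (sub (sub C x2144) x2154) x2112) x2184) x2094) x1500) x1824) x204) x1176) x5064) x4336) x6524)
  (sub (sub (add (add (add (add (sub (sub (sub (sub C x2154) x2140) x2170) x2098) x1504) x1828) x208) x1180) x5068) x4338)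
  (sub (add (sub (add (add (add (add (sub (sub (sub (sub C x2152) x2148) x2172) x2100) x1506) x1830) x210) x1182) x5070) x4342) x6530)
  (sub (add (sub (add (add (add (add (add (add (sub (add (add (add (add C x2164) x2168) x2172) x2184) x2124) x1944) x2052) x1512) x1836) x216) x1188) x5076) x4348) x6536)
  (sub (sub (add (add (add (add (add (add (sub (sub (add (add C x2160) x2168) x2170) x2128) x1948) x2056) x1516) x1840) x220) x1192) x5080) x4350)
  (add (sub (add (add (add (add (add (add (sub (sub (add (add C x2160) x2164) x2180) x2132) x1952) x2060) x1520) x1844) x224) x1196) x5084) x6540)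
  (sub (sub (add (add (add (add (add (add (sub (sub (sub C x2172) x2164) x2152) x1954) x2062) x1522) x1846) x226) x1198) x5086) x4356)
  (sub (add (sub (add (add (add (add (add (add (sub (add (add (sub C x2170) x2160) x2184) x2154) x1956) x2064) x1524) x1848) x228) x1200) x5088) x4360) x6548)
  (add (sub (add (add (add (add (add (add (add (add (sub (sub C x2184) x2168) x2108) x2144) x1964) x2072) x1532) x1856) x236) x1208) x5096) x6552)
  (sub (add (sub (add (add (add (add (add (add (add (add (add (add (sub C x2180) x2160) x2172) x2112) x2148) x1968) x2076) x1536) x1860) x240) x1212) x5100) x4372) x6560)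
  (sub (add (sub (add (add (add (add (add (add (add (add (add (add (sub C x2190) x2200) x2212) x2224) x2260) x2296) x2404) x2512) x2836) x3160) x4132) x730) x0) x4376)
  (sub (sub (add (add (add (add (add (add (add (add (sub (sub C x2188) x2196) x2226) x2262) x2298) x2406) x2514) x2838) x3162) x4134) x732) x4)
  (sub (sub (add (add (add (add (add (add (sub (sub (add (add C x2200) x2204) x2190) x2214) x2304) x2412) x2520) x2844) x3168) x4140) x738) x10)
  (sub (add (sub (add (add (add (add (add (add (sub (add (add (add (add C x2196) x2204) x2188) x2212) x2218) x2308) x2416) x2524) x2848) x3172) x4144) x742) x12) x4388)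
  (add (sub (add (add (add (add (add (add (sub (sub (add (add C x2196) x2200) x2210) x2222) x2312) x2420) x2528) x2852) x3176) x4148) x746) x4390)
  (add (sub (add (add (add (add (add (add (sub (sub (sub C x2212) x2204) x2246) x2318) x2426) x2534) x2858) x3182) x4154) x752) x4396)
  (sub (add (sub (add (add (add (add (add (add (sub (add (add (sub C x2210) x2188) x2200) x2248) x2320) x2428) x2536) x2860) x3184) x4156) x754) x24) x4400)
  (sub (sub (add (add (add (add (sub (sub (add (add (add (add C x2218) x2222) x2226) x2238) x2196) x2268) x2538) x2862) x3186) x4158) x756) x28)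
  (sub (add (sub (add (add (add (add (sub (sub (sub (add (add C x2214) x2222) x2224) x2200) x2272) x2542) x2866) x3190) x4162) x760) x30) x4406)
  (add (sub (add (add (add (add (sub (sub (sub (add (add C x2214) x2218) x2234) x2204) x2276) x2546) x2870) x3194) x4166) x764) x4408)
  (sub (add (sub (add (add (add (add (sub (add (add (sub (sub C x2226) x2218) x2188) x2260) x2278) x2548) x2872) x3196) x4168) x766) x36) x4412)
  (sub (sub (add (add (add (add (sub (add (add (add (add (sub C x2224) x2214) x2238) x2190) x2262) x2280) x2550) x2874) x3198) x4170) x768) x40)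
  (add (sub (add (add (add (add (sub (sub (sub (sub C x2238) x2222) x2252) x2288) x2558) x2882) x3206) x4178) x776) x4420)
  (sub (sub (add (add (add (add (sub (sub (add (add (sub C x2234) x2214) x2226) x2256) x2292) x2562) x2886) x3210) x4182) x780) x52)
  (add (sub (add (add (add (add (sub (sub (sub (sub C x2248) x2252) x2210) x2354) x2570) x2894) x3218) x4190) x788) x4432)
  (sub (add (sub (add (add (add (add (sub (sub (sub (sub C x2246) x2260) x2212) x2356) x2572) x2896) x3220) x4192) x790) x60) x4436)
  (add (sub (add (add (add (add (sub (sub (sub (sub C x2256) x2246) x2234) x2360) x2576) x2900) x3224) x4196) x794) x4438)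
  (sub (sub (add (add (add (add (sub (sub (sub (sub C x2252) x2262) x2238) x2364) x2580) x2904) x3228) x4200) x798) x70)
  (sub (add (sub (add (add (add (add (sub (add (add (sub (sub C x2262) x2248) x2188) x2224) x2368) x2584) x2908) x3232) x4204) x802) x72) x4448)
  (sub (sub (add (add (add (add (sub (add (add (sub (sub C x2260) x2256) x2190) x2226) x2370) x2586) x2910) x3234) x4206) x804) x76)
  (sub (sub (add (add (sub (sub (add (add (add (add (add (add C x2272) x2276) x2280) x2292) x2304) x2340) x2214) x2430) x3240) x4212) x810) x82)
  (sub (add (sub (add (add (sub (sub (add (add (sub (add (add C x2268) x2276) x2278) x2308) x2344) x2218) x2434) x3244) x4216) x814) x84) x4460)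
  (add (sub (add (add (sub (sub (add (add (sub (add (add C x2268) x2272) x2288) x2312) x2348) x2222) x2438) x3248) x4220) x818) x4462)
  (sub (add (sub (add (add (sub (sub (sub (sub (sub C x2280) x2272) x2296) x2224) x2440) x3250) x4222) x820) x90) x4466)
  (sub (sub (add (add (sub (sub (sub (add (add (sub C x2278) x2268) x2292) x2298) x2226) x2442) x3252) x4224) x822) x94)
  (add (sub (add (add (sub (sub (sub (sub (sub C x2292) x2276) x2324) x2234) x2450) x3260) x4232) x830) x4474)
  (sub (sub (add (add (sub (sub (sub (add (add (sub C x2288) x2268) x2280) x2328) x2238) x2454) x3264) x4236) x834) x106)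
  (sub (add (sub (add (add (sub (add (add (sub (add (add (sub C x2298) x2308) x2320) x2278) x2188) x2404) x2458) x3268) x4240) x838) x108) x4484)
  (sub (sub (add (add (sub (add (add (sub (sub (sub C x2296) x2304) x2280) x2190) x2406) x2460) x3270) x4242) x840) x112)
  (sub (sub (add (add (sub (add (add (add (add (sub (add (add C x2308) x2312) x2298) x2268) x2340) x2196) x2412) x2466) x3276) x4248) x846) x118)
  (sub (add (sub (add (add (sub (add (add (add (add (add (add (add (add C x2304) x2312) x2296) x2320) x2272) x2344) x2200) x2416) x2470) x3280) x4252) x850) x120) x4496)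
  (add (sub (add (add (sub (add (add (add (add (sub (add (add C x2304) x2308) x2318) x2276) x2348) x2204) x2420) x2474) x3284) x4256) x854) x4498)
  (add (sub (add (add (sub (add (add (sub (sub (sub C x2320) x2312) x2336) x2210) x2426) x2480) x3290) x4262) x860) x4504)
  (sub (add (sub (add (add (sub (add (add (sub (add (add (sub C x2318) x2296) x2308) x2338) x2212) x2428) x2482) x3292) x4264) x862) x132) x4508)
  (add (sub (add (add (sub (sub (sub (add (add (sub C x2328) x2336) x2348) x2288) x2378) x2486) x3296) x4268) x866) x4510)
  (sub (sub (add (add (sub (sub (sub (sub (sub C x2324) x2340) x2292) x2382) x2490) x3300) x4272) x870) x142)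
  (add (sub (add (add (sub (sub (sub (add (add (sub C x2338) x2324) x2348) x2318) x2390) x2498) x3308) x4280) x878) x4522)
  (sub (add (sub (add (add (sub (sub (sub (sub (sub C x2336) x2344) x2320) x2392) x2500) x3310) x4282) x880) x150) x4526)
  (sub (sub (add (add (sub (sub (add (add (sub (add (add C x2344) x2348) x2328) x2268) x2304) x2394) x2502) x3312) x4284) x882) x154)
  (sub (add (sub (add (add (sub (sub (add (add (sub (add (add C x2340) x2348) x2338) x2272) x2308) x2398) x2506) x3316) x4288) x886) x156) x4532)
  (add (sub (add (add (sub (sub (add (add (add (add (add (add C x2340) x2344) x2324) x2336) x2276) x2312) x2402) x2510) x3320) x4292) x890) x4534)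
  (add (sub (add (add (sub (sub (add (add (sub (sub C x2356) x2360) x2390) x2426) x2246) x2678) x3326) x4298) x896) x4540)
  (sub (add (sub (add (add (sub (sub (add (add (sub (sub C x2354) x2368) x2392) x2428) x2248) x2680) x3328) x4300) x898) x168) x4544)
  (add (sub (add (add (sub (sub (sub (sub (sub C x2364) x2354) x2378) x2252) x2684) x3332) x4304) x902) x4546)
  (sub (sub (add (add (sub (sub (sub (sub (sub C x2360) x2370) x2382) x2256) x2688) x3336) x4308) x906) x178)
  (sub (add (sub (add (add (sub (sub (sub (sub (sub C x2370) x2356) x2404) x2260) x2692) x3340) x4312) x910) x180) x4556)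
  (sub (sub (add (add (sub (sub (sub (sub (sub C x2368) x2364) x2406) x2262) x2694) x3342) x4314) x912) x184)
  (add (sub (add (add (sub (sub (sub (add (add (sub C x2382) x2390) x2402) x2360) x2324) x2702) x3350) x4322) x920) x4564)
  (sub (sub (add (add (sub (sub (sub (sub (sub C x2378) x2394) x2364) x2328) x2706) x3354) x4326) x924) x196)
  (add (sub (add (add (sub (sub (add (add (add (add (sub C x2392) x2378) x2402) x2354) x2426) x2336) x2714) x3362) x4334) x932) x4576)
  (sub (add (sub (add (add (sub (sub (add (add (sub (sub C x2390) x2398) x2356) x2428) x2338) x2716) x3364) x4336) x934) x204) x4580)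
  (sub (sub (add (add (sub (sub (sub (sub (add (add C x2398) x2402) x2382) x2412) x2340) x2718) x3366) x4338) x936) x208)
  (sub (add (sub (add (add (sub (sub (sub (sub (add (add C x2394) x2402) x2392) x2416) x2344) x2722) x3370) x4342) x940) x210) x4586)
  (add (sub (add (add (sub (sub (sub (add (add (add (add C x2394) x2398) x2378) x2390) x2420) x2348) x2726) x3374) x4346) x944) x4588)
  (sub (add (sub (add (add (sub (add (add (sub (add (add (sub C x2406) x2416) x2428) x2368) x2188) x2296) x2728) x3376) x4348) x946) x216) x4592)
  (sub (sub (add (add (sub (add (add (sub (sub (sub C x2404) x2412) x2370) x2190) x2298) x2730) x3378) x4350) x948) x220)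
  (sub (sub (add (add (sub (add (add (sub (sub (add (add C x2416) x2420) x2406) x2394) x2196) x2304) x2736) x3384) x4356) x954) x226)
  (sub (add (sub (add (add (sub (add (add (sub (add (add (add (add C x2412) x2420) x2404) x2428) x2398) x2200) x2308) x2740) x3388) x4360) x958) x228) x4604)
  (add (sub (add (add (sub (add (add (sub (sub (add (add C x2412) x2416) x2426) x2402) x2204) x2312) x2744) x3392) x4364) x962) x4606)
  (add (sub (add (add (sub (add (add (add (add (sub (sub C x2428) x2420) x2354) x2390) x2210) x2318) x2750) x3398) x4370) x968) x4612)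
  (sub (add (sub (add (add (sub (add (add (add (add (add (add (sub C x2426) x2404) x2416) x2356) x2392) x2212) x2320) x2752) x3400) x4372) x970) x240) x4616)
  (sub (sub (sub (sub (add (add (add (add (add (add (add (add C x2434) x2438) x2442) x2454) x2466) x2502) x2538) x2646) x2268) x2916) x972) x244)
  (sub (add (sub (sub (sub (add (add (add (add (sub (add (add C x2430) x2438) x2440) x2470) x2506) x2542) x2650) x2272) x2920) x976) x246) x4622)
  (add (sub (sub (sub (add (add (add (add (sub (add (add C x2430) x2434) x2450) x2474) x2510) x2546) x2654) x2276) x2924) x980) x4624)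
  (sub (add (sub (sub (sub (add (add (sub (sub (sub C x2442) x2434) x2458) x2548) x2656) x2278) x2926) x982) x252) x4628)
  (sub (sub (sub (sub (add (add (sub (add (add (sub C x2440) x2430) x2454) x2460) x2550) x2658) x2280) x2928) x984) x256)
  (add (sub (sub (sub (add (add (sub (sub (sub C x2454) x2438) x2486) x2558) x2666) x2288) x2936) x992) x4636)
  (sub (sub (sub (sub (add (add (sub (add (add (sub C x2450) x2430) x2442) x2490) x2562) x2670) x2292) x2940) x996) x268)
  (sub (add (sub (sub (sub (sub (sub (add (add (sub C x2460) x2470) x2482) x2440) x2512) x2296) x2944) x1000) x270) x4646)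
  (sub (sub (sub (sub (sub (sub (sub (sub C x2458) x2466) x2442) x2514) x2298) x2946) x1002) x274)
  (sub (sub (sub (sub (sub (add (add (sub (add (add C x2470) x2474) x2460) x2430) x2502) x2520) x2304) x2952) x1008) x280)
  (sub (add (sub (sub (sub (sub (add (add (add (add (add (add C x2466) x2474) x2458) x2482) x2434) x2506) x2524) x2308) x2956) x1012) x282) x4658)
  (add (sub (sub (sub (sub (add (add (sub (add (add C x2466) x2470) x2480) x2438) x2510) x2528) x2312) x2960) x1016) x4660)
  (add (sub (sub (sub (sub (sub (sub (sub C x2482) x2474) x2498) x2534) x2318) x2966) x1022) x4666)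
  (sub (add (sub (sub (sub (sub (sub (add (add (sub C x2480) x2458) x2470) x2500) x2536) x2320) x2968) x1024) x294) x4670)
  (add (sub (sub (sub (sub (sub (add (add (sub C x2490) x2498) x2510) x2450) x2594) x2324) x2972) x1028) x4672)
  (sub (sub (sub (sub (sub (sub (sub (sub C x2486) x2502) x2454) x2598) x2328) x2976) x1032) x304)
  (add (sub (sub (sub (sub (sub (add (add (sub C x2500) x2486) x2510) x2480) x2606) x2336) x2984) x1040) x4684)
  (sub (add (sub (sub (sub (sub (sub (sub (sub C x2498) x2506) x2482) x2608) x2338) x2986) x1042) x312) x4688)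
  (sub (sub (sub (sub (sub (add (add (sub (add (add C x2506) x2510) x2490) x2430) x2466) x2610) x2340) x2988) x1044) x316)
  (sub (add (sub (sub (sub (sub (add (add (sub (add (add C x2502) x2510) x2500) x2434) x2470) x2614) x2344) x2992) x1048) x318) x4694)
  (add (sub (sub (sub (sub (add (add (add (add (add (add C x2502) x2506) x2486) x2498) x2438) x2474) x2618) x2348) x2996) x1052) x4696)
  (sub (add (sub (sub (add (add (sub (add (add (add (add (sub C x2514) x2524) x2536) x2548) x2584) x2458) x2188) x2836) x2998) x1054) x324) x4700)
  (sub (sub (sub (add (add (sub (add (add (sub (sub C x2512) x2520) x2550) x2586) x2460) x2190) x2838) x3000) x1056) x328)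
  (sub (sub (sub (add (add (sub (sub (sub (add (add C x2524) x2528) x2514) x2538) x2466) x2196) x2844) x3006) x1062) x334)
  (sub (add (sub (sub (add (add (sub (sub (add (add (add (add C x2520) x2528) x2512) x2536) x2542) x2470) x2200) x2848) x3010) x1066) x336) x4712)
  (add (sub (sub (add (add (sub (sub (sub (add (add C x2520) x2524) x2534) x2546) x2474) x2204) x2852) x3014) x1070) x4714)
  (add (sub (sub (add (add (sub (sub (sub (sub C x2536) x2528) x2570) x2480) x2210) x2858) x3020) x1076) x4720)
  (sub (add (sub (sub (add (add (sub (sub (add (add (sub C x2534) x2512) x2524) x2572) x2482) x2212) x2860) x3022) x1078) x348) x4724)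
  (sub (sub (sub (add (add (add (add (sub (add (add (add (add C x2542) x2546) x2550) x2562) x2520) x2430) x2646) x2214) x2862) x3024) x1080) x352)
  (sub (add (sub (sub (add (add (add (add (sub (sub (add (add C x2538) x2546) x2548) x2524) x2434) x2650) x2218) x2866) x3028) x1084) x354) x4730)
  (add (sub (sub (add (add (add (add (sub (sub (add (add C x2538) x2542) x2558) x2528) x2438) x2654) x2222) x2870) x3032) x1088) x4732)
  (sub (add (sub (sub (add (add (add (add (add (add (sub (sub C x2550) x2542) x2512) x2584) x2440) x2656) x2224) x2872) x3034) x1090) x360) x4736)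
  (sub (sub (sub (add (add (add (add (add (add (add (add (sub C x2548) x2538) x2562) x2514) x2586) x2442) x2658) x2226) x2874) x3036) x1092) x364)
  (add (sub (sub (add (add (add (add (sub (sub (sub C x2562) x2546) x2576) x2450) x2666) x2234) x2882) x3044) x1100) x4744)
  (sub (sub (sub (add (add (add (add (sub (add (add (sub C x2558) x2538) x2550) x2580) x2454) x2670) x2238) x2886) x3048) x1104) x376)
  (add (sub (sub (add (add (sub (sub (sub (sub C x2572) x2576) x2534) x2624) x2246) x2894) x3056) x1112) x4756)
  (sub (add (sub (sub (add (add (sub (sub (sub (sub C x2570) x2584) x2536) x2626) x2248) x2896) x3058) x1114) x384) x4760)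
  (add (sub (sub (add (add (sub (sub (sub (sub C x2580) x2570) x2558) x2630) x2252) x2900) x3062) x1118) x4762)
  (sub (sub (sub (add (add (sub (sub (sub (sub C x2576) x2586) x2562) x2634) x2256) x2904) x3066) x1122) x394)
  (sub (add (sub (sub (add (add (sub (add (add (sub (sub C x2586) x2572) x2512) x2548) x2638) x2260) x2908) x3070) x1126) x396) x4772)
  (sub (sub (sub (add (add (sub (add (add (sub (sub C x2584) x2580) x2514) x2550) x2640) x2262) x2910) x3072) x1128) x400)
  (add (sub (sub (sub (sub (add (add (add (add (sub C x2598) x2606) x2618) x2630) x2666) x2486) x2756) x3080) x1136) x4780)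
  (sub (sub (sub (sub (sub (add (add (sub (sub C x2594) x2610) x2634) x2670) x2490) x2760) x3084) x1140) x412)
  (add (sub (sub (sub (sub (sub (add (add (sub C x2608) x2594) x2618) x2624) x2498) x2768) x3092) x1148) x4792)
  (sub (add (sub (sub (sub (sub (sub (sub (sub C x2606) x2614) x2626) x2500) x2770) x3094) x1150) x420) x4796)
  (sub (sub (sub (sub (sub (sub (sub (add (add C x2614) x2618) x2598) x2646) x2502) x2772) x3096) x1152) x424)
  (sub (add (sub (sub (sub (sub (sub (sub (add (add C x2610) x2618) x2608) x2650) x2506) x2776) x3100) x1156) x426) x4802)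
  (add (sub (sub (sub (sub (sub (add (add (add (add C x2610) x2614) x2594) x2606) x2654) x2510) x2780) x3104) x1160) x4804)
  (add (sub (sub (sub (sub (sub (sub (sub C x2626) x2630) x2606) x2570) x2786) x3110) x1166) x4810)
  (sub (add (sub (sub (sub (sub (sub (sub (sub C x2624) x2638) x2608) x2572) x2788) x3112) x1168) x438) x4814)
  (add (sub (sub (sub (sub (add (add (sub (sub C x2634) x2624) x2594) x2666) x2576) x2792) x3116) x1172) x4816)
  (sub (sub (sub (sub (sub (add (add (sub (sub C x2630) x2640) x2598) x2670) x2580) x2796) x3120) x1176) x448)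
  (sub (add (sub (sub (sub (sub (sub (sub (sub C x2640) x2626) x2656) x2584) x2800) x3124) x1180) x450) x4826)
  (sub (sub (sub (sub (sub (sub (sub (sub C x2638) x2634) x2658) x2586) x2802) x3126) x1182) x454)
  (sub (sub (sub (sub (add (add (sub (add (add (add (add C x2650) x2654) x2658) x2670) x2610) x2430) x2538) x2808) x3132) x1188) x460)
  (sub (add (sub (sub (sub (add (add (sub (sub (add (add C x2646) x2654) x2656) x2614) x2434) x2542) x2812) x3136) x1192) x462) x4838)
  (add (sub (sub (sub (add (add (sub (sub (add (add C x2646) x2650) x2666) x2618) x2438) x2546) x2816) x3140) x1196) x4840)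
  (sub (add (sub (sub (sub (add (add (sub (sub (sub C x2658) x2650) x2638) x2440) x2548) x2818) x3142) x1198) x468) x4844)
  (sub (sub (sub (sub (add (add (sub (add (add (sub C x2656) x2646) x2670) x2640) x2442) x2550) x2820) x3144) x1200) x472)
  (add (sub (sub (sub (add (add (add (add (sub (sub C x2670) x2654) x2594) x2630) x2450) x2558) x2828) x3152) x1208) x4852)
  (sub (sub (sub (sub (add (add (add (add (add (add (sub C x2666) x2646) x2658) x2598) x2634) x2454) x2562) x2832) x3156) x1212) x484)
  (add (sub (sub (sub (add (add (add (add (sub (sub C x2680) x2684) x2714) x2750) x2786) x2894) x2354) x3650) x1220) x4864)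
  (sub (add (sub (sub (sub (add (add (add (add (sub (sub C x2678) x2692) x2716) x2752) x2788) x2896) x2356) x3652) x1222) x492) x4868)
  (add (sub (sub (sub (add (add (sub (sub (sub C x2688) x2678) x2702) x2792) x2900) x2360) x3656) x1226) x4870)
  (sub (sub (sub (sub (add (add (sub (sub (sub C x2684) x2694) x2706) x2796) x2904) x2364) x3660) x1230) x502)
  (sub (add (sub (sub (sub (add (add (sub (sub (sub C x2694) x2680) x2728) x2800) x2908) x2368) x3664) x1234) x504) x4880)
  (sub (sub (sub (sub (add (add (sub (sub (sub C x2692) x2688) x2730) x2802) x2910) x2370) x3666) x1236) x508)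
  (add (sub (sub (sub (sub (sub (add (add (sub C x2706) x2714) x2726) x2684) x2756) x2378) x3674) x1244) x4888)
  (sub (sub (sub (sub (sub (sub (sub (sub C x2702) x2718) x2688) x2760) x2382) x3678) x1248) x520)
  (add (sub (sub (sub (sub (add (add (add (add (sub C x2716) x2702) x2726) x2678) x2750) x2768) x2390) x3686) x1256) x4900)
  (sub (add (sub (sub (sub (sub (add (add (sub (sub C x2714) x2722) x2680) x2752) x2770) x2392) x3688) x1258) x528) x4904)
  (sub (sub (sub (sub (sub (sub (sub (add (add C x2722) x2726) x2706) x2736) x2772) x2394) x3690) x1260) x532)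
  (sub (add (sub (sub (sub (sub (sub (sub (add (add C x2718) x2726) x2716) x2740) x2776) x2398) x3694) x1264) x534) x4910)
  (add (sub (sub (sub (sub (sub (add (add (add (add C x2718) x2722) x2702) x2714) x2744) x2780) x2402) x3698) x1268) x4912)
  (sub (add (sub (sub (sub (sub (sub (add (add (sub C x2730) x2740) x2752) x2692) x2836) x2404) x3700) x1270) x540) x4916)
  (sub (sub (sub (sub (sub (sub (sub (sub C x2728) x2736) x2694) x2838) x2406) x3702) x1272) x544)
  (sub (sub (sub (sub (sub (sub (sub (add (add C x2740) x2744) x2730) x2718) x2844) x2412) x3708) x1278) x550)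
  (sub (add (sub (sub (sub (sub (sub (add (add (add (add C x2736) x2744) x2728) x2752) x2722) x2848) x2416) x3712) x1282) x552) x4928)
  (add (sub (sub (sub (sub (sub (sub (add (add C x2736) x2740) x2750) x2726) x2852) x2420) x3716) x1286) x4930)
  (add (sub (sub (sub (sub (add (add (sub (sub C x2752) x2744) x2678) x2714) x2858) x2426) x3722) x1292) x4936)
  (sub (add (sub (sub (sub (sub (add (add (add (add (sub C x2750) x2728) x2740) x2680) x2716) x2860) x2428) x3724) x1294) x564) x4940)
  (add (sub (sub (sub (sub (add (add (add (add (sub C x2760) x2768) x2780) x2792) x2828) x2702) x2594) x3728) x1298) x4942)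
  (sub (sub (sub (sub (sub (add (add (sub (sub C x2756) x2772) x2796) x2832) x2706) x2598) x3732) x1302) x574)
  (add (sub (sub (sub (sub (sub (add (add (sub C x2770) x2756) x2780) x2786) x2714) x2606) x3740) x1310) x4954)
  (sub (add (sub (sub (sub (sub (sub (sub (sub C x2768) x2776) x2788) x2716) x2608) x3742) x1312) x582) x4958)
  (sub (sub (sub (sub (sub (sub (sub (add (add C x2776) x2780) x2760) x2808) x2718) x2610) x3744) x1314) x586)
  (sub (add (sub (sub (sub (sub (sub (sub (add (add C x2772) x2780) x2770) x2812) x2722) x2614) x3748) x1318) x588) x4964)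
  (add (sub (sub (sub (sub (sub (add (add (add (add C x2772) x2776) x2756) x2768) x2816) x2726) x2618) x3752) x1322) x4966)
  (add (sub (sub (sub (add (add (sub (sub (sub C x2788) x2792) x2768) x2678) x2894) x2624) x3758) x1328) x4972)
  (sub (add (sub (sub (sub (add (add (sub (sub (sub C x2786) x2800) x2770) x2680) x2896) x2626) x3760) x1330) x600) x4976)
  (add (sub (sub (sub (add (add (add (add (sub (sub C x2796) x2786) x2756) x2828) x2684) x2900) x2630) x3764) x1334) x4978)
  (sub (sub (sub (sub (add (add (add (add (sub (sub C x2792) x2802) x2760) x2832) x2688) x2904) x2634) x3768) x1338) x610)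
  (sub (add (sub (sub (sub (add (add (sub (sub (sub C x2802) x2788) x2818) x2692) x2908) x2638) x3772) x1342) x612) x4988)
  (sub (sub (sub (sub (add (add (sub (sub (sub C x2800) x2796) x2820) x2694) x2910) x2640) x3774) x1344) x616)
  (sub (sub (sub (sub (sub (sub (add (add (add (add C x2812) x2816) x2820) x2832) x2772) x2862) x2646) x3780) x1350) x622)
  (sub (add (sub (sub (sub (sub (sub (sub (add (add C x2808) x2816) x2818) x2776) x2866) x2650) x3784) x1354) x624) x5000)
  (add (sub (sub (sub (sub (sub (sub (add (add C x2808) x2812) x2828) x2780) x2870) x2654) x3788) x1358) x5002)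
  (sub (add (sub (sub (sub (sub (sub (sub (sub C x2820) x2812) x2800) x2872) x2656) x3790) x1360) x630) x5006)
  (sub (sub (sub (sub (sub (sub (add (add (sub C x2818) x2808) x2832) x2802) x2874) x2658) x3792) x1362) x634)
  (add (sub (sub (sub (sub (add (add (sub (sub C x2832) x2816) x2756) x2792) x2882) x2666) x3800) x1370) x5014)
  (sub (sub (sub (sub (sub (add (add (add (add (sub C x2828) x2808) x2820) x2760) x2796) x2886) x2670) x3804) x1374) x646)
  (sub (add (sub (sub (add (add (sub (add (add (add (add (sub C x2838) x2848) x2860) x2872) x2908) x2728) x2188) x2512) x3808) x1378) x648) x5024)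
  (sub (sub (sub (add (add (sub (add (add (sub (sub C x2836) x2844) x2874) x2910) x2730) x2190) x2514) x3810) x1380) x652)
  (sub (sub (sub (add (add (sub (sub (sub (add (add C x2848) x2852) x2838) x2862) x2736) x2196) x2520) x3816) x1386) x658)
  (sub (add (sub (sub (add (add (sub (sub (add (add (add (add C x2844) x2852) x2836) x2860) x2866) x2740) x2200) x2524) x3820) x1390) x660) x5036)
  (add (sub (sub (add (add (sub (sub (sub (add (add C x2844) x2848) x2858) x2870) x2744) x2204) x2528) x3824) x1394) x5038)
  (add (sub (sub (add (add (sub (sub (sub (sub C x2860) x2852) x2894) x2750) x2210) x2534) x3830) x1400) x5044)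
  (sub (add (sub (sub (add (add (sub (sub (add (add (sub C x2858) x2836) x2848) x2896) x2752) x2212) x2536) x3832) x1402) x672) x5048)
  (sub (sub (sub (add (add (sub (sub (add (add (add (add C x2866) x2870) x2874) x2886) x2844) x2808) x2214) x2538) x3834) x1404) x676)
  (sub (add (sub (sub (add (add (sub (sub (sub (add (add C x2862) x2870) x2872) x2848) x2812) x2218) x2542) x3838) x1408) x678) x5054)
  (add (sub (sub (add (add (sub (sub (sub (add (add C x2862) x2866) x2882) x2852) x2816) x2222) x2546) x3842) x1412) x5056)
  (sub (add (sub (sub (add (add (sub (add (add (sub (sub C x2874) x2866) x2836) x2908) x2818) x2224) x2548) x3844) x1414) x684) x5060)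
  (sub (sub (sub (add (add (sub (add (add (add (add (sub C x2872) x2862) x2886) x2838) x2910) x2820) x2226) x2550) x3846) x1416) x688)
  (add (sub (sub (add (add (sub (sub (sub (sub C x2886) x2870) x2900) x2828) x2234) x2558) x3854) x1424) x5068)
  (sub (sub (sub (add (add (sub (sub (add (add (sub C x2882) x2862) x2874) x2904) x2832) x2238) x2562) x3858) x1428) x700)
  (add (sub (sub (add (add (add (add (sub (sub (sub C x2896) x2900) x2858) x2678) x2786) x2246) x2570) x3866) x1436) x5080)
  (sub (add (sub (sub (add (add (add (add (sub (sub (sub C x2894) x2908) x2860) x2680) x2788) x2248) x2572) x3868) x1438) x708) x5084)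
  (add (sub (sub (add (add (add (add (sub (sub (sub C x2904) x2894) x2882) x2684) x2792) x2252) x2576) x3872) x1442) x5086)
  (sub (sub (sub (add (add (add (add (sub (sub (sub C x2900) x2910) x2886) x2688) x2796) x2256) x2580) x3876) x1446) x718)
  (sub (add (sub (sub (add (add (add (add (add (add (sub (sub C x2910) x2896) x2836) x2872) x2692) x2800) x2260) x2584) x3880) x1450) x720) x5096)
  (sub (sub (sub (add (add (add (add (add (add (sub (sub C x2908) x2904) x2838) x2874) x2694) x2802) x2262) x2586) x3882) x1452) x724)
  (sub (add (add (sub (add (add (add (add (add (add (add (add (add (add C x2920) x2924) x2928) x2940) x2952) x2988) x3024) x3132) x3240) x3564) x2430) x0) x5832) x730)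
  (sub (add (add (add (sub (add (add (add (add (add (add (sub (add (add C x2916) x2924) x2926) x2956) x2992) x3028) x3136) x3244) x3568) x2434) x4) x5836) x732) x5108)
  (add (add (add (sub (add (add (add (add (add (add (sub (add (add C x2916) x2920) x2936) x2960) x2996) x3032) x3140) x3248) x3572) x2438) x8) x5840) x5110)
  (sub (add (add (add (sub (add (add (add (add (sub (sub (sub C x2928) x2920) x2944) x3034) x3142) x3250) x3574) x2440) x10) x5842) x738) x5114)
  (sub (add (add (sub (add (add (add (add (sub (add (add (sub C x2926) x2916) x2940) x2946) x3036) x3144) x3252) x3576) x2442) x12) x5844) x742)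
  (add (add (add (sub (add (add (add (add (sub (sub (sub C x2940) x2924) x2972) x3044) x3152) x3260) x3584) x2450) x20) x5852) x5122)
  (sub (add (add (sub (add (add (add (add (sub (add (add (sub C x2936) x2916) x2928) x2976) x3048) x3156) x3264) x3588) x2454) x24) x5856) x754)
  (sub (add (add (add (sub (add (add (sub (sub (add (add (sub C x2946) x2956) x2968) x2926) x2998) x3268) x3592) x2458) x28) x5860) x756) x5132)
  (sub (add (add (sub (add (add (sub (sub (sub (sub C x2944) x2952) x2928) x3000) x3270) x3594) x2460) x30) x5862) x760)
  (sub (add (add (sub (add (add (sub (add (add (sub (add (add C x2956) x2960) x2946) x2916) x2988) x3006) x3276) x3600) x2466) x36) x5868) x766)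
  (sub (add (add (add (sub (add (add (sub (add (add (add (add (add (add C x2952) x2960) x2944) x2968) x2920) x2992) x3010) x3280) x3604) x2470) x40) x5872) x768) x5144)
  (add (add (add (sub (add (add (sub (add (add (sub (add (add C x2952) x2956) x2966) x2924) x2996) x3014) x3284) x3608) x2474) x44) x5876) x5146)
  (add (add (add (sub (add (add (sub (sub (sub (sub C x2968) x2960) x2984) x3020) x3290) x3614) x2480) x50) x5882) x5152)
  (sub (add (add (add (sub (add (add (sub (sub (add (add (sub C x2966) x2944) x2956) x2986) x3022) x3292) x3616) x2482) x52) x5884) x780) x5156)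
  (add (add (add (sub (add (add (sub (sub (add (add (sub C x2976) x2984) x2996) x2936) x3080) x3296) x3620) x2486) x56) x5888) x5158)
  (sub (add (add (sub (add (add (sub (sub (sub (sub C x2972) x2988) x2940) x3084) x3300) x3624) x2490) x60) x5892) x790)
  (add (add (add (sub (add (add (sub (sub (add (add (sub C x2986) x2972) x2996) x2966) x3092) x3308) x3632) x2498) x68) x5900) x5170)
  (sub (add (add (add (sub (add (add (sub (sub (sub (sub C x2984) x2992) x2968) x3094) x3310) x3634) x2500) x70) x5902) x798) x5174)
  (sub (add (add (sub (add (add (sub (add (add (sub (add (add C x2992) x2996) x2976) x2916) x2952) x3096) x3312) x3636) x2502) x72) x5904) x802)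
  (sub (add (add (add (sub (add (add (sub (add (add (sub (add (add C x2988) x2996) x2986) x2920) x2956) x3100) x3316) x3640) x2506) x76) x5908) x804) x5180)
  (add (add (add (sub (add (add (sub (add (add (add (add (add (add C x2988) x2992) x2972) x2984) x2924) x2960) x3104) x3320) x3644) x2510) x80) x5912) x5182)
  (sub (add (add (add (sub (sub (sub (add (add (add (add (sub C x3000) x3010) x3022) x3034) x3070) x2944) x3160) x2512) x82) x5914) x810) x5186)
  (sub (add (add (sub (sub (sub (add (add (sub (sub C x2998) x3006) x3036) x3072) x2946) x3162) x2514) x84) x5916) x814)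
  (sub (add (add (sub (sub (sub (sub (sub (add (add C x3010) x3014) x3000) x3024) x2952) x3168) x2520) x90) x5922) x820)
  (sub (add (add (add (sub (sub (sub (sub (add (add (add (add C x3006) x3014) x2998) x3022) x3028) x2956) x3172) x2524) x94) x5926) x822) x5198)
  (add (add (add (sub (sub (sub (sub (sub (add (add C x3006) x3010) x3020) x3032) x2960) x3176) x2528) x98) x5930) x5200)
  (add (add (add (sub (sub (sub (sub (sub (sub C x3022) x3014) x3056) x2966) x3182) x2534) x104) x5936) x5206)
  (sub (add (add (add (sub (sub (sub (sub (add (add (sub C x3020) x2998) x3010) x3058) x2968) x3184) x2536) x106) x5938) x834) x5210)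
  (sub (add (add (sub (sub (add (add (sub (add (add (add (add C x3028) x3032) x3036) x3048) x3006) x2916) x3132) x3186) x2538) x108) x5940) x838)
  (sub (add (add (add (sub (sub (add (add (sub (sub (add (add C x3024) x3032) x3034) x3010) x2920) x3136) x3190) x2542) x112) x5944) x840) x5216)
  (add (add (add (sub (sub (add (add (sub (sub (add (add C x3024) x3028) x3044) x3014) x2924) x3140) x3194) x2546) x116) x5948) x5218)
  (sub (add (add (add (sub (sub (add (add (add (add (sub (sub C x3036) x3028) x2998) x3070) x2926) x3142) x3196) x2548) x118) x5950) x846) x5222)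
  (sub (add (add (sub (sub (add (add (add (add (add (add (sub C x3034) x3024) x3048) x3000) x3072) x2928) x3144) x3198) x2550) x120) x5952) x850)
  (add (add (add (sub (sub (add (add (sub (sub (sub C x3048) x3032) x3062) x2936) x3152) x3206) x2558) x128) x5960) x5230)
  (sub (add (add (sub (sub (add (add (sub (add (add (sub C x3044) x3024) x3036) x3066) x2940) x3156) x3210) x2562) x132) x5964) x862)
  (add (add (add (sub (sub (sub (sub (sub (sub C x3058) x3062) x3020) x3110) x3218) x2570) x140) x5972) x5242)
  (sub (add (add (add (sub (sub (sub (sub (sub (sub C x3056) x3070) x3022) x3112) x3220) x2572) x142) x5974) x870) x5246)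
  (add (add (add (sub (sub (sub (sub (sub (sub C x3066) x3056) x3044) x3116) x3224) x2576) x146) x5978) x5248)
  (sub (add (add (sub (sub (sub (sub (sub (sub C x3062) x3072) x3048) x3120) x3228) x2580) x150) x5982) x880)
  (sub (add (add (add (sub (sub (sub (add (add (sub (sub C x3072) x3058) x2998) x3034) x3124) x3232) x2584) x154) x5986) x882) x5258)
  (sub (add (add (sub (sub (sub (add (add (sub (sub C x3070) x3066) x3000) x3036) x3126) x3234) x2586) x156) x5988) x886)
  (add (add (add (sub (sub (sub (add (add (add (add (sub C x3084) x3092) x3104) x3116) x3152) x2972) x3404) x2594) x164) x5996) x5266)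
  (sub (add (add (sub (sub (sub (add (add (sub (sub C x3080) x3096) x3120) x3156) x2976) x3408) x2598) x168) x6000) x898)
  (add (add (add (sub (sub (sub (sub (add (add (sub C x3094) x3080) x3104) x3110) x2984) x3416) x2606) x176) x6008) x5278)
  (sub (add (add (add (sub (sub (sub (sub (sub (sub C x3092) x3100) x3112) x2986) x3418) x2608) x178) x6010) x906) x5282)
  (sub (add (add (sub (sub (sub (sub (sub (add (add C x3100) x3104) x3084) x3132) x2988) x3420) x2610) x180) x6012) x910)
  (sub (add (add (add (sub (sub (sub (sub (sub (add (add C x3096) x3104) x3094) x3136) x2992) x3424) x2614) x184) x6016) x912) x5288)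
  (add (add (add (sub (sub (sub (sub (add (add (add (add C x3096) x3100) x3080) x3092) x3140) x2996) x3428) x2618) x188) x6020) x5290)
  (add (add (add (sub (sub (sub (sub (sub (sub C x3112) x3116) x3092) x3056) x3434) x2624) x194) x6026) x5296)
  (sub (add (add (add (sub (sub (sub (sub (sub (sub C x3110) x3124) x3094) x3058) x3436) x2626) x196) x6028) x924) x5300)
  (add (add (add (sub (sub (sub (add (add (sub (sub C x3120) x3110) x3080) x3152) x3062) x3440) x2630) x200) x6032) x5302)
  (sub (add (add (sub (sub (sub (add (add (sub (sub C x3116) x3126) x3084) x3156) x3066) x3444) x2634) x204) x6036) x934)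
  (sub (add (add (add (sub (sub (sub (sub (sub (sub C x3126) x3112) x3142) x3070) x3448) x2638) x208) x6040) x936) x5312)
  (sub (add (add (sub (sub (sub (sub (sub (sub C x3124) x3120) x3144) x3072) x3450) x2640) x210) x6042) x940)
  (sub (add (add (sub (sub (add (add (sub (add (add (add (add C x3136) x3140) x3144) x3156) x3096) x2916) x3024) x3456) x2646) x216) x6048) x946)
  (sub (add (add (add (sub (sub (add (add (sub (sub (add (add C x3132) x3140) x3142) x3100) x2920) x3028) x3460) x2650) x220) x6052) x948) x5324)
  (add (add (add (sub (sub (add (add (sub (sub (add (add C x3132) x3136) x3152) x3104) x2924) x3032) x3464) x2654) x224) x6056) x5326)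
  (sub (add (add (add (sub (sub (add (add (sub (sub (sub C x3144) x3136) x3124) x2926) x3034) x3466) x2656) x226) x6058) x954) x5330)
  (sub (add (add (sub (sub (add (add (sub (add (add (sub C x3142) x3132) x3156) x3126) x2928) x3036) x3468) x2658) x228) x6060) x958)
  (add (add (add (sub (sub (add (add (add (add (sub (sub C x3156) x3140) x3080) x3116) x2936) x3044) x3476) x2666) x236) x6068) x5338)
  (sub (add (add (sub (sub (add (add (add (add (add (add (sub C x3152) x3132) x3144) x3084) x3120) x2940) x3048) x3480) x2670) x240) x6072) x970)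
  (sub (add (add (add (add (add (sub (add (add (add (add (add (add (sub C x3162) x3172) x3184) x3196) x3232) x3268) x3376) x2998) x2188) x4132) x244) x6076) x972) x5348)
  (sub (add (add (add (add (sub (add (add (add (add (sub (sub C x3160) x3168) x3198) x3234) x3270) x3378) x3000) x2190) x4134) x246) x6078) x976)
  (sub (add (add (add (add (sub (add (add (sub (sub (add (add C x3172) x3176) x3162) x3186) x3276) x3384) x3006) x2196) x4140) x252) x6084) x982)
  (sub (add (add (add (add (add (sub (add (add (sub (add (add (add (add C x3168) x3176) x3160) x3184) x3190) x3280) x3388) x3010) x2200) x4144) x256) x6088) x984) x5360)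
  (add (add (add (add (add (sub (add (add (sub (sub (add (add C x3168) x3172) x3182) x3194) x3284) x3392) x3014) x2204) x4148) x260) x6092) x5362)
  (add (add (add (add (add (sub (add (add (sub (sub (sub C x3184) x3176) x3218) x3290) x3398) x3020) x2210) x4154) x266) x6098) x5368)
  (sub (add (add (add (add (add (sub (add (add (sub (add (add (sub C x3182) x3160) x3172) x3220) x3292) x3400) x3022) x2212) x4156) x268) x6100) x996) x5372)
  (sub (add (add (add (add (sub (sub (sub (add (add (add (add C x3190) x3194) x3198) x3210) x3168) x3240) x3024) x2214) x4158) x270) x6102) x1000)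
  (sub (add (add (add (add (add (sub (sub (sub (sub (add (add C x3186) x3194) x3196) x3172) x3244) x3028) x2218) x4162) x274) x6106) x1002) x5378)
  (add (add (add (add (add (sub (sub (sub (sub (add (add C x3186) x3190) x3206) x3176) x3248) x3032) x2222) x4166) x278) x6110) x5380)
  (sub (add (add (add (add (add (sub (sub (add (add (sub (sub C x3198) x3190) x3160) x3232) x3250) x3034) x2224) x4168) x280) x6112) x1008) x5384)
  (sub (add (add (add (add (sub (sub (add (add (add (add (sub C x3196) x3186) x3210) x3162) x3234) x3252) x3036) x2226) x4170) x282) x6114) x1012)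
  (add (add (add (add (add (sub (sub (sub (sub (sub C x3210) x3194) x3224) x3260) x3044) x2234) x4178) x290) x6122) x5392)
  (sub (add (add (add (add (sub (sub (sub (add (add (sub C x3206) x3186) x3198) x3228) x3264) x3048) x2238) x4182) x294) x6126) x1024)
  (add (add (add (add (add (sub (sub (sub (sub (sub C x3220) x3224) x3182) x3326) x3056) x2246) x4190) x302) x6134) x5404)
  (sub (add (add (add (add (add (sub (sub (sub (sub (sub C x3218) x3232) x3184) x3328) x3058) x2248) x4192) x304) x6136) x1032) x5408)
  (add (add (add (add (add (sub (sub (sub (sub (sub C x3228) x3218) x3206) x3332) x3062) x2252) x4196) x308) x6140) x5410)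
  (sub (add (add (add (add (sub (sub (sub (sub (sub C x3224) x3234) x3210) x3336) x3066) x2256) x4200) x312) x6144) x1042)
  (sub (add (add (add (add (add (sub (sub (add (add (sub (sub C x3234) x3220) x3160) x3196) x3340) x3070) x2260) x4204) x316) x6148) x1044) x5420)
  (sub (add (add (add (add (sub (sub (add (add (sub (sub C x3232) x3228) x3162) x3198) x3342) x3072) x2262) x4206) x318) x6150) x1048)
  (sub (add (add (add (add (add (add (sub (add (add (add (add (add (add C x3244) x3248) x3252) x3264) x3276) x3312) x3186) x2916) x3564) x2268) x4212) x324) x6156) x1054)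
  (sub (add (add (add (add (add (add (add (sub (add (add (sub (add (add C x3240) x3248) x3250) x3280) x3316) x3190) x2920) x3568) x2272) x4216) x328) x6160) x1056) x5432)
  (add (add (add (add (add (add (add (sub (add (add (sub (add (add C x3240) x3244) x3260) x3284) x3320) x3194) x2924) x3572) x2276) x4220) x332) x6164) x5434)
  (sub (add (add (add (add (add (add (add (sub (sub (sub (sub C x3252) x3244) x3268) x3196) x2926) x3574) x2278) x4222) x334) x6166) x1062) x5438)
  (sub (add (add (add (add (add (add (sub (sub (add (add (sub C x3250) x3240) x3264) x3270) x3198) x2928) x3576) x2280) x4224) x336) x6168) x1066)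
  (add (add (add (add (add (add (add (sub (sub (sub (sub C x3264) x3248) x3296) x3206) x2936) x3584) x2288) x4232) x344) x6176) x5446)
  (sub (add (add (add (add (add (add (sub (sub (add (add (sub C x3260) x3240) x3252) x3300) x3210) x2940) x3588) x2292) x4236) x348) x6180) x1078)
  (sub (add (add (add (add (add (add (add (add (add (sub (add (add (sub C x3270) x3280) x3292) x3250) x3160) x3376) x2944) x3592) x2296) x4240) x352) x6184) x1080) x5456)
  (sub (add (add (add (add (add (add (add (add (sub (sub (sub C x3268) x3276) x3252) x3162) x3378) x2946) x3594) x2298) x4242) x354) x6186) x1084)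
  (sub (add (add (add (add (add (add (add (add (add (add (sub (add (add C x3280) x3284) x3270) x3240) x3312) x3168) x3384) x2952) x3600) x2304) x4248) x360) x6192) x1090)
  (sub (add (add (add (add (add (add (add (add (add (add (add (add (add (add (add C x3276) x3284) x3268) x3292) x3244) x3316) x3172) x3388) x2956) x3604) x2308) x4252) x364) x6196) x1092) x5468)
  (add (add (add (add (add (add (add (add (add (add (add (sub (add (add C x3276) x3280) x3290) x3248) x3320) x3176) x3392) x2960) x3608) x2312) x4256) x368) x6200) x5470)
  (add (add (add (add (add (add (add (add (add (sub (sub (sub C x3292) x3284) x3308) x3182) x3398) x2966) x3614) x2318) x4262) x374) x6206) x5476)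
  (sub (add (add (add (add (add (add (add (add (add (sub (add (add (sub C x3290) x3268) x3280) x3310) x3184) x3400) x2968) x3616) x2320) x4264) x376) x6208) x1104) x5480)
  (add (add (add (add (add (add (add (sub (sub (add (add (sub C x3300) x3308) x3320) x3260) x3350) x2972) x3620) x2324) x4268) x380) x6212) x5482)
  (sub (add (add (add (add (add (add (sub (sub (sub (sub C x3296) x3312) x3264) x3354) x2976) x3624) x2328) x4272) x384) x6216) x1114)
  (add (add (add (add (add (add (add (sub (sub (add (add (sub C x3310) x3296) x3320) x3290) x3362) x2984) x3632) x2336) x4280) x392) x6224) x5494)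
  (sub (add (add (add (add (add (add (add (sub (sub (sub (sub C x3308) x3316) x3292) x3364) x2986) x3634) x2338) x4282) x394) x6226) x1122) x5498)
  (sub (add (add (add (add (add (add (sub (add (add (sub (add (add C x3316) x3320) x3300) x3240) x3276) x3366) x2988) x3636) x2340) x4284) x396) x6228) x1126)
  (sub (add (add (add (add (add (add (add (sub (add (add (sub (add (add C x3312) x3320) x3310) x3244) x3280) x3370) x2992) x3640) x2344) x4288) x400) x6232) x1128) x5504)
  (add (add (add (add (add (add (add (sub (add (add (add (add (add (add C x3312) x3316) x3296) x3308) x3248) x3284) x3374) x2996) x3644) x2348) x4292) x404) x6236) x5506)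
  (add (add (add (add (add (sub (sub (add (add (sub (sub C x3328) x3332) x3362) x3398) x3218) x3488) x2354) x4298) x410) x6242) x5512)
  (sub (add (add (add (add (add (sub (sub (add (add (sub (sub C x3326) x3340) x3364) x3400) x3220) x3490) x2356) x4300) x412) x6244) x1140) x5516)
  (add (add (add (add (add (sub (sub (sub (sub (sub C x3336) x3326) x3350) x3224) x3494) x2360) x4304) x416) x6248) x5518)
  (sub (add (add (add (add (sub (sub (sub (sub (sub C x3332) x3342) x3354) x3228) x3498) x2364) x4308) x420) x6252) x1150)
  (sub (add (add (add (add (add (sub (sub (sub (sub (sub C x3342) x3328) x3376) x3232) x3502) x2368) x4312) x424) x6256) x1152) x5528)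
  (sub (add (add (add (add (sub (sub (sub (sub (sub C x3340) x3336) x3378) x3234) x3504) x2370) x4314) x426) x6258) x1156)
  (add (add (add (add (add (sub (sub (sub (add (add (sub C x3354) x3362) x3374) x3332) x3296) x3512) x2378) x4322) x434) x6266) x5536)
  (sub (add (add (add (add (sub (sub (sub (sub (sub C x3350) x3366) x3336) x3300) x3516) x2382) x4326) x438) x6270) x1168)
  (add (add (add (add (add (sub (sub (add (add (add (add (sub C x3364) x3350) x3374) x3326) x3398) x3308) x3524) x2390) x4334) x446) x6278) x5548)
  (sub (add (add (add (add (add (sub (sub (add (add (sub (sub C x3362) x3370) x3328) x3400) x3310) x3526) x2392) x4336) x448) x6280) x1176) x5552)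
  (sub (add (add (add (add (sub (sub (sub (sub (add (add C x3370) x3374) x3354) x3384) x3312) x3528) x2394) x4338) x450) x6282) x1180)
  (sub (add (add (add (add (add (sub (sub (sub (sub (add (add C x3366) x3374) x3364) x3388) x3316) x3532) x2398) x4342) x454) x6286) x1182) x5558)
  (add (add (add (add (add (sub (sub (sub (add (add (add (add C x3366) x3370) x3350) x3362) x3392) x3320) x3536) x2402) x4346) x458) x6290) x5560)
  (sub (add (add (add (add (add (sub (add (add (sub (add (add (sub C x3378) x3388) x3400) x3340) x3160) x3268) x3538) x2404) x4348) x460) x6292) x1188) x5564)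
  (sub (add (add (add (add (sub (add (add (sub (sub (sub C x3376) x3384) x3342) x3162) x3270) x3540) x2406) x4350) x462) x6294) x1192)
  (sub (add (add (add (add (sub (add (add (sub (sub (add (add C x3388) x3392) x3378) x3366) x3168) x3276) x3546) x2412) x4356) x468) x6300) x1198)
  (sub (add (add (add (add (add (sub (add (add (sub (add (add (add (add C x3384) x3392) x3376) x3400) x3370) x3172) x3280) x3550) x2416) x4360) x472) x6304) x1200) x5576)
  (add (add (add (add (add (sub (add (add (sub (sub (add (add C x3384) x3388) x3398) x3374) x3176) x3284) x3554) x2420) x4364) x476) x6308) x5578)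
  (add (add (add (add (add (sub (add (add (add (add (sub (sub C x3400) x3392) x3326) x3362) x3182) x3290) x3560) x2426) x4370) x482) x6314) x5584)
  (sub (add (add (add (add (add (sub (add (add (add (add (add (add (sub C x3398) x3376) x3388) x3328) x3364) x3184) x3292) x3562) x2428) x4372) x484) x6316) x1212) x5588)
  (add (add (add (sub (sub (add (add (add (add (add (add (sub C x3408) x3416) x3428) x3440) x3476) x3512) x3620) x3080) x3890) x488) x6320) x5590)
  (sub (add (add (sub (sub (add (add (add (add (sub (sub C x3404) x3420) x3444) x3480) x3516) x3624) x3084) x3894) x492) x6324) x1222)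
  (add (add (add (sub (sub (add (add (sub (add (add (sub C x3418) x3404) x3428) x3434) x3524) x3632) x3092) x3902) x500) x6332) x5602)
  (sub (add (add (add (sub (sub (add (add (sub (sub (sub C x3416) x3424) x3436) x3526) x3634) x3094) x3904) x502) x6334) x1230) x5606)
  (sub (add (add (sub (sub (add (add (sub (sub (add (add C x3424) x3428) x3408) x3456) x3528) x3636) x3096) x3906) x504) x6336) x1234)
  (sub (add (add (add (sub (sub (add (add (sub (sub (add (add C x3420) x3428) x3418) x3460) x3532) x3640) x3100) x3910) x508) x6340) x1236) x5612)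
  (add (add (add (sub (sub (add (add (sub (add (add (add (add C x3420) x3424) x3404) x3416) x3464) x3536) x3644) x3104) x3914) x512) x6344) x5614)
  (add (add (add (sub (sub (sub (sub (sub (sub C x3436) x3440) x3416) x3488) x3110) x3920) x518) x6350) x5620)
  (sub (add (add (add (sub (sub (sub (sub (sub (sub C x3434) x3448) x3418) x3490) x3112) x3922) x520) x6352) x1248) x5624)
  (add (add (add (sub (sub (sub (add (add (sub (sub C x3444) x3434) x3404) x3476) x3494) x3116) x3926) x524) x6356) x5626)
  (sub (add (add (sub (sub (sub (add (add (sub (sub C x3440) x3450) x3408) x3480) x3498) x3120) x3930) x528) x6360) x1258)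
  (sub (add (add (add (sub (sub (sub (sub (sub (sub C x3450) x3436) x3466) x3502) x3124) x3934) x532) x6364) x1260) x5636)
  (sub (add (add (sub (sub (sub (sub (sub (sub C x3448) x3444) x3468) x3504) x3126) x3936) x534) x6366) x1264)
  (sub (add (add (sub (sub (sub (sub (add (add (add (add C x3460) x3464) x3468) x3480) x3420) x3564) x3132) x3942) x540) x6372) x1270)
  (sub (add (add (add (sub (sub (sub (sub (sub (add (add C x3456) x3464) x3466) x3424) x3568) x3136) x3946) x544) x6376) x1272) x5648)
  (add (add (add (sub (sub (sub (sub (sub (add (add C x3456) x3460) x3476) x3428) x3572) x3140) x3950) x548) x6380) x5650)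
  (sub (add (add (add (sub (sub (sub (sub (sub (sub C x3468) x3460) x3448) x3574) x3142) x3952) x550) x6382) x1278) x5654)
  (sub (add (add (sub (sub (sub (sub (add (add (sub C x3466) x3456) x3480) x3450) x3576) x3144) x3954) x552) x6384) x1282)
  (add (add (add (sub (sub (sub (add (add (sub (sub C x3480) x3464) x3404) x3440) x3584) x3152) x3962) x560) x6392) x5662)
  (sub (add (add (sub (sub (sub (add (add (add (add (sub C x3476) x3456) x3468) x3408) x3444) x3588) x3156) x3966) x564) x6396) x1294)
  (add (add (add (sub (sub (sub (add (add (sub (sub C x3490) x3494) x3524) x3560) x3434) x3326) x3974) x572) x6404) x5674)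
  (sub (add (add (add (sub (sub (sub (add (add (sub (sub C x3488) x3502) x3526) x3562) x3436) x3328) x3976) x574) x6406) x1302) x5678)
  (add (add (add (sub (sub (sub (sub (sub (sub C x3498) x3488) x3512) x3440) x3332) x3980) x578) x6410) x5680)
  (sub (add (add (sub (sub (sub (sub (sub (sub C x3494) x3504) x3516) x3444) x3336) x3984) x582) x6414) x1312)
  (sub (add (add (add (sub (sub (sub (sub (sub (sub C x3504) x3490) x3538) x3448) x3340) x3988) x586) x6418) x1314) x5690)
  (sub (add (add (sub (sub (sub (sub (sub (sub C x3502) x3498) x3540) x3450) x3342) x3990) x588) x6420) x1318)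
  (add (add (add (sub (sub (add (add (sub (add (add (sub C x3516) x3524) x3536) x3494) x3404) x3620) x3350) x3998) x596) x6428) x5698)
  (sub (add (add (sub (sub (add (add (sub (sub (sub C x3512) x3528) x3498) x3408) x3624) x3354) x4002) x600) x6432) x1330)
  (add (add (add (sub (sub (add (add (add (add (add (add (sub C x3526) x3512) x3536) x3488) x3560) x3416) x3632) x3362) x4010) x608) x6440) x5710)
  (sub (add (add (add (sub (sub (add (add (add (add (sub (sub C x3524) x3532) x3490) x3562) x3418) x3634) x3364) x4012) x610) x6442) x1338) x5714)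
  (sub (add (add (sub (sub (add (add (sub (sub (add (add C x3532) x3536) x3516) x3546) x3420) x3636) x3366) x4014) x612) x6444) x1342)
  (sub (add (add (add (sub (sub (add (add (sub (sub (add (add C x3528) x3536) x3526) x3550) x3424) x3640) x3370) x4018) x616) x6448) x1344) x5720)
  (add (add (add (sub (sub (add (add (sub (add (add (add (add C x3528) x3532) x3512) x3524) x3554) x3428) x3644) x3374) x4022) x620) x6452) x5722)
  (sub (add (add (add (sub (sub (sub (sub (add (add (sub C x3540) x3550) x3562) x3502) x3592) x3376) x4024) x622) x6454) x1350) x5726)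
  (sub (add (add (sub (sub (sub (sub (sub (sub C x3538) x3546) x3504) x3594) x3378) x4026) x624) x6456) x1354)
  (sub (add (add (sub (sub (sub (sub (sub (add (add C x3550) x3554) x3540) x3528) x3600) x3384) x4032) x630) x6462) x1360)
  (sub (add (add (add (sub (sub (sub (sub (add (add (add (add C x3546) x3554) x3538) x3562) x3532) x3604) x3388) x4036) x634) x6466) x1362) x5738)
  (add (add (add (sub (sub (sub (sub (sub (add (add C x3546) x3550) x3560) x3536) x3608) x3392) x4040) x638) x6470) x5740)
  (add (add (add (sub (sub (sub (add (add (sub (sub C x3562) x3554) x3488) x3524) x3614) x3398) x4046) x644) x6476) x5746)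
  (sub (add (add (add (sub (sub (sub (add (add (add (add (sub C x3560) x3538) x3550) x3490) x3526) x3616) x3400) x4048) x646) x6478) x1374) x5750)
  (sub (add (add (sub (add (add (sub (add (add (add (add (add (add C x3568) x3572) x3576) x3588) x3600) x3636) x3456) x2916) x3240) x4050) x648) x6480) x1378)
  (sub (add (add (add (sub (add (add (sub (add (add (sub (add (add C x3564) x3572) x3574) x3604) x3640) x3460) x2920) x3244) x4054) x652) x6484) x1380) x5756)
  (add (add (add (sub (add (add (sub (add (add (sub (add (add C x3564) x3568) x3584) x3608) x3644) x3464) x2924) x3248) x4058) x656) x6488) x5758)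
  (sub (add (add (add (sub (add (add (sub (sub (sub (sub C x3576) x3568) x3592) x3466) x2926) x3250) x4060) x658) x6490) x1386) x5762)
  (sub (add (add (sub (add (add (sub (sub (add (add (sub C x3574) x3564) x3588) x3594) x3468) x2928) x3252) x4062) x660) x6492) x1390)
  (add (add (add (sub (add (add (sub (sub (sub (sub C x3588) x3572) x3620) x3476) x2936) x3260) x4070) x668) x6500) x5770)
  (sub (add (add (sub (add (add (sub (sub (add (add (sub C x3584) x3564) x3576) x3624) x3480) x2940) x3264) x4074) x672) x6504) x1402)
  (sub (add (add (add (sub (add (add (sub (sub (add (add (sub C x3594) x3604) x3616) x3574) x3538) x2944) x3268) x4078) x676) x6508) x1404) x5780)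
  (sub (add (add (sub (add (add (sub (sub (sub (sub C x3592) x3600) x3576) x3540) x2946) x3270) x4080) x678) x6510) x1408)
  (sub (add (add (sub (add (add (sub (add (add (sub (add (add C x3604) x3608) x3594) x3564) x3636) x3546) x2952) x3276) x4086) x684) x6516) x1414)
  (sub (add (add (add (sub (add (add (sub (add (add (add (add (add (add C x3600) x3608) x3592) x3616) x3568) x3640) x3550) x2956) x3280) x4090) x688) x6520) x1416) x5792)
  (add (add (add (sub (add (add (sub (add (add (sub (add (add C x3600) x3604) x3614) x3572) x3644) x3554) x2960) x3284) x4094) x692) x6524) x5794)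
  (add (add (add (sub (add (add (sub (sub (sub (sub C x3616) x3608) x3632) x3560) x2966) x3290) x4100) x698) x6530) x5800)
  (sub (add (add (add (sub (add (add (sub (sub (add (add (sub C x3614) x3592) x3604) x3634) x3562) x2968) x3292) x4102) x700) x6532) x1428) x5804)
  (add (add (add (sub (add (add (add (add (sub (add (add (sub C x3624) x3632) x3644) x3584) x3404) x3512) x2972) x3296) x4106) x704) x6536) x5806)
  (sub (add (add (sub (add (add (add (add (sub (sub (sub C x3620) x3636) x3588) x3408) x3516) x2976) x3300) x4110) x708) x6540) x1438)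
  (add (add (add (sub (add (add (add (add (sub (add (add (sub C x3634) x3620) x3644) x3614) x3416) x3524) x2984) x3308) x4118) x716) x6548) x5818)
  (sub (add (add (add (sub (add (add (add (add (sub (sub (sub C x3632) x3640) x3616) x3418) x3526) x2986) x3310) x4120) x718) x6550) x1446) x5822)
  (sub (add (add (sub (add (add (add (add (add (add (sub (add (add C x3640) x3644) x3624) x3564) x3600) x3420) x3528) x2988) x3312) x4122) x720) x6552) x1450)
  (sub (add (add (add (sub (add (add (add (add (add (add (sub (add (add C x3636) x3644) x3634) x3568) x3604) x3424) x3532) x2992) x3316) x4126) x724) x6556) x1452) x5828)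
  (add (add (add (sub (add (add (add (add (add (add (add (add (add (add C x3636) x3640) x3620) x3632) x3572) x3608) x3428) x3536) x2996) x3320) x4130) x728) x6560) x5830)
  (add (sub (sub (add (add (add (add (add (add (sub (sub C x3652) x3656) x3686) x3722) x3758) x3866) x3974) x4298) x2678) x5108) x5836)
  (sub (add (sub (sub (add (add (add (add (add (add (sub (sub C x3650) x3664) x3688) x3724) x3760) x3868) x3976) x4300) x2680) x5110) x1464) x5840)
  (add (sub (sub (add (add (add (add (sub (sub (sub C x3660) x3650) x3674) x3764) x3872) x3980) x4304) x2684) x5114) x5842)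
  (sub (sub (sub (add (add (add (add (sub (sub (sub C x3656) x3666) x3678) x3768) x3876) x3984) x4308) x2688) x5118) x1474)
  (sub (add (sub (sub (add (add (add (add (sub (sub (sub C x3666) x3652) x3700) x3772) x3880) x3988) x4312) x2692) x5122) x1476) x5852)
  (sub (sub (sub (add (add (add (add (sub (sub (sub C x3664) x3660) x3702) x3774) x3882) x3990) x4314) x2694) x5124) x1480)
  (add (sub (sub (add (add (sub (sub (add (add (sub C x3678) x3686) x3698) x3656) x3728) x3998) x4322) x2702) x5132) x5860)
  (sub (sub (sub (add (add (sub (sub (sub (sub C x3674) x3690) x3660) x3732) x4002) x4326) x2706) x5136) x1492)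
  (add (sub (sub (add (add (sub (add (add (add (add (sub C x3688) x3674) x3698) x3650) x3722) x3740) x4010) x4334) x2714) x5144) x5872)
  (sub (add (sub (sub (add (add (sub (add (add (sub (sub C x3686) x3694) x3652) x3724) x3742) x4012) x4336) x2716) x5146) x1500) x5876)
  (sub (sub (sub (add (add (sub (sub (sub (add (add C x3694) x3698) x3678) x3708) x3744) x4014) x4338) x2718) x5148) x1504)
  (sub (add (sub (sub (add (add (sub (sub (sub (add (add C x3690) x3698) x3688) x3712) x3748) x4018) x4342) x2722) x5152) x1506) x5882)
  (add (sub (sub (add (add (sub (sub (add (add (add (add C x3690) x3694) x3674) x3686) x3716) x3752) x4022) x4346) x2726) x5156) x5884)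
  (sub (add (sub (sub (add (add (sub (sub (add (add (sub C x3702) x3712) x3724) x3664) x3808) x4024) x4348) x2728) x5158) x1512) x5888)
  (sub (sub (sub (add (add (sub (sub (sub (sub C x3700) x3708) x3666) x3810) x4026) x4350) x2730) x5160) x1516)
  (sub (sub (sub (add (add (sub (sub (sub (add (add C x3712) x3716) x3702) x3690) x3816) x4032) x4356) x2736) x5166) x1522)
  (sub (add (sub (sub (add (add (sub (sub (add (add (add (add C x3708) x3716) x3700) x3724) x3694) x3820) x4036) x4360) x2740) x5170) x1524) x5900)
  (add (sub (sub (add (add (sub (sub (sub (add (add C x3708) x3712) x3722) x3698) x3824) x4040) x4364) x2744) x5174) x5902)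
  (add (sub (sub (add (add (sub (add (add (sub (sub C x3724) x3716) x3650) x3686) x3830) x4046) x4370) x2750) x5180) x5908)
  (sub (add (sub (sub (add (add (sub (add (add (add (add (sub C x3722) x3700) x3712) x3652) x3688) x3832) x4048) x4372) x2752) x5182) x1536) x5912)
  (add (sub (sub (sub (sub (add (add (add (add (sub C x3732) x3740) x3752) x3764) x3800) x3674) x3890) x2756) x5186) x5914)
  (sub (sub (sub (sub (sub (add (add (sub (sub C x3728) x3744) x3768) x3804) x3678) x3894) x2760) x5190) x1546)
  (add (sub (sub (sub (sub (sub (add (add (sub C x3742) x3728) x3752) x3758) x3686) x3902) x2768) x5198) x5926)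
  (sub (add (sub (sub (sub (sub (sub (sub (sub C x3740) x3748) x3760) x3688) x3904) x2770) x5200) x1554) x5930)
  (sub (sub (sub (sub (sub (sub (sub (add (add C x3748) x3752) x3732) x3780) x3690) x3906) x2772) x5202) x1558)
  (sub (add (sub (sub (sub (sub (sub (sub (add (add C x3744) x3752) x3742) x3784) x3694) x3910) x2776) x5206) x1560) x5936)
  (add (sub (sub (sub (sub (sub (add (add (add (add C x3744) x3748) x3728) x3740) x3788) x3698) x3914) x2780) x5210) x5938)
  (add (sub (sub (sub (add (add (sub (sub (sub C x3760) x3764) x3740) x3650) x3866) x3920) x2786) x5216) x5944)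
  (sub (add (sub (sub (sub (add (add (sub (sub (sub C x3758) x3772) x3742) x3652) x3868) x3922) x2788) x5218) x1572) x5948)
  (add (sub (sub (sub (add (add (add (add (sub (sub C x3768) x3758) x3728) x3800) x3656) x3872) x3926) x2792) x5222) x5950)
  (sub (sub (sub (sub (add (add (add (add (sub (sub C x3764) x3774) x3732) x3804) x3660) x3876) x3930) x2796) x5226) x1582)
  (sub (add (sub (sub (sub (add (add (sub (sub (sub C x3774) x3760) x3790) x3664) x3880) x3934) x2800) x5230) x1584) x5960)
  (sub (sub (sub (sub (add (add (sub (sub (sub C x3772) x3768) x3792) x3666) x3882) x3936) x2802) x5232) x1588)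
  (sub (sub (sub (sub (sub (sub (add (add (add (add C x3784) x3788) x3792) x3804) x3744) x3834) x3942) x2808) x5238) x1594)
  (sub (add (sub (sub (sub (sub (sub (sub (add (add C x3780) x3788) x3790) x3748) x3838) x3946) x2812) x5242) x1596) x5972)
  (add (sub (sub (sub (sub (sub (sub (add (add C x3780) x3784) x3800) x3752) x3842) x3950) x2816) x5246) x5974)
  (sub (add (sub (sub (sub (sub (sub (sub (sub C x3792) x3784) x3772) x3844) x3952) x2818) x5248) x1602) x5978)
  (sub (sub (sub (sub (sub (sub (add (add (sub C x3790) x3780) x3804) x3774) x3846) x3954) x2820) x5250) x1606)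
  (add (sub (sub (sub (sub (add (add (sub (sub C x3804) x3788) x3728) x3764) x3854) x3962) x2828) x5258) x5986)
  (sub (sub (sub (sub (sub (add (add (add (add (sub C x3800) x3780) x3792) x3732) x3768) x3858) x3966) x2832) x5262) x1618)
  (sub (add (sub (sub (sub (sub (add (add (add (add (sub C x3810) x3820) x3832) x3844) x3880) x3700) x4132) x2836) x5266) x1620) x5996)
  (sub (sub (sub (sub (sub (add (add (sub (sub C x3808) x3816) x3846) x3882) x3702) x4134) x2838) x5268) x1624)
  (sub (sub (sub (sub (sub (sub (sub (add (add C x3820) x3824) x3810) x3834) x3708) x4140) x2844) x5274) x1630)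
  (sub (add (sub (sub (sub (sub (sub (add (add (add (add C x3816) x3824) x3808) x3832) x3838) x3712) x4144) x2848) x5278) x1632) x6008)
  (add (sub (sub (sub (sub (sub (sub (add (add C x3816) x3820) x3830) x3842) x3716) x4148) x2852) x5282) x6010)
  (add (sub (sub (sub (sub (sub (sub (sub C x3832) x3824) x3866) x3722) x4154) x2858) x5288) x6016)
  (sub (add (sub (sub (sub (sub (sub (add (add (sub C x3830) x3808) x3820) x3868) x3724) x4156) x2860) x5290) x1644) x6020)
  (sub (sub (sub (sub (sub (sub (add (add (add (add C x3838) x3842) x3846) x3858) x3816) x3780) x4158) x2862) x5292) x1648)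
  (sub (add (sub (sub (sub (sub (sub (sub (add (add C x3834) x3842) x3844) x3820) x3784) x4162) x2866) x5296) x1650) x6026)
  (add (sub (sub (sub (sub (sub (sub (add (add C x3834) x3838) x3854) x3824) x3788) x4166) x2870) x5300) x6028)
  (sub (add (sub (sub (sub (sub (add (add (sub (sub C x3846) x3838) x3808) x3880) x3790) x4168) x2872) x5302) x1656) x6032)
  (sub (sub (sub (sub (sub (add (add (add (add (sub C x3844) x3834) x3858) x3810) x3882) x3792) x4170) x2874) x5304) x1660)
  (add (sub (sub (sub (sub (sub (sub (sub C x3858) x3842) x3872) x3800) x4178) x2882) x5312) x6040)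
  (sub (sub (sub (sub (sub (sub (add (add (sub C x3854) x3834) x3846) x3876) x3804) x4182) x2886) x5316) x1672)
  (add (sub (sub (sub (add (add (sub (sub (sub C x3868) x3872) x3830) x3650) x3758) x4190) x2894) x5324) x6052)
  (sub (add (sub (sub (sub (add (add (sub (sub (sub C x3866) x3880) x3832) x3652) x3760) x4192) x2896) x5326) x1680) x6056)
  (add (sub (sub (sub (add (add (sub (sub (sub C x3876) x3866) x3854) x3656) x3764) x4196) x2900) x5330) x6058)
  (sub (sub (sub (sub (add (add (sub (sub (sub C x3872) x3882) x3858) x3660) x3768) x4200) x2904) x5334) x1690)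
  (sub (add (sub (sub (sub (add (add (add (add (sub (sub C x3882) x3868) x3808) x3844) x3664) x3772) x4204) x2908) x5338) x1692) x6068)
  (sub (sub (sub (sub (add (add (add (add (sub (sub C x3880) x3876) x3810) x3846) x3666) x3774) x4206) x2910) x5340) x1696)
  (add (sub (sub (sub (add (add (add (add (add (add (sub C x3894) x3902) x3914) x3926) x3962) x3998) x4106) x3728) x3404) x5348) x6076)
  (sub (sub (sub (sub (add (add (add (add (sub (sub C x3890) x3906) x3930) x3966) x4002) x4110) x3732) x3408) x5352) x1708)
  (add (sub (sub (sub (add (add (sub (add (add (sub C x3904) x3890) x3914) x3920) x4010) x4118) x3740) x3416) x5360) x6088)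
  (sub (add (sub (sub (sub (add (add (sub (sub (sub C x3902) x3910) x3922) x4012) x4120) x3742) x3418) x5362) x1716) x6092)
  (sub (sub (sub (sub (add (add (sub (sub (add (add C x3910) x3914) x3894) x3942) x4014) x4122) x3744) x3420) x5364) x1720)
  (sub (add (sub (sub (sub (add (add (sub (sub (add (add C x3906) x3914) x3904) x3946) x4018) x4126) x3748) x3424) x5368) x1722) x6098)
  (add (sub (sub (sub (add (add (sub (add (add (add (add C x3906) x3910) x3890) x3902) x3950) x4022) x4130) x3752) x3428) x5372) x6100)
  (add (sub (sub (sub (sub (sub (sub (sub C x3922) x3926) x3902) x3974) x3758) x3434) x5378) x6106)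
  (sub (add (sub (sub (sub (sub (sub (sub (sub C x3920) x3934) x3904) x3976) x3760) x3436) x5380) x1734) x6110)
  (add (sub (sub (sub (sub (add (add (sub (sub C x3930) x3920) x3890) x3962) x3980) x3764) x3440) x5384) x6112)
  (sub (sub (sub (sub (sub (add (add (sub (sub C x3926) x3936) x3894) x3966) x3984) x3768) x3444) x5388) x1744)
  (sub (add (sub (sub (sub (sub (sub (sub (sub C x3936) x3922) x3952) x3988) x3772) x3448) x5392) x1746) x6122)
  (sub (sub (sub (sub (sub (sub (sub (sub C x3934) x3930) x3954) x3990) x3774) x3450) x5394) x1750)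
  (sub (sub (sub (sub (sub (sub (add (add (add (add C x3946) x3950) x3954) x3966) x3906) x4050) x3780) x3456) x5400) x1756)
  (sub (add (sub (sub (sub (sub (sub (sub (add (add C x3942) x3950) x3952) x3910) x4054) x3784) x3460) x5404) x1758) x6134)
  (add (sub (sub (sub (sub (sub (sub (add (add C x3942) x3946) x3962) x3914) x4058) x3788) x3464) x5408) x6136)
  (sub (add (sub (sub (sub (sub (sub (sub (sub C x3954) x3946) x3934) x4060) x3790) x3466) x5410) x1764) x6140)
  (sub (sub (sub (sub (sub (sub (add (add (sub C x3952) x3942) x3966) x3936) x4062) x3792) x3468) x5412) x1768)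
  (add (sub (sub (sub (sub (add (add (sub (sub C x3966) x3950) x3890) x3926) x4070) x3800) x3476) x5420) x6148)
  (sub (sub (sub (sub (sub (add (add (add (add (sub C x3962) x3942) x3954) x3894) x3930) x4074) x3804) x3480) x5424) x1780)
  (add (sub (sub (add (add (sub (add (add (sub (sub C x3976) x3980) x4010) x4046) x3920) x3650) x4298) x3488) x5432) x6160)
  (sub (add (sub (sub (add (add (sub (add (add (sub (sub C x3974) x3988) x4012) x4048) x3922) x3652) x4300) x3490) x5434) x1788) x6164)
  (add (sub (sub (add (add (sub (sub (sub (sub C x3984) x3974) x3998) x3926) x3656) x4304) x3494) x5438) x6166)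
  (sub (sub (sub (add (add (sub (sub (sub (sub C x3980) x3990) x4002) x3930) x3660) x4308) x3498) x5442) x1798)
  (sub (add (sub (sub (add (add (sub (sub (sub (sub C x3990) x3976) x4024) x3934) x3664) x4312) x3502) x5446) x1800) x6176)
  (sub (sub (sub (add (add (sub (sub (sub (sub C x3988) x3984) x4026) x3936) x3666) x4314) x3504) x5448) x1804)
  (add (sub (sub (add (add (add (add (sub (add (add (sub C x4002) x4010) x4022) x3980) x3890) x4106) x3674) x4322) x3512) x5456) x6184)
  (sub (sub (sub (add (add (add (add (sub (sub (sub C x3998) x4014) x3984) x3894) x4110) x3678) x4326) x3516) x5460) x1816)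
  (add (sub (sub (add (add (add (add (add (add (add (add (sub C x4012) x3998) x4022) x3974) x4046) x3902) x4118) x3686) x4334) x3524) x5468) x6196)
  (sub (add (sub (sub (add (add (add (add (add (add (sub (sub C x4010) x4018) x3976) x4048) x3904) x4120) x3688) x4336) x3526) x5470) x1824) x6200)
  (sub (sub (sub (add (add (add (add (sub (sub (add (add C x4018) x4022) x4002) x4032) x3906) x4122) x3690) x4338) x3528) x5472) x1828)
  (sub (add (sub (sub (add (add (add (add (sub (sub (add (add C x4014) x4022) x4012) x4036) x3910) x4126) x3694) x4342) x3532) x5476) x1830) x6206)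
  (add (sub (sub (add (add (add (add (sub (add (add (add (add C x4014) x4018) x3998) x4010) x4040) x3914) x4130) x3698) x4346) x3536) x5480) x6208)
  (sub (add (sub (sub (add (add (sub (sub (add (add (sub C x4026) x4036) x4048) x3988) x4078) x3700) x4348) x3538) x5482) x1836) x6212)
  (sub (sub (sub (add (add (sub (sub (sub (sub C x4024) x4032) x3990) x4080) x3702) x4350) x3540) x5484) x1840)
  (sub (sub (sub (add (add (sub (sub (sub (add (add C x4036) x4040) x4026) x4014) x4086) x3708) x4356) x3546) x5490) x1846)
  (sub (add (sub (sub (add (add (sub (sub (add (add (add (add C x4032) x4040) x4024) x4048) x4018) x4090) x3712) x4360) x3550) x5494) x1848) x6224)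
  (add (sub (sub (add (add (sub (sub (sub (add (add C x4032) x4036) x4046) x4022) x4094) x3716) x4364) x3554) x5498) x6226)
  (add (sub (sub (add (add (sub (add (add (sub (sub C x4048) x4040) x3974) x4010) x4100) x3722) x4370) x3560) x5504) x6232)
  (sub (add (sub (sub (add (add (sub (add (add (add (add (sub C x4046) x4024) x4036) x3976) x4012) x4102) x3724) x4372) x3562) x5506) x1860) x6236)
  (sub (sub (sub (sub (sub (add (add (add (add (add (add C x4054) x4058) x4062) x4074) x4086) x4122) x3942) x4212) x3564) x5508) x1864)
  (sub (add (sub (sub (sub (sub (add (add (sub (add (add C x4050) x4058) x4060) x4090) x4126) x3946) x4216) x3568) x5512) x1866) x6242)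
  (add (sub (sub (sub (sub (add (add (sub (add (add C x4050) x4054) x4070) x4094) x4130) x3950) x4220) x3572) x5516) x6244)
  (sub (add (sub (sub (sub (sub (sub (sub (sub C x4062) x4054) x4078) x3952) x4222) x3574) x5518) x1872) x6248)
  (sub (sub (sub (sub (sub (sub (add (add (sub C x4060) x4050) x4074) x4080) x3954) x4224) x3576) x5520) x1876)
  (add (sub (sub (sub (sub (sub (sub (sub C x4074) x4058) x4106) x3962) x4232) x3584) x5528) x6256)
  (sub (sub (sub (sub (sub (sub (add (add (sub C x4070) x4050) x4062) x4110) x3966) x4236) x3588) x5532) x1888)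
  (sub (add (sub (sub (sub (sub (sub (add (add (sub C x4080) x4090) x4102) x4060) x4024) x4240) x3592) x5536) x1890) x6266)
  (sub (sub (sub (sub (sub (sub (sub (sub C x4078) x4086) x4062) x4026) x4242) x3594) x5538) x1894)
  (sub (sub (sub (sub (sub (add (add (sub (add (add C x4090) x4094) x4080) x4050) x4122) x4032) x4248) x3600) x5544) x1900)
  (sub (add (sub (sub (sub (sub (add (add (add (add (add (add C x4086) x4094) x4078) x4102) x4054) x4126) x4036) x4252) x3604) x5548) x1902) x6278)
  (add (sub (sub (sub (sub (add (add (sub (add (add C x4086) x4090) x4100) x4058) x4130) x4040) x4256) x3608) x5552) x6280)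
  (add (sub (sub (sub (sub (sub (sub (sub C x4102) x4094) x4118) x4046) x4262) x3614) x5558) x6286)
  (sub (add (sub (sub (sub (sub (sub (add (add (sub C x4100) x4078) x4090) x4120) x4048) x4264) x3616) x5560) x1914) x6290)
  (add (sub (sub (sub (add (add (sub (add (add (sub C x4110) x4118) x4130) x4070) x3890) x3998) x4268) x3620) x5564) x6292)
  (sub (sub (sub (sub (add (add (sub (sub (sub C x4106) x4122) x4074) x3894) x4002) x4272) x3624) x5568) x1924)
  (add (sub (sub (sub (add (add (sub (add (add (sub C x4120) x4106) x4130) x4100) x3902) x4010) x4280) x3632) x5576) x6304)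
  (sub (add (sub (sub (sub (add (add (sub (sub (sub C x4118) x4126) x4102) x3904) x4012) x4282) x3634) x5578) x1932) x6308)
  (sub (sub (sub (sub (add (add (add (add (sub (add (add C x4126) x4130) x4110) x4050) x4086) x3906) x4014) x4284) x3636) x5580) x1936)
  (sub (add (sub (sub (sub (add (add (add (add (sub (add (add C x4122) x4130) x4120) x4054) x4090) x3910) x4018) x4288) x3640) x5584) x1938) x6314)
  (add (sub (sub (sub (add (add (add (add (add (add (add (add C x4122) x4126) x4106) x4118) x4058) x4094) x3914) x4022) x4292) x3644) x5588) x6316)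
  (sub (add (sub (add (add (sub (add (add (add (add (add (add (sub C x4134) x4144) x4156) x4168) x4204) x4240) x4348) x3808) x2188) x3160) x5590) x1944) x6320)
  (sub (sub (add (add (sub (add (add (add (add (sub (sub C x4132) x4140) x4170) x4206) x4242) x4350) x3810) x2190) x3162) x5592) x1948)
  (sub (sub (add (add (sub (add (add (sub (sub (add (add C x4144) x4148) x4134) x4158) x4248) x4356) x3816) x2196) x3168) x5598) x1954)
  (sub (add (sub (add (add (sub (add (add (sub (add (add (add (add C x4140) x4148) x4132) x4156) x4162) x4252) x4360) x3820) x2200) x3172) x5602) x1956) x6332)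
  (add (sub (add (add (sub (add (add (sub (sub (add (add C x4140) x4144) x4154) x4166) x4256) x4364) x3824) x2204) x3176) x5606) x6334)
  (add (sub (add (add (sub (add (add (sub (sub (sub C x4156) x4148) x4190) x4262) x4370) x3830) x2210) x3182) x5612) x6340)
  (sub (add (sub (add (add (sub (add (add (sub (add (add (sub C x4154) x4132) x4144) x4192) x4264) x4372) x3832) x2212) x3184) x5614) x1968) x6344)
  (sub (sub (add (add (sub (sub (sub (add (add (add (add C x4162) x4166) x4170) x4182) x4140) x4212) x3834) x2214) x3186) x5616) x1972)
  (sub (add (sub (add (add (sub (sub (sub (sub (add (add C x4158) x4166) x4168) x4144) x4216) x3838) x2218) x3190) x5620) x1974) x6350)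
  (add (sub (add (add (sub (sub (sub (sub (add (add C x4158) x4162) x4178) x4148) x4220) x3842) x2222) x3194) x5624) x6352)
  (sub (add (sub (add (add (sub (sub (add (add (sub (sub C x4170) x4162) x4132) x4204) x4222) x3844) x2224) x3196) x5626) x1980) x6356)
  (sub (sub (add (add (sub (sub (add (add (add (add (sub C x4168) x4158) x4182) x4134) x4206) x4224) x3846) x2226) x3198) x5628) x1984)
  (add (sub (add (add (sub (sub (sub (sub (sub C x4182) x4166) x4196) x4232) x3854) x2234) x3206) x5636) x6364)
  (sub (sub (add (add (sub (sub (sub (add (add (sub C x4178) x4158) x4170) x4200) x4236) x3858) x2238) x3210) x5640) x1996)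
  (add (sub (add (add (sub (sub (sub (sub (sub C x4192) x4196) x4154) x4298) x3866) x2246) x3218) x5648) x6376)
  (sub (add (sub (add (add (sub (sub (sub (sub (sub C x4190) x4204) x4156) x4300) x3868) x2248) x3220) x5650) x2004) x6380)
  (add (sub (add (add (sub (sub (sub (sub (sub C x4200) x4190) x4178) x4304) x3872) x2252) x3224) x5654) x6382)
  (sub (sub (add (add (sub (sub (sub (sub (sub C x4196) x4206) x4182) x4308) x3876) x2256) x3228) x5658) x2014)
  (sub (add (sub (add (add (sub (sub (add (add (sub (sub C x4206) x4192) x4132) x4168) x4312) x3880) x2260) x3232) x5662) x2016) x6392)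
  (sub (sub (add (add (sub (sub (add (add (sub (sub C x4204) x4200) x4134) x4170) x4314) x3882) x2262) x3234) x5664) x2020)
  (sub (sub (add (add (sub (sub (add (add (add (add (add (add C x4216) x4220) x4224) x4236) x4248) x4284) x4158) x4050) x2268) x3240) x5670) x2026)
  (sub (add (sub (add (add (sub (sub (add (add (sub (add (add C x4212) x4220) x4222) x4252) x4288) x4162) x4054) x2272) x3244) x5674) x2028) x6404)
  (add (sub (add (add (sub (sub (add (add (sub (add (add C x4212) x4216) x4232) x4256) x4292) x4166) x4058) x2276) x3248) x5678) x6406)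
  (sub (add (sub (add (add (sub (sub (sub (sub (sub C x4224) x4216) x4240) x4168) x4060) x2278) x3250) x5680) x2034) x6410)
  (sub (sub (add (add (sub (sub (sub (add (add (sub C x4222) x4212) x4236) x4242) x4170) x4062) x2280) x3252) x5682) x2038)
  (add (sub (add (add (sub (sub (sub (sub (sub C x4236) x4220) x4268) x4178) x4070) x2288) x3260) x5690) x6418)
  (sub (sub (add (add (sub (sub (sub (add (add (sub C x4232) x4212) x4224) x4272) x4182) x4074) x2292) x3264) x5694) x2050)
  (sub (add (sub (add (add (sub (add (add (sub (add (add (sub C x4242) x4252) x4264) x4222) x4132) x4348) x4078) x2296) x3268) x5698) x2052) x6428)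
  (sub (sub (add (add (sub (add (add (sub (sub (sub C x4240) x4248) x4224) x4134) x4350) x4080) x2298) x3270) x5700) x2056)
  (sub (sub (add (add (sub (add (add (add (add (sub (add (add C x4252) x4256) x4242) x4212) x4284) x4140) x4356) x4086) x2304) x3276) x5706) x2062)
  (sub (add (sub (add (add (sub (add (add (add (add (add (add (add (add C x4248) x4256) x4240) x4264) x4216) x4288) x4144) x4360) x4090) x2308) x3280) x5710) x2064) x6440)
  (add (sub (add (add (sub (add (add (add (add (sub (add (add C x4248) x4252) x4262) x4220) x4292) x4148) x4364) x4094) x2312) x3284) x5714) x6442)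
  (add (sub (add (add (sub (add (add (sub (sub (sub C x4264) x4256) x4280) x4154) x4370) x4100) x2318) x3290) x5720) x6448)
  (sub (add (sub (add (add (sub (add (add (sub (add (add (sub C x4262) x4240) x4252) x4282) x4156) x4372) x4102) x2320) x3292) x5722) x2076) x6452)
  (add (sub (add (add (sub (sub (sub (add (add (sub C x4272) x4280) x4292) x4232) x4322) x4106) x2324) x3296) x5726) x6454)
  (sub (sub (add (add (sub (sub (sub (sub (sub C x4268) x4284) x4236) x4326) x4110) x2328) x3300) x5730) x2086)
  (add (sub (add (add (sub (sub (sub (add (add (sub C x4282) x4268) x4292) x4262) x4334) x4118) x2336) x3308) x5738) x6466)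
  (sub (add (sub (add (add (sub (sub (sub (sub (sub C x4280) x4288) x4264) x4336) x4120) x2338) x3310) x5740) x2094) x6470)
  (sub (sub (add (add (sub (sub (add (add (sub (add (add C x4288) x4292) x4272) x4212) x4248) x4338) x4122) x2340) x3312) x5742) x2098)
  (sub (add (sub (add (add (sub (sub (add (add (sub (add (add C x4284) x4292) x4282) x4216) x4252) x4342) x4126) x2344) x3316) x5746) x2100) x6476)
  (add (sub (add (add (sub (sub (add (add (add (add (add (add C x4284) x4288) x4268) x4280) x4220) x4256) x4346) x4130) x2348) x3320) x5750) x6478)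
  (add (sub (add (add (add (add (sub (add (add (sub (sub C x4300) x4304) x4334) x4370) x4190) x3650) x3974) x2354) x3326) x5756) x6484)
  (sub (add (sub (add (add (add (add (sub (add (add (sub (sub C x4298) x4312) x4336) x4372) x4192) x3652) x3976) x2356) x3328) x5758) x2112) x6488)
  (add (sub (add (add (add (add (sub (sub (sub (sub C x4308) x4298) x4322) x4196) x3656) x3980) x2360) x3332) x5762) x6490)
  (sub (sub (add (add (add (add (sub (sub (sub (sub C x4304) x4314) x4326) x4200) x3660) x3984) x2364) x3336) x5766) x2122)
  (sub (add (sub (add (add (add (add (sub (sub (sub (sub C x4314) x4300) x4348) x4204) x3664) x3988) x2368) x3340) x5770) x2124) x6500)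
  (sub (sub (add (add (add (add (sub (sub (sub (sub C x4312) x4308) x4350) x4206) x3666) x3990) x2370) x3342) x5772) x2128)
  (add (sub (add (add (add (add (sub (sub (add (add (sub C x4326) x4334) x4346) x4304) x4268) x3674) x3998) x2378) x3350) x5780) x6508)
  (sub (sub (add (add (add (add (sub (sub (sub (sub C x4322) x4338) x4308) x4272) x3678) x4002) x2382) x3354) x5784) x2140)
  (add (sub (add (add (add (add (sub (add (add (add (add (sub C x4336) x4322) x4346) x4298) x4370) x4280) x3686) x4010) x2390) x3362) x5792) x6520)
  (sub (add (sub (add (add (add (add (sub (add (add (sub (sub C x4334) x4342) x4300) x4372) x4282) x3688) x4012) x2392) x3364) x5794) x2148) x6524)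
  (sub (sub (add (add (add (add (sub (sub (sub (add (add C x4342) x4346) x4326) x4356) x4284) x3690) x4014) x2394) x3366) x5796) x2152)
  (sub (add (sub (add (add (add (add (sub (sub (sub (add (add C x4338) x4346) x4336) x4360) x4288) x3694) x4018) x2398) x3370) x5800) x2154) x6530)
  (add (sub (add (add (add (add (sub (sub (add (add (add (add C x4338) x4342) x4322) x4334) x4364) x4292) x3698) x4022) x2402) x3374) x5804) x6532)
  (sub (add (sub (add (add (add (add (add (add (sub (add (add (sub C x4350) x4360) x4372) x4312) x4132) x4240) x3700) x4024) x2404) x3376) x5806) x2160) x6536)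
  (sub (sub (add (add (add (add (add (add (sub (sub (sub C x4348) x4356) x4314) x4134) x4242) x3702) x4026) x2406) x3378) x5808) x2164)
  (sub (sub (add (add (add (add (add (add (sub (sub (add (add C x4360) x4364) x4350) x4338) x4140) x4248) x3708) x4032) x2412) x3384) x5814) x2170)
  (sub (add (sub (add (add (add (add (add (add (sub (add (add (add (add C x4356) x4364) x4348) x4372) x4342) x4144) x4252) x3712) x4036) x2416) x3388) x5818) x2172) x6548)
  (add (sub (add (add (add (add (add (add (sub (sub (add (add C x4356) x4360) x4370) x4346) x4148) x4256) x3716) x4040) x2420) x3392) x5822) x6550)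
  (add (sub (add (add (add (add (add (add (add (add (sub (sub C x4372) x4364) x4298) x4334) x4154) x4262) x3722) x4046) x2426) x3398) x5828) x6556)
  (sub (add (sub (add (add (add (add (add (add (add (add (add (add (sub C x4370) x4348) x4360) x4300) x4336) x4156) x4264) x3724) x4048) x2428) x3400) x5830) x2184) x6560)
  (sub (sub (sub (add (add (add (add (add (add (add (add (add (add (sub C x4380) x4388) x4400) x4412) x4448) x4484) x4592) x4700) x5024) x5348) x6320) x1460) x0) x2188)
  (add (sub (add (add (add (add (add (add (add (add (sub (sub C x4376) x4392) x4416) x4452) x4488) x4596) x4704) x5028) x5352) x6324) x1464) x8)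
  (sub (sub (sub (add (add (add (add (add (add (sub (add (add (sub C x4390) x4376) x4400) x4406) x4496) x4604) x4712) x5036) x5360) x6332) x1472) x12) x2200)
  (add (sub (add (add (add (add (add (add (sub (sub (sub C x4388) x4396) x4408) x4498) x4606) x4714) x5038) x5362) x6334) x1474) x2204)
  (add (sub (add (add (add (add (add (add (sub (sub (add (add C x4396) x4400) x4380) x4428) x4500) x4608) x4716) x5040) x5364) x6336) x1476) x20)
  (add (sub (add (add (add (add (add (add (sub (sub (add (add C x4392) x4400) x4390) x4432) x4504) x4612) x4720) x5044) x5368) x6340) x1480) x2210)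
  (sub (sub (sub (add (add (add (add (add (add (sub (add (add (add (add C x4392) x4396) x4376) x4388) x4436) x4508) x4616) x4724) x5048) x5372) x6344) x1484) x24) x2212)
  (sub (sub (sub (add (add (add (add (sub (sub (sub (sub C x4408) x4412) x4388) x4460) x4730) x5054) x5378) x6350) x1490) x30) x2218)
  (add (sub (add (add (add (add (sub (sub (sub (sub C x4406) x4420) x4390) x4462) x4732) x5056) x5380) x6352) x1492) x2222)
  (sub (sub (sub (add (add (add (add (sub (add (add (sub (sub C x4416) x4406) x4376) x4448) x4466) x4736) x5060) x5384) x6356) x1496) x36) x2224)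
  (add (sub (add (add (add (add (sub (add (add (sub (sub C x4412) x4422) x4380) x4452) x4470) x4740) x5064) x5388) x6360) x1500) x44)
  (add (sub (add (add (add (add (sub (sub (sub (sub C x4422) x4408) x4438) x4474) x4744) x5068) x5392) x6364) x1504) x2234)
  (add (sub (add (add (add (add (sub (sub (sub (sub C x4420) x4416) x4440) x4476) x4746) x5070) x5394) x6366) x1506) x50)
  (add (sub (add (add (add (add (sub (sub (add (add (add (add C x4432) x4436) x4440) x4452) x4392) x4536) x4752) x5076) x5400) x6372) x1512) x56)
  (add (sub (add (add (add (add (sub (sub (sub (add (add C x4428) x4436) x4438) x4396) x4540) x4756) x5080) x5404) x6376) x1516) x2246)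
  (sub (sub (sub (add (add (add (add (sub (sub (sub (add (add C x4428) x4432) x4448) x4400) x4544) x4760) x5084) x5408) x6380) x1520) x60) x2248)
  (add (sub (add (add (add (add (sub (sub (sub (sub C x4440) x4432) x4420) x4546) x4762) x5086) x5410) x6382) x1522) x2252)
  (add (sub (add (add (add (add (sub (sub (add (add (sub C x4438) x4428) x4452) x4422) x4548) x4764) x5088) x5412) x6384) x1524) x68)
  (sub (sub (sub (add (add (add (add (sub (add (add (sub (sub C x4452) x4436) x4376) x4412) x4556) x4772) x5096) x5420) x6392) x1532) x72) x2260)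
  (add (sub (add (add (add (add (sub (add (add (add (add (sub C x4448) x4428) x4440) x4380) x4416) x4560) x4776) x5100) x5424) x6396) x1536) x80)
  (sub (sub (sub (add (add (sub (sub (add (add (sub (sub C x4462) x4466) x4496) x4532) x4406) x4622) x5432) x6404) x1544) x84) x2272)
  (add (sub (add (add (sub (sub (add (add (sub (sub C x4460) x4474) x4498) x4534) x4408) x4624) x5434) x6406) x1546) x2276)
  (sub (sub (sub (add (add (sub (sub (sub (sub (sub C x4470) x4460) x4484) x4412) x4628) x5438) x6410) x1550) x90) x2278)
  (add (sub (add (add (sub (sub (sub (sub (sub C x4466) x4476) x4488) x4416) x4632) x5442) x6414) x1554) x98)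
  (add (sub (add (add (sub (sub (sub (sub (sub C x4476) x4462) x4510) x4420) x4636) x5446) x6418) x1558) x2288)
  (add (sub (add (add (sub (sub (sub (sub (sub C x4474) x4470) x4512) x4422) x4638) x5448) x6420) x1560) x104)
  (sub (sub (sub (add (add (sub (add (add (sub (add (add (sub C x4488) x4496) x4508) x4466) x4376) x4592) x4646) x5456) x6428) x1568) x108) x2296)
  (add (sub (add (add (sub (add (add (sub (sub (sub C x4484) x4500) x4470) x4380) x4596) x4650) x5460) x6432) x1572) x116)
  (sub (sub (sub (add (add (sub (add (add (add (add (add (add (sub C x4498) x4484) x4508) x4460) x4532) x4388) x4604) x4658) x5468) x6440) x1580) x120) x2308)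
  (add (sub (add (add (sub (add (add (add (add (sub (sub C x4496) x4504) x4462) x4534) x4390) x4606) x4660) x5470) x6442) x1582) x2312)
  (add (sub (add (add (sub (add (add (sub (sub (add (add C x4504) x4508) x4488) x4518) x4392) x4608) x4662) x5472) x6444) x1584) x128)
  (add (sub (add (add (sub (add (add (sub (sub (add (add C x4500) x4508) x4498) x4522) x4396) x4612) x4666) x5476) x6448) x1588) x2318)
  (sub (sub (sub (add (add (sub (add (add (sub (add (add (add (add C x4500) x4504) x4484) x4496) x4526) x4400) x4616) x4670) x5480) x6452) x1592) x132) x2320)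
  (add (sub (add (add (sub (sub (sub (add (add (sub C x4512) x4522) x4534) x4474) x4564) x4672) x5482) x6454) x1594) x2324)
  (add (sub (add (add (sub (sub (sub (sub (sub C x4510) x4518) x4476) x4566) x4674) x5484) x6456) x1596) x140)
  (add (sub (add (add (sub (sub (sub (sub (add (add C x4522) x4526) x4512) x4500) x4572) x4680) x5490) x6462) x1602) x146)
  (add (sub (add (add (sub (sub (sub (add (add (add (add C x4518) x4526) x4510) x4534) x4504) x4576) x4684) x5494) x6466) x1606) x2336)
  (sub (sub (sub (add (add (sub (sub (sub (sub (add (add C x4518) x4522) x4532) x4508) x4580) x4688) x5498) x6470) x1610) x150) x2338)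
  (sub (sub (sub (add (add (sub (sub (add (add (sub (sub C x4534) x4526) x4460) x4496) x4586) x4694) x5504) x6476) x1616) x156) x2344)
  (add (sub (add (add (sub (sub (add (add (add (add (sub C x4532) x4510) x4522) x4462) x4498) x4588) x4696) x5506) x6478) x1618) x2348)
  (add (sub (add (add (sub (sub (add (add (add (add (add (add C x4540) x4544) x4548) x4560) x4572) x4608) x4428) x4860) x5508) x6480) x1620) x164)
  (add (sub (add (add (sub (sub (add (add (sub (add (add C x4536) x4544) x4546) x4576) x4612) x4432) x4864) x5512) x6484) x1624) x2354)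
  (sub (sub (sub (add (add (sub (sub (add (add (sub (add (add C x4536) x4540) x4556) x4580) x4616) x4436) x4868) x5516) x6488) x1628) x168) x2356)
  (add (sub (add (add (sub (sub (sub (sub (sub C x4548) x4540) x4564) x4438) x4870) x5518) x6490) x1630) x2360)
  (add (sub (add (add (sub (sub (sub (add (add (sub C x4546) x4536) x4560) x4566) x4440) x4872) x5520) x6492) x1632) x176)
  (sub (sub (sub (add (add (sub (sub (sub (sub (sub C x4560) x4544) x4592) x4448) x4880) x5528) x6500) x1640) x180) x2368)
  (add (sub (add (add (sub (sub (sub (add (add (sub C x4556) x4536) x4548) x4596) x4452) x4884) x5532) x6504) x1644) x188)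
  (add (sub (add (add (sub (sub (sub (add (add (sub C x4566) x4576) x4588) x4546) x4510) x4888) x5536) x6508) x1648) x2378)
  (add (sub (add (add (sub (sub (sub (sub (sub C x4564) x4572) x4548) x4512) x4890) x5538) x6510) x1650) x194)
  (add (sub (add (add (sub (sub (add (add (sub (add (add C x4576) x4580) x4566) x4536) x4608) x4518) x4896) x5544) x6516) x1656) x200)
  (add (sub (add (add (sub (sub (add (add (add (add (add (add C x4572) x4580) x4564) x4588) x4540) x4612) x4522) x4900) x5548) x6520) x1660) x2390)
  (sub (sub (sub (add (add (sub (sub (add (add (sub (add (add C x4572) x4576) x4586) x4544) x4616) x4526) x4904) x5552) x6524) x1664) x204) x2392)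
  (sub (sub (sub (add (add (sub (sub (sub (sub (sub C x4588) x4580) x4604) x4532) x4910) x5558) x6530) x1670) x210) x2398)
  (add (sub (add (add (sub (sub (sub (add (add (sub C x4586) x4564) x4576) x4606) x4534) x4912) x5560) x6532) x1672) x2402)
  (sub (sub (sub (add (add (sub (add (add (sub (add (add (sub C x4596) x4604) x4616) x4556) x4376) x4484) x4916) x5564) x6536) x1676) x216) x2404)
  (add (sub (add (add (sub (add (add (sub (sub (sub C x4592) x4608) x4560) x4380) x4488) x4920) x5568) x6540) x1680) x224)
  (sub (sub (sub (add (add (sub (add (add (sub (add (add (sub C x4606) x4592) x4616) x4586) x4388) x4496) x4928) x5576) x6548) x1688) x228) x2416)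
  (add (sub (add (add (sub (add (add (sub (sub (sub C x4604) x4612) x4588) x4390) x4498) x4930) x5578) x6550) x1690) x2420)
  (add (sub (add (add (sub (add (add (add (add (sub (add (add C x4612) x4616) x4596) x4536) x4572) x4392) x4500) x4932) x5580) x6552) x1692) x236)
  (add (sub (add (add (sub (add (add (add (add (sub (add (add C x4608) x4616) x4606) x4540) x4576) x4396) x4504) x4936) x5584) x6556) x1696) x2426)
  (sub (sub (sub (add (add (sub (add (add (add (add (add (add (add (add C x4608) x4612) x4592) x4604) x4544) x4580) x4400) x4508) x4940) x5588) x6560) x1700) x240) x2428)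
  (sub (sub (sub (sub (sub (add (add (add (add (sub (sub C x4624) x4628) x4658) x4694) x4730) x4838) x4460) x5108) x1706) x246) x2434)
  (add (sub (sub (sub (add (add (add (add (sub (sub C x4622) x4636) x4660) x4696) x4732) x4840) x4462) x5110) x1708) x2438)
  (sub (sub (sub (sub (sub (add (add (sub (sub (sub C x4632) x4622) x4646) x4736) x4844) x4466) x5114) x1712) x252) x2440)
  (add (sub (sub (sub (add (add (sub (sub (sub C x4628) x4638) x4650) x4740) x4848) x4470) x5118) x1716) x260)
  (add (sub (sub (sub (add (add (sub (sub (sub C x4638) x4624) x4672) x4744) x4852) x4474) x5122) x1720) x2450)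
  (add (sub (sub (sub (add (add (sub (sub (sub C x4636) x4632) x4674) x4746) x4854) x4476) x5124) x1722) x266)
  (sub (sub (sub (sub (sub (sub (sub (add (add (sub C x4650) x4658) x4670) x4628) x4700) x4484) x5132) x1730) x270) x2458)
  (add (sub (sub (sub (sub (sub (sub (sub C x4646) x4662) x4632) x4704) x4488) x5136) x1734) x278)
  (sub (sub (sub (sub (sub (sub (add (add (add (add (sub C x4660) x4646) x4670) x4622) x4694) x4712) x4496) x5144) x1742) x282) x2470)
  (add (sub (sub (sub (sub (add (add (sub (sub C x4658) x4666) x4624) x4696) x4714) x4498) x5146) x1744) x2474)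
  (add (sub (sub (sub (sub (sub (sub (add (add C x4666) x4670) x4650) x4680) x4716) x4500) x5148) x1746) x290)
  (add (sub (sub (sub (sub (sub (sub (add (add C x4662) x4670) x4660) x4684) x4720) x4504) x5152) x1750) x2480)
  (sub (sub (sub (sub (sub (sub (sub (add (add (add (add C x4662) x4666) x4646) x4658) x4688) x4724) x4508) x5156) x1754) x294) x2482)
  (add (sub (sub (sub (sub (sub (add (add (sub C x4674) x4684) x4696) x4636) x4780) x4510) x5158) x1756) x2486)
  (add (sub (sub (sub (sub (sub (sub (sub C x4672) x4680) x4638) x4782) x4512) x5160) x1758) x302)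
  (add (sub (sub (sub (sub (sub (sub (add (add C x4684) x4688) x4674) x4662) x4788) x4518) x5166) x1764) x308)
  (add (sub (sub (sub (sub (sub (add (add (add (add C x4680) x4688) x4672) x4696) x4666) x4792) x4522) x5170) x1768) x2498)
  (sub (sub (sub (sub (sub (sub (sub (sub (add (add C x4680) x4684) x4694) x4670) x4796) x4526) x5174) x1772) x312) x2500)
  (sub (sub (sub (sub (sub (sub (add (add (sub (sub C x4696) x4688) x4622) x4658) x4802) x4532) x5180) x1778) x318) x2506)
  (add (sub (sub (sub (sub (add (add (add (add (sub C x4694) x4672) x4684) x4624) x4660) x4804) x4534) x5182) x1780) x2510)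
  (sub (sub (sub (sub (add (add (sub (add (add (add (add (sub C x4704) x4712) x4724) x4736) x4772) x4646) x4376) x5024) x5186) x1784) x324) x2512)
  (add (sub (sub (add (add (sub (add (add (sub (sub C x4700) x4716) x4740) x4776) x4650) x4380) x5028) x5190) x1788) x332)
  (sub (sub (sub (sub (add (add (sub (sub (add (add (sub C x4714) x4700) x4724) x4730) x4658) x4388) x5036) x5198) x1796) x336) x2524)
  (add (sub (sub (add (add (sub (sub (sub (sub C x4712) x4720) x4732) x4660) x4390) x5038) x5200) x1798) x2528)
  (add (sub (sub (add (add (sub (sub (sub (add (add C x4720) x4724) x4704) x4752) x4662) x4392) x5040) x5202) x1800) x344)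
  (add (sub (sub (add (add (sub (sub (sub (add (add C x4716) x4724) x4714) x4756) x4666) x4396) x5044) x5206) x1804) x2534)
  (sub (sub (sub (sub (add (add (sub (sub (add (add (add (add C x4716) x4720) x4700) x4712) x4760) x4670) x4400) x5048) x5210) x1808) x348) x2536)
  (sub (sub (sub (sub (add (add (add (add (sub (sub (sub C x4732) x4736) x4712) x4622) x4838) x4406) x5054) x5216) x1814) x354) x2542)
  (add (sub (sub (add (add (add (add (sub (sub (sub C x4730) x4744) x4714) x4624) x4840) x4408) x5056) x5218) x1816) x2546)
  (sub (sub (sub (sub (add (add (add (add (add (add (sub (sub C x4740) x4730) x4700) x4772) x4628) x4844) x4412) x5060) x5222) x1820) x360) x2548)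
  (add (sub (sub (add (add (add (add (add (add (sub (sub C x4736) x4746) x4704) x4776) x4632) x4848) x4416) x5064) x5226) x1824) x368)
  (add (sub (sub (add (add (add (add (sub (sub (sub C x4746) x4732) x4762) x4636) x4852) x4420) x5068) x5230) x1828) x2558)
  (add (sub (sub (add (add (add (add (sub (sub (sub C x4744) x4740) x4764) x4638) x4854) x4422) x5070) x5232) x1830) x374)
  (add (sub (sub (add (add (sub (sub (add (add (add (add C x4756) x4760) x4764) x4776) x4716) x4806) x4428) x5076) x5238) x1836) x380)
  (add (sub (sub (add (add (sub (sub (sub (add (add C x4752) x4760) x4762) x4720) x4810) x4432) x5080) x5242) x1840) x2570)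
  (sub (sub (sub (sub (add (add (sub (sub (sub (add (add C x4752) x4756) x4772) x4724) x4814) x4436) x5084) x5246) x1844) x384) x2572)
  (add (sub (sub (add (add (sub (sub (sub (sub C x4764) x4756) x4744) x4816) x4438) x5086) x5248) x1846) x2576)
  (add (sub (sub (add (add (sub (sub (add (add (sub C x4762) x4752) x4776) x4746) x4818) x4440) x5088) x5250) x1848) x392)
  (sub (sub (sub (sub (add (add (sub (add (add (sub (sub C x4776) x4760) x4700) x4736) x4826) x4448) x5096) x5258) x1856) x396) x2584)
  (add (sub (sub (add (add (sub (add (add (add (add (sub C x4772) x4752) x4764) x4704) x4740) x4830) x4452) x5100) x5262) x1860) x404)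
  (add (sub (sub (sub (sub (add (add (add (add (sub C x4782) x4792) x4804) x4816) x4852) x4672) x4942) x5266) x1864) x2594)
  (add (sub (sub (sub (sub (add (add (sub (sub C x4780) x4788) x4818) x4854) x4674) x4944) x5268) x1866) x410)
  (add (sub (sub (sub (sub (sub (sub (add (add C x4792) x4796) x4782) x4806) x4680) x4950) x5274) x1872) x416)
  (add (sub (sub (sub (sub (sub (add (add (add (add C x4788) x4796) x4780) x4804) x4810) x4684) x4954) x5278) x1876) x2606)
  (sub (sub (sub (sub (sub (sub (sub (sub (add (add C x4788) x4792) x4802) x4814) x4688) x4958) x5282) x1880) x420) x2608)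
  (sub (sub (sub (sub (sub (sub (sub (sub (sub C x4804) x4796) x4838) x4694) x4964) x5288) x1886) x426) x2614)
  (add (sub (sub (sub (sub (sub (add (add (sub C x4802) x4780) x4792) x4840) x4696) x4966) x5290) x1888) x2618)
  (add (sub (sub (sub (sub (sub (add (add (add (add C x4810) x4814) x4818) x4830) x4788) x4752) x4968) x5292) x1890) x434)
  (add (sub (sub (sub (sub (sub (sub (add (add C x4806) x4814) x4816) x4792) x4756) x4972) x5296) x1894) x2624)
  (sub (sub (sub (sub (sub (sub (sub (sub (add (add C x4806) x4810) x4826) x4796) x4760) x4976) x5300) x1898) x438) x2626)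
  (add (sub (sub (sub (sub (add (add (sub (sub C x4818) x4810) x4780) x4852) x4762) x4978) x5302) x1900) x2630)
  (add (sub (sub (sub (sub (add (add (add (add (sub C x4816) x4806) x4830) x4782) x4854) x4764) x4980) x5304) x1902) x446)
  (sub (sub (sub (sub (sub (sub (sub (sub (sub C x4830) x4814) x4844) x4772) x4988) x5312) x1910) x450) x2638)
  (add (sub (sub (sub (sub (sub (add (add (sub C x4826) x4806) x4818) x4848) x4776) x4992) x5316) x1914) x458)
  (sub (sub (sub (sub (sub (add (add (sub (sub (sub C x4840) x4844) x4802) x4622) x4730) x5000) x5324) x1922) x462) x2650)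
  (add (sub (sub (sub (add (add (sub (sub (sub C x4838) x4852) x4804) x4624) x4732) x5002) x5326) x1924) x2654)
  (sub (sub (sub (sub (sub (add (add (sub (sub (sub C x4848) x4838) x4826) x4628) x4736) x5006) x5330) x1928) x468) x2656)
  (add (sub (sub (sub (add (add (sub (sub (sub C x4844) x4854) x4830) x4632) x4740) x5010) x5334) x1932) x476)
  (add (sub (sub (sub (add (add (add (add (sub (sub C x4854) x4840) x4780) x4816) x4636) x4744) x5014) x5338) x1936) x2666)
  (add (sub (sub (sub (add (add (add (add (sub (sub C x4852) x4848) x4782) x4818) x4638) x4746) x5016) x5340) x1938) x482)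
  (add (sub (sub (sub (add (add (add (add (add (add (add (add C x4864) x4868) x4872) x4884) x4896) x4932) x4968) x5076) x4536) x5832) x1944) x488)
  (add (sub (sub (sub (add (add (add (add (sub (add (add C x4860) x4868) x4870) x4900) x4936) x4972) x5080) x4540) x5836) x1948) x2678)
  (sub (sub (sub (sub (sub (add (add (add (add (sub (add (add C x4860) x4864) x4880) x4904) x4940) x4976) x5084) x4544) x5840) x1952) x492) x2680)
  (add (sub (sub (sub (add (add (sub (sub (sub C x4872) x4864) x4888) x4978) x5086) x4546) x5842) x1954) x2684)
  (add (sub (sub (sub (add (add (sub (add (add (sub C x4870) x4860) x4884) x4890) x4980) x5088) x4548) x5844) x1956) x500)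
  (sub (sub (sub (sub (sub (add (add (sub (sub (sub C x4884) x4868) x4916) x4988) x5096) x4556) x5852) x1964) x504) x2692)
  (add (sub (sub (sub (add (add (sub (add (add (sub C x4880) x4860) x4872) x4920) x4992) x5100) x4560) x5856) x1968) x512)
  (add (sub (sub (sub (sub (sub (add (add (sub C x4890) x4900) x4912) x4870) x4942) x4564) x5860) x1972) x2702)
  (add (sub (sub (sub (sub (sub (sub (sub C x4888) x4896) x4872) x4944) x4566) x5862) x1974) x518)
  (add (sub (sub (sub (sub (add (add (sub (add (add C x4900) x4904) x4890) x4860) x4932) x4950) x4572) x5868) x1980) x524)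
  (add (sub (sub (sub (sub (add (add (add (add (add (add C x4896) x4904) x4888) x4912) x4864) x4936) x4954) x4576) x5872) x1984) x2714)
  (sub (sub (sub (sub (sub (sub (add (add (sub (add (add C x4896) x4900) x4910) x4868) x4940) x4958) x4580) x5876) x1988) x528) x2716)
  (sub (sub (sub (sub (sub (sub (sub (sub (sub C x4912) x4904) x4928) x4964) x4586) x5882) x1994) x534) x2722)
  (add (sub (sub (sub (sub (sub (add (add (sub C x4910) x4888) x4900) x4930) x4966) x4588) x5884) x1996) x2726)
  (sub (sub (sub (sub (sub (sub (sub (add (add (sub C x4920) x4928) x4940) x4880) x5024) x4592) x5888) x2000) x540) x2728)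
  (add (sub (sub (sub (sub (sub (sub (sub C x4916) x4932) x4884) x5028) x4596) x5892) x2004) x548)
  (sub (sub (sub (sub (sub (sub (sub (add (add (sub C x4930) x4916) x4940) x4910) x5036) x4604) x5900) x2012) x552) x2740)
  (add (sub (sub (sub (sub (sub (sub (sub C x4928) x4936) x4912) x5038) x4606) x5902) x2014) x2744)
  (add (sub (sub (sub (sub (add (add (sub (add (add C x4936) x4940) x4920) x4860) x4896) x5040) x4608) x5904) x2016) x560)
  (add (sub (sub (sub (sub (add (add (sub (add (add C x4932) x4940) x4930) x4864) x4900) x5044) x4612) x5908) x2020) x2750)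
  (sub (sub (sub (sub (sub (sub (add (add (add (add (add (add C x4932) x4936) x4916) x4928) x4868) x4904) x5048) x4616) x5912) x2024) x564) x2752)
  (add (sub (sub (sub (sub (add (add (add (add (sub C x4944) x4954) x4966) x4978) x5014) x4888) x4780) x5914) x2026) x2756)
  (add (sub (sub (sub (sub (add (add (sub (sub C x4942) x4950) x4980) x5016) x4890) x4782) x5916) x2028) x572)
  (add (sub (sub (sub (sub (sub (sub (add (add C x4954) x4958) x4944) x4968) x4896) x4788) x5922) x2034) x578)
  (add (sub (sub (sub (sub (sub (add (add (add (add C x4950) x4958) x4942) x4966) x4972) x4900) x4792) x5926) x2038) x2768)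
  (sub (sub (sub (sub (sub (sub (sub (sub (add (add C x4950) x4954) x4964) x4976) x4904) x4796) x5930) x2042) x582) x2770)
  (sub (sub (sub (sub (sub (sub (sub (sub (sub C x4966) x4958) x5000) x4910) x4802) x5936) x2048) x588) x2776)
  (add (sub (sub (sub (sub (sub (add (add (sub C x4964) x4942) x4954) x5002) x4912) x4804) x5938) x2050) x2780)
  (add (sub (sub (sub (add (add (sub (add (add (add (add C x4972) x4976) x4980) x4992) x4950) x4860) x5076) x4806) x5940) x2052) x596)
  (add (sub (sub (sub (add (add (sub (sub (add (add C x4968) x4976) x4978) x4954) x4864) x5080) x4810) x5944) x2056) x2786)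
  (sub (sub (sub (sub (sub (add (add (sub (sub (add (add C x4968) x4972) x4988) x4958) x4868) x5084) x4814) x5948) x2060) x600) x2788)
  (add (sub (sub (sub (add (add (add (add (sub (sub C x4980) x4972) x4942) x5014) x4870) x5086) x4816) x5950) x2062) x2792)
  (add (sub (sub (sub (add (add (add (add (add (add (sub C x4978) x4968) x4992) x4944) x5016) x4872) x5088) x4818) x5952) x2064) x608)
  (sub (sub (sub (sub (sub (add (add (sub (sub (sub C x4992) x4976) x5006) x4880) x5096) x4826) x5960) x2072) x612) x2800)
  (add (sub (sub (sub (add (add (sub (add (add (sub C x4988) x4968) x4980) x5010) x4884) x5100) x4830) x5964) x2076) x620)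
  (sub (sub (sub (sub (sub (sub (sub (sub (sub C x5002) x5006) x4964) x5054) x4838) x5972) x2084) x624) x2812)
  (add (sub (sub (sub (sub (sub (sub (sub C x5000) x5014) x4966) x5056) x4840) x5974) x2086) x2816)
  (sub (sub (sub (sub (sub (sub (sub (sub (sub C x5010) x5000) x4988) x5060) x4844) x5978) x2090) x630) x2818)
  (add (sub (sub (sub (sub (sub (sub (sub C x5006) x5016) x4992) x5064) x4848) x5982) x2094) x638)
  (add (sub (sub (sub (sub (add (add (sub (sub C x5016) x5002) x4942) x4978) x5068) x4852) x5986) x2098) x2828)
  (add (sub (sub (sub (sub (add (add (sub (sub C x5014) x5010) x4944) x4980) x5070) x4854) x5988) x2100) x644)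
  (sub (sub (sub (sub (add (add (sub (add (add (add (add (sub C x5028) x5036) x5048) x5060) x5096) x4916) x4376) x4700) x5996) x2108) x648) x2836)
  (add (sub (sub (add (add (sub (add (add (sub (sub C x5024) x5040) x5064) x5100) x4920) x4380) x4704) x6000) x2112) x656)
  (sub (sub (sub (sub (add (add (sub (sub (add (add (sub C x5038) x5024) x5048) x5054) x4928) x4388) x4712) x6008) x2120) x660) x2848)
  (add (sub (sub (add (add (sub (sub (sub (sub C x5036) x5044) x5056) x4930) x4390) x4714) x6010) x2122) x2852)
  (add (sub (sub (add (add (sub (sub (sub (add (add C x5044) x5048) x5028) x5076) x4932) x4392) x4716) x6012) x2124) x668)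
  (add (sub (sub (add (add (sub (sub (sub (add (add C x5040) x5048) x5038) x5080) x4936) x4396) x4720) x6016) x2128) x2858)
  (sub (sub (sub (sub (add (add (sub (sub (add (add (add (add C x5040) x5044) x5024) x5036) x5084) x4940) x4400) x4724) x6020) x2132) x672) x2860)
  (sub (sub (sub (sub (add (add (sub (sub (sub (sub C x5056) x5060) x5036) x5000) x4406) x4730) x6026) x2138) x678) x2866)
  (add (sub (sub (add (add (sub (sub (sub (sub C x5054) x5068) x5038) x5002) x4408) x4732) x6028) x2140) x2870)
  (sub (sub (sub (sub (add (add (sub (add (add (sub (sub C x5064) x5054) x5024) x5096) x5006) x4412) x4736) x6032) x2144) x684) x2872)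
  (add (sub (sub (add (add (sub (add (add (sub (sub C x5060) x5070) x5028) x5100) x5010) x4416) x4740) x6036) x2148) x692)
  (add (sub (sub (add (add (sub (sub (sub (sub C x5070) x5056) x5086) x5014) x4420) x4744) x6040) x2152) x2882)
  (add (sub (sub (add (add (sub (sub (sub (sub C x5068) x5064) x5088) x5016) x4422) x4746) x6042) x2154) x698)
  (add (sub (sub (add (add (add (add (sub (add (add (add (add C x5080) x5084) x5088) x5100) x5040) x4860) x4968) x4428) x4752) x6048) x2160) x704)
  (add (sub (sub (add (add (add (add (sub (sub (add (add C x5076) x5084) x5086) x5044) x4864) x4972) x4432) x4756) x6052) x2164) x2894)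
  (sub (sub (sub (sub (add (add (add (add (sub (sub (add (add C x5076) x5080) x5096) x5048) x4868) x4976) x4436) x4760) x6056) x2168) x708) x2896)
  (add (sub (sub (add (add (add (add (sub (sub (sub C x5088) x5080) x5068) x4870) x4978) x4438) x4762) x6058) x2170) x2900)
  (add (sub (sub (add (add (add (add (sub (add (add (sub C x5086) x5076) x5100) x5070) x4872) x4980) x4440) x4764) x6060) x2172) x716)
  (sub (sub (sub (sub (add (add (add (add (add (add (sub (sub C x5100) x5084) x5024) x5060) x4880) x4988) x4448) x4772) x6068) x2180) x720) x2908)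
  (add (sub (sub (add (add (add (add (add (add (add (add (sub C x5096) x5076) x5088) x5028) x5064) x4884) x4992) x4452) x4776) x6072) x2184) x728)
  (sub (sub (sub (sub (add (add (add (add (add (add (sub (sub C x5110) x5114) x5144) x5180) x5216) x5324) x5432) x5756) x4622) x3650) x732) x2920)
  (add (sub (sub (add (add (add (add (add (add (sub (sub C x5108) x5122) x5146) x5182) x5218) x5326) x5434) x5758) x4624) x3652) x2924)
  (sub (sub (sub (sub (add (add (add (add (sub (sub (sub C x5118) x5108) x5132) x5222) x5330) x5438) x5762) x4628) x3656) x738) x2926)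
  (add (sub (sub (add (add (add (add (sub (sub (sub C x5114) x5124) x5136) x5226) x5334) x5442) x5766) x4632) x3660) x746)
  (add (sub (sub (add (add (add (add (sub (sub (sub C x5124) x5110) x5158) x5230) x5338) x5446) x5770) x4636) x3664) x2936)
  (add (sub (sub (add (add (add (add (sub (sub (sub C x5122) x5118) x5160) x5232) x5340) x5448) x5772) x4638) x3666) x752)
  (sub (sub (sub (sub (add (add (sub (sub (add (add (sub C x5136) x5144) x5156) x5114) x5186) x5456) x5780) x4646) x3674) x756) x2944)
  (add (sub (sub (add (add (sub (sub (sub (sub C x5132) x5148) x5118) x5190) x5460) x5784) x4650) x3678) x764)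
  (sub (sub (sub (sub (add (add (sub (add (add (add (add (sub C x5146) x5132) x5156) x5108) x5180) x5198) x5468) x5792) x4658) x3686) x768) x2956)
  (add (sub (sub (add (add (sub (add (add (sub (sub C x5144) x5152) x5110) x5182) x5200) x5470) x5794) x4660) x3688) x2960)
  (add (sub (sub (add (add (sub (sub (sub (add (add C x5152) x5156) x5136) x5166) x5202) x5472) x5796) x4662) x3690) x776)
  (add (sub (sub (add (add (sub (sub (sub (add (add C x5148) x5156) x5146) x5170) x5206) x5476) x5800) x4666) x3694) x2966)
  (sub (sub (sub (sub (add (add (sub (sub (add (add (add (add C x5148) x5152) x5132) x5144) x5174) x5210) x5480) x5804) x4670) x3698) x780) x2968)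
  (add (sub (sub (add (add (sub (sub (add (add (sub C x5160) x5170) x5182) x5122) x5266) x5482) x5806) x4672) x3700) x2972)
  (add (sub (sub (add (add (sub (sub (sub (sub C x5158) x5166) x5124) x5268) x5484) x5808) x4674) x3702) x788)
  (add (sub (sub (add (add (sub (sub (sub (add (add C x5170) x5174) x5160) x5148) x5274) x5490) x5814) x4680) x3708) x794)
  (add (sub (sub (add (add (sub (sub (add (add (add (add C x5166) x5174) x5158) x5182) x5152) x5278) x5494) x5818) x4684) x3712) x2984)
  (sub (sub (sub (sub (add (add (sub (sub (sub (add (add C x5166) x5170) x5180) x5156) x5282) x5498) x5822) x4688) x3716) x798) x2986)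
  (sub (sub (sub (sub (add (add (sub (add (add (sub (sub C x5182) x5174) x5108) x5144) x5288) x5504) x5828) x4694) x3722) x804) x2992)
  (add (sub (sub (add (add (sub (add (add (add (add (sub C x5180) x5158) x5170) x5110) x5146) x5290) x5506) x5830) x4696) x3724) x2996)
  (sub (sub (sub (sub (sub (sub (add (add (add (add (sub C x5190) x5198) x5210) x5222) x5258) x5132) x5348) x4700) x3728) x810) x2998)
  (add (sub (sub (sub (sub (add (add (sub (sub C x5186) x5202) x5226) x5262) x5136) x5352) x4704) x3732) x818)
  (sub (sub (sub (sub (sub (sub (sub (add (add (sub C x5200) x5186) x5210) x5216) x5144) x5360) x4712) x3740) x822) x3010)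
  (add (sub (sub (sub (sub (sub (sub (sub C x5198) x5206) x5218) x5146) x5362) x4714) x3742) x3014)
  (add (sub (sub (sub (sub (sub (sub (add (add C x5206) x5210) x5190) x5238) x5148) x5364) x4716) x3744) x830)
  (add (sub (sub (sub (sub (sub (sub (add (add C x5202) x5210) x5200) x5242) x5152) x5368) x4720) x3748) x3020)
  (sub (sub (sub (sub (sub (sub (sub (add (add (add (add C x5202) x5206) x5186) x5198) x5246) x5156) x5372) x4724) x3752) x834) x3022)
  (sub (sub (sub (sub (sub (add (add (sub (sub (sub C x5218) x5222) x5198) x5108) x5324) x5378) x4730) x3758) x840) x3028)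
  (add (sub (sub (sub (add (add (sub (sub (sub C x5216) x5230) x5200) x5110) x5326) x5380) x4732) x3760) x3032)
  (sub (sub (sub (sub (sub (add (add (add (add (sub (sub C x5226) x5216) x5186) x5258) x5114) x5330) x5384) x4736) x3764) x846) x3034)
  (add (sub (sub (sub (add (add (add (add (sub (sub C x5222) x5232) x5190) x5262) x5118) x5334) x5388) x4740) x3768) x854)
  (add (sub (sub (sub (add (add (sub (sub (sub C x5232) x5218) x5248) x5122) x5338) x5392) x4744) x3772) x3044)
  (add (sub (sub (sub (add (add (sub (sub (sub C x5230) x5226) x5250) x5124) x5340) x5394) x4746) x3774) x860)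
  (add (sub (sub (sub (sub (sub (add (add (add (add C x5242) x5246) x5250) x5262) x5202) x5292) x5400) x4752) x3780) x866)
  (add (sub (sub (sub (sub (sub (sub (add (add C x5238) x5246) x5248) x5206) x5296) x5404) x4756) x3784) x3056)
  (sub (sub (sub (sub (sub (sub (sub (sub (add (add C x5238) x5242) x5258) x5210) x5300) x5408) x4760) x3788) x870) x3058)
  (add (sub (sub (sub (sub (sub (sub (sub C x5250) x5242) x5230) x5302) x5410) x4762) x3790) x3062)
  (add (sub (sub (sub (sub (sub (add (add (sub C x5248) x5238) x5262) x5232) x5304) x5412) x4764) x3792) x878)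
  (sub (sub (sub (sub (sub (sub (add (add (sub (sub C x5262) x5246) x5186) x5222) x5312) x5420) x4772) x3800) x882) x3070)
  (add (sub (sub (sub (sub (add (add (add (add (sub C x5258) x5238) x5250) x5190) x5226) x5316) x5424) x4776) x3804) x890)
  (add (sub (sub (sub (sub (add (add (add (add (sub C x5268) x5278) x5290) x5302) x5338) x5158) x5590) x4780) x3808) x3080)
  (add (sub (sub (sub (sub (add (add (sub (sub C x5266) x5274) x5304) x5340) x5160) x5592) x4782) x3810) x896)
  (add (sub (sub (sub (sub (sub (sub (add (add C x5278) x5282) x5268) x5292) x5166) x5598) x4788) x3816) x902)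
  (add (sub (sub (sub (sub (sub (add (add (add (add C x5274) x5282) x5266) x5290) x5296) x5170) x5602) x4792) x3820) x3092)
  (sub (sub (sub (sub (sub (sub (sub (sub (add (add C x5274) x5278) x5288) x5300) x5174) x5606) x4796) x3824) x906) x3094)
  (sub (sub (sub (sub (sub (sub (sub (sub (sub C x5290) x5282) x5324) x5180) x5612) x4802) x3830) x912) x3100)
  (add (sub (sub (sub (sub (sub (add (add (sub C x5288) x5266) x5278) x5326) x5182) x5614) x4804) x3832) x3104)
  (add (sub (sub (sub (sub (sub (add (add (add (add C x5296) x5300) x5304) x5316) x5274) x5238) x5616) x4806) x3834) x920)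
  (add (sub (sub (sub (sub (sub (sub (add (add C x5292) x5300) x5302) x5278) x5242) x5620) x4810) x3838) x3110)
  (sub (sub (sub (sub (sub (sub (sub (sub (add (add C x5292) x5296) x5312) x5282) x5246) x5624) x4814) x3842) x924) x3112)
  (add (sub (sub (sub (sub (add (add (sub (sub C x5304) x5296) x5266) x5338) x5248) x5626) x4816) x3844) x3116)
  (add (sub (sub (sub (sub (add (add (add (add (sub C x5302) x5292) x5316) x5268) x5340) x5250) x5628) x4818) x3846) x932)
  (sub (sub (sub (sub (sub (sub (sub (sub (sub C x5316) x5300) x5330) x5258) x5636) x4826) x3854) x936) x3124)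
  (add (sub (sub (sub (sub (sub (add (add (sub C x5312) x5292) x5304) x5334) x5262) x5640) x4830) x3858) x944)
  (sub (sub (sub (sub (sub (add (add (sub (sub (sub C x5326) x5330) x5288) x5108) x5216) x5648) x4838) x3866) x948) x3136)
  (add (sub (sub (sub (add (add (sub (sub (sub C x5324) x5338) x5290) x5110) x5218) x5650) x4840) x3868) x3140)
  (sub (sub (sub (sub (sub (add (add (sub (sub (sub C x5334) x5324) x5312) x5114) x5222) x5654) x4844) x3872) x954) x3142)
  (add (sub (sub (sub (add (add (sub (sub (sub C x5330) x5340) x5316) x5118) x5226) x5658) x4848) x3876) x962)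
  (add (sub (sub (sub (add (add (add (add (sub (sub C x5340) x5326) x5266) x5302) x5122) x5230) x5662) x4852) x3880) x3152)
  (add (sub (sub (sub (add (add (add (add (sub (sub C x5338) x5334) x5268) x5304) x5124) x5232) x5664) x4854) x3882) x968)
  (sub (sub (sub (add (add (sub (add (add (add (add (add (add (sub C x5352) x5360) x5372) x5384) x5420) x5456) x5564) x5186) x4376) x6320) x3890) x972) x3160)
  (add (sub (add (add (sub (add (add (add (add (sub (sub C x5348) x5364) x5388) x5424) x5460) x5568) x5190) x4380) x6324) x3894) x980)
  (sub (sub (sub (add (add (sub (add (add (sub (add (add (sub C x5362) x5348) x5372) x5378) x5468) x5576) x5198) x4388) x6332) x3902) x984) x3172)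
  (add (sub (add (add (sub (add (add (sub (sub (sub C x5360) x5368) x5380) x5470) x5578) x5200) x4390) x6334) x3904) x3176)
  (add (sub (add (add (sub (add (add (sub (sub (add (add C x5368) x5372) x5352) x5400) x5472) x5580) x5202) x4392) x6336) x3906) x992)
  (add (sub (add (add (sub (add (add (sub (sub (add (add C x5364) x5372) x5362) x5404) x5476) x5584) x5206) x4396) x6340) x3910) x3182)
  (sub (sub (sub (add (add (sub (add (add (sub (add (add (add (add C x5364) x5368) x5348) x5360) x5408) x5480) x5588) x5210) x4400) x6344) x3914) x996) x3184)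
  (sub (sub (sub (add (add (sub (sub (sub (sub (sub C x5380) x5384) x5360) x5432) x5216) x4406) x6350) x3920) x1002) x3190)
  (add (sub (add (add (sub (sub (sub (sub (sub C x5378) x5392) x5362) x5434) x5218) x4408) x6352) x3922) x3194)
  (sub (sub (sub (add (add (sub (sub (add (add (sub (sub C x5388) x5378) x5348) x5420) x5438) x5222) x4412) x6356) x3926) x1008) x3196)
  (add (sub (add (add (sub (sub (add (add (sub (sub C x5384) x5394) x5352) x5424) x5442) x5226) x4416) x6360) x3930) x1016)
  (add (sub (add (add (sub (sub (sub (sub (sub C x5394) x5380) x5410) x5446) x5230) x4420) x6364) x3934) x3206)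
  (add (sub (add (add (sub (sub (sub (sub (sub C x5392) x5388) x5412) x5448) x5232) x4422) x6366) x3936) x1022)
  (add (sub (add (add (sub (sub (sub (add (add (add (add C x5404) x5408) x5412) x5424) x5364) x5508) x5238) x4428) x6372) x3942) x1028)
  (add (sub (add (add (sub (sub (sub (sub (add (add C x5400) x5408) x5410) x5368) x5512) x5242) x4432) x6376) x3946) x3218)
  (sub (sub (sub (add (add (sub (sub (sub (sub (add (add C x5400) x5404) x5420) x5372) x5516) x5246) x4436) x6380) x3950) x1032) x3220)
  (add (sub (add (add (sub (sub (sub (sub (sub C x5412) x5404) x5392) x5518) x5248) x4438) x6382) x3952) x3224)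
  (add (sub (add (add (sub (sub (sub (add (add (sub C x5410) x5400) x5424) x5394) x5520) x5250) x4440) x6384) x3954) x1040)
  (sub (sub (sub (add (add (sub (sub (add (add (sub (sub C x5424) x5408) x5348) x5384) x5528) x5258) x4448) x6392) x3962) x1044) x3232)
  (add (sub (add (add (sub (sub (add (add (add (add (sub C x5420) x5400) x5412) x5352) x5388) x5532) x5262) x4452) x6396) x3966) x1052)
  (sub (sub (sub (add (add (add (add (sub (add (add (sub (sub C x5434) x5438) x5468) x5504) x5378) x5108) x5756) x4460) x6404) x3974) x1056) x3244)
  (add (sub (add (add (add (add (sub (add (add (sub (sub C x5432) x5446) x5470) x5506) x5380) x5110) x5758) x4462) x6406) x3976) x3248)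
  (sub (sub (sub (add (add (add (add (sub (sub (sub (sub C x5442) x5432) x5456) x5384) x5114) x5762) x4466) x6410) x3980) x1062) x3250)
  (add (sub (add (add (add (add (sub (sub (sub (sub C x5438) x5448) x5460) x5388) x5118) x5766) x4470) x6414) x3984) x1070)
  (add (sub (add (add (add (add (sub (sub (sub (sub C x5448) x5434) x5482) x5392) x5122) x5770) x4474) x6418) x3988) x3260)
  (add (sub (add (add (add (add (sub (sub (sub (sub C x5446) x5442) x5484) x5394) x5124) x5772) x4476) x6420) x3990) x1076)
  (sub (sub (sub (add (add (add (add (add (add (sub (add (add (sub C x5460) x5468) x5480) x5438) x5348) x5564) x5132) x5780) x4484) x6428) x3998) x1080) x3268)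
  (add (sub (add (add (add (add (add (add (sub (sub (sub C x5456) x5472) x5442) x5352) x5568) x5136) x5784) x4488) x6432) x4002) x1088)
  (sub (sub (sub (add (add (add (add (add (add (add (add (add (add (sub C x5470) x5456) x5480) x5432) x5504) x5360) x5576) x5144) x5792) x4496) x6440) x4010) x1092) x3280)
  (add (sub (add (add (add (add (add (add (add (add (sub (sub C x5468) x5476) x5434) x5506) x5362) x5578) x5146) x5794) x4498) x6442) x4012) x3284)
  (add (sub (add (add (add (add (add (add (sub (sub (add (add C x5476) x5480) x5460) x5490) x5364) x5580) x5148) x5796) x4500) x6444) x4014) x1100)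
  (add (sub (add (add (add (add (add (add (sub (sub (add (add C x5472) x5480) x5470) x5494) x5368) x5584) x5152) x5800) x4504) x6448) x4018) x3290)
  (sub (sub (sub (add (add (add (add (add (add (sub (add (add (add (add C x5472) x5476) x5456) x5468) x5498) x5372) x5588) x5156) x5804) x4508) x6452) x4022) x1104) x3292)
  (add (sub (add (add (add (add (sub (sub (add (add (sub C x5484) x5494) x5506) x5446) x5536) x5158) x5806) x4510) x6454) x4024) x3296)
  (add (sub (add (add (add (add (sub (sub (sub (sub C x5482) x5490) x5448) x5538) x5160) x5808) x4512) x6456) x4026) x1112)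
  (add (sub (add (add (add (add (sub (sub (sub (add (add C x5494) x5498) x5484) x5472) x5544) x5166) x5814) x4518) x6462) x4032) x1118)
  (add (sub (add (add (add (add (sub (sub (add (add (add (add C x5490) x5498) x5482) x5506) x5476) x5548) x5170) x5818) x4522) x6466) x4036) x3308)
  (sub (sub (sub (add (add (add (add (sub (sub (sub (add (add C x5490) x5494) x5504) x5480) x5552) x5174) x5822) x4526) x6470) x4040) x1122) x3310)
  (sub (sub (sub (add (add (add (add (sub (add (add (sub (sub C x5506) x5498) x5432) x5468) x5558) x5180) x5828) x4532) x6476) x4046) x1128) x3316)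
  (add (sub (add (add (add (add (sub (add (add (add (add (sub C x5504) x5482) x5494) x5434) x5470) x5560) x5182) x5830) x4534) x6478) x4048) x3320)
  (add (sub (add (add (sub (sub (add (add (add (add (add (add C x5512) x5516) x5520) x5532) x5544) x5580) x5400) x5670) x4536) x6480) x4050) x1136)
  (add (sub (add (add (sub (sub (add (add (sub (add (add C x5508) x5516) x5518) x5548) x5584) x5404) x5674) x4540) x6484) x4054) x3326)
  (sub (sub (sub (add (add (sub (sub (add (add (sub (add (add C x5508) x5512) x5528) x5552) x5588) x5408) x5678) x4544) x6488) x4058) x1140) x3328)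
  (add (sub (add (add (sub (sub (sub (sub (sub C x5520) x5512) x5536) x5410) x5680) x4546) x6490) x4060) x3332)
  (add (sub (add (add (sub (sub (sub (add (add (sub C x5518) x5508) x5532) x5538) x5412) x5682) x4548) x6492) x4062) x1148)
  (sub (sub (sub (add (add (sub (sub (sub (sub (sub C x5532) x5516) x5564) x5420) x5690) x4556) x6500) x4070) x1152) x3340)
  (add (sub (add (add (sub (sub (sub (add (add (sub C x5528) x5508) x5520) x5568) x5424) x5694) x4560) x6504) x4074) x1160)
  (add (sub (add (add (sub (sub (sub (add (add (sub C x5538) x5548) x5560) x5518) x5482) x5698) x4564) x6508) x4078) x3350)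
  (add (sub (add (add (sub (sub (sub (sub (sub C x5536) x5544) x5520) x5484) x5700) x4566) x6510) x4080) x1166)
  (add (sub (add (add (sub (sub (add (add (sub (add (add C x5548) x5552) x5538) x5508) x5580) x5490) x5706) x4572) x6516) x4086) x1172)
  (add (sub (add (add (sub (sub (add (add (add (add (add (add C x5544) x5552) x5536) x5560) x5512) x5584) x5494) x5710) x4576) x6520) x4090) x3362)
  (sub (sub (sub (add (add (sub (sub (add (add (sub (add (add C x5544) x5548) x5558) x5516) x5588) x5498) x5714) x4580) x6524) x4094) x1176) x3364)
  (sub (sub (sub (add (add (sub (sub (sub (sub (sub C x5560) x5552) x5576) x5504) x5720) x4586) x6530) x4100) x1182) x3370)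
  (add (sub (add (add (sub (sub (sub (add (add (sub C x5558) x5536) x5548) x5578) x5506) x5722) x4588) x6532) x4102) x3374)
  (sub (sub (sub (add (add (sub (add (add (sub (add (add (sub C x5568) x5576) x5588) x5528) x5348) x5456) x5726) x4592) x6536) x4106) x1188) x3376)
  (add (sub (add (add (sub (add (add (sub (sub (sub C x5564) x5580) x5532) x5352) x5460) x5730) x4596) x6540) x4110) x1196)
  (sub (sub (sub (add (add (sub (add (add (sub (add (add (sub C x5578) x5564) x5588) x5558) x5360) x5468) x5738) x4604) x6548) x4118) x1200) x3388)
  (add (sub (add (add (sub (add (add (sub (sub (sub C x5576) x5584) x5560) x5362) x5470) x5740) x4606) x6550) x4120) x3392)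
  (add (sub (add (add (sub (add (add (add (add (sub (add (add C x5584) x5588) x5568) x5508) x5544) x5364) x5472) x5742) x4608) x6552) x4122) x1208)
  (add (sub (add (add (sub (add (add (add (add (sub (add (add C x5580) x5588) x5578) x5512) x5548) x5368) x5476) x5746) x4612) x6556) x4126) x3398)
  (sub (sub (sub (add (add (sub (add (add (add (add (add (add (add (add C x5580) x5584) x5564) x5576) x5516) x5552) x5372) x5480) x5750) x4616) x6560) x4130) x1212) x3400)
  (add (sub (sub (sub (add (add (add (add (add (add (sub C x5592) x5602) x5614) x5626) x5662) x5698) x5806) x5266) x6076) x4132) x3404)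
  (add (sub (sub (sub (add (add (add (add (sub (sub C x5590) x5598) x5628) x5664) x5700) x5808) x5268) x6078) x4134) x1220)
  (add (sub (sub (sub (add (add (sub (sub (add (add C x5602) x5606) x5592) x5616) x5706) x5814) x5274) x6084) x4140) x1226)
  (add (sub (sub (sub (add (add (sub (add (add (add (add C x5598) x5606) x5590) x5614) x5620) x5710) x5818) x5278) x6088) x4144) x3416)
  (sub (sub (sub (sub (sub (add (add (sub (sub (add (add C x5598) x5602) x5612) x5624) x5714) x5822) x5282) x6092) x4148) x1230) x3418)
  (sub (sub (sub (sub (sub (add (add (sub (sub (sub C x5614) x5606) x5648) x5720) x5828) x5288) x6098) x4154) x1236) x3424)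
  (add (sub (sub (sub (add (add (sub (add (add (sub C x5612) x5590) x5602) x5650) x5722) x5830) x5290) x6100) x4156) x3428)
  (add (sub (sub (sub (sub (sub (add (add (add (add C x5620) x5624) x5628) x5640) x5598) x5670) x5292) x6102) x4158) x1244)
  (add (sub (sub (sub (sub (sub (sub (add (add C x5616) x5624) x5626) x5602) x5674) x5296) x6106) x4162) x3434)
  (sub (sub (sub (sub (sub (sub (sub (sub (add (add C x5616) x5620) x5636) x5606) x5678) x5300) x6110) x4166) x1248) x3436)
  (add (sub (sub (sub (sub (add (add (sub (sub C x5628) x5620) x5590) x5662) x5680) x5302) x6112) x4168) x3440)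
  (add (sub (sub (sub (sub (add (add (add (add (sub C x5626) x5616) x5640) x5592) x5664) x5682) x5304) x6114) x4170) x1256)
  (sub (sub (sub (sub (sub (sub (sub (sub (sub C x5640) x5624) x5654) x5690) x5312) x6122) x4178) x1260) x3448)
  (add (sub (sub (sub (sub (sub (add (add (sub C x5636) x5616) x5628) x5658) x5694) x5316) x6126) x4182) x1268)
  (sub (sub (sub (sub (sub (sub (sub (sub (sub C x5650) x5654) x5612) x5756) x5324) x6134) x4190) x1272) x3460)
  (add (sub (sub (sub (sub (sub (sub (sub C x5648) x5662) x5614) x5758) x5326) x6136) x4192) x3464)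
  (sub (sub (sub (sub (sub (sub (sub (sub (sub C x5658) x5648) x5636) x5762) x5330) x6140) x4196) x1278) x3466)
  (add (sub (sub (sub (sub (sub (sub (sub C x5654) x5664) x5640) x5766) x5334) x6144) x4200) x1286)
  (add (sub (sub (sub (sub (add (add (sub (sub C x5664) x5650) x5590) x5626) x5770) x5338) x6148) x4204) x3476)
  (add (sub (sub (sub (sub (add (add (sub (sub C x5662) x5658) x5592) x5628) x5772) x5340) x6150) x4206) x1292)
  (add (sub (sub (sub (sub (add (add (add (add (add (add C x5674) x5678) x5682) x5694) x5706) x5742) x5616) x5508) x6156) x4212) x1298)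
  (add (sub (sub (sub (sub (add (add (sub (add (add C x5670) x5678) x5680) x5710) x5746) x5620) x5512) x6160) x4216) x3488)
  (sub (sub (sub (sub (sub (sub (add (add (sub (add (add C x5670) x5674) x5690) x5714) x5750) x5624) x5516) x6164) x4220) x1302) x3490)
  (add (sub (sub (sub (sub (sub (sub (sub C x5682) x5674) x5698) x5626) x5518) x6166) x4222) x3494)
  (add (sub (sub (sub (sub (sub (add (add (sub C x5680) x5670) x5694) x5700) x5628) x5520) x6168) x4224) x1310)
  (sub (sub (sub (sub (sub (sub (sub (sub (sub C x5694) x5678) x5726) x5636) x5528) x6176) x4232) x1314) x3502)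
  (add (sub (sub (sub (sub (sub (add (add (sub C x5690) x5670) x5682) x5730) x5640) x5532) x6180) x4236) x1322)
  (add (sub (sub (sub (add (add (sub (add (add (sub C x5700) x5710) x5722) x5680) x5590) x5806) x5536) x6184) x4240) x3512)
  (add (sub (sub (sub (add (add (sub (sub (sub C x5698) x5706) x5682) x5592) x5808) x5538) x6186) x4242) x1328)
  (add (sub (sub (sub (add (add (add (add (sub (add (add C x5710) x5714) x5700) x5670) x5742) x5598) x5814) x5544) x6192) x4248) x1334)
  (add (sub (sub (sub (add (add (add (add (add (add (add (add C x5706) x5714) x5698) x5722) x5674) x5746) x5602) x5818) x5548) x6196) x4252) x3524)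
  (sub (sub (sub (sub (sub (add (add (add (add (sub (add (add C x5706) x5710) x5720) x5678) x5750) x5606) x5822) x5552) x6200) x4256) x1338) x3526)
  (sub (sub (sub (sub (sub (add (add (sub (sub (sub C x5722) x5714) x5738) x5612) x5828) x5558) x6206) x4262) x1344) x3532)
  (add (sub (sub (sub (add (add (sub (add (add (sub C x5720) x5698) x5710) x5740) x5614) x5830) x5560) x6208) x4264) x3536)
  (sub (sub (sub (sub (sub (sub (sub (add (add (sub C x5730) x5738) x5750) x5690) x5780) x5564) x6212) x4268) x1350) x3538)
  (add (sub (sub (sub (sub (sub (sub (sub C x5726) x5742) x5694) x5784) x5568) x6216) x4272) x1358)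
  (sub (sub (sub (sub (sub (sub (sub (add (add (sub C x5740) x5726) x5750) x5720) x5792) x5576) x6224) x4280) x1362) x3550)
  (add (sub (sub (sub (sub (sub (sub (sub C x5738) x5746) x5722) x5794) x5578) x6226) x4282) x3554)
  (add (sub (sub (sub (sub (add (add (sub (add (add C x5746) x5750) x5730) x5670) x5706) x5796) x5580) x6228) x4284) x1370)
  (add (sub (sub (sub (sub (add (add (sub (add (add C x5742) x5750) x5740) x5674) x5710) x5800) x5584) x6232) x4288) x3560)
  (sub (sub (sub (sub (sub (sub (add (add (add (add (add (add C x5742) x5746) x5726) x5738) x5678) x5714) x5804) x5588) x6236) x4292) x1374) x3562)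
  (sub (sub (sub (sub (add (add (sub (add (add (sub (sub C x5758) x5762) x5792) x5828) x5648) x5108) x5432) x6242) x4298) x1380) x3568)
  (add (sub (sub (add (add (sub (add (add (sub (sub C x5756) x5770) x5794) x5830) x5650) x5110) x5434) x6244) x4300) x3572)
  (sub (sub (sub (sub (add (add (sub (sub (sub (sub C x5766) x5756) x5780) x5654) x5114) x5438) x6248) x4304) x1386) x3574)
  (add (sub (sub (add (add (sub (sub (sub (sub C x5762) x5772) x5784) x5658) x5118) x5442) x6252) x4308) x1394)
  (add (sub (sub (add (add (sub (sub (sub (sub C x5772) x5758) x5806) x5662) x5122) x5446) x6256) x4312) x3584)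
  (add (sub (sub (add (add (sub (sub (sub (sub C x5770) x5766) x5808) x5664) x5124) x5448) x6258) x4314) x1400)
  (sub (sub (sub (sub (add (add (sub (sub (add (add (sub C x5784) x5792) x5804) x5762) x5726) x5132) x5456) x6266) x4322) x1404) x3592)
  (add (sub (sub (add (add (sub (sub (sub (sub C x5780) x5796) x5766) x5730) x5136) x5460) x6270) x4326) x1412)
  (sub (sub (sub (sub (add (add (sub (add (add (add (add (sub C x5794) x5780) x5804) x5756) x5828) x5738) x5144) x5468) x6278) x4334) x1416) x3604)
  (add (sub (sub (add (add (sub (add (add (sub (sub C x5792) x5800) x5758) x5830) x5740) x5146) x5470) x6280) x4336) x3608)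
  (add (sub (sub (add (add (sub (sub (sub (add (add C x5800) x5804) x5784) x5814) x5742) x5148) x5472) x6282) x4338) x1424)
  (add (sub (sub (add (add (sub (sub (sub (add (add C x5796) x5804) x5794) x5818) x5746) x5152) x5476) x6286) x4342) x3614)
  (sub (sub (sub (sub (add (add (sub (sub (add (add (add (add C x5796) x5800) x5780) x5792) x5822) x5750) x5156) x5480) x6290) x4346) x1428) x3616)
  (add (sub (sub (add (add (add (add (sub (add (add (sub C x5808) x5818) x5830) x5770) x5590) x5698) x5158) x5482) x6292) x4348) x3620)
  (add (sub (sub (add (add (add (add (sub (sub (sub C x5806) x5814) x5772) x5592) x5700) x5160) x5484) x6294) x4350) x1436)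
  (add (sub (sub (add (add (add (add (sub (sub (add (add C x5818) x5822) x5808) x5796) x5598) x5706) x5166) x5490) x6300) x4356) x1442)
  (add (sub (sub (add (add (add (add (sub (add (add (add (add C x5814) x5822) x5806) x5830) x5800) x5602) x5710) x5170) x5494) x6304) x4360) x3632)
  (sub (sub (sub (sub (add (add (add (add (sub (sub (add (add C x5814) x5818) x5828) x5804) x5606) x5714) x5174) x5498) x6308) x4364) x1446) x3634)
  (sub (sub (sub (sub (add (add (add (add (add (add (sub (sub C x5830) x5822) x5756) x5792) x5612) x5720) x5180) x5504) x6314) x4370) x1452) x3640)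
  (add (sub (sub (add (add (add (add (add (add (add (add (sub C x5828) x5806) x5818) x5758) x5794) x5614) x5722) x5182) x5506) x6316) x4372) x3644)
  (add (add (add (sub (add (add (add (add (add (add (add (add (add (add C x5836) x5840) x5844) x5856) x5868) x5904) x5940) x6048) x6156) x6480) x4860) x0) x2916) x1460)
  (add (add (add (sub (add (add (add (add (add (add (sub (add (add C x5832) x5840) x5842) x5872) x5908) x5944) x6052) x6160) x6484) x4864) x4) x2920) x3650)
  (sub (sub (add (add (sub (add (add (add (add (add (add (sub (add (add C x5832) x5836) x5852) x5876) x5912) x5948) x6056) x6164) x6488) x4868) x8) x2924) x1464) x3652)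
  (add (add (add (sub (add (add (add (add (sub (sub (sub C x5844) x5836) x5860) x5950) x6058) x6166) x6490) x4870) x10) x2926) x3656)
  (add (add (add (sub (add (add (add (add (sub (add (add (sub C x5842) x5832) x5856) x5862) x5952) x6060) x6168) x6492) x4872) x12) x2928) x1472)
  (sub (sub (add (add (sub (add (add (add (add (sub (sub (sub C x5856) x5840) x5888) x5960) x6068) x6176) x6500) x4880) x20) x2936) x1476) x3664)
  (add (add (add (sub (add (add (add (add (sub (add (add (sub C x5852) x5832) x5844) x5892) x5964) x6072) x6180) x6504) x4884) x24) x2940) x1484)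
  (add (add (add (sub (add (add (sub (sub (add (add (sub C x5862) x5872) x5884) x5842) x5914) x6184) x6508) x4888) x28) x2944) x3674)
  (add (add (add (sub (add (add (sub (sub (sub (sub C x5860) x5868) x5844) x5916) x6186) x6510) x4890) x30) x2946) x1490)
  (add (add (add (sub (add (add (sub (add (add (sub (add (add C x5872) x5876) x5862) x5832) x5904) x5922) x6192) x6516) x4896) x36) x2952) x1496)
  (add (add (add (sub (add (add (sub (add (add (add (add (add (add C x5868) x5876) x5860) x5884) x5836) x5908) x5926) x6196) x6520) x4900) x40) x2956) x3686)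
  (sub (sub (add (add (sub (add (add (sub (add (add (sub (add (add C x5868) x5872) x5882) x5840) x5912) x5930) x6200) x6524) x4904) x44) x2960) x1500) x3688)
  (sub (sub (add (add (sub (add (add (sub (sub (sub (sub C x5884) x5876) x5900) x5936) x6206) x6530) x4910) x50) x2966) x1506) x3694)
  (add (add (add (sub (add (add (sub (sub (add (add (sub C x5882) x5860) x5872) x5902) x5938) x6208) x6532) x4912) x52) x2968) x3698)
  (sub (sub (add (add (sub (add (add (sub (sub (add (add (sub C x5892) x5900) x5912) x5852) x5996) x6212) x6536) x4916) x56) x2972) x1512) x3700)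
  (add (add (add (sub (add (add (sub (sub (sub (sub C x5888) x5904) x5856) x6000) x6216) x6540) x4920) x60) x2976) x1520)
  (sub (sub (add (add (sub (add (add (sub (sub (add (add (sub C x5902) x5888) x5912) x5882) x6008) x6224) x6548) x4928) x68) x2984) x1524) x3712)
  (add (add (add (sub (add (add (sub (sub (sub (sub C x5900) x5908) x5884) x6010) x6226) x6550) x4930) x70) x2986) x3716)
  (add (add (add (sub (add (add (sub (add (add (sub (add (add C x5908) x5912) x5892) x5832) x5868) x6012) x6228) x6552) x4932) x72) x2988) x1532)
  (add (add (add (sub (add (add (sub (add (add (sub (add (add C x5904) x5912) x5902) x5836) x5872) x6016) x6232) x6556) x4936) x76) x2992) x3722)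
  (sub (sub (add (add (sub (add (add (sub (add (add (add (add (add (add C x5904) x5908) x5888) x5900) x5840) x5876) x6020) x6236) x6560) x4940) x80) x2996) x1536) x3724)
  (add (add (add (sub (sub (sub (add (add (add (add (sub C x5916) x5926) x5938) x5950) x5986) x5860) x6076) x4942) x82) x2998) x3728)
  (add (add (add (sub (sub (sub (add (add (sub (sub C x5914) x5922) x5952) x5988) x5862) x6078) x4944) x84) x3000) x1544)
  (add (add (add (sub (sub (sub (sub (sub (add (add C x5926) x5930) x5916) x5940) x5868) x6084) x4950) x90) x3006) x1550)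
  (add (add (add (sub (sub (sub (sub (add (add (add (add C x5922) x5930) x5914) x5938) x5944) x5872) x6088) x4954) x94) x3010) x3740)
  (sub (sub (add (add (sub (sub (sub (sub (sub (add (add C x5922) x5926) x5936) x5948) x5876) x6092) x4958) x98) x3014) x1554) x3742)
  (sub (sub (add (add (sub (sub (sub (sub (sub (sub C x5938) x5930) x5972) x5882) x6098) x4964) x104) x3020) x1560) x3748)
  (add (add (add (sub (sub (sub (sub (add (add (sub C x5936) x5914) x5926) x5974) x5884) x6100) x4966) x106) x3022) x3752)
  (add (add (add (sub (sub (add (add (sub (add (add (add (add C x5944) x5948) x5952) x5964) x5922) x5832) x6048) x6102) x4968) x108) x3024) x1568)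
  (add (add (add (sub (sub (add (add (sub (sub (add (add C x5940) x5948) x5950) x5926) x5836) x6052) x6106) x4972) x112) x3028) x3758)
  (sub (sub (add (add (sub (sub (add (add (sub (sub (add (add C x5940) x5944) x5960) x5930) x5840) x6056) x6110) x4976) x116) x3032) x1572) x3760)
  (add (add (add (sub (sub (add (add (add (add (sub (sub C x5952) x5944) x5914) x5986) x5842) x6058) x6112) x4978) x118) x3034) x3764)
  (add (add (add (sub (sub (add (add (add (add (add (add (sub C x5950) x5940) x5964) x5916) x5988) x5844) x6060) x6114) x4980) x120) x3036) x1580)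
  (sub (sub (add (add (sub (sub (add (add (sub (sub (sub C x5964) x5948) x5978) x5852) x6068) x6122) x4988) x128) x3044) x1584) x3772)
  (add (add (add (sub (sub (add (add (sub (add (add (sub C x5960) x5940) x5952) x5982) x5856) x6072) x6126) x4992) x132) x3048) x1592)
  (sub (sub (add (add (sub (sub (sub (sub (sub (sub C x5974) x5978) x5936) x6026) x6134) x5000) x140) x3056) x1596) x3784)
  (add (add (add (sub (sub (sub (sub (sub (sub C x5972) x5986) x5938) x6028) x6136) x5002) x142) x3058) x3788)
  (sub (sub (add (add (sub (sub (sub (sub (sub (sub C x5982) x5972) x5960) x6032) x6140) x5006) x146) x3062) x1602) x3790)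
  (add (add (add (sub (sub (sub (sub (sub (sub C x5978) x5988) x5964) x6036) x6144) x5010) x150) x3066) x1610)
  (add (add (add (sub (sub (sub (add (add (sub (sub C x5988) x5974) x5914) x5950) x6040) x6148) x5014) x154) x3070) x3800)
  (add (add (add (sub (sub (sub (add (add (sub (sub C x5986) x5982) x5916) x5952) x6042) x6150) x5016) x156) x3072) x1616)
  (sub (sub (add (add (sub (sub (sub (add (add (add (add (sub C x6000) x6008) x6020) x6032) x6068) x5888) x6320) x5024) x164) x3080) x1620) x3808)
  (add (add (add (sub (sub (sub (add (add (sub (sub C x5996) x6012) x6036) x6072) x5892) x6324) x5028) x168) x3084) x1628)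
  (sub (sub (add (add (sub (sub (sub (sub (add (add (sub C x6010) x5996) x6020) x6026) x5900) x6332) x5036) x176) x3092) x1632) x3820)
  (add (add (add (sub (sub (sub (sub (sub (sub C x6008) x6016) x6028) x5902) x6334) x5038) x178) x3094) x3824)
  (add (add (add (sub (sub (sub (sub (sub (add (add C x6016) x6020) x6000) x6048) x5904) x6336) x5040) x180) x3096) x1640)
  (add (add (add (sub (sub (sub (sub (sub (add (add C x6012) x6020) x6010) x6052) x5908) x6340) x5044) x184) x3100) x3830)
  (sub (sub (add (add (sub (sub (sub (sub (add (add (add (add C x6012) x6016) x5996) x6008) x6056) x5912) x6344) x5048) x188) x3104) x1644) x3832)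
  (sub (sub (add (add (sub (sub (sub (sub (sub (sub C x6028) x6032) x6008) x5972) x6350) x5054) x194) x3110) x1650) x3838)
  (add (add (add (sub (sub (sub (sub (sub (sub C x6026) x6040) x6010) x5974) x6352) x5056) x196) x3112) x3842)
  (sub (sub (add (add (sub (sub (sub (add (add (sub (sub C x6036) x6026) x5996) x6068) x5978) x6356) x5060) x200) x3116) x1656) x3844)
  (add (add (add (sub (sub (sub (add (add (sub (sub C x6032) x6042) x6000) x6072) x5982) x6360) x5064) x204) x3120) x1664)
  (add (add (add (sub (sub (sub (sub (sub (sub C x6042) x6028) x6058) x5986) x6364) x5068) x208) x3124) x3854)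
  (add (add (add (sub (sub (sub (sub (sub (sub C x6040) x6036) x6060) x5988) x6366) x5070) x210) x3126) x1670)
  (add (add (add (sub (sub (add (add (sub (add (add (add (add C x6052) x6056) x6060) x6072) x6012) x5832) x5940) x6372) x5076) x216) x3132) x1676)
  (add (add (add (sub (sub (add (add (sub (sub (add (add C x6048) x6056) x6058) x6016) x5836) x5944) x6376) x5080) x220) x3136) x3866)
  (sub (sub (add (add (sub (sub (add (add (sub (sub (add (add C x6048) x6052) x6068) x6020) x5840) x5948) x6380) x5084) x224) x3140) x1680) x3868)
  (add (add (add (sub (sub (add (add (sub (sub (sub C x6060) x6052) x6040) x5842) x5950) x6382) x5086) x226) x3142) x3872)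
  (add (add (add (sub (sub (add (add (sub (add (add (sub C x6058) x6048) x6072) x6042) x5844) x5952) x6384) x5088) x228) x3144) x1688)
  (sub (sub (add (add (sub (sub (add (add (add (add (sub (sub C x6072) x6056) x5996) x6032) x5852) x5960) x6392) x5096) x236) x3152) x1692) x3880)
  (add (add (add (sub (sub (add (add (add (add (add (add (sub C x6068) x6048) x6060) x6000) x6036) x5856) x5964) x6396) x5100) x240) x3156) x1700)
  (add (add (add (sub (sub (add (add (add (add (add (add (sub C x6078) x6088) x6100) x6112) x6148) x6184) x6292) x5914) x5590) x244) x3160) x3890)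
  (add (add (add (sub (sub (add (add (add (add (sub (sub C x6076) x6084) x6114) x6150) x6186) x6294) x5916) x5592) x246) x3162) x1706)
  (add (add (add (sub (sub (add (add (sub (sub (add (add C x6088) x6092) x6078) x6102) x6192) x6300) x5922) x5598) x252) x3168) x1712)
  (add (add (add (sub (sub (add (add (sub (add (add (add (add C x6084) x6092) x6076) x6100) x6106) x6196) x6304) x5926) x5602) x256) x3172) x3902)
  (sub (sub (add (add (sub (sub (add (add (sub (sub (add (add C x6084) x6088) x6098) x6110) x6200) x6308) x5930) x5606) x260) x3176) x1716) x3904)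
  (sub (sub (add (add (sub (sub (add (add (sub (sub (sub C x6100) x6092) x6134) x6206) x6314) x5936) x5612) x266) x3182) x1722) x3910)
  (add (add (add (sub (sub (add (add (sub (add (add (sub C x6098) x6076) x6088) x6136) x6208) x6316) x5938) x5614) x268) x3184) x3914)
  (add (add (add (sub (sub (sub (sub (add (add (add (add C x6106) x6110) x6114) x6126) x6084) x6156) x5940) x5616) x270) x3186) x1730)
  (add (add (add (sub (sub (sub (sub (sub (add (add C x6102) x6110) x6112) x6088) x6160) x5944) x5620) x274) x3190) x3920)
  (sub (sub (add (add (sub (sub (sub (sub (sub (add (add C x6102) x6106) x6122) x6092) x6164) x5948) x5624) x278) x3194) x1734) x3922)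
  (add (add (add (sub (sub (sub (add (add (sub (sub C x6114) x6106) x6076) x6148) x6166) x5950) x5626) x280) x3196) x3926)
  (add (add (add (sub (sub (sub (add (add (add (add (sub C x6112) x6102) x6126) x6078) x6150) x6168) x5952) x5628) x282) x3198) x1742)
  (sub (sub (add (add (sub (sub (sub (sub (sub (sub C x6126) x6110) x6140) x6176) x5960) x5636) x290) x3206) x1746) x3934)
  (add (add (add (sub (sub (sub (sub (add (add (sub C x6122) x6102) x6114) x6144) x6180) x5964) x5640) x294) x3210) x1754)
  (sub (sub (add (add (sub (sub (sub (sub (sub (sub C x6136) x6140) x6098) x6242) x5972) x5648) x302) x3218) x1758) x3946)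
  (add (add (add (sub (sub (sub (sub (sub (sub C x6134) x6148) x6100) x6244) x5974) x5650) x304) x3220) x3950)
  (sub (sub (add (add (sub (sub (sub (sub (sub (sub C x6144) x6134) x6122) x6248) x5978) x5654) x308) x3224) x1764) x3952)
  (add (add (add (sub (sub (sub (sub (sub (sub C x6140) x6150) x6126) x6252) x5982) x5658) x312) x3228) x1772)
  (add (add (add (sub (sub (sub (add (add (sub (sub C x6150) x6136) x6076) x6112) x6256) x5986) x5662) x316) x3232) x3962)
  (add (add (add (sub (sub (sub (add (add (sub (sub C x6148) x6144) x6078) x6114) x6258) x5988) x5664) x318) x3234) x1778)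
  (add (add (add (sub (add (add (sub (add (add (add (add (add (add C x6160) x6164) x6168) x6180) x6192) x6228) x6102) x5832) x6480) x5670) x324) x3240) x1784)
  (add (add (add (sub (add (add (sub (add (add (sub (add (add C x6156) x6164) x6166) x6196) x6232) x6106) x5836) x6484) x5674) x328) x3244) x3974)
  (sub (sub (add (add (sub (add (add (sub (add (add (sub (add (add C x6156) x6160) x6176) x6200) x6236) x6110) x5840) x6488) x5678) x332) x3248) x1788) x3976)
  (add (add (add (sub (add (add (sub (sub (sub (sub C x6168) x6160) x6184) x6112) x5842) x6490) x5680) x334) x3250) x3980)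
  (add (add (add (sub (add (add (sub (sub (add (add (sub C x6166) x6156) x6180) x6186) x6114) x5844) x6492) x5682) x336) x3252) x1796)
  (sub (sub (add (add (sub (add (add (sub (sub (sub (sub C x6180) x6164) x6212) x6122) x5852) x6500) x5690) x344) x3260) x1800) x3988)
  (add (add (add (sub (add (add (sub (sub (add (add (sub C x6176) x6156) x6168) x6216) x6126) x5856) x6504) x5694) x348) x3264) x1808)
  (add (add (add (sub (add (add (add (add (sub (add (add (sub C x6186) x6196) x6208) x6166) x6076) x6292) x5860) x6508) x5698) x352) x3268) x3998)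
  (add (add (add (sub (add (add (add (add (sub (sub (sub C x6184) x6192) x6168) x6078) x6294) x5862) x6510) x5700) x354) x3270) x1814)
  (add (add (add (sub (add (add (add (add (add (add (sub (add (add C x6196) x6200) x6186) x6156) x6228) x6084) x6300) x5868) x6516) x5706) x360) x3276) x1820)
  (add (add (add (sub (add (add (add (add (add (add (add (add (add (add C x6192) x6200) x6184) x6208) x6160) x6232) x6088) x6304) x5872) x6520) x5710) x364) x3280) x4010)
  (sub (sub (add (add (sub (add (add (add (add (add (add (sub (add (add C x6192) x6196) x6206) x6164) x6236) x6092) x6308) x5876) x6524) x5714) x368) x3284) x1824) x4012)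
  (sub (sub (add (add (sub (add (add (add (add (sub (sub (sub C x6208) x6200) x6224) x6098) x6314) x5882) x6530) x5720) x374) x3290) x1830) x4018)
  (add (add (add (sub (add (add (add (add (sub (add (add (sub C x6206) x6184) x6196) x6226) x6100) x6316) x5884) x6532) x5722) x376) x3292) x4022)
  (sub (sub (add (add (sub (add (add (sub (sub (add (add (sub C x6216) x6224) x6236) x6176) x6266) x5888) x6536) x5726) x380) x3296) x1836) x4024)
  (add (add (add (sub (add (add (sub (sub (sub (sub C x6212) x6228) x6180) x6270) x5892) x6540) x5730) x384) x3300) x1844)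
  (sub (sub (add (add (sub (add (add (sub (sub (add (add (sub C x6226) x6212) x6236) x6206) x6278) x5900) x6548) x5738) x392) x3308) x1848) x4036)
  (add (add (add (sub (add (add (sub (sub (sub (sub C x6224) x6232) x6208) x6280) x5902) x6550) x5740) x394) x3310) x4040)
  (add (add (add (sub (add (add (sub (add (add (sub (add (add C x6232) x6236) x6216) x6156) x6192) x6282) x5904) x6552) x5742) x396) x3312) x1856)
  (add (add (add (sub (add (add (sub (add (add (sub (add (add C x6228) x6236) x6226) x6160) x6196) x6286) x5908) x6556) x5746) x400) x3316) x4046)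
  (sub (sub (add (add (sub (add (add (sub (add (add (add (add (add (add C x6228) x6232) x6212) x6224) x6164) x6200) x6290) x5912) x6560) x5750) x404) x3320) x1860) x4048)
  (sub (sub (add (add (sub (sub (sub (add (add (sub (sub C x6244) x6248) x6278) x6314) x6134) x6404) x5756) x410) x3326) x1866) x4054)
  (add (add (add (sub (sub (sub (add (add (sub (sub C x6242) x6256) x6280) x6316) x6136) x6406) x5758) x412) x3328) x4058)
  (sub (sub (add (add (sub (sub (sub (sub (sub (sub C x6252) x6242) x6266) x6140) x6410) x5762) x416) x3332) x1872) x4060)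
  (add (add (add (sub (sub (sub (sub (sub (sub C x6248) x6258) x6270) x6144) x6414) x5766) x420) x3336) x1880)
  (add (add (add (sub (sub (sub (sub (sub (sub C x6258) x6244) x6292) x6148) x6418) x5770) x424) x3340) x4070)
  (add (add (add (sub (sub (sub (sub (sub (sub C x6256) x6252) x6294) x6150) x6420) x5772) x426) x3342) x1886)
  (sub (sub (add (add (sub (sub (sub (sub (add (add (sub C x6270) x6278) x6290) x6248) x6212) x6428) x5780) x434) x3350) x1890) x4078)
  (add (add (add (sub (sub (sub (sub (sub (sub C x6266) x6282) x6252) x6216) x6432) x5784) x438) x3354) x1898)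
  (sub (sub (add (add (sub (sub (sub (add (add (add (add (sub C x6280) x6266) x6290) x6242) x6314) x6224) x6440) x5792) x446) x3362) x1902) x4090)
  (add (add (add (sub (sub (sub (add (add (sub (sub C x6278) x6286) x6244) x6316) x6226) x6442) x5794) x448) x3364) x4094)
  (add (add (add (sub (sub (sub (sub (sub (add (add C x6286) x6290) x6270) x6300) x6228) x6444) x5796) x450) x3366) x1910)
  (add (add (add (sub (sub (sub (sub (sub (add (add C x6282) x6290) x6280) x6304) x6232) x6448) x5800) x454) x3370) x4100)
  (sub (sub (add (add (sub (sub (sub (sub (add (add (add (add C x6282) x6286) x6266) x6278) x6308) x6236) x6452) x5804) x458) x3374) x1914) x4102)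
  (add (add (add (sub (sub (add (add (sub (add (add (sub C x6294) x6304) x6316) x6256) x6076) x6184) x6454) x5806) x460) x3376) x4106)
  (add (add (add (sub (sub (add (add (sub (sub (sub C x6292) x6300) x6258) x6078) x6186) x6456) x5808) x462) x3378) x1922)
  (add (add (add (sub (sub (add (add (sub (sub (add (add C x6304) x6308) x6294) x6282) x6084) x6192) x6462) x5814) x468) x3384) x1928)
  (add (add (add (sub (sub (add (add (sub (add (add (add (add C x6300) x6308) x6292) x6316) x6286) x6088) x6196) x6466) x5818) x472) x3388) x4118)
  (sub (sub (add (add (sub (sub (add (add (sub (sub (add (add C x6300) x6304) x6314) x6290) x6092) x6200) x6470) x5822) x476) x3392) x1932) x4120)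
  (sub (sub (add (add (sub (sub (add (add (add (add (sub (sub C x6316) x6308) x6242) x6278) x6098) x6206) x6476) x5828) x482) x3398) x1938) x4126)
  (add (add (add (sub (sub (add (add (add (add (add (add (sub C x6314) x6292) x6304) x6244) x6280) x6100) x6208) x6478) x5830) x484) x3400) x4130)
  (sub (sub (add (add (add (add (sub (add (add (add (add (add (add (sub C x6324) x6332) x6344) x6356) x6392) x6428) x6536) x5996) x4376) x5348) x488) x3404) x1944) x4132)
  (add (add (add (add (add (sub (add (add (add (add (sub (sub C x6320) x6336) x6360) x6396) x6432) x6540) x6000) x4380) x5352) x492) x3408) x1952)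
  (sub (sub (add (add (add (add (sub (add (add (sub (add (add (sub C x6334) x6320) x6344) x6350) x6440) x6548) x6008) x4388) x5360) x500) x3416) x1956) x4144)
  (add (add (add (add (add (sub (add (add (sub (sub (sub C x6332) x6340) x6352) x6442) x6550) x6010) x4390) x5362) x502) x3418) x4148)
  (add (add (add (add (add (sub (add (add (sub (sub (add (add C x6340) x6344) x6324) x6372) x6444) x6552) x6012) x4392) x5364) x504) x3420) x1964)
  (add (add (add (add (add (sub (add (add (sub (sub (add (add C x6336) x6344) x6334) x6376) x6448) x6556) x6016) x4396) x5368) x508) x3424) x4154)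
  (sub (sub (add (add (add (add (sub (add (add (sub (add (add (add (add C x6336) x6340) x6320) x6332) x6380) x6452) x6560) x6020) x4400) x5372) x512) x3428) x1968) x4156)
  (sub (sub (add (add (add (add (sub (sub (sub (sub (sub C x6352) x6356) x6332) x6404) x6026) x4406) x5378) x518) x3434) x1974) x4162)
  (add (add (add (add (add (sub (sub (sub (sub (sub C x6350) x6364) x6334) x6406) x6028) x4408) x5380) x520) x3436) x4166)
  (sub (sub (add (add (add (add (sub (sub (add (add (sub (sub C x6360) x6350) x6320) x6392) x6410) x6032) x4412) x5384) x524) x3440) x1980) x4168)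
  (add (add (add (add (add (sub (sub (add (add (sub (sub C x6356) x6366) x6324) x6396) x6414) x6036) x4416) x5388) x528) x3444) x1988)
  (add (add (add (add (add (sub (sub (sub (sub (sub C x6366) x6352) x6382) x6418) x6040) x4420) x5392) x532) x3448) x4178)
  (add (add (add (add (add (sub (sub (sub (sub (sub C x6364) x6360) x6384) x6420) x6042) x4422) x5394) x534) x3450) x1994)
  (add (add (add (add (add (sub (sub (sub (add (add (add (add C x6376) x6380) x6384) x6396) x6336) x6480) x6048) x4428) x5400) x540) x3456) x2000)
  (add (add (add (add (add (sub (sub (sub (sub (add (add C x6372) x6380) x6382) x6340) x6484) x6052) x4432) x5404) x544) x3460) x4190)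
  (sub (sub (add (add (add (add (sub (sub (sub (sub (add (add C x6372) x6376) x6392) x6344) x6488) x6056) x4436) x5408) x548) x3464) x2004) x4192)
  (add (add (add (add (add (sub (sub (sub (sub (sub C x6384) x6376) x6364) x6490) x6058) x4438) x5410) x550) x3466) x4196)
  (add (add (add (add (add (sub (sub (sub (add (add (sub C x6382) x6372) x6396) x6366) x6492) x6060) x4440) x5412) x552) x3468) x2012)
  (sub (sub (add (add (add (add (sub (sub (add (add (sub (sub C x6396) x6380) x6320) x6356) x6500) x6068) x4448) x5420) x560) x3476) x2016) x4204)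
  (add (add (add (add (add (sub (sub (add (add (add (add (sub C x6392) x6372) x6384) x6324) x6360) x6504) x6072) x4452) x5424) x564) x3480) x2024)
  (sub (sub (add (add (add (add (sub (sub (add (add (sub (sub C x6406) x6410) x6440) x6476) x6350) x6242) x4460) x5432) x572) x3488) x2028) x4216)
  (add (add (add (add (add (sub (sub (add (add (sub (sub C x6404) x6418) x6442) x6478) x6352) x6244) x4462) x5434) x574) x3490) x4220)
  (sub (sub (add (add (add (add (sub (sub (sub (sub (sub C x6414) x6404) x6428) x6356) x6248) x4466) x5438) x578) x3494) x2034) x4222)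
  (add (add (add (add (add (sub (sub (sub (sub (sub C x6410) x6420) x6432) x6360) x6252) x4470) x5442) x582) x3498) x2042)
  (add (add (add (add (add (sub (sub (sub (sub (sub C x6420) x6406) x6454) x6364) x6256) x4474) x5446) x586) x3502) x4232)
  (add (add (add (add (add (sub (sub (sub (sub (sub C x6418) x6414) x6456) x6366) x6258) x4476) x5448) x588) x3504) x2048)
  (sub (sub (add (add (add (add (sub (add (add (sub (add (add (sub C x6432) x6440) x6452) x6410) x6320) x6536) x6266) x4484) x5456) x596) x3512) x2052) x4240)
  (add (add (add (add (add (sub (add (add (sub (sub (sub C x6428) x6444) x6414) x6324) x6540) x6270) x4488) x5460) x600) x3516) x2060)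
  (sub (sub (add (add (add (add (sub (add (add (add (add (add (add (sub C x6442) x6428) x6452) x6404) x6476) x6332) x6548) x6278) x4496) x5468) x608) x3524) x2064) x4252)
  (add (add (add (add (add (sub (add (add (add (add (sub (sub C x6440) x6448) x6406) x6478) x6334) x6550) x6280) x4498) x5470) x610) x3526) x4256)
  (add (add (add (add (add (sub (add (add (sub (sub (add (add C x6448) x6452) x6432) x6462) x6336) x6552) x6282) x4500) x5472) x612) x3528) x2072)
  (add (add (add (add (add (sub (add (add (sub (sub (add (add C x6444) x6452) x6442) x6466) x6340) x6556) x6286) x4504) x5476) x616) x3532) x4262)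
  (sub (sub (add (add (add (add (sub (add (add (sub (add (add (add (add C x6444) x6448) x6428) x6440) x6470) x6344) x6560) x6290) x4508) x5480) x620) x3536) x2076) x4264)
  (add (add (add (add (add (sub (sub (sub (add (add (sub C x6456) x6466) x6478) x6418) x6508) x6292) x4510) x5482) x622) x3538) x4268)
  (add (add (add (add (add (sub (sub (sub (sub (sub C x6454) x6462) x6420) x6510) x6294) x4512) x5484) x624) x3540) x2084)
  (add (add (add (add (add (sub (sub (sub (sub (add (add C x6466) x6470) x6456) x6444) x6516) x6300) x4518) x5490) x630) x3546) x2090)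
  (add (add (add (add (add (sub (sub (sub (add (add (add (add C x6462) x6470) x6454) x6478) x6448) x6520) x6304) x4522) x5494) x634) x3550) x4280)
  (sub (sub (add (add (add (add (sub (sub (sub (sub (add (add C x6462) x6466) x6476) x6452) x6524) x6308) x4526) x5498) x638) x3554) x2094) x4282)
  (sub (sub (add (add (add (add (sub (sub (add (add (sub (sub C x6478) x6470) x6404) x6440) x6530) x6314) x4532) x5504) x644) x3560) x2100) x4288)
  (add (add (add (add (add (sub (sub (add (add (add (add (sub C x6476) x6454) x6466) x6406) x6442) x6532) x6316) x4534) x5506) x646) x3562) x4292)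
  (add (add (add (add (add (add (add (sub (add (add (add (add (add (add C x6484) x6488) x6492) x6504) x6516) x6552) x6372) x5832) x6156) x4536) x5508) x648) x3564) x2108)
  (add (add (add (add (add (add (add (sub (add (add (sub (add (add C x6480) x6488) x6490) x6520) x6556) x6376) x5836) x6160) x4540) x5512) x652) x3568) x4298)
  (sub (sub (add (add (add (add (add (add (sub (add (add (sub (add (add C x6480) x6484) x6500) x6524) x6560) x6380) x5840) x6164) x4544) x5516) x656) x3572) x2112) x4300)
  (add (add (add (add (add (add (add (sub (sub (sub (sub C x6492) x6484) x6508) x6382) x5842) x6166) x4546) x5518) x658) x3574) x4304)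
  (add (add (add (add (add (add (add (sub (sub (add (add (sub C x6490) x6480) x6504) x6510) x6384) x5844) x6168) x4548) x5520) x660) x3576) x2120)
  (sub (sub (add (add (add (add (add (add (sub (sub (sub (sub C x6504) x6488) x6536) x6392) x5852) x6176) x4556) x5528) x668) x3584) x2124) x4312)
  (add (add (add (add (add (add (add (sub (sub (add (add (sub C x6500) x6480) x6492) x6540) x6396) x5856) x6180) x4560) x5532) x672) x3588) x2132)
  (add (add (add (add (add (add (add (sub (sub (add (add (sub C x6510) x6520) x6532) x6490) x6454) x5860) x6184) x4564) x5536) x676) x3592) x4322)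
  (add (add (add (add (add (add (add (sub (sub (sub (sub C x6508) x6516) x6492) x6456) x5862) x6186) x4566) x5538) x678) x3594) x2138)
  (add (add (add (add (add (add (add (sub (add (add (sub (add (add C x6520) x6524) x6510) x6480) x6552) x6462) x5868) x6192) x4572) x5544) x684) x3600) x2144)
  (add (add (add (add (add (add (add (sub (add (add (add (add (add (add C x6516) x6524) x6508) x6532) x6484) x6556) x6466) x5872) x6196) x4576) x5548) x688) x3604) x4334)
  (sub (sub (add (add (add (add (add (add (sub (add (add (sub (add (add C x6516) x6520) x6530) x6488) x6560) x6470) x5876) x6200) x4580) x5552) x692) x3608) x2148) x4336)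
  (sub (sub (add (add (add (add (add (add (sub (sub (sub (sub C x6532) x6524) x6548) x6476) x5882) x6206) x4586) x5558) x698) x3614) x2154) x4342)
  (add (add (add (add (add (add (add (sub (sub (add (add (sub C x6530) x6508) x6520) x6550) x6478) x5884) x6208) x4588) x5560) x700) x3616) x4346)
  (sub (sub (add (add (add (add (add (add (add (add (sub (add (add (sub C x6540) x6548) x6560) x6500) x6320) x6428) x5888) x6212) x4592) x5564) x704) x3620) x2160) x4348)
  (add (add (add (add (add (add (add (add (add (sub (sub (sub C x6536) x6552) x6504) x6324) x6432) x5892) x6216) x4596) x5568) x708) x3624) x2168)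
  (sub (sub (add (add (add (add (add (add (add (add (sub (add (add (sub C x6550) x6536) x6560) x6530) x6332) x6440) x5900) x6224) x4604) x5576) x716) x3632) x2172) x4360)
  (add (add (add (add (add (add (add (add (add (sub (sub (sub C x6548) x6556) x6532) x6334) x6442) x5902) x6226) x4606) x5578) x718) x3634) x4364)
  (add (add (add (add (add (add (add (add (add (add (add (sub (add (add C x6556) x6560) x6540) x6480) x6516) x6336) x6444) x5904) x6228) x4608) x5580) x720) x3636) x2180)
  (add (add (add (add (add (add (add (add (add (add (add (sub (add (add C x6552) x6560) x6550) x6484) x6520) x6340) x6448) x5908) x6232) x4612) x5584) x724) x3640) x4370)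
  (sub (sub (add (add (add (add (add (add (add (add (add (add (add (add (add (add C x6552) x6556) x6536) x6548) x6488) x6524) x6344) x6452) x5912) x6236) x4616) x5588) x728) x3644) x2184) x4372))
  (chk [x0, x4, x8, x10, x20, x28, x40, x44, x50, x52, x56, x68,
  x80, x82, x94, x98, x104, x106, x112, x116, x128, x140, x142, x146,
  x164, x176, x188, x194, x224, x260, x266, x274, x278, x280, x290, x302,
  x304, x308, x316, x328, x332, x344, x380, x404, x410, x412, x416, x434,
  x448, x458, x476, x482, x484, x512, x518, x548, x560, x620, x638, x644,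
  x656, x692, x728, x820, x830, x890, x902, x944, x962, x1268, x1286, x1292,
  x1322, x1358, x1370, x1394, x1412, x1640, x1670, x1700, x1886, x2024, x2132, x6560])

noncomputable def RK : Nat := nat_lit 0x19a0085407e8075e06a40686066805840572055a054e052a050c050604f403c203b00386037a033e033402d802b402900284027e026c023002240206020001e401e201dc01ca01c001b201a0019c019a0194017c0158014c0148013c01340130012e0122011801160112010a010400e000c200bc00b000a40092008e008c008000740070006a00680062005e005200500044003800340032002c0028001c0014000a000800040000

noncomputable def CK : Nat := nat_lit 0x100080010000400100008000400080008001000200010001000200010001000200008001000100002001000080008001000200010001000200020001000100020002000200010001000200010001000100020002000100004001000200020002000200008002000100010002000100010002000200008002000100020002000200010002000200020001000080010001000100010002000200008001000100010001000100002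

noncomputable def H : Nat := nat_lit 0x23040000000000001a2f0000000000001a2e0000215b00001a4d0000000000000000000000000000215a0000000000001a4c000000000000223300002185000000000000000000001a590000000000000517000000000000122a000000000000000000001b7200001614000000000000223200000000000021840000000000000000000000000000161500001b7300001a58000000000000122b00000000000005160000229f000022690000000000000000000021910000000000000aff00000000000014b2000000000000000000001c4a000015a800001a650000000000001663000000000000181200000b350000054d000000000000000000000000000014e9000000000000126100000000000000000000000000001d2200001e670000000000001c810000000000001ba900000000000015d2000016200000000000000000000000000000229e0000000000002268000000000000000000000000000015a900001c4b0000219000000000000014b30000000000000afe000000000000000000001e6600001d2300000000000015d300000000000016210000000000001c8000001ba8000000000000000000001a6400000000000018130000000000001662000014e80000126000000000000000000000000000000b34000000000000054c0000000000002239000022b10000000000000000000022750000000000000bd7000000000000151e0000000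00000000000001cb60000153c00002197000000000000173b000000000000187e000017d100000b5300000000000000000000000000001f69000000000000150600000000000000000000000000001d8e00001ed30000000000001e240000000000001c9e0000000000001914000015b4000000000000000000001a5f000000000000195700000000000019c20000177d000016a5000000000000000000000000000018c100000000000018550000000000000c1300000b4100000000000000000000055900000000000000df000000000000033d00000000000000000000069d0000084d000000000000156100000000000014f500000000000000000000000000000c8500000dc90000126d00000000000010e700000000000002fa000000000000000000001faa000020170000000000001dd10000000000001d650000000000001f1500001ea900000000000000000000000000001cf30000000000001c8d000000000000000000000000000007870000103900001bb50000000000000d87000000000000065a0000155a000015c600000000000000000000162c000000000000080b0000000000000c4200000000000000000000076800000408000000000000223800000000000022b00000000000000000000000000000153d00001cb700002274000000000000151f0000000000000bd6000000000000000000001ed200001d8f000000000000191500000000000015b50000000000001e2500001c9f000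000000000000000002196000000000000187f000000000000173a00001f6800001507000000000000000000000000000017d00000000000000b520000000000000000000000000000201600001fab0000000000001f140000000000001ea80000000000001dd000001d640000000000000000000000000000155b00000000000015c700000000000000000000000000000409000007690000162d0000000000000c43000000000000080a00001cf200001c8c000000000000000000001bb4000000000000065b0000000000000d860000000000000000000010380000078600001a5e00000000000019c30000000000001956000018c0000018540000000000000000000000000000177c00000000000016a40000000000001560000014f400000000000000000000126c00000000000002fb00000000000010e6000000000000000000000dc800000c840000000000000c120000000000000b400000000000000000000000000000084c0000069c00000558000000000000033c00000000000000de00002161000022450000000000000000000022b70000000000000b1d000000000000158a000000000000000000001c68000014d00000226f00000000000017a700000000000018ea0000176500000c0100000000000000000000000000001efd000000000000157200000000000000000000000000001dfa00001f3f0000000000001db80000000000001ce000000000000018a800001548000000000000000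00000218b000000000000174d0000000000001890000020830000178f000000000000000000000000000020ee00000000000018d20000000000001777000017dd000000000000000000000b4700000000000001b700000000000008ad000000000000000000000e95000011890000000000001f0e0000000000001f7500000000000000000000000000000f8b00001b07000014fa00000000000011530000000000000366000000000000000000001da100001ee400000000000021c60000000000001de200000000000020f500001f2700000000000000000000000000001dcb0000000000001e300000000000000000000000000000097900000f6100001c920000000000000e5f00000000000006c6000018ba000019200000000000000000000015c000000000000008770000000000000cae0000000000000000000006fc0000039c00001a53000000000000167500000000000018240000175f00001975000000000000000000000000000018a300000000000019e000000000000017cb000017890000000000000000000016ab000000000000043f00000000000011e900000000000000000000171d00001464000000000000190f00000000000018cd00000000000000000000000000001321000016f30000185a00000000000011bf00000000000004aa00000b2f00000c07000000000000000000000b4d0000000000000a270000000000000ae1000000000000000000000b9b00000ac300000553000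000000000047b00000000000004e7000001ff0000012d000000000000000000000000000003b500000000000003490000000000000000000000000000093100000a09000000000000071500000000000006a900000000000008c500000859000000000000000000000000000015d9000000000000156d000000000000000000000000000012b5000013bd0000150100000000000013db0000000000000a92000000000000000000000f1900000ff10000000000000cf70000000000000c910000000000000ead00000dd5000000000000000000001266000000000000120d00000000000011fa000011a100001135000000000000000000000000000008be000000000000034e00000000000000000000000000001d3500001e780000000000001db20000000000001fc90000000000001ef60000203400000000000000000000000000001e1e0000000000001ddd0000000000000000000000000000090d00000ef500001d6a0000000000000fa300000000000008e200001f6200001f21000000000000000000001eaf00000000000009bb0000000000000eca000000000000000000000fcc000009e40000000000001c7b0000000000001ce70000000000000000000000000000138d00001bdf00001c99000000000000136f0000000000000b6a000000000000000000000fdf00000f07000000000000070f000000000000077b0000000000000f7300001045000000000000000000001bae00000000000016e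100000000000016ce00001b4f00000ddb00000000000000000000000000000ea600000000000006ae00000000000014e20000154e0000000000000000000015ba0000000000000ab1000000000000129600000000000000000000139e000013f800001626000000000000147600000000000013320000119b0000085f00000000000000000000000000000f780000000000000c960000000000000000000000000000091e000009f6000000000000098a000000000000077400000000000003ae00000414000000000000000000000000000021600000000000002244000000000000000000000000000014d100001c69000022b6000000000000158b0000000000000b1c000000000000000000001f3e00001dfb00000000000018a900000000000015490000000000001db900001ce100000000000000000000226e00000000000018eb00000000000017a600001efc00001573000000000000000000000000000017640000000000000c0000000000000000000000000000001ee500001da000000000000020f40000000000001f2600000000000021c700001de3000000000000000000000000000018bb00000000000019210000000000000000000000000000039d000006fd000015c10000000000000caf000000000000087600001dca00001e31000000000000000000001c9300000000000006c70000000000000e5e000000000000000000000f60000009780000218a000000000000189100000000000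0174c000020ef000018d300000000000000000000000000002082000000000000178e0000000000001f0f00001f740000000000000000000014fb00000000000003670000000000001152000000000000000000001b0600000f8a000000000000177600000000000017dc0000000000000000000000000000118800000e9400000b4600000000000008ac00000000000001b6000000000000000000001e7900001d340000000000001ef700000000000020350000000000001db300001fc800000000000000000000000000001f630000000000001f20000000000000000000000000000009e500000fcd00001eae0000000000000ecb00000000000009ba00001e1f00001ddc000000000000000000001d6b00000000000008e30000000000000fa2000000000000000000000ef40000090c00000000000014e3000000000000154f000000000000000000000000000013f90000139f000015bb00000000000012970000000000000ab00000000000000000000009f70000091f00000000000003af0000000000000415000000000000098b000007750000000000000000000016270000000000001333000000000000147700000f7900000c970000000000000000000000000000119a000000000000085e0000000000001c7a00001ce6000000000000000000001c980000000000000b6b000000000000136e000000000000000000001bde0000138c00001baf00000000000016cf00000000000016e000000ea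7000006af00000000000000000000000000001b4e0000000000000dda00000000000000000000000000000f0600000fde0000000000000f720000000000001044000000000000070e0000077a000000000000000000001a5200000000000018250000000000001674000018a2000019e10000000000000000000000000000175e0000000000001974000000000000190e000018cc00000000000000000000185b00000000000004ab00000000000011be0000000000000000000016f20000132000000000000017ca0000000000001788000000000000000000000000000014650000171c000016aa00000000000011e8000000000000043e000015d80000156c0000000000000000000015000000000000000a9300000000000013da0000000000000000000013bc000012b40000126700000000000011fb000000000000120c000008bf0000034f000000000000000000000000000011a0000000000000113400000000000000000000000000000ff000000f180000000000000eac0000000000000dd40000000000000cf600000c9000000000000000000000000000000b2e0000000000000c0600000000000000000000000000000ac200000b9a00000b4c0000000000000ae00000000000000a26000000000000000000000a080000093000000000000008c400000000000008580000000000000714000006a800000000000000000000055200000000000004e6000000000000047a000003b400000348000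000000000000000000000000001fe000000000000012c0000000000001a350000216700000000000000000000223f000000000000052300000000000015f6000000000000000000001b7f00001237000022990000000000000b0b000000000000159c0000166f00000b2900000000000000000000000000001e7300000000000015de00000000000000000000000000001c57000014bf0000000000001d2f0000000000001c74000000000000181f000014dc00000000000000000000222d0000000000000be3000000000000153000001747000017c500000000000000000000000000001edf0000000000001908000000000000195d00001771000000000000000000000c0d00000000000000eb0000000000000841000000000000000000000dbd000010f3000000000000201c0000000000001f090000000000000000000000000000102d00000d9300001566000000000000081700000000000003d2000000000000000000001cc30000152b0000000000001d9b0000000000001e19000000000000188b00001f5c00000000000000000000000000001fb00000000000001dc40000000000000000000000000000075d00000c4f00001cec00000000000006670000000000000732000019c9000018b400000000000000000000155400000000000003070000000000000c7800000000000000000000069000000330000021550000000000000b1100000000000014c4000017ad00001759000000000000000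00000000000001f44000000000000189c00000000000017410000207d00000000000000000000178300000000000001c3000000000000117d000000000000000000001b130000115f0000000000001ed800000000000020e900000000000000000000000000000f5500000e6b000018c600000000000008830000000000000390000016690000176b0000000000000000000017d7000000000000044b00000000000014460000000000000000000016ff000011cb00000b3b0000000000000a330000000000000acf00000481000001f9000000000000000000000000000009fd00000000000008b9000000000000000000000000000013b1000013e70000000000000fe50000000000000ea100000000000012010000119500000000000000000000000000001e6c0000000000001f0200000000000000000000000000000ee900000faf00001f6e00000000000009c700000000000009d8000000000000000000001beb0000137b0000000000000f130000000000000f7f00000000000016d500001b490000000000000000000014ee0000000000000aa500000000000013ec0000147c000011a700000000000000000000000000000a0200000000000003ba00000000000000000000000000001c5d000015970000000000001e000000000000001dad00000000000018f100001ef000000000000000000000000000001d9400000000000021c1000000000000000000000000000006f100000cbb00001dd6000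00000000006d3000000000000094e00001885000020fb000000000000000000001f1b00000000000003730000000000000f36000000000000000000000e88000008a00000000000001d280000000000001dbf00000000000000000000000000000fc100000ed700001e2b00000000000008ef00000000000009000000000000000000000013ab000012a3000000000000092b0000000000000985000000000000133900000f6d000000000000000000001c860000000000000b770000000000001380000016db00000eb300000000000000000000000000000fea000000000000071a0000000000001819000018ae00000000000000000000191a00000000000004b70000000000001302000000000000000000001710000011dc000015cc0000000000000a9f00000000000012a800001207000008cb00000000000000000000000000000f0c0000000000000cf000000000000000000000000000000ba600000ad40000000000000924000000000000070800000000000004ec000003a8000000000000000000001a290000000000000529000000000000123c00000b170000167b000000000000000000000000000014cb000000000000182b0000000000000bdd0000175300000000000000000000195100000000000000f700000000000010ff000000000000000000000d9f000008230000000000001537000000000000189700000000000000000000000000000c5b00000673000019bd000000000000031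3000000000000032400000b05000017a100000000000000000000173500000000000001cf000000000000116b000000000000000000000e770000088f0000165d000000000000045100000000000011d700000a2d00000475000000000000000000000000000013f300000000000011f500000000000000000000000000000fbb000009d3000000000000138700000000000016c90000000000000a9900001470000000000000000000000000000015a300000000000018e500000000000000000000000000000cc7000006df00001879000000000000037f0000000000000894000000000000000000000ee3000008fb00000000000012af000000000000132d0000000000000b71000016e700000000000000000000180d00000000000004bd00000000000011d000000aab0000121300000000000000000000000000000ac800000000000004e0000000000000051d00000b23000000000000000000000bd100000000000000fd000000000000082f00000000000000000000067f0000031f00000af900000000000001c9000000000000089b0000044500000a21000000000000000000000000000009df0000000000000a8d000000000000000000000000000006eb0000038b00000000000009070000000000000b6500000000000004b100000ab700000000000000000000051100000000000000f1000000000000032b000001bd000004390000000000000000000000000000039700000000000004a5000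00000000000e5000001b10000000000000000000000d90000000000000001000000000000006d0000000000000000000001450000007900000000000003cd00000000000003610000000000000000000000000000021d00000151000002f500000000000000850000000000000289000000000000000000000757000003d9000000000000094900000000000008dd000000000000036d000009b50000000000000000000000000000072d00000000000006c10000000000000000000000000000057d0000022900000655000000000000015d00000000000005e90000030100000871000000000000000000000805000000000000009100000000000007990000000000000000000006130000029500000000000015f1000000000000158500000000000000000000000000000c610000074b0000151900000000000003e50000000000000828000000000000000000000f4f0000095500000000000012fd000000000000129100000000000008e9000013690000000000000000000014ad00000000000003790000000000001164000009c1000013d5000000000000000000000000000014410000000000000ae600000000000000000000000000001009000007390000000000000f310000000000000ec500000000000006cd00000f9d00000000000000000000000000000c7f0000000000000ca9000000000000000000000000000002590000058900000c3d0000000000000235000000000000079e0000066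100000e59000000000000000000000d8100000000000001630000000000000d15000000000000000000000ded000005f500001225000000000000030d00000000000010f80000087d000011b90000000000000000000000000000118200000000000011ee00000000000008110000114d0000000000000000000010e1000000000000008b0000000000001075000000000000000000000d33000007a5000000000000084600000000000008b2000000000000000000000000000007da000006070000034200000000000002a10000000000000072000000000000000000001b85000015fd0000000000001c620000000000001d3a000000000000159100001e7e00000000000000000000000000001cbc0000000000001da60000000000000000000000000000068500000c6d00001fa5000000000000073f00000000000007500000152500001eea00000000000000000000201100000000000003df000000000000100e000000000000000000000db0000008340000000000001c500000000000001df500000000000000000000000000000e7d00000f4300001d89000000000000095b00000000000006e4000000000000000000001705000013090000000000000ba10000000000000919000000000000129d00000f01000000000000000000001d1d00000000000008f50000000000000fb40000137500000ff7000000000000000000000000000013b6000000000000093600000000000014b900001f39000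000000000000000001ecd00000000000003850000000000000f48000000000000000000001b1e0000117000001e6100000000000009cd0000000000000edc000013e100000a0f00000000000000000000000000001be40000000000000f1e0000000000000000000000000000170a0000144d00000000000013a40000000000000fd80000000000000ada000009f000000000000000000000000000001b780000000000001c6f00000000000000000000000000000da50000101500001cb100000000000007450000000000000678000000000000000000001b1900000f3d000000000000171700000000000013990000000000000ed100001bd9000000000000000000001c4500000000000006d90000000000000e7000000fa9000013c3000000000000000000000000000016f80000000000000b9400000000000000000000000000000db700000c730000000000000e8f0000000000000fd30000000000000cb500000efb0000000000000000000000000000069700000000000007030000000000000000000000000000018d000002650000076f000000000000058f000000000000060c00000c4900000f6700000000000000000000103f000000000000022f0000000000000df2000000000000000000000d44000007c800001b6d000000000000066d0000000000000d9800000e65000016ed00000000000000000000000000001b0c00000000000017220000000000000d8d00001b01000000000000000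000000dcf00000000000001570000000000000d2c000000000000000000001a9500000d210000000000000dc20000000000000e9a00000000000000000000000000000d3900000df9000006a20000000000000601000000000000014a00001231000014d600000000000000000000154200000000000003190000000000000c66000000000000000000000daa00001104000015ae00000000000008890000000000000cc0000011c500000abd00000000000000000000000000000eee00000000000012ba00000000000000000000000000000e82000011760000000000000fc6000000000000139200000000000011e2000013fe00000000000000000000161a000000000000081d0000000000000c54000011590000146a00000000000000000000000000000f5a000000000000132600000000000010ed0000118f000000000000000000000853000000000000007f00000000000007d5000000000000000000000d3e0000108100000000000010320000000000000f8400000000000000000000000000000e1100000d2700000c8a00000000000007ab000000000000022200000000000000000000068a0000083a00000000000006f6000000000000091200000000000008a6000009ea00000000000000000000000000000762000000000000097e00000000000000000000000000000619000007ce0000078000000000000005fb000000000000058200000336000003a200000000000000000000040e000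000000000029b000000000000025e000000000000000000000192000000c00000000000001a3400000000000021660000000000000000000000000000123600001b7e0000223e00000000000015f700000000000005220000000000000000000014be00001c56000000000000181e00000000000014dd0000000000001d2e00001c75000000000000000000002298000000000000159d0000000000000b0a00001e72000015df0000000000000000000000000000166e0000000000000b280000000000000000000000000000152a00001cc2000000000000188a0000000000001f5d0000000000001d9a00001e18000000000000000000000000000019c800000000000018b50000000000000000000000000000033100000691000015550000000000000c79000000000000030600001fb100001dc5000000000000000000001ced00000000000007330000000000000666000000000000000000000c4e0000075c0000222c00000000000015310000000000000be200001ede000019090000000000000000000000000000174600000000000017c4000000000000201d00001f0800000000000000000000156700000000000003d30000000000000816000000000000000000000d920000102c000000000000195c0000000000001770000000000000000000000000000010f200000dbc00000c0c000000000000084000000000000000ea00000000000000000000159600001c5c00000000000018f00000000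000001ef10000000000001e0100001dac0000000000000000000000000000188400000000000020fa000000000000000000000000000008a100000e8900001f1a0000000000000f37000000000000037200001d95000021c0000000000000000000001dd7000000000000094f00000000000006d2000000000000000000000cba000006f0000000000000181800000000000018af000000000000000000000000000011dd000017110000191b000000000000130300000000000004b6000000000000000000000ad500000ba700000000000004ed00000000000003a90000000000000925000007090000000000000000000015cd00000000000012a90000000000000a9e00000f0d00000cf10000000000000000000000000000120600000000000008ca0000000000001d2900001dbe000000000000000000001e2a000000000000090100000000000008ee000000000000000000000ed600000fc000001c8700000000000013810000000000000b7600000feb0000071b000000000000000000000000000016da0000000000000eb2000000000000000000000000000012a2000013aa00000000000013380000000000000f6c000000000000092a0000098400000000000000000000215400000000000014c50000000000000b1000001f450000189d000000000000000000000000000017ac00000000000017580000000000001ed9000020e80000000000000000000018c7000000000000039100000000000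00882000000000000000000000e6a00000f540000000000001740000000000000207c0000000000000000000000000000115e00001b1200001782000000000000117c00000000000001c200001e6d00001f03000000000000000000001f6f00000000000009d900000000000009c6000000000000000000000fae00000ee8000014ef00000000000013ed0000000000000aa400000a03000003bb0000000000000000000000000000147d00000000000011a60000000000000000000000000000137a00001bea00000000000016d40000000000001b480000000000000f1200000f7e00000000000000000000000000001668000000000000176a000000000000000000000000000011ca000016fe000017d60000000000001447000000000000044a0000000000000000000013e6000013b0000000000000120000000000000011940000000000000fe400000ea0000000000000000000000b3a0000000000000ace0000000000000a32000009fc000008b80000000000000000000000000000048000000000000001f8000000000000000000000000000015fc00001b8400000000000015900000000000001e7f0000000000001c6300001d3b000000000000000000000000000015240000000000001eeb0000000000000000000000000000083500000db100002010000000000000100f00000000000003de00001cbd00001da7000000000000000000001fa40000000000000751000000000000073e0000000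00000000000000c6c0000068400000000000014b80000000000001f380000000000000000000000000000117100001b1f00001ecc0000000000000f49000000000000038400000000000000000000144c0000170b0000000000000adb00000000000009f100000000000013a500000fd9000000000000000000001e600000000000000edd00000000000009cc00001be500000f1f000000000000000000000000000013e00000000000000a0e0000000000001c5100001df4000000000000000000001d8800000000000006e5000000000000095a000000000000000000000f4200000e7c00001d1c0000000000000fb500000000000008f4000013b700000937000000000000000000000000000013740000000000000ff60000000000000000000000000000130800001704000000000000129c0000000000000f000000000000000ba0000009180000000000000000000000000000123000000000000014d70000000000000000000000000000110500000dab000015430000000000000c67000000000000031800000000000000000000117700000e8300000000000011e300000000000013ff0000000000000fc7000013930000000000000000000015af0000000000000cc1000000000000088800000eef000012bb000000000000000000000000000011c40000000000000abc0000000000000000000000000000083b0000068b00000000000008a700000000000009eb00000000000006f700000913000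0000000000000000000000000033700000000000003a3000000000000000000000000000000c1000001930000040f000000000000025f000000000000029a000007630000097f000000000000000000000781000000000000058300000000000005fa0000000000000000000007cf000006180000161b0000000000000c55000000000000081c00000f5b0000132700000000000000000000000000001158000000000000146b000000000000103300000f85000000000000000000000c8b000000000000022300000000000007aa000000000000000000000d2600000e1000000000000010ec000000000000118e0000000000000000000000000000108000000d3f0000085200000000000007d4000000000000007e00001b7900001c6e000000000000000000001cb00000000000000679000000000000074400000000000000000000101400000da400001c440000000000000e7100000000000006d8000016f900000b9500000000000000000000000000000fa800000000000013c200000000000000000000000000000f3c00001b180000000000000ed00000000000001bd8000000000000171600001398000000000000000000001b6c0000000000000d99000000000000066c00001b0d0000172300000000000000000000000000000e6400000000000016ec0000000000000dc300000e9b0000000000000000000006a3000000000000014b0000000000000600000000000000000000000df800000d3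80000000000000d8c0000000000001b0000000000000000000000000000000d2000001a9400000dce0000000000000d2d0000000000000156000000000000000000000c7200000db60000000000000cb40000000000000efa0000000000000e8e00000fd200000000000000000000000000000c480000000000000f66000000000000000000000000000007c900000d450000103e0000000000000df3000000000000022e000006960000070200000000000000000000076e000000000000060d000000000000058e0000000000000000000002640000018c00001a28000000000000123d0000000000000528000014ca0000182a00000000000000000000000000000b16000000000000167a0000000000001536000018960000000000000000000019bc0000000000000325000000000000031200000000000000000000067200000c5a0000000000000bdc00000000000017520000000000000000000000000000082200000d9e0000195000000000000010fe00000000000000f6000015a2000018e40000000000000000000018780000000000000895000000000000037e0000000000000000000006de00000cc60000180c00000000000011d100000000000004bc00000ac9000004e100000000000000000000000000000aaa0000000000001212000000000000000000000000000008fa00000ee20000000000000b7000000000000016e600000000000012ae0000132c000000000000000000000000000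00b0400000000000017a00000000000000000000000000000088e00000e7600001734000000000000116a00000000000001ce0000000000000000000009d200000fba0000000000000a9800000000000014710000000000001386000016c800000000000000000000165c00000000000011d60000000000000450000013f2000011f400000000000000000000000000000a2c000000000000047400000000000015f000001584000000000000000000001518000000000000082900000000000003e400000000000000000000074a00000c60000014ac000000000000116500000000000003780000144000000ae7000000000000000000000000000009c000000000000013d40000000000000000000000000000095400000f4e00000000000008e8000000000000136800000000000012fc0000129000000000000000000000122400000000000010f9000000000000030c00001183000011ef0000000000000000000000000000087c00000000000011b80000000000000847000008b3000000000000000000000343000000000000007300000000000002a0000000000000000000000606000007db0000000000000810000000000000114c000000000000000000000000000007a400000d32000010e00000000000001074000000000000008a0000000000000000000007380000100800000000000006cc0000000000000f9c0000000000000f3000000ec4000000000000000000000000000006600000000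000000e58000000000000000000000000000005f400000dec00000d800000000000000d14000000000000016200000c7e00000ca8000000000000000000000c3c000000000000079f000000000000023400000000000000000000058800000258000000000000051c0000000000000b220000000000000000000000000000031e0000067e00000bd0000000000000082e00000000000000fc00000000000000000000038a000006ea00000000000004b00000000000000ab6000000000000090600000b64000000000000000000000af8000000000000089a00000000000001c8000009de00000a8c000000000000000000000000000004440000000000000a20000000000000000000000000000003d800000756000000000000036c00000000000009b40000000000000948000008dc000000000000000000000000000003000000000000000870000000000000000000000000000002940000061200000804000000000000079800000000000000900000072c000006c000000000000000000000065400000000000005e8000000000000015c0000000000000000000002280000057c00000510000000000000032a00000000000000f000000396000004a4000000000000000000000000000001bc000000000000043800000000000003cc000003600000000000000000000002f4000000000000028800000000000000840000000000000000000001500000021c00000000000000e400000000000001b00000000000000000000000000000007800000144000000d8000000000000006c0000000000000000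

theorem spec : Spec 7 true idx RK 84 G := fun _ _ _ _ => by eq_refl

theorem cover : cov 8 true H RK CK 84 0 = true := by decide +kernel

end S8x3

namespace S8x3

noncomputable def ts0 : List Nat :=
  [nat_lit 73191045741577505150520227370831922462627726953,
   nat_lit 73191045741577505150520227370831922462627725312,
   nat_lit 73191045741577505150520227370831922462627742832,
   nat_lit 73191045741577505150520227370831922462627734096,
   nat_lit 73191045741577505150520227370831922462628228688,
   nat_lit 73191045741577505150520227370831922462628535312,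
   nat_lit 73191045741577505150520227370831922462649810544,
   nat_lit 73191045741577505150520227370831922462698080688,
   nat_lit 73191045741577505150520227370831922463893561680,
   nat_lit 73191045741577505150520227370831922468904052144,
   nat_lit 73191045741577505150520227370831922550555083152,
   nat_lit 73191045741577505150520227370831923043910078128,
   nat_lit 73191045741577505150520227370831929502860209584,
   nat_lit 73191045741577505150520227370831978331529143824,
   nat_lit 73191045741577505150520227370832547604450114640,
   nat_lit 73191045741577505150520227370837477469228470096,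
   nat_lit 73191045741577505150520227370891681538243860048,
   nat_lit 73191045741577505150520227371400906537787208240,
   nat_lit 73191045741577505150520227376849649974459516720,
   nat_lit 73191045741577505150520227430594988287888861808,
   nat_lit 73191045741577505150520227999518670019156951248,
   nat_lit 73191045741577505150520233779264326233722602288,
   nat_lit 73191045741577505150520294797535657851004262544,
   nat_lit 73191045741577505150520926104967167199260563920,
   nat_lit 73191045741577505150527597382865585484955164944,
   nat_lit 73191045741577505150597427716849964873189536912,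
   nat_lit 73191045741577505151337081658757864515768357808,
   nat_lit 73191045741577505159138948492354346608558275440,
   nat_lit 73191045741577505241996436329220994311839386800,
   nat_lit 73191045741577506120573310018880058913386947760,
   nat_lit 73191045741577515474446462723904094205514625104,
   nat_lit 73191045741577615025642761919217169095711492144,
   nat_lit 73191045741578677194414459496239447520351041488,
   nat_lit 73191045741590012006741450966329052369516478192,
   nat_lit 73191045741711166849225222125933296054595550640,
   nat_lit 73191045743006636405917220268155381076933681008,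
   nat_lit 73191045756873857182244590658019782329723218288]

theorem run0 : go idx G base H RK CK 146 0 84 ts0 = true := by decide +kernel

end S8x3

end Vale.Agent.P348.MomK
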