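import Vale.Agent.P348.MomK

/-! Generated kernel computation of sector moments. -/

open Nat (add sub)

set_option maxRecDepth 1000000
set_option maxHeartbeats 0
set_option linter.unusedVariables false

namespace Vale.Agent.P348.MomK

namespace S8x4

noncomputable def idx : List Nat :=
  [nat_lit 5, nat_lit 7, nat_lit 11, nat_lit 15, nat_lit 19, nat_lit 21, nat_lit 29, nat_lit 33,
  nat_lit 41, nat_lit 43, nat_lit 45, nat_lit 49, nat_lit 53, nat_lit 55, nat_lit 57, nat_lit 63,
  nat_lit 67, nat_lit 71, nat_lit 77, nat_lit 79, nat_lit 83, nat_lit 87, nat_lit 95, nat_lit 97,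
  nat_lit 99, nat_lit 103, nat_lit 107, nat_lit 113, nat_lit 115, nat_lit 119, nat_lit 123, nat_lit 127,
  nat_lit 129, nat_lit 135, nat_lit 139, nat_lit 143, nat_lit 145, nat_lit 147, nat_lit 155, nat_lit 159,
  nat_lit 163, nat_lit 165, nat_lit 171, nat_lit 175, nat_lit 179, nat_lit 185, nat_lit 187, nat_lit 189,
  nat_lit 193, nat_lit 197, nat_lit 199, nat_lit 201, nat_lit 209, nat_lit 213, nat_lit 221, nat_lit 223,
  nat_lit 227, nat_lit 231, nat_lit 235, nat_lit 237, nat_lit 245, nat_lit 249, nat_lit 257, nat_lit 259,
  nat_lit 261, nat_lit 265, nat_lit 269, nat_lit 275, nat_lit 277, nat_lit 281, nat_lit 285, nat_lit 289,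
  nat_lit 291, nat_lit 297, nat_lit 301, nat_lit 305, nat_lit 307, nat_lit 309, nat_lit 317, nat_lit 321,
  nat_lit 329, nat_lit 331, nat_lit 335, nat_lit 339, nat_lit 343, nat_lit 345, nat_lit 353, nat_lit 357,
  nat_lit 365, nat_lit 367, nat_lit 369, nat_lit 373, nat_lit 377, nat_lit 379, nat_lit 381, nat_lit 387,
  nat_lit 391, nat_lit 395, nat_lit 401, nat_lit 403, nat_lit 405, nat_lit 409, nat_lit 413, nat_lit 415,
  nat_lit 417, nat_lit 425, nat_lit 429, nat_lit 433, nat_lit 435, nat_lit 441, nat_lit 445, nat_lit 449,
  nat_lit 455, nat_lit 457, nat_lit 461, nat_lit 465, nat_lit 473, nat_lit 475, nat_lit 477, nat_lit 481,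
  nat_lit 485, nat_lit 487, nat_lit 489, nat_lit 495, nat_lit 499, nat_lit 503, nat_lit 509, nat_lit 511,
  nat_lit 513, nat_lit 517, nat_lit 521, nat_lit 523, nat_lit 525, nat_lit 533, nat_lit 537, nat_lit 545,
  nat_lit 547, nat_lit 551, nat_lit 555, nat_lit 559, nat_lit 561, nat_lit 567, nat_lit 571, nat_lit 575,
  nat_lit 577, nat_lit 579, nat_lit 587, nat_lit 591, nat_lit 595, nat_lit 597, nat_lit 603, nat_lit 607,
  nat_lit 611, nat_lit 617, nat_lit 619, nat_lit 623, nat_lit 627, nat_lit 635, nat_lit 637, nat_lit 639,
  nat_lit 643, nat_lit 647, nat_lit 653, nat_lit 655, nat_lit 659, nat_lit 663, nat_lit 667, nat_lit 669,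
  nat_lit 677, nat_lit 681, nat_lit 689, nat_lit 691, nat_lit 693, nat_lit 697, nat_lit 701, nat_lit 703,
  nat_lit 705, nat_lit 711, nat_lit 715, nat_lit 719, nat_lit 725, nat_lit 727, nat_lit 731, nat_lit 735,
  nat_lit 743, nat_lit 745, nat_lit 747, nat_lit 751, nat_lit 755, nat_lit 761, nat_lit 763, nat_lit 767,
  nat_lit 771, nat_lit 775, nat_lit 777, nat_lit 783, nat_lit 787, nat_lit 791, nat_lit 793, nat_lit 795,
  nat_lit 803, nat_lit 807, nat_lit 815, nat_lit 817, nat_lit 821, nat_lit 825, nat_lit 829, nat_lit 831,
  nat_lit 839, nat_lit 843, nat_lit 851, nat_lit 853, nat_lit 855, nat_lit 859, nat_lit 863, nat_lit 865,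
  nat_lit 867, nat_lit 873, nat_lit 877, nat_lit 881, nat_lit 887, nat_lit 889, nat_lit 891, nat_lit 895,
  nat_lit 899, nat_lit 901, nat_lit 903, nat_lit 911, nat_lit 915, nat_lit 919, nat_lit 921, nat_lit 927,
  nat_lit 931, nat_lit 935, nat_lit 941, nat_lit 943, nat_lit 947, nat_lit 951, nat_lit 959, nat_lit 961,
  nat_lit 963, nat_lit 967, nat_lit 971, nat_lit 977, nat_lit 979, nat_lit 983, nat_lit 987, nat_lit 991,
  nat_lit 993, nat_lit 1001, nat_lit 1005, nat_lit 1013, nat_lit 1015, nat_lit 1017, nat_lit 1021, nat_lit 1025,
  nat_lit 1027, nat_lit 1029, nat_lit 1035, nat_lit 1039, nat_lit 1043, nat_lit 1049, nat_lit 1051, nat_lit 1055,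
  nat_lit 1059, nat_lit 1067, nat_lit 1069, nat_lit 1071, nat_lit 1075, nat_lit 1079, nat_lit 1085, nat_lit 1087,
  nat_lit 1091, nat_lit 1095, nat_lit 1099, nat_lit 1101, nat_lit 1107, nat_lit 1111, nat_lit 1115, nat_lit 1117,
  nat_lit 1119, nat_lit 1127, nat_lit 1131, nat_lit 1135, nat_lit 1137, nat_lit 1143, nat_lit 1147, nat_lit 1151,
  nat_lit 1157, nat_lit 1159, nat_lit 1161, nat_lit 1165, nat_lit 1169, nat_lit 1171, nat_lit 1173, nat_lit 1181,
  nat_lit 1185, nat_lit 1193, nat_lit 1195, nat_lit 1199, nat_lit 1203, nat_lit 1207, nat_lit 1209, nat_lit 1215,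
  nat_lit 1219, nat_lit 1223, nat_lit 1225, nat_lit 1227, nat_lit 1235, nat_lit 1239, nat_lit 1243, nat_lit 1245,
  nat_lit 1251, nat_lit 1255, nat_lit 1259, nat_lit 1265, nat_lit 1267, nat_lit 1271, nat_lit 1275, nat_lit 1283,
  nat_lit 1285, nat_lit 1287, nat_lit 1291, nat_lit 1295, nat_lit 1297, nat_lit 1299, nat_lit 1305, nat_lit 1309,
  nat_lit 1313, nat_lit 1319, nat_lit 1321, nat_lit 1323, nat_lit 1327, nat_lit 1331, nat_lit 1333, nat_lit 1335,
  nat_lit 1343, nat_lit 1347, nat_lit 1355, nat_lit 1357, nat_lit 1361, nat_lit 1365, nat_lit 1369, nat_lit 1371,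
  nat_lit 1379, nat_lit 1383, nat_lit 1391, nat_lit 1393, nat_lit 1395, nat_lit 1399, nat_lit 1403, nat_lit 1409,
  nat_lit 1411, nat_lit 1415, nat_lit 1419, nat_lit 1423, nat_lit 1425, nat_lit 1431, nat_lit 1435, nat_lit 1439,
  nat_lit 1441, nat_lit 1443, nat_lit 1451, nat_lit 1455, nat_lit 1459, nat_lit 1461, nat_lit 1467, nat_lit 1471,
  nat_lit 1475, nat_lit 1481, nat_lit 1483, nat_lit 1485, nat_lit 1489, nat_lit 1493, nat_lit 1495, nat_lit 1497,
  nat_lit 1505, nat_lit 1509, nat_lit 1517, nat_lit 1519, nat_lit 1523, nat_lit 1527, nat_lit 1531, nat_lit 1533,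
  nat_lit 1539, nat_lit 1543, nat_lit 1547, nat_lit 1549, nat_lit 1551, nat_lit 1559, nat_lit 1563, nat_lit 1567,
  nat_lit 1569, nat_lit 1575, nat_lit 1579, nat_lit 1583, nat_lit 1589, nat_lit 1591, nat_lit 1595, nat_lit 1599,
  nat_lit 1607, nat_lit 1609, nat_lit 1611, nat_lit 1615, nat_lit 1619, nat_lit 1625, nat_lit 1627, nat_lit 1631,
  nat_lit 1635, nat_lit 1639, nat_lit 1641, nat_lit 1649, nat_lit 1653, nat_lit 1661, nat_lit 1663, nat_lit 1665,
  nat_lit 1669, nat_lit 1673, nat_lit 1675, nat_lit 1677, nat_lit 1683, nat_lit 1687, nat_lit 1691, nat_lit 1697,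
  nat_lit 1699, nat_lit 1701, nat_lit 1705, nat_lit 1709, nat_lit 1711, nat_lit 1713, nat_lit 1721, nat_lit 1725,
  nat_lit 1729, nat_lit 1731, nat_lit 1737, nat_lit 1741, nat_lit 1745, nat_lit 1751, nat_lit 1753, nat_lit 1757,
  nat_lit 1761, nat_lit 1769, nat_lit 1771, nat_lit 1773, nat_lit 1777, nat_lit 1781, nat_lit 1783, nat_lit 1785,
  nat_lit 1791, nat_lit 1795, nat_lit 1799, nat_lit 1805, nat_lit 1807, nat_lit 1809, nat_lit 1813, nat_lit 1817,
  nat_lit 1819, nat_lit 1821, nat_lit 1829, nat_lit 1833, nat_lit 1841, nat_lit 1843, nat_lit 1847, nat_lit 1851,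
  nat_lit 1855, nat_lit 1857, nat_lit 1865, nat_lit 1869, nat_lit 1877, nat_lit 1879, nat_lit 1881, nat_lit 1885,
  nat_lit 1889, nat_lit 1895, nat_lit 1897, nat_lit 1901, nat_lit 1905, nat_lit 1909, nat_lit 1911, nat_lit 1917,
  nat_lit 1921, nat_lit 1925, nat_lit 1927, nat_lit 1929, nat_lit 1937, nat_lit 1941, nat_lit 1949, nat_lit 1951,
  nat_lit 1955, nat_lit 1959, nat_lit 1963, nat_lit 1965, nat_lit 1973, nat_lit 1977, nat_lit 1985, nat_lit 1987,
  nat_lit 1989, nat_lit 1993, nat_lit 1997, nat_lit 1999, nat_lit 2001, nat_lit 2007, nat_lit 2011, nat_lit 2015,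
  nat_lit 2021, nat_lit 2023, nat_lit 2027, nat_lit 2031, nat_lit 2039, nat_lit 2041, nat_lit 2043, nat_lit 2047,
  nat_lit 2051, nat_lit 2057, nat_lit 2059, nat_lit 2063, nat_lit 2067, nat_lit 2071, nat_lit 2073, nat_lit 2079,
  nat_lit 2083, nat_lit 2087, nat_lit 2089, nat_lit 2091, nat_lit 2099, nat_lit 2103, nat_lit 2107, nat_lit 2109,
  nat_lit 2115, nat_lit 2119, nat_lit 2123, nat_lit 2129, nat_lit 2131, nat_lit 2133, nat_lit 2137, nat_lit 2141,
  nat_lit 2143, nat_lit 2145, nat_lit 2153, nat_lit 2157, nat_lit 2165, nat_lit 2167, nat_lit 2171, nat_lit 2175,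
  nat_lit 2179, nat_lit 2181, nat_lit 2189, nat_lit 2193, nat_lit 2201, nat_lit 2203, nat_lit 2205, nat_lit 2209,
  nat_lit 2213, nat_lit 2219, nat_lit 2221, nat_lit 2225, nat_lit 2229, nat_lit 2233, nat_lit 2235, nat_lit 2241,
  nat_lit 2245, nat_lit 2249, nat_lit 2251, nat_lit 2253, nat_lit 2261, nat_lit 2265, nat_lit 2273, nat_lit 2275,
  nat_lit 2279, nat_lit 2283, nat_lit 2287, nat_lit 2289, nat_lit 2297, nat_lit 2301, nat_lit 2309, nat_lit 2311,
  nat_lit 2313, nat_lit 2317, nat_lit 2321, nat_lit 2323, nat_lit 2325, nat_lit 2331, nat_lit 2335, nat_lit 2339,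
  nat_lit 2345, nat_lit 2347, nat_lit 2349, nat_lit 2353, nat_lit 2357, nat_lit 2359, nat_lit 2361, nat_lit 2369,
  nat_lit 2373, nat_lit 2377, nat_lit 2379, nat_lit 2385, nat_lit 2389, nat_lit 2393, nat_lit 2399, nat_lit 2401,
  nat_lit 2405, nat_lit 2409, nat_lit 2417, nat_lit 2419, nat_lit 2421, nat_lit 2425, nat_lit 2429, nat_lit 2435,
  nat_lit 2437, nat_lit 2441, nat_lit 2445, nat_lit 2449, nat_lit 2451, nat_lit 2459, nat_lit 2463, nat_lit 2471,
  nat_lit 2473, nat_lit 2475, nat_lit 2479, nat_lit 2483, nat_lit 2485, nat_lit 2487, nat_lit 2493, nat_lit 2497,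
  nat_lit 2501, nat_lit 2507, nat_lit 2509, nat_lit 2513, nat_lit 2517, nat_lit 2525, nat_lit 2527, nat_lit 2529,
  nat_lit 2533, nat_lit 2537, nat_lit 2543, nat_lit 2545, nat_lit 2549, nat_lit 2553, nat_lit 2557, nat_lit 2559,
  nat_lit 2565, nat_lit 2569, nat_lit 2573, nat_lit 2575, nat_lit 2577, nat_lit 2585, nat_lit 2589, nat_lit 2593,
  nat_lit 2595, nat_lit 2601, nat_lit 2605, nat_lit 2609, nat_lit 2615, nat_lit 2617, nat_lit 2619, nat_lit 2623,
  nat_lit 2627, nat_lit 2629, nat_lit 2631, nat_lit 2639, nat_lit 2643, nat_lit 2651, nat_lit 2653, nat_lit 2657,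
  nat_lit 2661, nat_lit 2665, nat_lit 2667, nat_lit 2673, nat_lit 2677, nat_lit 2681, nat_lit 2683, nat_lit 2685,
  nat_lit 2693, nat_lit 2697, nat_lit 2701, nat_lit 2703, nat_lit 2709, nat_lit 2713, nat_lit 2717, nat_lit 2723,
  nat_lit 2725, nat_lit 2729, nat_lit 2733, nat_lit 2741, nat_lit 2743, nat_lit 2745, nat_lit 2749, nat_lit 2753,
  nat_lit 2755, nat_lit 2757, nat_lit 2763, nat_lit 2767, nat_lit 2771, nat_lit 2777, nat_lit 2779, nat_lit 2781,
  nat_lit 2785, nat_lit 2789, nat_lit 2791, nat_lit 2793, nat_lit 2801, nat_lit 2805, nat_lit 2813, nat_lit 2815,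
  nat_lit 2819, nat_lit 2823, nat_lit 2827, nat_lit 2829, nat_lit 2837, nat_lit 2841, nat_lit 2849, nat_lit 2851,
  nat_lit 2853, nat_lit 2857, nat_lit 2861, nat_lit 2867, nat_lit 2869, nat_lit 2873, nat_lit 2877, nat_lit 2881,
  nat_lit 2883, nat_lit 2889, nat_lit 2893, nat_lit 2897, nat_lit 2899, nat_lit 2901, nat_lit 2909, nat_lit 2913,
  nat_lit 2921, nat_lit 2923, nat_lit 2927, nat_lit 2931, nat_lit 2935, nat_lit 2937, nat_lit 2945, nat_lit 2949,
  nat_lit 2957, nat_lit 2959, nat_lit 2961, nat_lit 2965, nat_lit 2969, nat_lit 2971, nat_lit 2973, nat_lit 2979,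
  nat_lit 2983, nat_lit 2987, nat_lit 2993, nat_lit 2995, nat_lit 2999, nat_lit 3003, nat_lit 3011, nat_lit 3013,
  nat_lit 3015, nat_lit 3019, nat_lit 3023, nat_lit 3029, nat_lit 3031, nat_lit 3035, nat_lit 3039, nat_lit 3043,
  nat_lit 3045, nat_lit 3051, nat_lit 3055, nat_lit 3059, nat_lit 3061, nat_lit 3063, nat_lit 3071, nat_lit 3075,
  nat_lit 3079, nat_lit 3081, nat_lit 3087, nat_lit 3091, nat_lit 3095, nat_lit 3101, nat_lit 3103, nat_lit 3105,
  nat_lit 3109, nat_lit 3113, nat_lit 3115, nat_lit 3117, nat_lit 3125, nat_lit 3129, nat_lit 3137, nat_lit 3139,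
  nat_lit 3143, nat_lit 3147, nat_lit 3151, nat_lit 3153, nat_lit 3161, nat_lit 3165, nat_lit 3173, nat_lit 3175,
  nat_lit 3177, nat_lit 3181, nat_lit 3185, nat_lit 3191, nat_lit 3193, nat_lit 3197, nat_lit 3201, nat_lit 3205,
  nat_lit 3207, nat_lit 3213, nat_lit 3217, nat_lit 3221, nat_lit 3223, nat_lit 3225, nat_lit 3233, nat_lit 3237,
  nat_lit 3245, nat_lit 3247, nat_lit 3251, nat_lit 3255, nat_lit 3259, nat_lit 3261, nat_lit 3269, nat_lit 3273,
  nat_lit 3281, nat_lit 3283, nat_lit 3285, nat_lit 3289, nat_lit 3293, nat_lit 3295, nat_lit 3297, nat_lit 3303,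
  nat_lit 3307, nat_lit 3311, nat_lit 3317, nat_lit 3319, nat_lit 3321, nat_lit 3325, nat_lit 3329, nat_lit 3331,
  nat_lit 3333, nat_lit 3341, nat_lit 3345, nat_lit 3349, nat_lit 3351, nat_lit 3357, nat_lit 3361, nat_lit 3365,
  nat_lit 3371, nat_lit 3373, nat_lit 3377, nat_lit 3381, nat_lit 3389, nat_lit 3391, nat_lit 3393, nat_lit 3397,
  nat_lit 3401, nat_lit 3403, nat_lit 3405, nat_lit 3411, nat_lit 3415, nat_lit 3419, nat_lit 3425, nat_lit 3427,
  nat_lit 3429, nat_lit 3433, nat_lit 3437, nat_lit 3439, nat_lit 3441, nat_lit 3449, nat_lit 3453, nat_lit 3461,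
  nat_lit 3463, nat_lit 3467, nat_lit 3471, nat_lit 3475, nat_lit 3477, nat_lit 3483, nat_lit 3487, nat_lit 3491,
  nat_lit 3493, nat_lit 3495, nat_lit 3503, nat_lit 3507, nat_lit 3511, nat_lit 3513, nat_lit 3519, nat_lit 3523,
  nat_lit 3527, nat_lit 3533, nat_lit 3535, nat_lit 3539, nat_lit 3543, nat_lit 3551, nat_lit 3553, nat_lit 3555,
  nat_lit 3559, nat_lit 3563, nat_lit 3569, nat_lit 3571, nat_lit 3575, nat_lit 3579, nat_lit 3583, nat_lit 3585,
  nat_lit 3593, nat_lit 3597, nat_lit 3605, nat_lit 3607, nat_lit 3609, nat_lit 3613, nat_lit 3617, nat_lit 3619,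
  nat_lit 3621, nat_lit 3627, nat_lit 3631, nat_lit 3635, nat_lit 3641, nat_lit 3643, nat_lit 3645, nat_lit 3649,
  nat_lit 3653, nat_lit 3655, nat_lit 3657, nat_lit 3665, nat_lit 3669, nat_lit 3673, nat_lit 3675, nat_lit 3681,
  nat_lit 3685, nat_lit 3689, nat_lit 3695, nat_lit 3697, nat_lit 3701, nat_lit 3705, nat_lit 3713, nat_lit 3715,
  nat_lit 3717, nat_lit 3721, nat_lit 3725, nat_lit 3727, nat_lit 3729, nat_lit 3735, nat_lit 3739, nat_lit 3743,
  nat_lit 3749, nat_lit 3751, nat_lit 3753, nat_lit 3757, nat_lit 3761, nat_lit 3763, nat_lit 3765, nat_lit 3773,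
  nat_lit 3777, nat_lit 3785, nat_lit 3787, nat_lit 3791, nat_lit 3795, nat_lit 3799, nat_lit 3801, nat_lit 3809,
  nat_lit 3813, nat_lit 3821, nat_lit 3823, nat_lit 3825, nat_lit 3829, nat_lit 3833, nat_lit 3839, nat_lit 3841,
  nat_lit 3845, nat_lit 3849, nat_lit 3853, nat_lit 3855, nat_lit 3861, nat_lit 3865, nat_lit 3869, nat_lit 3871,
  nat_lit 3873, nat_lit 3881, nat_lit 3885, nat_lit 3889, nat_lit 3891, nat_lit 3897, nat_lit 3901, nat_lit 3905,
  nat_lit 3911, nat_lit 3913, nat_lit 3915, nat_lit 3919, nat_lit 3923, nat_lit 3925, nat_lit 3927, nat_lit 3935,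
  nat_lit 3939, nat_lit 3947, nat_lit 3949, nat_lit 3953, nat_lit 3957, nat_lit 3961, nat_lit 3963, nat_lit 3969,
  nat_lit 3973, nat_lit 3977, nat_lit 3979, nat_lit 3981, nat_lit 3989, nat_lit 3993, nat_lit 3997, nat_lit 3999,
  nat_lit 4005, nat_lit 4009, nat_lit 4013, nat_lit 4019, nat_lit 4021, nat_lit 4025, nat_lit 4029, nat_lit 4037,
  nat_lit 4039, nat_lit 4041, nat_lit 4045, nat_lit 4049, nat_lit 4055, nat_lit 4057, nat_lit 4061, nat_lit 4065,
  nat_lit 4069, nat_lit 4071, nat_lit 4079, nat_lit 4083, nat_lit 4091, nat_lit 4093, nat_lit 4095, nat_lit 4099,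
  nat_lit 4103, nat_lit 4105, nat_lit 4107, nat_lit 4113, nat_lit 4117, nat_lit 4121, nat_lit 4127, nat_lit 4129,
  nat_lit 4133, nat_lit 4137, nat_lit 4145, nat_lit 4147, nat_lit 4149, nat_lit 4153, nat_lit 4157, nat_lit 4163,
  nat_lit 4165, nat_lit 4169, nat_lit 4173, nat_lit 4177, nat_lit 4179, nat_lit 4185, nat_lit 4189, nat_lit 4193,
  nat_lit 4195, nat_lit 4197, nat_lit 4205, nat_lit 4209, nat_lit 4217, nat_lit 4219, nat_lit 4223, nat_lit 4227,
  nat_lit 4231, nat_lit 4233, nat_lit 4241, nat_lit 4245, nat_lit 4253, nat_lit 4255, nat_lit 4257, nat_lit 4261,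
  nat_lit 4265, nat_lit 4267, nat_lit 4269, nat_lit 4275, nat_lit 4279, nat_lit 4283, nat_lit 4289, nat_lit 4291,
  nat_lit 4293, nat_lit 4297, nat_lit 4301, nat_lit 4303, nat_lit 4305, nat_lit 4313, nat_lit 4317, nat_lit 4321,
  nat_lit 4323, nat_lit 4329, nat_lit 4333, nat_lit 4337, nat_lit 4343, nat_lit 4345, nat_lit 4349, nat_lit 4353,
  nat_lit 4361, nat_lit 4363, nat_lit 4365, nat_lit 4369, nat_lit 4373, nat_lit 4375, nat_lit 4377, nat_lit 4383,
  nat_lit 4387, nat_lit 4391, nat_lit 4397, nat_lit 4399, nat_lit 4401, nat_lit 4405, nat_lit 4409, nat_lit 4411,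
  nat_lit 4413, nat_lit 4421, nat_lit 4425, nat_lit 4433, nat_lit 4435, nat_lit 4439, nat_lit 4443, nat_lit 4447,
  nat_lit 4449, nat_lit 4455, nat_lit 4459, nat_lit 4463, nat_lit 4465, nat_lit 4467, nat_lit 4475, nat_lit 4479,
  nat_lit 4483, nat_lit 4485, nat_lit 4491, nat_lit 4495, nat_lit 4499, nat_lit 4505, nat_lit 4507, nat_lit 4511,
  nat_lit 4515, nat_lit 4523, nat_lit 4525, nat_lit 4527, nat_lit 4531, nat_lit 4535, nat_lit 4541, nat_lit 4543,
  nat_lit 4547, nat_lit 4551, nat_lit 4555, nat_lit 4557, nat_lit 4565, nat_lit 4569, nat_lit 4577, nat_lit 4579,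
  nat_lit 4581, nat_lit 4585, nat_lit 4589, nat_lit 4591, nat_lit 4593, nat_lit 4599, nat_lit 4603, nat_lit 4607,
  nat_lit 4613, nat_lit 4615, nat_lit 4617, nat_lit 4621, nat_lit 4625, nat_lit 4627, nat_lit 4629, nat_lit 4637,
  nat_lit 4641, nat_lit 4645, nat_lit 4647, nat_lit 4653, nat_lit 4657, nat_lit 4661, nat_lit 4667, nat_lit 4669,
  nat_lit 4673, nat_lit 4677, nat_lit 4685, nat_lit 4687, nat_lit 4689, nat_lit 4693, nat_lit 4697, nat_lit 4699,
  nat_lit 4701, nat_lit 4707, nat_lit 4711, nat_lit 4715, nat_lit 4721, nat_lit 4723, nat_lit 4725, nat_lit 4729,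
  nat_lit 4733, nat_lit 4735, nat_lit 4737, nat_lit 4745, nat_lit 4749, nat_lit 4757, nat_lit 4759, nat_lit 4763,
  nat_lit 4767, nat_lit 4771, nat_lit 4773, nat_lit 4781, nat_lit 4785, nat_lit 4793, nat_lit 4795, nat_lit 4797,
  nat_lit 4801, nat_lit 4805, nat_lit 4811, nat_lit 4813, nat_lit 4817, nat_lit 4821, nat_lit 4825, nat_lit 4827,
  nat_lit 4833, nat_lit 4837, nat_lit 4841, nat_lit 4843, nat_lit 4845, nat_lit 4853, nat_lit 4857, nat_lit 4865,
  nat_lit 4867, nat_lit 4871, nat_lit 4875, nat_lit 4879, nat_lit 4881, nat_lit 4889, nat_lit 4893, nat_lit 4901,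
  nat_lit 4903, nat_lit 4905, nat_lit 4909, nat_lit 4913, nat_lit 4915, nat_lit 4917, nat_lit 4923, nat_lit 4927,
  nat_lit 4931, nat_lit 4937, nat_lit 4939, nat_lit 4943, nat_lit 4947, nat_lit 4955, nat_lit 4957, nat_lit 4959,
  nat_lit 4963, nat_lit 4967, nat_lit 4973, nat_lit 4975, nat_lit 4979, nat_lit 4983, nat_lit 4987, nat_lit 4989,
  nat_lit 4995, nat_lit 4999, nat_lit 5003, nat_lit 5005, nat_lit 5007, nat_lit 5015, nat_lit 5019, nat_lit 5023,
  nat_lit 5025, nat_lit 5031, nat_lit 5035, nat_lit 5039, nat_lit 5045, nat_lit 5047, nat_lit 5049, nat_lit 5053,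
  nat_lit 5057, nat_lit 5059, nat_lit 5061, nat_lit 5069, nat_lit 5073, nat_lit 5081, nat_lit 5083, nat_lit 5087,
  nat_lit 5091, nat_lit 5095, nat_lit 5097, nat_lit 5103, nat_lit 5107, nat_lit 5111, nat_lit 5113, nat_lit 5115,
  nat_lit 5123, nat_lit 5127, nat_lit 5131, nat_lit 5133, nat_lit 5139, nat_lit 5143, nat_lit 5147, nat_lit 5153,
  nat_lit 5155, nat_lit 5159, nat_lit 5163, nat_lit 5171, nat_lit 5173, nat_lit 5175, nat_lit 5179, nat_lit 5183,
  nat_lit 5185, nat_lit 5187, nat_lit 5193, nat_lit 5197, nat_lit 5201, nat_lit 5207, nat_lit 5209, nat_lit 5211,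
  nat_lit 5215, nat_lit 5219, nat_lit 5221, nat_lit 5223, nat_lit 5231, nat_lit 5235, nat_lit 5243, nat_lit 5245,
  nat_lit 5249, nat_lit 5253, nat_lit 5257, nat_lit 5259, nat_lit 5267, nat_lit 5271, nat_lit 5279, nat_lit 5281,
  nat_lit 5283, nat_lit 5287, nat_lit 5291, nat_lit 5297, nat_lit 5299, nat_lit 5303, nat_lit 5307, nat_lit 5311,
  nat_lit 5313, nat_lit 5319, nat_lit 5323, nat_lit 5327, nat_lit 5329, nat_lit 5331, nat_lit 5339, nat_lit 5343,
  nat_lit 5347, nat_lit 5349, nat_lit 5355, nat_lit 5359, nat_lit 5363, nat_lit 5369, nat_lit 5371, nat_lit 5373,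
  nat_lit 5377, nat_lit 5381, nat_lit 5383, nat_lit 5385, nat_lit 5393, nat_lit 5397, nat_lit 5405, nat_lit 5407,
  nat_lit 5411, nat_lit 5415, nat_lit 5419, nat_lit 5421, nat_lit 5427, nat_lit 5431, nat_lit 5435, nat_lit 5437,
  nat_lit 5439, nat_lit 5447, nat_lit 5451, nat_lit 5455, nat_lit 5457, nat_lit 5463, nat_lit 5467, nat_lit 5471,
  nat_lit 5477, nat_lit 5479, nat_lit 5483, nat_lit 5487, nat_lit 5495, nat_lit 5497, nat_lit 5499, nat_lit 5503,
  nat_lit 5507, nat_lit 5513, nat_lit 5515, nat_lit 5519, nat_lit 5523, nat_lit 5527, nat_lit 5529, nat_lit 5537,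
  nat_lit 5541, nat_lit 5549, nat_lit 5551, nat_lit 5553, nat_lit 5557, nat_lit 5561, nat_lit 5563, nat_lit 5565,
  nat_lit 5571, nat_lit 5575, nat_lit 5579, nat_lit 5585, nat_lit 5587, nat_lit 5591, nat_lit 5595, nat_lit 5603,
  nat_lit 5605, nat_lit 5607, nat_lit 5611, nat_lit 5615, nat_lit 5621, nat_lit 5623, nat_lit 5627, nat_lit 5631,
  nat_lit 5635, nat_lit 5637, nat_lit 5643, nat_lit 5647, nat_lit 5651, nat_lit 5653, nat_lit 5655, nat_lit 5663,
  nat_lit 5667, nat_lit 5675, nat_lit 5677, nat_lit 5681, nat_lit 5685, nat_lit 5689, nat_lit 5691, nat_lit 5699,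
  nat_lit 5703, nat_lit 5711, nat_lit 5713, nat_lit 5715, nat_lit 5719, nat_lit 5723, nat_lit 5725, nat_lit 5727,
  nat_lit 5733, nat_lit 5737, nat_lit 5741, nat_lit 5747, nat_lit 5749, nat_lit 5751, nat_lit 5755, nat_lit 5759,
  nat_lit 5761, nat_lit 5763, nat_lit 5771, nat_lit 5775, nat_lit 5779, nat_lit 5781, nat_lit 5787, nat_lit 5791,
  nat_lit 5795, nat_lit 5801, nat_lit 5803, nat_lit 5807, nat_lit 5811, nat_lit 5819, nat_lit 5821, nat_lit 5823,
  nat_lit 5827, nat_lit 5831, nat_lit 5837, nat_lit 5839, nat_lit 5843, nat_lit 5847, nat_lit 5851, nat_lit 5853,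
  nat_lit 5861, nat_lit 5865, nat_lit 5873, nat_lit 5875, nat_lit 5877, nat_lit 5881, nat_lit 5885, nat_lit 5887,
  nat_lit 5889, nat_lit 5895, nat_lit 5899, nat_lit 5903, nat_lit 5909, nat_lit 5911, nat_lit 5915, nat_lit 5919,
  nat_lit 5927, nat_lit 5929, nat_lit 5931, nat_lit 5935, nat_lit 5939, nat_lit 5945, nat_lit 5947, nat_lit 5951,
  nat_lit 5955, nat_lit 5959, nat_lit 5961, nat_lit 5967, nat_lit 5971, nat_lit 5975, nat_lit 5977, nat_lit 5979,
  nat_lit 5987, nat_lit 5991, nat_lit 5995, nat_lit 5997, nat_lit 6003, nat_lit 6007, nat_lit 6011, nat_lit 6017,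
  nat_lit 6019, nat_lit 6021, nat_lit 6025, nat_lit 6029, nat_lit 6031, nat_lit 6033, nat_lit 6041, nat_lit 6045,
  nat_lit 6053, nat_lit 6055, nat_lit 6059, nat_lit 6063, nat_lit 6067, nat_lit 6069, nat_lit 6077, nat_lit 6081,
  nat_lit 6089, nat_lit 6091, nat_lit 6093, nat_lit 6097, nat_lit 6101, nat_lit 6107, nat_lit 6109, nat_lit 6113,
  nat_lit 6117, nat_lit 6121, nat_lit 6123, nat_lit 6129, nat_lit 6133, nat_lit 6137, nat_lit 6139, nat_lit 6141,
  nat_lit 6149, nat_lit 6153, nat_lit 6161, nat_lit 6163, nat_lit 6167, nat_lit 6171, nat_lit 6175, nat_lit 6177,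
  nat_lit 6185, nat_lit 6189, nat_lit 6197, nat_lit 6199, nat_lit 6201, nat_lit 6205, nat_lit 6209, nat_lit 6211,
  nat_lit 6213, nat_lit 6219, nat_lit 6223, nat_lit 6227, nat_lit 6233, nat_lit 6235, nat_lit 6237, nat_lit 6241,
  nat_lit 6245, nat_lit 6247, nat_lit 6249, nat_lit 6257, nat_lit 6261, nat_lit 6265, nat_lit 6267, nat_lit 6273,
  nat_lit 6277, nat_lit 6281, nat_lit 6287, nat_lit 6289, nat_lit 6293, nat_lit 6297, nat_lit 6305, nat_lit 6307,
  nat_lit 6309, nat_lit 6313, nat_lit 6317, nat_lit 6319, nat_lit 6321, nat_lit 6327, nat_lit 6331, nat_lit 6335,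
  nat_lit 6341, nat_lit 6343, nat_lit 6345, nat_lit 6349, nat_lit 6353, nat_lit 6355, nat_lit 6357, nat_lit 6365,
  nat_lit 6369, nat_lit 6377, nat_lit 6379, nat_lit 6383, nat_lit 6387, nat_lit 6391, nat_lit 6393, nat_lit 6399,
  nat_lit 6403, nat_lit 6407, nat_lit 6409, nat_lit 6411, nat_lit 6419, nat_lit 6423, nat_lit 6427, nat_lit 6429,
  nat_lit 6435, nat_lit 6439, nat_lit 6443, nat_lit 6449, nat_lit 6451, nat_lit 6455, nat_lit 6459, nat_lit 6467,
  nat_lit 6469, nat_lit 6471, nat_lit 6475, nat_lit 6479, nat_lit 6485, nat_lit 6487, nat_lit 6491, nat_lit 6495,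
  nat_lit 6499, nat_lit 6501, nat_lit 6509, nat_lit 6513, nat_lit 6521, nat_lit 6523, nat_lit 6525, nat_lit 6529,
  nat_lit 6533, nat_lit 6535, nat_lit 6537, nat_lit 6543, nat_lit 6547, nat_lit 6551, nat_lit 6557, nat_lit 6559]

def TT : Type :=
  Nat → Nat → Nat → Nat → Nat → Nat → Nat → Nat → Nat → Nat → Nat → Nat → Nat → Nat → Nat → Nat →
  Nat → Nat → Nat → Nat → Nat → Nat → Nat → Nat → Nat → Nat → Nat → Nat → Nat → Nat → Nat → Nat →
  Nat → Nat → Nat → Nat → Nat → Nat → Nat → Nat → Nat → Nat → Nat → Nat → Nat → Nat → Nat → Nat →
  Nat → Nat → Nat → Nat → Nat → Nat → Nat → Nat → Nat → Nat → Nat → Nat → Nat → Nat → Nat → Nat →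
  Nat → Nat → Nat → Nat → Nat → Nat → Nat → Nat → Nat → Nat → Nat → Nat → Nat → Nat → Nat → Nat →
  Nat → Nat → Nat → Nat → Nat → Nat → Nat → Nat → Nat → Nat → Nat → Nat → Nat → Nat → Nat → Nat →
  Nat → Nat → Nat → Nat → Nat → Nat → Nat → Nat → Nat → Nat → Nat → Nat → Nat → Nat → Nat → Nat →
  Nat → Nat → Nat → Nat → Nat → Nat → Nat → Nat → Nat → Nat → Nat → Nat → Nat → Nat → Nat → Nat →
  Nat → Nat → Nat → Nat → Nat → Nat → Nat → Nat → Nat → Nat → Nat → Nat → Nat → Nat → Nat → Nat →
  Nat → Nat → Nat → Nat → Nat → Nat → Nat → Nat → Nat → Nat → Nat → Nat → Nat → Nat → Nat → Nat →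
  Nat → Nat → Nat → Nat → Nat → Nat → Nat → Nat → Nat → Nat → Nat → Nat → Nat → Nat → Nat → Nat →
  Nat → Nat → Nat → Nat → Nat → Nat → Nat → Nat → Nat → Nat → Nat → Nat → Nat → Nat → Nat → Nat →
  Nat → Nat → Nat → Nat → Nat → Nat → Nat → Nat → Nat → Nat → Nat → Nat → Nat → Nat → Nat → Nat →
  Nat → Nat → Nat → Nat → Nat → Nat → Nat → Nat → Nat → Nat → Nat → Nat → Nat → Nat → Nat → Nat →
  Nat → Nat → Nat → Nat → Nat → Nat → Nat → Nat → Nat → Nat → Nat → Nat → Nat → Nat → Nat → Nat →
  Nat → Nat → Nat → Nat → Nat → Nat → Nat → Nat → Nat → Nat → Nat → Nat → Nat → Nat → Nat → Nat →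
  Nat → Nat → Nat → Nat → Nat → Nat → Nat → Nat → Nat → Nat → Nat → Nat → Nat → Nat → Nat → Nat →
  Nat → Nat → Nat → Nat → Nat → Nat → Nat → Nat → Nat → Nat → Nat → Nat → Nat → Nat → Nat → Nat →
  Nat → Nat → Nat → Nat → Nat → Nat → Nat → Nat → Nat → Nat → Nat → Nat → Nat → Nat → Nat → Nat →
  Nat → Nat → Nat → Nat → Nat → Nat → Nat → Nat → Nat → Nat → Nat → Nat → Nat → Nat → Nat → Nat →
  Nat → Nat → Nat → Nat → Nat → Nat → Nat → Nat → Nat → Nat → Nat → Nat → Nat → Nat → Nat → Nat →
  Nat → Nat → Nat → Nat → Nat → Nat → Nat → Nat → Nat → Nat → Nat → Nat → Nat → Nat → Nat → Nat →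
  Nat → Nat → Nat → Nat → Nat → Nat → Nat → Nat → Nat → Nat → Nat → Nat → Nat → Nat → Nat → Nat →
  Nat → Nat → Nat → Nat → Nat → Nat → Nat → Nat → Nat → Nat → Nat → Nat → Nat → Nat → Nat → Nat →
  Nat → Nat → Nat → Nat → Nat → Nat → Nat → Nat → Nat → Nat → Nat → Nat → Nat → Nat → Nat → Nat →
  Nat → Nat → Nat → Nat → Nat → Nat → Nat → Nat → Nat → Nat → Nat → Nat → Nat → Nat → Nat → Nat →
  Nat → Nat → Nat → Nat → Nat → Nat → Nat → Nat → Nat → Nat → Nat → Nat → Nat → Nat → Nat → Nat →
  Nat → Nat → Nat → Nat → Nat → Nat → Nat → Nat → Nat → Nat → Nat → Nat → Nat → Nat → Nat → Nat →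
  Nat → Nat → Nat → Nat → Nat → Nat → Nat → Nat → Nat → Nat → Nat → Nat → Nat → Nat → Nat → Nat →
  Nat → Nat → Nat → Nat → Nat → Nat → Nat → Nat → Nat → Nat → Nat → Nat → Nat → Nat → Nat → Nat →
  Nat → Nat → Nat → Nat → Nat → Nat → Nat → Nat → Nat → Nat → Nat → Nat → Nat → Nat → Nat → Nat →
  Nat → Nat → Nat → Nat → Nat → Nat → Nat → Nat → Nat → Nat → Nat → Nat → Nat → Nat → Nat → Nat →
  Nat → Nat → Nat → Nat → Nat → Nat → Nat → Nat → Nat → Nat → Nat → Nat → Nat → Nat → Nat → Nat →
  Nat → Nat → Nat → Nat → Nat → Nat → Nat → Nat → Nat → Nat → Nat → Nat → Nat → Nat → Nat → Nat →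
  Nat → Nat → Nat → Nat → Nat → Nat → Nat → Nat → Nat → Nat → Nat → Nat → Nat → Nat → Nat → Nat →
  Nat → Nat → Nat → Nat → Nat → Nat → Nat → Nat → Nat → Nat → Nat → Nat → Nat → Nat → Nat → Nat →
  Nat → Nat → Nat → Nat → Nat → Nat → Nat → Nat → Nat → Nat → Nat → Nat → Nat → Nat → Nat → Nat →
  Nat → Nat → Nat → Nat → Nat → Nat → Nat → Nat → Nat → Nat → Nat → Nat → Nat → Nat → Nat → Nat →
  Nat → Nat → Nat → Nat → Nat → Nat → Nat → Nat → Nat → Nat → Nat → Nat → Nat → Nat → Nat → Nat →
  Nat → Nat → Nat → Nat → Nat → Nat → Nat → Nat → Nat → Nat → Nat → Nat → Nat → Nat → Nat → Nat →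
  Nat → Nat → Nat → Nat → Nat → Nat → Nat → Nat → Nat → Nat → Nat → Nat → Nat → Nat → Nat → Nat →
  Nat → Nat → Nat → Nat → Nat → Nat → Nat → Nat → Nat → Nat → Nat → Nat → Nat → Nat → Nat → Nat →
  Nat → Nat → Nat → Nat → Nat → Nat → Nat → Nat → Nat → Nat → Nat → Nat → Nat → Nat → Nat → Nat →
  Nat → Nat → Nat → Nat → Nat → Nat → Nat → Nat → Nat → Nat → Nat → Nat → Nat → Nat → Nat → Nat →
  Nat → Nat → Nat → Nat → Nat → Nat → Nat → Nat → Nat → Nat → Nat → Nat → Nat → Nat → Nat → Nat →
  Nat → Nat → Nat → Nat → Nat → Nat → Nat → Nat → Nat → Nat → Nat → Nat → Nat → Nat → Nat → Nat →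
  Nat → Nat → Nat → Nat → Nat → Nat → Nat → Nat → Nat → Nat → Nat → Nat → Nat → Nat → Nat → Nat →
  Nat → Nat → Nat → Nat → Nat → Nat → Nat → Nat → Nat → Nat → Nat → Nat → Nat → Nat → Nat → Nat →
  Nat → Nat → Nat → Nat → Nat → Nat → Nat → Nat → Nat → Nat → Nat → Nat → Nat → Nat → Nat → Nat →
  Nat → Nat → Nat → Nat → Nat → Nat → Nat → Nat → Nat → Nat → Nat → Nat → Nat → Nat → Nat → Nat →
  Nat → Nat → Nat → Nat → Nat → Nat → Nat → Nat → Nat → Nat → Nat → Nat → Nat → Nat → Nat → Nat →
  Nat → Nat → Nat → Nat → Nat → Nat → Nat → Nat → Nat → Nat → Nat → Nat → Nat → Nat → Nat → Nat →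
  Nat → Nat → Nat → Nat → Nat → Nat → Nat → Nat → Nat → Nat → Nat → Nat → Nat → Nat → Nat → Nat →
  Nat → Nat → Nat → Nat → Nat → Nat → Nat → Nat → Nat → Nat → Nat → Nat → Nat → Nat → Nat → Nat →
  Nat → Nat → Nat → Nat → Nat → Nat → Nat → Nat → Nat → Nat → Nat → Nat → Nat → Nat → Nat → Nat →
  Nat → Nat → Nat → Nat → Nat → Nat → Nat → Nat → Nat → Nat → Nat → Nat → Nat → Nat → Nat → Nat →
  Nat → Nat → Nat → Nat → Nat → Nat → Nat → Nat → Nat → Nat → Nat → Nat → Nat → Nat → Nat → Nat →
  Nat → Nat → Nat → Nat → Nat → Nat → Nat → Nat → Nat → Nat → Nat → Nat → Nat → Nat → Nat → Nat →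
  Nat → Nat → Nat → Nat → Nat → Nat → Nat → Nat → Nat → Nat → Nat → Nat → Nat → Nat → Nat → Nat →
  Nat → Nat → Nat → Nat → Nat → Nat → Nat → Nat → Nat → Nat → Nat → Nat → Nat → Nat → Nat → Nat →
  Nat → Nat → Nat → Nat → Nat → Nat → Nat → Nat → Nat → Nat → Nat → Nat → Nat → Nat → Nat → Nat →
  Nat → Nat → Nat → Nat → Nat → Nat → Nat → Nat → Nat → Nat → Nat → Nat → Nat → Nat → Nat → Nat →
  Nat → Nat → Nat → Nat → Nat → Nat → Nat → Nat → Nat → Nat → Nat → Nat → Nat → Nat → Nat → Nat →
  Nat → Nat → Nat → Nat → Nat → Nat → Nat → Nat → Nat → Nat → Nat → Nat → Nat → Nat → Nat → Nat →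
  Nat → Nat → Nat → Nat → Nat → Nat → Nat → Nat → Nat → Nat → Nat → Nat → Nat → Nat → Nat → Nat →
  Nat → Nat → Nat → Nat → Nat → Nat → Nat → Nat → Nat → Nat → Nat → Nat → Nat → Nat → Nat → Nat →
  Nat → Nat → Nat → Nat → Nat → Nat → Nat → Nat → Nat → Nat → Nat → Nat → Nat → Nat → Nat → Nat →
  Nat → Nat → Nat → Nat → Nat → Nat → Nat → Nat → Nat → Nat → Nat → Nat → Nat → Nat → Nat → Nat →
  Nat → Nat → Nat → Nat → Nat → Nat → Nat → Nat → Nat → Nat → Nat → Nat → Nat → Nat → Nat → Nat →
  Nat → Nat → Nat → Nat → Nat → Nat → Nat → Nat → Nat → Nat → Nat → Nat → Nat → Nat → Nat → Nat →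
  Nat → Nat → Nat → Nat → Nat → Nat → Nat → Nat → Nat → Nat → Nat → Nat → Nat → Nat → Nat → Nat →
  Nat → Nat → Nat → Nat → Nat → Nat → Nat → Nat → Nat → Nat → Nat → Nat → Nat → Nat → Nat → Nat →
  Nat → Nat → Nat → Nat → Nat → Nat → Nat → Nat → Nat → Nat → Nat → Nat → Nat → Nat → Nat → Nat →
  Nat → Nat → Nat → Nat → Nat → Nat → Nat → Nat → Nat → Nat → Nat → Nat → Nat → Nat → Nat → Nat →
  Nat → Nat → Nat → Nat → Nat → Nat → Nat → Nat → Nat → Nat → Nat → Nat → Nat → Nat → Nat → Nat →
  Nat → Nat → Nat → Nat → Nat → Nat → Nat → Nat → Nat → Nat → Nat → Nat → Nat → Nat → Nat → Nat →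
  Nat → Nat → Nat → Nat → Nat → Nat → Nat → Nat → Nat → Nat → Nat → Nat → Nat → Nat → Nat → Nat →
  Nat → Nat → Nat → Nat → Nat → Nat → Nat → Nat → Nat → Nat → Nat → Nat → Nat → Nat → Nat → Nat →
  Nat → Nat → Nat → Nat → Nat → Nat → Nat → Nat → Nat → Nat → Nat → Nat → Nat → Nat → Nat → Nat →
  Nat → Nat → Nat → Nat → Nat → Nat → Nat → Nat → Nat → Nat → Nat → Nat → Nat → Nat → Nat → Nat →
  Nat → Nat → Nat → Nat → Nat → Nat → Nat → Nat → Nat → Nat → Nat → Nat → Nat → Nat → Nat → Nat →
  Nat → Nat → Nat → Nat → Nat → Nat → Nat → Nat → Nat → Nat → Nat → Nat → Nat → Nat → Nat → Nat →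
  Nat → Nat → Nat → Nat → Nat → Nat → Nat → Nat → Nat → Nat → Nat → Nat → Nat → Nat → Nat → Nat →
  Nat → Nat → Nat → Nat → Nat → Nat → Nat → Nat → Nat → Nat → Nat → Nat → Nat → Nat → Nat → Nat →
  Nat → Nat → Nat → Nat → Nat → Nat → Nat → Nat → Nat → Nat → Nat → Nat → Nat → Nat → Nat → Nat →
  Nat → Nat → Nat → Nat → Nat → Nat → Nat → Nat → Nat → Nat → Nat → Nat → Nat → Nat → Nat → Nat →
  Nat → Nat → Nat → Nat → Nat → Nat → Nat → Nat → Nat → Nat → Nat → Nat → Nat → Nat → Nat → Nat →
  Nat → Nat → Nat → Nat → Nat → Nat → Nat → Nat → Nat → Nat → Nat → Nat → Nat → Nat → Nat → Nat →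
  Nat → Nat → Nat → Nat → Nat → Nat → Nat → Nat → Nat → Nat → Nat → Nat → Nat → Nat → Nat → Nat →
  Nat → Nat → Nat → Nat → Nat → Nat → Nat → Nat → Nat → Nat → Nat → Nat → Nat → Nat → Nat → Nat →
  Nat → Nat → Nat → Nat → Nat → Nat → Nat → Nat → Nat → Nat → Nat → Nat → Nat → Nat → Nat → Nat →
  Nat → Nat → Nat → Nat → Nat → Nat → Nat → Nat → Nat → Nat → Nat → Nat → Nat → Nat → Nat → Nat →
  Nat → Nat → Nat → Nat → Nat → Nat → Nat → Nat → Nat → Nat → Nat → Nat → Nat → Nat → Nat → Nat →
  Nat → Nat → Nat → Nat → Nat → Nat → Nat → Nat → Nat → Nat → Nat → Nat → Nat → Nat → Nat → Nat →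
  Nat → Nat → Nat → Nat → Nat → Nat → Nat → Nat → Nat → Nat → Nat → Nat → Nat → Nat → Nat → Nat →
  Nat → Nat → Nat → Nat → Nat → Nat → Nat → Nat → Nat → Nat → Nat → Nat → Nat → Nat → Nat → Nat →
  Nat → Nat → Nat → Nat → Nat → Nat → Nat → Nat → Nat → Nat → Nat → Nat → Nat → Nat → Nat → Nat →
  Nat → Nat → Nat → Nat → Nat → Nat → Nat → Nat → Nat → Nat → Nat → Nat → Nat → Nat → Nat → Nat →
  Nat → Nat → Nat → Nat → Nat → Nat → Nat → Nat → Nat → Nat → Nat → Nat → Nat → Nat → Nat → Nat →
  Nat → Nat → Nat → Nat → Nat → Nat → Nat → Nat → Nat → Nat → Nat → Nat → Nat → Nat → Nat → Nat →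
  Nat → Nat → Nat → Nat → Nat → Nat → Nat → Nat → Nat → Nat → Nat → Nat → Nat → Nat → Nat → Nat →
  Nat → Nat → Nat → Nat → Nat → Nat → Nat → Nat → Nat → Nat → Nat → Nat → Nat → Nat → Nat → Nat →
  Nat → Nat → Nat → Nat → Nat → Nat → Nat → Nat → Bool

noncomputable def base : TT :=
  fun _ _ _ _ _ _ _ _ _ _ _ _ _ _ _ _ _ _ _ _ _ _ _ _ _ _ _ _ _ _ _ _ _ _ _ _ _ _ _ _
  _ _ _ _ _ _ _ _ _ _ _ _ _ _ _ _ _ _ _ _ _ _ _ _ _ _ _ _ _ _ _ _ _ _ _ _ _ _ _ _
  _ _ _ _ _ _ _ _ _ _ _ _ _ _ _ _ _ _ _ _ _ _ _ _ _ _ _ _ _ _ _ _ _ _ _ _ _ _ _ _
  _ _ _ _ _ _ _ _ _ _ _ _ _ _ _ _ _ _ _ _ _ _ _ _ _ _ _ _ _ _ _ _ _ _ _ _ _ _ _ _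
  _ _ _ _ _ _ _ _ _ _ _ _ _ _ _ _ _ _ _ _ _ _ _ _ _ _ _ _ _ _ _ _ _ _ _ _ _ _ _ _
  _ _ _ _ _ _ _ _ _ _ _ _ _ _ _ _ _ _ _ _ _ _ _ _ _ _ _ _ _ _ _ _ _ _ _ _ _ _ _ _
  _ _ _ _ _ _ _ _ _ _ _ _ _ _ _ _ _ _ _ _ _ _ _ _ _ _ _ _ _ _ _ _ _ _ _ _ _ _ _ _
  _ _ _ _ _ _ _ _ _ _ _ _ _ _ _ _ _ _ _ _ _ _ _ _ _ _ _ _ _ _ _ _ _ _ _ _ _ _ _ _
  _ _ _ _ _ _ _ _ _ _ _ _ _ _ _ _ _ _ _ _ _ _ _ _ _ _ _ _ _ _ _ _ _ _ _ _ _ _ _ _
  _ _ _ _ _ _ _ _ _ _ _ _ _ _ _ _ _ _ _ _ _ _ _ _ _ _ _ _ _ _ _ _ _ _ _ _ _ _ _ _
  _ _ _ _ _ _ _ _ _ _ _ _ _ _ _ _ _ _ _ _ _ _ _ _ _ _ _ _ _ _ _ _ _ _ _ _ _ _ _ _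
  _ _ _ _ _ _ _ _ _ _ _ _ _ _ _ _ _ _ _ _ _ _ _ _ _ _ _ _ _ _ _ _ _ _ _ _ _ _ _ _
  _ _ _ _ _ _ _ _ _ _ _ _ _ _ _ _ _ _ _ _ _ _ _ _ _ _ _ _ _ _ _ _ _ _ _ _ _ _ _ _
  _ _ _ _ _ _ _ _ _ _ _ _ _ _ _ _ _ _ _ _ _ _ _ _ _ _ _ _ _ _ _ _ _ _ _ _ _ _ _ _
  _ _ _ _ _ _ _ _ _ _ _ _ _ _ _ _ _ _ _ _ _ _ _ _ _ _ _ _ _ _ _ _ _ _ _ _ _ _ _ _
  _ _ _ _ _ _ _ _ _ _ _ _ _ _ _ _ _ _ _ _ _ _ _ _ _ _ _ _ _ _ _ _ _ _ _ _ _ _ _ _
  _ _ _ _ _ _ _ _ _ _ _ _ _ _ _ _ _ _ _ _ _ _ _ _ _ _ _ _ _ _ _ _ _ _ _ _ _ _ _ _
  _ _ _ _ _ _ _ _ _ _ _ _ _ _ _ _ _ _ _ _ _ _ _ _ _ _ _ _ _ _ _ _ _ _ _ _ _ _ _ _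
  _ _ _ _ _ _ _ _ _ _ _ _ _ _ _ _ _ _ _ _ _ _ _ _ _ _ _ _ _ _ _ _ _ _ _ _ _ _ _ _
  _ _ _ _ _ _ _ _ _ _ _ _ _ _ _ _ _ _ _ _ _ _ _ _ _ _ _ _ _ _ _ _ _ _ _ _ _ _ _ _
  _ _ _ _ _ _ _ _ _ _ _ _ _ _ _ _ _ _ _ _ _ _ _ _ _ _ _ _ _ _ _ _ _ _ _ _ _ _ _ _
  _ _ _ _ _ _ _ _ _ _ _ _ _ _ _ _ _ _ _ _ _ _ _ _ _ _ _ _ _ _ _ _ _ _ _ _ _ _ _ _
  _ _ _ _ _ _ _ _ _ _ _ _ _ _ _ _ _ _ _ _ _ _ _ _ _ _ _ _ _ _ _ _ _ _ _ _ _ _ _ _
  _ _ _ _ _ _ _ _ _ _ _ _ _ _ _ _ _ _ _ _ _ _ _ _ _ _ _ _ _ _ _ _ _ _ _ _ _ _ _ _
  _ _ _ _ _ _ _ _ _ _ _ _ _ _ _ _ _ _ _ _ _ _ _ _ _ _ _ _ _ _ _ _ _ _ _ _ _ _ _ _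
  _ _ _ _ _ _ _ _ _ _ _ _ _ _ _ _ _ _ _ _ _ _ _ _ _ _ _ _ _ _ _ _ _ _ _ _ _ _ _ _
  _ _ _ _ _ _ _ _ _ _ _ _ _ _ _ _ _ _ _ _ _ _ _ _ _ _ _ _ _ _ _ _ _ _ _ _ _ _ _ _
  _ _ _ _ _ _ _ _ _ _ _ _ _ _ _ _ _ _ _ _ _ _ _ _ _ _ _ _ _ _ _ _ _ _ _ _ _ _ _ _
  _ _ _ _ _ _ _ _ _ _ _ _ _ _ _ _ _ _ _ _ _ _ _ _ _ _ _ _ _ _ _ _ _ _ _ _ _ _ _ _
  _ _ _ _ _ _ _ _ _ _ _ _ _ _ _ _ _ _ _ _ _ _ _ _ _ _ _ _ _ _ _ _ _ _ _ _ _ _ _ _
  _ _ _ _ _ _ _ _ _ _ _ _ _ _ _ _ _ _ _ _ _ _ _ _ _ _ _ _ _ _ _ _ _ _ _ _ _ _ _ _
  _ _ _ _ _ _ _ _ _ _ _ _ _ _ _ _ _ _ _ _ _ _ _ _ _ _ _ _ _ _ _ _ _ _ _ _ _ _ _ _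
  _ _ _ _ _ _ _ _ _ _ _ _ _ _ _ _ _ _ _ _ _ _ _ _ _ _ _ _ _ _ _ _ _ _ _ _ _ _ _ _
  _ _ _ _ _ _ _ _ _ _ _ _ _ _ _ _ _ _ _ _ _ _ _ _ _ _ _ _ _ _ _ _ _ _ _ _ _ _ _ _
  _ _ _ _ _ _ _ _ _ _ _ _ _ _ _ _ _ _ _ _ _ _ _ _ _ _ _ _ _ _ _ _ _ _ _ _ _ _ _ _
  _ _ _ _ _ _ _ _ _ _ _ _ _ _ _ _ _ _ _ _ _ _ _ _ _ _ _ _ _ _ _ _ _ _ _ _ _ _ _ _
  _ _ _ _ _ _ _ _ _ _ _ _ _ _ _ _ _ _ _ _ _ _ _ _ _ _ _ _ _ _ _ _ _ _ _ _ _ _ _ _
  _ _ _ _ _ _ _ _ _ _ _ _ _ _ _ _ _ _ _ _ _ _ _ _ _ _ _ _ _ _ _ _ _ _ _ _ _ _ _ _
  _ _ _ _ _ _ _ _ _ _ _ _ _ _ _ _ _ _ _ _ _ _ _ _ _ _ _ _ _ _ _ _ _ _ _ _ _ _ _ _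
  _ _ _ _ _ _ _ _ _ _ _ _ _ _ _ _ _ _ _ _ _ _ _ _ _ _ _ _ _ _ _ _ _ _ _ _ _ _ _ _
  _ _ _ _ _ _ _ _ _ _ _ _ _ _ _ _ _ _ _ _ _ _ _ _ _ _ _ _ _ _ _ _ _ _ _ _ _ _ _ _ => true

noncomputable def G (chk : List Nat → Bool) (C : Nat) (k : TT) : TT :=
  fun x5 x7 x11 x15 x19 x21 x29 x33 x41 x43 x45 x49 x53 x55 x57 x63
  x67 x71 x77 x79 x83 x87 x95 x97 x99 x103 x107 x113 x115 x119 x123 x127
  x129 x135 x139 x143 x145 x147 x155 x159 x163 x165 x171 x175 x179 x185 x187 x189
  x193 x197 x199 x201 x209 x213 x221 x223 x227 x231 x235 x237 x245 x249 x257 x259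
  x261 x265 x269 x275 x277 x281 x285 x289 x291 x297 x301 x305 x307 x309 x317 x321
  x329 x331 x335 x339 x343 x345 x353 x357 x365 x367 x369 x373 x377 x379 x381 x387
  x391 x395 x401 x403 x405 x409 x413 x415 x417 x425 x429 x433 x435 x441 x445 x449
  x455 x457 x461 x465 x473 x475 x477 x481 x485 x487 x489 x495 x499 x503 x509 x511
  x513 x517 x521 x523 x525 x533 x537 x545 x547 x551 x555 x559 x561 x567 x571 x575
  x577 x579 x587 x591 x595 x597 x603 x607 x611 x617 x619 x623 x627 x635 x637 x639
  x643 x647 x653 x655 x659 x663 x667 x669 x677 x681 x689 x691 x693 x697 x701 x703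
  x705 x711 x715 x719 x725 x727 x731 x735 x743 x745 x747 x751 x755 x761 x763 x767
  x771 x775 x777 x783 x787 x791 x793 x795 x803 x807 x815 x817 x821 x825 x829 x831
  x839 x843 x851 x853 x855 x859 x863 x865 x867 x873 x877 x881 x887 x889 x891 x895
  x899 x901 x903 x911 x915 x919 x921 x927 x931 x935 x941 x943 x947 x951 x959 x961
  x963 x967 x971 x977 x979 x983 x987 x991 x993 x1001 x1005 x1013 x1015 x1017 x1021 x1025
  x1027 x1029 x1035 x1039 x1043 x1049 x1051 x1055 x1059 x1067 x1069 x1071 x1075 x1079 x1085 x1087
  x1091 x1095 x1099 x1101 x1107 x1111 x1115 x1117 x1119 x1127 x1131 x1135 x1137 x1143 x1147 x1151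
  x1157 x1159 x1161 x1165 x1169 x1171 x1173 x1181 x1185 x1193 x1195 x1199 x1203 x1207 x1209 x1215
  x1219 x1223 x1225 x1227 x1235 x1239 x1243 x1245 x1251 x1255 x1259 x1265 x1267 x1271 x1275 x1283
  x1285 x1287 x1291 x1295 x1297 x1299 x1305 x1309 x1313 x1319 x1321 x1323 x1327 x1331 x1333 x1335
  x1343 x1347 x1355 x1357 x1361 x1365 x1369 x1371 x1379 x1383 x1391 x1393 x1395 x1399 x1403 x1409
  x1411 x1415 x1419 x1423 x1425 x1431 x1435 x1439 x1441 x1443 x1451 x1455 x1459 x1461 x1467 x1471
  x1475 x1481 x1483 x1485 x1489 x1493 x1495 x1497 x1505 x1509 x1517 x1519 x1523 x1527 x1531 x1533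
  x1539 x1543 x1547 x1549 x1551 x1559 x1563 x1567 x1569 x1575 x1579 x1583 x1589 x1591 x1595 x1599
  x1607 x1609 x1611 x1615 x1619 x1625 x1627 x1631 x1635 x1639 x1641 x1649 x1653 x1661 x1663 x1665
  x1669 x1673 x1675 x1677 x1683 x1687 x1691 x1697 x1699 x1701 x1705 x1709 x1711 x1713 x1721 x1725
  x1729 x1731 x1737 x1741 x1745 x1751 x1753 x1757 x1761 x1769 x1771 x1773 x1777 x1781 x1783 x1785
  x1791 x1795 x1799 x1805 x1807 x1809 x1813 x1817 x1819 x1821 x1829 x1833 x1841 x1843 x1847 x1851
  x1855 x1857 x1865 x1869 x1877 x1879 x1881 x1885 x1889 x1895 x1897 x1901 x1905 x1909 x1911 x1917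
  x1921 x1925 x1927 x1929 x1937 x1941 x1949 x1951 x1955 x1959 x1963 x1965 x1973 x1977 x1985 x1987
  x1989 x1993 x1997 x1999 x2001 x2007 x2011 x2015 x2021 x2023 x2027 x2031 x2039 x2041 x2043 x2047
  x2051 x2057 x2059 x2063 x2067 x2071 x2073 x2079 x2083 x2087 x2089 x2091 x2099 x2103 x2107 x2109
  x2115 x2119 x2123 x2129 x2131 x2133 x2137 x2141 x2143 x2145 x2153 x2157 x2165 x2167 x2171 x2175
  x2179 x2181 x2189 x2193 x2201 x2203 x2205 x2209 x2213 x2219 x2221 x2225 x2229 x2233 x2235 x2241
  x2245 x2249 x2251 x2253 x2261 x2265 x2273 x2275 x2279 x2283 x2287 x2289 x2297 x2301 x2309 x2311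
  x2313 x2317 x2321 x2323 x2325 x2331 x2335 x2339 x2345 x2347 x2349 x2353 x2357 x2359 x2361 x2369
  x2373 x2377 x2379 x2385 x2389 x2393 x2399 x2401 x2405 x2409 x2417 x2419 x2421 x2425 x2429 x2435
  x2437 x2441 x2445 x2449 x2451 x2459 x2463 x2471 x2473 x2475 x2479 x2483 x2485 x2487 x2493 x2497
  x2501 x2507 x2509 x2513 x2517 x2525 x2527 x2529 x2533 x2537 x2543 x2545 x2549 x2553 x2557 x2559
  x2565 x2569 x2573 x2575 x2577 x2585 x2589 x2593 x2595 x2601 x2605 x2609 x2615 x2617 x2619 x2623
  x2627 x2629 x2631 x2639 x2643 x2651 x2653 x2657 x2661 x2665 x2667 x2673 x2677 x2681 x2683 x2685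
  x2693 x2697 x2701 x2703 x2709 x2713 x2717 x2723 x2725 x2729 x2733 x2741 x2743 x2745 x2749 x2753
  x2755 x2757 x2763 x2767 x2771 x2777 x2779 x2781 x2785 x2789 x2791 x2793 x2801 x2805 x2813 x2815
  x2819 x2823 x2827 x2829 x2837 x2841 x2849 x2851 x2853 x2857 x2861 x2867 x2869 x2873 x2877 x2881
  x2883 x2889 x2893 x2897 x2899 x2901 x2909 x2913 x2921 x2923 x2927 x2931 x2935 x2937 x2945 x2949
  x2957 x2959 x2961 x2965 x2969 x2971 x2973 x2979 x2983 x2987 x2993 x2995 x2999 x3003 x3011 x3013
  x3015 x3019 x3023 x3029 x3031 x3035 x3039 x3043 x3045 x3051 x3055 x3059 x3061 x3063 x3071 x3075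
  x3079 x3081 x3087 x3091 x3095 x3101 x3103 x3105 x3109 x3113 x3115 x3117 x3125 x3129 x3137 x3139
  x3143 x3147 x3151 x3153 x3161 x3165 x3173 x3175 x3177 x3181 x3185 x3191 x3193 x3197 x3201 x3205
  x3207 x3213 x3217 x3221 x3223 x3225 x3233 x3237 x3245 x3247 x3251 x3255 x3259 x3261 x3269 x3273
  x3281 x3283 x3285 x3289 x3293 x3295 x3297 x3303 x3307 x3311 x3317 x3319 x3321 x3325 x3329 x3331
  x3333 x3341 x3345 x3349 x3351 x3357 x3361 x3365 x3371 x3373 x3377 x3381 x3389 x3391 x3393 x3397
  x3401 x3403 x3405 x3411 x3415 x3419 x3425 x3427 x3429 x3433 x3437 x3439 x3441 x3449 x3453 x3461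
  x3463 x3467 x3471 x3475 x3477 x3483 x3487 x3491 x3493 x3495 x3503 x3507 x3511 x3513 x3519 x3523
  x3527 x3533 x3535 x3539 x3543 x3551 x3553 x3555 x3559 x3563 x3569 x3571 x3575 x3579 x3583 x3585
  x3593 x3597 x3605 x3607 x3609 x3613 x3617 x3619 x3621 x3627 x3631 x3635 x3641 x3643 x3645 x3649
  x3653 x3655 x3657 x3665 x3669 x3673 x3675 x3681 x3685 x3689 x3695 x3697 x3701 x3705 x3713 x3715
  x3717 x3721 x3725 x3727 x3729 x3735 x3739 x3743 x3749 x3751 x3753 x3757 x3761 x3763 x3765 x3773
  x3777 x3785 x3787 x3791 x3795 x3799 x3801 x3809 x3813 x3821 x3823 x3825 x3829 x3833 x3839 x3841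
  x3845 x3849 x3853 x3855 x3861 x3865 x3869 x3871 x3873 x3881 x3885 x3889 x3891 x3897 x3901 x3905
  x3911 x3913 x3915 x3919 x3923 x3925 x3927 x3935 x3939 x3947 x3949 x3953 x3957 x3961 x3963 x3969
  x3973 x3977 x3979 x3981 x3989 x3993 x3997 x3999 x4005 x4009 x4013 x4019 x4021 x4025 x4029 x4037
  x4039 x4041 x4045 x4049 x4055 x4057 x4061 x4065 x4069 x4071 x4079 x4083 x4091 x4093 x4095 x4099
  x4103 x4105 x4107 x4113 x4117 x4121 x4127 x4129 x4133 x4137 x4145 x4147 x4149 x4153 x4157 x4163
  x4165 x4169 x4173 x4177 x4179 x4185 x4189 x4193 x4195 x4197 x4205 x4209 x4217 x4219 x4223 x4227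
  x4231 x4233 x4241 x4245 x4253 x4255 x4257 x4261 x4265 x4267 x4269 x4275 x4279 x4283 x4289 x4291
  x4293 x4297 x4301 x4303 x4305 x4313 x4317 x4321 x4323 x4329 x4333 x4337 x4343 x4345 x4349 x4353
  x4361 x4363 x4365 x4369 x4373 x4375 x4377 x4383 x4387 x4391 x4397 x4399 x4401 x4405 x4409 x4411
  x4413 x4421 x4425 x4433 x4435 x4439 x4443 x4447 x4449 x4455 x4459 x4463 x4465 x4467 x4475 x4479
  x4483 x4485 x4491 x4495 x4499 x4505 x4507 x4511 x4515 x4523 x4525 x4527 x4531 x4535 x4541 x4543
  x4547 x4551 x4555 x4557 x4565 x4569 x4577 x4579 x4581 x4585 x4589 x4591 x4593 x4599 x4603 x4607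
  x4613 x4615 x4617 x4621 x4625 x4627 x4629 x4637 x4641 x4645 x4647 x4653 x4657 x4661 x4667 x4669
  x4673 x4677 x4685 x4687 x4689 x4693 x4697 x4699 x4701 x4707 x4711 x4715 x4721 x4723 x4725 x4729
  x4733 x4735 x4737 x4745 x4749 x4757 x4759 x4763 x4767 x4771 x4773 x4781 x4785 x4793 x4795 x4797
  x4801 x4805 x4811 x4813 x4817 x4821 x4825 x4827 x4833 x4837 x4841 x4843 x4845 x4853 x4857 x4865
  x4867 x4871 x4875 x4879 x4881 x4889 x4893 x4901 x4903 x4905 x4909 x4913 x4915 x4917 x4923 x4927
  x4931 x4937 x4939 x4943 x4947 x4955 x4957 x4959 x4963 x4967 x4973 x4975 x4979 x4983 x4987 x4989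
  x4995 x4999 x5003 x5005 x5007 x5015 x5019 x5023 x5025 x5031 x5035 x5039 x5045 x5047 x5049 x5053
  x5057 x5059 x5061 x5069 x5073 x5081 x5083 x5087 x5091 x5095 x5097 x5103 x5107 x5111 x5113 x5115
  x5123 x5127 x5131 x5133 x5139 x5143 x5147 x5153 x5155 x5159 x5163 x5171 x5173 x5175 x5179 x5183
  x5185 x5187 x5193 x5197 x5201 x5207 x5209 x5211 x5215 x5219 x5221 x5223 x5231 x5235 x5243 x5245
  x5249 x5253 x5257 x5259 x5267 x5271 x5279 x5281 x5283 x5287 x5291 x5297 x5299 x5303 x5307 x5311
  x5313 x5319 x5323 x5327 x5329 x5331 x5339 x5343 x5347 x5349 x5355 x5359 x5363 x5369 x5371 x5373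
  x5377 x5381 x5383 x5385 x5393 x5397 x5405 x5407 x5411 x5415 x5419 x5421 x5427 x5431 x5435 x5437
  x5439 x5447 x5451 x5455 x5457 x5463 x5467 x5471 x5477 x5479 x5483 x5487 x5495 x5497 x5499 x5503
  x5507 x5513 x5515 x5519 x5523 x5527 x5529 x5537 x5541 x5549 x5551 x5553 x5557 x5561 x5563 x5565
  x5571 x5575 x5579 x5585 x5587 x5591 x5595 x5603 x5605 x5607 x5611 x5615 x5621 x5623 x5627 x5631
  x5635 x5637 x5643 x5647 x5651 x5653 x5655 x5663 x5667 x5675 x5677 x5681 x5685 x5689 x5691 x5699
  x5703 x5711 x5713 x5715 x5719 x5723 x5725 x5727 x5733 x5737 x5741 x5747 x5749 x5751 x5755 x5759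
  x5761 x5763 x5771 x5775 x5779 x5781 x5787 x5791 x5795 x5801 x5803 x5807 x5811 x5819 x5821 x5823
  x5827 x5831 x5837 x5839 x5843 x5847 x5851 x5853 x5861 x5865 x5873 x5875 x5877 x5881 x5885 x5887
  x5889 x5895 x5899 x5903 x5909 x5911 x5915 x5919 x5927 x5929 x5931 x5935 x5939 x5945 x5947 x5951
  x5955 x5959 x5961 x5967 x5971 x5975 x5977 x5979 x5987 x5991 x5995 x5997 x6003 x6007 x6011 x6017
  x6019 x6021 x6025 x6029 x6031 x6033 x6041 x6045 x6053 x6055 x6059 x6063 x6067 x6069 x6077 x6081
  x6089 x6091 x6093 x6097 x6101 x6107 x6109 x6113 x6117 x6121 x6123 x6129 x6133 x6137 x6139 x6141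
  x6149 x6153 x6161 x6163 x6167 x6171 x6175 x6177 x6185 x6189 x6197 x6199 x6201 x6205 x6209 x6211
  x6213 x6219 x6223 x6227 x6233 x6235 x6237 x6241 x6245 x6247 x6249 x6257 x6261 x6265 x6267 x6273
  x6277 x6281 x6287 x6289 x6293 x6297 x6305 x6307 x6309 x6313 x6317 x6319 x6321 x6327 x6331 x6335
  x6341 x6343 x6345 x6349 x6353 x6355 x6357 x6365 x6369 x6377 x6379 x6383 x6387 x6391 x6393 x6399
  x6403 x6407 x6409 x6411 x6419 x6423 x6427 x6429 x6435 x6439 x6443 x6449 x6451 x6455 x6459 x6467
  x6469 x6471 x6475 x6479 x6485 x6487 x6491 x6495 x6499 x6501 x6509 x6513 x6521 x6523 x6525 x6529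
  x6533 x6535 x6537 x6543 x6547 x6551 x6557 x6559 =>
  Bool.rec false (k
  (add (add (add (add (add (add (add (add (add (add (add (sub (sub C x7) x11) x41) x77) x113) x221) x329) x653) x977) x1949) x2921) x5837) x4377)
  (sub (add (add (add (add (add (add (add (add (add (add (sub (sub C x5) x19) x43) x79) x115) x223) x331) x655) x979) x1951) x2923) x5839) x2193)
  (add (add (add (add (add (add (add (add (add (sub (sub (sub C x15) x5) x29) x119) x227) x335) x659) x983) x1955) x2927) x5843) x4383)
  (sub (add (add (add (add (add (add (add (add (add (sub (sub (sub C x11) x21) x33) x123) x231) x339) x663) x987) x1959) x2931) x5847) x2203) x4391)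
  (sub (add (add (add (add (add (add (add (add (sub (sub (sub C x21) x7) x55) x127) x235) x343) x667) x991) x1963) x2935) x5851) x2205)
  (sub (add (add (add (add (add (add (add (add (add (sub (sub (sub C x19) x15) x57) x129) x237) x345) x669) x993) x1965) x2937) x5853) x2209) x4397)
  (add (add (add (add (add (add (add (sub (sub (add (add (sub C x33) x41) x53) x11) x83) x353) x677) x1001) x1973) x2945) x5861) x4401)
  (sub (add (add (add (add (add (add (add (sub (sub (sub (sub C x29) x45) x15) x87) x357) x681) x1005) x1977) x2949) x5865) x2221) x4409)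
  (add (add (add (add (add (add (add (sub (add (add (add (add (sub C x43) x29) x53) x5) x77) x95) x365) x689) x1013) x1985) x2957) x5873) x4413)
  (sub (add (add (add (add (add (add (sub (add (add (sub (sub C x41) x49) x7) x79) x97) x367) x691) x1015) x1987) x2959) x5875) x2229)
  (sub (add (add (add (add (add (add (add (sub (sub (sub (add (add C x49) x53) x33) x63) x99) x369) x693) x1017) x1989) x2961) x5877) x2233) x4421)
  (sub (add (add (add (add (add (add (sub (sub (sub (add (add C x45) x53) x43) x67) x103) x373) x697) x1021) x1993) x2965) x5881) x2235)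
  (add (add (add (add (add (add (add (sub (sub (add (add (add (add C x45) x49) x29) x41) x71) x107) x377) x701) x1025) x1997) x2969) x5885) x4425)
  (sub (add (add (add (add (add (add (sub (sub (add (add (sub C x57) x67) x79) x19) x163) x379) x703) x1027) x1999) x2971) x5887) x2241)
  (sub (add (add (add (add (add (add (add (sub (sub (sub (sub C x55) x63) x21) x165) x381) x705) x1029) x2001) x2973) x5889) x2245) x4433)
  (sub (add (add (add (add (add (add (add (sub (sub (sub (add (add C x67) x71) x57) x45) x171) x387) x711) x1035) x2007) x2979) x5895) x2251) x4439)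
  (sub (add (add (add (add (add (add (sub (sub (add (add (add (add C x63) x71) x55) x79) x49) x175) x391) x715) x1039) x2011) x2983) x5899) x2253)
  (add (add (add (add (add (add (add (sub (sub (sub (add (add C x63) x67) x77) x53) x179) x395) x719) x1043) x2015) x2987) x5903) x4443)
  (add (add (add (add (add (add (add (sub (add (add (sub (sub C x79) x71) x5) x41) x185) x401) x725) x1049) x2021) x2993) x5909) x4449)
  (sub (add (add (add (add (add (add (sub (add (add (add (add (sub C x77) x55) x67) x7) x43) x187) x403) x727) x1051) x2023) x2995) x5911) x2265)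
  (add (add (add (add (add (sub (sub (add (add (add (add (sub C x87) x95) x107) x119) x155) x29) x245) x1055) x2027) x2999) x5915) x4455)
  (sub (add (add (add (add (add (sub (sub (add (add (sub (sub C x83) x99) x123) x159) x33) x249) x1059) x2031) x3003) x5919) x2275) x4463)
  (add (add (add (add (add (sub (sub (sub (add (add (sub C x97) x83) x107) x113) x41) x257) x1067) x2039) x3011) x5927) x4467)
  (sub (add (add (add (add (sub (sub (sub (sub (sub C x95) x103) x115) x43) x259) x1069) x2041) x3013) x5929) x2283)
  (sub (add (add (add (add (add (sub (sub (sub (sub (add (add C x103) x107) x87) x135) x45) x261) x1071) x2043) x3015) x5931) x2287) x4475)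
  (sub (add (add (add (add (sub (sub (sub (sub (add (add C x99) x107) x97) x139) x49) x265) x1075) x2047) x3019) x5935) x2289)
  (add (add (add (add (add (sub (sub (sub (add (add (add (add C x99) x103) x83) x95) x143) x53) x269) x1079) x2051) x3023) x5939) x4479)
  (add (add (add (add (add (sub (add (add (sub (sub (sub C x115) x119) x95) x5) x221) x275) x1085) x2057) x3029) x5945) x4485)
  (sub (add (add (add (add (sub (add (add (sub (sub (sub C x113) x127) x97) x7) x223) x277) x1087) x2059) x3031) x5947) x2301)
  (add (add (add (add (add (sub (add (add (add (add (sub (sub C x123) x113) x83) x155) x11) x227) x281) x1091) x2063) x3035) x5951) x4491)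
  (sub (add (add (add (add (add (sub (add (add (add (add (sub (sub C x119) x129) x87) x159) x15) x231) x285) x1095) x2067) x3039) x5955) x2311) x4499)
  (sub (add (add (add (add (sub (add (add (sub (sub (sub C x129) x115) x145) x19) x235) x289) x1099) x2071) x3043) x5959) x2313)
  (sub (add (add (add (add (add (sub (add (add (sub (sub (sub C x127) x123) x147) x21) x237) x291) x1101) x2073) x3045) x5961) x2317) x4505)
  (sub (add (add (add (add (add (sub (sub (sub (add (add (add (add C x139) x143) x147) x159) x99) x189) x297) x1107) x2079) x3051) x5967) x2323) x4511)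
  (sub (add (add (add (add (sub (sub (sub (sub (add (add C x135) x143) x145) x103) x193) x301) x1111) x2083) x3055) x5971) x2325)
  (add (add (add (add (add (sub (sub (sub (sub (add (add C x135) x139) x155) x107) x197) x305) x1115) x2087) x3059) x5975) x4515)
  (sub (add (add (add (add (sub (sub (sub (sub (sub C x147) x139) x127) x199) x307) x1117) x2089) x3061) x5977) x2331)
  (sub (add (add (add (add (add (sub (sub (sub (add (add (sub C x145) x135) x159) x129) x201) x309) x1119) x2091) x3063) x5979) x2335) x4523)
  (add (add (add (add (add (sub (sub (add (add (sub (sub C x159) x143) x83) x119) x209) x317) x1127) x2099) x3071) x5987) x4527)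
  (sub (add (add (add (add (add (sub (sub (add (add (add (add (sub C x155) x135) x147) x87) x123) x213) x321) x1131) x2103) x3075) x5991) x2347) x4535)
  (sub (add (add (add (add (sub (sub (add (add (add (add (sub C x165) x175) x187) x199) x235) x55) x487) x1135) x2107) x3079) x5995) x2349)
  (sub (add (add (add (add (add (sub (sub (add (add (sub (sub C x163) x171) x201) x237) x57) x489) x1137) x2109) x3081) x5997) x2353) x4541)
  (sub (add (add (add (add (add (sub (sub (sub (sub (add (add C x175) x179) x165) x189) x63) x495) x1143) x2115) x3087) x6003) x2359) x4547)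
  (sub (add (add (add (add (sub (sub (sub (add (add (add (add C x171) x179) x163) x187) x193) x67) x499) x1147) x2119) x3091) x6007) x2361)
  (add (add (add (add (add (sub (sub (sub (sub (add (add C x171) x175) x185) x197) x71) x503) x1151) x2123) x3095) x6011) x4551)
  (add (add (add (add (add (sub (sub (sub (sub (sub C x187) x179) x221) x77) x509) x1157) x2129) x3101) x6017) x4557)
  (sub (add (add (add (add (sub (sub (sub (add (add (sub C x185) x163) x175) x223) x79) x511) x1159) x2131) x3103) x6019) x2373)
  (sub (add (add (add (add (add (sub (sub (sub (add (add (add (add C x193) x197) x201) x213) x171) x135) x513) x1161) x2133) x3105) x6021) x2377) x4565)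
  (sub (add (add (add (add (sub (sub (sub (sub (add (add C x189) x197) x199) x175) x139) x517) x1165) x2137) x3109) x6025) x2379)
  (add (add (add (add (add (sub (sub (sub (sub (add (add C x189) x193) x209) x179) x143) x521) x1169) x2141) x3113) x6029) x4569)
  (sub (add (add (add (add (sub (sub (add (add (sub (sub C x201) x193) x163) x235) x145) x523) x1171) x2143) x3115) x6031) x2385)
  (sub (add (add (add (add (add (sub (sub (add (add (add (add (sub C x199) x189) x213) x165) x237) x147) x525) x1173) x2145) x3117) x6033) x2389) x4577)
  (add (add (add (add (add (sub (sub (sub (sub (sub C x213) x197) x227) x155) x533) x1181) x2153) x3125) x6041) x4581)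
  (sub (add (add (add (add (add (sub (sub (sub (add (add (sub C x209) x189) x201) x231) x159) x537) x1185) x2157) x3129) x6045) x2401) x4589)
  (add (add (add (add (add (sub (add (add (sub (sub (sub C x223) x227) x185) x5) x113) x545) x1193) x2165) x3137) x6053) x4593)
  (sub (add (add (add (add (sub (add (add (sub (sub (sub C x221) x235) x187) x7) x115) x547) x1195) x2167) x3139) x6055) x2409)
  (add (add (add (add (add (sub (add (add (sub (sub (sub C x231) x221) x209) x11) x119) x551) x1199) x2171) x3143) x6059) x4599)
  (sub (add (add (add (add (add (sub (add (add (sub (sub (sub C x227) x237) x213) x15) x123) x555) x1203) x2175) x3147) x6063) x2419) x4607)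
  (sub (add (add (add (add (sub (add (add (add (add (sub (sub C x237) x223) x163) x199) x19) x127) x559) x1207) x2179) x3151) x6067) x2421)
  (sub (add (add (add (add (add (sub (add (add (add (add (sub (sub C x235) x231) x165) x201) x21) x129) x561) x1209) x2181) x3153) x6069) x2425) x4613)
  (add (add (add (sub (sub (add (add (add (add (add (add (sub C x249) x257) x269) x281) x317) x353) x461) x83) x731) x3161) x6077) x4617)
  (sub (add (add (add (sub (sub (add (add (add (add (sub (sub C x245) x261) x285) x321) x357) x465) x87) x735) x3165) x6081) x2437) x4625)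
  (add (add (add (sub (sub (add (add (sub (add (add (sub C x259) x245) x269) x275) x365) x473) x95) x743) x3173) x6089) x4629)
  (sub (add (add (sub (sub (add (add (sub (sub (sub C x257) x265) x277) x367) x475) x97) x745) x3175) x6091) x2445)
  (sub (add (add (add (sub (sub (add (add (sub (sub (add (add C x265) x269) x249) x297) x369) x477) x99) x747) x3177) x6093) x2449) x4637)
  (sub (add (add (sub (sub (add (add (sub (sub (add (add C x261) x269) x259) x301) x373) x481) x103) x751) x3181) x6097) x2451)
  (add (add (add (sub (sub (add (add (sub (add (add (add (add C x261) x265) x245) x257) x305) x377) x485) x107) x755) x3185) x6101) x4641)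
  (add (add (add (sub (sub (sub (sub (sub (sub C x277) x281) x257) x329) x113) x761) x3191) x6107) x4647)
  (sub (add (add (sub (sub (sub (sub (sub (sub C x275) x289) x259) x331) x115) x763) x3193) x6109) x2463)
  (add (add (add (sub (sub (sub (add (add (sub (sub C x285) x275) x245) x317) x335) x119) x767) x3197) x6113) x4653)
  (sub (add (add (add (sub (sub (sub (add (add (sub (sub C x281) x291) x249) x321) x339) x123) x771) x3201) x6117) x2473) x4661)
  (sub (add (add (sub (sub (sub (sub (sub (sub C x291) x277) x307) x343) x127) x775) x3205) x6121) x2475)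
  (sub (add (add (add (sub (sub (sub (sub (sub (sub C x289) x285) x309) x345) x129) x777) x3207) x6123) x2479) x4667)
  (sub (add (add (add (sub (sub (sub (sub (add (add (add (add C x301) x305) x309) x321) x261) x405) x135) x783) x3213) x6129) x2485) x4673)
  (sub (add (add (sub (sub (sub (sub (sub (add (add C x297) x305) x307) x265) x409) x139) x787) x3217) x6133) x2487)
  (add (add (add (sub (sub (sub (sub (sub (add (add C x297) x301) x317) x269) x413) x143) x791) x3221) x6137) x4677)
  (sub (add (add (sub (sub (sub (sub (sub (sub C x309) x301) x289) x415) x145) x793) x3223) x6139) x2493)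
  (sub (add (add (add (sub (sub (sub (sub (add (add (sub C x307) x297) x321) x291) x417) x147) x795) x3225) x6141) x2497) x4685)
  (add (add (add (sub (sub (sub (add (add (sub (sub C x321) x305) x245) x281) x425) x155) x803) x3233) x6149) x4689)
  (sub (add (add (add (sub (sub (sub (add (add (add (add (sub C x317) x297) x309) x249) x285) x429) x159) x807) x3237) x6153) x2509) x4697)
  (add (add (add (sub (add (add (sub (add (add (sub (sub C x331) x335) x365) x401) x275) x5) x653) x815) x3245) x6161) x4701)
  (sub (add (add (sub (add (add (sub (add (add (sub (sub C x329) x343) x367) x403) x277) x7) x655) x817) x3247) x6163) x2517)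
  (add (add (add (sub (add (add (sub (sub (sub (sub C x339) x329) x353) x281) x11) x659) x821) x3251) x6167) x4707)
  (sub (add (add (add (sub (add (add (sub (sub (sub (sub C x335) x345) x357) x285) x15) x663) x825) x3255) x6171) x2527) x4715)
  (sub (add (add (sub (add (add (sub (sub (sub (sub C x345) x331) x379) x289) x19) x667) x829) x3259) x6175) x2529)
  (sub (add (add (add (sub (add (add (sub (sub (sub (sub C x343) x339) x381) x291) x21) x669) x831) x3261) x6177) x2533) x4721)
  (add (add (add (sub (add (add (add (add (sub (add (add (sub C x357) x365) x377) x335) x245) x461) x29) x677) x839) x3269) x6185) x4725)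
  (sub (add (add (add (sub (add (add (add (add (sub (sub (sub C x353) x369) x339) x249) x465) x33) x681) x843) x3273) x6189) x2545) x4733)
  (add (add (add (sub (add (add (add (add (add (add (add (add (sub C x367) x353) x377) x329) x401) x257) x473) x41) x689) x851) x3281) x6197) x4737)
  (sub (add (add (sub (add (add (add (add (add (add (sub (sub C x365) x373) x331) x403) x259) x475) x43) x691) x853) x3283) x6199) x2553)
  (sub (add (add (add (sub (add (add (add (add (sub (sub (add (add C x373) x377) x357) x387) x261) x477) x45) x693) x855) x3285) x6201) x2557) x4745)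
  (sub (add (add (sub (add (add (add (add (sub (sub (add (add C x369) x377) x367) x391) x265) x481) x49) x697) x859) x3289) x6205) x2559)
  (add (add (add (sub (add (add (add (add (sub (add (add (add (add C x369) x373) x353) x365) x395) x269) x485) x53) x701) x863) x3293) x6209) x4749)
  (sub (add (add (sub (add (add (sub (sub (add (add (sub C x381) x391) x403) x343) x433) x55) x703) x865) x3295) x6211) x2565)
  (sub (add (add (add (sub (add (add (sub (sub (sub (sub C x379) x387) x345) x435) x57) x705) x867) x3297) x6213) x2569) x4757)
  (sub (add (add (add (sub (add (add (sub (sub (sub (add (add C x391) x395) x381) x369) x441) x63) x711) x873) x3303) x6219) x2575) x4763)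
  (sub (add (add (sub (add (add (sub (sub (add (add (add (add C x387) x395) x379) x403) x373) x445) x67) x715) x877) x3307) x6223) x2577)
  (add (add (add (sub (add (add (sub (sub (sub (add (add C x387) x391) x401) x377) x449) x71) x719) x881) x3311) x6227) x4767)
  (add (add (add (sub (add (add (sub (add (add (sub (sub C x403) x395) x329) x365) x455) x77) x725) x887) x3317) x6233) x4773)
  (sub (add (add (sub (add (add (sub (add (add (add (add (sub C x401) x379) x391) x331) x367) x457) x79) x727) x889) x3319) x6235) x2589)
  (sub (add (add (add (sub (sub (sub (add (add (add (add (add (add C x409) x413) x417) x429) x441) x477) x297) x567) x891) x3321) x6237) x2593) x4781)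
  (sub (add (add (sub (sub (sub (add (add (sub (add (add C x405) x413) x415) x445) x481) x301) x571) x895) x3325) x6241) x2595)
  (add (add (add (sub (sub (sub (add (add (sub (add (add C x405) x409) x425) x449) x485) x305) x575) x899) x3329) x6245) x4785)
  (sub (add (add (sub (sub (sub (sub (sub (sub C x417) x409) x433) x307) x577) x901) x3331) x6247) x2601)
  (sub (add (add (add (sub (sub (sub (sub (add (add (sub C x415) x405) x429) x435) x309) x579) x903) x3333) x6249) x2605) x4793)
  (add (add (add (sub (sub (sub (sub (sub (sub C x429) x413) x461) x317) x587) x911) x3341) x6257) x4797)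
  (sub (add (add (add (sub (sub (sub (sub (add (add (sub C x425) x405) x417) x465) x321) x591) x915) x3345) x6261) x2617) x4805)
  (sub (add (add (sub (sub (sub (sub (add (add (sub C x435) x445) x457) x415) x379) x595) x919) x3349) x6265) x2619)
  (sub (add (add (add (sub (sub (sub (sub (sub (sub C x433) x441) x417) x381) x597) x921) x3351) x6267) x2623) x4811)
  (sub (add (add (add (sub (sub (sub (add (add (sub (add (add C x445) x449) x435) x405) x477) x387) x603) x927) x3357) x6273) x2629) x4817)
  (sub (add (add (sub (sub (sub (add (add (add (add (add (add C x441) x449) x433) x457) x409) x481) x391) x607) x931) x3361) x6277) x2631)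
  (add (add (add (sub (sub (sub (add (add (sub (add (add C x441) x445) x455) x413) x485) x395) x611) x935) x3365) x6281) x4821)
  (add (add (add (sub (sub (sub (sub (sub (sub C x457) x449) x473) x401) x617) x941) x3371) x6287) x4827)
  (sub (add (add (sub (sub (sub (sub (add (add (sub C x455) x433) x445) x475) x403) x619) x943) x3373) x6289) x2643)
  (add (add (add (sub (sub (add (add (sub (add (add (sub C x465) x473) x485) x425) x245) x353) x623) x947) x3377) x6293) x4833)
  (sub (add (add (add (sub (sub (add (add (sub (sub (sub C x461) x477) x429) x249) x357) x627) x951) x3381) x6297) x2653) x4841)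
  (add (add (add (sub (sub (add (add (sub (add (add (sub C x475) x461) x485) x455) x257) x365) x635) x959) x3389) x6305) x4845)
  (sub (add (add (sub (sub (add (add (sub (sub (sub C x473) x481) x457) x259) x367) x637) x961) x3391) x6307) x2661)
  (sub (add (add (add (sub (sub (add (add (add (add (sub (add (add C x481) x485) x465) x405) x441) x261) x369) x639) x963) x3393) x6309) x2665) x4853)
  (sub (add (add (sub (sub (add (add (add (add (sub (add (add C x477) x485) x475) x409) x445) x265) x373) x643) x967) x3397) x6313) x2667)
  (add (add (add (sub (sub (add (add (add (add (add (add (add (add C x477) x481) x461) x473) x413) x449) x269) x377) x647) x971) x3401) x6317) x4857)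
  (sub (add (add (sub (sub (add (add (add (add (add (add (sub C x489) x499) x511) x523) x559) x595) x703) x163) x1459) x3403) x6319) x2673)
  (sub (add (add (add (sub (sub (add (add (add (add (sub (sub C x487) x495) x525) x561) x597) x705) x165) x1461) x3405) x6321) x2677) x4865)
  (sub (add (add (add (sub (sub (add (add (sub (sub (add (add C x499) x503) x489) x513) x603) x711) x171) x1467) x3411) x6327) x2683) x4871)
  (sub (add (add (sub (sub (add (add (sub (add (add (add (add C x495) x503) x487) x511) x517) x607) x715) x175) x1471) x3415) x6331) x2685)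
  (add (add (add (sub (sub (add (add (sub (sub (add (add C x495) x499) x509) x521) x611) x719) x179) x1475) x3419) x6335) x4875)
  (add (add (add (sub (sub (add (add (sub (sub (sub C x511) x503) x545) x617) x725) x185) x1481) x3425) x6341) x4881)
  (sub (add (add (sub (sub (add (add (sub (add (add (sub C x509) x487) x499) x547) x619) x727) x187) x1483) x3427) x6343) x2697)
  (sub (add (add (add (sub (sub (sub (sub (add (add (add (add C x517) x521) x525) x537) x495) x567) x189) x1485) x3429) x6345) x2701) x4889)
  (sub (add (add (sub (sub (sub (sub (sub (add (add C x513) x521) x523) x499) x571) x193) x1489) x3433) x6349) x2703)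
  (add (add (add (sub (sub (sub (sub (sub (add (add C x513) x517) x533) x503) x575) x197) x1493) x3437) x6353) x4893)
  (sub (add (add (sub (sub (sub (add (add (sub (sub C x525) x517) x487) x559) x577) x199) x1495) x3439) x6355) x2709)
  (sub (add (add (add (sub (sub (sub (add (add (add (add (sub C x523) x513) x537) x489) x561) x579) x201) x1497) x3441) x6357) x2713) x4901)
  (add (add (add (sub (sub (sub (sub (sub (sub C x537) x521) x551) x587) x209) x1505) x3449) x6365) x4905)
  (sub (add (add (add (sub (sub (sub (sub (add (add (sub C x533) x513) x525) x555) x591) x213) x1509) x3453) x6369) x2725) x4913)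
  (add (add (add (sub (sub (sub (sub (sub (sub C x547) x551) x509) x653) x221) x1517) x3461) x6377) x4917)
  (sub (add (add (sub (sub (sub (sub (sub (sub C x545) x559) x511) x655) x223) x1519) x3463) x6379) x2733)
  (add (add (add (sub (sub (sub (sub (sub (sub C x555) x545) x533) x659) x227) x1523) x3467) x6383) x4923)
  (sub (add (add (add (sub (sub (sub (sub (sub (sub C x551) x561) x537) x663) x231) x1527) x3471) x6387) x2743) x4931)
  (sub (add (add (sub (sub (sub (add (add (sub (sub C x561) x547) x487) x523) x667) x235) x1531) x3475) x6391) x2745)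
  (sub (add (add (add (sub (sub (sub (add (add (sub (sub C x559) x555) x489) x525) x669) x237) x1533) x3477) x6393) x2749) x4937)
  (sub (add (add (add (sub (sub (sub (add (add (add (add (add (add C x571) x575) x579) x591) x603) x639) x513) x405) x1539) x3483) x6399) x2755) x4943)
  (sub (add (add (sub (sub (sub (add (add (sub (add (add C x567) x575) x577) x607) x643) x517) x409) x1543) x3487) x6403) x2757)
  (add (add (add (sub (sub (sub (add (add (sub (add (add C x567) x571) x587) x611) x647) x521) x413) x1547) x3491) x6407) x4947)
  (sub (add (add (sub (sub (sub (sub (sub (sub C x579) x571) x595) x523) x415) x1549) x3493) x6409) x2763)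
  (sub (add (add (add (sub (sub (sub (sub (add (add (sub C x577) x567) x591) x597) x525) x417) x1551) x3495) x6411) x2767) x4955)
  (add (add (add (sub (sub (sub (sub (sub (sub C x591) x575) x623) x533) x425) x1559) x3503) x6419) x4959)
  (sub (add (add (add (sub (sub (sub (sub (add (add (sub C x587) x567) x579) x627) x537) x429) x1563) x3507) x6423) x2779) x4967)
  (sub (add (add (sub (sub (add (add (sub (add (add (sub C x597) x607) x619) x577) x487) x703) x433) x1567) x3511) x6427) x2781)
  (sub (add (add (add (sub (sub (add (add (sub (sub (sub C x595) x603) x579) x489) x705) x435) x1569) x3513) x6429) x2785) x4973)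
  (sub (add (add (add (sub (sub (add (add (add (add (sub (add (add C x607) x611) x597) x567) x639) x495) x711) x441) x1575) x3519) x6435) x2791) x4979)
  (sub (add (add (sub (sub (add (add (add (add (add (add (add (add C x603) x611) x595) x619) x571) x643) x499) x715) x445) x1579) x3523) x6439) x2793)
  (add (add (add (sub (sub (add (add (add (add (sub (add (add C x603) x607) x617) x575) x647) x503) x719) x449) x1583) x3527) x6443) x4983)
  (add (add (add (sub (sub (add (add (sub (sub (sub C x619) x611) x635) x509) x725) x455) x1589) x3533) x6449) x4989)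
  (sub (add (add (sub (sub (add (add (sub (add (add (sub C x617) x595) x607) x637) x511) x727) x457) x1591) x3535) x6451) x2805)
  (add (add (add (sub (sub (sub (sub (add (add (sub C x627) x635) x647) x587) x677) x461) x1595) x3539) x6455) x4995)
  (sub (add (add (add (sub (sub (sub (sub (sub (sub C x623) x639) x591) x681) x465) x1599) x3543) x6459) x2815) x5003)
  (add (add (add (sub (sub (sub (sub (add (add (sub C x637) x623) x647) x617) x689) x473) x1607) x3551) x6467) x5007)
  (sub (add (add (sub (sub (sub (sub (sub (sub C x635) x643) x619) x691) x475) x1609) x3553) x6469) x2823)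
  (sub (add (add (add (sub (sub (sub (add (add (sub (add (add C x643) x647) x627) x567) x603) x693) x477) x1611) x3555) x6471) x2827) x5015)
  (sub (add (add (sub (sub (sub (add (add (sub (add (add C x639) x647) x637) x571) x607) x697) x481) x1615) x3559) x6475) x2829)
  (add (add (add (sub (sub (sub (add (add (add (add (add (add C x639) x643) x623) x635) x575) x611) x701) x485) x1619) x3563) x6479) x5019)
  (add (add (add (sub (add (add (sub (add (add (sub (sub C x655) x659) x689) x725) x545) x5) x329) x1625) x3569) x6485) x5025)
  (sub (add (add (sub (add (add (sub (add (add (sub (sub C x653) x667) x691) x727) x547) x7) x331) x1627) x3571) x6487) x2841)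
  (add (add (add (sub (add (add (sub (sub (sub (sub C x663) x653) x677) x551) x11) x335) x1631) x3575) x6491) x5031)
  (sub (add (add (add (sub (add (add (sub (sub (sub (sub C x659) x669) x681) x555) x15) x339) x1635) x3579) x6495) x2851) x5039)
  (sub (add (add (sub (add (add (sub (sub (sub (sub C x669) x655) x703) x559) x19) x343) x1639) x3583) x6499) x2853)
  (sub (add (add (add (sub (add (add (sub (sub (sub (sub C x667) x663) x705) x561) x21) x345) x1641) x3585) x6501) x2857) x5045)
  (add (add (add (sub (add (add (sub (sub (add (add (sub C x681) x689) x701) x659) x623) x29) x353) x1649) x3593) x6509) x5049)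
  (sub (add (add (add (sub (add (add (sub (sub (sub (sub C x677) x693) x663) x627) x33) x357) x1653) x3597) x6513) x2869) x5057)
  (add (add (add (sub (add (add (sub (add (add (add (add (sub C x691) x677) x701) x653) x725) x635) x41) x365) x1661) x3605) x6521) x5061)
  (sub (add (add (sub (add (add (sub (add (add (sub (sub C x689) x697) x655) x727) x637) x43) x367) x1663) x3607) x6523) x2877)
  (sub (add (add (add (sub (add (add (sub (sub (sub (add (add C x697) x701) x681) x711) x639) x45) x369) x1665) x3609) x6525) x2881) x5069)
  (sub (add (add (sub (add (add (sub (sub (sub (add (add C x693) x701) x691) x715) x643) x49) x373) x1669) x3613) x6529) x2883)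
  (add (add (add (sub (add (add (sub (sub (add (add (add (add C x693) x697) x677) x689) x719) x647) x53) x377) x1673) x3617) x6533) x5073)
  (sub (add (add (sub (add (add (add (add (sub (add (add (sub C x705) x715) x727) x667) x487) x595) x55) x379) x1675) x3619) x6535) x2889)
  (sub (add (add (add (sub (add (add (add (add (sub (sub (sub C x703) x711) x669) x489) x597) x57) x381) x1677) x3621) x6537) x2893) x5081)
  (sub (add (add (add (sub (add (add (add (add (sub (sub (add (add C x715) x719) x705) x693) x495) x603) x63) x387) x1683) x3627) x6543) x2899) x5087)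
  (sub (add (add (sub (add (add (add (add (sub (add (add (add (add C x711) x719) x703) x727) x697) x499) x607) x67) x391) x1687) x3631) x6547) x2901)
  (add (add (add (sub (add (add (add (add (sub (sub (add (add C x711) x715) x725) x701) x503) x611) x71) x395) x1691) x3635) x6551) x5091)
  (add (add (add (sub (add (add (add (add (add (add (sub (sub C x727) x719) x653) x689) x509) x617) x77) x401) x1697) x3641) x6557) x5097)
  (sub (add (add (sub (add (add (add (add (add (add (add (add (sub C x725) x703) x715) x655) x691) x511) x619) x79) x403) x1699) x3643) x6559) x2913)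
  (add (sub (sub (add (add (add (add (add (add (add (add (sub C x735) x743) x755) x767) x803) x839) x947) x1055) x1379) x245) x2189) x5103)
  (sub (add (sub (sub (add (add (add (add (add (add (sub (sub C x731) x747) x771) x807) x843) x951) x1059) x1383) x249) x2193) x2923) x5111)
  (add (sub (sub (add (add (add (add (sub (add (add (sub C x745) x731) x755) x761) x851) x959) x1067) x1391) x257) x2201) x5115)
  (sub (sub (sub (add (add (add (add (sub (sub (sub C x743) x751) x763) x853) x961) x1069) x1393) x259) x2203) x2931)
  (sub (add (sub (sub (add (add (add (add (sub (sub (add (add C x751) x755) x735) x783) x855) x963) x1071) x1395) x261) x2205) x2935) x5123)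
  (sub (sub (sub (add (add (add (add (sub (sub (add (add C x747) x755) x745) x787) x859) x967) x1075) x1399) x265) x2209) x2937)
  (add (sub (sub (add (add (add (add (sub (add (add (add (add C x747) x751) x731) x743) x791) x863) x971) x1079) x1403) x269) x2213) x5127)
  (add (sub (sub (add (add (sub (sub (sub (sub C x763) x767) x743) x815) x1085) x1409) x275) x2219) x5133)
  (sub (sub (sub (add (add (sub (sub (sub (sub C x761) x775) x745) x817) x1087) x1411) x277) x2221) x2949)
  (add (sub (sub (add (add (sub (add (add (sub (sub C x771) x761) x731) x803) x821) x1091) x1415) x281) x2225) x5139)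
  (sub (add (sub (sub (add (add (sub (add (add (sub (sub C x767) x777) x735) x807) x825) x1095) x1419) x285) x2229) x2959) x5147)
  (sub (sub (sub (add (add (sub (sub (sub (sub C x777) x763) x793) x829) x1099) x1423) x289) x2233) x2961)
  (sub (add (sub (sub (add (add (sub (sub (sub (sub C x775) x771) x795) x831) x1101) x1425) x291) x2235) x2965) x5153)
  (sub (add (sub (sub (add (add (sub (sub (add (add (add (add C x787) x791) x795) x807) x747) x891) x1107) x1431) x297) x2241) x2971) x5159)
  (sub (sub (sub (add (add (sub (sub (sub (add (add C x783) x791) x793) x751) x895) x1111) x1435) x301) x2245) x2973)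
  (add (sub (sub (add (add (sub (sub (sub (add (add C x783) x787) x803) x755) x899) x1115) x1439) x305) x2249) x5163)
  (sub (sub (sub (add (add (sub (sub (sub (sub C x795) x787) x775) x901) x1117) x1441) x307) x2251) x2979)
  (sub (add (sub (sub (add (add (sub (sub (add (add (sub C x793) x783) x807) x777) x903) x1119) x1443) x309) x2253) x2983) x5171)
  (add (sub (sub (add (add (sub (add (add (sub (sub C x807) x791) x731) x767) x911) x1127) x1451) x317) x2261) x5175)
  (sub (add (sub (sub (add (add (sub (add (add (add (add (sub C x803) x783) x795) x735) x771) x915) x1131) x1455) x321) x2265) x2995) x5183)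
  (add (sub (sub (sub (sub (add (add (sub (sub C x817) x821) x851) x887) x761) x977) x329) x2273) x5187)
  (sub (sub (sub (sub (sub (add (add (sub (sub C x815) x829) x853) x889) x763) x979) x331) x2275) x3003)
  (add (sub (sub (sub (sub (sub (sub (sub C x825) x815) x839) x767) x983) x335) x2279) x5193)
  (sub (add (sub (sub (sub (sub (sub (sub (sub C x821) x831) x843) x771) x987) x339) x2283) x3013) x5201)
  (sub (sub (sub (sub (sub (sub (sub (sub C x831) x817) x865) x775) x991) x343) x2287) x3015)
  (sub (add (sub (sub (sub (sub (sub (sub (sub C x829) x825) x867) x777) x993) x345) x2289) x3019) x5207)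
  (add (sub (sub (sub (add (add (sub (add (add (sub C x843) x851) x863) x821) x731) x947) x1001) x353) x2297) x5211)
  (sub (add (sub (sub (sub (add (add (sub (sub (sub C x839) x855) x825) x735) x951) x1005) x357) x2301) x3031) x5219)
  (add (sub (sub (sub (add (add (add (add (add (add (sub C x853) x839) x863) x815) x887) x743) x959) x1013) x365) x2309) x5223)
  (sub (sub (sub (sub (add (add (add (add (sub (sub C x851) x859) x817) x889) x745) x961) x1015) x367) x2311) x3039)
  (sub (add (sub (sub (sub (add (add (sub (sub (add (add C x859) x863) x843) x873) x747) x963) x1017) x369) x2313) x3043) x5231)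
  (sub (sub (sub (sub (add (add (sub (sub (add (add C x855) x863) x853) x877) x751) x967) x1021) x373) x2317) x3045)
  (add (sub (sub (sub (add (add (sub (add (add (add (add C x855) x859) x839) x851) x881) x755) x971) x1025) x377) x2321) x5235)
  (sub (sub (sub (sub (sub (sub (add (add (sub C x867) x877) x889) x829) x919) x1027) x379) x2323) x3051)
  (sub (add (sub (sub (sub (sub (sub (sub (sub C x865) x873) x831) x921) x1029) x381) x2325) x3055) x5243)
  (sub (add (sub (sub (sub (sub (sub (sub (add (add C x877) x881) x867) x855) x927) x1035) x387) x2331) x3061) x5249)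
  (sub (sub (sub (sub (sub (sub (add (add (add (add C x873) x881) x865) x889) x859) x931) x1039) x391) x2335) x3063)
  (add (sub (sub (sub (sub (sub (sub (add (add C x873) x877) x887) x863) x935) x1043) x395) x2339) x5253)
  (add (sub (sub (sub (sub (add (add (sub (sub C x889) x881) x815) x851) x941) x1049) x401) x2345) x5259)
  (sub (sub (sub (sub (sub (add (add (add (add (sub C x887) x865) x877) x817) x853) x943) x1051) x403) x2347) x3075)
  (sub (add (sub (sub (sub (sub (add (add (add (add (add (add C x895) x899) x903) x915) x927) x963) x783) x1215) x405) x2349) x3079) x5267)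
  (sub (sub (sub (sub (sub (add (add (sub (add (add C x891) x899) x901) x931) x967) x787) x1219) x409) x2353) x3081)
  (add (sub (sub (sub (sub (add (add (sub (add (add C x891) x895) x911) x935) x971) x791) x1223) x413) x2357) x5271)
  (sub (sub (sub (sub (sub (sub (sub (sub C x903) x895) x919) x793) x1225) x415) x2359) x3087)
  (sub (add (sub (sub (sub (sub (sub (add (add (sub C x901) x891) x915) x921) x795) x1227) x417) x2361) x3091) x5279)
  (add (sub (sub (sub (sub (sub (sub (sub C x915) x899) x947) x803) x1235) x425) x2369) x5283)
  (sub (add (sub (sub (sub (sub (sub (add (add (sub C x911) x891) x903) x951) x807) x1239) x429) x2373) x3103) x5291)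
  (sub (sub (sub (sub (sub (sub (add (add (sub C x921) x931) x943) x901) x865) x1243) x433) x2377) x3105)
  (sub (add (sub (sub (sub (sub (sub (sub (sub C x919) x927) x903) x867) x1245) x435) x2379) x3109) x5297)
  (sub (add (sub (sub (sub (sub (add (add (sub (add (add C x931) x935) x921) x891) x963) x873) x1251) x441) x2385) x3115) x5303)
  (sub (sub (sub (sub (sub (add (add (add (add (add (add C x927) x935) x919) x943) x895) x967) x877) x1255) x445) x2389) x3117)
  (add (sub (sub (sub (sub (add (add (sub (add (add C x927) x931) x941) x899) x971) x881) x1259) x449) x2393) x5307)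
  (add (sub (sub (sub (sub (sub (sub (sub C x943) x935) x959) x887) x1265) x455) x2399) x5313)
  (sub (sub (sub (sub (sub (sub (add (add (sub C x941) x919) x931) x961) x889) x1267) x457) x2401) x3129)
  (add (sub (sub (sub (add (add (sub (add (add (sub C x951) x959) x971) x911) x731) x839) x1271) x461) x2405) x5319)
  (sub (add (sub (sub (sub (add (add (sub (sub (sub C x947) x963) x915) x735) x843) x1275) x465) x2409) x3139) x5327)
  (add (sub (sub (sub (add (add (sub (add (add (sub C x961) x947) x971) x941) x743) x851) x1283) x473) x2417) x5331)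
  (sub (sub (sub (sub (add (add (sub (sub (sub C x959) x967) x943) x745) x853) x1285) x475) x2419) x3147)
  (sub (add (sub (sub (sub (add (add (add (add (sub (add (add C x967) x971) x951) x891) x927) x747) x855) x1287) x477) x2421) x3151) x5339)
  (sub (sub (sub (sub (add (add (add (add (sub (add (add C x963) x971) x961) x895) x931) x751) x859) x1291) x481) x2425) x3153)
  (add (sub (sub (sub (add (add (add (add (add (add (add (add C x963) x967) x947) x959) x899) x935) x755) x863) x1295) x485) x2429) x5343)
  (add (sub (add (add (sub (add (add (add (add (sub (sub C x979) x983) x1013) x1049) x1085) x1193) x815) x5) x1949) x2435) x5349)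
  (sub (sub (add (add (sub (add (add (add (add (sub (sub C x977) x991) x1015) x1051) x1087) x1195) x817) x7) x1951) x2437) x3165)
  (add (sub (add (add (sub (add (add (sub (sub (sub C x987) x977) x1001) x1091) x1199) x821) x11) x1955) x2441) x5355)
  (sub (add (sub (add (add (sub (add (add (sub (sub (sub C x983) x993) x1005) x1095) x1203) x825) x15) x1959) x2445) x3175) x5363)
  (sub (sub (add (add (sub (add (add (sub (sub (sub C x993) x979) x1027) x1099) x1207) x829) x19) x1963) x2449) x3177)
  (sub (add (sub (add (add (sub (add (add (sub (sub (sub C x991) x987) x1029) x1101) x1209) x831) x21) x1965) x2451) x3181) x5369)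
  (add (sub (add (add (sub (sub (sub (add (add (sub C x1005) x1013) x1025) x983) x1055) x839) x29) x1973) x2459) x5373)
  (sub (add (sub (add (add (sub (sub (sub (sub (sub C x1001) x1017) x987) x1059) x843) x33) x1977) x2463) x3193) x5381)
  (add (sub (add (add (sub (sub (add (add (add (add (sub C x1015) x1001) x1025) x977) x1049) x1067) x851) x41) x1985) x2471) x5385)
  (sub (sub (add (add (sub (sub (add (add (sub (sub C x1013) x1021) x979) x1051) x1069) x853) x43) x1987) x2473) x3201)
  (sub (add (sub (add (add (sub (sub (sub (sub (add (add C x1021) x1025) x1005) x1035) x1071) x855) x45) x1989) x2475) x3205) x5393)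
  (sub (sub (add (add (sub (sub (sub (sub (add (add C x1017) x1025) x1015) x1039) x1075) x859) x49) x1993) x2479) x3207)
  (add (sub (add (add (sub (sub (sub (add (add (add (add C x1017) x1021) x1001) x1013) x1043) x1079) x863) x53) x1997) x2483) x5397)
  (sub (sub (add (add (sub (sub (sub (add (add (sub C x1029) x1039) x1051) x991) x1135) x865) x55) x1999) x2485) x3213)
  (sub (add (sub (add (add (sub (sub (sub (sub (sub C x1027) x1035) x993) x1137) x867) x57) x2001) x2487) x3217) x5405)
  (sub (add (sub (add (add (sub (sub (sub (sub (add (add C x1039) x1043) x1029) x1017) x1143) x873) x63) x2007) x2493) x3223) x5411)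
  (sub (sub (add (add (sub (sub (sub (add (add (add (add C x1035) x1043) x1027) x1051) x1021) x1147) x877) x67) x2011) x2497) x3225)
  (add (sub (add (add (sub (sub (sub (sub (add (add C x1035) x1039) x1049) x1025) x1151) x881) x71) x2015) x2501) x5415)
  (add (sub (add (add (sub (sub (add (add (sub (sub C x1051) x1043) x977) x1013) x1157) x887) x77) x2021) x2507) x5421)
  (sub (sub (add (add (sub (sub (add (add (add (add (sub C x1049) x1027) x1039) x979) x1015) x1159) x889) x79) x2023) x2509) x3237)
  (add (sub (add (add (add (add (sub (add (add (add (add (sub C x1059) x1067) x1079) x1091) x1127) x1001) x731) x1379) x83) x2027) x2513) x5427)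
  (sub (add (sub (add (add (add (add (sub (add (add (sub (sub C x1055) x1071) x1095) x1131) x1005) x735) x1383) x87) x2031) x2517) x3247) x5435)
  (add (sub (add (add (add (add (sub (sub (add (add (sub C x1069) x1055) x1079) x1085) x1013) x743) x1391) x95) x2039) x2525) x5439)
  (sub (sub (add (add (add (add (sub (sub (sub (sub C x1067) x1075) x1087) x1015) x745) x1393) x97) x2041) x2527) x3255)
  (sub (add (sub (add (add (add (add (sub (sub (sub (add (add C x1075) x1079) x1059) x1107) x1017) x747) x1395) x99) x2043) x2529) x3259) x5447)
  (sub (sub (add (add (add (add (sub (sub (sub (add (add C x1071) x1079) x1069) x1111) x1021) x751) x1399) x103) x2047) x2533) x3261)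
  (add (sub (add (add (add (add (sub (sub (add (add (add (add C x1071) x1075) x1055) x1067) x1115) x1025) x755) x1403) x107) x2051) x2537) x5451)
  (add (sub (add (add (add (add (add (add (sub (sub (sub C x1087) x1091) x1067) x977) x1193) x761) x1409) x113) x2057) x2543) x5457)
  (sub (sub (add (add (add (add (add (add (sub (sub (sub C x1085) x1099) x1069) x979) x1195) x763) x1411) x115) x2059) x2545) x3273)
  (add (sub (add (add (add (add (add (add (add (add (sub (sub C x1095) x1085) x1055) x1127) x983) x1199) x767) x1415) x119) x2063) x2549) x5463)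
  (sub (add (sub (add (add (add (add (add (add (add (add (sub (sub C x1091) x1101) x1059) x1131) x987) x1203) x771) x1419) x123) x2067) x2553) x3283) x5471)
  (sub (sub (add (add (add (add (add (add (sub (sub (sub C x1101) x1087) x1117) x991) x1207) x775) x1423) x127) x2071) x2557) x3285)
  (sub (add (sub (add (add (add (add (add (add (sub (sub (sub C x1099) x1095) x1119) x993) x1209) x777) x1425) x129) x2073) x2559) x3289) x5477)
  (sub (add (sub (add (add (add (add (sub (sub (add (add (add (add C x1111) x1115) x1119) x1131) x1071) x1161) x783) x1431) x135) x2079) x2565) x3295) x5483)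
  (sub (sub (add (add (add (add (sub (sub (sub (add (add C x1107) x1115) x1117) x1075) x1165) x787) x1435) x139) x2083) x2569) x3297)
  (add (sub (add (add (add (add (sub (sub (sub (add (add C x1107) x1111) x1127) x1079) x1169) x791) x1439) x143) x2087) x2573) x5487)
  (sub (sub (add (add (add (add (sub (sub (sub (sub C x1119) x1111) x1099) x1171) x793) x1441) x145) x2089) x2575) x3303)
  (sub (add (sub (add (add (add (add (sub (sub (add (add (sub C x1117) x1107) x1131) x1101) x1173) x795) x1443) x147) x2091) x2577) x3307) x5495)
  (add (sub (add (add (add (add (sub (add (add (sub (sub C x1131) x1115) x1055) x1091) x1181) x803) x1451) x155) x2099) x2585) x5499)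
  (sub (add (sub (add (add (add (add (sub (add (add (add (add (sub C x1127) x1107) x1119) x1059) x1095) x1185) x807) x1455) x159) x2103) x2589) x3319) x5507)
  (sub (sub (add (add (sub (sub (add (add (add (add (sub C x1137) x1147) x1159) x1171) x1207) x1027) x1297) x163) x2107) x2593) x3321)
  (sub (add (sub (add (add (sub (sub (add (add (sub (sub C x1135) x1143) x1173) x1209) x1029) x1299) x165) x2109) x2595) x3325) x5513)
  (sub (add (sub (add (add (sub (sub (sub (sub (add (add C x1147) x1151) x1137) x1161) x1035) x1305) x171) x2115) x2601) x3331) x5519)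
  (sub (sub (add (add (sub (sub (sub (add (add (add (add C x1143) x1151) x1135) x1159) x1165) x1039) x1309) x175) x2119) x2605) x3333)
  (add (sub (add (add (sub (sub (sub (sub (add (add C x1143) x1147) x1157) x1169) x1043) x1313) x179) x2123) x2609) x5523)
  (add (sub (add (add (sub (sub (sub (sub (sub C x1159) x1151) x1193) x1049) x1319) x185) x2129) x2615) x5529)
  (sub (sub (add (add (sub (sub (sub (add (add (sub C x1157) x1135) x1147) x1195) x1051) x1321) x187) x2131) x2617) x3345)
  (sub (add (sub (add (add (sub (sub (sub (add (add (add (add C x1165) x1169) x1173) x1185) x1143) x1107) x1323) x189) x2133) x2619) x3349) x5537)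
  (sub (sub (add (add (sub (sub (sub (sub (add (add C x1161) x1169) x1171) x1147) x1111) x1327) x193) x2137) x2623) x3351)
  (add (sub (add (add (sub (sub (sub (sub (add (add C x1161) x1165) x1181) x1151) x1115) x1331) x197) x2141) x2627) x5541)
  (sub (sub (add (add (sub (sub (add (add (sub (sub C x1173) x1165) x1135) x1207) x1117) x1333) x199) x2143) x2629) x3357)
  (sub (add (sub (add (add (sub (sub (add (add (add (add (sub C x1171) x1161) x1185) x1137) x1209) x1119) x1335) x201) x2145) x2631) x3361) x5549)
  (add (sub (add (add (sub (sub (sub (sub (sub C x1185) x1169) x1199) x1127) x1343) x209) x2153) x2639) x5553)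
  (sub (add (sub (add (add (sub (sub (sub (add (add (sub C x1181) x1161) x1173) x1203) x1131) x1347) x213) x2157) x2643) x3373) x5561)
  (add (sub (add (add (sub (add (add (sub (sub (sub C x1195) x1199) x1157) x977) x1085) x1355) x221) x2165) x2651) x5565)
  (sub (sub (add (add (sub (add (add (sub (sub (sub C x1193) x1207) x1159) x979) x1087) x1357) x223) x2167) x2653) x3381)
  (add (sub (add (add (sub (add (add (sub (sub (sub C x1203) x1193) x1181) x983) x1091) x1361) x227) x2171) x2657) x5571)
  (sub (add (sub (add (add (sub (add (add (sub (sub (sub C x1199) x1209) x1185) x987) x1095) x1365) x231) x2175) x2661) x3391) x5579)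
  (sub (sub (add (add (sub (add (add (add (add (sub (sub C x1209) x1195) x1135) x1171) x991) x1099) x1369) x235) x2179) x2665) x3393)
  (sub (add (sub (add (add (sub (add (add (add (add (sub (sub C x1207) x1203) x1137) x1173) x993) x1101) x1371) x237) x2181) x2667) x3397) x5585)
  (sub (add (sub (sub (sub (add (add (add (add (add (add (add (add C x1219) x1223) x1227) x1239) x1251) x1287) x1323) x1431) x891) x1701) x2673) x3403) x5591)
  (sub (sub (sub (sub (add (add (add (add (sub (add (add C x1215) x1223) x1225) x1255) x1291) x1327) x1435) x895) x1705) x2677) x3405)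
  (add (sub (sub (sub (add (add (add (add (sub (add (add C x1215) x1219) x1235) x1259) x1295) x1331) x1439) x899) x1709) x2681) x5595)
  (sub (sub (sub (sub (add (add (sub (sub (sub C x1227) x1219) x1243) x1333) x1441) x901) x1711) x2683) x3411)
  (sub (add (sub (sub (sub (add (add (sub (add (add (sub C x1225) x1215) x1239) x1245) x1335) x1443) x903) x1713) x2685) x3415) x5603)
  (add (sub (sub (sub (add (add (sub (sub (sub C x1239) x1223) x1271) x1343) x1451) x911) x1721) x2693) x5607)
  (sub (add (sub (sub (sub (add (add (sub (add (add (sub C x1235) x1215) x1227) x1275) x1347) x1455) x915) x1725) x2697) x3427) x5615)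
  (sub (sub (sub (sub (sub (sub (add (add (sub C x1245) x1255) x1267) x1225) x1297) x919) x1729) x2701) x3429)
  (sub (add (sub (sub (sub (sub (sub (sub (sub C x1243) x1251) x1227) x1299) x921) x1731) x2703) x3433) x5621)
  (sub (add (sub (sub (sub (sub (add (add (sub (add (add C x1255) x1259) x1245) x1215) x1287) x1305) x927) x1737) x2709) x3439) x5627)
  (sub (sub (sub (sub (sub (add (add (add (add (add (add C x1251) x1259) x1243) x1267) x1219) x1291) x1309) x931) x1741) x2713) x3441)
  (add (sub (sub (sub (sub (add (add (sub (add (add C x1251) x1255) x1265) x1223) x1295) x1313) x935) x1745) x2717) x5631)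
  (add (sub (sub (sub (sub (sub (sub (sub C x1267) x1259) x1283) x1319) x941) x1751) x2723) x5637)
  (sub (sub (sub (sub (sub (sub (add (add (sub C x1265) x1243) x1255) x1285) x1321) x943) x1753) x2725) x3453)
  (add (sub (sub (sub (sub (sub (add (add (sub C x1275) x1283) x1295) x1235) x1379) x947) x1757) x2729) x5643)
  (sub (add (sub (sub (sub (sub (sub (sub (sub C x1271) x1287) x1239) x1383) x951) x1761) x2733) x3463) x5651)
  (add (sub (sub (sub (sub (sub (add (add (sub C x1285) x1271) x1295) x1265) x1391) x959) x1769) x2741) x5655)
  (sub (sub (sub (sub (sub (sub (sub (sub C x1283) x1291) x1267) x1393) x961) x1771) x2743) x3471)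
  (sub (add (sub (sub (sub (sub (add (add (sub (add (add C x1291) x1295) x1275) x1215) x1251) x1395) x963) x1773) x2745) x3475) x5663)
  (sub (sub (sub (sub (sub (add (add (sub (add (add C x1287) x1295) x1285) x1219) x1255) x1399) x967) x1777) x2749) x3477)
  (add (sub (sub (sub (sub (add (add (add (add (add (add C x1287) x1291) x1271) x1283) x1223) x1259) x1403) x971) x1781) x2753) x5667)
  (sub (sub (sub (sub (sub (add (add (add (add (sub C x1299) x1309) x1321) x1333) x1369) x1243) x1135) x1783) x2755) x3483)
  (sub (add (sub (sub (sub (sub (add (add (sub (sub C x1297) x1305) x1335) x1371) x1245) x1137) x1785) x2757) x3487) x5675)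
  (sub (add (sub (sub (sub (sub (sub (sub (add (add C x1309) x1313) x1299) x1323) x1251) x1143) x1791) x2763) x3493) x5681)
  (sub (sub (sub (sub (sub (sub (add (add (add (add C x1305) x1313) x1297) x1321) x1327) x1255) x1147) x1795) x2767) x3495)
  (add (sub (sub (sub (sub (sub (sub (add (add C x1305) x1309) x1319) x1331) x1259) x1151) x1799) x2771) x5685)
  (add (sub (sub (sub (sub (sub (sub (sub C x1321) x1313) x1355) x1265) x1157) x1805) x2777) x5691)
  (sub (sub (sub (sub (sub (sub (add (add (sub C x1319) x1297) x1309) x1357) x1267) x1159) x1807) x2779) x3507)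
  (sub (add (sub (sub (sub (add (add (sub (add (add (add (add C x1327) x1331) x1335) x1347) x1305) x1215) x1431) x1161) x1809) x2781) x3511) x5699)
  (sub (sub (sub (sub (add (add (sub (sub (add (add C x1323) x1331) x1333) x1309) x1219) x1435) x1165) x1813) x2785) x3513)
  (add (sub (sub (sub (add (add (sub (sub (add (add C x1323) x1327) x1343) x1313) x1223) x1439) x1169) x1817) x2789) x5703)
  (sub (sub (sub (sub (add (add (add (add (sub (sub C x1335) x1327) x1297) x1369) x1225) x1441) x1171) x1819) x2791) x3519)
  (sub (add (sub (sub (sub (add (add (add (add (add (add (sub C x1333) x1323) x1347) x1299) x1371) x1227) x1443) x1173) x1821) x2793) x3523) x5711)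
  (add (sub (sub (sub (add (add (sub (sub (sub C x1347) x1331) x1361) x1235) x1451) x1181) x1829) x2801) x5715)
  (sub (add (sub (sub (sub (add (add (sub (add (add (sub C x1343) x1323) x1335) x1365) x1239) x1455) x1185) x1833) x2805) x3535) x5723)
  (add (sub (sub (sub (sub (sub (sub (sub C x1357) x1361) x1319) x1409) x1193) x1841) x2813) x5727)
  (sub (sub (sub (sub (sub (sub (sub (sub C x1355) x1369) x1321) x1411) x1195) x1843) x2815) x3543)
  (add (sub (sub (sub (sub (sub (sub (sub C x1365) x1355) x1343) x1415) x1199) x1847) x2819) x5733)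
  (sub (add (sub (sub (sub (sub (sub (sub (sub C x1361) x1371) x1347) x1419) x1203) x1851) x2823) x3553) x5741)
  (sub (sub (sub (sub (sub (add (add (sub (sub C x1371) x1357) x1297) x1333) x1423) x1207) x1855) x2827) x3555)
  (sub (add (sub (sub (sub (sub (add (add (sub (sub C x1369) x1365) x1299) x1335) x1425) x1209) x1857) x2829) x3559) x5747)
  (add (sub (sub (add (add (sub (add (add (add (add (sub C x1383) x1391) x1403) x1415) x1451) x1271) x731) x1055) x1865) x2837) x5751)
  (sub (add (sub (sub (add (add (sub (add (add (sub (sub C x1379) x1395) x1419) x1455) x1275) x735) x1059) x1869) x2841) x3571) x5759)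
  (add (sub (sub (add (add (sub (sub (add (add (sub C x1393) x1379) x1403) x1409) x1283) x743) x1067) x1877) x2849) x5763)
  (sub (sub (sub (add (add (sub (sub (sub (sub C x1391) x1399) x1411) x1285) x745) x1069) x1879) x2851) x3579)
  (sub (add (sub (sub (add (add (sub (sub (sub (add (add C x1399) x1403) x1383) x1431) x1287) x747) x1071) x1881) x2853) x3583) x5771)
  (sub (sub (sub (add (add (sub (sub (sub (add (add C x1395) x1403) x1393) x1435) x1291) x751) x1075) x1885) x2857) x3585)
  (add (sub (sub (add (add (sub (sub (add (add (add (add C x1395) x1399) x1379) x1391) x1439) x1295) x755) x1079) x1889) x2861) x5775)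
  (add (sub (sub (add (add (sub (sub (sub (sub C x1411) x1415) x1391) x1355) x761) x1085) x1895) x2867) x5781)
  (sub (sub (sub (add (add (sub (sub (sub (sub C x1409) x1423) x1393) x1357) x763) x1087) x1897) x2869) x3597)
  (add (sub (sub (add (add (sub (add (add (sub (sub C x1419) x1409) x1379) x1451) x1361) x767) x1091) x1901) x2873) x5787)
  (sub (add (sub (sub (add (add (sub (add (add (sub (sub C x1415) x1425) x1383) x1455) x1365) x771) x1095) x1905) x2877) x3607) x5795)
  (sub (sub (sub (add (add (sub (sub (sub (sub C x1425) x1411) x1441) x1369) x775) x1099) x1909) x2881) x3609)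
  (sub (add (sub (sub (add (add (sub (sub (sub (sub C x1423) x1419) x1443) x1371) x777) x1101) x1911) x2883) x3613) x5801)
  (sub (add (sub (sub (add (add (add (add (sub (add (add (add (add C x1435) x1439) x1443) x1455) x1395) x1215) x1323) x783) x1107) x1917) x2889) x3619) x5807)
  (sub (sub (sub (add (add (add (add (sub (sub (add (add C x1431) x1439) x1441) x1399) x1219) x1327) x787) x1111) x1921) x2893) x3621)
  (add (sub (sub (add (add (add (add (sub (sub (add (add C x1431) x1435) x1451) x1403) x1223) x1331) x791) x1115) x1925) x2897) x5811)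
  (sub (sub (sub (add (add (add (add (sub (sub (sub C x1443) x1435) x1423) x1225) x1333) x793) x1117) x1927) x2899) x3627)
  (sub (add (sub (sub (add (add (add (add (sub (add (add (sub C x1441) x1431) x1455) x1425) x1227) x1335) x795) x1119) x1929) x2901) x3631) x5819)
  (add (sub (sub (add (add (add (add (add (add (sub (sub C x1455) x1439) x1379) x1415) x1235) x1343) x803) x1127) x1937) x2909) x5823)
  (sub (add (sub (sub (add (add (add (add (add (add (add (add (sub C x1451) x1431) x1443) x1383) x1419) x1239) x1347) x807) x1131) x1941) x2913) x3643) x5831)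
  (sub (sub (sub (add (add (add (add (add (add (add (add (sub C x1461) x1471) x1483) x1495) x1531) x1567) x1675) x1783) x2107) x487) x4375) x3645)
  (sub (add (sub (sub (add (add (add (add (add (add (sub (sub C x1459) x1467) x1497) x1533) x1569) x1677) x1785) x2109) x489) x4377) x3649) x5837)
  (sub (add (sub (sub (add (add (add (add (sub (sub (add (add C x1471) x1475) x1461) x1485) x1575) x1683) x1791) x2115) x495) x4383) x3655) x5843)
  (sub (sub (sub (add (add (add (add (sub (add (add (add (add C x1467) x1475) x1459) x1483) x1489) x1579) x1687) x1795) x2119) x499) x4387) x3657)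
  (add (sub (sub (add (add (add (add (sub (sub (add (add C x1467) x1471) x1481) x1493) x1583) x1691) x1799) x2123) x503) x4391) x5847)
  (add (sub (sub (add (add (add (add (sub (sub (sub C x1483) x1475) x1517) x1589) x1697) x1805) x2129) x509) x4397) x5853)
  (sub (sub (sub (add (add (add (add (sub (add (add (sub C x1481) x1459) x1471) x1519) x1591) x1699) x1807) x2131) x511) x4399) x3669)
  (sub (add (sub (sub (add (add (sub (sub (add (add (add (add C x1489) x1493) x1497) x1509) x1467) x1539) x1809) x2133) x513) x4401) x3673) x5861)
  (sub (sub (sub (add (add (sub (sub (sub (add (add C x1485) x1493) x1495) x1471) x1543) x1813) x2137) x517) x4405) x3675)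
  (add (sub (sub (add (add (sub (sub (sub (add (add C x1485) x1489) x1505) x1475) x1547) x1817) x2141) x521) x4409) x5865)
  (sub (sub (sub (add (add (sub (add (add (sub (sub C x1497) x1489) x1459) x1531) x1549) x1819) x2143) x523) x4411) x3681)
  (sub (add (sub (sub (add (add (sub (add (add (add (add (sub C x1495) x1485) x1509) x1461) x1533) x1551) x1821) x2145) x525) x4413) x3685) x5873)
  (add (sub (sub (add (add (sub (sub (sub (sub C x1509) x1493) x1523) x1559) x1829) x2153) x533) x4421) x5877)
  (sub (add (sub (sub (add (add (sub (sub (add (add (sub C x1505) x1485) x1497) x1527) x1563) x1833) x2157) x537) x4425) x3697) x5885)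
  (add (sub (sub (add (add (sub (sub (sub (sub C x1519) x1523) x1481) x1625) x1841) x2165) x545) x4433) x5889)
  (sub (sub (sub (add (add (sub (sub (sub (sub C x1517) x1531) x1483) x1627) x1843) x2167) x547) x4435) x3705)
  (add (sub (sub (add (add (sub (sub (sub (sub C x1527) x1517) x1505) x1631) x1847) x2171) x551) x4439) x5895)
  (sub (add (sub (sub (add (add (sub (sub (sub (sub C x1523) x1533) x1509) x1635) x1851) x2175) x555) x4443) x3715) x5903)
  (sub (sub (sub (add (add (sub (add (add (sub (sub C x1533) x1519) x1459) x1495) x1639) x1855) x2179) x559) x4447) x3717)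
  (sub (add (sub (sub (add (add (sub (add (add (sub (sub C x1531) x1527) x1461) x1497) x1641) x1857) x2181) x561) x4449) x3721) x5909)
  (sub (add (sub (sub (sub (sub (add (add (add (add (add (add C x1543) x1547) x1551) x1563) x1575) x1611) x1485) x1701) x567) x4455) x3727) x5915)
  (sub (sub (sub (sub (sub (add (add (sub (add (add C x1539) x1547) x1549) x1579) x1615) x1489) x1705) x571) x4459) x3729)
  (add (sub (sub (sub (sub (add (add (sub (add (add C x1539) x1543) x1559) x1583) x1619) x1493) x1709) x575) x4463) x5919)
  (sub (sub (sub (sub (sub (sub (sub (sub C x1551) x1543) x1567) x1495) x1711) x577) x4465) x3735)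
  (sub (add (sub (sub (sub (sub (sub (add (add (sub C x1549) x1539) x1563) x1569) x1497) x1713) x579) x4467) x3739) x5927)
  (add (sub (sub (sub (sub (sub (sub (sub C x1563) x1547) x1595) x1505) x1721) x587) x4475) x5931)
  (sub (add (sub (sub (sub (sub (sub (add (add (sub C x1559) x1539) x1551) x1599) x1509) x1725) x591) x4479) x3751) x5939)
  (sub (sub (sub (sub (add (add (sub (add (add (sub C x1569) x1579) x1591) x1549) x1459) x1675) x1729) x595) x4483) x3753)
  (sub (add (sub (sub (sub (add (add (sub (sub (sub C x1567) x1575) x1551) x1461) x1677) x1731) x597) x4485) x3757) x5945)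
  (sub (add (sub (sub (sub (add (add (add (add (sub (add (add C x1579) x1583) x1569) x1539) x1611) x1467) x1683) x1737) x603) x4491) x3763) x5951)
  (sub (sub (sub (sub (add (add (add (add (add (add (add (add C x1575) x1583) x1567) x1591) x1543) x1615) x1471) x1687) x1741) x607) x4495) x3765)
  (add (sub (sub (sub (add (add (add (add (sub (add (add C x1575) x1579) x1589) x1547) x1619) x1475) x1691) x1745) x611) x4499) x5955)
  (add (sub (sub (sub (add (add (sub (sub (sub C x1591) x1583) x1607) x1481) x1697) x1751) x617) x4505) x5961)
  (sub (sub (sub (sub (add (add (sub (add (add (sub C x1589) x1567) x1579) x1609) x1483) x1699) x1753) x619) x4507) x3777)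
  (add (sub (sub (sub (sub (sub (add (add (sub C x1599) x1607) x1619) x1559) x1649) x1757) x623) x4511) x5967)
  (sub (add (sub (sub (sub (sub (sub (sub (sub C x1595) x1611) x1563) x1653) x1761) x627) x4515) x3787) x5975)
  (add (sub (sub (sub (sub (sub (add (add (sub C x1609) x1595) x1619) x1589) x1661) x1769) x635) x4523) x5979)
  (sub (sub (sub (sub (sub (sub (sub (sub C x1607) x1615) x1591) x1663) x1771) x637) x4525) x3795)
  (sub (add (sub (sub (sub (sub (add (add (sub (add (add C x1615) x1619) x1599) x1539) x1575) x1665) x1773) x639) x4527) x3799) x5987)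
  (sub (sub (sub (sub (sub (add (add (sub (add (add C x1611) x1619) x1609) x1543) x1579) x1669) x1777) x643) x4531) x3801)
  (add (sub (sub (sub (sub (add (add (add (add (add (add C x1611) x1615) x1595) x1607) x1547) x1583) x1673) x1781) x647) x4535) x5991)
  (add (sub (sub (sub (sub (add (add (sub (sub C x1627) x1631) x1661) x1697) x1517) x1949) x653) x4541) x5997)
  (sub (sub (sub (sub (sub (add (add (sub (sub C x1625) x1639) x1663) x1699) x1519) x1951) x655) x4543) x3813)
  (add (sub (sub (sub (sub (sub (sub (sub C x1635) x1625) x1649) x1523) x1955) x659) x4547) x6003)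
  (sub (add (sub (sub (sub (sub (sub (sub (sub C x1631) x1641) x1653) x1527) x1959) x663) x4551) x3823) x6011)
  (sub (sub (sub (sub (sub (sub (sub (sub C x1641) x1627) x1675) x1531) x1963) x667) x4555) x3825)
  (sub (add (sub (sub (sub (sub (sub (sub (sub C x1639) x1635) x1677) x1533) x1965) x669) x4557) x3829) x6017)
  (add (sub (sub (sub (sub (sub (add (add (sub C x1653) x1661) x1673) x1631) x1595) x1973) x677) x4565) x6021)
  (sub (add (sub (sub (sub (sub (sub (sub (sub C x1649) x1665) x1635) x1599) x1977) x681) x4569) x3841) x6029)
  (add (sub (sub (sub (sub (add (add (add (add (sub C x1663) x1649) x1673) x1625) x1697) x1607) x1985) x689) x4577) x6033)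
  (sub (sub (sub (sub (sub (add (add (sub (sub C x1661) x1669) x1627) x1699) x1609) x1987) x691) x4579) x3849)
  (sub (add (sub (sub (sub (sub (sub (sub (add (add C x1669) x1673) x1653) x1683) x1611) x1989) x693) x4581) x3853) x6041)
  (sub (sub (sub (sub (sub (sub (sub (add (add C x1665) x1673) x1663) x1687) x1615) x1993) x697) x4585) x3855)
  (add (sub (sub (sub (sub (sub (add (add (add (add C x1665) x1669) x1649) x1661) x1691) x1619) x1997) x701) x4589) x6045)
  (sub (sub (sub (sub (add (add (sub (add (add (sub C x1677) x1687) x1699) x1639) x1459) x1567) x1999) x703) x4591) x3861)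
  (sub (add (sub (sub (sub (add (add (sub (sub (sub C x1675) x1683) x1641) x1461) x1569) x2001) x705) x4593) x3865) x6053)
  (sub (add (sub (sub (sub (add (add (sub (sub (add (add C x1687) x1691) x1677) x1665) x1467) x1575) x2007) x711) x4599) x3871) x6059)
  (sub (sub (sub (sub (add (add (sub (add (add (add (add C x1683) x1691) x1675) x1699) x1669) x1471) x1579) x2011) x715) x4603) x3873)
  (add (sub (sub (sub (add (add (sub (sub (add (add C x1683) x1687) x1697) x1673) x1475) x1583) x2015) x719) x4607) x6063)
  (add (sub (sub (sub (add (add (add (add (sub (sub C x1699) x1691) x1625) x1661) x1481) x1589) x2021) x725) x4613) x6069)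
  (sub (sub (sub (sub (add (add (add (add (add (add (sub C x1697) x1675) x1687) x1627) x1663) x1483) x1591) x2023) x727) x4615) x3885)
  (sub (add (sub (sub (sub (add (add (add (add (add (add (add (add C x1705) x1709) x1713) x1725) x1737) x1773) x1809) x1917) x1539) x1215) x4617) x3889) x6077)
  (sub (sub (sub (sub (add (add (add (add (sub (add (add C x1701) x1709) x1711) x1741) x1777) x1813) x1921) x1543) x1219) x4621) x3891)
  (add (sub (sub (sub (add (add (add (add (sub (add (add C x1701) x1705) x1721) x1745) x1781) x1817) x1925) x1547) x1223) x4625) x6081)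
  (sub (sub (sub (sub (add (add (sub (sub (sub C x1713) x1705) x1729) x1819) x1927) x1549) x1225) x4627) x3897)
  (sub (add (sub (sub (sub (add (add (sub (add (add (sub C x1711) x1701) x1725) x1731) x1821) x1929) x1551) x1227) x4629) x3901) x6089)
  (add (sub (sub (sub (add (add (sub (sub (sub C x1725) x1709) x1757) x1829) x1937) x1559) x1235) x4637) x6093)
  (sub (add (sub (sub (sub (add (add (sub (add (add (sub C x1721) x1701) x1713) x1761) x1833) x1941) x1563) x1239) x4641) x3913) x6101)
  (sub (sub (sub (sub (sub (sub (add (add (sub C x1731) x1741) x1753) x1711) x1783) x1567) x1243) x4645) x3915)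
  (sub (add (sub (sub (sub (sub (sub (sub (sub C x1729) x1737) x1713) x1785) x1569) x1245) x4647) x3919) x6107)
  (sub (add (sub (sub (sub (sub (add (add (sub (add (add C x1741) x1745) x1731) x1701) x1773) x1791) x1575) x1251) x4653) x3925) x6113)
  (sub (sub (sub (sub (sub (add (add (add (add (add (add C x1737) x1745) x1729) x1753) x1705) x1777) x1795) x1579) x1255) x4657) x3927)
  (add (sub (sub (sub (sub (add (add (sub (add (add C x1737) x1741) x1751) x1709) x1781) x1799) x1583) x1259) x4661) x6117)
  (add (sub (sub (sub (sub (sub (sub (sub C x1753) x1745) x1769) x1805) x1589) x1265) x4667) x6123)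
  (sub (sub (sub (sub (sub (sub (add (add (sub C x1751) x1729) x1741) x1771) x1807) x1591) x1267) x4669) x3939)
  (add (sub (sub (sub (sub (sub (add (add (sub C x1761) x1769) x1781) x1721) x1865) x1595) x1271) x4673) x6129)
  (sub (add (sub (sub (sub (sub (sub (sub (sub C x1757) x1773) x1725) x1869) x1599) x1275) x4677) x3949) x6137)
  (add (sub (sub (sub (sub (sub (add (add (sub C x1771) x1757) x1781) x1751) x1877) x1607) x1283) x4685) x6141)
  (sub (sub (sub (sub (sub (sub (sub (sub C x1769) x1777) x1753) x1879) x1609) x1285) x4687) x3957)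
  (sub (add (sub (sub (sub (sub (add (add (sub (add (add C x1777) x1781) x1761) x1701) x1737) x1881) x1611) x1287) x4689) x3961) x6149)
  (sub (sub (sub (sub (sub (add (add (sub (add (add C x1773) x1781) x1771) x1705) x1741) x1885) x1615) x1291) x4693) x3963)
  (add (sub (sub (sub (sub (add (add (add (add (add (add C x1773) x1777) x1757) x1769) x1709) x1745) x1889) x1619) x1295) x4697) x6153)
  (sub (sub (sub (add (add (sub (add (add (add (add (sub C x1785) x1795) x1807) x1819) x1855) x1729) x1459) x2107) x1297) x4699) x3969)
  (sub (add (sub (sub (add (add (sub (add (add (sub (sub C x1783) x1791) x1821) x1857) x1731) x1461) x2109) x1299) x4701) x3973) x6161)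
  (sub (add (sub (sub (add (add (sub (sub (sub (add (add C x1795) x1799) x1785) x1809) x1737) x1467) x2115) x1305) x4707) x3979) x6167)
  (sub (sub (sub (add (add (sub (sub (add (add (add (add C x1791) x1799) x1783) x1807) x1813) x1741) x1471) x2119) x1309) x4711) x3981)
  (add (sub (sub (add (add (sub (sub (sub (add (add C x1791) x1795) x1805) x1817) x1745) x1475) x2123) x1313) x4715) x6171)
  (add (sub (sub (add (add (sub (sub (sub (sub C x1807) x1799) x1841) x1751) x1481) x2129) x1319) x4721) x6177)
  (sub (sub (sub (add (add (sub (sub (add (add (sub C x1805) x1783) x1795) x1843) x1753) x1483) x2131) x1321) x4723) x3993)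
  (sub (add (sub (sub (add (add (add (add (sub (add (add (add (add C x1813) x1817) x1821) x1833) x1791) x1701) x1917) x1485) x2133) x1323) x4725) x3997) x6185)
  (sub (sub (sub (add (add (add (add (sub (sub (add (add C x1809) x1817) x1819) x1795) x1705) x1921) x1489) x2137) x1327) x4729) x3999)
  (add (sub (sub (add (add (add (add (sub (sub (add (add C x1809) x1813) x1829) x1799) x1709) x1925) x1493) x2141) x1331) x4733) x6189)
  (sub (sub (sub (add (add (add (add (add (add (sub (sub C x1821) x1813) x1783) x1855) x1711) x1927) x1495) x2143) x1333) x4735) x4005)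
  (sub (add (sub (sub (add (add (add (add (add (add (add (add (sub C x1819) x1809) x1833) x1785) x1857) x1713) x1929) x1497) x2145) x1335) x4737) x4009) x6197)
  (add (sub (sub (add (add (add (add (sub (sub (sub C x1833) x1817) x1847) x1721) x1937) x1505) x2153) x1343) x4745) x6201)
  (sub (add (sub (sub (add (add (add (add (sub (add (add (sub C x1829) x1809) x1821) x1851) x1725) x1941) x1509) x2157) x1347) x4749) x4021) x6209)
  (add (sub (sub (add (add (sub (sub (sub (sub C x1843) x1847) x1805) x1895) x1517) x2165) x1355) x4757) x6213)
  (sub (sub (sub (add (add (sub (sub (sub (sub C x1841) x1855) x1807) x1897) x1519) x2167) x1357) x4759) x4029)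
  (add (sub (sub (add (add (sub (sub (sub (sub C x1851) x1841) x1829) x1901) x1523) x2171) x1361) x4763) x6219)
  (sub (add (sub (sub (add (add (sub (sub (sub (sub C x1847) x1857) x1833) x1905) x1527) x2175) x1365) x4767) x4039) x6227)
  (sub (sub (sub (add (add (sub (add (add (sub (sub C x1857) x1843) x1783) x1819) x1909) x1531) x2179) x1369) x4771) x4041)
  (sub (add (sub (sub (add (add (sub (add (add (sub (sub C x1855) x1851) x1785) x1821) x1911) x1533) x2181) x1371) x4773) x4045) x6233)
  (add (sub (sub (sub (sub (add (add (add (add (sub C x1869) x1877) x1889) x1901) x1937) x1757) x2027) x1379) x4781) x6237)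
  (sub (add (sub (sub (sub (sub (add (add (sub (sub C x1865) x1881) x1905) x1941) x1761) x2031) x1383) x4785) x4057) x6245)
  (add (sub (sub (sub (sub (sub (add (add (sub C x1879) x1865) x1889) x1895) x1769) x2039) x1391) x4793) x6249)
  (sub (sub (sub (sub (sub (sub (sub (sub C x1877) x1885) x1897) x1771) x2041) x1393) x4795) x4065)
  (sub (add (sub (sub (sub (sub (sub (sub (add (add C x1885) x1889) x1869) x1917) x1773) x2043) x1395) x4797) x4069) x6257)
  (sub (sub (sub (sub (sub (sub (sub (add (add C x1881) x1889) x1879) x1921) x1777) x2047) x1399) x4801) x4071)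
  (add (sub (sub (sub (sub (sub (add (add (add (add C x1881) x1885) x1865) x1877) x1925) x1781) x2051) x1403) x4805) x6261)
  (add (sub (sub (sub (sub (sub (sub (sub C x1897) x1901) x1877) x1841) x2057) x1409) x4811) x6267)
  (sub (sub (sub (sub (sub (sub (sub (sub C x1895) x1909) x1879) x1843) x2059) x1411) x4813) x4083)
  (add (sub (sub (sub (sub (add (add (sub (sub C x1905) x1895) x1865) x1937) x1847) x2063) x1415) x4817) x6273)
  (sub (add (sub (sub (sub (sub (add (add (sub (sub C x1901) x1911) x1869) x1941) x1851) x2067) x1419) x4821) x4093) x6281)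
  (sub (sub (sub (sub (sub (sub (sub (sub C x1911) x1897) x1927) x1855) x2071) x1423) x4825) x4095)
  (sub (add (sub (sub (sub (sub (sub (sub (sub C x1909) x1905) x1929) x1857) x2073) x1425) x4827) x4099) x6287)
  (sub (add (sub (sub (sub (add (add (sub (add (add (add (add C x1921) x1925) x1929) x1941) x1881) x1701) x1809) x2079) x1431) x4833) x4105) x6293)
  (sub (sub (sub (sub (add (add (sub (sub (add (add C x1917) x1925) x1927) x1885) x1705) x1813) x2083) x1435) x4837) x4107)
  (add (sub (sub (sub (add (add (sub (sub (add (add C x1917) x1921) x1937) x1889) x1709) x1817) x2087) x1439) x4841) x6297)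
  (sub (sub (sub (sub (add (add (sub (sub (sub C x1929) x1921) x1909) x1711) x1819) x2089) x1441) x4843) x4113)
  (sub (add (sub (sub (sub (add (add (sub (add (add (sub C x1927) x1917) x1941) x1911) x1713) x1821) x2091) x1443) x4845) x4117) x6305)
  (add (sub (sub (sub (add (add (add (add (sub (sub C x1941) x1925) x1865) x1901) x1721) x1829) x2099) x1451) x4853) x6309)
  (sub (add (sub (sub (sub (add (add (add (add (add (add (sub C x1937) x1917) x1929) x1869) x1905) x1725) x1833) x2103) x1455) x4857) x4129) x6317)
  (add (sub (add (add (sub (add (add (add (add (sub (sub C x1951) x1955) x1985) x2021) x2057) x2165) x1625) x5) x977) x4865) x6321)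
  (sub (sub (add (add (sub (add (add (add (add (sub (sub C x1949) x1963) x1987) x2023) x2059) x2167) x1627) x7) x979) x4867) x4137)
  (add (sub (add (add (sub (add (add (sub (sub (sub C x1959) x1949) x1973) x2063) x2171) x1631) x11) x983) x4871) x6327)
  (sub (add (sub (add (add (sub (add (add (sub (sub (sub C x1955) x1965) x1977) x2067) x2175) x1635) x15) x987) x4875) x4147) x6335)
  (sub (sub (add (add (sub (add (add (sub (sub (sub C x1965) x1951) x1999) x2071) x2179) x1639) x19) x991) x4879) x4149)
  (sub (add (sub (add (add (sub (add (add (sub (sub (sub C x1963) x1959) x2001) x2073) x2181) x1641) x21) x993) x4881) x4153) x6341)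
  (add (sub (add (add (sub (sub (sub (add (add (sub C x1977) x1985) x1997) x1955) x2027) x1649) x29) x1001) x4889) x6345)
  (sub (add (sub (add (add (sub (sub (sub (sub (sub C x1973) x1989) x1959) x2031) x1653) x33) x1005) x4893) x4165) x6353)
  (add (sub (add (add (sub (sub (add (add (add (add (sub C x1987) x1973) x1997) x1949) x2021) x2039) x1661) x41) x1013) x4901) x6357)
  (sub (sub (add (add (sub (sub (add (add (sub (sub C x1985) x1993) x1951) x2023) x2041) x1663) x43) x1015) x4903) x4173)
  (sub (add (sub (add (add (sub (sub (sub (sub (add (add C x1993) x1997) x1977) x2007) x2043) x1665) x45) x1017) x4905) x4177) x6365)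
  (sub (sub (add (add (sub (sub (sub (sub (add (add C x1989) x1997) x1987) x2011) x2047) x1669) x49) x1021) x4909) x4179)
  (add (sub (add (add (sub (sub (sub (add (add (add (add C x1989) x1993) x1973) x1985) x2015) x2051) x1673) x53) x1025) x4913) x6369)
  (sub (sub (add (add (sub (sub (sub (add (add (sub C x2001) x2011) x2023) x1963) x2107) x1675) x55) x1027) x4915) x4185)
  (sub (add (sub (add (add (sub (sub (sub (sub (sub C x1999) x2007) x1965) x2109) x1677) x57) x1029) x4917) x4189) x6377)
  (sub (add (sub (add (add (sub (sub (sub (sub (add (add C x2011) x2015) x2001) x1989) x2115) x1683) x63) x1035) x4923) x4195) x6383)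
  (sub (sub (add (add (sub (sub (sub (add (add (add (add C x2007) x2015) x1999) x2023) x1993) x2119) x1687) x67) x1039) x4927) x4197)
  (add (sub (add (add (sub (sub (sub (sub (add (add C x2007) x2011) x2021) x1997) x2123) x1691) x71) x1043) x4931) x6387)
  (add (sub (add (add (sub (sub (add (add (sub (sub C x2023) x2015) x1949) x1985) x2129) x1697) x77) x1049) x4937) x6393)
  (sub (sub (add (add (sub (sub (add (add (add (add (sub C x2021) x1999) x2011) x1951) x1987) x2131) x1699) x79) x1051) x4939) x4209)
  (add (sub (add (add (sub (sub (add (add (add (add (sub C x2031) x2039) x2051) x2063) x2099) x1973) x1865) x83) x1055) x4943) x6399)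
  (sub (add (sub (add (add (sub (sub (add (add (sub (sub C x2027) x2043) x2067) x2103) x1977) x1869) x87) x1059) x4947) x4219) x6407)
  (add (sub (add (add (sub (sub (sub (add (add (sub C x2041) x2027) x2051) x2057) x1985) x1877) x95) x1067) x4955) x6411)
  (sub (sub (add (add (sub (sub (sub (sub (sub C x2039) x2047) x2059) x1987) x1879) x97) x1069) x4957) x4227)
  (sub (add (sub (add (add (sub (sub (sub (sub (add (add C x2047) x2051) x2031) x2079) x1989) x1881) x99) x1071) x4959) x4231) x6419)
  (sub (sub (add (add (sub (sub (sub (sub (add (add C x2043) x2051) x2041) x2083) x1993) x1885) x103) x1075) x4963) x4233)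
  (add (sub (add (add (sub (sub (sub (add (add (add (add C x2043) x2047) x2027) x2039) x2087) x1997) x1889) x107) x1079) x4967) x6423)
  (add (sub (add (add (sub (add (add (sub (sub (sub C x2059) x2063) x2039) x1949) x2165) x1895) x113) x1085) x4973) x6429)
  (sub (sub (add (add (sub (add (add (sub (sub (sub C x2057) x2071) x2041) x1951) x2167) x1897) x115) x1087) x4975) x4245)
  (add (sub (add (add (sub (add (add (add (add (sub (sub C x2067) x2057) x2027) x2099) x1955) x2171) x1901) x119) x1091) x4979) x6435)
  (sub (add (sub (add (add (sub (add (add (add (add (sub (sub C x2063) x2073) x2031) x2103) x1959) x2175) x1905) x123) x1095) x4983) x4255) x6443)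
  (sub (sub (add (add (sub (add (add (sub (sub (sub C x2073) x2059) x2089) x1963) x2179) x1909) x127) x1099) x4987) x4257)
  (sub (add (sub (add (add (sub (add (add (sub (sub (sub C x2071) x2067) x2091) x1965) x2181) x1911) x129) x1101) x4989) x4261) x6449)
  (sub (add (sub (add (add (sub (sub (sub (add (add (add (add C x2083) x2087) x2091) x2103) x2043) x2133) x1917) x135) x1107) x4995) x4267) x6455)
  (sub (sub (add (add (sub (sub (sub (sub (add (add C x2079) x2087) x2089) x2047) x2137) x1921) x139) x1111) x4999) x4269)
  (add (sub (add (add (sub (sub (sub (sub (add (add C x2079) x2083) x2099) x2051) x2141) x1925) x143) x1115) x5003) x6459)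
  (sub (sub (add (add (sub (sub (sub (sub (sub C x2091) x2083) x2071) x2143) x1927) x145) x1117) x5005) x4275)
  (sub (add (sub (add (add (sub (sub (sub (add (add (sub C x2089) x2079) x2103) x2073) x2145) x1929) x147) x1119) x5007) x4279) x6467)
  (add (sub (add (add (sub (sub (add (add (sub (sub C x2103) x2087) x2027) x2063) x2153) x1937) x155) x1127) x5015) x6471)
  (sub (add (sub (add (add (sub (sub (add (add (add (add (sub C x2099) x2079) x2091) x2031) x2067) x2157) x1941) x159) x1131) x5019) x4291) x6479)
  (sub (sub (add (add (add (add (sub (add (add (add (add (sub C x2109) x2119) x2131) x2143) x2179) x1999) x1459) x1783) x163) x1135) x5023) x4293)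
  (sub (add (sub (add (add (add (add (sub (add (add (sub (sub C x2107) x2115) x2145) x2181) x2001) x1461) x1785) x165) x1137) x5025) x4297) x6485)
  (sub (add (sub (add (add (add (add (sub (sub (sub (add (add C x2119) x2123) x2109) x2133) x2007) x1467) x1791) x171) x1143) x5031) x4303) x6491)
  (sub (sub (add (add (add (add (sub (sub (add (add (add (add C x2115) x2123) x2107) x2131) x2137) x2011) x1471) x1795) x175) x1147) x5035) x4305)
  (add (sub (add (add (add (add (sub (sub (sub (add (add C x2115) x2119) x2129) x2141) x2015) x1475) x1799) x179) x1151) x5039) x6495)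
  (add (sub (add (add (add (add (sub (sub (sub (sub C x2131) x2123) x2165) x2021) x1481) x1805) x185) x1157) x5045) x6501)
  (sub (sub (add (add (add (add (sub (sub (add (add (sub C x2129) x2107) x2119) x2167) x2023) x1483) x1807) x187) x1159) x5047) x4317)
  (sub (add (sub (add (add (add (add (sub (sub (add (add (add (add C x2137) x2141) x2145) x2157) x2115) x2079) x1485) x1809) x189) x1161) x5049) x4321) x6509)
  (sub (sub (add (add (add (add (sub (sub (sub (add (add C x2133) x2141) x2143) x2119) x2083) x1489) x1813) x193) x1165) x5053) x4323)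
  (add (sub (add (add (add (add (sub (sub (sub (add (add C x2133) x2137) x2153) x2123) x2087) x1493) x1817) x197) x1169) x5057) x6513)
  (sub (sub (add (add (add (add (sub (add (add (sub (sub C x2145) x2137) x2107) x2179) x2089) x1495) x1819) x199) x1171) x5059) x4329)
  (sub (add (sub (add (add (add (add (sub (add (add (add (add (sub C x2143) x2133) x2157) x2109) x2181) x2091) x1497) x1821) x201) x1173) x5061) x4333) x6521)
  (add (sub (add (add (add (add (sub (sub (sub (sub C x2157) x2141) x2171) x2099) x1505) x1829) x209) x1181) x5069) x6525)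
  (sub (add (sub (add (add (add (add (sub (sub (add (add (sub C x2153) x2133) x2145) x2175) x2103) x1509) x1833) x213) x1185) x5073) x4345) x6533)
  (add (sub (add (add (add (add (add (add (sub (sub (sub C x2167) x2171) x2129) x1949) x2057) x1517) x1841) x221) x1193) x5081) x6537)
  (sub (sub (add (add (add (add (add (add (sub (sub (sub C x2165) x2179) x2131) x1951) x2059) x1519) x1843) x223) x1195) x5083) x4353)
  (add (sub (add (add (add (add (add (add (sub (sub (sub C x2175) x2165) x2153) x1955) x2063) x1523) x1847) x227) x1199) x5087) x6543)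
  (sub (add (sub (add (add (add (add (add (add (sub (sub (sub C x2171) x2181) x2157) x1959) x2067) x1527) x1851) x231) x1203) x5091) x4363) x6551)
  (sub (sub (add (add (add (add (add (add (add (add (sub (sub C x2181) x2167) x2107) x2143) x1963) x2071) x1531) x1855) x235) x1207) x5095) x4365)
  (sub (add (sub (add (add (add (add (add (add (add (add (sub (sub C x2179) x2175) x2109) x2145) x1965) x2073) x1533) x1857) x237) x1209) x5097) x4369) x6557)
  (add (sub (add (add (add (add (add (add (add (add (add (add (sub C x2193) x2201) x2213) x2225) x2261) x2297) x2405) x2513) x2837) x3161) x4133) x731) x4375)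
  (sub (sub (add (add (add (add (add (add (add (add (sub (sub C x2189) x2205) x2229) x2265) x2301) x2409) x2517) x2841) x3165) x4137) x735) x7)
  (add (sub (add (add (add (add (add (add (sub (add (add (sub C x2203) x2189) x2213) x2219) x2309) x2417) x2525) x2849) x3173) x4145) x743) x4387)
  (sub (add (sub (add (add (add (add (add (add (sub (sub (sub C x2201) x2209) x2221) x2311) x2419) x2527) x2851) x3175) x4147) x745) x15) x4391)
  (sub (sub (add (add (add (add (add (add (sub (sub (add (add C x2209) x2213) x2193) x2241) x2313) x2421) x2529) x2853) x3177) x4149) x747) x19)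
  (sub (add (sub (add (add (add (add (add (add (sub (sub (add (add C x2205) x2213) x2203) x2245) x2317) x2425) x2533) x2857) x3181) x4153) x751) x21) x4397)
  (add (sub (add (add (add (add (add (add (sub (add (add (add (add C x2205) x2209) x2189) x2201) x2249) x2321) x2429) x2537) x2861) x3185) x4157) x755) x4399)
  (add (sub (add (add (add (add (sub (sub (sub (sub C x2221) x2225) x2201) x2273) x2543) x2867) x3191) x4163) x761) x4405)
  (sub (add (sub (add (add (add (add (sub (sub (sub (sub C x2219) x2233) x2203) x2275) x2545) x2869) x3193) x4165) x763) x33) x4409)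
  (add (sub (add (add (add (add (sub (add (add (sub (sub C x2229) x2219) x2189) x2261) x2279) x2549) x2873) x3197) x4169) x767) x4411)
  (sub (sub (add (add (add (add (sub (add (add (sub (sub C x2225) x2235) x2193) x2265) x2283) x2553) x2877) x3201) x4173) x771) x43)
  (sub (add (sub (add (add (add (add (sub (sub (sub (sub C x2235) x2221) x2251) x2287) x2557) x2881) x3205) x4177) x775) x45) x4421)
  (sub (sub (add (add (add (add (sub (sub (sub (sub C x2233) x2229) x2253) x2289) x2559) x2883) x3207) x4179) x777) x49)
  (sub (sub (add (add (add (add (sub (sub (add (add (add (add C x2245) x2249) x2253) x2265) x2205) x2349) x2565) x2889) x3213) x4185) x783) x55)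
  (sub (add (sub (add (add (add (add (sub (sub (sub (add (add C x2241) x2249) x2251) x2209) x2353) x2569) x2893) x3217) x4189) x787) x57) x4433)
  (add (sub (add (add (add (add (sub (sub (sub (add (add C x2241) x2245) x2261) x2213) x2357) x2573) x2897) x3221) x4193) x791) x4435)
  (sub (add (sub (add (add (add (add (sub (sub (sub (sub C x2253) x2245) x2233) x2359) x2575) x2899) x3223) x4195) x793) x63) x4439)
  (sub (sub (add (add (add (add (sub (sub (add (add (sub C x2251) x2241) x2265) x2235) x2361) x2577) x2901) x3225) x4197) x795) x67)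
  (add (sub (add (add (add (add (sub (add (add (sub (sub C x2265) x2249) x2189) x2225) x2369) x2585) x2909) x3233) x4205) x803) x4447)
  (sub (sub (add (add (add (add (sub (add (add (add (add (sub C x2261) x2241) x2253) x2193) x2229) x2373) x2589) x2913) x3237) x4209) x807) x79)
  (add (sub (add (add (sub (sub (add (add (sub (sub C x2275) x2279) x2309) x2345) x2219) x2435) x3245) x4217) x815) x4459)
  (sub (add (sub (add (add (sub (sub (add (add (sub (sub C x2273) x2287) x2311) x2347) x2221) x2437) x3247) x4219) x817) x87) x4463)
  (add (sub (add (add (sub (sub (sub (sub (sub C x2283) x2273) x2297) x2225) x2441) x3251) x4223) x821) x4465)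
  (sub (sub (add (add (sub (sub (sub (sub (sub C x2279) x2289) x2301) x2229) x2445) x3255) x4227) x825) x97)
  (sub (add (sub (add (add (sub (sub (sub (sub (sub C x2289) x2275) x2323) x2233) x2449) x3259) x4231) x829) x99) x4475)
  (sub (sub (add (add (sub (sub (sub (sub (sub C x2287) x2283) x2325) x2235) x2451) x3261) x4233) x831) x103)
  (add (sub (add (add (sub (add (add (sub (add (add (sub C x2301) x2309) x2321) x2279) x2189) x2405) x2459) x3269) x4241) x839) x4483)
  (sub (sub (add (add (sub (add (add (sub (sub (sub C x2297) x2313) x2283) x2193) x2409) x2463) x3273) x4245) x843) x115)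
  (add (sub (add (add (sub (add (add (add (add (add (add (sub C x2311) x2297) x2321) x2273) x2345) x2201) x2417) x2471) x3281) x4253) x851) x4495)
  (sub (add (sub (add (add (sub (add (add (add (add (sub (sub C x2309) x2317) x2275) x2347) x2203) x2419) x2473) x3283) x4255) x853) x123) x4499)
  (sub (sub (add (add (sub (add (add (sub (sub (add (add C x2317) x2321) x2301) x2331) x2205) x2421) x2475) x3285) x4257) x855) x127)
  (sub (add (sub (add (add (sub (add (add (sub (sub (add (add C x2313) x2321) x2311) x2335) x2209) x2425) x2479) x3289) x4261) x859) x129) x4505)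
  (add (sub (add (add (sub (add (add (sub (add (add (add (add C x2313) x2317) x2297) x2309) x2339) x2213) x2429) x2483) x3293) x4265) x863) x4507)
  (sub (add (sub (add (add (sub (sub (sub (add (add (sub C x2325) x2335) x2347) x2287) x2377) x2485) x3295) x4267) x865) x135) x4511)
  (sub (sub (add (add (sub (sub (sub (sub (sub C x2323) x2331) x2289) x2379) x2487) x3297) x4269) x867) x139)
  (sub (sub (add (add (sub (sub (sub (sub (add (add C x2335) x2339) x2325) x2313) x2385) x2493) x3303) x4275) x873) x145)
  (sub (add (sub (add (add (sub (sub (sub (add (add (add (add C x2331) x2339) x2323) x2347) x2317) x2389) x2497) x3307) x4279) x877) x147) x4523)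
  (add (sub (add (add (sub (sub (sub (sub (add (add C x2331) x2335) x2345) x2321) x2393) x2501) x3311) x4283) x881) x4525)
  (add (sub (add (add (sub (sub (add (add (sub (sub C x2347) x2339) x2273) x2309) x2399) x2507) x3317) x4289) x887) x4531)
  (sub (add (sub (add (add (sub (sub (add (add (add (add (sub C x2345) x2323) x2335) x2275) x2311) x2401) x2509) x3319) x4291) x889) x159) x4535)
  (sub (sub (add (add (sub (sub (add (add (add (add (add (add C x2353) x2357) x2361) x2373) x2385) x2421) x2241) x2673) x3321) x4293) x891) x163)
  (sub (add (sub (add (add (sub (sub (add (add (sub (add (add C x2349) x2357) x2359) x2389) x2425) x2245) x2677) x3325) x4297) x895) x165) x4541)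
  (add (sub (add (add (sub (sub (add (add (sub (add (add C x2349) x2353) x2369) x2393) x2429) x2249) x2681) x3329) x4301) x899) x4543)
  (sub (add (sub (add (add (sub (sub (sub (sub (sub C x2361) x2353) x2377) x2251) x2683) x3331) x4303) x901) x171) x4547)
  (sub (sub (add (add (sub (sub (sub (add (add (sub C x2359) x2349) x2373) x2379) x2253) x2685) x3333) x4305) x903) x175)
  (add (sub (add (add (sub (sub (sub (sub (sub C x2373) x2357) x2405) x2261) x2693) x3341) x4313) x911) x4555)
  (sub (sub (add (add (sub (sub (sub (add (add (sub C x2369) x2349) x2361) x2409) x2265) x2697) x3345) x4317) x915) x187)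
  (sub (add (sub (add (add (sub (sub (sub (add (add (sub C x2379) x2389) x2401) x2359) x2323) x2701) x3349) x4321) x919) x189) x4565)
  (sub (sub (add (add (sub (sub (sub (sub (sub C x2377) x2385) x2361) x2325) x2703) x3351) x4323) x921) x193)
  (sub (sub (add (add (sub (sub (add (add (sub (add (add C x2389) x2393) x2379) x2349) x2421) x2331) x2709) x3357) x4329) x927) x199)
  (sub (add (sub (add (add (sub (sub (add (add (add (add (add (add C x2385) x2393) x2377) x2401) x2353) x2425) x2335) x2713) x3361) x4333) x931) x201) x4577)
  (add (sub (add (add (sub (sub (add (add (sub (add (add C x2385) x2389) x2399) x2357) x2429) x2339) x2717) x3365) x4337) x935) x4579)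
  (add (sub (add (add (sub (sub (sub (sub (sub C x2401) x2393) x2417) x2345) x2723) x3371) x4343) x941) x4585)
  (sub (add (sub (add (add (sub (sub (sub (add (add (sub C x2399) x2377) x2389) x2419) x2347) x2725) x3373) x4345) x943) x213) x4589)
  (add (sub (add (add (sub (add (add (sub (add (add (sub C x2409) x2417) x2429) x2369) x2189) x2297) x2729) x3377) x4349) x947) x4591)
  (sub (sub (add (add (sub (add (add (sub (sub (sub C x2405) x2421) x2373) x2193) x2301) x2733) x3381) x4353) x951) x223)
  (add (sub (add (add (sub (add (add (sub (add (add (sub C x2419) x2405) x2429) x2399) x2201) x2309) x2741) x3389) x4361) x959) x4603)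
  (sub (add (sub (add (add (sub (add (add (sub (sub (sub C x2417) x2425) x2401) x2203) x2311) x2743) x3391) x4363) x961) x231) x4607)
  (sub (sub (add (add (sub (add (add (add (add (sub (add (add C x2425) x2429) x2409) x2349) x2385) x2205) x2313) x2745) x3393) x4365) x963) x235)
  (sub (add (sub (add (add (sub (add (add (add (add (sub (add (add C x2421) x2429) x2419) x2353) x2389) x2209) x2317) x2749) x3397) x4369) x967) x237) x4613)
  (add (sub (add (add (sub (add (add (add (add (add (add (add (add C x2421) x2425) x2405) x2417) x2357) x2393) x2213) x2321) x2753) x3401) x4373) x971) x4615)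
  (add (sub (sub (sub (add (add (add (add (sub (sub C x2437) x2441) x2471) x2507) x2543) x2651) x2273) x2921) x977) x4621)
  (sub (add (sub (sub (sub (add (add (add (add (sub (sub C x2435) x2449) x2473) x2509) x2545) x2653) x2275) x2923) x979) x249) x4625)
  (add (sub (sub (sub (add (add (sub (sub (sub C x2445) x2435) x2459) x2549) x2657) x2279) x2927) x983) x4627)
  (sub (sub (sub (sub (add (add (sub (sub (sub C x2441) x2451) x2463) x2553) x2661) x2283) x2931) x987) x259)
  (sub (add (sub (sub (sub (add (add (sub (sub (sub C x2451) x2437) x2485) x2557) x2665) x2287) x2935) x991) x261) x4637)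
  (sub (sub (sub (sub (add (add (sub (sub (sub C x2449) x2445) x2487) x2559) x2667) x2289) x2937) x993) x265)
  (add (sub (sub (sub (sub (sub (add (add (sub C x2463) x2471) x2483) x2441) x2513) x2297) x2945) x1001) x4645)
  (sub (sub (sub (sub (sub (sub (sub (sub C x2459) x2475) x2445) x2517) x2301) x2949) x1005) x277)
  (add (sub (sub (sub (sub (add (add (add (add (sub C x2473) x2459) x2483) x2435) x2507) x2525) x2309) x2957) x1013) x4657)
  (sub (add (sub (sub (sub (sub (add (add (sub (sub C x2471) x2479) x2437) x2509) x2527) x2311) x2959) x1015) x285) x4661)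
  (sub (sub (sub (sub (sub (sub (sub (add (add C x2479) x2483) x2463) x2493) x2529) x2313) x2961) x1017) x289)
  (sub (add (sub (sub (sub (sub (sub (sub (add (add C x2475) x2483) x2473) x2497) x2533) x2317) x2965) x1021) x291) x4667)
  (add (sub (sub (sub (sub (sub (add (add (add (add C x2475) x2479) x2459) x2471) x2501) x2537) x2321) x2969) x1025) x4669)
  (sub (add (sub (sub (sub (sub (sub (add (add (sub C x2487) x2497) x2509) x2449) x2593) x2323) x2971) x1027) x297) x4673)
  (sub (sub (sub (sub (sub (sub (sub (sub C x2485) x2493) x2451) x2595) x2325) x2973) x1029) x301)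
  (sub (sub (sub (sub (sub (sub (sub (add (add C x2497) x2501) x2487) x2475) x2601) x2331) x2979) x1035) x307)
  (sub (add (sub (sub (sub (sub (sub (add (add (add (add C x2493) x2501) x2485) x2509) x2479) x2605) x2335) x2983) x1039) x309) x4685)
  (add (sub (sub (sub (sub (sub (sub (add (add C x2493) x2497) x2507) x2483) x2609) x2339) x2987) x1043) x4687)
  (add (sub (sub (sub (sub (add (add (sub (sub C x2509) x2501) x2435) x2471) x2615) x2345) x2993) x1049) x4693)
  (sub (add (sub (sub (sub (sub (add (add (add (add (sub C x2507) x2485) x2497) x2437) x2473) x2617) x2347) x2995) x1051) x321) x4697)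
  (add (sub (sub (add (add (sub (add (add (add (add (sub C x2517) x2525) x2537) x2549) x2585) x2459) x2189) x2837) x2999) x1055) x4699)
  (sub (sub (sub (add (add (sub (add (add (sub (sub C x2513) x2529) x2553) x2589) x2463) x2193) x2841) x3003) x1059) x331)
  (add (sub (sub (add (add (sub (sub (add (add (sub C x2527) x2513) x2537) x2543) x2471) x2201) x2849) x3011) x1067) x4711)
  (sub (add (sub (sub (add (add (sub (sub (sub (sub C x2525) x2533) x2545) x2473) x2203) x2851) x3013) x1069) x339) x4715)
  (sub (sub (sub (add (add (sub (sub (sub (add (add C x2533) x2537) x2517) x2565) x2475) x2205) x2853) x3015) x1071) x343)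
  (sub (add (sub (sub (add (add (sub (sub (sub (add (add C x2529) x2537) x2527) x2569) x2479) x2209) x2857) x3019) x1075) x345) x4721)
  (add (sub (sub (add (add (sub (sub (add (add (add (add C x2529) x2533) x2513) x2525) x2573) x2483) x2213) x2861) x3023) x1079) x4723)
  (add (sub (sub (add (add (add (add (sub (sub (sub C x2545) x2549) x2525) x2435) x2651) x2219) x2867) x3029) x1085) x4729)
  (sub (add (sub (sub (add (add (add (add (sub (sub (sub C x2543) x2557) x2527) x2437) x2653) x2221) x2869) x3031) x1087) x357) x4733)
  (add (sub (sub (add (add (add (add (add (add (sub (sub C x2553) x2543) x2513) x2585) x2441) x2657) x2225) x2873) x3035) x1091) x4735)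
  (sub (sub (sub (add (add (add (add (add (add (sub (sub C x2549) x2559) x2517) x2589) x2445) x2661) x2229) x2877) x3039) x1095) x367)
  (sub (add (sub (sub (add (add (add (add (sub (sub (sub C x2559) x2545) x2575) x2449) x2665) x2233) x2881) x3043) x1099) x369) x4745)
  (sub (sub (sub (add (add (add (add (sub (sub (sub C x2557) x2553) x2577) x2451) x2667) x2235) x2883) x3045) x1101) x373)
  (sub (sub (sub (add (add (sub (sub (add (add (add (add C x2569) x2573) x2577) x2589) x2529) x2619) x2241) x2889) x3051) x1107) x379)
  (sub (add (sub (sub (add (add (sub (sub (sub (add (add C x2565) x2573) x2575) x2533) x2623) x2245) x2893) x3055) x1111) x381) x4757)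
  (add (sub (sub (add (add (sub (sub (sub (add (add C x2565) x2569) x2585) x2537) x2627) x2249) x2897) x3059) x1115) x4759)
  (sub (add (sub (sub (add (add (sub (sub (sub (sub C x2577) x2569) x2557) x2629) x2251) x2899) x3061) x1117) x387) x4763)
  (sub (sub (sub (add (add (sub (sub (add (add (sub C x2575) x2565) x2589) x2559) x2631) x2253) x2901) x3063) x1119) x391)
  (add (sub (sub (add (add (sub (add (add (sub (sub C x2589) x2573) x2513) x2549) x2639) x2261) x2909) x3071) x1127) x4771)
  (sub (sub (sub (add (add (sub (add (add (add (add (sub C x2585) x2565) x2577) x2517) x2553) x2643) x2265) x2913) x3075) x1131) x403)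
  (sub (add (sub (sub (sub (sub (add (add (add (add (sub C x2595) x2605) x2617) x2629) x2665) x2485) x2755) x3079) x1135) x405) x4781)
  (sub (sub (sub (sub (sub (add (add (sub (sub C x2593) x2601) x2631) x2667) x2487) x2757) x3081) x1137) x409)
  (sub (sub (sub (sub (sub (sub (sub (add (add C x2605) x2609) x2595) x2619) x2493) x2763) x3087) x1143) x415)
  (sub (add (sub (sub (sub (sub (sub (add (add (add (add C x2601) x2609) x2593) x2617) x2623) x2497) x2767) x3091) x1147) x417) x4793)
  (add (sub (sub (sub (sub (sub (sub (add (add C x2601) x2605) x2615) x2627) x2501) x2771) x3095) x1151) x4795)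
  (add (sub (sub (sub (sub (sub (sub (sub C x2617) x2609) x2651) x2507) x2777) x3101) x1157) x4801)
  (sub (add (sub (sub (sub (sub (sub (add (add (sub C x2615) x2593) x2605) x2653) x2509) x2779) x3103) x1159) x429) x4805)
  (sub (sub (sub (sub (sub (sub (add (add (add (add C x2623) x2627) x2631) x2643) x2601) x2565) x2781) x3105) x1161) x433)
  (sub (add (sub (sub (sub (sub (sub (sub (add (add C x2619) x2627) x2629) x2605) x2569) x2785) x3109) x1165) x435) x4811)
  (add (sub (sub (sub (sub (sub (sub (add (add C x2619) x2623) x2639) x2609) x2573) x2789) x3113) x1169) x4813)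
  (sub (add (sub (sub (sub (sub (add (add (sub (sub C x2631) x2623) x2593) x2665) x2575) x2791) x3115) x1171) x441) x4817)
  (sub (sub (sub (sub (sub (add (add (add (add (sub C x2629) x2619) x2643) x2595) x2667) x2577) x2793) x3117) x1173) x445)
  (add (sub (sub (sub (sub (sub (sub (sub C x2643) x2627) x2657) x2585) x2801) x3125) x1181) x4825)
  (sub (sub (sub (sub (sub (sub (add (add (sub C x2639) x2619) x2631) x2661) x2589) x2805) x3129) x1185) x457)
  (add (sub (sub (sub (add (add (sub (sub (sub C x2653) x2657) x2615) x2435) x2543) x2813) x3137) x1193) x4837)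
  (sub (add (sub (sub (sub (add (add (sub (sub (sub C x2651) x2665) x2617) x2437) x2545) x2815) x3139) x1195) x465) x4841)
  (add (sub (sub (sub (add (add (sub (sub (sub C x2661) x2651) x2639) x2441) x2549) x2819) x3143) x1199) x4843)
  (sub (sub (sub (sub (add (add (sub (sub (sub C x2657) x2667) x2643) x2445) x2553) x2823) x3147) x1203) x475)
  (sub (add (sub (sub (sub (add (add (add (add (sub (sub C x2667) x2653) x2593) x2629) x2449) x2557) x2827) x3151) x1207) x477) x4853)
  (sub (sub (sub (sub (add (add (add (add (sub (sub C x2665) x2661) x2595) x2631) x2451) x2559) x2829) x3153) x1209) x481)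
  (sub (sub (sub (sub (add (add (add (add (add (add (add (add C x2677) x2681) x2685) x2697) x2709) x2745) x2781) x2889) x2349) x3645) x1215) x487)
  (sub (add (sub (sub (sub (add (add (add (add (sub (add (add C x2673) x2681) x2683) x2713) x2749) x2785) x2893) x2353) x3649) x1219) x489) x4865)
  (add (sub (sub (sub (add (add (add (add (sub (add (add C x2673) x2677) x2693) x2717) x2753) x2789) x2897) x2357) x3653) x1223) x4867)
  (sub (add (sub (sub (sub (add (add (sub (sub (sub C x2685) x2677) x2701) x2791) x2899) x2359) x3655) x1225) x495) x4871)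
  (sub (sub (sub (sub (add (add (sub (add (add (sub C x2683) x2673) x2697) x2703) x2793) x2901) x2361) x3657) x1227) x499)
  (add (sub (sub (sub (add (add (sub (sub (sub C x2697) x2681) x2729) x2801) x2909) x2369) x3665) x1235) x4879)
  (sub (sub (sub (sub (add (add (sub (add (add (sub C x2693) x2673) x2685) x2733) x2805) x2913) x2373) x3669) x1239) x511)
  (sub (add (sub (sub (sub (sub (sub (add (add (sub C x2703) x2713) x2725) x2683) x2755) x2377) x3673) x1243) x513) x4889)
  (sub (sub (sub (sub (sub (sub (sub (sub C x2701) x2709) x2685) x2757) x2379) x3675) x1245) x517)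
  (sub (sub (sub (sub (sub (add (add (sub (add (add C x2713) x2717) x2703) x2673) x2745) x2763) x2385) x3681) x1251) x523)
  (sub (add (sub (sub (sub (sub (add (add (add (add (add (add C x2709) x2717) x2701) x2725) x2677) x2749) x2767) x2389) x3685) x1255) x525) x4901)
  (add (sub (sub (sub (sub (add (add (sub (add (add C x2709) x2713) x2723) x2681) x2753) x2771) x2393) x3689) x1259) x4903)
  (add (sub (sub (sub (sub (sub (sub (sub C x2725) x2717) x2741) x2777) x2399) x3695) x1265) x4909)
  (sub (add (sub (sub (sub (sub (sub (add (add (sub C x2723) x2701) x2713) x2743) x2779) x2401) x3697) x1267) x537) x4913)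
  (add (sub (sub (sub (sub (sub (add (add (sub C x2733) x2741) x2753) x2693) x2837) x2405) x3701) x1271) x4915)
  (sub (sub (sub (sub (sub (sub (sub (sub C x2729) x2745) x2697) x2841) x2409) x3705) x1275) x547)
  (add (sub (sub (sub (sub (sub (add (add (sub C x2743) x2729) x2753) x2723) x2849) x2417) x3713) x1283) x4927)
  (sub (add (sub (sub (sub (sub (sub (sub (sub C x2741) x2749) x2725) x2851) x2419) x3715) x1285) x555) x4931)
  (sub (sub (sub (sub (sub (add (add (sub (add (add C x2749) x2753) x2733) x2673) x2709) x2853) x2421) x3717) x1287) x559)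
  (sub (add (sub (sub (sub (sub (add (add (sub (add (add C x2745) x2753) x2743) x2677) x2713) x2857) x2425) x3721) x1291) x561) x4937)
  (add (sub (sub (sub (sub (add (add (add (add (add (add C x2745) x2749) x2729) x2741) x2681) x2717) x2861) x2429) x3725) x1295) x4939)
  (sub (add (sub (sub (sub (sub (add (add (add (add (sub C x2757) x2767) x2779) x2791) x2827) x2701) x2593) x3727) x1297) x567) x4943)
  (sub (sub (sub (sub (sub (add (add (sub (sub C x2755) x2763) x2793) x2829) x2703) x2595) x3729) x1299) x571)
  (sub (sub (sub (sub (sub (sub (sub (add (add C x2767) x2771) x2757) x2781) x2709) x2601) x3735) x1305) x577)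
  (sub (add (sub (sub (sub (sub (sub (add (add (add (add C x2763) x2771) x2755) x2779) x2785) x2713) x2605) x3739) x1309) x579) x4955)
  (add (sub (sub (sub (sub (sub (sub (add (add C x2763) x2767) x2777) x2789) x2717) x2609) x3743) x1313) x4957)
  (add (sub (sub (sub (sub (sub (sub (sub C x2779) x2771) x2813) x2723) x2615) x3749) x1319) x4963)
  (sub (add (sub (sub (sub (sub (sub (add (add (sub C x2777) x2755) x2767) x2815) x2725) x2617) x3751) x1321) x591) x4967)
  (sub (sub (sub (sub (add (add (sub (add (add (add (add C x2785) x2789) x2793) x2805) x2763) x2673) x2889) x2619) x3753) x1323) x595)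
  (sub (add (sub (sub (sub (add (add (sub (sub (add (add C x2781) x2789) x2791) x2767) x2677) x2893) x2623) x3757) x1327) x597) x4973)
  (add (sub (sub (sub (add (add (sub (sub (add (add C x2781) x2785) x2801) x2771) x2681) x2897) x2627) x3761) x1331) x4975)
  (sub (add (sub (sub (sub (add (add (add (add (sub (sub C x2793) x2785) x2755) x2827) x2683) x2899) x2629) x3763) x1333) x603) x4979)
  (sub (sub (sub (sub (add (add (add (add (add (add (sub C x2791) x2781) x2805) x2757) x2829) x2685) x2901) x2631) x3765) x1335) x607)
  (add (sub (sub (sub (add (add (sub (sub (sub C x2805) x2789) x2819) x2693) x2909) x2639) x3773) x1343) x4987)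
  (sub (sub (sub (sub (add (add (sub (add (add (sub C x2801) x2781) x2793) x2823) x2697) x2913) x2643) x3777) x1347) x619)
  (add (sub (sub (sub (sub (sub (sub (sub C x2815) x2819) x2777) x2867) x2651) x3785) x1355) x4999)
  (sub (add (sub (sub (sub (sub (sub (sub (sub C x2813) x2827) x2779) x2869) x2653) x3787) x1357) x627) x5003)
  (add (sub (sub (sub (sub (sub (sub (sub C x2823) x2813) x2801) x2873) x2657) x3791) x1361) x5005)
  (sub (sub (sub (sub (sub (sub (sub (sub C x2819) x2829) x2805) x2877) x2661) x3795) x1365) x637)
  (sub (add (sub (sub (sub (sub (add (add (sub (sub C x2829) x2815) x2755) x2791) x2881) x2665) x3799) x1369) x639) x5015)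
  (sub (sub (sub (sub (sub (add (add (sub (sub C x2827) x2823) x2757) x2793) x2883) x2667) x3801) x1371) x643)
  (add (sub (sub (add (add (sub (add (add (add (add (sub C x2841) x2849) x2861) x2873) x2909) x2729) x2189) x2513) x3809) x1379) x5023)
  (sub (sub (sub (add (add (sub (add (add (sub (sub C x2837) x2853) x2877) x2913) x2733) x2193) x2517) x3813) x1383) x655)
  (add (sub (sub (add (add (sub (sub (add (add (sub C x2851) x2837) x2861) x2867) x2741) x2201) x2525) x3821) x1391) x5035)
  (sub (add (sub (sub (add (add (sub (sub (sub (sub C x2849) x2857) x2869) x2743) x2203) x2527) x3823) x1393) x663) x5039)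
  (sub (sub (sub (add (add (sub (sub (sub (add (add C x2857) x2861) x2841) x2889) x2745) x2205) x2529) x3825) x1395) x667)
  (sub (add (sub (sub (add (add (sub (sub (sub (add (add C x2853) x2861) x2851) x2893) x2749) x2209) x2533) x3829) x1399) x669) x5045)
  (add (sub (sub (add (add (sub (sub (add (add (add (add C x2853) x2857) x2837) x2849) x2897) x2753) x2213) x2537) x3833) x1403) x5047)
  (add (sub (sub (add (add (sub (sub (sub (sub C x2869) x2873) x2849) x2813) x2219) x2543) x3839) x1409) x5053)
  (sub (add (sub (sub (add (add (sub (sub (sub (sub C x2867) x2881) x2851) x2815) x2221) x2545) x3841) x1411) x681) x5057)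
  (add (sub (sub (add (add (sub (add (add (sub (sub C x2877) x2867) x2837) x2909) x2819) x2225) x2549) x3845) x1415) x5059)
  (sub (sub (sub (add (add (sub (add (add (sub (sub C x2873) x2883) x2841) x2913) x2823) x2229) x2553) x3849) x1419) x691)
  (sub (add (sub (sub (add (add (sub (sub (sub (sub C x2883) x2869) x2899) x2827) x2233) x2557) x3853) x1423) x693) x5069)
  (sub (sub (sub (add (add (sub (sub (sub (sub C x2881) x2877) x2901) x2829) x2235) x2559) x3855) x1425) x697)
  (sub (sub (sub (add (add (add (add (sub (add (add (add (add C x2893) x2897) x2901) x2913) x2853) x2673) x2781) x2241) x2565) x3861) x1431) x703)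
  (sub (add (sub (sub (add (add (add (add (sub (sub (add (add C x2889) x2897) x2899) x2857) x2677) x2785) x2245) x2569) x3865) x1435) x705) x5081)
  (add (sub (sub (add (add (add (add (sub (sub (add (add C x2889) x2893) x2909) x2861) x2681) x2789) x2249) x2573) x3869) x1439) x5083)
  (sub (add (sub (sub (add (add (add (add (sub (sub (sub C x2901) x2893) x2881) x2683) x2791) x2251) x2575) x3871) x1441) x711) x5087)
  (sub (sub (sub (add (add (add (add (sub (add (add (sub C x2899) x2889) x2913) x2883) x2685) x2793) x2253) x2577) x3873) x1443) x715)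
  (add (sub (sub (add (add (add (add (add (add (sub (sub C x2913) x2897) x2837) x2873) x2693) x2801) x2261) x2585) x3881) x1451) x5095)
  (sub (sub (sub (add (add (add (add (add (add (add (add (sub C x2909) x2889) x2901) x2841) x2877) x2697) x2805) x2265) x2589) x3885) x1455) x727)
  (add (add (add (sub (add (add (add (add (add (add (sub (sub C x2923) x2927) x2957) x2993) x3029) x3137) x3245) x3569) x2435) x5) x5837) x5107)
  (sub (add (add (add (sub (add (add (add (add (add (add (sub (sub C x2921) x2935) x2959) x2995) x3031) x3139) x3247) x3571) x2437) x7) x5839) x735) x5111)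
  (add (add (add (sub (add (add (add (add (sub (sub (sub C x2931) x2921) x2945) x3035) x3143) x3251) x3575) x2441) x11) x5843) x5113)
  (sub (add (add (sub (add (add (add (add (sub (sub (sub C x2927) x2937) x2949) x3039) x3147) x3255) x3579) x2445) x15) x5847) x745)
  (sub (add (add (add (sub (add (add (add (add (sub (sub (sub C x2937) x2923) x2971) x3043) x3151) x3259) x3583) x2449) x19) x5851) x747) x5123)
  (sub (add (add (sub (add (add (add (add (sub (sub (sub C x2935) x2931) x2973) x3045) x3153) x3261) x3585) x2451) x21) x5853) x751)
  (add (add (add (sub (add (add (sub (sub (add (add (sub C x2949) x2957) x2969) x2927) x2999) x3269) x3593) x2459) x29) x5861) x5131)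
  (sub (add (add (sub (add (add (sub (sub (sub (sub C x2945) x2961) x2931) x3003) x3273) x3597) x2463) x33) x5865) x763)
  (add (add (add (sub (add (add (sub (add (add (add (add (sub C x2959) x2945) x2969) x2921) x2993) x3011) x3281) x3605) x2471) x41) x5873) x5143)
  (sub (add (add (add (sub (add (add (sub (add (add (sub (sub C x2957) x2965) x2923) x2995) x3013) x3283) x3607) x2473) x43) x5875) x771) x5147)
  (sub (add (add (sub (add (add (sub (sub (sub (add (add C x2965) x2969) x2949) x2979) x3015) x3285) x3609) x2475) x45) x5877) x775)
  (sub (add (add (add (sub (add (add (sub (sub (sub (add (add C x2961) x2969) x2959) x2983) x3019) x3289) x3613) x2479) x49) x5881) x777) x5153)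
  (add (add (add (sub (add (add (sub (sub (add (add (add (add C x2961) x2965) x2945) x2957) x2987) x3023) x3293) x3617) x2483) x53) x5885) x5155)
  (sub (add (add (add (sub (add (add (sub (sub (add (add (sub C x2973) x2983) x2995) x2935) x3079) x3295) x3619) x2485) x55) x5887) x783) x5159)
  (sub (add (add (sub (add (add (sub (sub (sub (sub C x2971) x2979) x2937) x3081) x3297) x3621) x2487) x57) x5889) x787)
  (sub (add (add (sub (add (add (sub (sub (sub (add (add C x2983) x2987) x2973) x2961) x3087) x3303) x3627) x2493) x63) x5895) x793)
  (sub (add (add (add (sub (add (add (sub (sub (add (add (add (add C x2979) x2987) x2971) x2995) x2965) x3091) x3307) x3631) x2497) x67) x5899) x795) x5171)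
  (add (add (add (sub (add (add (sub (sub (sub (add (add C x2979) x2983) x2993) x2969) x3095) x3311) x3635) x2501) x71) x5903) x5173)
  (add (add (add (sub (add (add (sub (add (add (sub (sub C x2995) x2987) x2921) x2957) x3101) x3317) x3641) x2507) x77) x5909) x5179)
  (sub (add (add (add (sub (add (add (sub (add (add (add (add (sub C x2993) x2971) x2983) x2923) x2959) x3103) x3319) x3643) x2509) x79) x5911) x807) x5183)
  (add (add (add (sub (sub (sub (add (add (add (add (sub C x3003) x3011) x3023) x3035) x3071) x2945) x3161) x2513) x83) x5915) x5185)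
  (sub (add (add (sub (sub (sub (add (add (sub (sub C x2999) x3015) x3039) x3075) x2949) x3165) x2517) x87) x5919) x817)
  (add (add (add (sub (sub (sub (sub (add (add (sub C x3013) x2999) x3023) x3029) x2957) x3173) x2525) x95) x5927) x5197)
  (sub (add (add (add (sub (sub (sub (sub (sub (sub C x3011) x3019) x3031) x2959) x3175) x2527) x97) x5929) x825) x5201)
  (sub (add (add (sub (sub (sub (sub (sub (add (add C x3019) x3023) x3003) x3051) x2961) x3177) x2529) x99) x5931) x829)
  (sub (add (add (add (sub (sub (sub (sub (sub (add (add C x3015) x3023) x3013) x3055) x2965) x3181) x2533) x103) x5935) x831) x5207)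
  (add (add (add (sub (sub (sub (sub (add (add (add (add C x3015) x3019) x2999) x3011) x3059) x2969) x3185) x2537) x107) x5939) x5209)
  (add (add (add (sub (sub (add (add (sub (sub (sub C x3031) x3035) x3011) x2921) x3137) x3191) x2543) x113) x5945) x5215)
  (sub (add (add (add (sub (sub (add (add (sub (sub (sub C x3029) x3043) x3013) x2923) x3139) x3193) x2545) x115) x5947) x843) x5219)
  (add (add (add (sub (sub (add (add (add (add (sub (sub C x3039) x3029) x2999) x3071) x2927) x3143) x3197) x2549) x119) x5951) x5221)
  (sub (add (add (sub (sub (add (add (add (add (sub (sub C x3035) x3045) x3003) x3075) x2931) x3147) x3201) x2553) x123) x5955) x853)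
  (sub (add (add (add (sub (sub (add (add (sub (sub (sub C x3045) x3031) x3061) x2935) x3151) x3205) x2557) x127) x5959) x855) x5231)
  (sub (add (add (sub (sub (add (add (sub (sub (sub C x3043) x3039) x3063) x2937) x3153) x3207) x2559) x129) x5961) x859)
  (sub (add (add (sub (sub (sub (sub (add (add (add (add C x3055) x3059) x3063) x3075) x3015) x3105) x3213) x2565) x135) x5967) x865)
  (sub (add (add (add (sub (sub (sub (sub (sub (add (add C x3051) x3059) x3061) x3019) x3109) x3217) x2569) x139) x5971) x867) x5243)
  (add (add (add (sub (sub (sub (sub (sub (add (add C x3051) x3055) x3071) x3023) x3113) x3221) x2573) x143) x5975) x5245)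
  (sub (add (add (add (sub (sub (sub (sub (sub (sub C x3063) x3055) x3043) x3115) x3223) x2575) x145) x5977) x873) x5249)
  (sub (add (add (sub (sub (sub (sub (add (add (sub C x3061) x3051) x3075) x3045) x3117) x3225) x2577) x147) x5979) x877)
  (add (add (add (sub (sub (sub (add (add (sub (sub C x3075) x3059) x2999) x3035) x3125) x3233) x2585) x155) x5987) x5257)
  (sub (add (add (sub (sub (sub (add (add (add (add (sub C x3071) x3051) x3063) x3003) x3039) x3129) x3237) x2589) x159) x5991) x889)
  (sub (add (add (add (sub (sub (sub (add (add (add (add (sub C x3081) x3091) x3103) x3115) x3151) x2971) x3403) x2593) x163) x5995) x891) x5267)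
  (sub (add (add (sub (sub (sub (add (add (sub (sub C x3079) x3087) x3117) x3153) x2973) x3405) x2595) x165) x5997) x895)
  (sub (add (add (sub (sub (sub (sub (sub (add (add C x3091) x3095) x3081) x3105) x2979) x3411) x2601) x171) x6003) x901)
  (sub (add (add (add (sub (sub (sub (sub (add (add (add (add C x3087) x3095) x3079) x3103) x3109) x2983) x3415) x2605) x175) x6007) x903) x5279)
  (add (add (add (sub (sub (sub (sub (sub (add (add C x3087) x3091) x3101) x3113) x2987) x3419) x2609) x179) x6011) x5281)
  (add (add (add (sub (sub (sub (sub (sub (sub C x3103) x3095) x3137) x2993) x3425) x2615) x185) x6017) x5287)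
  (sub (add (add (add (sub (sub (sub (sub (add (add (sub C x3101) x3079) x3091) x3139) x2995) x3427) x2617) x187) x6019) x915) x5291)
  (sub (add (add (sub (sub (sub (sub (add (add (add (add C x3109) x3113) x3117) x3129) x3087) x3051) x3429) x2619) x189) x6021) x919)
  (sub (add (add (add (sub (sub (sub (sub (sub (add (add C x3105) x3113) x3115) x3091) x3055) x3433) x2623) x193) x6025) x921) x5297)
  (add (add (add (sub (sub (sub (sub (sub (add (add C x3105) x3109) x3125) x3095) x3059) x3437) x2627) x197) x6029) x5299)
  (sub (add (add (add (sub (sub (sub (add (add (sub (sub C x3117) x3109) x3079) x3151) x3061) x3439) x2629) x199) x6031) x927) x5303)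
  (sub (add (add (sub (sub (sub (add (add (add (add (sub C x3115) x3105) x3129) x3081) x3153) x3063) x3441) x2631) x201) x6033) x931)
  (add (add (add (sub (sub (sub (sub (sub (sub C x3129) x3113) x3143) x3071) x3449) x2639) x209) x6041) x5311)
  (sub (add (add (sub (sub (sub (sub (add (add (sub C x3125) x3105) x3117) x3147) x3075) x3453) x2643) x213) x6045) x943)
  (add (add (add (sub (sub (add (add (sub (sub (sub C x3139) x3143) x3101) x2921) x3029) x3461) x2651) x221) x6053) x5323)
  (sub (add (add (add (sub (sub (add (add (sub (sub (sub C x3137) x3151) x3103) x2923) x3031) x3463) x2653) x223) x6055) x951) x5327)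
  (add (add (add (sub (sub (add (add (sub (sub (sub C x3147) x3137) x3125) x2927) x3035) x3467) x2657) x227) x6059) x5329)
  (sub (add (add (sub (sub (add (add (sub (sub (sub C x3143) x3153) x3129) x2931) x3039) x3471) x2661) x231) x6063) x961)
  (sub (add (add (add (sub (sub (add (add (add (add (sub (sub C x3153) x3139) x3079) x3115) x2935) x3043) x3475) x2665) x235) x6067) x963) x5339)
  (sub (add (add (sub (sub (add (add (add (add (sub (sub C x3151) x3147) x3081) x3117) x2937) x3045) x3477) x2667) x237) x6069) x967)
  (add (add (add (add (add (sub (add (add (add (add (add (add (sub C x3165) x3173) x3185) x3197) x3233) x3269) x3377) x2999) x2189) x4133) x245) x6077) x5347)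
  (sub (add (add (add (add (sub (add (add (add (add (sub (sub C x3161) x3177) x3201) x3237) x3273) x3381) x3003) x2193) x4137) x249) x6081) x979)
  (add (add (add (add (add (sub (add (add (sub (add (add (sub C x3175) x3161) x3185) x3191) x3281) x3389) x3011) x2201) x4145) x257) x6089) x5359)
  (sub (add (add (add (add (add (sub (add (add (sub (sub (sub C x3173) x3181) x3193) x3283) x3391) x3013) x2203) x4147) x259) x6091) x987) x5363)
  (sub (add (add (add (add (sub (add (add (sub (sub (add (add C x3181) x3185) x3165) x3213) x3285) x3393) x3015) x2205) x4149) x261) x6093) x991)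
  (sub (add (add (add (add (add (sub (add (add (sub (sub (add (add C x3177) x3185) x3175) x3217) x3289) x3397) x3019) x2209) x4153) x265) x6097) x993) x5369)
  (add (add (add (add (add (sub (add (add (sub (add (add (add (add C x3177) x3181) x3161) x3173) x3221) x3293) x3401) x3023) x2213) x4157) x269) x6101) x5371)
  (add (add (add (add (add (sub (sub (sub (sub (sub C x3193) x3197) x3173) x3245) x3029) x2219) x4163) x275) x6107) x5377)
  (sub (add (add (add (add (add (sub (sub (sub (sub (sub C x3191) x3205) x3175) x3247) x3031) x2221) x4165) x277) x6109) x1005) x5381)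
  (add (add (add (add (add (sub (sub (add (add (sub (sub C x3201) x3191) x3161) x3233) x3251) x3035) x2225) x4169) x281) x6113) x5383)
  (sub (add (add (add (add (sub (sub (add (add (sub (sub C x3197) x3207) x3165) x3237) x3255) x3039) x2229) x4173) x285) x6117) x1015)
  (sub (add (add (add (add (add (sub (sub (sub (sub (sub C x3207) x3193) x3223) x3259) x3043) x2233) x4177) x289) x6121) x1017) x5393)
  (sub (add (add (add (add (sub (sub (sub (sub (sub C x3205) x3201) x3225) x3261) x3045) x2235) x4179) x291) x6123) x1021)
  (sub (add (add (add (add (sub (sub (sub (add (add (add (add C x3217) x3221) x3225) x3237) x3177) x3321) x3051) x2241) x4185) x297) x6129) x1027)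
  (sub (add (add (add (add (add (sub (sub (sub (sub (add (add C x3213) x3221) x3223) x3181) x3325) x3055) x2245) x4189) x301) x6133) x1029) x5405)
  (add (add (add (add (add (sub (sub (sub (sub (add (add C x3213) x3217) x3233) x3185) x3329) x3059) x2249) x4193) x305) x6137) x5407)
  (sub (add (add (add (add (add (sub (sub (sub (sub (sub C x3225) x3217) x3205) x3331) x3061) x2251) x4195) x307) x6139) x1035) x5411)
  (sub (add (add (add (add (sub (sub (sub (add (add (sub C x3223) x3213) x3237) x3207) x3333) x3063) x2253) x4197) x309) x6141) x1039)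
  (add (add (add (add (add (sub (sub (add (add (sub (sub C x3237) x3221) x3161) x3197) x3341) x3071) x2261) x4205) x317) x6149) x5419)
  (sub (add (add (add (add (sub (sub (add (add (add (add (sub C x3233) x3213) x3225) x3165) x3201) x3345) x3075) x2265) x4209) x321) x6153) x1051)
  (add (add (add (add (add (add (add (sub (add (add (sub (sub C x3247) x3251) x3281) x3317) x3191) x2921) x3569) x2273) x4217) x329) x6161) x5431)
  (sub (add (add (add (add (add (add (add (sub (add (add (sub (sub C x3245) x3259) x3283) x3319) x3193) x2923) x3571) x2275) x4219) x331) x6163) x1059) x5435)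
  (add (add (add (add (add (add (add (sub (sub (sub (sub C x3255) x3245) x3269) x3197) x2927) x3575) x2279) x4223) x335) x6167) x5437)
  (sub (add (add (add (add (add (add (sub (sub (sub (sub C x3251) x3261) x3273) x3201) x2931) x3579) x2283) x4227) x339) x6171) x1069)
  (sub (add (add (add (add (add (add (add (sub (sub (sub (sub C x3261) x3247) x3295) x3205) x2935) x3583) x2287) x4231) x343) x6175) x1071) x5447)
  (sub (add (add (add (add (add (add (sub (sub (sub (sub C x3259) x3255) x3297) x3207) x2937) x3585) x2289) x4233) x345) x6177) x1075)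
  (add (add (add (add (add (add (add (add (add (sub (add (add (sub C x3273) x3281) x3293) x3251) x3161) x3377) x2945) x3593) x2297) x4241) x353) x6185) x5455)
  (sub (add (add (add (add (add (add (add (add (sub (sub (sub C x3269) x3285) x3255) x3165) x3381) x2949) x3597) x2301) x4245) x357) x6189) x1087)
  (add (add (add (add (add (add (add (add (add (add (add (add (add (sub C x3283) x3269) x3293) x3245) x3317) x3173) x3389) x2957) x3605) x2309) x4253) x365) x6197) x5467)
  (sub (add (add (add (add (add (add (add (add (add (add (add (sub (sub C x3281) x3289) x3247) x3319) x3175) x3391) x2959) x3607) x2311) x4255) x367) x6199) x1095) x5471)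
  (sub (add (add (add (add (add (add (add (add (sub (sub (add (add C x3289) x3293) x3273) x3303) x3177) x3393) x2961) x3609) x2313) x4257) x369) x6201) x1099)
  (sub (add (add (add (add (add (add (add (add (add (sub (sub (add (add C x3285) x3293) x3283) x3307) x3181) x3397) x2965) x3613) x2317) x4261) x373) x6205) x1101) x5477)
  (add (add (add (add (add (add (add (add (add (sub (add (add (add (add C x3285) x3289) x3269) x3281) x3311) x3185) x3401) x2969) x3617) x2321) x4265) x377) x6209) x5479)
  (sub (add (add (add (add (add (add (add (sub (sub (add (add (sub C x3297) x3307) x3319) x3259) x3349) x2971) x3619) x2323) x4267) x379) x6211) x1107) x5483)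
  (sub (add (add (add (add (add (add (sub (sub (sub (sub C x3295) x3303) x3261) x3351) x2973) x3621) x2325) x4269) x381) x6213) x1111)
  (sub (add (add (add (add (add (add (sub (sub (sub (add (add C x3307) x3311) x3297) x3285) x3357) x2979) x3627) x2331) x4275) x387) x6219) x1117)
  (sub (add (add (add (add (add (add (add (sub (sub (add (add (add (add C x3303) x3311) x3295) x3319) x3289) x3361) x2983) x3631) x2335) x4279) x391) x6223) x1119) x5495)
  (add (add (add (add (add (add (add (sub (sub (sub (add (add C x3303) x3307) x3317) x3293) x3365) x2987) x3635) x2339) x4283) x395) x6227) x5497)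
  (add (add (add (add (add (add (add (sub (add (add (sub (sub C x3319) x3311) x3245) x3281) x3371) x2993) x3641) x2345) x4289) x401) x6233) x5503)
  (sub (add (add (add (add (add (add (add (sub (add (add (add (add (sub C x3317) x3295) x3307) x3247) x3283) x3373) x2995) x3643) x2347) x4291) x403) x6235) x1131) x5507)
  (sub (add (add (add (add (sub (sub (add (add (add (add (add (add C x3325) x3329) x3333) x3345) x3357) x3393) x3213) x3483) x2349) x4293) x405) x6237) x1135)
  (sub (add (add (add (add (add (sub (sub (add (add (sub (add (add C x3321) x3329) x3331) x3361) x3397) x3217) x3487) x2353) x4297) x409) x6241) x1137) x5513)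
  (add (add (add (add (add (sub (sub (add (add (sub (add (add C x3321) x3325) x3341) x3365) x3401) x3221) x3491) x2357) x4301) x413) x6245) x5515)
  (sub (add (add (add (add (add (sub (sub (sub (sub (sub C x3333) x3325) x3349) x3223) x3493) x2359) x4303) x415) x6247) x1143) x5519)
  (sub (add (add (add (add (sub (sub (sub (add (add (sub C x3331) x3321) x3345) x3351) x3225) x3495) x2361) x4305) x417) x6249) x1147)
  (add (add (add (add (add (sub (sub (sub (sub (sub C x3345) x3329) x3377) x3233) x3503) x2369) x4313) x425) x6257) x5527)
  (sub (add (add (add (add (sub (sub (sub (add (add (sub C x3341) x3321) x3333) x3381) x3237) x3507) x2373) x4317) x429) x6261) x1159)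
  (sub (add (add (add (add (add (sub (sub (sub (add (add (sub C x3351) x3361) x3373) x3331) x3295) x3511) x2377) x4321) x433) x6265) x1161) x5537)
  (sub (add (add (add (add (sub (sub (sub (sub (sub C x3349) x3357) x3333) x3297) x3513) x2379) x4323) x435) x6267) x1165)
  (sub (add (add (add (add (sub (sub (add (add (sub (add (add C x3361) x3365) x3351) x3321) x3393) x3303) x3519) x2385) x4329) x441) x6273) x1171)
  (sub (add (add (add (add (add (sub (sub (add (add (add (add (add (add C x3357) x3365) x3349) x3373) x3325) x3397) x3307) x3523) x2389) x4333) x445) x6277) x1173) x5549)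
  (add (add (add (add (add (sub (sub (add (add (sub (add (add C x3357) x3361) x3371) x3329) x3401) x3311) x3527) x2393) x4337) x449) x6281) x5551)
  (add (add (add (add (add (sub (sub (sub (sub (sub C x3373) x3365) x3389) x3317) x3533) x2399) x4343) x455) x6287) x5557)
  (sub (add (add (add (add (add (sub (sub (sub (add (add (sub C x3371) x3349) x3361) x3391) x3319) x3535) x2401) x4345) x457) x6289) x1185) x5561)
  (add (add (add (add (add (sub (add (add (sub (add (add (sub C x3381) x3389) x3401) x3341) x3161) x3269) x3539) x2405) x4349) x461) x6293) x5563)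
  (sub (add (add (add (add (sub (add (add (sub (sub (sub C x3377) x3393) x3345) x3165) x3273) x3543) x2409) x4353) x465) x6297) x1195)
  (add (add (add (add (add (sub (add (add (sub (add (add (sub C x3391) x3377) x3401) x3371) x3173) x3281) x3551) x2417) x4361) x473) x6305) x5575)
  (sub (add (add (add (add (add (sub (add (add (sub (sub (sub C x3389) x3397) x3373) x3175) x3283) x3553) x2419) x4363) x475) x6307) x1203) x5579)
  (sub (add (add (add (add (sub (add (add (add (add (sub (add (add C x3397) x3401) x3381) x3321) x3357) x3177) x3285) x3555) x2421) x4365) x477) x6309) x1207)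
  (sub (add (add (add (add (add (sub (add (add (add (add (sub (add (add C x3393) x3401) x3391) x3325) x3361) x3181) x3289) x3559) x2425) x4369) x481) x6313) x1209) x5585)
  (add (add (add (add (add (sub (add (add (add (add (add (add (add (add C x3393) x3397) x3377) x3389) x3329) x3365) x3185) x3293) x3563) x2429) x4373) x485) x6317) x5587)
  (sub (add (add (add (sub (sub (add (add (add (add (add (add (sub C x3405) x3415) x3427) x3439) x3475) x3511) x3619) x3079) x3889) x487) x6319) x1215) x5591)
  (sub (add (add (sub (sub (add (add (add (add (sub (sub C x3403) x3411) x3441) x3477) x3513) x3621) x3081) x3891) x489) x6321) x1219)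
  (sub (add (add (sub (sub (add (add (sub (sub (add (add C x3415) x3419) x3405) x3429) x3519) x3627) x3087) x3897) x495) x6327) x1225)
  (sub (add (add (add (sub (sub (add (add (sub (add (add (add (add C x3411) x3419) x3403) x3427) x3433) x3523) x3631) x3091) x3901) x499) x6331) x1227) x5603)
  (add (add (add (sub (sub (add (add (sub (sub (add (add C x3411) x3415) x3425) x3437) x3527) x3635) x3095) x3905) x503) x6335) x5605)
  (add (add (add (sub (sub (add (add (sub (sub (sub C x3427) x3419) x3461) x3533) x3641) x3101) x3911) x509) x6341) x5611)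
  (sub (add (add (add (sub (sub (add (add (sub (add (add (sub C x3425) x3403) x3415) x3463) x3535) x3643) x3103) x3913) x511) x6343) x1239) x5615)
  (sub (add (add (sub (sub (sub (sub (add (add (add (add C x3433) x3437) x3441) x3453) x3411) x3483) x3105) x3915) x513) x6345) x1243)
  (sub (add (add (add (sub (sub (sub (sub (sub (add (add C x3429) x3437) x3439) x3415) x3487) x3109) x3919) x517) x6349) x1245) x5621)
  (add (add (add (sub (sub (sub (sub (sub (add (add C x3429) x3433) x3449) x3419) x3491) x3113) x3923) x521) x6353) x5623)
  (sub (add (add (add (sub (sub (sub (add (add (sub (sub C x3441) x3433) x3403) x3475) x3493) x3115) x3925) x523) x6355) x1251) x5627)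
  (sub (add (add (sub (sub (sub (add (add (add (add (sub C x3439) x3429) x3453) x3405) x3477) x3495) x3117) x3927) x525) x6357) x1255)
  (add (add (add (sub (sub (sub (sub (sub (sub C x3453) x3437) x3467) x3503) x3125) x3935) x533) x6365) x5635)
  (sub (add (add (sub (sub (sub (sub (add (add (sub C x3449) x3429) x3441) x3471) x3507) x3129) x3939) x537) x6369) x1267)
  (add (add (add (sub (sub (sub (sub (sub (sub C x3463) x3467) x3425) x3569) x3137) x3947) x545) x6377) x5647)
  (sub (add (add (add (sub (sub (sub (sub (sub (sub C x3461) x3475) x3427) x3571) x3139) x3949) x547) x6379) x1275) x5651)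
  (add (add (add (sub (sub (sub (sub (sub (sub C x3471) x3461) x3449) x3575) x3143) x3953) x551) x6383) x5653)
  (sub (add (add (sub (sub (sub (sub (sub (sub C x3467) x3477) x3453) x3579) x3147) x3957) x555) x6387) x1285)
  (sub (add (add (add (sub (sub (sub (add (add (sub (sub C x3477) x3463) x3403) x3439) x3583) x3151) x3961) x559) x6391) x1287) x5663)
  (sub (add (add (sub (sub (sub (add (add (sub (sub C x3475) x3471) x3405) x3441) x3585) x3153) x3963) x561) x6393) x1291)
  (sub (add (add (sub (sub (sub (add (add (add (add (add (add C x3487) x3491) x3495) x3507) x3519) x3555) x3429) x3321) x3969) x567) x6399) x1297)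
  (sub (add (add (add (sub (sub (sub (add (add (sub (add (add C x3483) x3491) x3493) x3523) x3559) x3433) x3325) x3973) x571) x6403) x1299) x5675)
  (add (add (add (sub (sub (sub (add (add (sub (add (add C x3483) x3487) x3503) x3527) x3563) x3437) x3329) x3977) x575) x6407) x5677)
  (sub (add (add (add (sub (sub (sub (sub (sub (sub C x3495) x3487) x3511) x3439) x3331) x3979) x577) x6409) x1305) x5681)
  (sub (add (add (sub (sub (sub (sub (add (add (sub C x3493) x3483) x3507) x3513) x3441) x3333) x3981) x579) x6411) x1309)
  (add (add (add (sub (sub (sub (sub (sub (sub C x3507) x3491) x3539) x3449) x3341) x3989) x587) x6419) x5689)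
  (sub (add (add (sub (sub (sub (sub (add (add (sub C x3503) x3483) x3495) x3543) x3453) x3345) x3993) x591) x6423) x1321)
  (sub (add (add (add (sub (sub (add (add (sub (add (add (sub C x3513) x3523) x3535) x3493) x3403) x3619) x3349) x3997) x595) x6427) x1323) x5699)
  (sub (add (add (sub (sub (add (add (sub (sub (sub C x3511) x3519) x3495) x3405) x3621) x3351) x3999) x597) x6429) x1327)
  (sub (add (add (sub (sub (add (add (add (add (sub (add (add C x3523) x3527) x3513) x3483) x3555) x3411) x3627) x3357) x4005) x603) x6435) x1333)
  (sub (add (add (add (sub (sub (add (add (add (add (add (add (add (add C x3519) x3527) x3511) x3535) x3487) x3559) x3415) x3631) x3361) x4009) x607) x6439) x1335) x5711)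
  (add (add (add (sub (sub (add (add (add (add (sub (add (add C x3519) x3523) x3533) x3491) x3563) x3419) x3635) x3365) x4013) x611) x6443) x5713)
  (add (add (add (sub (sub (add (add (sub (sub (sub C x3535) x3527) x3551) x3425) x3641) x3371) x4019) x617) x6449) x5719)
  (sub (add (add (add (sub (sub (add (add (sub (add (add (sub C x3533) x3511) x3523) x3553) x3427) x3643) x3373) x4021) x619) x6451) x1347) x5723)
  (add (add (add (sub (sub (sub (sub (add (add (sub C x3543) x3551) x3563) x3503) x3593) x3377) x4025) x623) x6455) x5725)
  (sub (add (add (sub (sub (sub (sub (sub (sub C x3539) x3555) x3507) x3597) x3381) x4029) x627) x6459) x1357)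
  (add (add (add (sub (sub (sub (sub (add (add (sub C x3553) x3539) x3563) x3533) x3605) x3389) x4037) x635) x6467) x5737)
  (sub (add (add (add (sub (sub (sub (sub (sub (sub C x3551) x3559) x3535) x3607) x3391) x4039) x637) x6469) x1365) x5741)
  (sub (add (add (sub (sub (sub (add (add (sub (add (add C x3559) x3563) x3543) x3483) x3519) x3609) x3393) x4041) x639) x6471) x1369)
  (sub (add (add (add (sub (sub (sub (add (add (sub (add (add C x3555) x3563) x3553) x3487) x3523) x3613) x3397) x4045) x643) x6475) x1371) x5747)
  (add (add (add (sub (sub (sub (add (add (add (add (add (add C x3555) x3559) x3539) x3551) x3491) x3527) x3617) x3401) x4049) x647) x6479) x5749)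
  (add (add (add (sub (add (add (sub (add (add (sub (sub C x3571) x3575) x3605) x3641) x3461) x2921) x3245) x4055) x653) x6485) x5755)
  (sub (add (add (add (sub (add (add (sub (add (add (sub (sub C x3569) x3583) x3607) x3643) x3463) x2923) x3247) x4057) x655) x6487) x1383) x5759)
  (add (add (add (sub (add (add (sub (sub (sub (sub C x3579) x3569) x3593) x3467) x2927) x3251) x4061) x659) x6491) x5761)
  (sub (add (add (sub (add (add (sub (sub (sub (sub C x3575) x3585) x3597) x3471) x2931) x3255) x4065) x663) x6495) x1393)
  (sub (add (add (add (sub (add (add (sub (sub (sub (sub C x3585) x3571) x3619) x3475) x2935) x3259) x4069) x667) x6499) x1395) x5771)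
  (sub (add (add (sub (add (add (sub (sub (sub (sub C x3583) x3579) x3621) x3477) x2937) x3261) x4071) x669) x6501) x1399)
  (add (add (add (sub (add (add (sub (sub (add (add (sub C x3597) x3605) x3617) x3575) x3539) x2945) x3269) x4079) x677) x6509) x5779)
  (sub (add (add (sub (add (add (sub (sub (sub (sub C x3593) x3609) x3579) x3543) x2949) x3273) x4083) x681) x6513) x1411)
  (add (add (add (sub (add (add (sub (add (add (add (add (sub C x3607) x3593) x3617) x3569) x3641) x3551) x2957) x3281) x4091) x689) x6521) x5791)
  (sub (add (add (add (sub (add (add (sub (add (add (sub (sub C x3605) x3613) x3571) x3643) x3553) x2959) x3283) x4093) x691) x6523) x1419) x5795)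
  (sub (add (add (sub (add (add (sub (sub (sub (add (add C x3613) x3617) x3597) x3627) x3555) x2961) x3285) x4095) x693) x6525) x1423)
  (sub (add (add (add (sub (add (add (sub (sub (sub (add (add C x3609) x3617) x3607) x3631) x3559) x2965) x3289) x4099) x697) x6529) x1425) x5801)
  (add (add (add (sub (add (add (sub (sub (add (add (add (add C x3609) x3613) x3593) x3605) x3635) x3563) x2969) x3293) x4103) x701) x6533) x5803)
  (sub (add (add (add (sub (add (add (add (add (sub (add (add (sub C x3621) x3631) x3643) x3583) x3403) x3511) x2971) x3295) x4105) x703) x6535) x1431) x5807)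
  (sub (add (add (sub (add (add (add (add (sub (sub (sub C x3619) x3627) x3585) x3405) x3513) x2973) x3297) x4107) x705) x6537) x1435)
  (sub (add (add (sub (add (add (add (add (sub (sub (add (add C x3631) x3635) x3621) x3609) x3411) x3519) x2979) x3303) x4113) x711) x6543) x1441)
  (sub (add (add (add (sub (add (add (add (add (sub (add (add (add (add C x3627) x3635) x3619) x3643) x3613) x3415) x3523) x2983) x3307) x4117) x715) x6547) x1443) x5819)
  (add (add (add (sub (add (add (add (add (sub (sub (add (add C x3627) x3631) x3641) x3617) x3419) x3527) x2987) x3311) x4121) x719) x6551) x5821)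
  (add (add (add (sub (add (add (add (add (add (add (sub (sub C x3643) x3635) x3569) x3605) x3425) x3533) x2993) x3317) x4127) x725) x6557) x5827)
  (sub (add (add (add (sub (add (add (add (add (add (add (add (add (sub C x3641) x3619) x3631) x3571) x3607) x3427) x3535) x2995) x3319) x4129) x727) x6559) x1455) x5831)
  (sub (sub (sub (add (add (add (add (add (add (add (add (add (add C x3649) x3653) x3657) x3669) x3681) x3717) x3753) x3861) x3969) x4293) x2673) x5103) x1459)
  (sub (add (sub (sub (add (add (add (add (add (add (sub (add (add C x3645) x3653) x3655) x3685) x3721) x3757) x3865) x3973) x4297) x2677) x5107) x1461) x5837)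
  (add (sub (sub (add (add (add (add (add (add (sub (add (add C x3645) x3649) x3665) x3689) x3725) x3761) x3869) x3977) x4301) x2681) x5111) x5839)
  (sub (add (sub (sub (add (add (add (add (sub (sub (sub C x3657) x3649) x3673) x3763) x3871) x3979) x4303) x2683) x5113) x1467) x5843)
  (sub (sub (sub (add (add (add (add (sub (add (add (sub C x3655) x3645) x3669) x3675) x3765) x3873) x3981) x4305) x2685) x5115) x1471)
  (add (sub (sub (add (add (add (add (sub (sub (sub C x3669) x3653) x3701) x3773) x3881) x3989) x4313) x2693) x5123) x5851)
  (sub (sub (sub (add (add (add (add (sub (add (add (sub C x3665) x3645) x3657) x3705) x3777) x3885) x3993) x4317) x2697) x5127) x1483)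
  (sub (add (sub (sub (add (add (sub (sub (add (add (sub C x3675) x3685) x3697) x3655) x3727) x3997) x4321) x2701) x5131) x1485) x5861)
  (sub (sub (sub (add (add (sub (sub (sub (sub C x3673) x3681) x3657) x3729) x3999) x4323) x2703) x5133) x1489)
  (sub (sub (sub (add (add (sub (add (add (sub (add (add C x3685) x3689) x3675) x3645) x3717) x3735) x4005) x4329) x2709) x5139) x1495)
  (sub (add (sub (sub (add (add (sub (add (add (add (add (add (add C x3681) x3689) x3673) x3697) x3649) x3721) x3739) x4009) x4333) x2713) x5143) x1497) x5873)
  (add (sub (sub (add (add (sub (add (add (sub (add (add C x3681) x3685) x3695) x3653) x3725) x3743) x4013) x4337) x2717) x5147) x5875)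
  (add (sub (sub (add (add (sub (sub (sub (sub C x3697) x3689) x3713) x3749) x4019) x4343) x2723) x5153) x5881)
  (sub (add (sub (sub (add (add (sub (sub (add (add (sub C x3695) x3673) x3685) x3715) x3751) x4021) x4345) x2725) x5155) x1509) x5885)
  (add (sub (sub (add (add (sub (sub (add (add (sub C x3705) x3713) x3725) x3665) x3809) x4025) x4349) x2729) x5159) x5887)
  (sub (sub (sub (add (add (sub (sub (sub (sub C x3701) x3717) x3669) x3813) x4029) x4353) x2733) x5163) x1519)
  (add (sub (sub (add (add (sub (sub (add (add (sub C x3715) x3701) x3725) x3695) x3821) x4037) x4361) x2741) x5171) x5899)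
  (sub (add (sub (sub (add (add (sub (sub (sub (sub C x3713) x3721) x3697) x3823) x4039) x4363) x2743) x5173) x1527) x5903)
  (sub (sub (sub (add (add (sub (add (add (sub (add (add C x3721) x3725) x3705) x3645) x3681) x3825) x4041) x4365) x2745) x5175) x1531)
  (sub (add (sub (sub (add (add (sub (add (add (sub (add (add C x3717) x3725) x3715) x3649) x3685) x3829) x4045) x4369) x2749) x5179) x1533) x5909)
  (add (sub (sub (add (add (sub (add (add (add (add (add (add C x3717) x3721) x3701) x3713) x3653) x3689) x3833) x4049) x4373) x2753) x5183) x5911)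
  (sub (add (sub (sub (sub (sub (add (add (add (add (sub C x3729) x3739) x3751) x3763) x3799) x3673) x3889) x2755) x5185) x1539) x5915)
  (sub (sub (sub (sub (sub (add (add (sub (sub C x3727) x3735) x3765) x3801) x3675) x3891) x2757) x5187) x1543)
  (sub (sub (sub (sub (sub (sub (sub (add (add C x3739) x3743) x3729) x3753) x3681) x3897) x2763) x5193) x1549)
  (sub (add (sub (sub (sub (sub (sub (add (add (add (add C x3735) x3743) x3727) x3751) x3757) x3685) x3901) x2767) x5197) x1551) x5927)
  (add (sub (sub (sub (sub (sub (sub (add (add C x3735) x3739) x3749) x3761) x3689) x3905) x2771) x5201) x5929)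
  (add (sub (sub (sub (sub (sub (sub (sub C x3751) x3743) x3785) x3695) x3911) x2777) x5207) x5935)
  (sub (add (sub (sub (sub (sub (sub (add (add (sub C x3749) x3727) x3739) x3787) x3697) x3913) x2779) x5209) x1563) x5939)
  (sub (sub (sub (sub (add (add (sub (add (add (add (add C x3757) x3761) x3765) x3777) x3735) x3645) x3861) x3915) x2781) x5211) x1567)
  (sub (add (sub (sub (sub (add (add (sub (sub (add (add C x3753) x3761) x3763) x3739) x3649) x3865) x3919) x2785) x5215) x1569) x5945)
  (add (sub (sub (sub (add (add (sub (sub (add (add C x3753) x3757) x3773) x3743) x3653) x3869) x3923) x2789) x5219) x5947)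
  (sub (add (sub (sub (sub (add (add (add (add (sub (sub C x3765) x3757) x3727) x3799) x3655) x3871) x3925) x2791) x5221) x1575) x5951)
  (sub (sub (sub (sub (add (add (add (add (add (add (sub C x3763) x3753) x3777) x3729) x3801) x3657) x3873) x3927) x2793) x5223) x1579)
  (add (sub (sub (sub (add (add (sub (sub (sub C x3777) x3761) x3791) x3665) x3881) x3935) x2801) x5231) x5959)
  (sub (sub (sub (sub (add (add (sub (add (add (sub C x3773) x3753) x3765) x3795) x3669) x3885) x3939) x2805) x5235) x1591)
  (add (sub (sub (sub (sub (sub (sub (sub C x3787) x3791) x3749) x3839) x3947) x2813) x5243) x5971)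
  (sub (add (sub (sub (sub (sub (sub (sub (sub C x3785) x3799) x3751) x3841) x3949) x2815) x5245) x1599) x5975)
  (add (sub (sub (sub (sub (sub (sub (sub C x3795) x3785) x3773) x3845) x3953) x2819) x5249) x5977)
  (sub (sub (sub (sub (sub (sub (sub (sub C x3791) x3801) x3777) x3849) x3957) x2823) x5253) x1609)
  (sub (add (sub (sub (sub (sub (add (add (sub (sub C x3801) x3787) x3727) x3763) x3853) x3961) x2827) x5257) x1611) x5987)
  (sub (sub (sub (sub (sub (add (add (sub (sub C x3799) x3795) x3729) x3765) x3855) x3963) x2829) x5259) x1615)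
  (add (sub (sub (sub (sub (add (add (add (add (sub C x3813) x3821) x3833) x3845) x3881) x3701) x4133) x2837) x5267) x5995)
  (sub (sub (sub (sub (sub (add (add (sub (sub C x3809) x3825) x3849) x3885) x3705) x4137) x2841) x5271) x1627)
  (add (sub (sub (sub (sub (sub (add (add (sub C x3823) x3809) x3833) x3839) x3713) x4145) x2849) x5279) x6007)
  (sub (add (sub (sub (sub (sub (sub (sub (sub C x3821) x3829) x3841) x3715) x4147) x2851) x5281) x1635) x6011)
  (sub (sub (sub (sub (sub (sub (sub (add (add C x3829) x3833) x3813) x3861) x3717) x4149) x2853) x5283) x1639)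
  (sub (add (sub (sub (sub (sub (sub (sub (add (add C x3825) x3833) x3823) x3865) x3721) x4153) x2857) x5287) x1641) x6017)
  (add (sub (sub (sub (sub (sub (add (add (add (add C x3825) x3829) x3809) x3821) x3869) x3725) x4157) x2861) x5291) x6019)
  (add (sub (sub (sub (sub (sub (sub (sub C x3841) x3845) x3821) x3785) x4163) x2867) x5297) x6025)
  (sub (add (sub (sub (sub (sub (sub (sub (sub C x3839) x3853) x3823) x3787) x4165) x2869) x5299) x1653) x6029)
  (add (sub (sub (sub (sub (add (add (sub (sub C x3849) x3839) x3809) x3881) x3791) x4169) x2873) x5303) x6031)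
  (sub (sub (sub (sub (sub (add (add (sub (sub C x3845) x3855) x3813) x3885) x3795) x4173) x2877) x5307) x1663)
  (sub (add (sub (sub (sub (sub (sub (sub (sub C x3855) x3841) x3871) x3799) x4177) x2881) x5311) x1665) x6041)
  (sub (sub (sub (sub (sub (sub (sub (sub C x3853) x3849) x3873) x3801) x4179) x2883) x5313) x1669)
  (sub (sub (sub (sub (add (add (sub (add (add (add (add C x3865) x3869) x3873) x3885) x3825) x3645) x3753) x4185) x2889) x5319) x1675)
  (sub (add (sub (sub (sub (add (add (sub (sub (add (add C x3861) x3869) x3871) x3829) x3649) x3757) x4189) x2893) x5323) x1677) x6053)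
  (add (sub (sub (sub (add (add (sub (sub (add (add C x3861) x3865) x3881) x3833) x3653) x3761) x4193) x2897) x5327) x6055)
  (sub (add (sub (sub (sub (add (add (sub (sub (sub C x3873) x3865) x3853) x3655) x3763) x4195) x2899) x5329) x1683) x6059)
  (sub (sub (sub (sub (add (add (sub (add (add (sub C x3871) x3861) x3885) x3855) x3657) x3765) x4197) x2901) x5331) x1687)
  (add (sub (sub (sub (add (add (add (add (sub (sub C x3885) x3869) x3809) x3845) x3665) x3773) x4205) x2909) x5339) x6067)
  (sub (sub (sub (sub (add (add (add (add (add (add (sub C x3881) x3861) x3873) x3813) x3849) x3669) x3777) x4209) x2913) x5343) x1699)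
  (sub (add (sub (sub (sub (add (add (add (add (add (add (sub C x3891) x3901) x3913) x3925) x3961) x3997) x4105) x3727) x3403) x5347) x1701) x6077)
  (sub (sub (sub (sub (add (add (add (add (sub (sub C x3889) x3897) x3927) x3963) x3999) x4107) x3729) x3405) x5349) x1705)
  (sub (sub (sub (sub (add (add (sub (sub (add (add C x3901) x3905) x3891) x3915) x4005) x4113) x3735) x3411) x5355) x1711)
  (sub (add (sub (sub (sub (add (add (sub (add (add (add (add C x3897) x3905) x3889) x3913) x3919) x4009) x4117) x3739) x3415) x5359) x1713) x6089)
  (add (sub (sub (sub (add (add (sub (sub (add (add C x3897) x3901) x3911) x3923) x4013) x4121) x3743) x3419) x5363) x6091)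
  (add (sub (sub (sub (add (add (sub (sub (sub C x3913) x3905) x3947) x4019) x4127) x3749) x3425) x5369) x6097)
  (sub (add (sub (sub (sub (add (add (sub (add (add (sub C x3911) x3889) x3901) x3949) x4021) x4129) x3751) x3427) x5371) x1725) x6101)
  (sub (sub (sub (sub (sub (sub (add (add (add (add C x3919) x3923) x3927) x3939) x3897) x3969) x3753) x3429) x5373) x1729)
  (sub (add (sub (sub (sub (sub (sub (sub (add (add C x3915) x3923) x3925) x3901) x3973) x3757) x3433) x5377) x1731) x6107)
  (add (sub (sub (sub (sub (sub (sub (add (add C x3915) x3919) x3935) x3905) x3977) x3761) x3437) x5381) x6109)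
  (sub (add (sub (sub (sub (sub (add (add (sub (sub C x3927) x3919) x3889) x3961) x3979) x3763) x3439) x5383) x1737) x6113)
  (sub (sub (sub (sub (sub (add (add (add (add (sub C x3925) x3915) x3939) x3891) x3963) x3981) x3765) x3441) x5385) x1741)
  (add (sub (sub (sub (sub (sub (sub (sub C x3939) x3923) x3953) x3989) x3773) x3449) x5393) x6121)
  (sub (sub (sub (sub (sub (sub (add (add (sub C x3935) x3915) x3927) x3957) x3993) x3777) x3453) x5397) x1753)
  (add (sub (sub (sub (sub (sub (sub (sub C x3949) x3953) x3911) x4055) x3785) x3461) x5405) x6133)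
  (sub (add (sub (sub (sub (sub (sub (sub (sub C x3947) x3961) x3913) x4057) x3787) x3463) x5407) x1761) x6137)
  (add (sub (sub (sub (sub (sub (sub (sub C x3957) x3947) x3935) x4061) x3791) x3467) x5411) x6139)
  (sub (sub (sub (sub (sub (sub (sub (sub C x3953) x3963) x3939) x4065) x3795) x3471) x5415) x1771)
  (sub (add (sub (sub (sub (sub (add (add (sub (sub C x3963) x3949) x3889) x3925) x4069) x3799) x3475) x5419) x1773) x6149)
  (sub (sub (sub (sub (sub (add (add (sub (sub C x3961) x3957) x3891) x3927) x4071) x3801) x3477) x5421) x1777)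
  (sub (sub (sub (add (add (sub (add (add (add (add (add (add C x3973) x3977) x3981) x3993) x4005) x4041) x3915) x3645) x4293) x3483) x5427) x1783)
  (sub (add (sub (sub (add (add (sub (add (add (sub (add (add C x3969) x3977) x3979) x4009) x4045) x3919) x3649) x4297) x3487) x5431) x1785) x6161)
  (add (sub (sub (add (add (sub (add (add (sub (add (add C x3969) x3973) x3989) x4013) x4049) x3923) x3653) x4301) x3491) x5435) x6163)
  (sub (add (sub (sub (add (add (sub (sub (sub (sub C x3981) x3973) x3997) x3925) x3655) x4303) x3493) x5437) x1791) x6167)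
  (sub (sub (sub (add (add (sub (sub (add (add (sub C x3979) x3969) x3993) x3999) x3927) x3657) x4305) x3495) x5439) x1795)
  (add (sub (sub (add (add (sub (sub (sub (sub C x3993) x3977) x4025) x3935) x3665) x4313) x3503) x5447) x6175)
  (sub (sub (sub (add (add (sub (sub (add (add (sub C x3989) x3969) x3981) x4029) x3939) x3669) x4317) x3507) x5451) x1807)
  (sub (add (sub (sub (add (add (add (add (sub (add (add (sub C x3999) x4009) x4021) x3979) x3889) x4105) x3673) x4321) x3511) x5455) x1809) x6185)
  (sub (sub (sub (add (add (add (add (sub (sub (sub C x3997) x4005) x3981) x3891) x4107) x3675) x4323) x3513) x5457) x1813)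
  (sub (sub (sub (add (add (add (add (add (add (sub (add (add C x4009) x4013) x3999) x3969) x4041) x3897) x4113) x3681) x4329) x3519) x5463) x1819)
  (sub (add (sub (sub (add (add (add (add (add (add (add (add (add (add C x4005) x4013) x3997) x4021) x3973) x4045) x3901) x4117) x3685) x4333) x3523) x5467) x1821) x6197)
  (add (sub (sub (add (add (add (add (add (add (sub (add (add C x4005) x4009) x4019) x3977) x4049) x3905) x4121) x3689) x4337) x3527) x5471) x6199)
  (add (sub (sub (add (add (add (add (sub (sub (sub C x4021) x4013) x4037) x3911) x4127) x3695) x4343) x3533) x5477) x6205)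
  (sub (add (sub (sub (add (add (add (add (sub (add (add (sub C x4019) x3997) x4009) x4039) x3913) x4129) x3697) x4345) x3535) x5479) x1833) x6209)
  (add (sub (sub (add (add (sub (sub (add (add (sub C x4029) x4037) x4049) x3989) x4079) x3701) x4349) x3539) x5483) x6211)
  (sub (sub (sub (add (add (sub (sub (sub (sub C x4025) x4041) x3993) x4083) x3705) x4353) x3543) x5487) x1843)
  (add (sub (sub (add (add (sub (sub (add (add (sub C x4039) x4025) x4049) x4019) x4091) x3713) x4361) x3551) x5495) x6223)
  (sub (add (sub (sub (add (add (sub (sub (sub (sub C x4037) x4045) x4021) x4093) x3715) x4363) x3553) x5497) x1851) x6227)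
  (sub (sub (sub (add (add (sub (add (add (sub (add (add C x4045) x4049) x4029) x3969) x4005) x4095) x3717) x4365) x3555) x5499) x1855)
  (sub (add (sub (sub (add (add (sub (add (add (sub (add (add C x4041) x4049) x4039) x3973) x4009) x4099) x3721) x4369) x3559) x5503) x1857) x6233)
  (add (sub (sub (add (add (sub (add (add (add (add (add (add C x4041) x4045) x4025) x4037) x3977) x4013) x4103) x3725) x4373) x3563) x5507) x6235)
  (add (sub (sub (sub (sub (add (add (sub (sub C x4057) x4061) x4091) x4127) x3947) x4217) x3569) x5513) x6241)
  (sub (add (sub (sub (sub (sub (add (add (sub (sub C x4055) x4069) x4093) x4129) x3949) x4219) x3571) x5515) x1869) x6245)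
  (add (sub (sub (sub (sub (sub (sub (sub C x4065) x4055) x4079) x3953) x4223) x3575) x5519) x6247)
  (sub (sub (sub (sub (sub (sub (sub (sub C x4061) x4071) x4083) x3957) x4227) x3579) x5523) x1879)
  (sub (add (sub (sub (sub (sub (sub (sub (sub C x4071) x4057) x4105) x3961) x4231) x3583) x5527) x1881) x6257)
  (sub (sub (sub (sub (sub (sub (sub (sub C x4069) x4065) x4107) x3963) x4233) x3585) x5529) x1885)
  (add (sub (sub (sub (sub (sub (add (add (sub C x4083) x4091) x4103) x4061) x4025) x4241) x3593) x5537) x6265)
  (sub (sub (sub (sub (sub (sub (sub (sub C x4079) x4095) x4065) x4029) x4245) x3597) x5541) x1897)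
  (add (sub (sub (sub (sub (add (add (add (add (sub C x4093) x4079) x4103) x4055) x4127) x4037) x4253) x3605) x5549) x6277)
  (sub (add (sub (sub (sub (sub (add (add (sub (sub C x4091) x4099) x4057) x4129) x4039) x4255) x3607) x5551) x1905) x6281)
  (sub (sub (sub (sub (sub (sub (sub (add (add C x4099) x4103) x4083) x4113) x4041) x4257) x3609) x5553) x1909)
  (sub (add (sub (sub (sub (sub (sub (sub (add (add C x4095) x4103) x4093) x4117) x4045) x4261) x3613) x5557) x1911) x6287)
  (add (sub (sub (sub (sub (sub (add (add (add (add C x4095) x4099) x4079) x4091) x4121) x4049) x4265) x3617) x5561) x6289)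
  (sub (add (sub (sub (sub (add (add (sub (add (add (sub C x4107) x4117) x4129) x4069) x3889) x3997) x4267) x3619) x5563) x1917) x6293)
  (sub (sub (sub (sub (add (add (sub (sub (sub C x4105) x4113) x4071) x3891) x3999) x4269) x3621) x5565) x1921)
  (sub (sub (sub (sub (add (add (sub (sub (add (add C x4117) x4121) x4107) x4095) x3897) x4005) x4275) x3627) x5571) x1927)
  (sub (add (sub (sub (sub (add (add (sub (add (add (add (add C x4113) x4121) x4105) x4129) x4099) x3901) x4009) x4279) x3631) x5575) x1929) x6305)
  (add (sub (sub (sub (add (add (sub (sub (add (add C x4113) x4117) x4127) x4103) x3905) x4013) x4283) x3635) x5579) x6307)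
  (add (sub (sub (sub (add (add (add (add (sub (sub C x4129) x4121) x4055) x4091) x3911) x4019) x4289) x3641) x5585) x6313)
  (sub (add (sub (sub (sub (add (add (add (add (add (add (sub C x4127) x4105) x4117) x4057) x4093) x3913) x4021) x4291) x3643) x5587) x1941) x6317)
  (add (sub (add (add (sub (add (add (add (add (add (add (sub C x4137) x4145) x4157) x4169) x4205) x4241) x4349) x3809) x2189) x3161) x5591) x6319)
  (sub (sub (add (add (sub (add (add (add (add (sub (sub C x4133) x4149) x4173) x4209) x4245) x4353) x3813) x2193) x3165) x5595) x1951)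
  (add (sub (add (add (sub (add (add (sub (add (add (sub C x4147) x4133) x4157) x4163) x4253) x4361) x3821) x2201) x3173) x5603) x6331)
  (sub (add (sub (add (add (sub (add (add (sub (sub (sub C x4145) x4153) x4165) x4255) x4363) x3823) x2203) x3175) x5605) x1959) x6335)
  (sub (sub (add (add (sub (add (add (sub (sub (add (add C x4153) x4157) x4137) x4185) x4257) x4365) x3825) x2205) x3177) x5607) x1963)
  (sub (add (sub (add (add (sub (add (add (sub (sub (add (add C x4149) x4157) x4147) x4189) x4261) x4369) x3829) x2209) x3181) x5611) x1965) x6341)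
  (add (sub (add (add (sub (add (add (sub (add (add (add (add C x4149) x4153) x4133) x4145) x4193) x4265) x4373) x3833) x2213) x3185) x5615) x6343)
  (add (sub (add (add (sub (sub (sub (sub (sub C x4165) x4169) x4145) x4217) x3839) x2219) x3191) x5621) x6349)
  (sub (add (sub (add (add (sub (sub (sub (sub (sub C x4163) x4177) x4147) x4219) x3841) x2221) x3193) x5623) x1977) x6353)
  (add (sub (add (add (sub (sub (add (add (sub (sub C x4173) x4163) x4133) x4205) x4223) x3845) x2225) x3197) x5627) x6355)
  (sub (sub (add (add (sub (sub (add (add (sub (sub C x4169) x4179) x4137) x4209) x4227) x3849) x2229) x3201) x5631) x1987)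
  (sub (add (sub (add (add (sub (sub (sub (sub (sub C x4179) x4165) x4195) x4231) x3853) x2233) x3205) x5635) x1989) x6365)
  (sub (sub (add (add (sub (sub (sub (sub (sub C x4177) x4173) x4197) x4233) x3855) x2235) x3207) x5637) x1993)
  (sub (sub (add (add (sub (sub (sub (add (add (add (add C x4189) x4193) x4197) x4209) x4149) x4293) x3861) x2241) x3213) x5643) x1999)
  (sub (add (sub (add (add (sub (sub (sub (sub (add (add C x4185) x4193) x4195) x4153) x4297) x3865) x2245) x3217) x5647) x2001) x6377)
  (add (sub (add (add (sub (sub (sub (sub (add (add C x4185) x4189) x4205) x4157) x4301) x3869) x2249) x3221) x5651) x6379)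
  (sub (add (sub (add (add (sub (sub (sub (sub (sub C x4197) x4189) x4177) x4303) x3871) x2251) x3223) x5653) x2007) x6383)
  (sub (sub (add (add (sub (sub (sub (add (add (sub C x4195) x4185) x4209) x4179) x4305) x3873) x2253) x3225) x5655) x2011)
  (add (sub (add (add (sub (sub (add (add (sub (sub C x4209) x4193) x4133) x4169) x4313) x3881) x2261) x3233) x5663) x6391)
  (sub (sub (add (add (sub (sub (add (add (add (add (sub C x4205) x4185) x4197) x4137) x4173) x4317) x3885) x2265) x3237) x5667) x2023)
  (add (sub (add (add (sub (sub (add (add (sub (sub C x4219) x4223) x4253) x4289) x4163) x4055) x2273) x3245) x5675) x6403)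
  (sub (add (sub (add (add (sub (sub (add (add (sub (sub C x4217) x4231) x4255) x4291) x4165) x4057) x2275) x3247) x5677) x2031) x6407)
  (add (sub (add (add (sub (sub (sub (sub (sub C x4227) x4217) x4241) x4169) x4061) x2279) x3251) x5681) x6409)
  (sub (sub (add (add (sub (sub (sub (sub (sub C x4223) x4233) x4245) x4173) x4065) x2283) x3255) x5685) x2041)
  (sub (add (sub (add (add (sub (sub (sub (sub (sub C x4233) x4219) x4267) x4177) x4069) x2287) x3259) x5689) x2043) x6419)
  (sub (sub (add (add (sub (sub (sub (sub (sub C x4231) x4227) x4269) x4179) x4071) x2289) x3261) x5691) x2047)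
  (add (sub (add (add (sub (add (add (sub (add (add (sub C x4245) x4253) x4265) x4223) x4133) x4349) x4079) x2297) x3269) x5699) x6427)
  (sub (sub (add (add (sub (add (add (sub (sub (sub C x4241) x4257) x4227) x4137) x4353) x4083) x2301) x3273) x5703) x2059)
  (add (sub (add (add (sub (add (add (add (add (add (add (sub C x4255) x4241) x4265) x4217) x4289) x4145) x4361) x4091) x2309) x3281) x5711) x6439)
  (sub (add (sub (add (add (sub (add (add (add (add (sub (sub C x4253) x4261) x4219) x4291) x4147) x4363) x4093) x2311) x3283) x5713) x2067) x6443)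
  (sub (sub (add (add (sub (add (add (sub (sub (add (add C x4261) x4265) x4245) x4275) x4149) x4365) x4095) x2313) x3285) x5715) x2071)
  (sub (add (sub (add (add (sub (add (add (sub (sub (add (add C x4257) x4265) x4255) x4279) x4153) x4369) x4099) x2317) x3289) x5719) x2073) x6449)
  (add (sub (add (add (sub (add (add (sub (add (add (add (add C x4257) x4261) x4241) x4253) x4283) x4157) x4373) x4103) x2321) x3293) x5723) x6451)
  (sub (add (sub (add (add (sub (sub (sub (add (add (sub C x4269) x4279) x4291) x4231) x4321) x4105) x2323) x3295) x5725) x2079) x6455)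
  (sub (sub (add (add (sub (sub (sub (sub (sub C x4267) x4275) x4233) x4323) x4107) x2325) x3297) x5727) x2083)
  (sub (sub (add (add (sub (sub (sub (sub (add (add C x4279) x4283) x4269) x4257) x4329) x4113) x2331) x3303) x5733) x2089)
  (sub (add (sub (add (add (sub (sub (sub (add (add (add (add C x4275) x4283) x4267) x4291) x4261) x4333) x4117) x2335) x3307) x5737) x2091) x6467)
  (add (sub (add (add (sub (sub (sub (sub (add (add C x4275) x4279) x4289) x4265) x4337) x4121) x2339) x3311) x5741) x6469)
  (add (sub (add (add (sub (sub (add (add (sub (sub C x4291) x4283) x4217) x4253) x4343) x4127) x2345) x3317) x5747) x6475)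
  (sub (add (sub (add (add (sub (sub (add (add (add (add (sub C x4289) x4267) x4279) x4219) x4255) x4345) x4129) x2347) x3319) x5749) x2103) x6479)
  (sub (sub (add (add (add (add (sub (add (add (add (add (add (add C x4297) x4301) x4305) x4317) x4329) x4365) x4185) x3645) x3969) x2349) x3321) x5751) x2107)
  (sub (add (sub (add (add (add (add (sub (add (add (sub (add (add C x4293) x4301) x4303) x4333) x4369) x4189) x3649) x3973) x2353) x3325) x5755) x2109) x6485)
  (add (sub (add (add (add (add (sub (add (add (sub (add (add C x4293) x4297) x4313) x4337) x4373) x4193) x3653) x3977) x2357) x3329) x5759) x6487)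
  (sub (add (sub (add (add (add (add (sub (sub (sub (sub C x4305) x4297) x4321) x4195) x3655) x3979) x2359) x3331) x5761) x2115) x6491)
  (sub (sub (add (add (add (add (sub (sub (add (add (sub C x4303) x4293) x4317) x4323) x4197) x3657) x3981) x2361) x3333) x5763) x2119)
  (add (sub (add (add (add (add (sub (sub (sub (sub C x4317) x4301) x4349) x4205) x3665) x3989) x2369) x3341) x5771) x6499)
  (sub (sub (add (add (add (add (sub (sub (add (add (sub C x4313) x4293) x4305) x4353) x4209) x3669) x3993) x2373) x3345) x5775) x2131)
  (sub (add (sub (add (add (add (add (sub (sub (add (add (sub C x4323) x4333) x4345) x4303) x4267) x3673) x3997) x2377) x3349) x5779) x2133) x6509)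
  (sub (sub (add (add (add (add (sub (sub (sub (sub C x4321) x4329) x4305) x4269) x3675) x3999) x2379) x3351) x5781) x2137)
  (sub (sub (add (add (add (add (sub (add (add (sub (add (add C x4333) x4337) x4323) x4293) x4365) x4275) x3681) x4005) x2385) x3357) x5787) x2143)
  (sub (add (sub (add (add (add (add (sub (add (add (add (add (add (add C x4329) x4337) x4321) x4345) x4297) x4369) x4279) x3685) x4009) x2389) x3361) x5791) x2145) x6521)
  (add (sub (add (add (add (add (sub (add (add (sub (add (add C x4329) x4333) x4343) x4301) x4373) x4283) x3689) x4013) x2393) x3365) x5795) x6523)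
  (add (sub (add (add (add (add (sub (sub (sub (sub C x4345) x4337) x4361) x4289) x3695) x4019) x2399) x3371) x5801) x6529)
  (sub (add (sub (add (add (add (add (sub (sub (add (add (sub C x4343) x4321) x4333) x4363) x4291) x3697) x4021) x2401) x3373) x5803) x2157) x6533)
  (add (sub (add (add (add (add (add (add (sub (add (add (sub C x4353) x4361) x4373) x4313) x4133) x4241) x3701) x4025) x2405) x3377) x5807) x6535)
  (sub (sub (add (add (add (add (add (add (sub (sub (sub C x4349) x4365) x4317) x4137) x4245) x3705) x4029) x2409) x3381) x5811) x2167)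
  (add (sub (add (add (add (add (add (add (sub (add (add (sub C x4363) x4349) x4373) x4343) x4145) x4253) x3713) x4037) x2417) x3389) x5819) x6547)
  (sub (add (sub (add (add (add (add (add (add (sub (sub (sub C x4361) x4369) x4345) x4147) x4255) x3715) x4039) x2419) x3391) x5821) x2175) x6551)
  (sub (sub (add (add (add (add (add (add (add (add (sub (add (add C x4369) x4373) x4353) x4293) x4329) x4149) x4257) x3717) x4041) x2421) x3393) x5823) x2179)
  (sub (add (sub (add (add (add (add (add (add (add (add (sub (add (add C x4365) x4373) x4363) x4297) x4333) x4153) x4261) x3721) x4045) x2425) x3397) x5827) x2181) x6557)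
  (add (sub (add (add (add (add (add (add (add (add (add (add (add (add C x4365) x4369) x4349) x4361) x4301) x4337) x4157) x4265) x3725) x4049) x2429) x3401) x5831) x6559)
  (add (sub (add (add (add (add (add (add (add (add (add (add (sub C x4377) x4387) x4399) x4411) x4447) x4483) x4591) x4699) x5023) x5347) x6319) x1459) x2189)
  (add (sub (add (add (add (add (add (add (add (add (sub (sub C x4375) x4383) x4413) x4449) x4485) x4593) x4701) x5025) x5349) x6321) x1461) x5)
  (add (sub (add (add (add (add (add (add (sub (sub (add (add C x4387) x4391) x4377) x4401) x4491) x4599) x4707) x5031) x5355) x6327) x1467) x11)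
  (add (sub (add (add (add (add (add (add (sub (add (add (add (add C x4383) x4391) x4375) x4399) x4405) x4495) x4603) x4711) x5035) x5359) x6331) x1471) x2201)
  (sub (sub (sub (add (add (add (add (add (add (sub (sub (add (add C x4383) x4387) x4397) x4409) x4499) x4607) x4715) x5039) x5363) x6335) x1475) x15) x2203)
  (sub (sub (sub (add (add (add (add (add (add (sub (sub (sub C x4399) x4391) x4433) x4505) x4613) x4721) x5045) x5369) x6341) x1481) x21) x2209)
  (add (sub (add (add (add (add (add (add (sub (add (add (sub C x4397) x4375) x4387) x4435) x4507) x4615) x4723) x5047) x5371) x6343) x1483) x2213)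
  (add (sub (add (add (add (add (sub (sub (add (add (add (add C x4405) x4409) x4413) x4425) x4383) x4455) x4725) x5049) x5373) x6345) x1485) x29)
  (add (sub (add (add (add (add (sub (sub (sub (add (add C x4401) x4409) x4411) x4387) x4459) x4729) x5053) x5377) x6349) x1489) x2219)
  (sub (sub (sub (add (add (add (add (sub (sub (sub (add (add C x4401) x4405) x4421) x4391) x4463) x4733) x5057) x5381) x6353) x1493) x33) x2221)
  (add (sub (add (add (add (add (sub (add (add (sub (sub C x4413) x4405) x4375) x4447) x4465) x4735) x5059) x5383) x6355) x1495) x2225)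
  (add (sub (add (add (add (add (sub (add (add (add (add (sub C x4411) x4401) x4425) x4377) x4449) x4467) x4737) x5061) x5385) x6357) x1497) x41)
  (sub (sub (sub (add (add (add (add (sub (sub (sub (sub C x4425) x4409) x4439) x4475) x4745) x5069) x5393) x6365) x1505) x45) x2233)
  (add (sub (add (add (add (add (sub (sub (add (add (sub C x4421) x4401) x4413) x4443) x4479) x4749) x5073) x5397) x6369) x1509) x53)
  (sub (sub (sub (add (add (add (add (sub (sub (sub (sub C x4435) x4439) x4397) x4541) x4757) x5081) x5405) x6377) x1517) x57) x2245)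
  (add (sub (add (add (add (add (sub (sub (sub (sub C x4433) x4447) x4399) x4543) x4759) x5083) x5407) x6379) x1519) x2249)
  (sub (sub (sub (add (add (add (add (sub (sub (sub (sub C x4443) x4433) x4421) x4547) x4763) x5087) x5411) x6383) x1523) x63) x2251)
  (add (sub (add (add (add (add (sub (sub (sub (sub C x4439) x4449) x4425) x4551) x4767) x5091) x5415) x6387) x1527) x71)
  (add (sub (add (add (add (add (sub (add (add (sub (sub C x4449) x4435) x4375) x4411) x4555) x4771) x5095) x5419) x6391) x1531) x2261)
  (add (sub (add (add (add (add (sub (add (add (sub (sub C x4447) x4443) x4377) x4413) x4557) x4773) x5097) x5421) x6393) x1533) x77)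
  (add (sub (add (add (sub (sub (add (add (add (add (add (add C x4459) x4463) x4467) x4479) x4491) x4527) x4401) x4617) x5427) x6399) x1539) x83)
  (add (sub (add (add (sub (sub (add (add (sub (add (add C x4455) x4463) x4465) x4495) x4531) x4405) x4621) x5431) x6403) x1543) x2273)
  (sub (sub (sub (add (add (sub (sub (add (add (sub (add (add C x4455) x4459) x4475) x4499) x4535) x4409) x4625) x5435) x6407) x1547) x87) x2275)
  (add (sub (add (add (sub (sub (sub (sub (sub C x4467) x4459) x4483) x4411) x4627) x5437) x6409) x1549) x2279)
  (add (sub (add (add (sub (sub (sub (add (add (sub C x4465) x4455) x4479) x4485) x4413) x4629) x5439) x6411) x1551) x95)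
  (sub (sub (sub (add (add (sub (sub (sub (sub (sub C x4479) x4463) x4511) x4421) x4637) x5447) x6419) x1559) x99) x2287)
  (add (sub (add (add (sub (sub (sub (add (add (sub C x4475) x4455) x4467) x4515) x4425) x4641) x5451) x6423) x1563) x107)
  (add (sub (add (add (sub (add (add (sub (add (add (sub C x4485) x4495) x4507) x4465) x4375) x4591) x4645) x5455) x6427) x1567) x2297)
  (add (sub (add (add (sub (add (add (sub (sub (sub C x4483) x4491) x4467) x4377) x4593) x4647) x5457) x6429) x1569) x113)
  (add (sub (add (add (sub (add (add (add (add (sub (add (add C x4495) x4499) x4485) x4455) x4527) x4383) x4599) x4653) x5463) x6435) x1575) x119)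
  (add (sub (add (add (sub (add (add (add (add (add (add (add (add C x4491) x4499) x4483) x4507) x4459) x4531) x4387) x4603) x4657) x5467) x6439) x1579) x2309)
  (sub (sub (sub (add (add (sub (add (add (add (add (sub (add (add C x4491) x4495) x4505) x4463) x4535) x4391) x4607) x4661) x5471) x6443) x1583) x123) x2311)
  (sub (sub (sub (add (add (sub (add (add (sub (sub (sub C x4507) x4499) x4523) x4397) x4613) x4667) x5477) x6449) x1589) x129) x2317)
  (add (sub (add (add (sub (add (add (sub (add (add (sub C x4505) x4483) x4495) x4525) x4399) x4615) x4669) x5479) x6451) x1591) x2321)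
  (sub (sub (sub (add (add (sub (sub (sub (add (add (sub C x4515) x4523) x4535) x4475) x4565) x4673) x5483) x6455) x1595) x135) x2323)
  (add (sub (add (add (sub (sub (sub (sub (sub C x4511) x4527) x4479) x4569) x4677) x5487) x6459) x1599) x143)
  (sub (sub (sub (add (add (sub (sub (sub (add (add (sub C x4525) x4511) x4535) x4505) x4577) x4685) x5495) x6467) x1607) x147) x2335)
  (add (sub (add (add (sub (sub (sub (sub (sub C x4523) x4531) x4507) x4579) x4687) x5497) x6469) x1609) x2339)
  (add (sub (add (add (sub (sub (add (add (sub (add (add C x4531) x4535) x4515) x4455) x4491) x4581) x4689) x5499) x6471) x1611) x155)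
  (add (sub (add (add (sub (sub (add (add (sub (add (add C x4527) x4535) x4525) x4459) x4495) x4585) x4693) x5503) x6475) x1615) x2345)
  (sub (sub (sub (add (add (sub (sub (add (add (add (add (add (add C x4527) x4531) x4511) x4523) x4463) x4499) x4589) x4697) x5507) x6479) x1619) x159) x2347)
  (sub (sub (sub (add (add (sub (sub (add (add (sub (sub C x4543) x4547) x4577) x4613) x4433) x4865) x5513) x6485) x1625) x165) x2353)
  (add (sub (add (add (sub (sub (add (add (sub (sub C x4541) x4555) x4579) x4615) x4435) x4867) x5515) x6487) x1627) x2357)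
  (sub (sub (sub (add (add (sub (sub (sub (sub (sub C x4551) x4541) x4565) x4439) x4871) x5519) x6491) x1631) x171) x2359)
  (add (sub (add (add (sub (sub (sub (sub (sub C x4547) x4557) x4569) x4443) x4875) x5523) x6495) x1635) x179)
  (add (sub (add (add (sub (sub (sub (sub (sub C x4557) x4543) x4591) x4447) x4879) x5527) x6499) x1639) x2369)
  (add (sub (add (add (sub (sub (sub (sub (sub C x4555) x4551) x4593) x4449) x4881) x5529) x6501) x1641) x185)
  (sub (sub (sub (add (add (sub (sub (sub (add (add (sub C x4569) x4577) x4589) x4547) x4511) x4889) x5537) x6509) x1649) x189) x2377)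
  (add (sub (add (add (sub (sub (sub (sub (sub C x4565) x4581) x4551) x4515) x4893) x5541) x6513) x1653) x197)
  (sub (sub (sub (add (add (sub (sub (add (add (add (add (sub C x4579) x4565) x4589) x4541) x4613) x4523) x4901) x5549) x6521) x1661) x201) x2389)
  (add (sub (add (add (sub (sub (add (add (sub (sub C x4577) x4585) x4543) x4615) x4525) x4903) x5551) x6523) x1663) x2393)
  (add (sub (add (add (sub (sub (sub (sub (add (add C x4585) x4589) x4569) x4599) x4527) x4905) x5553) x6525) x1665) x209)
  (add (sub (add (add (sub (sub (sub (sub (add (add C x4581) x4589) x4579) x4603) x4531) x4909) x5557) x6529) x1669) x2399)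
  (sub (sub (sub (add (add (sub (sub (sub (add (add (add (add C x4581) x4585) x4565) x4577) x4607) x4535) x4913) x5561) x6533) x1673) x213) x2401)
  (add (sub (add (add (sub (add (add (sub (add (add (sub C x4593) x4603) x4615) x4555) x4375) x4483) x4915) x5563) x6535) x1675) x2405)
  (add (sub (add (add (sub (add (add (sub (sub (sub C x4591) x4599) x4557) x4377) x4485) x4917) x5565) x6537) x1677) x221)
  (add (sub (add (add (sub (add (add (sub (sub (add (add C x4603) x4607) x4593) x4581) x4383) x4491) x4923) x5571) x6543) x1683) x227)
  (add (sub (add (add (sub (add (add (sub (add (add (add (add C x4599) x4607) x4591) x4615) x4585) x4387) x4495) x4927) x5575) x6547) x1687) x2417)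
  (sub (sub (sub (add (add (sub (add (add (sub (sub (add (add C x4599) x4603) x4613) x4589) x4391) x4499) x4931) x5579) x6551) x1691) x231) x2419)
  (sub (sub (sub (add (add (sub (add (add (add (add (sub (sub C x4615) x4607) x4541) x4577) x4397) x4505) x4937) x5585) x6557) x1697) x237) x2425)
  (add (sub (add (add (sub (add (add (add (add (add (add (sub C x4613) x4591) x4603) x4543) x4579) x4399) x4507) x4939) x5587) x6559) x1699) x2429)
  (add (sub (sub (sub (add (add (add (add (add (add (add (add C x4621) x4625) x4629) x4641) x4653) x4689) x4725) x4833) x4455) x5103) x1701) x245)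
  (add (sub (sub (sub (add (add (add (add (sub (add (add C x4617) x4625) x4627) x4657) x4693) x4729) x4837) x4459) x5107) x1705) x2435)
  (sub (sub (sub (sub (sub (add (add (add (add (sub (add (add C x4617) x4621) x4637) x4661) x4697) x4733) x4841) x4463) x5111) x1709) x249) x2437)
  (add (sub (sub (sub (add (add (sub (sub (sub C x4629) x4621) x4645) x4735) x4843) x4465) x5113) x1711) x2441)
  (add (sub (sub (sub (add (add (sub (add (add (sub C x4627) x4617) x4641) x4647) x4737) x4845) x4467) x5115) x1713) x257)
  (sub (sub (sub (sub (sub (add (add (sub (sub (sub C x4641) x4625) x4673) x4745) x4853) x4475) x5123) x1721) x261) x2449)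
  (add (sub (sub (sub (add (add (sub (add (add (sub C x4637) x4617) x4629) x4677) x4749) x4857) x4479) x5127) x1725) x269)
  (add (sub (sub (sub (sub (sub (add (add (sub C x4647) x4657) x4669) x4627) x4699) x4483) x5131) x1729) x2459)
  (add (sub (sub (sub (sub (sub (sub (sub C x4645) x4653) x4629) x4701) x4485) x5133) x1731) x275)
  (add (sub (sub (sub (sub (add (add (sub (add (add C x4657) x4661) x4647) x4617) x4689) x4707) x4491) x5139) x1737) x281)
  (add (sub (sub (sub (sub (add (add (add (add (add (add C x4653) x4661) x4645) x4669) x4621) x4693) x4711) x4495) x5143) x1741) x2471)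
  (sub (sub (sub (sub (sub (sub (add (add (sub (add (add C x4653) x4657) x4667) x4625) x4697) x4715) x4499) x5147) x1745) x285) x2473)
  (sub (sub (sub (sub (sub (sub (sub (sub (sub C x4669) x4661) x4685) x4721) x4505) x5153) x1751) x291) x2479)
  (add (sub (sub (sub (sub (sub (add (add (sub C x4667) x4645) x4657) x4687) x4723) x4507) x5155) x1753) x2483)
  (sub (sub (sub (sub (sub (sub (sub (add (add (sub C x4677) x4685) x4697) x4637) x4781) x4511) x5159) x1757) x297) x2485)
  (add (sub (sub (sub (sub (sub (sub (sub C x4673) x4689) x4641) x4785) x4515) x5163) x1761) x305)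
  (sub (sub (sub (sub (sub (sub (sub (add (add (sub C x4687) x4673) x4697) x4667) x4793) x4523) x5171) x1769) x309) x2497)
  (add (sub (sub (sub (sub (sub (sub (sub C x4685) x4693) x4669) x4795) x4525) x5173) x1771) x2501)
  (add (sub (sub (sub (sub (add (add (sub (add (add C x4693) x4697) x4677) x4617) x4653) x4797) x4527) x5175) x1773) x317)
  (add (sub (sub (sub (sub (add (add (sub (add (add C x4689) x4697) x4687) x4621) x4657) x4801) x4531) x5179) x1777) x2507)
  (sub (sub (sub (sub (sub (sub (add (add (add (add (add (add C x4689) x4693) x4673) x4685) x4625) x4661) x4805) x4535) x5183) x1781) x321) x2509)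
  (add (sub (sub (add (add (sub (add (add (add (add (sub C x4701) x4711) x4723) x4735) x4771) x4645) x4375) x5023) x5185) x1783) x2513)
  (add (sub (sub (add (add (sub (add (add (sub (sub C x4699) x4707) x4737) x4773) x4647) x4377) x5025) x5187) x1785) x329)
  (add (sub (sub (add (add (sub (sub (sub (add (add C x4711) x4715) x4701) x4725) x4653) x4383) x5031) x5193) x1791) x335)
  (add (sub (sub (add (add (sub (sub (add (add (add (add C x4707) x4715) x4699) x4723) x4729) x4657) x4387) x5035) x5197) x1795) x2525)
  (sub (sub (sub (sub (add (add (sub (sub (sub (add (add C x4707) x4711) x4721) x4733) x4661) x4391) x5039) x5201) x1799) x339) x2527)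
  (sub (sub (sub (sub (add (add (sub (sub (sub (sub C x4723) x4715) x4757) x4667) x4397) x5045) x5207) x1805) x345) x2533)
  (add (sub (sub (add (add (sub (sub (add (add (sub C x4721) x4699) x4711) x4759) x4669) x4399) x5047) x5209) x1807) x2537)
  (add (sub (sub (add (add (add (add (sub (add (add (add (add C x4729) x4733) x4737) x4749) x4707) x4617) x4833) x4401) x5049) x5211) x1809) x353)
  (add (sub (sub (add (add (add (add (sub (sub (add (add C x4725) x4733) x4735) x4711) x4621) x4837) x4405) x5053) x5215) x1813) x2543)
  (sub (sub (sub (sub (add (add (add (add (sub (sub (add (add C x4725) x4729) x4745) x4715) x4625) x4841) x4409) x5057) x5219) x1817) x357) x2545)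
  (add (sub (sub (add (add (add (add (add (add (sub (sub C x4737) x4729) x4699) x4771) x4627) x4843) x4411) x5059) x5221) x1819) x2549)
  (add (sub (sub (add (add (add (add (add (add (add (add (sub C x4735) x4725) x4749) x4701) x4773) x4629) x4845) x4413) x5061) x5223) x1821) x365)
  (sub (sub (sub (sub (add (add (add (add (sub (sub (sub C x4749) x4733) x4763) x4637) x4853) x4421) x5069) x5231) x1829) x369) x2557)
  (add (sub (sub (add (add (add (add (sub (add (add (sub C x4745) x4725) x4737) x4767) x4641) x4857) x4425) x5073) x5235) x1833) x377)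
  (sub (sub (sub (sub (add (add (sub (sub (sub (sub C x4759) x4763) x4721) x4811) x4433) x5081) x5243) x1841) x381) x2569)
  (add (sub (sub (add (add (sub (sub (sub (sub C x4757) x4771) x4723) x4813) x4435) x5083) x5245) x1843) x2573)
  (sub (sub (sub (sub (add (add (sub (sub (sub (sub C x4767) x4757) x4745) x4817) x4439) x5087) x5249) x1847) x387) x2575)
  (add (sub (sub (add (add (sub (sub (sub (sub C x4763) x4773) x4749) x4821) x4443) x5091) x5253) x1851) x395)
  (add (sub (sub (add (add (sub (add (add (sub (sub C x4773) x4759) x4699) x4735) x4825) x4447) x5095) x5257) x1855) x2585)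
  (add (sub (sub (add (add (sub (add (add (sub (sub C x4771) x4767) x4701) x4737) x4827) x4449) x5097) x5259) x1857) x401)
  (sub (sub (sub (sub (sub (sub (add (add (add (add (sub C x4785) x4793) x4805) x4817) x4853) x4673) x4943) x5267) x1865) x405) x2593)
  (add (sub (sub (sub (sub (add (add (sub (sub C x4781) x4797) x4821) x4857) x4677) x4947) x5271) x1869) x413)
  (sub (sub (sub (sub (sub (sub (sub (add (add (sub C x4795) x4781) x4805) x4811) x4685) x4955) x5279) x1877) x417) x2605)
  (add (sub (sub (sub (sub (sub (sub (sub C x4793) x4801) x4813) x4687) x4957) x5281) x1879) x2609)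
  (add (sub (sub (sub (sub (sub (sub (add (add C x4801) x4805) x4785) x4833) x4689) x4959) x5283) x1881) x425)
  (add (sub (sub (sub (sub (sub (sub (add (add C x4797) x4805) x4795) x4837) x4693) x4963) x5287) x1885) x2615)
  (sub (sub (sub (sub (sub (sub (sub (add (add (add (add C x4797) x4801) x4781) x4793) x4841) x4697) x4967) x5291) x1889) x429) x2617)
  (sub (sub (sub (sub (sub (sub (sub (sub (sub C x4813) x4817) x4793) x4757) x4973) x5297) x1895) x435) x2623)
  (add (sub (sub (sub (sub (sub (sub (sub C x4811) x4825) x4795) x4759) x4975) x5299) x1897) x2627)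
  (sub (sub (sub (sub (sub (sub (add (add (sub (sub C x4821) x4811) x4781) x4853) x4763) x4979) x5303) x1901) x441) x2629)
  (add (sub (sub (sub (sub (add (add (sub (sub C x4817) x4827) x4785) x4857) x4767) x4983) x5307) x1905) x449)
  (add (sub (sub (sub (sub (sub (sub (sub C x4827) x4813) x4843) x4771) x4987) x5311) x1909) x2639)
  (add (sub (sub (sub (sub (sub (sub (sub C x4825) x4821) x4845) x4773) x4989) x5313) x1911) x455)
  (add (sub (sub (sub (add (add (sub (add (add (add (add C x4837) x4841) x4845) x4857) x4797) x4617) x4725) x4995) x5319) x1917) x461)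
  (add (sub (sub (sub (add (add (sub (sub (add (add C x4833) x4841) x4843) x4801) x4621) x4729) x4999) x5323) x1921) x2651)
  (sub (sub (sub (sub (sub (add (add (sub (sub (add (add C x4833) x4837) x4853) x4805) x4625) x4733) x5003) x5327) x1925) x465) x2653)
  (add (sub (sub (sub (add (add (sub (sub (sub C x4845) x4837) x4825) x4627) x4735) x5005) x5329) x1927) x2657)
  (add (sub (sub (sub (add (add (sub (add (add (sub C x4843) x4833) x4857) x4827) x4629) x4737) x5007) x5331) x1929) x473)
  (sub (sub (sub (sub (sub (add (add (add (add (sub (sub C x4857) x4841) x4781) x4817) x4637) x4745) x5015) x5339) x1937) x477) x2665)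
  (add (sub (sub (sub (add (add (add (add (add (add (sub C x4853) x4833) x4845) x4785) x4821) x4641) x4749) x5019) x5343) x1941) x485)
  (sub (sub (sub (sub (sub (add (add (add (add (sub (sub C x4867) x4871) x4901) x4937) x4973) x5081) x4541) x5837) x1949) x489) x2677)
  (add (sub (sub (sub (add (add (add (add (sub (sub C x4865) x4879) x4903) x4939) x4975) x5083) x4543) x5839) x1951) x2681)
  (sub (sub (sub (sub (sub (add (add (sub (sub (sub C x4875) x4865) x4889) x4979) x5087) x4547) x5843) x1955) x495) x2683)
  (add (sub (sub (sub (add (add (sub (sub (sub C x4871) x4881) x4893) x4983) x5091) x4551) x5847) x1959) x503)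
  (add (sub (sub (sub (add (add (sub (sub (sub C x4881) x4867) x4915) x4987) x5095) x4555) x5851) x1963) x2693)
  (add (sub (sub (sub (add (add (sub (sub (sub C x4879) x4875) x4917) x4989) x5097) x4557) x5853) x1965) x509)
  (sub (sub (sub (sub (sub (sub (sub (add (add (sub C x4893) x4901) x4913) x4871) x4943) x4565) x5861) x1973) x513) x2701)
  (add (sub (sub (sub (sub (sub (sub (sub C x4889) x4905) x4875) x4947) x4569) x5865) x1977) x521)
  (sub (sub (sub (sub (sub (sub (add (add (add (add (sub C x4903) x4889) x4913) x4865) x4937) x4955) x4577) x5873) x1985) x525) x2713)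
  (add (sub (sub (sub (sub (add (add (sub (sub C x4901) x4909) x4867) x4939) x4957) x4579) x5875) x1987) x2717)
  (add (sub (sub (sub (sub (sub (sub (add (add C x4909) x4913) x4893) x4923) x4959) x4581) x5877) x1989) x533)
  (add (sub (sub (sub (sub (sub (sub (add (add C x4905) x4913) x4903) x4927) x4963) x4585) x5881) x1993) x2723)
  (sub (sub (sub (sub (sub (sub (sub (add (add (add (add C x4905) x4909) x4889) x4901) x4931) x4967) x4589) x5885) x1997) x537) x2725)
  (add (sub (sub (sub (sub (sub (add (add (sub C x4917) x4927) x4939) x4879) x5023) x4591) x5887) x1999) x2729)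
  (add (sub (sub (sub (sub (sub (sub (sub C x4915) x4923) x4881) x5025) x4593) x5889) x2001) x545)
  (add (sub (sub (sub (sub (sub (sub (add (add C x4927) x4931) x4917) x4905) x5031) x4599) x5895) x2007) x551)
  (add (sub (sub (sub (sub (sub (add (add (add (add C x4923) x4931) x4915) x4939) x4909) x5035) x4603) x5899) x2011) x2741)
  (sub (sub (sub (sub (sub (sub (sub (sub (add (add C x4923) x4927) x4937) x4913) x5039) x4607) x5903) x2015) x555) x2743)
  (sub (sub (sub (sub (sub (sub (add (add (sub (sub C x4939) x4931) x4865) x4901) x5045) x4613) x5909) x2021) x561) x2749)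
  (add (sub (sub (sub (sub (add (add (add (add (sub C x4937) x4915) x4927) x4867) x4903) x5047) x4615) x5911) x2023) x2753)
  (sub (sub (sub (sub (sub (sub (add (add (add (add (sub C x4947) x4955) x4967) x4979) x5015) x4889) x4781) x5915) x2027) x567) x2755)
  (add (sub (sub (sub (sub (add (add (sub (sub C x4943) x4959) x4983) x5019) x4893) x4785) x5919) x2031) x575)
  (sub (sub (sub (sub (sub (sub (sub (add (add (sub C x4957) x4943) x4967) x4973) x4901) x4793) x5927) x2039) x579) x2767)
  (add (sub (sub (sub (sub (sub (sub (sub C x4955) x4963) x4975) x4903) x4795) x5929) x2041) x2771)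
  (add (sub (sub (sub (sub (sub (sub (add (add C x4963) x4967) x4947) x4995) x4905) x4797) x5931) x2043) x587)
  (add (sub (sub (sub (sub (sub (sub (add (add C x4959) x4967) x4957) x4999) x4909) x4801) x5935) x2047) x2777)
  (sub (sub (sub (sub (sub (sub (sub (add (add (add (add C x4959) x4963) x4943) x4955) x5003) x4913) x4805) x5939) x2051) x591) x2779)
  (sub (sub (sub (sub (sub (add (add (sub (sub (sub C x4975) x4979) x4955) x4865) x5081) x4811) x5945) x2057) x597) x2785)
  (add (sub (sub (sub (add (add (sub (sub (sub C x4973) x4987) x4957) x4867) x5083) x4813) x5947) x2059) x2789)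
  (sub (sub (sub (sub (sub (add (add (add (add (sub (sub C x4983) x4973) x4943) x5015) x4871) x5087) x4817) x5951) x2063) x603) x2791)
  (add (sub (sub (sub (add (add (add (add (sub (sub C x4979) x4989) x4947) x5019) x4875) x5091) x4821) x5955) x2067) x611)
  (add (sub (sub (sub (add (add (sub (sub (sub C x4989) x4975) x5005) x4879) x5095) x4825) x5959) x2071) x2801)
  (add (sub (sub (sub (add (add (sub (sub (sub C x4987) x4983) x5007) x4881) x5097) x4827) x5961) x2073) x617)
  (add (sub (sub (sub (sub (sub (add (add (add (add C x4999) x5003) x5007) x5019) x4959) x5049) x4833) x5967) x2079) x623)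
  (add (sub (sub (sub (sub (sub (sub (add (add C x4995) x5003) x5005) x4963) x5053) x4837) x5971) x2083) x2813)
  (sub (sub (sub (sub (sub (sub (sub (sub (add (add C x4995) x4999) x5015) x4967) x5057) x4841) x5975) x2087) x627) x2815)
  (add (sub (sub (sub (sub (sub (sub (sub C x5007) x4999) x4987) x5059) x4843) x5977) x2089) x2819)
  (add (sub (sub (sub (sub (sub (add (add (sub C x5005) x4995) x5019) x4989) x5061) x4845) x5979) x2091) x635)
  (sub (sub (sub (sub (sub (sub (add (add (sub (sub C x5019) x5003) x4943) x4979) x5069) x4853) x5987) x2099) x639) x2827)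
  (add (sub (sub (sub (sub (add (add (add (add (sub C x5015) x4995) x5007) x4947) x4983) x5073) x4857) x5991) x2103) x647)
  (add (sub (sub (add (add (sub (add (add (add (add (sub C x5025) x5035) x5047) x5059) x5095) x4915) x4375) x4699) x5995) x2107) x2837)
  (add (sub (sub (add (add (sub (add (add (sub (sub C x5023) x5031) x5061) x5097) x4917) x4377) x4701) x5997) x2109) x653)
  (add (sub (sub (add (add (sub (sub (sub (add (add C x5035) x5039) x5025) x5049) x4923) x4383) x4707) x6003) x2115) x659)
  (add (sub (sub (add (add (sub (sub (add (add (add (add C x5031) x5039) x5023) x5047) x5053) x4927) x4387) x4711) x6007) x2119) x2849)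
  (sub (sub (sub (sub (add (add (sub (sub (sub (add (add C x5031) x5035) x5045) x5057) x4931) x4391) x4715) x6011) x2123) x663) x2851)
  (sub (sub (sub (sub (add (add (sub (sub (sub (sub C x5047) x5039) x5081) x4937) x4397) x4721) x6017) x2129) x669) x2857)
  (add (sub (sub (add (add (sub (sub (add (add (sub C x5045) x5023) x5035) x5083) x4939) x4399) x4723) x6019) x2131) x2861)
  (add (sub (sub (add (add (sub (sub (add (add (add (add C x5053) x5057) x5061) x5073) x5031) x4995) x4401) x4725) x6021) x2133) x677)
  (add (sub (sub (add (add (sub (sub (sub (add (add C x5049) x5057) x5059) x5035) x4999) x4405) x4729) x6025) x2137) x2867)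
  (sub (sub (sub (sub (add (add (sub (sub (sub (add (add C x5049) x5053) x5069) x5039) x5003) x4409) x4733) x6029) x2141) x681) x2869)
  (add (sub (sub (add (add (sub (add (add (sub (sub C x5061) x5053) x5023) x5095) x5005) x4411) x4735) x6031) x2143) x2873)
  (add (sub (sub (add (add (sub (add (add (add (add (sub C x5059) x5049) x5073) x5025) x5097) x5007) x4413) x4737) x6033) x2145) x689)
  (sub (sub (sub (sub (add (add (sub (sub (sub (sub C x5073) x5057) x5087) x5015) x4421) x4745) x6041) x2153) x693) x2881)
  (add (sub (sub (add (add (sub (sub (add (add (sub C x5069) x5049) x5061) x5091) x5019) x4425) x4749) x6045) x2157) x701)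
  (sub (sub (sub (sub (add (add (add (add (sub (sub (sub C x5083) x5087) x5045) x4865) x4973) x4433) x4757) x6053) x2165) x705) x2893)
  (add (sub (sub (add (add (add (add (sub (sub (sub C x5081) x5095) x5047) x4867) x4975) x4435) x4759) x6055) x2167) x2897)
  (sub (sub (sub (sub (add (add (add (add (sub (sub (sub C x5091) x5081) x5069) x4871) x4979) x4439) x4763) x6059) x2171) x711) x2899)
  (add (sub (sub (add (add (add (add (sub (sub (sub C x5087) x5097) x5073) x4875) x4983) x4443) x4767) x6063) x2175) x719)
  (add (sub (sub (add (add (add (add (add (add (sub (sub C x5097) x5083) x5023) x5059) x4879) x4987) x4447) x4771) x6067) x2179) x2909)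
  (add (sub (sub (add (add (add (add (add (add (sub (sub C x5095) x5091) x5025) x5061) x4881) x4989) x4449) x4773) x6069) x2181) x725)
  (add (sub (sub (add (add (add (add (add (add (add (add (add (add C x5107) x5111) x5115) x5127) x5139) x5175) x5211) x5319) x5427) x5751) x4617) x3645) x731)
  (add (sub (sub (add (add (add (add (add (add (sub (add (add C x5103) x5111) x5113) x5143) x5179) x5215) x5323) x5431) x5755) x4621) x3649) x2921)
  (sub (sub (sub (sub (add (add (add (add (add (add (sub (add (add C x5103) x5107) x5123) x5147) x5183) x5219) x5327) x5435) x5759) x4625) x3653) x735) x2923)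
  (add (sub (sub (add (add (add (add (sub (sub (sub C x5115) x5107) x5131) x5221) x5329) x5437) x5761) x4627) x3655) x2927)
  (add (sub (sub (add (add (add (add (sub (add (add (sub C x5113) x5103) x5127) x5133) x5223) x5331) x5439) x5763) x4629) x3657) x743)
  (sub (sub (sub (sub (add (add (add (add (sub (sub (sub C x5127) x5111) x5159) x5231) x5339) x5447) x5771) x4637) x3665) x747) x2935)
  (add (sub (sub (add (add (add (add (sub (add (add (sub C x5123) x5103) x5115) x5163) x5235) x5343) x5451) x5775) x4641) x3669) x755)
  (add (sub (sub (add (add (sub (sub (add (add (sub C x5133) x5143) x5155) x5113) x5185) x5455) x5779) x4645) x3673) x2945)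
  (add (sub (sub (add (add (sub (sub (sub (sub C x5131) x5139) x5115) x5187) x5457) x5781) x4647) x3675) x761)
  (add (sub (sub (add (add (sub (add (add (sub (add (add C x5143) x5147) x5133) x5103) x5175) x5193) x5463) x5787) x4653) x3681) x767)
  (add (sub (sub (add (add (sub (add (add (add (add (add (add C x5139) x5147) x5131) x5155) x5107) x5179) x5197) x5467) x5791) x4657) x3685) x2957)
  (sub (sub (sub (sub (add (add (sub (add (add (sub (add (add C x5139) x5143) x5153) x5111) x5183) x5201) x5471) x5795) x4661) x3689) x771) x2959)
  (sub (sub (sub (sub (add (add (sub (sub (sub (sub C x5155) x5147) x5171) x5207) x5477) x5801) x4667) x3695) x777) x2965)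
  (add (sub (sub (add (add (sub (sub (add (add (sub C x5153) x5131) x5143) x5173) x5209) x5479) x5803) x4669) x3697) x2969)
  (sub (sub (sub (sub (add (add (sub (sub (add (add (sub C x5163) x5171) x5183) x5123) x5267) x5483) x5807) x4673) x3701) x783) x2971)
  (add (sub (sub (add (add (sub (sub (sub (sub C x5159) x5175) x5127) x5271) x5487) x5811) x4677) x3705) x791)
  (sub (sub (sub (sub (add (add (sub (sub (add (add (sub C x5173) x5159) x5183) x5153) x5279) x5495) x5819) x4685) x3713) x795) x2983)
  (add (sub (sub (add (add (sub (sub (sub (sub C x5171) x5179) x5155) x5281) x5497) x5821) x4687) x3715) x2987)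
  (add (sub (sub (add (add (sub (add (add (sub (add (add C x5179) x5183) x5163) x5103) x5139) x5283) x5499) x5823) x4689) x3717) x803)
  (add (sub (sub (add (add (sub (add (add (sub (add (add C x5175) x5183) x5173) x5107) x5143) x5287) x5503) x5827) x4693) x3721) x2993)
  (sub (sub (sub (sub (add (add (sub (add (add (add (add (add (add C x5175) x5179) x5159) x5171) x5111) x5147) x5291) x5507) x5831) x4697) x3725) x807) x2995)
  (add (sub (sub (sub (sub (add (add (add (add (sub C x5187) x5197) x5209) x5221) x5257) x5131) x5347) x4699) x3727) x2999)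
  (add (sub (sub (sub (sub (add (add (sub (sub C x5185) x5193) x5223) x5259) x5133) x5349) x4701) x3729) x815)
  (add (sub (sub (sub (sub (sub (sub (add (add C x5197) x5201) x5187) x5211) x5139) x5355) x4707) x3735) x821)
  (add (sub (sub (sub (sub (sub (add (add (add (add C x5193) x5201) x5185) x5209) x5215) x5143) x5359) x4711) x3739) x3011)
  (sub (sub (sub (sub (sub (sub (sub (sub (add (add C x5193) x5197) x5207) x5219) x5147) x5363) x4715) x3743) x825) x3013)
  (sub (sub (sub (sub (sub (sub (sub (sub (sub C x5209) x5201) x5243) x5153) x5369) x4721) x3749) x831) x3019)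
  (add (sub (sub (sub (sub (sub (add (add (sub C x5207) x5185) x5197) x5245) x5155) x5371) x4723) x3751) x3023)
  (add (sub (sub (sub (add (add (sub (add (add (add (add C x5215) x5219) x5223) x5235) x5193) x5103) x5319) x5373) x4725) x3753) x839)
  (add (sub (sub (sub (add (add (sub (sub (add (add C x5211) x5219) x5221) x5197) x5107) x5323) x5377) x4729) x3757) x3029)
  (sub (sub (sub (sub (sub (add (add (sub (sub (add (add C x5211) x5215) x5231) x5201) x5111) x5327) x5381) x4733) x3761) x843) x3031)
  (add (sub (sub (sub (add (add (add (add (sub (sub C x5223) x5215) x5185) x5257) x5113) x5329) x5383) x4735) x3763) x3035)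
  (add (sub (sub (sub (add (add (add (add (add (add (sub C x5221) x5211) x5235) x5187) x5259) x5115) x5331) x5385) x4737) x3765) x851)
  (sub (sub (sub (sub (sub (add (add (sub (sub (sub C x5235) x5219) x5249) x5123) x5339) x5393) x4745) x3773) x855) x3043)
  (add (sub (sub (sub (add (add (sub (add (add (sub C x5231) x5211) x5223) x5253) x5127) x5343) x5397) x4749) x3777) x863)
  (sub (sub (sub (sub (sub (sub (sub (sub (sub C x5245) x5249) x5207) x5297) x5405) x4757) x3785) x867) x3055)
  (add (sub (sub (sub (sub (sub (sub (sub C x5243) x5257) x5209) x5299) x5407) x4759) x3787) x3059)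
  (sub (sub (sub (sub (sub (sub (sub (sub (sub C x5253) x5243) x5231) x5303) x5411) x4763) x3791) x873) x3061)
  (add (sub (sub (sub (sub (sub (sub (sub C x5249) x5259) x5235) x5307) x5415) x4767) x3795) x881)
  (add (sub (sub (sub (sub (add (add (sub (sub C x5259) x5245) x5185) x5221) x5311) x5419) x4771) x3799) x3071)
  (add (sub (sub (sub (sub (add (add (sub (sub C x5257) x5253) x5187) x5223) x5313) x5421) x4773) x3801) x887)
  (sub (sub (sub (sub (sub (sub (add (add (add (add (sub C x5271) x5279) x5291) x5303) x5339) x5159) x5591) x4781) x3809) x891) x3079)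
  (add (sub (sub (sub (sub (add (add (sub (sub C x5267) x5283) x5307) x5343) x5163) x5595) x4785) x3813) x899)
  (sub (sub (sub (sub (sub (sub (sub (add (add (sub C x5281) x5267) x5291) x5297) x5171) x5603) x4793) x3821) x903) x3091)
  (add (sub (sub (sub (sub (sub (sub (sub C x5279) x5287) x5299) x5173) x5605) x4795) x3823) x3095)
  (add (sub (sub (sub (sub (sub (sub (add (add C x5287) x5291) x5271) x5319) x5175) x5607) x4797) x3825) x911)
  (add (sub (sub (sub (sub (sub (sub (add (add C x5283) x5291) x5281) x5323) x5179) x5611) x4801) x3829) x3101)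
  (sub (sub (sub (sub (sub (sub (sub (add (add (add (add C x5283) x5287) x5267) x5279) x5327) x5183) x5615) x4805) x3833) x915) x3103)
  (sub (sub (sub (sub (sub (sub (sub (sub (sub C x5299) x5303) x5279) x5243) x5621) x4811) x3839) x921) x3109)
  (add (sub (sub (sub (sub (sub (sub (sub C x5297) x5311) x5281) x5245) x5623) x4813) x3841) x3113)
  (sub (sub (sub (sub (sub (sub (add (add (sub (sub C x5307) x5297) x5267) x5339) x5249) x5627) x4817) x3845) x927) x3115)
  (add (sub (sub (sub (sub (add (add (sub (sub C x5303) x5313) x5271) x5343) x5253) x5631) x4821) x3849) x935)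
  (add (sub (sub (sub (sub (sub (sub (sub C x5313) x5299) x5329) x5257) x5635) x4825) x3853) x3125)
  (add (sub (sub (sub (sub (sub (sub (sub C x5311) x5307) x5331) x5259) x5637) x4827) x3855) x941)
  (add (sub (sub (sub (add (add (sub (add (add (add (add C x5323) x5327) x5331) x5343) x5283) x5103) x5211) x5643) x4833) x3861) x947)
  (add (sub (sub (sub (add (add (sub (sub (add (add C x5319) x5327) x5329) x5287) x5107) x5215) x5647) x4837) x3865) x3137)
  (sub (sub (sub (sub (sub (add (add (sub (sub (add (add C x5319) x5323) x5339) x5291) x5111) x5219) x5651) x4841) x3869) x951) x3139)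
  (add (sub (sub (sub (add (add (sub (sub (sub C x5331) x5323) x5311) x5113) x5221) x5653) x4843) x3871) x3143)
  (add (sub (sub (sub (add (add (sub (add (add (sub C x5329) x5319) x5343) x5313) x5115) x5223) x5655) x4845) x3873) x959)
  (sub (sub (sub (sub (sub (add (add (add (add (sub (sub C x5343) x5327) x5267) x5303) x5123) x5231) x5663) x4853) x3881) x963) x3151)
  (add (sub (sub (sub (add (add (add (add (add (add (sub C x5339) x5319) x5331) x5271) x5307) x5127) x5235) x5667) x4857) x3885) x971)
  (add (sub (add (add (sub (add (add (add (add (add (add (sub C x5349) x5359) x5371) x5383) x5419) x5455) x5563) x5185) x4375) x6319) x3889) x3161)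
  (add (sub (add (add (sub (add (add (add (add (sub (sub C x5347) x5355) x5385) x5421) x5457) x5565) x5187) x4377) x6321) x3891) x977)
  (add (sub (add (add (sub (add (add (sub (sub (add (add C x5359) x5363) x5349) x5373) x5463) x5571) x5193) x4383) x6327) x3897) x983)
  (add (sub (add (add (sub (add (add (sub (add (add (add (add C x5355) x5363) x5347) x5371) x5377) x5467) x5575) x5197) x4387) x6331) x3901) x3173)
  (sub (sub (sub (add (add (sub (add (add (sub (sub (add (add C x5355) x5359) x5369) x5381) x5471) x5579) x5201) x4391) x6335) x3905) x987) x3175)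
  (sub (sub (sub (add (add (sub (add (add (sub (sub (sub C x5371) x5363) x5405) x5477) x5585) x5207) x4397) x6341) x3911) x993) x3181)
  (add (sub (add (add (sub (add (add (sub (add (add (sub C x5369) x5347) x5359) x5407) x5479) x5587) x5209) x4399) x6343) x3913) x3185)
  (add (sub (add (add (sub (sub (sub (add (add (add (add C x5377) x5381) x5385) x5397) x5355) x5427) x5211) x4401) x6345) x3915) x1001)
  (add (sub (add (add (sub (sub (sub (sub (add (add C x5373) x5381) x5383) x5359) x5431) x5215) x4405) x6349) x3919) x3191)
  (sub (sub (sub (add (add (sub (sub (sub (sub (add (add C x5373) x5377) x5393) x5363) x5435) x5219) x4409) x6353) x3923) x1005) x3193)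
  (add (sub (add (add (sub (sub (add (add (sub (sub C x5385) x5377) x5347) x5419) x5437) x5221) x4411) x6355) x3925) x3197)
  (add (sub (add (add (sub (sub (add (add (add (add (sub C x5383) x5373) x5397) x5349) x5421) x5439) x5223) x4413) x6357) x3927) x1013)
  (sub (sub (sub (add (add (sub (sub (sub (sub (sub C x5397) x5381) x5411) x5447) x5231) x4421) x6365) x3935) x1017) x3205)
  (add (sub (add (add (sub (sub (sub (add (add (sub C x5393) x5373) x5385) x5415) x5451) x5235) x4425) x6369) x3939) x1025)
  (sub (sub (sub (add (add (sub (sub (sub (sub (sub C x5407) x5411) x5369) x5513) x5243) x4433) x6377) x3947) x1029) x3217)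
  (add (sub (add (add (sub (sub (sub (sub (sub C x5405) x5419) x5371) x5515) x5245) x4435) x6379) x3949) x3221)
  (sub (sub (sub (add (add (sub (sub (sub (sub (sub C x5415) x5405) x5393) x5519) x5249) x4439) x6383) x3953) x1035) x3223)
  (add (sub (add (add (sub (sub (sub (sub (sub C x5411) x5421) x5397) x5523) x5253) x4443) x6387) x3957) x1043)
  (add (sub (add (add (sub (sub (add (add (sub (sub C x5421) x5407) x5347) x5383) x5527) x5257) x4447) x6391) x3961) x3233)
  (add (sub (add (add (sub (sub (add (add (sub (sub C x5419) x5415) x5349) x5385) x5529) x5259) x4449) x6393) x3963) x1049)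
  (add (sub (add (add (add (add (sub (add (add (add (add (add (add C x5431) x5435) x5439) x5451) x5463) x5499) x5373) x5103) x5751) x4455) x6399) x3969) x1055)
  (add (sub (add (add (add (add (sub (add (add (sub (add (add C x5427) x5435) x5437) x5467) x5503) x5377) x5107) x5755) x4459) x6403) x3973) x3245)
  (sub (sub (sub (add (add (add (add (sub (add (add (sub (add (add C x5427) x5431) x5447) x5471) x5507) x5381) x5111) x5759) x4463) x6407) x3977) x1059) x3247)
  (add (sub (add (add (add (add (sub (sub (sub (sub C x5439) x5431) x5455) x5383) x5113) x5761) x4465) x6409) x3979) x3251)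
  (add (sub (add (add (add (add (sub (sub (add (add (sub C x5437) x5427) x5451) x5457) x5385) x5115) x5763) x4467) x6411) x3981) x1067)
  (sub (sub (sub (add (add (add (add (sub (sub (sub (sub C x5451) x5435) x5483) x5393) x5123) x5771) x4475) x6419) x3989) x1071) x3259)
  (add (sub (add (add (add (add (sub (sub (add (add (sub C x5447) x5427) x5439) x5487) x5397) x5127) x5775) x4479) x6423) x3993) x1079)
  (add (sub (add (add (add (add (add (add (sub (add (add (sub C x5457) x5467) x5479) x5437) x5347) x5563) x5131) x5779) x4483) x6427) x3997) x3269)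
  (add (sub (add (add (add (add (add (add (sub (sub (sub C x5455) x5463) x5439) x5349) x5565) x5133) x5781) x4485) x6429) x3999) x1085)
  (add (sub (add (add (add (add (add (add (add (add (sub (add (add C x5467) x5471) x5457) x5427) x5499) x5355) x5571) x5139) x5787) x4491) x6435) x4005) x1091)
  (add (sub (add (add (add (add (add (add (add (add (add (add (add (add C x5463) x5471) x5455) x5479) x5431) x5503) x5359) x5575) x5143) x5791) x4495) x6439) x4009) x3281)
  (sub (sub (sub (add (add (add (add (add (add (add (add (sub (add (add C x5463) x5467) x5477) x5435) x5507) x5363) x5579) x5147) x5795) x4499) x6443) x4013) x1095) x3283)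
  (sub (sub (sub (add (add (add (add (add (add (sub (sub (sub C x5479) x5471) x5495) x5369) x5585) x5153) x5801) x4505) x6449) x4019) x1101) x3289)
  (add (sub (add (add (add (add (add (add (sub (add (add (sub C x5477) x5455) x5467) x5497) x5371) x5587) x5155) x5803) x4507) x6451) x4021) x3293)
  (sub (sub (sub (add (add (add (add (sub (sub (add (add (sub C x5487) x5495) x5507) x5447) x5537) x5159) x5807) x4511) x6455) x4025) x1107) x3295)
  (add (sub (add (add (add (add (sub (sub (sub (sub C x5483) x5499) x5451) x5541) x5163) x5811) x4515) x6459) x4029) x1115)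
  (sub (sub (sub (add (add (add (add (sub (sub (add (add (sub C x5497) x5483) x5507) x5477) x5549) x5171) x5819) x4523) x6467) x4037) x1119) x3307)
  (add (sub (add (add (add (add (sub (sub (sub (sub C x5495) x5503) x5479) x5551) x5173) x5821) x4525) x6469) x4039) x3311)
  (add (sub (add (add (add (add (sub (add (add (sub (add (add C x5503) x5507) x5487) x5427) x5463) x5553) x5175) x5823) x4527) x6471) x4041) x1127)
  (add (sub (add (add (add (add (sub (add (add (sub (add (add C x5499) x5507) x5497) x5431) x5467) x5557) x5179) x5827) x4531) x6475) x4045) x3317)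
  (sub (sub (sub (add (add (add (add (sub (add (add (add (add (add (add C x5499) x5503) x5483) x5495) x5435) x5471) x5561) x5183) x5831) x4535) x6479) x4049) x1131) x3319)
  (sub (sub (sub (add (add (sub (sub (add (add (sub (sub C x5515) x5519) x5549) x5585) x5405) x5675) x4541) x6485) x4055) x1137) x3325)
  (add (sub (add (add (sub (sub (add (add (sub (sub C x5513) x5527) x5551) x5587) x5407) x5677) x4543) x6487) x4057) x3329)
  (sub (sub (sub (add (add (sub (sub (sub (sub (sub C x5523) x5513) x5537) x5411) x5681) x4547) x6491) x4061) x1143) x3331)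
  (add (sub (add (add (sub (sub (sub (sub (sub C x5519) x5529) x5541) x5415) x5685) x4551) x6495) x4065) x1151)
  (add (sub (add (add (sub (sub (sub (sub (sub C x5529) x5515) x5563) x5419) x5689) x4555) x6499) x4069) x3341)
  (add (sub (add (add (sub (sub (sub (sub (sub C x5527) x5523) x5565) x5421) x5691) x4557) x6501) x4071) x1157)
  (sub (sub (sub (add (add (sub (sub (sub (add (add (sub C x5541) x5549) x5561) x5519) x5483) x5699) x4565) x6509) x4079) x1161) x3349)
  (add (sub (add (add (sub (sub (sub (sub (sub C x5537) x5553) x5523) x5487) x5703) x4569) x6513) x4083) x1169)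
  (sub (sub (sub (add (add (sub (sub (add (add (add (add (sub C x5551) x5537) x5561) x5513) x5585) x5495) x5711) x4577) x6521) x4091) x1173) x3361)
  (add (sub (add (add (sub (sub (add (add (sub (sub C x5549) x5557) x5515) x5587) x5497) x5713) x4579) x6523) x4093) x3365)
  (add (sub (add (add (sub (sub (sub (sub (add (add C x5557) x5561) x5541) x5571) x5499) x5715) x4581) x6525) x4095) x1181)
  (add (sub (add (add (sub (sub (sub (sub (add (add C x5553) x5561) x5551) x5575) x5503) x5719) x4585) x6529) x4099) x3371)
  (sub (sub (sub (add (add (sub (sub (sub (add (add (add (add C x5553) x5557) x5537) x5549) x5579) x5507) x5723) x4589) x6533) x4103) x1185) x3373)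
  (add (sub (add (add (sub (add (add (sub (add (add (sub C x5565) x5575) x5587) x5527) x5347) x5455) x5725) x4591) x6535) x4105) x3377)
  (add (sub (add (add (sub (add (add (sub (sub (sub C x5563) x5571) x5529) x5349) x5457) x5727) x4593) x6537) x4107) x1193)
  (add (sub (add (add (sub (add (add (sub (sub (add (add C x5575) x5579) x5565) x5553) x5355) x5463) x5733) x4599) x6543) x4113) x1199)
  (add (sub (add (add (sub (add (add (sub (add (add (add (add C x5571) x5579) x5563) x5587) x5557) x5359) x5467) x5737) x4603) x6547) x4117) x3389)
  (sub (sub (sub (add (add (sub (add (add (sub (sub (add (add C x5571) x5575) x5585) x5561) x5363) x5471) x5741) x4607) x6551) x4121) x1203) x3391)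
  (sub (sub (sub (add (add (sub (add (add (add (add (sub (sub C x5587) x5579) x5513) x5549) x5369) x5477) x5747) x4613) x6557) x4127) x1209) x3397)
  (add (sub (add (add (sub (add (add (add (add (add (add (sub C x5585) x5563) x5575) x5515) x5551) x5371) x5479) x5749) x4615) x6559) x4129) x3401)
  (sub (sub (sub (sub (sub (add (add (add (add (add (add (sub C x5595) x5603) x5615) x5627) x5663) x5699) x5807) x5267) x6077) x4133) x1215) x3403)
  (add (sub (sub (sub (add (add (add (add (sub (sub C x5591) x5607) x5631) x5667) x5703) x5811) x5271) x6081) x4137) x1223)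
  (sub (sub (sub (sub (sub (add (add (sub (add (add (sub C x5605) x5591) x5615) x5621) x5711) x5819) x5279) x6089) x4145) x1227) x3415)
  (add (sub (sub (sub (add (add (sub (sub (sub C x5603) x5611) x5623) x5713) x5821) x5281) x6091) x4147) x3419)
  (add (sub (sub (sub (add (add (sub (sub (add (add C x5611) x5615) x5595) x5643) x5715) x5823) x5283) x6093) x4149) x1235)
  (add (sub (sub (sub (add (add (sub (sub (add (add C x5607) x5615) x5605) x5647) x5719) x5827) x5287) x6097) x4153) x3425)
  (sub (sub (sub (sub (sub (add (add (sub (add (add (add (add C x5607) x5611) x5591) x5603) x5651) x5723) x5831) x5291) x6101) x4157) x1239) x3427)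
  (sub (sub (sub (sub (sub (sub (sub (sub (sub C x5623) x5627) x5603) x5675) x5297) x6107) x4163) x1245) x3433)
  (add (sub (sub (sub (sub (sub (sub (sub C x5621) x5635) x5605) x5677) x5299) x6109) x4165) x3437)
  (sub (sub (sub (sub (sub (sub (add (add (sub (sub C x5631) x5621) x5591) x5663) x5681) x5303) x6113) x4169) x1251) x3439)
  (add (sub (sub (sub (sub (add (add (sub (sub C x5627) x5637) x5595) x5667) x5685) x5307) x6117) x4173) x1259)
  (add (sub (sub (sub (sub (sub (sub (sub C x5637) x5623) x5653) x5689) x5311) x6121) x4177) x3449)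
  (add (sub (sub (sub (sub (sub (sub (sub C x5635) x5631) x5655) x5691) x5313) x6123) x4179) x1265)
  (add (sub (sub (sub (sub (sub (add (add (add (add C x5647) x5651) x5655) x5667) x5607) x5751) x5319) x6129) x4185) x1271)
  (add (sub (sub (sub (sub (sub (sub (add (add C x5643) x5651) x5653) x5611) x5755) x5323) x6133) x4189) x3461)
  (sub (sub (sub (sub (sub (sub (sub (sub (add (add C x5643) x5647) x5663) x5615) x5759) x5327) x6137) x4193) x1275) x3463)
  (add (sub (sub (sub (sub (sub (sub (sub C x5655) x5647) x5635) x5761) x5329) x6139) x4195) x3467)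
  (add (sub (sub (sub (sub (sub (add (add (sub C x5653) x5643) x5667) x5637) x5763) x5331) x6141) x4197) x1283)
  (sub (sub (sub (sub (sub (sub (add (add (sub (sub C x5667) x5651) x5591) x5627) x5771) x5339) x6149) x4205) x1287) x3475)
  (add (sub (sub (sub (sub (add (add (add (add (sub C x5663) x5643) x5655) x5595) x5631) x5775) x5343) x6153) x4209) x1295)
  (sub (sub (sub (sub (sub (sub (add (add (sub (sub C x5677) x5681) x5711) x5747) x5621) x5513) x6161) x4217) x1299) x3487)
  (add (sub (sub (sub (sub (add (add (sub (sub C x5675) x5689) x5713) x5749) x5623) x5515) x6163) x4219) x3491)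
  (sub (sub (sub (sub (sub (sub (sub (sub (sub C x5685) x5675) x5699) x5627) x5519) x6167) x4223) x1305) x3493)
  (add (sub (sub (sub (sub (sub (sub (sub C x5681) x5691) x5703) x5631) x5523) x6171) x4227) x1313)
  (add (sub (sub (sub (sub (sub (sub (sub C x5691) x5677) x5725) x5635) x5527) x6175) x4231) x3503)
  (add (sub (sub (sub (sub (sub (sub (sub C x5689) x5685) x5727) x5637) x5529) x6177) x4233) x1319)
  (sub (sub (sub (sub (sub (add (add (sub (add (add (sub C x5703) x5711) x5723) x5681) x5591) x5807) x5537) x6185) x4241) x1323) x3511)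
  (add (sub (sub (sub (add (add (sub (sub (sub C x5699) x5715) x5685) x5595) x5811) x5541) x6189) x4245) x1331)
  (sub (sub (sub (sub (sub (add (add (add (add (add (add (sub C x5713) x5699) x5723) x5675) x5747) x5603) x5819) x5549) x6197) x4253) x1335) x3523)
  (add (sub (sub (sub (add (add (add (add (sub (sub C x5711) x5719) x5677) x5749) x5605) x5821) x5551) x6199) x4255) x3527)
  (add (sub (sub (sub (add (add (sub (sub (add (add C x5719) x5723) x5703) x5733) x5607) x5823) x5553) x6201) x4257) x1343)
  (add (sub (sub (sub (add (add (sub (sub (add (add C x5715) x5723) x5713) x5737) x5611) x5827) x5557) x6205) x4261) x3533)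
  (sub (sub (sub (sub (sub (add (add (sub (add (add (add (add C x5715) x5719) x5699) x5711) x5741) x5615) x5831) x5561) x6209) x4265) x1347) x3535)
  (add (sub (sub (sub (sub (sub (add (add (sub C x5727) x5737) x5749) x5689) x5779) x5563) x6211) x4267) x3539)
  (add (sub (sub (sub (sub (sub (sub (sub C x5725) x5733) x5691) x5781) x5565) x6213) x4269) x1355)
  (add (sub (sub (sub (sub (sub (sub (add (add C x5737) x5741) x5727) x5715) x5787) x5571) x6219) x4275) x1361)
  (add (sub (sub (sub (sub (sub (add (add (add (add C x5733) x5741) x5725) x5749) x5719) x5791) x5575) x6223) x4279) x3551)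
  (sub (sub (sub (sub (sub (sub (sub (sub (add (add C x5733) x5737) x5747) x5723) x5795) x5579) x6227) x4283) x1365) x3553)
  (sub (sub (sub (sub (sub (sub (add (add (sub (sub C x5749) x5741) x5675) x5711) x5801) x5585) x6233) x4289) x1371) x3559)
  (add (sub (sub (sub (sub (add (add (add (add (sub C x5747) x5725) x5737) x5677) x5713) x5803) x5587) x6235) x4291) x3563)
  (add (sub (sub (add (add (sub (add (add (add (add (add (add C x5755) x5759) x5763) x5775) x5787) x5823) x5643) x5103) x5427) x6237) x4293) x1379)
  (add (sub (sub (add (add (sub (add (add (sub (add (add C x5751) x5759) x5761) x5791) x5827) x5647) x5107) x5431) x6241) x4297) x3569)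
  (sub (sub (sub (sub (add (add (sub (add (add (sub (add (add C x5751) x5755) x5771) x5795) x5831) x5651) x5111) x5435) x6245) x4301) x1383) x3571)
  (add (sub (sub (add (add (sub (sub (sub (sub C x5763) x5755) x5779) x5653) x5113) x5437) x6247) x4303) x3575)
  (add (sub (sub (add (add (sub (sub (add (add (sub C x5761) x5751) x5775) x5781) x5655) x5115) x5439) x6249) x4305) x1391)
  (sub (sub (sub (sub (add (add (sub (sub (sub (sub C x5775) x5759) x5807) x5663) x5123) x5447) x6257) x4313) x1395) x3583)
  (add (sub (sub (add (add (sub (sub (add (add (sub C x5771) x5751) x5763) x5811) x5667) x5127) x5451) x6261) x4317) x1403)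
  (add (sub (sub (add (add (sub (sub (add (add (sub C x5781) x5791) x5803) x5761) x5725) x5131) x5455) x6265) x4321) x3593)
  (add (sub (sub (add (add (sub (sub (sub (sub C x5779) x5787) x5763) x5727) x5133) x5457) x6267) x4323) x1409)
  (add (sub (sub (add (add (sub (add (add (sub (add (add C x5791) x5795) x5781) x5751) x5823) x5733) x5139) x5463) x6273) x4329) x1415)
  (add (sub (sub (add (add (sub (add (add (add (add (add (add C x5787) x5795) x5779) x5803) x5755) x5827) x5737) x5143) x5467) x6277) x4333) x3605)
  (sub (sub (sub (sub (add (add (sub (add (add (sub (add (add C x5787) x5791) x5801) x5759) x5831) x5741) x5147) x5471) x6281) x4337) x1419) x3607)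
  (sub (sub (sub (sub (add (add (sub (sub (sub (sub C x5803) x5795) x5819) x5747) x5153) x5477) x6287) x4343) x1425) x3613)
  (add (sub (sub (add (add (sub (sub (add (add (sub C x5801) x5779) x5791) x5821) x5749) x5155) x5479) x6289) x4345) x3617)
  (sub (sub (sub (sub (add (add (add (add (sub (add (add (sub C x5811) x5819) x5831) x5771) x5591) x5699) x5159) x5483) x6293) x4349) x1431) x3619)
  (add (sub (sub (add (add (add (add (sub (sub (sub C x5807) x5823) x5775) x5595) x5703) x5163) x5487) x6297) x4353) x1439)
  (sub (sub (sub (sub (add (add (add (add (sub (add (add (sub C x5821) x5807) x5831) x5801) x5603) x5711) x5171) x5495) x6305) x4361) x1443) x3631)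
  (add (sub (sub (add (add (add (add (sub (sub (sub C x5819) x5827) x5803) x5605) x5713) x5173) x5497) x6307) x4363) x3635)
  (add (sub (sub (add (add (add (add (add (add (sub (add (add C x5827) x5831) x5811) x5751) x5787) x5607) x5715) x5175) x5499) x6309) x4365) x1451)
  (add (sub (sub (add (add (add (add (add (add (sub (add (add C x5823) x5831) x5821) x5755) x5791) x5611) x5719) x5179) x5503) x6313) x4369) x3641)
  (sub (sub (sub (sub (add (add (add (add (add (add (add (add (add (add C x5823) x5827) x5807) x5819) x5759) x5795) x5615) x5723) x5183) x5507) x6317) x4373) x1455) x3643)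
  (sub (sub (add (add (sub (add (add (add (add (add (add (sub (sub C x5839) x5843) x5873) x5909) x5945) x6053) x6161) x6485) x4865) x5) x2921) x1461) x3649)
  (add (add (add (sub (add (add (add (add (add (add (sub (sub C x5837) x5851) x5875) x5911) x5947) x6055) x6163) x6487) x4867) x7) x2923) x3653)
  (sub (sub (add (add (sub (add (add (add (add (sub (sub (sub C x5847) x5837) x5861) x5951) x6059) x6167) x6491) x4871) x11) x2927) x1467) x3655)
  (add (add (add (sub (add (add (add (add (sub (sub (sub C x5843) x5853) x5865) x5955) x6063) x6171) x6495) x4875) x15) x2931) x1475)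
  (add (add (add (sub (add (add (add (add (sub (sub (sub C x5853) x5839) x5887) x5959) x6067) x6175) x6499) x4879) x19) x2935) x3665)
  (add (add (add (sub (add (add (add (add (sub (sub (sub C x5851) x5847) x5889) x5961) x6069) x6177) x6501) x4881) x21) x2937) x1481)
  (sub (sub (add (add (sub (add (add (sub (sub (add (add (sub C x5865) x5873) x5885) x5843) x5915) x6185) x6509) x4889) x29) x2945) x1485) x3673)
  (add (add (add (sub (add (add (sub (sub (sub (sub C x5861) x5877) x5847) x5919) x6189) x6513) x4893) x33) x2949) x1493)
  (sub (sub (add (add (sub (add (add (sub (add (add (add (add (sub C x5875) x5861) x5885) x5837) x5909) x5927) x6197) x6521) x4901) x41) x2957) x1497) x3685)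
  (add (add (add (sub (add (add (sub (add (add (sub (sub C x5873) x5881) x5839) x5911) x5929) x6199) x6523) x4903) x43) x2959) x3689)
  (add (add (add (sub (add (add (sub (sub (sub (add (add C x5881) x5885) x5865) x5895) x5931) x6201) x6525) x4905) x45) x2961) x1505)
  (add (add (add (sub (add (add (sub (sub (sub (add (add C x5877) x5885) x5875) x5899) x5935) x6205) x6529) x4909) x49) x2965) x3695)
  (sub (sub (add (add (sub (add (add (sub (sub (add (add (add (add C x5877) x5881) x5861) x5873) x5903) x5939) x6209) x6533) x4913) x53) x2969) x1509) x3697)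
  (add (add (add (sub (add (add (sub (sub (add (add (sub C x5889) x5899) x5911) x5851) x5995) x6211) x6535) x4915) x55) x2971) x3701)
  (add (add (add (sub (add (add (sub (sub (sub (sub C x5887) x5895) x5853) x5997) x6213) x6537) x4917) x57) x2973) x1517)
  (add (add (add (sub (add (add (sub (sub (sub (add (add C x5899) x5903) x5889) x5877) x6003) x6219) x6543) x4923) x63) x2979) x1523)
  (add (add (add (sub (add (add (sub (sub (add (add (add (add C x5895) x5903) x5887) x5911) x5881) x6007) x6223) x6547) x4927) x67) x2983) x3713)
  (sub (sub (add (add (sub (add (add (sub (sub (sub (add (add C x5895) x5899) x5909) x5885) x6011) x6227) x6551) x4931) x71) x2987) x1527) x3715)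
  (sub (sub (add (add (sub (add (add (sub (add (add (sub (sub C x5911) x5903) x5837) x5873) x6017) x6233) x6557) x4937) x77) x2993) x1533) x3721)
  (add (add (add (sub (add (add (sub (add (add (add (add (sub C x5909) x5887) x5899) x5839) x5875) x6019) x6235) x6559) x4939) x79) x2995) x3725)
  (sub (sub (add (add (sub (sub (sub (add (add (add (add (sub C x5919) x5927) x5939) x5951) x5987) x5861) x6077) x4943) x83) x2999) x1539) x3727)
  (add (add (add (sub (sub (sub (add (add (sub (sub C x5915) x5931) x5955) x5991) x5865) x6081) x4947) x87) x3003) x1547)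
  (sub (sub (add (add (sub (sub (sub (sub (add (add (sub C x5929) x5915) x5939) x5945) x5873) x6089) x4955) x95) x3011) x1551) x3739)
  (add (add (add (sub (sub (sub (sub (sub (sub C x5927) x5935) x5947) x5875) x6091) x4957) x97) x3013) x3743)
  (add (add (add (sub (sub (sub (sub (sub (add (add C x5935) x5939) x5919) x5967) x5877) x6093) x4959) x99) x3015) x1559)
  (add (add (add (sub (sub (sub (sub (sub (add (add C x5931) x5939) x5929) x5971) x5881) x6097) x4963) x103) x3019) x3749)
  (sub (sub (add (add (sub (sub (sub (sub (add (add (add (add C x5931) x5935) x5915) x5927) x5975) x5885) x6101) x4967) x107) x3023) x1563) x3751)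
  (sub (sub (add (add (sub (sub (add (add (sub (sub (sub C x5947) x5951) x5927) x5837) x6053) x6107) x4973) x113) x3029) x1569) x3757)
  (add (add (add (sub (sub (add (add (sub (sub (sub C x5945) x5959) x5929) x5839) x6055) x6109) x4975) x115) x3031) x3761)
  (sub (sub (add (add (sub (sub (add (add (add (add (sub (sub C x5955) x5945) x5915) x5987) x5843) x6059) x6113) x4979) x119) x3035) x1575) x3763)
  (add (add (add (sub (sub (add (add (add (add (sub (sub C x5951) x5961) x5919) x5991) x5847) x6063) x6117) x4983) x123) x3039) x1583)
  (add (add (add (sub (sub (add (add (sub (sub (sub C x5961) x5947) x5977) x5851) x6067) x6121) x4987) x127) x3043) x3773)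
  (add (add (add (sub (sub (add (add (sub (sub (sub C x5959) x5955) x5979) x5853) x6069) x6123) x4989) x129) x3045) x1589)
  (add (add (add (sub (sub (sub (sub (add (add (add (add C x5971) x5975) x5979) x5991) x5931) x6021) x6129) x4995) x135) x3051) x1595)
  (add (add (add (sub (sub (sub (sub (sub (add (add C x5967) x5975) x5977) x5935) x6025) x6133) x4999) x139) x3055) x3785)
  (sub (sub (add (add (sub (sub (sub (sub (sub (add (add C x5967) x5971) x5987) x5939) x6029) x6137) x5003) x143) x3059) x1599) x3787)
  (add (add (add (sub (sub (sub (sub (sub (sub C x5979) x5971) x5959) x6031) x6139) x5005) x145) x3061) x3791)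
  (add (add (add (sub (sub (sub (sub (add (add (sub C x5977) x5967) x5991) x5961) x6033) x6141) x5007) x147) x3063) x1607)
  (sub (sub (add (add (sub (sub (sub (add (add (sub (sub C x5991) x5975) x5915) x5951) x6041) x6149) x5015) x155) x3071) x1611) x3799)
  (add (add (add (sub (sub (sub (add (add (add (add (sub C x5987) x5967) x5979) x5919) x5955) x6045) x6153) x5019) x159) x3075) x1619)
  (add (add (add (sub (sub (sub (add (add (add (add (sub C x5997) x6007) x6019) x6031) x6067) x5887) x6319) x5023) x163) x3079) x3809)
  (add (add (add (sub (sub (sub (add (add (sub (sub C x5995) x6003) x6033) x6069) x5889) x6321) x5025) x165) x3081) x1625)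
  (add (add (add (sub (sub (sub (sub (sub (add (add C x6007) x6011) x5997) x6021) x5895) x6327) x5031) x171) x3087) x1631)
  (add (add (add (sub (sub (sub (sub (add (add (add (add C x6003) x6011) x5995) x6019) x6025) x5899) x6331) x5035) x175) x3091) x3821)
  (sub (sub (add (add (sub (sub (sub (sub (sub (add (add C x6003) x6007) x6017) x6029) x5903) x6335) x5039) x179) x3095) x1635) x3823)
  (sub (sub (add (add (sub (sub (sub (sub (sub (sub C x6019) x6011) x6053) x5909) x6341) x5045) x185) x3101) x1641) x3829)
  (add (add (add (sub (sub (sub (sub (add (add (sub C x6017) x5995) x6007) x6055) x5911) x6343) x5047) x187) x3103) x3833)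
  (add (add (add (sub (sub (sub (sub (add (add (add (add C x6025) x6029) x6033) x6045) x6003) x5967) x6345) x5049) x189) x3105) x1649)
  (add (add (add (sub (sub (sub (sub (sub (add (add C x6021) x6029) x6031) x6007) x5971) x6349) x5053) x193) x3109) x3839)
  (sub (sub (add (add (sub (sub (sub (sub (sub (add (add C x6021) x6025) x6041) x6011) x5975) x6353) x5057) x197) x3113) x1653) x3841)
  (add (add (add (sub (sub (sub (add (add (sub (sub C x6033) x6025) x5995) x6067) x5977) x6355) x5059) x199) x3115) x3845)
  (add (add (add (sub (sub (sub (add (add (add (add (sub C x6031) x6021) x6045) x5997) x6069) x5979) x6357) x5061) x201) x3117) x1661)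
  (sub (sub (add (add (sub (sub (sub (sub (sub (sub C x6045) x6029) x6059) x5987) x6365) x5069) x209) x3125) x1665) x3853)
  (add (add (add (sub (sub (sub (sub (add (add (sub C x6041) x6021) x6033) x6063) x5991) x6369) x5073) x213) x3129) x1673)
  (sub (sub (add (add (sub (sub (add (add (sub (sub (sub C x6055) x6059) x6017) x5837) x5945) x6377) x5081) x221) x3137) x1677) x3865)
  (add (add (add (sub (sub (add (add (sub (sub (sub C x6053) x6067) x6019) x5839) x5947) x6379) x5083) x223) x3139) x3869)
  (sub (sub (add (add (sub (sub (add (add (sub (sub (sub C x6063) x6053) x6041) x5843) x5951) x6383) x5087) x227) x3143) x1683) x3871)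
  (add (add (add (sub (sub (add (add (sub (sub (sub C x6059) x6069) x6045) x5847) x5955) x6387) x5091) x231) x3147) x1691)
  (add (add (add (sub (sub (add (add (add (add (sub (sub C x6069) x6055) x5995) x6031) x5851) x5959) x6391) x5095) x235) x3151) x3881)
  (add (add (add (sub (sub (add (add (add (add (sub (sub C x6067) x6063) x5997) x6033) x5853) x5961) x6393) x5097) x237) x3153) x1697)
  (sub (sub (add (add (sub (sub (add (add (add (add (add (add (sub C x6081) x6089) x6101) x6113) x6149) x6185) x6293) x5915) x5591) x245) x3161) x1701) x3889)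
  (add (add (add (sub (sub (add (add (add (add (sub (sub C x6077) x6093) x6117) x6153) x6189) x6297) x5919) x5595) x249) x3165) x1709)
  (sub (sub (add (add (sub (sub (add (add (sub (add (add (sub C x6091) x6077) x6101) x6107) x6197) x6305) x5927) x5603) x257) x3173) x1713) x3901)
  (add (add (add (sub (sub (add (add (sub (sub (sub C x6089) x6097) x6109) x6199) x6307) x5929) x5605) x259) x3175) x3905)
  (add (add (add (sub (sub (add (add (sub (sub (add (add C x6097) x6101) x6081) x6129) x6201) x6309) x5931) x5607) x261) x3177) x1721)
  (add (add (add (sub (sub (add (add (sub (sub (add (add C x6093) x6101) x6091) x6133) x6205) x6313) x5935) x5611) x265) x3181) x3911)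
  (sub (sub (add (add (sub (sub (add (add (sub (add (add (add (add C x6093) x6097) x6077) x6089) x6137) x6209) x6317) x5939) x5615) x269) x3185) x1725) x3913)
  (sub (sub (add (add (sub (sub (sub (sub (sub (sub C x6109) x6113) x6089) x6161) x5945) x5621) x275) x3191) x1731) x3919)
  (add (add (add (sub (sub (sub (sub (sub (sub C x6107) x6121) x6091) x6163) x5947) x5623) x277) x3193) x3923)
  (sub (sub (add (add (sub (sub (sub (add (add (sub (sub C x6117) x6107) x6077) x6149) x6167) x5951) x5627) x281) x3197) x1737) x3925)
  (add (add (add (sub (sub (sub (add (add (sub (sub C x6113) x6123) x6081) x6153) x6171) x5955) x5631) x285) x3201) x1745)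
  (add (add (add (sub (sub (sub (sub (sub (sub C x6123) x6109) x6139) x6175) x5959) x5635) x289) x3205) x3935)
  (add (add (add (sub (sub (sub (sub (sub (sub C x6121) x6117) x6141) x6177) x5961) x5637) x291) x3207) x1751)
  (add (add (add (sub (sub (sub (sub (add (add (add (add C x6133) x6137) x6141) x6153) x6093) x6237) x5967) x5643) x297) x3213) x1757)
  (add (add (add (sub (sub (sub (sub (sub (add (add C x6129) x6137) x6139) x6097) x6241) x5971) x5647) x301) x3217) x3947)
  (sub (sub (add (add (sub (sub (sub (sub (sub (add (add C x6129) x6133) x6149) x6101) x6245) x5975) x5651) x305) x3221) x1761) x3949)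
  (add (add (add (sub (sub (sub (sub (sub (sub C x6141) x6133) x6121) x6247) x5977) x5653) x307) x3223) x3953)
  (add (add (add (sub (sub (sub (sub (add (add (sub C x6139) x6129) x6153) x6123) x6249) x5979) x5655) x309) x3225) x1769)
  (sub (sub (add (add (sub (sub (sub (add (add (sub (sub C x6153) x6137) x6077) x6113) x6257) x5987) x5663) x317) x3233) x1773) x3961)
  (add (add (add (sub (sub (sub (add (add (add (add (sub C x6149) x6129) x6141) x6081) x6117) x6261) x5991) x5667) x321) x3237) x1781)
  (sub (sub (add (add (sub (add (add (sub (add (add (sub (sub C x6163) x6167) x6197) x6233) x6107) x5837) x6485) x5675) x329) x3245) x1785) x3973)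
  (add (add (add (sub (add (add (sub (add (add (sub (sub C x6161) x6175) x6199) x6235) x6109) x5839) x6487) x5677) x331) x3247) x3977)
  (sub (sub (add (add (sub (add (add (sub (sub (sub (sub C x6171) x6161) x6185) x6113) x5843) x6491) x5681) x335) x3251) x1791) x3979)
  (add (add (add (sub (add (add (sub (sub (sub (sub C x6167) x6177) x6189) x6117) x5847) x6495) x5685) x339) x3255) x1799)
  (add (add (add (sub (add (add (sub (sub (sub (sub C x6177) x6163) x6211) x6121) x5851) x6499) x5689) x343) x3259) x3989)
  (add (add (add (sub (add (add (sub (sub (sub (sub C x6175) x6171) x6213) x6123) x5853) x6501) x5691) x345) x3261) x1805)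
  (sub (sub (add (add (sub (add (add (add (add (sub (add (add (sub C x6189) x6197) x6209) x6167) x6077) x6293) x5861) x6509) x5699) x353) x3269) x1809) x3997)
  (add (add (add (sub (add (add (add (add (sub (sub (sub C x6185) x6201) x6171) x6081) x6297) x5865) x6513) x5703) x357) x3273) x1817)
  (sub (sub (add (add (sub (add (add (add (add (add (add (add (add (sub C x6199) x6185) x6209) x6161) x6233) x6089) x6305) x5873) x6521) x5711) x365) x3281) x1821) x4009)
  (add (add (add (sub (add (add (add (add (add (add (sub (sub C x6197) x6205) x6163) x6235) x6091) x6307) x5875) x6523) x5713) x367) x3283) x4013)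
  (add (add (add (sub (add (add (add (add (sub (sub (add (add C x6205) x6209) x6189) x6219) x6093) x6309) x5877) x6525) x5715) x369) x3285) x1829)
  (add (add (add (sub (add (add (add (add (sub (sub (add (add C x6201) x6209) x6199) x6223) x6097) x6313) x5881) x6529) x5719) x373) x3289) x4019)
  (sub (sub (add (add (sub (add (add (add (add (sub (add (add (add (add C x6201) x6205) x6185) x6197) x6227) x6101) x6317) x5885) x6533) x5723) x377) x3293) x1833) x4021)
  (add (add (add (sub (add (add (sub (sub (add (add (sub C x6213) x6223) x6235) x6175) x6265) x5887) x6535) x5725) x379) x3295) x4025)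
  (add (add (add (sub (add (add (sub (sub (sub (sub C x6211) x6219) x6177) x6267) x5889) x6537) x5727) x381) x3297) x1841)
  (add (add (add (sub (add (add (sub (sub (sub (add (add C x6223) x6227) x6213) x6201) x6273) x5895) x6543) x5733) x387) x3303) x1847)
  (add (add (add (sub (add (add (sub (sub (add (add (add (add C x6219) x6227) x6211) x6235) x6205) x6277) x5899) x6547) x5737) x391) x3307) x4037)
  (sub (sub (add (add (sub (add (add (sub (sub (sub (add (add C x6219) x6223) x6233) x6209) x6281) x5903) x6551) x5741) x395) x3311) x1851) x4039)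
  (sub (sub (add (add (sub (add (add (sub (add (add (sub (sub C x6235) x6227) x6161) x6197) x6287) x5909) x6557) x5747) x401) x3317) x1857) x4045)
  (add (add (add (sub (add (add (sub (add (add (add (add (sub C x6233) x6211) x6223) x6163) x6199) x6289) x5911) x6559) x5749) x403) x3319) x4049)
  (add (add (add (sub (sub (sub (add (add (add (add (add (add C x6241) x6245) x6249) x6261) x6273) x6309) x6129) x6399) x5751) x405) x3321) x1865)
  (add (add (add (sub (sub (sub (add (add (sub (add (add C x6237) x6245) x6247) x6277) x6313) x6133) x6403) x5755) x409) x3325) x4055)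
  (sub (sub (add (add (sub (sub (sub (add (add (sub (add (add C x6237) x6241) x6257) x6281) x6317) x6137) x6407) x5759) x413) x3329) x1869) x4057)
  (add (add (add (sub (sub (sub (sub (sub (sub C x6249) x6241) x6265) x6139) x6409) x5761) x415) x3331) x4061)
  (add (add (add (sub (sub (sub (sub (add (add (sub C x6247) x6237) x6261) x6267) x6141) x6411) x5763) x417) x3333) x1877)
  (sub (sub (add (add (sub (sub (sub (sub (sub (sub C x6261) x6245) x6293) x6149) x6419) x5771) x425) x3341) x1881) x4069)
  (add (add (add (sub (sub (sub (sub (add (add (sub C x6257) x6237) x6249) x6297) x6153) x6423) x5775) x429) x3345) x1889)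
  (add (add (add (sub (sub (sub (sub (add (add (sub C x6267) x6277) x6289) x6247) x6211) x6427) x5779) x433) x3349) x4079)
  (add (add (add (sub (sub (sub (sub (sub (sub C x6265) x6273) x6249) x6213) x6429) x5781) x435) x3351) x1895)
  (add (add (add (sub (sub (sub (add (add (sub (add (add C x6277) x6281) x6267) x6237) x6309) x6219) x6435) x5787) x441) x3357) x1901)
  (add (add (add (sub (sub (sub (add (add (add (add (add (add C x6273) x6281) x6265) x6289) x6241) x6313) x6223) x6439) x5791) x445) x3361) x4091)
  (sub (sub (add (add (sub (sub (sub (add (add (sub (add (add C x6273) x6277) x6287) x6245) x6317) x6227) x6443) x5795) x449) x3365) x1905) x4093)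
  (sub (sub (add (add (sub (sub (sub (sub (sub (sub C x6289) x6281) x6305) x6233) x6449) x5801) x455) x3371) x1911) x4099)
  (add (add (add (sub (sub (sub (sub (add (add (sub C x6287) x6265) x6277) x6307) x6235) x6451) x5803) x457) x3373) x4103)
  (sub (sub (add (add (sub (sub (add (add (sub (add (add (sub C x6297) x6305) x6317) x6257) x6077) x6185) x6455) x5807) x461) x3377) x1917) x4105)
  (add (add (add (sub (sub (add (add (sub (sub (sub C x6293) x6309) x6261) x6081) x6189) x6459) x5811) x465) x3381) x1925)
  (sub (sub (add (add (sub (sub (add (add (sub (add (add (sub C x6307) x6293) x6317) x6287) x6089) x6197) x6467) x5819) x473) x3389) x1929) x4117)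
  (add (add (add (sub (sub (add (add (sub (sub (sub C x6305) x6313) x6289) x6091) x6199) x6469) x5821) x475) x3391) x4121)
  (add (add (add (sub (sub (add (add (add (add (sub (add (add C x6313) x6317) x6297) x6237) x6273) x6093) x6201) x6471) x5823) x477) x3393) x1937)
  (add (add (add (sub (sub (add (add (add (add (sub (add (add C x6309) x6317) x6307) x6241) x6277) x6097) x6205) x6475) x5827) x481) x3397) x4127)
  (sub (sub (add (add (sub (sub (add (add (add (add (add (add (add (add C x6309) x6313) x6293) x6305) x6245) x6281) x6101) x6209) x6479) x5831) x485) x3401) x1941) x4129)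
  (add (add (add (add (add (sub (add (add (add (add (add (add (sub C x6321) x6331) x6343) x6355) x6391) x6427) x6535) x5995) x4375) x5347) x487) x3403) x4133)
  (add (add (add (add (add (sub (add (add (add (add (sub (sub C x6319) x6327) x6357) x6393) x6429) x6537) x5997) x4377) x5349) x489) x3405) x1949)
  (add (add (add (add (add (sub (add (add (sub (sub (add (add C x6331) x6335) x6321) x6345) x6435) x6543) x6003) x4383) x5355) x495) x3411) x1955)
  (add (add (add (add (add (sub (add (add (sub (add (add (add (add C x6327) x6335) x6319) x6343) x6349) x6439) x6547) x6007) x4387) x5359) x499) x3415) x4145)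
  (sub (sub (add (add (add (add (sub (add (add (sub (sub (add (add C x6327) x6331) x6341) x6353) x6443) x6551) x6011) x4391) x5363) x503) x3419) x1959) x4147)
  (sub (sub (add (add (add (add (sub (add (add (sub (sub (sub C x6343) x6335) x6377) x6449) x6557) x6017) x4397) x5369) x509) x3425) x1965) x4153)
  (add (add (add (add (add (sub (add (add (sub (add (add (sub C x6341) x6319) x6331) x6379) x6451) x6559) x6019) x4399) x5371) x511) x3427) x4157)
  (add (add (add (add (add (sub (sub (sub (add (add (add (add C x6349) x6353) x6357) x6369) x6327) x6399) x6021) x4401) x5373) x513) x3429) x1973)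
  (add (add (add (add (add (sub (sub (sub (sub (add (add C x6345) x6353) x6355) x6331) x6403) x6025) x4405) x5377) x517) x3433) x4163)
  (sub (sub (add (add (add (add (sub (sub (sub (sub (add (add C x6345) x6349) x6365) x6335) x6407) x6029) x4409) x5381) x521) x3437) x1977) x4165)
  (add (add (add (add (add (sub (sub (add (add (sub (sub C x6357) x6349) x6319) x6391) x6409) x6031) x4411) x5383) x523) x3439) x4169)
  (add (add (add (add (add (sub (sub (add (add (add (add (sub C x6355) x6345) x6369) x6321) x6393) x6411) x6033) x4413) x5385) x525) x3441) x1985)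
  (sub (sub (add (add (add (add (sub (sub (sub (sub (sub C x6369) x6353) x6383) x6419) x6041) x4421) x5393) x533) x3449) x1989) x4177)
  (add (add (add (add (add (sub (sub (sub (add (add (sub C x6365) x6345) x6357) x6387) x6423) x6045) x4425) x5397) x537) x3453) x1997)
  (sub (sub (add (add (add (add (sub (sub (sub (sub (sub C x6379) x6383) x6341) x6485) x6053) x4433) x5405) x545) x3461) x2001) x4189)
  (add (add (add (add (add (sub (sub (sub (sub (sub C x6377) x6391) x6343) x6487) x6055) x4435) x5407) x547) x3463) x4193)
  (sub (sub (add (add (add (add (sub (sub (sub (sub (sub C x6387) x6377) x6365) x6491) x6059) x4439) x5411) x551) x3467) x2007) x4195)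
  (add (add (add (add (add (sub (sub (sub (sub (sub C x6383) x6393) x6369) x6495) x6063) x4443) x5415) x555) x3471) x2015)
  (add (add (add (add (add (sub (sub (add (add (sub (sub C x6393) x6379) x6319) x6355) x6499) x6067) x4447) x5419) x559) x3475) x4205)
  (add (add (add (add (add (sub (sub (add (add (sub (sub C x6391) x6387) x6321) x6357) x6501) x6069) x4449) x5421) x561) x3477) x2021)
  (add (add (add (add (add (sub (sub (add (add (add (add (add (add C x6403) x6407) x6411) x6423) x6435) x6471) x6345) x6237) x4455) x5427) x567) x3483) x2027)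
  (add (add (add (add (add (sub (sub (add (add (sub (add (add C x6399) x6407) x6409) x6439) x6475) x6349) x6241) x4459) x5431) x571) x3487) x4217)
  (sub (sub (add (add (add (add (sub (sub (add (add (sub (add (add C x6399) x6403) x6419) x6443) x6479) x6353) x6245) x4463) x5435) x575) x3491) x2031) x4219)
  (add (add (add (add (add (sub (sub (sub (sub (sub C x6411) x6403) x6427) x6355) x6247) x4465) x5437) x577) x3493) x4223)
  (add (add (add (add (add (sub (sub (sub (add (add (sub C x6409) x6399) x6423) x6429) x6357) x6249) x4467) x5439) x579) x3495) x2039)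
  (sub (sub (add (add (add (add (sub (sub (sub (sub (sub C x6423) x6407) x6455) x6365) x6257) x4475) x5447) x587) x3503) x2043) x4231)
  (add (add (add (add (add (sub (sub (sub (add (add (sub C x6419) x6399) x6411) x6459) x6369) x6261) x4479) x5451) x591) x3507) x2051)
  (add (add (add (add (add (sub (add (add (sub (add (add (sub C x6429) x6439) x6451) x6409) x6319) x6535) x6265) x4483) x5455) x595) x3511) x4241)
  (add (add (add (add (add (sub (add (add (sub (sub (sub C x6427) x6435) x6411) x6321) x6537) x6267) x4485) x5457) x597) x3513) x2057)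
  (add (add (add (add (add (sub (add (add (add (add (sub (add (add C x6439) x6443) x6429) x6399) x6471) x6327) x6543) x6273) x4491) x5463) x603) x3519) x2063)
  (add (add (add (add (add (sub (add (add (add (add (add (add (add (add C x6435) x6443) x6427) x6451) x6403) x6475) x6331) x6547) x6277) x4495) x5467) x607) x3523) x4253)
  (sub (sub (add (add (add (add (sub (add (add (add (add (sub (add (add C x6435) x6439) x6449) x6407) x6479) x6335) x6551) x6281) x4499) x5471) x611) x3527) x2067) x4255)
  (sub (sub (add (add (add (add (sub (add (add (sub (sub (sub C x6451) x6443) x6467) x6341) x6557) x6287) x4505) x5477) x617) x3533) x2073) x4261)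
  (add (add (add (add (add (sub (add (add (sub (add (add (sub C x6449) x6427) x6439) x6469) x6343) x6559) x6289) x4507) x5479) x619) x3535) x4265)
  (sub (sub (add (add (add (add (sub (sub (sub (add (add (sub C x6459) x6467) x6479) x6419) x6509) x6293) x4511) x5483) x623) x3539) x2079) x4267)
  (add (add (add (add (add (sub (sub (sub (sub (sub C x6455) x6471) x6423) x6513) x6297) x4515) x5487) x627) x3543) x2087)
  (sub (sub (add (add (add (add (sub (sub (sub (add (add (sub C x6469) x6455) x6479) x6449) x6521) x6305) x4523) x5495) x635) x3551) x2091) x4279)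
  (add (add (add (add (add (sub (sub (sub (sub (sub C x6467) x6475) x6451) x6523) x6307) x4525) x5497) x637) x3553) x4283)
  (add (add (add (add (add (sub (sub (add (add (sub (add (add C x6475) x6479) x6459) x6399) x6435) x6525) x6309) x4527) x5499) x639) x3555) x2099)
  (add (add (add (add (add (sub (sub (add (add (sub (add (add C x6471) x6479) x6469) x6403) x6439) x6529) x6313) x4531) x5503) x643) x3559) x4289)
  (sub (sub (add (add (add (add (sub (sub (add (add (add (add (add (add C x6471) x6475) x6455) x6467) x6407) x6443) x6533) x6317) x4535) x5507) x647) x3563) x2103) x4291)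
  (sub (sub (add (add (add (add (add (add (sub (add (add (sub (sub C x6487) x6491) x6521) x6557) x6377) x5837) x6161) x4541) x5513) x653) x3569) x2109) x4297)
  (add (add (add (add (add (add (add (sub (add (add (sub (sub C x6485) x6499) x6523) x6559) x6379) x5839) x6163) x4543) x5515) x655) x3571) x4301)
  (sub (sub (add (add (add (add (add (add (sub (sub (sub (sub C x6495) x6485) x6509) x6383) x5843) x6167) x4547) x5519) x659) x3575) x2115) x4303)
  (add (add (add (add (add (add (add (sub (sub (sub (sub C x6491) x6501) x6513) x6387) x5847) x6171) x4551) x5523) x663) x3579) x2123)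
  (add (add (add (add (add (add (add (sub (sub (sub (sub C x6501) x6487) x6535) x6391) x5851) x6175) x4555) x5527) x667) x3583) x4313)
  (add (add (add (add (add (add (add (sub (sub (sub (sub C x6499) x6495) x6537) x6393) x5853) x6177) x4557) x5529) x669) x3585) x2129)
  (sub (sub (add (add (add (add (add (add (sub (sub (add (add (sub C x6513) x6521) x6533) x6491) x6455) x5861) x6185) x4565) x5537) x677) x3593) x2133) x4321)
  (add (add (add (add (add (add (add (sub (sub (sub (sub C x6509) x6525) x6495) x6459) x5865) x6189) x4569) x5541) x681) x3597) x2141)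
  (sub (sub (add (add (add (add (add (add (sub (add (add (add (add (sub C x6523) x6509) x6533) x6485) x6557) x6467) x5873) x6197) x4577) x5549) x689) x3605) x2145) x4333)
  (add (add (add (add (add (add (add (sub (add (add (sub (sub C x6521) x6529) x6487) x6559) x6469) x5875) x6199) x4579) x5551) x691) x3607) x4337)
  (add (add (add (add (add (add (add (sub (sub (sub (add (add C x6529) x6533) x6513) x6543) x6471) x5877) x6201) x4581) x5553) x693) x3609) x2153)
  (add (add (add (add (add (add (add (sub (sub (sub (add (add C x6525) x6533) x6523) x6547) x6475) x5881) x6205) x4585) x5557) x697) x3613) x4343)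
  (sub (sub (add (add (add (add (add (add (sub (sub (add (add (add (add C x6525) x6529) x6509) x6521) x6551) x6479) x5885) x6209) x4589) x5561) x701) x3617) x2157) x4345)
  (add (add (add (add (add (add (add (add (add (sub (add (add (sub C x6537) x6547) x6559) x6499) x6319) x6427) x5887) x6211) x4591) x5563) x703) x3619) x4349)
  (add (add (add (add (add (add (add (add (add (sub (sub (sub C x6535) x6543) x6501) x6321) x6429) x5889) x6213) x4593) x5565) x705) x3621) x2165)
  (add (add (add (add (add (add (add (add (add (sub (sub (add (add C x6547) x6551) x6537) x6525) x6327) x6435) x5895) x6219) x4599) x5571) x711) x3627) x2171)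
  (add (add (add (add (add (add (add (add (add (sub (add (add (add (add C x6543) x6551) x6535) x6559) x6529) x6331) x6439) x5899) x6223) x4603) x5575) x715) x3631) x4361)
  (sub (sub (add (add (add (add (add (add (add (add (sub (sub (add (add C x6543) x6547) x6557) x6533) x6335) x6443) x5903) x6227) x4607) x5579) x719) x3635) x2175) x4363)
  (sub (sub (add (add (add (add (add (add (add (add (add (add (sub (sub C x6559) x6551) x6485) x6521) x6341) x6449) x5909) x6233) x4613) x5585) x725) x3641) x2181) x4369)
  (add (add (add (add (add (add (add (add (add (add (add (add (add (sub C x6557) x6535) x6547) x6487) x6523) x6343) x6451) x5911) x6235) x4615) x5587) x727) x3643) x4373))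
  (chk [x5, x11, x29, x41, x43, x53, x71, x83, x95, x97, x103, x107,
  x113, x115, x119, x143, x155, x179, x185, x197, x257, x259, x269, x275,
  x277, x281, x289, x301, x305, x317, x329, x335, x353, x365, x367, x373,
  x377, x395, x401, x403, x413, x425, x449, x455, x457, x461, x473, x485,
  x509, x521, x533, x545, x611, x617, x647, x701, x821, x851, x853, x859,
  x863, x881, x887, x889, x911, x935, x941, x971, x1013, x1015, x1025, x1043,
  x1067, x1069, x1079, x1085, x1091, x1115, x1127, x1151, x1157, x1159, x1169, x1181,
  x1193, x1195, x1199, x1265, x1267, x1283, x1285, x1295, x1313, x1319, x1343, x1361,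
  x1403, x1439, x1451, x1661, x1673, x1691, x1889, x1925, x3281, x3293, x3311, x3365,
  x3371, x3401, x3533, x3563, x3617, x4103, x4121, x4373])

noncomputable def RK : Nat := nat_lit 0x1115101910070e210deb0dcd0d490d2b0d250cef0cdd0cd107850761069b0689067d05ab059f057b0551053f05270521050f0505050304f304f104af04ab04a9049d049104870485047f0467045b0443043d0437042d042b0413040103f703f503cb03ad03a7038f037903770371035f035b03550353033502bd02870269026302210215020901fd01e501d901cd01c901c701c101a9019d01930191018b01790175016f016d0161014f0149013d0131012d0121011901150113010d0103010100c500b900b3009b008f007700730071006b00670061005f005300470035002b0029001d000b0005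

noncomputable def CK : Nat := nat_lit 0x80008000800100010000800080008001000100008000800100008000800100008001000100010000800100008001000100010001000100010001000100010001000100010001000100010001000080010000800080010001000100010001000080008001000080008001000100010000800100010000800100010001000100010001000100008001000100010001000100010001000100010001000100010001000100010000800100010001000100010001000100010001000080008001000100010001000100010001000100010001000100010001000080010001000100010001000100010

noncomputable def H : Nat := nat_lit 0x308a0000309c0000000000000000000030a80000000000002e0200000000000013da000000000000000000001c4a000013f8000030b40000000000002eda00000000000016ce00002f0400002e2c000000000000000000000000000029a6000000000000142e0000000000000000000000000000266a0000297000000000000026940000000000001c7400000000000016f8000014040000000000000000000030ba0000000000002f46000000000000173a00002fb200002f2e00000000000000000000000000002a3600000000000017220000000000002f7c00002f10000000000000000000002e380000000000002c520000000000000f36000000000000000000001956000010ce000000000000292e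000000000000299a00000000000000000000000000001d8e00001ac40000142200000000000010a40000000000000222000000000000000000002886000029040000000000002b0e00000000000026be0000000000002a6c0000297c000000000000000000000000000028bc00000000000026a000000000000000000000000000001f3e00001dc400001c80000000000000198c00000000000004aa00001770000017040000000000000000000014100000000000000f6c000000000000094e0000000000000000000004e000000258000030ae0000000000002f58000000000000174c0000301e00002f9a00000000000000000000000000002aa2000000000000178e000000000000305a00002ff4000000000000000000002f220000000000002cbe0000000000000fa20000000000000000000019c2000012ea0000000000002bb60000000000002a8a00000000000000000000000000001dfa00001a58000017160000000000001038000000000000028e00002f7600002f88000000000000000000002f1c0000000000002d2a00000000000011be000000000000000000001b720000138c00002e3e0000000000002d6c00000000000015f600002d0000002c94000000000000000000000000000021360000000000000f8a000000000000000000000000000023b20000248a000000000000241e00000000000019aa0000000000001056000010c2000000000000000000000000000028b6000000000000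29220000000000000000000000000000215a0000257a0000298e000000000000246c00000000000007320000000000000000000026d60000255c00000000000022680000000000001de20000000000001a7600001ad000000000000000000000141600000000000013aa000000000000133e000012cc000010b00000000000000000000000000000070e0000000000000276000000000000000000000000000028f2000028980000000000002b7a00000000000028da0000000000002b980000291000000000000000000000000000002bbc0000000000002b500000000000000000000000000000208200002286000026b20000000000002400000000000000065a00002ade00002a7800000000000000000000298800000000000021180000000000000bd6000000000000000000000c6c000006f0000000000000293400000000000028c80000000000000000000000000000229e00002718000026ac0000000000002394000000000000080a0000000000000000000022e00000219c00000000000020c40000000000001f800000000000001e3c00001dd0000000000000000000001c860000000000001bb400000000000014b200001a040000199800000000000000000000000000000c8a00000000000004fe000000000000176a0000177c000000000000000000001710000000000000163800000000000010e60000000000000000000014f4000013200000141c00000000000012000000000000001128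00000fe400000f7800000000000000000000000000000c1800000000000009900000000000000000000000000000084c00000774000000000000069c00000000000004ec00000000000002d0000002640000000000000000000030a20000000000002eec00000000000016e000002fca00002f6400000000000000000000000000002a540000000000001758000000000000302400003048000000000000000000002f8e0000000000002ce8000000000000100e000000000000000000001a2e000012b40000000000002b800000000000002acc00000000000000000000000000001e24000019ec000017820000000000000fcc00000000000002b800002fb80000304e000000000000000000002ffa0000000000002d96000000000000122a000000000000000000001bde0000124800002f160000000000002e6e000000000000166200002dcc00002d12000000000000000000000000000023520000000000000ff6000000000000000000000000000024ba0000282c00000000000026280000000000001a160000000000001272000012de00000000000000000000000000002b140000000000002baa000000000000000000000000000021c60000265200002a7e0000000000002328000000000000079e000000000000000000002742000024f000000000000021fc0000000000001e4e0000000000001c1400001a6400000000000000000000170a00000000000016980000000000001446000012600000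1044000000000000000000000000000007d400000000000002e20000000000002efe00002f6a000000000000000000002f940000000000002d48000000000000136e000000000000000000001b90000011dc00002f280000000000002e80000000000000167400002eb600002d7e000000000000000000000000000027f6000000000000121200000000000000000000000000002592000027c000000000000025bc0000000000001bc600000000000016aa00001398000000000000000000002e320000000000002d5a000000000000160800002dc600002d78000000000000000000000000000029ca000000000000164a0000000000002cfa00002d0c000000000000000000002c9a0000000000002be60000000000000df200000000000000000000181200000eb200000000000020be000000000000212a00000000000000000000000000001cb6000018d200000f7e0000000000000f12000000000000014a00000000000000000000218a000022ce00000000000021f600000000000023a6000000000000233a0000247e00000000000000000000000000002262000000000000241200000000000000000000000000001e6600001d760000199e0000000000001920000000000000036600000fde0000104a0000000000000000000010b60000000000000f0000000000000008760000000000000000000004740000020a000000000000268e00000000000028aa00000000000000000000000000002376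000026fa0000291600000000000022bc00000000000008280000000000000000000024de0000275400000000000025b600000000000021ae00000000000025020000256e00000000000000000000298200000000000027d2000000000000158a0000283e000024780000000000000000000000000000156600000000000007860000000000000000000000000000254a000026e80000000000002622000000000000272a00000000000026400000256800000000000000000000000000002424000000000000227400000000000000000000000000001faa00001f1400001dd60000000000001d640000000000000516000019fe00001a6a000000000000000000001ad600000000000018c000000000000009ba000000000000000000000b46000004260000140a00000000000011ee00000000000011160000125a0000139e00000000000000000000000000001182000000000000133200000000000012c6000012d80000000000000000000010bc0000000000000ea00000000000000cae000000000000000000000a680000092400000000000006960000000000000702000000000000000000000000000005c4000004140000026a00000000000001f8000000000000000600000000000000000000295e0000267c0000000000002a4e00000000000029460000000000002b26000028a400000000000000000000000000002aa80000000000002bce000000000000000000000000000020ee000024360000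28ce000000000000225000000000000006c600002b9200002ba400000000000000000000291c00000000000020ac0000000000000c42000000000000000000000c00000006840000000000002a3c0000000000002bc80000000000000000000000000000230a0000261000002b5600000000000021e400000000000007bc0000000000000000000027ae000025a400000000000029d000000000000020d6000000000000220e0000227a0000000000000000000026a600000000000025ce000000000000151e0000263a0000240c0000000000000000000000000000119a00000000000006ae0000000000002a6600002ad2000000000000000000002a8400000000000029fa0000000000001152000000000000000000001b06000011700000299400000000000027e4000000000000159c000023400000212400000000000000000000000000001b3c0000000000000c2a000000000000000000000000000015c60000155400000000000011880000000000000c7800000000000007e6000006fc000000000000000000000000000029ac00000000000029400000000000000000000000000000244e00002538000028d40000000000002178000000000000075000000000000000000000281a000024cc00000000000027fc00000000000022f2000000000000278a000027240000000000000000000026b800000000000025e0000000000000153000002508000023a0000000000000000000000000000015b4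000000000000085e0000000000000000000000000000249c000023c4000000000000235800000000000022ec0000000000002214000021a80000000000000000000000000000213c00000000000020d00000000000000000000000000000201600001ff800001f860000000000001eb400000000000005ee00001e3600001e48000000000000000000001ddc0000000000001d040000000000000a92000000000000000000000b94000005d600001c7a0000000000001ba200000000000014c400001c0e00001bc000000000000000000000000000001b3600000000000015060000000000001a7c00001a100000000000000000000019a400000000000018600000000000000d1a0000000000000000000017a600000a7a0000000000000c120000000000000c7e00000000000000000000000000000ba600000b34000004f200000000000004860000000000000072000016f20000175e000000000000000000001788000000000000161a00000000000013020000000000000000000014d6000011040000171c00000000000016860000000000001458000016b000001644000000000000000000000000000015ae000000000000113a00000000000000000000000000001542000015d8000000000000156c0000000000001500000000000000148e0000132c00000000000000000000142800000000000013bc0000000000001350000012780000120c000000000000000000000000000011a0000000000000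1134000000000000105c00000ff0000000000000000000000f840000000000000e400000000000000d86000000000000000000000d6800000cfc0000000000000c900000000000000c2400000000000000000000000000000ae000000a080000099600000000000008c400000000000000de0000000000000000000007620000083a00000000000007ce000000000000085800000000000007ec000007800000000000000000000000000000071400000000000006a80000000000000000000000000000063c00000564000004f800000000000003b400000000000002fa000002ca000002dc0000000000000000000002700000000000000198000000000000012c0000000000000000000000c000000054000030840000000000002e0e00000000000013ec00002ee600002ef80000000000000000000000000000296400000000000016ec0000000000002f5200002fbe000000000000000000002f700000000000002c5e000000000000107a000000000000000000001a9a0000109800000000000028f80000000000002a6000000000000000000000000000001db800001980000017640000000000000f60000000000000024c00002f4c0000302a0000000000000000000030540000000000002cca0000000000001296000000000000000000001a4c0000102c00002f820000000000002d36000000000000138000002d6000002cf400000000000000000000000000002496000000000000106200000000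0000000000000000000025260000246000000000000025500000000000001a8200000000000013b6000012c00000000000000000000000000000288c0000000000002b8c00000000000000000000000000002232000023f400002ad8000000000000210c00000000000006e400000000000000000000270c0000238800000000000021900000000000001e300000000000001ba8000019f8000000000000000000001776000000000000162c0000000000001314000011f400000fd80000000000000000000000000000076800000000000002c40000000000002ee000002fc40000000000000000000030180000000000002cdc00000000000012a80000000000000000000019e000000fc000002fac0000000000002da2000000000000123c00002e7a00002dc000000000000000000000000000002820000000000000127e000000000000000000000000000025fe0000231c00000000000024e40000000000001c08000000000000168c00001254000000000000000000002f0a0000000000002d3c00000000000011d000002e7400002eb0000000000000000000000000000027b400000000000016b60000000000002d6600002dd2000000000000000000002d060000000000002bf20000000000000e5e00000000000000000000187e00000f1e00000000000022da000000000000234600000000000000000000000000001d220000191400000fea0000000000000ef400000000000001b6000000000000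000000002706000022b00000000000002748000000000000250e00000000000027de00002838000000000000000000000000000026dc000000000000263400000000000000000000000000001ed200001d5800001a0a00000000000018b400000000000003d2000011fa000012660000000000000000000012d20000000000000e9400000000000008e2000000000000000000000408000001ec00000000000026700000000000002b20000000000000000000000000000023e20000224400002b9e00000000000020a00000000000000678000000000000000000002604000021d80000000000002598000000000000221a00000000000025da00002646000000000000000000002a720000000000002a060000000000001164000027d8000023340000000000000000000000000000154800000000000007f20000000000000000000000000000252c0000216c00000000000024c0000000000000278400000000000025d4000024fc000000000000000000000000000023b8000000000000220800000000000000000000000000001fec00001ea800001e420000000000001cf8000000000000058200001bae00001c1a000000000000000000001a7000000000000018540000000000000a26000000000000000000000b2800000492000016fe000000000000162600000000000010f800001692000016a4000000000000000000000000000015cc000000000000148800000000000013b00000126c00000000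00000000000010500000000000000e340000000000000cf00000000000000000000009fc000008b8000000000000084600000000000007e000000000000000000000000000000558000003a8000002d6000000000000018c000000000000004800002e0800002ef2000000000000000000002f5e0000000000002c6a000000000000108c00000000000000000000197400000f5400002f400000000000002cd6000000000000102000002d4200002d540000000000000000000000000000245400000000000013c2000000000000000000000000000023e800002100000000000000237c0000000000001b9c0000000000001620000011e8000000000000000000002ed40000000000002cd00000000000000fb400002d9c00002e860000000000000000000000000000231000000000000016800000000000002d3000002e68000000000000000000002d720000000000002bfe0000000000000eca0000000000000000000018ea00000ee800000000000022a400000000000027ea00000000000000000000000000001d4c000018a8000012060000000000000e8800000000000001e00000000000000000000022380000209400000000000021cc00000000000025e60000000000002a00000027cc0000000000000000000000000000216000000000000025c800000000000000000000000000001e9c00001cec00001bba0000000000001848000000000000043e000016320000169e00000000000000000000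13a40000000000000e2800000000000008ac00000000000000000000039c0000018000002dfc0000000000002c640000000000000f4800002ce200002d4e000000000000000000000000000020f400000000000016140000000000002cc400002d90000000000000000000002d240000000000002c0a0000000000000edc00000000000000000000189c00000e7c000000000000208800000000000029f400000000000000000000000000001ce00000183c0000163e0000000000000e1c000000000000017400002c5800002cee000000000000000000002cb80000000000002c040000000000000e7000000000000000000000183000000e1000002c4c0000000000002bf80000000000000e0400002bec00002be00000000000000000000000000000201c0000000000000e4600000000000000000000000000001fe6000020280000000000001fb000000000000018660000000000000e3a00000ea600000000000000000000000000001f4400000000000020b200000000000000000000000000001e9600001fda0000211e0000000000002034000000000000060c000000000000000000001ed800001fbc0000000000001e6c0000000000001d0a000000000000185a000018c6000000000000000000000f720000000000000e2e0000000000000d9800000e9a00000f0600000000000000000000000000000636000000000000019e00000000000000000000000000001db200001f500000000000001e1e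000000000000217e00000000000020a6000022c200000000000000000000000000001e0000000000000021ea00000000000000000000000000001cda00001e8a0000239a0000000000001fce00000000000005a0000021120000232e000000000000000000002472000000000000203a0000000000000b6a000000000000000000000abc000006180000000000001d94000000000000225600000000000000000000000000001d4600001ee4000024060000000000001fc80000000000000534000000000000000000001d2800001e780000000000001cbc0000000000001eba0000000000001cfe00001d6a000000000000000000001992000000000000184e0000000000000d2c000018ba0000192600000000000000000000000000000ada00000000000003ba0000000000000f6600000fd200000000000000000000103e0000000000000e220000000000000cde000000000000000000000d4a00000da4000010aa0000000000000e8e0000000000000cc000000efa00000f0c00000000000000000000000000000bac00000000000008ca000000000000000000000000000005520000062a00000000000005be00000000000004800000000000000192000001fe00000000000000000000000000001c5000000000000026820000000000000000000000000000196e00001da60000289e0000000000001f5600000000000004c80000000000000000000019da00001e120000000000001b8a000000000000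23ca0000000000002172000026ee00000000000000000000290a000000000000209a0000000000000c54000022b6000022c8000000000000000000000000000014dc000000000000083400000000000000000000000000001a4600001e0c0000000000001be400000000000024d200000000000021de0000275a00000000000000000000000000001b7800000000000025aa0000000000000000000000000000182a00001cce000021a20000000000001e7e000000000000045c0000238e000024f60000000000000000000025620000000000001fc20000000000000afe000000000000000000000a50000005ac0000297600000000000021060000000000000be800002322000027c600000000000000000000000000001b0c00000000000015de000000000000246600002832000000000000000000002484000000000000202e0000000000000b7c0000000000000000000017be00000bbe00000000000014ee000000000000155a00000000000000000000000000000d5000000ac80000077a000000000000062400000000000000a8000000000000000000001aa000001da00000000000001a34000000000000253e000000000000224a000026f4000000000000000000000000000019c800000000000026160000000000000000000000000000189600001d3a0000271e0000000000001eea00000000000003f0000023fa0000264c0000000000000000000025740000000000001fd40000000000000b10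0000000000000000000009e400000540000000000000195c0000000000002430000000000000000000000000000018f000001d34000022800000000000001e84000000000000038400000000000000000000188400001cc800000000000018180000000000001ffe0000000000001eae00001f1a000000000000000000001dca0000000000001cf20000000000000aa400001d5e00001d7000000000000000000000000000000d62000000000000056a0000000000001986000019f2000000000000000000001a5e00000000000018420000000000000a380000000000000000000017c400000d3800001aca00000000000018ae00000000000009cc0000191a000018cc000000000000000000000000000017ac0000000000000a0e000000000000000000000000000009f600000ace0000000000000a620000000000000b3a00000000000003ae0000041a0000000000000000000013fe0000000000000f5a000000000000096000000fc6000011e200000000000000000000000000000bfa000000000000110a00000000000010320000124e0000000000000000000013920000000000000e16000000000000089a0000000000000000000009de00000cd20000000000000c66000000000000117600000000000000000000000000000ab600000d3e000013260000000000000daa00000000000001080000109e000012ba0000000000000000000012e40000000000000e8200000000000008f4000000000000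000000000a4a00000ccc000010c80000000000000eee000000000000088800000f1800000eac00000000000000000000000000000b8e0000000000000d0200000000000000000000000000000b2200000bb80000000000000b4c0000000000000a7400000000000008be0000092a000000000000000000000000000004da000000000000068a0000000000000000000000000000039600000546000006f6000000000000061e0000000000000318000000000000000000000402000005b2000000000000046e00000000000005d0000000000000048c0000042000000000000000000000025e0000000000000186000000000000011a000001f200000204000000000000000000000000000000ba000000000000005a000000000000000000000000000013e600001c5600000000000016da00000000000029b2000000000000267600002688000000000000000000000000000017460000000000002a4200000000000000000000000000000f42000019620000293a0000000000001d9a000000000000022e0000289200002b1a0000000000000000000028b00000000000001f4a00000000000004b600000000000000000000095a000004d400000000000017400000000000002aae00000000000000000000000000000fae000019ce00002bc20000000000001e06000000000000029a0000000000000000000011ca00001b7e0000000000001602000000000000214200000000000023be0000242a00000000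00000000000028c20000000000002166000000000000073e000026e20000225c0000000000000000000000000000134a000000000000071a00000000000028fe00002b86000000000000000000002bb0000000000000208e0000000000000666000000000000000000000be200000c600000292800000000000022aa0000000000000816000022d4000020b8000000000000000000000000000014be0000000000000c96000000000000000000000000000010f2000014e8000000000000111c0000000000000c0c000000000000084000000690000000000000000000000000000016d40000000000002a480000000000000000000000000000101a00001a3a00002b740000000000001e1800000000000002ac00000000000000000000123600001bea000000000000166e000000000000235e00000000000024c60000261c000000000000000000002b0800000000000021d200000000000007aa0000274e000021f00000000000000000000000000000145200000000000007c80000000000000000000000000000137a00001b8400000000000016680000000000002802000000000000259e000025b0000000000000000000000000000015fc00000000000029d600000000000000000000000000000dfe0000181e000020ca0000000000001cc20000000000000156000021960000220200000000000000000000226e0000000000001e720000000000000372000000000000000000000882000004680000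269a0000000000002382000000000000081c000024ea000025c200000000000000000000000000001596000000000000157200000000000025560000262e0000000000000000000024180000000000001fb600000000000005220000000000000000000009c600000b520000000000001122000000000000118e00000000000000000000000000000cba00000a5c000006a200000000000005b800000000000000120000296a00002a5a000000000000000000002a9c00000000000020fa00000000000006d2000000000000000000000c4e00000bf400002a30000000000000231600000000000007b0000027ba000029c40000000000000000000000000000152a00000000000011a60000000000000000000000000000115e00001b1200000000000015900000000000001b3000000000000015d20000117c0000000000000000000029a0000000000000245a000000000000074400002826000027f00000000000000000000000000000152400000000000015a800000000000024900000234c000000000000000000002130000000000000202200000000000005fa000000000000000000000a9e00000b8800000000000014b80000000000001b4200000000000000000000000000000d26000017b200000c1e0000000000000bb2000000000000007e00000000000000000000130e000014e2000000000000144c00000000000015ba000000000000154e0000156000000000000000000000000000001344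000000000000119400000000000000000000000000000d9200000d5c00000c840000000000000ad400000000000000ea0000076e000007da00000000000000000000070800000000000006300000000000000306000000000000000000000120000000b400000000000013e000000000000029580000000000000000000000000000108600001aa6000028ec0000000000001dac00000000000002400000000000000000000012a200001a40000000000000137400000000000024a2000000000000253200002544000000000000000000002880000000000000223e00000000000006d8000027000000218400000000000000000000000000001308000000000000075c0000000000000000000000000000129c000019d400000000000012300000000000002814000000000000260a000024d8000000000000000000000000000011c400000000000027a800000000000000000000000000000e6a0000188a000022e60000000000001d2e00000000000001c2000027120000273c0000000000000000000026d00000000000001ede00000000000003de0000000000000000000008ee000003fc0000266400000000000023ee000000000000066c000025f80000258c00000000000000000000000000001158000000000000153c0000000000002520000024b40000000000000000000023ac0000000000001fe0000000000000058e000000000000000000000a3200000b1c00000000000010ec000000000000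15c000000000000000000000000000000ce4000009f000000852000000000000054c000000000000003c000000000000000000001080000019680000000000001014000000000000244800000000000023dc0000237000000000000000000000000000000fa8000000000000230400000000000000000000000000000ed6000018f6000022980000000000001d4000000000000001d40000222c000021c00000000000000000000021540000000000001e90000000000000044a0000000000000000000008a0000003900000000000000f3c00000000000020e800000000000000000000000000000ed0000018900000207c0000000000001cd40000000000000168000000000000000000000e64000018240000000000000df800000000000020100000000000001ff200001fa4000000000000000000001f380000000000001ea2000000000000060000001ecc00001e6000000000000000000000000000000d8c00000000000006420000000000001dbe00001e2a000000000000000000001df40000000000001ce60000000000000594000000000000000000000b7600000ab000001d880000000000001d52000000000000052800001d1c00001cb000000000000000000000000000000d200000000000000ae600000000000000000000000000000cea00000d560000000000000cb40000000000000ba0000000000000055e000005ca000000000000000000001c44000000000000197a00000000000004bc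000019e600001b9600000000000000000000000000000c4800000000000014d00000000000001a5200001bd8000000000000000000001b6c00000000000018360000000000000450000000000000000000000b0a00000a440000000000000bdc0000000000001b0000000000000000000000000000000b70000017ca000014fa0000000000000d44000000000000009c00001a9400001a280000000000000000000019bc00000000000018a200000000000003e4000000000000000000000b04000009d80000195000000000000018e40000000000000378000018780000180c00000000000000000000000000000a980000000000000d6e00000000000000000000000000000a2c000017b800000000000009c000000000000017a00000000000000a0200000a6e000000000000000000000000000009540000000000000c06000000000000000000000000000008a6000009ea00000c720000000000000ac200000000000000fc0000000000000000000008e800000a56000000000000087c0000000000000b9a0000000000000b2e00000b400000000000000000000004e600000000000003a2000000000000030c0000040e0000047a0000000000000000000000000000012600000000000000c600000000000013f2000016e60000000000000000000017520000000000000f4e000000000000023a0000000000000000000004c200000966000017340000000000000fba00000000000002a6000011d60000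160e0000000000000000000000000000074a00000000000013560000000000000000000000000000067200000bee000000000000082200000000000014ca00000000000010fe000011100000000000000000000016c8000000000000102600000000000002a0000012420000167a000000000000000000000000000007b6000000000000145e00000000000013860000165c0000000000000000000015f00000000000000e0a000000000000016200000000000000000000037e0000088e000000000000081000000000000015a20000000000000000000000000000052e000009d20000112e0000000000000cc6000000000000001e0000000000000000000006de00000c5a00000000000007a40000000000001536000000000000116a000015840000000000000000000000000000073800000000000015180000000000000000000000000000060600000aaa000014ac0000000000000d32000000000000008a0000131a000014400000000000000000000013380000000000000d9e00000000000000f600000000000000000000031200000114000013d400000000000010920000000000000234000012ae00001368000000000000000000000000000006cc00000000000012fc0000000000001290000012240000000000000000000011b80000000000000e7600000000000001ce0000000000000000000003ea000008fa0000000000000660000000000000114c0000000000000000000000000000059a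00000a3e000010e00000000000000cd800000000000000300000107400001008000000000000000000000f9c0000000000000ee200000000000001c80000000000000000000004560000089400000f300000000000000ec4000000000000015c00000e5800000dec000000000000000000000000000005f40000000000000d800000000000000000000000000000058800000b82000000000000051c0000000000000d140000000000000cf600000ca8000000000000000000000000000004b00000000000000c3c0000000000000000000000000000044400000b1600000bd00000000000000b6400000000000000900000000000000000000003d800000af8000000000000036c0000000000000a8c0000000000000a20000009b400000000000000000000094800000000000008b200000000000000f0000008dc0000087000000000000000000000000000000300000000000000013200000000000000000000000000000246000004ce00000000000002b20000000000000756000000000000067e0000082e0000000000000000000000000000029400000000000007c20000000000000000000000000000016e0000038a00000804000000000000053a000000000000002a000006ea0000079800000000000000000000072c000000000000061200000000000000960000000000000000000001020000031e000000000000022800000000000006c0000000000000000000000000000001da000003f60000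065400000000000005a600000000000000240000000000000000000001bc00000462000000000000015000000000000005e8000000000000057c000005100000000000000000000004a400000000000004380000000000000084000003cc00000360000000000000000000000000000000e400000000000002f40000000000000252000002be000000000000000000000288000000000000017a00000000000000360000000000000000000000a20000010e0000021c00000000000001e60000000000000018000001b0000001440000000000000000000000000000007800000000000000d800000000000000000000000000000042000000ae000000000000000c000000000000006c000000000000004e0000000000000000000000000000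

theorem spec : Spec 7 true idx RK 116 G := fun _ _ _ _ => by eq_refl

theorem cover : cov 8 true H RK CK 116 1 = true := by decide +kernel

end S8x4

namespace S8x4

noncomputable def ts0 : List Nat :=
  [nat_lit 73146444251180443904237155934286625739615766120,
   nat_lit 73146444251180443904237155934286625739615764480,
   nat_lit 73146444251180443904237155934286625739615781968,
   nat_lit 73146444251180443904237155934286625739615773216,
   nat_lit 73146444251180443904237155934286625739616265424,
   nat_lit 73146444251180443904237155934286625739616563680,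
   nat_lit 73146444251180443904237155934286625739637593840,
   nat_lit 73146444251180443904237155934286625739684184832,
   nat_lit 73146444251180443904237155934286625740849406800,
   nat_lit 73146444251180443904237155934286625745579989984,
   nat_lit 73146444251180443904237155934286625823172590288,
   nat_lit 73146444251180443904237155934286626273773783776,
   nat_lit 73146444251180443904237155934286632176060522544,
   nat_lit 73146444251180443904237155934286674820012371072,
   nat_lit 73146444251180443904237155934287168095007117712,
   nat_lit 73146444251180443904237155934291237237040933856,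
   nat_lit 73146444251180443904237155934335216101732852816,
   nat_lit 73146444251180443904237155934728137172417819840,
   nat_lit 73146444251180443904237155938824406330103077680,
   nat_lit 73146444251180443904237155977217579463605748672,
   nat_lit 73146444251180443904237156370188889031088545744,
   nat_lit 73146444251180443904237160161546020228947922528,
   nat_lit 73146444251180443904237198629419813287618104976,
   nat_lit 73146444251180443904237576403558585398976461696,
   nat_lit 73146444251180443904241395333318072030995314000,
   nat_lit 73146444251180443904279317607304545090766931680,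
   nat_lit 73146444251180443904662266768604275739830291120,
   nat_lit 73146444251180443908492216397384138280710785184,
   nat_lit 73146444251180443947175911409367653179240464240,
   nat_lit 73146444251180444335897783451880392362826917856,
   nat_lit 73146444251180448265122123019402176480811376720,
   nat_lit 73146444251180487877946318870422690714204976544,
   nat_lit 73146444251180888675023390538021771634470278352,
   nat_lit 73146444251184938786379135643392493107890141184,
   nat_lit 73146444251225958004579678053068325149906218096,
   nat_lit 73146444251641180524565367370085682650591205792,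
   nat_lit 73146444255850467117335944955627263759622472944]

theorem run0 : go idx G base H RK CK 146 0 116 ts0 = true := by decide +kernel

end S8x4

end Vale.Agent.P348.MomK
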