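import Vale.Agent.P348.MomG9x0

/-! Generated kernel computation of sector moments. -/

open Nat (add sub)

set_option maxRecDepth 1000000
set_option maxHeartbeats 0
set_option linter.unusedVariables false

namespace Vale.Agent.P348.MomK

namespace S9x0

noncomputable def ts0 : List Nat :=
  [nat_lit 107148111696065103375347396388115174423270200,
   nat_lit 107148111696065103375347396388115174423265280,
   nat_lit 107148111696065103375347396388115174423324302,
   nat_lit 107148111696065103375347396388115174423294764,
   nat_lit 107148111696065103375347396388115174425191838,
   nat_lit 107148111696065103375347396388115174426354620,
   nat_lit 107148111696065103375347396388115174519888290,
   nat_lit 107148111696065103375347396388115174730161968,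
   nat_lit 107148111696065103375347396388115180778394654,
   nat_lit 107148111696065103375347396388115206114196140,
   nat_lit 107148111696065103375347396388115685374353702,
   nat_lit 107148111696065103375347396388118645573893324,
   nat_lit 107148111696065103375347396388163428289159650,
   nat_lit 107148111696065103375347396388520533167682192,
   nat_lit 107148111696065103375347396393311890879689022,
   nat_lit 107148111696065103375347396438477676050690124,
   nat_lit 107148111696065103375347397009445865530547166,
   nat_lit 107148111696065103375347402999164103767752960,
   nat_lit 107148111696065103375347476824658917107518026,
   nat_lit 107148111696065103375348304618521680717699472,
   nat_lit 107148111696065103375358429388454298919608878,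
   nat_lit 107148111696065103375476678213430609964744164,
   nat_lit 107148111696065103376923393078687652627800198,
   nat_lit 107148111696065103394243726711040645618292228,
   nat_lit 107148111696065103606821757527828545413242130,
   nat_lit 107148111696065106190651716151112675551855020,
   nat_lit 107148111696065138020192871606653818396314910,
   nat_lit 107148111696065528533710117714515429805275832,
   nat_lit 107148111696070355030361846196456742515394694,
   nat_lit 107148111696129919236487587152019497683443264,
   nat_lit 107148111696868034872036012378175340315964530,
   nat_lit 107148111706011354415259312963449707058368240,
   nat_lit 107148111819540693735020310330757056579053598]

theorem run0 : go idx G base H RK CK 135 0 57 ts0 = true := by decide +kernel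

end S9x0

end Vale.Agent.P348.MomK
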