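import Vale.Agent.P348.MomG9x1
import Vale.Agent.P348.MomR9x0x0

/-! Generated kernel computation of sector moments. -/

open Nat (add sub)

set_option maxRecDepth 1000000
set_option maxHeartbeats 0
set_option linter.unusedVariables false

namespace Vale.Agent.P348.MomK

namespace S9x1

noncomputable def ts0 : List Nat :=
  [nat_lit 107169889767548043437009052362990807588803385,
   nat_lit 107169889767548043437009052362990807588798464,
   nat_lit 107169889767548043437009052362990807588857522,
   nat_lit 107169889767548043437009052362990807588828002,
   nat_lit 107169889767548043437009052362990807590728190,
   nat_lit 107169889767548043437009052362990807591902114,
   nat_lit 107169889767548043437009052362990807685816250,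
   nat_lit 107169889767548043437009052362990807898832174,
   nat_lit 107169889767548043437009052362990814004090174,
   nat_lit 107169889767548043437009052362990839728875350,
   nat_lit 107169889767548043437009052362991324536058262,
   nat_lit 107169889767548043437009052362994297533569678,
   nat_lit 107169889767548043437009052363039015111673090,
   nat_lit 107169889767548043437009052363386265761770690,
   nat_lit 107169889767548043437009052367990025823537646,
   nat_lit 107169889767548043437009052409456592389226722,
   nat_lit 107169889767548043437009052922144217175976414,
   nat_lit 107169889767548043437009057988085941138184030,
   nat_lit 107169889767548043437009118324117632530350082,
   nat_lit 107169889767548043437009749960762410519374566,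
   nat_lit 107169889767548043437017130962732814545306510,
   nat_lit 107169889767548043437097250537068353452913014,
   nat_lit 107169889767548043438025203662873806730850334,
   nat_lit 107169889767548043448332348074042590323054766,
   nat_lit 107169889767548043567300424416011828382500530,
   nat_lit 107169889767548044908511750032119878754356414,
   nat_lit 107169889767548060379215064845230869725986294,
   nat_lit 107169889767548236511496121311595038448195222,
   nat_lit 107169889767550269597751557185808141963347686,
   nat_lit 107169889767573570325880719845950116459403878,
   nat_lit 107169889767842868943156257323901246484166290,
   nat_lit 107169889770943518014204594975663598185653054,
   nat_lit 107169889806830209034374072786869672240192286]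

theorem run0 : go idx G base H RK CK 135 0 168 ts0 = true := by decide +kernel

end S9x1

end Vale.Agent.P348.MomK
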