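import Vale.Agent.P348.MomG9x2
import Vale.Agent.P348.MomR9x1x0

/-! Generated kernel computation of sector moments. -/

open Nat (add sub)

set_option maxRecDepth 1000000
set_option maxHeartbeats 0
set_option linter.unusedVariables false

namespace Vale.Agent.P348.MomK

namespace S9x2

noncomputable def ts0 : List Nat :=
  [nat_lit 107169889767548043437009052362990807588803385,
   nat_lit 107169889767548043437009052362990807588798464,
   nat_lit 107169889767548043437009052362990807588857522,
   nat_lit 107169889767548043437009052362990807588828002,
   nat_lit 107169889767548043437009052362990807590728190,
   nat_lit 107169889767548043437009052362990807591902114,
   nat_lit 107169889767548043437009052362990807685816250,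
   nat_lit 107169889767548043437009052362990807898832174,
   nat_lit 107169889767548043437009052362990814004090174,
   nat_lit 107169889767548043437009052362990840100464470,
   nat_lit 107169889767548043437009052362991330109895062,
   nat_lit 107169889767548043437009052362994460010912398,
   nat_lit 107169889767548043437009052363041410107507970,
   nat_lit 107169889767548043437009052363432002094845122,
   nat_lit 107169889767548043437009052368647648844970478,
   nat_lit 107169889767548043437009052420019849254936802,
   nat_lit 107169889767548043437009053070404913921176030,
   nat_lit 107169889767548043437009060170956256692775774,
   nat_lit 107169889767548043437009148332667587720929282,
   nat_lit 107169889767548043437010170722007735493442726,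
   nat_lit 107169889767548043437022818409065147164626190,
   nat_lit 107169889767548043437174674728845200428200038,
   nat_lit 107169889767548043439057815745205273091581374,
   nat_lit 107169889767548043462125103203488525422920062,
   nat_lit 107169889767548043749330192850512746436963890,
   nat_lit 107169889767548047308901608795563892016442014,
   nat_lit 107169889767548091798466886919728761701134614,
   nat_lit 107169889767548647094810642657467129675640086,
   nat_lit 107169889767555609183378937938349998782617318,
   nat_lit 107169889767642886629453923828433491825856454,
   nat_lit 107169889768739731226488858877644190525346130,
   nat_lit 107169889782528238252259675406645057706218478,
   nat_lit 107169889956114701183941020516880234395675934]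

theorem run0 : go idx G base H RK CK 135 0 168 ts0 = true := by decide +kernel

end S9x2

end Vale.Agent.P348.MomK
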