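import Vale.Agent.P348.MomG9x3
import Vale.Agent.P348.MomR9x2x0

/-! Generated kernel computation of sector moments. -/

open Nat (add sub)

set_option maxRecDepth 1000000
set_option maxHeartbeats 0
set_option linter.unusedVariables false

namespace Vale.Agent.P348.MomK

namespace S9x3

noncomputable def ts0 : List Nat :=
  [nat_lit 107148111696065103375347396388115174423270200,
   nat_lit 107148111696065103375347396388115174423265280,
   nat_lit 107148111696065103375347396388115174423324302,
   nat_lit 107148111696065103375347396388115174423294764,
   nat_lit 107148111696065103375347396388115174425191838,
   nat_lit 107148111696065103375347396388115174426354620,
   nat_lit 107148111696065103375347396388115174519888290,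
   nat_lit 107148111696065103375347396388115174730161968,
   nat_lit 107148111696065103375347396388115180778394654,
   nat_lit 107148111696065103375347396388115206114196140,
   nat_lit 107148111696065103375347396388115682587435302,
   nat_lit 107148111696065103375347396388118601122544844,
   nat_lit 107148111696065103375347396388162158347952610,
   nat_lit 107148111696065103375347396388501206029140624,
   nat_lit 107148111696065103375347396392946072589429054,
   nat_lit 107148111696065103375347396433130644905328204,
   nat_lit 107148111696065103375347396923926541285682142,
   nat_lit 107148111696065103375347401789484415525785856,
   nat_lit 107148111696065103375347459066236039977081930,
   nat_lit 107148111696065103375348059844835231406023632,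
   nat_lit 107148111696065103375355007687609994487415598,
   nat_lit 107148111696065103375430457792228013313154676,
   nat_lit 107148111696065103376296554820806293207822182,
   nat_lit 107148111696065103385908126170812613696414916,
   nat_lit 107148111696065103496008653224938769105911954,
   nat_lit 107148111696065104734942475290011663772035820,
   nat_lit 107148111696065118933887492277780112090789566,
   nat_lit 107148111696065280183923622017813057924571960,
   nat_lit 107148111696067131197028900302631542224337094,
   nat_lit 107148111696088284650182009098767862476800416,
   nat_lit 107148111696331591909309107230915877502812210,
   nat_lit 107148111699124544719189088450779857378098880,
   nat_lit 107148111731313386983160437865820634182308382]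

theorem run0 : go idx G base H RK CK 135 0 147 ts0 = true := by decide +kernel

end S9x3

end Vale.Agent.P348.MomK
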