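import Vale.Agent.P348.MomG9x4
import Vale.Agent.P348.MomR9x3x0

/-! Generated kernel computation of sector moments. -/

open Nat (add sub)

set_option maxRecDepth 1000000
set_option maxHeartbeats 0
set_option linter.unusedVariables false

namespace Vale.Agent.P348.MomK

namespace S9x4

noncomputable def ts0 : List Nat :=
  [nat_lit 52942491775027289899485674922664225411172735,
   nat_lit 52942491775027289899485674922664225411170304,
   nat_lit 52942491775027289899485674922664225411200364,
   nat_lit 52942491775027289899485674922664225411186666,
   nat_lit 52942491775027289899485674922664225412176918,
   nat_lit 52942491775027289899485674922664225412907682,
   nat_lit 52942491775027289899485674922664225462889722,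
   nat_lit 52942491775027289899485674922664225586300494,
   nat_lit 52942491775027289899485674922664228902045934,
   nat_lit 52942491775027289899485674922664243807556782,
   nat_lit 52942491775027289899485674922664513174785178,
   nat_lit 52942491775027289899485674922666261038883718,
   nat_lit 52942491775027289899485674922691812906472162,
   nat_lit 52942491775027289899485674922900661427157862,
   nat_lit 52942491775027289899485674925622642413841234,
   nat_lit 52942491775027289899485674951306500723436932,
   nat_lit 52942491775027289899485675266773777836958498,
   nat_lit 52942491775027289899485678518253799541664052,
   nat_lit 52942491775027289899485717351314121289005358,
   nat_lit 52942491775027289899486139924060124280010392,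
   nat_lit 52942491775027289899491131106871788710797546,
   nat_lit 52942491775027289899547311859061258851377780,
   nat_lit 52942491775027289900209282389124373253324406,
   nat_lit 52942491775027289907823209174750486707584492,
   nat_lit 52942491775027289997688021442583682775231902,
   nat_lit 52942491775027291046193909955882003634246578,
   nat_lit 52942491775027303462912685008811969608355578,
   nat_lit 52942491775027449768667945605330615453681916,
   nat_lit 52942491775029188944979823906186510565269238,
   nat_lit 52942491775049826268761792143144520875366758,
   nat_lit 52942491775296045216363969801297617821010518,
   nat_lit 52942491778232961050027483568439711750680472,
   nat_lit 52942491813387468292940479424994760991743966]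

theorem run0 : go idx G base H RK CK 135 0 157 ts0 = true := by decide +kernel

end S9x4

end Vale.Agent.P348.MomK
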