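import Vale.Agent.P348.MomG9x4
import Vale.Agent.P348.MomR9x4x0

/-! Generated kernel computation of sector moments. -/

open Nat (add sub)

set_option maxRecDepth 1000000
set_option maxHeartbeats 0
set_option linter.unusedVariables false

namespace Vale.Agent.P348.MomK

namespace S9x4

noncomputable def ts1 : List Nat :=
  [nat_lit 54227397992520753537523377440326582177630650,
   nat_lit 54227397992520753537523377440326582177628160,
   nat_lit 54227397992520753537523377440326582177657158,
   nat_lit 54227397992520753537523377440326582177641336,
   nat_lit 54227397992520753537523377440326582178551272,
   nat_lit 54227397992520753537523377440326582178994432,
   nat_lit 54227397992520753537523377440326582222926528,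
   nat_lit 54227397992520753537523377440326582312531680,
   nat_lit 54227397992520753537523377440326585102044240,
   nat_lit 54227397992520753537523377440326596107113128,
   nat_lit 54227397992520753537523377440326812754732284,
   nat_lit 54227397992520753537523377440328095507683080,
   nat_lit 54227397992520753537523377440347764732514848,
   nat_lit 54227397992520753537523377440498808931879260,
   nat_lit 54227397992520753537523377442513251457479324,
   nat_lit 54227397992520753537523377460755909258676830,
   nat_lit 54227397992520753537523377686658640615658172,
   nat_lit 54227397992520753537523379954074462307678250,
   nat_lit 54227397992520753537523407041083896649620948,
   nat_lit 54227397992520753537523696799223737009939790,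
   nat_lit 54227397992520753537527108124254017680710244,
   nat_lit 54227397992520753537565078576928029158552930,
   nat_lit 54227397992520753538010549871002170648385352,
   nat_lit 54227397992520753543095936662743096415477026,
   nat_lit 54227397992520753602865525004716872252803668,
   nat_lit 54227397992520754296615884790368006370578436,
   nat_lit 54227397992520762482589578110883649650190636,
   nat_lit 54227397992520858582109761887139476489747850,
   nat_lit 54227397992521997613934456512714208128291504,
   nat_lit 54227397992535477362151783624129153206034624,
   nat_lit 54227397992695934788933949706275145811362972,
   nat_lit 54227397994606100855610206149477325224268886,
   nat_lit 54227398017430594112190454967828049312970560]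

theorem run1 : go idx G base H RK CK 135 157 158 ts1 = true := by decide +kernel

end S9x4

end Vale.Agent.P348.MomK
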