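import Vale.Agent.P348.MomC
import Vale.Agent.P348.MomData
import Vale.Agent.P348.MomG2
import Vale.Agent.P348.MomG3
import Vale.Agent.P348.MomG4
import Vale.Agent.P348.MomG5
import Vale.Agent.P348.MomG6
import Vale.Agent.P348.MomG7
import Vale.Agent.P348.MomG8x0
import Vale.Agent.P348.MomG8x1
import Vale.Agent.P348.MomG8x2
import Vale.Agent.P348.MomG8x3
import Vale.Agent.P348.MomG8x4
import Vale.Agent.P348.MomR9x4x1

/-! Part Mom: exact sector moments by kernel computation. -/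

namespace Vale.Agent.P348

namespace MomK

set_option maxRecDepth 1000000

theorem mq2x0 (k : ℕ) (hk : k < md2x0.length) :
    mom 2 (gc 0) (ac 0) k = md2x0.getD k 0 :=
  final1 (n := 1) (by norm_num) (by norm_num) S2x0.spec (ac 0) S2x0.cover S2x0.run0
    md2x0 (by decide +kernel) k hk

theorem mq2x1 (k : ℕ) (hk : k < md2x1.length) :
    mom 2 (gc 1) (ac 1) k = md2x1.getD k 0 :=
  final1 (n := 1) (by norm_num) (by norm_num) S2x1.spec (ac 1) S2x1.cover S2x1.run0
    md2x1 (by decide +kernel) k hk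

theorem mq2x2 (k : ℕ) (hk : k < md2x2.length) :
    mom 2 (gc 2) (ac 2) k = md2x2.getD k 0 :=
  final1 (n := 1) (by norm_num) (by norm_num) S2x2.spec (ac 2) S2x2.cover S2x2.run0
    md2x2 (by decide +kernel) k hk

theorem mq2x3 (k : ℕ) (hk : k < md2x3.length) :
    mom 2 (gc 3) (ac 3) k = md2x3.getD k 0 :=
  final1 (n := 1) (by norm_num) (by norm_num) S2x3.spec (ac 3) S2x3.cover S2x3.run0
    md2x3 (by decide +kernel) k hk

theorem mq2x4 (k : ℕ) (hk : k < md2x4.length) :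
    mom 2 (gc 4) (ac 4) k = md2x4.getD k 0 :=
  final1 (n := 1) (by norm_num) (by norm_num) S2x4.spec (ac 4) S2x4.cover S2x4.run0
    md2x4 (by decide +kernel) k hk

theorem mq3x0 (k : ℕ) (hk : k < md3x0.length) :
    mom 3 (gc 0) (ac 0) k = md3x0.getD k 0 :=
  final1 (n := 2) (by norm_num) (by norm_num) S3x0.spec (ac 0) S3x0.cover S3x0.run0
    md3x0 (by decide +kernel) k hk

theorem mq3x1 (k : ℕ) (hk : k < md3x1.length) :
    mom 3 (gc 1) (ac 1) k = md3x1.getD k 0 :=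
  final1 (n := 2) (by norm_num) (by norm_num) S3x1.spec (ac 1) S3x1.cover S3x1.run0
    md3x1 (by decide +kernel) k hk

theorem mq3x2 (k : ℕ) (hk : k < md3x2.length) :
    mom 3 (gc 2) (ac 2) k = md3x2.getD k 0 :=
  final1 (n := 2) (by norm_num) (by norm_num) S3x2.spec (ac 2) S3x2.cover S3x2.run0
    md3x2 (by decide +kernel) k hk

theorem mq3x3 (k : ℕ) (hk : k < md3x3.length) :
    mom 3 (gc 3) (ac 3) k = md3x3.getD k 0 :=
  final1 (n := 2) (by norm_num) (by norm_num) S3x3.spec (ac 3) S3x3.cover S3x3.run0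
    md3x3 (by decide +kernel) k hk

theorem mq3x4 (k : ℕ) (hk : k < md3x4.length) :
    mom 3 (gc 4) (ac 4) k = md3x4.getD k 0 :=
  final1 (n := 2) (by norm_num) (by norm_num) S3x4.spec (ac 4) S3x4.cover S3x4.run0
    md3x4 (by decide +kernel) k hk

theorem mq4x0 (k : ℕ) (hk : k < md4x0.length) :
    mom 4 (gc 0) (ac 0) k = md4x0.getD k 0 :=
  final1 (n := 3) (by norm_num) (by norm_num) S4x0.spec (ac 0) S4x0.cover S4x0.run0
    md4x0 (by decide +kernel) k hk

theorem mq4x1 (k : ℕ) (hk : k < md4x1.length) :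
    mom 4 (gc 1) (ac 1) k = md4x1.getD k 0 :=
  final1 (n := 3) (by norm_num) (by norm_num) S4x1.spec (ac 1) S4x1.cover S4x1.run0
    md4x1 (by decide +kernel) k hk

theorem mq4x2 (k : ℕ) (hk : k < md4x2.length) :
    mom 4 (gc 2) (ac 2) k = md4x2.getD k 0 :=
  final1 (n := 3) (by norm_num) (by norm_num) S4x2.spec (ac 2) S4x2.cover S4x2.run0
    md4x2 (by decide +kernel) k hk

theorem mq4x3 (k : ℕ) (hk : k < md4x3.length) :
    mom 4 (gc 3) (ac 3) k = md4x3.getD k 0 :=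
  final1 (n := 3) (by norm_num) (by norm_num) S4x3.spec (ac 3) S4x3.cover S4x3.run0
    md4x3 (by decide +kernel) k hk

theorem mq4x4 (k : ℕ) (hk : k < md4x4.length) :
    mom 4 (gc 4) (ac 4) k = md4x4.getD k 0 :=
  final1 (n := 3) (by norm_num) (by norm_num) S4x4.spec (ac 4) S4x4.cover S4x4.run0
    md4x4 (by decide +kernel) k hk

theorem mq5x0 (k : ℕ) (hk : k < md5x0.length) :
    mom 5 (gc 0) (ac 0) k = md5x0.getD k 0 :=
  final1 (n := 4) (by norm_num) (by norm_num) S5x0.spec (ac 0) S5x0.cover S5x0.run0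
    md5x0 (by decide +kernel) k hk

theorem mq5x1 (k : ℕ) (hk : k < md5x1.length) :
    mom 5 (gc 1) (ac 1) k = md5x1.getD k 0 :=
  final1 (n := 4) (by norm_num) (by norm_num) S5x1.spec (ac 1) S5x1.cover S5x1.run0
    md5x1 (by decide +kernel) k hk

theorem mq5x2 (k : ℕ) (hk : k < md5x2.length) :
    mom 5 (gc 2) (ac 2) k = md5x2.getD k 0 :=
  final1 (n := 4) (by norm_num) (by norm_num) S5x2.spec (ac 2) S5x2.cover S5x2.run0
    md5x2 (by decide +kernel) k hk

theorem mq5x3 (k : ℕ) (hk : k < md5x3.length) :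
    mom 5 (gc 3) (ac 3) k = md5x3.getD k 0 :=
  final1 (n := 4) (by norm_num) (by norm_num) S5x3.spec (ac 3) S5x3.cover S5x3.run0
    md5x3 (by decide +kernel) k hk

theorem mq5x4 (k : ℕ) (hk : k < md5x4.length) :
    mom 5 (gc 4) (ac 4) k = md5x4.getD k 0 :=
  final1 (n := 4) (by norm_num) (by norm_num) S5x4.spec (ac 4) S5x4.cover S5x4.run0
    md5x4 (by decide +kernel) k hk

theorem mq6x0 (k : ℕ) (hk : k < md6x0.length) :
    mom 6 (gc 0) (ac 0) k = md6x0.getD k 0 :=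
  final1 (n := 5) (by norm_num) (by norm_num) S6x0.spec (ac 0) S6x0.cover S6x0.run0
    md6x0 (by decide +kernel) k hk

theorem mq6x1 (k : ℕ) (hk : k < md6x1.length) :
    mom 6 (gc 1) (ac 1) k = md6x1.getD k 0 :=
  final1 (n := 5) (by norm_num) (by norm_num) S6x1.spec (ac 1) S6x1.cover S6x1.run0
    md6x1 (by decide +kernel) k hk

theorem mq6x2 (k : ℕ) (hk : k < md6x2.length) :
    mom 6 (gc 2) (ac 2) k = md6x2.getD k 0 :=
  final1 (n := 5) (by norm_num) (by norm_num) S6x2.spec (ac 2) S6x2.cover S6x2.run0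
    md6x2 (by decide +kernel) k hk

theorem mq6x3 (k : ℕ) (hk : k < md6x3.length) :
    mom 6 (gc 3) (ac 3) k = md6x3.getD k 0 :=
  final1 (n := 5) (by norm_num) (by norm_num) S6x3.spec (ac 3) S6x3.cover S6x3.run0
    md6x3 (by decide +kernel) k hk

theorem mq6x4 (k : ℕ) (hk : k < md6x4.length) :
    mom 6 (gc 4) (ac 4) k = md6x4.getD k 0 :=
  final1 (n := 5) (by norm_num) (by norm_num) S6x4.spec (ac 4) S6x4.cover S6x4.run0
    md6x4 (by decide +kernel) k hk

theorem mq7x0 (k : ℕ) (hk : k < md7x0.length) :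
    mom 7 (gc 0) (ac 0) k = md7x0.getD k 0 :=
  final1 (n := 6) (by norm_num) (by norm_num) S7x0.spec (ac 0) S7x0.cover S7x0.run0
    md7x0 (by decide +kernel) k hk

theorem mq7x1 (k : ℕ) (hk : k < md7x1.length) :
    mom 7 (gc 1) (ac 1) k = md7x1.getD k 0 :=
  final1 (n := 6) (by norm_num) (by norm_num) S7x1.spec (ac 1) S7x1.cover S7x1.run0
    md7x1 (by decide +kernel) k hk

theorem mq7x2 (k : ℕ) (hk : k < md7x2.length) :
    mom 7 (gc 2) (ac 2) k = md7x2.getD k 0 :=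
  final1 (n := 6) (by norm_num) (by norm_num) S7x2.spec (ac 2) S7x2.cover S7x2.run0
    md7x2 (by decide +kernel) k hk

theorem mq7x3 (k : ℕ) (hk : k < md7x3.length) :
    mom 7 (gc 3) (ac 3) k = md7x3.getD k 0 :=
  final1 (n := 6) (by norm_num) (by norm_num) S7x3.spec (ac 3) S7x3.cover S7x3.run0
    md7x3 (by decide +kernel) k hk

theorem mq7x4 (k : ℕ) (hk : k < md7x4.length) :
    mom 7 (gc 4) (ac 4) k = md7x4.getD k 0 :=
  final1 (n := 6) (by norm_num) (by norm_num) S7x4.spec (ac 4) S7x4.cover S7x4.run0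
    md7x4 (by decide +kernel) k hk

theorem mq8x0 (k : ℕ) (hk : k < md8x0.length) :
    mom 8 (gc 0) (ac 0) k = md8x0.getD k 0 :=
  final1 (n := 7) (by norm_num) (by norm_num) S8x0.spec (ac 0) S8x0.cover S8x0.run0
    md8x0 (by decide +kernel) k hk

theorem mq8x1 (k : ℕ) (hk : k < md8x1.length) :
    mom 8 (gc 1) (ac 1) k = md8x1.getD k 0 :=
  final1 (n := 7) (by norm_num) (by norm_num) S8x1.spec (ac 1) S8x1.cover S8x1.run0
    md8x1 (by decide +kernel) k hk

theorem mq8x2 (k : ℕ) (hk : k < md8x2.length) :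
    mom 8 (gc 2) (ac 2) k = md8x2.getD k 0 :=
  final1 (n := 7) (by norm_num) (by norm_num) S8x2.spec (ac 2) S8x2.cover S8x2.run0
    md8x2 (by decide +kernel) k hk

theorem mq8x3 (k : ℕ) (hk : k < md8x3.length) :
    mom 8 (gc 3) (ac 3) k = md8x3.getD k 0 :=
  final1 (n := 7) (by norm_num) (by norm_num) S8x3.spec (ac 3) S8x3.cover S8x3.run0
    md8x3 (by decide +kernel) k hk

theorem mq8x4 (k : ℕ) (hk : k < md8x4.length) :
    mom 8 (gc 4) (ac 4) k = md8x4.getD k 0 :=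
  final1 (n := 7) (by norm_num) (by norm_num) S8x4.spec (ac 4) S8x4.cover S8x4.run0
    md8x4 (by decide +kernel) k hk

theorem mq9x0 (k : ℕ) (hk : k < md9x0.length) :
    mom 9 (gc 0) (ac 0) k = md9x0.getD k 0 :=
  final1 (n := 8) (by norm_num) (by norm_num) S9x0.spec (ac 0) S9x0.cover S9x0.run0
    md9x0 (by decide +kernel) k hk

theorem mq9x1 (k : ℕ) (hk : k < md9x1.length) :
    mom 9 (gc 1) (ac 1) k = md9x1.getD k 0 :=
  final1 (n := 8) (by norm_num) (by norm_num) S9x1.spec (ac 1) S9x1.cover S9x1.run0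
    md9x1 (by decide +kernel) k hk

theorem mq9x2 (k : ℕ) (hk : k < md9x2.length) :
    mom 9 (gc 2) (ac 2) k = md9x2.getD k 0 :=
  final1 (n := 8) (by norm_num) (by norm_num) S9x2.spec (ac 2) S9x2.cover S9x2.run0
    md9x2 (by decide +kernel) k hk

theorem mq9x3 (k : ℕ) (hk : k < md9x3.length) :
    mom 9 (gc 3) (ac 3) k = md9x3.getD k 0 :=
  final1 (n := 8) (by norm_num) (by norm_num) S9x3.spec (ac 3) S9x3.cover S9x3.run0
    md9x3 (by decide +kernel) k hk

theorem mq9x4 (k : ℕ) (hk : k < md9x4.length) :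
    mom 9 (gc 4) (ac 4) k = md9x4.getD k 0 :=
  final2 (n := 8) (by norm_num) (by norm_num) S9x4.spec (ac 4) S9x4.cover S9x4.run0 S9x4.run1 rfl
    md9x4 (by decide +kernel) k hk

end MomK

theorem mom_eq (L : ℕ) (h2 : 2 ≤ L) (h9 : L ≤ 9) (c : Fin 5) (n : ℕ)
    (hn : n < (msData L c).length) : mom L (gc c) (ac c) n = (msData L c).getD n 0 := by
  interval_cases L <;> fin_cases c
  · exact MomK.mq2x0 n hn
  · exact MomK.mq2x1 n hn
  · exact MomK.mq2x2 n hn
  · exact MomK.mq2x3 n hn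
  · exact MomK.mq2x4 n hn
  · exact MomK.mq3x0 n hn
  · exact MomK.mq3x1 n hn
  · exact MomK.mq3x2 n hn
  · exact MomK.mq3x3 n hn
  · exact MomK.mq3x4 n hn
  · exact MomK.mq4x0 n hn
  · exact MomK.mq4x1 n hn
  · exact MomK.mq4x2 n hn
  · exact MomK.mq4x3 n hn
  · exact MomK.mq4x4 n hn
  · exact MomK.mq5x0 n hn
  · exact MomK.mq5x1 n hn
  · exact MomK.mq5x2 n hn
  · exact MomK.mq5x3 n hn
  · exact MomK.mq5x4 n hn
  · exact MomK.mq6x0 n hn
  · exact MomK.mq6x1 n hn
  · exact MomK.mq6x2 n hn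
  · exact MomK.mq6x3 n hn
  · exact MomK.mq6x4 n hn
  · exact MomK.mq7x0 n hn
  · exact MomK.mq7x1 n hn
  · exact MomK.mq7x2 n hn
  · exact MomK.mq7x3 n hn
  · exact MomK.mq7x4 n hn
  · exact MomK.mq8x0 n hn
  · exact MomK.mq8x1 n hn
  · exact MomK.mq8x2 n hn
  · exact MomK.mq8x3 n hn
  · exact MomK.mq8x4 n hn
  · exact MomK.mq9x0 n hn
  · exact MomK.mq9x1 n hn
  · exact MomK.mq9x2 n hn
  · exact MomK.mq9x3 n hn
  · exact MomK.mq9x4 n hn

end Vale.Agent.P348
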