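import Vale.Agent.P348.QuadD

namespace Vale.Agent.P348

theorem qd8_0 : quadChk (msData 8 0) 11756216 11889350
    [3501130, 4140979, 4822347, 5789587, 6777891, 7958029, 9278704, 10672143, 12084294, 13531898, 15009050, 16380072, 17738910, 18915578, 20101755, 20777586, 21951446, 23777010]
    [3501024, 4135956, 4801930, 5746943, 6688926, 7861387, 9156888, 10526580, 11914235, 13362151, 14811839, 16182218, 17538761, 18786146, 20021483, 20716907, 21950414, 23776514] 363 (outs 8 0) = true := by decide +kernel

theorem qd8_1 : quadChk (msData 8 1) 11756216 11277399
    [2889310, 3522199, 4262762, 5174324, 6208826, 7415617, 8758582, 10145026, 11588875, 13032655, 14532234, 15976221, 17335688, 18551375, 19718253, 20811710, 21250986, 22542645]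
    [2889147, 3517977, 4233576, 5123195, 6109412, 7296830, 8596376, 9953132, 11363253, 12792918, 14278829, 15690412, 17048141, 18290653, 19548600, 20600441, 21199681, 22536246] 352 (outs 8 1) = true := by decide +kernel

theorem qd8_2 : quadChk (msData 8 2) 11756216 11699096
    [3336857, 3798110, 4483157, 5357070, 6449619, 7696091, 8991857, 10388997, 11817403, 13300314, 14760150, 16188514, 17582601, 18765405, 19938557, 20904586, 21400360, 23397211]
    [3333570, 3785756, 4440887, 5282696, 6356480, 7564336, 8827048, 10192046, 11607717, 13085028, 14528683, 15957313, 17323911, 18583992, 19834004, 20799133, 21368406, 23394599] 358 (outs 8 2) = true := by decide +kernel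

theorem qd8_3 : quadChk (msData 8 3) 11756216 11311108
    [2950531, 3416250, 4117415, 5009387, 6106186, 7372361, 8699001, 10108416, 11565626, 13060709, 14555313, 16041317, 17444749, 18718235, 19925159, 20896801, 21617050, 22604139]
    [2946840, 3402749, 4071708, 4927189, 6000969, 7229592, 8514718, 9891524, 11334621, 12815241, 14305551, 15778357, 17162260, 18460233, 19712403, 20764353, 21561649, 22589020] 352 (outs 8 3) = true := by decide +kernel

theorem qd8_4 : quadChk (msData 8 4) 11756216 10944404
    [2731606, 3148775, 3850222, 4724662, 5778648, 7012862, 8302880, 9673580, 11085903, 12541657, 13995490, 15415915, 16722796, 17962144, 19156899, 19979092, 20989234, 21648313]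
    [2729324, 3138123, 3815930, 4651574, 5686618, 6884491, 8134395, 9469791, 10869137, 12308629, 13749025, 15150391, 16473259, 17780444, 18976755, 19907728, 20972386, 21646582] 347 (outs 8 4) = true := by decide +kernel


end Vale.Agent.P348
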