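import Vale.Agent.P348.QuadD

namespace Vale.Agent.P348

theorem qd9_0 : quadChk (msData 9 0) 13225743 13098207
    [3684315, 4326664, 5414392, 6632202, 8082070, 9704765, 11423239, 13197207, 15019842, 16839585, 18603619, 20271214, 21822560, 23167012, 24153962, 26184441]
    [3679940, 4303101, 5356131, 6521214, 7929320, 9512396, 11188547, 12926918, 14727175, 16537611, 18294381, 19983094, 21619617, 23038716, 24121700, 26169548] 402 (outs 9 0) = true := by decide +kernel

theorem qd9_1 : quadChk (msData 9 1) 13225743 12637714
    [3218829, 3916173, 4991046, 6212819, 7673317, 9304996, 11037265, 12833310, 14683016, 16530450, 18325145, 20027370, 21619040, 23073217, 24146335, 24901897]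
    [3215070, 3885832, 4911517, 6064939, 7472474, 9052262, 10729910, 12480664, 14290898, 16093206, 17862638, 19577541, 21203179, 22682993, 23781415, 24869765] 395 (outs 9 1) = true := by decide +kernel

theorem qd9_2 : quadChk (msData 9 2) 13225743 13272667
    [4059416, 4657390, 5638616, 6909692, 8405322, 10024416, 11770309, 13589910, 15439458, 17276882, 19090394, 20855027, 22440957, 23668350, 24770281, 26533641]
    [4049681, 4618460, 5553730, 6784520, 8232776, 9802806, 11508564, 13283062, 15092952, 16915478, 18721751, 20454769, 22066032, 23424374, 24678932, 26492527] 406 (outs 9 2) = true := by decide +kernel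

theorem qd9_3 : quadChk (msData 9 3) 13225743 12594995
    [3378437, 3966105, 4930278, 6189009, 7666477, 9264298, 10988748, 12781909, 14604929, 16420770, 18203591, 19892168, 21425266, 22854305, 23962007, 24840810]
    [3368164, 3925158, 4841195, 6058827, 7484865, 9029111, 10706988, 12454512, 14237264, 16024910, 17799688, 19502718, 21096090, 22606010, 23809357, 24818330] 394 (outs 9 3) = true := by decide +kernel

theorem qd9_4 : quadChk (msData 9 4) 13225743 12827362
    [3520135, 4111613, 5091843, 6368988, 7858827, 9469664, 11205959, 13009978, 14846356, 16677888, 18473598, 20177385, 21709985, 23153396, 24371288, 25586100]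
    [3507623, 4073919, 5013345, 6251378, 7695181, 9258752, 10954761, 12722633, 14528967, 16340776, 18135436, 19859467, 21458311, 23009288, 24316951, 25547131] 398 (outs 9 4) = true := by decide +kernel


end Vale.Agent.P348
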