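import Vale.Agent.P348.Var
import Vale.Agent.P348.VarChkA

/-! Part VarChk: an explicit exactly isometric matrix product state. -/

namespace Vale.Agent.P348

open Matrix Finset
open scoped Kronecker

/-- the normalising energy density `1.40145016`; the true value is `1.40148404`. -/
noncomputable def eps0 : ℝ := 1469527 / 2 ^ 20

theorem ent_tab {m i j : ℕ} (f : ℕ → ℕ → ℤ) (hi : i < m) (hj : j < m) :
    ent (tab m f) i j = f i j := by
  simp [ent, tab, List.getD_eq_getElem?_getD, hi, hj]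

theorem vall_iff {m : ℕ} {p : ℕ → ℕ → Bool} (h : vall m p = true) (i j : Fin m) :
    p i j = true := by
  simp only [vall, List.all_eq_true, List.mem_range] at h
  exact h i i.2 j j.2

/-- a list of rows as a real matrix. -/
def toR (m : ℕ) (L : List (List ℤ)) : Matrix (Fin m) (Fin m) ℝ := fun i j => (ent L i j : ℝ)

theorem list_sum_fin (m : ℕ) (f : ℕ → ℤ) :
    ((((List.range m).map f).sum : ℤ) : ℝ) = ∑ k : Fin m, (f k : ℝ) := by
  rw [Fin.sum_univ_eq_sum_range (fun k => (f k : ℝ)) m, ← Int.cast_sum]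
  rfl

theorem toR_mm (m : ℕ) (A B : List (List ℤ)) : toR m (vmm m A B) = toR m A * toR m B := by
  ext i j
  simp only [toR, vmm, ent_tab _ i.2 j.2, list_sum_fin, Matrix.mul_apply, Int.cast_mul]

theorem toR_mt (m : ℕ) (A B : List (List ℤ)) : toR m (vmt m A B) = (toR m A)ᵀ * toR m B := by
  ext i j
  simp only [toR, vmt, ent_tab _ i.2 j.2, list_sum_fin, Matrix.mul_apply, Int.cast_mul,
    transpose_apply]

theorem toR_ma (m : ℕ) (A B : List (List ℤ)) : toR m (vma m A B) = toR m A + toR m B := by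
  ext i j
  simp only [toR, vma, ent_tab _ i.2 j.2, Int.cast_add, Matrix.add_apply]

theorem dom_psd {m : ℕ} (R : Matrix (Fin m) (Fin m) ℝ) (c r : ℝ) (hc : m * r ≤ c)
    (h : ∀ i j, |R i j - if i = j then c else 0| ≤ r) (x : Fin m → ℝ) : 0 ≤ x ⬝ᵥ R *ᵥ x := by
  have h1 : ∀ i j, (if i = j then c * x i ^ 2 else 0) - r * (x i ^ 2 + x j ^ 2) / 2
      ≤ x i * (R i j * x j) := by
    intro i j
    obtain ⟨a, b⟩ := abs_le.1 (h i j)
    have p1 := mul_nonneg (sub_nonneg.2 a) (sq_nonneg (x i + x j))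
    have p2 := mul_nonneg (sub_nonneg.2 b) (sq_nonneg (x i - x j))
    by_cases hij : i = j
    · subst hij
      simp only [if_true] at p1 p2 ⊢
      nlinarith
    · simp only [if_neg hij] at p1 p2 ⊢
      nlinarith
  have h2 : ∑ i, ∑ j, ((if i = j then c * x i ^ 2 else 0) - r * (x i ^ 2 + x j ^ 2) / 2)
      = (c - m * r) * ∑ i, x i ^ 2 := by
    simp only [Finset.sum_sub_distrib, Finset.sum_ite_eq, Finset.mem_univ, if_true, mul_add,
      add_div, Finset.sum_add_distrib, Finset.sum_const, Finset.card_univ, Fintype.card_fin,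
      nsmul_eq_mul, ← Finset.mul_sum, ← Finset.sum_div]
    ring
  calc 0 ≤ (c - m * r) * ∑ i, x i ^ 2 :=
        mul_nonneg (sub_nonneg.2 hc) (Finset.sum_nonneg fun i _ => sq_nonneg _)
    _ = _ := h2.symm
    _ ≤ ∑ i, ∑ j, x i * (R i j * x j) :=
        Finset.sum_le_sum fun i _ => Finset.sum_le_sum fun j _ => h1 i j
    _ = _ := by simp only [dotProduct, mulVec, Finset.mul_sum]

/-- real Pauli matrices. -/
def tauZ : Fin 3 → Matrix (Fin 2) (Fin 2) ℤ := ![!![0, 1; 1, 0], !![0, 1; -1, 0], !![1, 0; 0, -1]]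

/-- positive weights of the transformed two-site operator. -/
def ccZ (b e b' e' : Fin 3) : ℤ :=
  if (b ≠ e ∧ b' = e ∧ e' = b) ∨ (b = e ∧ b' = e' ∧ b ≠ b') then 1 else 0

theorem tauZ_loc : ∀ b e b' e' : Fin 3,
    locP b e b' e' • ((tauZ b * tauZ e)ᵀ * (tauZ b' * tauZ e')) =
      ccZ b e b' e' • (1 : Matrix (Fin 2) (Fin 2) ℤ) := by
  decide +kernel

theorem tauZ_iso : ∀ a : Fin 3, (tauZ a)ᵀ * tauZ a = 1 := by decide +kernel

noncomputable def tau (a : Fin 3) : Matrix (Fin 2) (Fin 2) ℝ :=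
  (Int.castRingHom ℝ).mapMatrix (tauZ a)

theorem tau_T (X : Matrix (Fin 2) (Fin 2) ℤ) :
    ((Int.castRingHom ℝ).mapMatrix X)ᵀ = (Int.castRingHom ℝ).mapMatrix Xᵀ := rfl

theorem tau_iso (a : Fin 3) : (tau a)ᵀ * tau a = 1 := by
  rw [tau, tau_T, ← map_mul, tauZ_iso, map_one]

theorem tau_loc (b e b' e' : Fin 3) :
    (locP b e b' e' : ℝ) • ((tau b * tau e)ᵀ * (tau b' * tau e')) =
      (ccZ b e b' e' : ℝ) • (1 : Matrix (Fin 2) (Fin 2) ℝ) := by
  have h := congrArg (Int.castRingHom ℝ).mapMatrix (tauZ_loc b e b' e')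
  rw [map_zsmul, map_zsmul, map_one, map_mul, ← tau_T, map_mul, map_mul] at h
  simpa only [Int.cast_smul_eq_zsmul, tau] using h

theorem var_ev' {ι : Type} [Fintype ι] [DecidableEq ι] [Nonempty ι] (A : Fin 3 → Matrix ι ι ℝ)
    (Y : Matrix ι ι ℝ) (ε : ℝ) (hA : ∑ a, (A a)ᵀ * A a = 1)
    (hY : ∀ x : ι → ℝ, 0 ≤ x ⬝ᵥ ((∑ b, ∑ e, ∑ b', ∑ e', (locP b e b' e' : ℝ) •
      ((A b * A e)ᵀ * (A b' * A e')) - ε • 1 - Y + ∑ a, (A a)ᵀ * Y * A a) *ᵥ x)) :
    ∃ C : ℝ, ∀ L, 2 ≤ L → ∃ g α i, ε * L - C ≤ ev L g α i := by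
  let e := Fintype.equivFin ι
  let φ := Matrix.reindexAlgEquiv ℝ ℝ e
  have hT : ∀ X : Matrix ι ι ℝ, (φ X)ᵀ = φ Xᵀ := fun X => rfl
  refine var_ev Fintype.card_pos (fun a => φ (A a)) (φ Y) ε ?_ fun x => ?_
  · simp only [hT, ← map_mul, ← map_sum, hA, map_one]
  · rw [← map_one φ]
    simp only [hT, ← map_mul, ← map_smul, ← map_sum, ← map_sub, ← map_add]
    have := hY (x ∘ e)
    refine this.trans_eq ?_
    generalize (∑ b, ∑ e, ∑ b', ∑ e', (locP b e b' e' : ℝ) •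
      ((A b * A e)ᵀ * (A b' * A e')) - ε • 1 - Y + ∑ a, (A a)ᵀ * Y * A a) = R
    simp only [φ, coe_reindexAlgEquiv, reindex_apply, dotProduct, mulVec, submatrix_apply,
      Function.comp]
    refine Fintype.sum_equiv e _ _ fun i => ?_
    congr 1
    refine Fintype.sum_equiv e _ _ fun j => ?_
    simp

theorem kron_sum {m : ℕ} {κ : Type} (s : Finset κ) (f : κ → Matrix (Fin m) (Fin m) ℝ) :
    ∑ k ∈ s, (1 : Matrix (Fin 2) (Fin 2) ℝ) ⊗ₖ f k = (1 : Matrix (Fin 2) (Fin 2) ℝ) ⊗ₖ ∑ k ∈ s, f k := by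
  ext ⟨a, i⟩ ⟨b, j⟩
  simp [Matrix.sum_apply, Finset.mul_sum]

theorem var_ev'' {m : ℕ} (hm : 0 < m) (B : Fin 3 → Matrix (Fin m) (Fin m) ℝ)
    (Y : Matrix (Fin m) (Fin m) ℝ) (ε : ℝ) (hA : ∑ a, (B a)ᵀ * B a = 1)
    (hY : ∀ x : Fin m → ℝ, 0 ≤ x ⬝ᵥ ((∑ b, ∑ e, ∑ b', ∑ e', (ccZ b e b' e' : ℝ) •
      ((B b * B e)ᵀ * (B b' * B e')) - ε • 1 - Y + ∑ a, (B a)ᵀ * Y * B a) *ᵥ x)) :
    ∃ C : ℝ, ∀ L, 2 ≤ L → ∃ g α i, ε * L - C ≤ ev L g α i := by
  have : Nonempty (Fin m) := ⟨⟨0, hm⟩⟩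
  have hT : ∀ (P : Matrix (Fin 2) (Fin 2) ℝ) (Q : Matrix (Fin m) (Fin m) ℝ),
      (P ⊗ₖ Q)ᵀ = Pᵀ ⊗ₖ Qᵀ := fun P Q => (kroneckerMap_transpose _ _ _).symm
  refine var_ev' (fun a => tau a ⊗ₖ B a) ((1 : Matrix (Fin 2) (Fin 2) ℝ) ⊗ₖ Y) ε ?_ fun x => ?_
  · simp only [hT, ← mul_kronecker_mul, tau_iso, kron_sum, hA, one_kronecker_one]
  · simp only [hT, ← mul_kronecker_mul, ← smul_kronecker, tau_loc, mul_one, tau_iso]
    simp only [smul_kronecker, ← kronecker_smul, kron_sum]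
    generalize (∑ b, ∑ e, ∑ b', ∑ e', (ccZ b e b' e' : ℝ) •
      ((B b * B e)ᵀ * (B b' * B e'))) = F at hY ⊢
    generalize (∑ a, (B a)ᵀ * Y * B a) = E at hY ⊢
    have e : (1 : Matrix (Fin 2) (Fin 2) ℝ) ⊗ₖ F - ε • 1 - (1 : Matrix (Fin 2) (Fin 2) ℝ) ⊗ₖ Y
        + (1 : Matrix (Fin 2) (Fin 2) ℝ) ⊗ₖ E
        = (1 : Matrix (Fin 2) (Fin 2) ℝ) ⊗ₖ (F - ε • 1 - Y + E) := by
      rw [← one_kronecker_one]
      ext ⟨a, i⟩ ⟨b, j⟩
      simp only [Matrix.add_apply, Matrix.sub_apply, Matrix.smul_apply, kroneckerMap_apply,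
        smul_eq_mul]
      ring
    rw [e]
    generalize F - ε • 1 - Y + E = R at hY ⊢
    have h0 := hY fun i => x (0, i)
    have h1 := hY fun i => x (1, i)
    simp only [dotProduct, mulVec, Fintype.sum_prod_type, Fin.sum_univ_two, kroneckerMap_apply]
      at h0 h1 ⊢
    simp only [one_apply_eq, one_mul, ne_eq, zero_ne_one, not_false_eq_true, one_apply_ne,
      zero_mul, Finset.sum_const_zero, add_zero, one_ne_zero, zero_add]
    exact add_nonneg h0 h1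

theorem var_eps0 : ∃ C : ℝ, ∀ L, 2 ≤ L → ∃ g α i, eps0 * L - C ≤ ev L g α i := by
  have hd : (0 : ℝ) < (vd : ℝ) := by
    have : 0 < vd := by decide +kernel
    exact_mod_cast this
  have c1 := vall_iff vchk1
  have c2 := vall_iff vchk2
  have hS : toR 12 vS = ((vd : ℝ) ^ 2) • (1 : Matrix (Fin 12) (Fin 12) ℝ) := by
    ext i j
    have := c1 i j
    simp only [beq_iff_eq, Fin.val_inj] at this
    simp only [toR, this, Matrix.smul_apply, Matrix.one_apply, smul_eq_mul]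
    split_ifs <;> simp
  have hR : ∀ i j : Fin 12, |2 ^ 30 * (toR 12 vH i j + toR 12 vH j i) - (vd : ℝ) ^ 4 * toR 12 vY i j
      + (vd : ℝ) ^ 2 * toR 12 vE i j
      - (if i = j then (1469527 * 2 ^ 10 + 31480) * (vd : ℝ) ^ 4 else 0)| ≤ 100 * (vd : ℝ) ^ 4 := by
    intro i j
    have := c2 i j
    simp only [decide_eq_true_eq, Fin.val_inj] at this
    simp only [toR]
    exact_mod_cast this
  simp only [vS, toR_ma, toR_mt] at hS
  have hH : toR 12 vH = toR 12 vH := rfl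
  have hE : toR 12 vE = toR 12 vE := rfl
  conv at hH => rhs; simp only [vH, toR_ma, toR_mt, toR_mm]
  conv at hE => rhs; simp only [vE, toR_ma, toR_mt, toR_mm]
  clear c1 c2
  generalize (vd : ℝ) = d at *
  generalize toR 12 vB0 = B0 at *
  generalize toR 12 vB1 = B1 at *
  generalize toR 12 vB2 = B2 at *
  generalize toR 12 vY = Y at *
  generalize toR 12 vH = H at *
  generalize toR 12 vE = E at *
  refine var_ev'' (by norm_num) ![d⁻¹ • B0, d⁻¹ • B1, d⁻¹ • B2] (((2 : ℝ) ^ 30)⁻¹ • Y) eps0 ?_ ?_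
  · simp only [Fin.sum_univ_three, cons_val_zero, cons_val_one, Matrix.cons_val, transpose_smul,
      Matrix.smul_mul, Matrix.mul_smul, smul_smul, ← smul_add, hS]
    rw [show d⁻¹ * d⁻¹ * d ^ 2 = 1 by field_simp, one_smul]
  · have e1 : (∑ b, ∑ e, ∑ b', ∑ e', (ccZ b e b' e' : ℝ) •
        ((![d⁻¹ • B0, d⁻¹ • B1, d⁻¹ • B2] b * ![d⁻¹ • B0, d⁻¹ • B1, d⁻¹ • B2] e)ᵀ *
          (![d⁻¹ • B0, d⁻¹ • B1, d⁻¹ • B2] b' * ![d⁻¹ • B0, d⁻¹ • B1, d⁻¹ • B2] e')))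
        = (d⁻¹ ^ 4) • (H + Hᵀ) := by
      simp [Fin.sum_univ_three, ccZ, hH, smul_smul, Matrix.mul_add]
      module
    have e2 : (∑ a, (![d⁻¹ • B0, d⁻¹ • B1, d⁻¹ • B2] a)ᵀ * (((2 : ℝ) ^ 30)⁻¹ • Y) *
        ![d⁻¹ • B0, d⁻¹ • B1, d⁻¹ • B2] a) = (d⁻¹ ^ 2 * (2 ^ 30)⁻¹) • E := by
      simp only [Fin.sum_univ_three, cons_val_zero, cons_val_one, Matrix.cons_val, transpose_smul,
        Matrix.smul_mul, Matrix.mul_smul, smul_smul, hE]
      module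
    rw [e1, e2]
    refine dom_psd _ (31480 / 2 ^ 30) (100 / 2 ^ 30) (by norm_num) fun i j => ?_
    have h4 : (0 : ℝ) < 2 ^ 30 * d ^ 4 := by positivity
    have key : (d⁻¹ ^ 4 • (H + Hᵀ) - eps0 • (1 : Matrix (Fin 12) (Fin 12) ℝ)
        - ((2 : ℝ) ^ 30)⁻¹ • Y + (d⁻¹ ^ 2 * (2 ^ 30)⁻¹) • E) i j
          - (if i = j then 31480 / 2 ^ 30 else 0)
        = (2 ^ 30 * (H i j + H j i) - d ^ 4 * Y i j + d ^ 2 * E i j
          - (if i = j then (1469527 * 2 ^ 10 + 31480) * d ^ 4 else 0)) / (2 ^ 30 * d ^ 4) := by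
      simp only [Matrix.add_apply, Matrix.sub_apply, Matrix.smul_apply, transpose_apply,
        Matrix.one_apply, smul_eq_mul, eps0]
      split_ifs <;> field_simp <;> ring
    rw [key, abs_div, abs_of_pos h4, div_le_iff₀ h4]
    refine (hR i j).trans_eq ?_
    field_simp

end Vale.Agent.P348
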