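import Vale.Agent.P348.QuadD0
import Vale.Agent.P348.QuadD1
import Vale.Agent.P348.QuadD2
import Vale.Agent.P348.QuadD3
import Vale.Agent.P348.CF
import Vale.Agent.P348.Fin
import Vale.Agent.P348.Gap
import Vale.Agent.P348.VarChk
import Vale.Agent.P348.Mom

/-! Assembly. -/

namespace Vale.Agent.P348

theorem qd_all (L : ℕ) (h2 : 2 ≤ L) (h9 : L ≤ 9) (c : Fin 5) : ∃ b rl ru K,
    quadChk (msData L c) (1469527 * L) b rl ru K (outs L c) = true := by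
  interval_cases L <;> fin_cases c
  · exact ⟨_, _, _, _, qd2_0⟩
  · exact ⟨_, _, _, _, qd2_1⟩
  · exact ⟨_, _, _, _, qd2_2⟩
  · exact ⟨_, _, _, _, qd2_3⟩
  · exact ⟨_, _, _, _, qd2_4⟩
  · exact ⟨_, _, _, _, qd3_0⟩
  · exact ⟨_, _, _, _, qd3_1⟩
  · exact ⟨_, _, _, _, qd3_2⟩
  · exact ⟨_, _, _, _, qd3_3⟩
  · exact ⟨_, _, _, _, qd3_4⟩
  · exact ⟨_, _, _, _, qd4_0⟩
  · exact ⟨_, _, _, _, qd4_1⟩
  · exact ⟨_, _, _, _, qd4_2⟩
  · exact ⟨_, _, _, _, qd4_3⟩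
  · exact ⟨_, _, _, _, qd4_4⟩
  · exact ⟨_, _, _, _, qd5_0⟩
  · exact ⟨_, _, _, _, qd5_1⟩
  · exact ⟨_, _, _, _, qd5_2⟩
  · exact ⟨_, _, _, _, qd5_3⟩
  · exact ⟨_, _, _, _, qd5_4⟩
  · exact ⟨_, _, _, _, qd6_0⟩
  · exact ⟨_, _, _, _, qd6_1⟩
  · exact ⟨_, _, _, _, qd6_2⟩
  · exact ⟨_, _, _, _, qd6_3⟩
  · exact ⟨_, _, _, _, qd6_4⟩
  · exact ⟨_, _, _, _, qd7_0⟩
  · exact ⟨_, _, _, _, qd7_1⟩
  · exact ⟨_, _, _, _, qd7_2⟩
  · exact ⟨_, _, _, _, qd7_3⟩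
  · exact ⟨_, _, _, _, qd7_4⟩
  · exact ⟨_, _, _, _, qd8_0⟩
  · exact ⟨_, _, _, _, qd8_1⟩
  · exact ⟨_, _, _, _, qd8_2⟩
  · exact ⟨_, _, _, _, qd8_3⟩
  · exact ⟨_, _, _, _, qd8_4⟩
  · exact ⟨_, _, _, _, qd9_0⟩
  · exact ⟨_, _, _, _, qd9_1⟩
  · exact ⟨_, _, _, _, qd9_2⟩
  · exact ⟨_, _, _, _, qd9_3⟩
  · exact ⟨_, _, _, _, qd9_4⟩

theorem baseH {D : Sys} (hw : D.w = wv eps0) : BaseH D := by
  intro L j h
  simp only [Bool.and_eq_true, Nat.ble_eq] at h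
  obtain ⟨⟨⟨h2, h9⟩, j2⟩, j8⟩ := h
  refine D.ptW _ fun c => ?_
  obtain ⟨b, rl, ru, K, hq⟩ := qd_all L h2 h9 c
  have := quad_sound (ev L (gc c) (ac c)) _ (fun n hn => by
    rw [sum_ev_pow h2, mom_eq L h2 h9 c n hn]) _ _ _ _ _ _ hq (j, (wb L j).getD c (0, 0))
    (List.mem_map.mpr ⟨j, by simp; omega, rfl⟩)
  have e : ((1469527 * L : ℕ) : ℝ) / 2 ^ 20 = eps0 * L := by unfold eps0; push_cast; ring
  rw [e] at this
  rw [hw]
  exact this

theorem small {D : Sys} (hb : BaseH D) : ∃ L0, ∃ θ : ℝ, 0 < θ ∧ θ < 1 ∧ ∀ L', L0 ≤ L' →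
    Even L' → ∃ j, 2 ≤ j ∧ D.w L' j 0 + 3 * D.w L' j 1 ≤ (1 + θ ^ j) * D.tT L' 0 ^ j := by
  have s0 : D.St 20 8 (1212 / 10000) (515 / 10000) (1260 / 10000) (492 / 10000) (700 / 10000) (100 / 10000) (700 / 10000) (100 / 10000) := Sys.St.mono D (by norm_num) (by norm_num)
    ⟨hIT_40_8 hb, hIS_20_16 hb, hIT_20_8 hb, hIS_20_8 hb⟩ (by norm_num) (by norm_num) (by norm_num) (by norm_num) (by norm_num) (by norm_num) (by norm_num) (by norm_num)
  have s1 : D.St 40 16 (937 / 10000) (307 / 10000) (1012 / 10000) (303 / 10000) (147 / 10000) (27 / 10000) (159 / 10000) (25 / 10000) := Sys.St.mono D (by norm_num) (by norm_num)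
    (Sys.St.step D (a0 := (8886 / 10000)) (b0 := (8925 / 10000)) (px := (3060 / 10000)) (qx := (1751 / 10000)) (py := (3180 / 10000)) (qy := (1739 / 10000))
      (by norm_num) (by decide) (by norm_num) s0 (by constructor <;> norm_num) (by constructor <;> norm_num))
    (by norm_num) (by norm_num) (by norm_num) (by norm_num) (by norm_num) (by norm_num) (by norm_num) (by norm_num)
  have s2 : D.St 80 32 (480 / 10000) (94 / 10000) (567 / 10000) (102 / 10000) (88 / 10000) (10 / 10000) (103 / 10000) (10 / 10000) := Sys.St.mono D (by norm_num) (by norm_num)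
    (Sys.St.step D (a0 := (9360 / 10000)) (b0 := (9363 / 10000)) (px := (2190 / 10000)) (qx := (966 / 10000)) (py := (2381 / 10000)) (qy := (1009 / 10000))
      (by norm_num) (by decide) (by norm_num) s1 (by constructor <;> norm_num) (by constructor <;> norm_num))
    (by norm_num) (by norm_num) (by norm_num) (by norm_num) (by norm_num) (by norm_num) (by norm_num) (by norm_num)
  have s3 : D.St 160 64 (1 / 40) (1 / 40) (1 / 40) (1 / 40) (1 / 40) (1 / 40) (1 / 40) (1 / 40) := Sys.St.mono D (by norm_num) (by norm_num)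
    (Sys.St.step D (a0 := (9810 / 10000)) (b0 := (9793 / 10000)) (px := (1026 / 10000)) (qx := (265 / 10000)) (py := (1224 / 10000)) (qy := (310 / 10000))
      (by norm_num) (by decide) (by norm_num) s2 (by constructor <;> norm_num) (by constructor <;> norm_num))
    (by norm_num) (by norm_num) (by norm_num) (by norm_num) (by norm_num) (by norm_num) (by norm_num) (by norm_num)
  exact ⟨160, D.fin_small (by norm_num) (by decide) (by norm_num) s3⟩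

theorem gap_main {S : Fin 3 → Matrix (Fin 3) (Fin 3) ℂ} (hS : IsSpinOne S) :
    ∃ Δ : ℝ, 0 < Δ ∧ ∀ L, Even L → 4 ≤ L → ∃ E0 E1 : ℝ, IsLeast (spectrum ℝ (ham S L)) E0 ∧
      IsLeast (spectrum ℝ (ham S L) \ {E0}) E1 ∧ Δ ≤ E1 - E0 := by
  obtain ⟨C, hC⟩ := var_eps0
  obtain ⟨D, hw, ht⟩ := exists_sys eps0 C hC
  obtain ⟨L0, θ, h0, h1, h⟩ := small (baseH hw)
  exact gap_of eps0 (by unfold eps0; norm_num) D hw ht L0 θ h0 h1 h hS

end Vale.Agent.P348
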