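/-! Kernel programs for the exact sector moments (no library imports). -/

namespace Vale.Agent.P348.MomK

def Fn (l : List Nat) : Type := List.rec Bool (fun _ _ t => Nat → t) l

noncomputable def appL (f : Nat → Nat) (l : List Nat) : Fn l → Bool :=
  List.rec (motive := fun l => Fn l → Bool) (fun k => k) (fun r _ ih k => ih (k (f r))) l

noncomputable def cs3 {α : Type} (n : Nat) (a b c : α) : α :=
  Nat.rec a (fun m _ => Nat.rec b (fun _ _ => c) m) n

noncomputable def tl (tw : Bool) (b e : Nat) : List (Bool × Nat × Nat) :=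
  cs3 b (cs3 e [(true, 1, 1), (!tw, 2, 2)] [(false, 1, 0)] [(tw, 2, 0)])
    (cs3 e [(false, 0, 1)] [(true, 0, 0), (!tw, 2, 2)] [(tw, 2, 1)])
    (cs3 e [(tw, 0, 2)] [(tw, 1, 2)] [(!tw, 0, 0), (!tw, 1, 1)])

noncomputable def bondL (tw : Bool) (i p q : Nat) (rest : List (Bool × Nat)) :
    List (Bool × Nat) :=
  List.rec rest (fun t _ ih => (t.1, Nat.add (Nat.add (Nat.sub (Nat.sub i
      (Nat.mul (Nat.mod (Nat.div i p) 3) p)) (Nat.mul (Nat.mod (Nat.div i q) 3) q))
      (Nat.mul t.2.1 p)) (Nat.mul t.2.2 q)) :: ih)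
    (tl tw (Nat.mod (Nat.div i p) 3) (Nat.mod (Nat.div i q) 3))

noncomputable def loop (gz : Bool) (i n : Nat) : Nat → List (Bool × Nat) :=
  Nat.rec (fun p => bondL gz i p 1 [])
    (fun _ ih p => bondL false i p (Nat.mul p 3) (ih (Nat.mul p 3))) n

noncomputable def foldS (x : Nat → Nat) (l : List (Bool × Nat)) : Nat → Nat :=
  List.rec (fun c => c)
    (fun t _ ih c => Bool.rec (ih (Nat.sub c (x t.2))) (ih (Nat.add c (x t.2))) t.1) l

/-- one step at index `i`; `n + 1` is the number of sites. -/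
noncomputable def ev (n : Nat) (gz : Bool) (C : Nat) (x : Nat → Nat) (i : Nat) : Nat :=
  foldS x (loop gz i n 1) C

noncomputable def dK (K l : Nat) : Nat := Nat.mod (Nat.shiftRight K (Nat.mul 16 l)) 65536

noncomputable def mpK (x : Nat → Nat) (RK n : Nat) : Nat → List Nat :=
  Nat.rec (fun _ => []) (fun _ ih l => x (dK RK l) :: ih (Nat.add l 1)) n

/-- the flat step agrees with the generic step. -/
def Spec (n : Nat) (gz : Bool) (idx : List Nat) (RK mt : Nat)
    (G : (List Nat → Bool) → Nat → Fn idx → Fn idx) : Prop :=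
  ∀ (chk : List Nat → Bool) (C : Nat) (k : Fn idx) (x : Nat → Nat),
    appL x idx (G chk C k) = Bool.rec false (appL (ev n gz C x) idx k) (chk (mpK x RK mt 0))

noncomputable def inR (a m l : Nat) : Bool := Bool.rec false (Nat.blt l (Nat.add a m)) (Nat.ble a l)

noncomputable def rd (w OFF CK a m : Nat) (ys : List Nat) : Nat → Nat :=
  List.rec (fun _ => 0) (fun y _ ih l => Nat.add (Bool.rec 0 (Nat.mul (dK CK l)
    (Nat.mod (Nat.shiftRight (Nat.add y OFF) (Nat.mul w (Nat.sub l a))) (Nat.pow 2 w)))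
    (inR a m l)) (ih (Nat.add l 1))) ys

noncomputable def sumN (f : Nat → Nat) (n : Nat) : Nat :=
  Nat.rec 0 (fun j ih => Nat.add ih (f j)) n

noncomputable def off (w m : Nat) : Nat :=
  sumN (fun l => Nat.mul (Nat.pow 2 (Nat.sub w 1)) (Nat.pow 2 (Nat.mul w l))) m

noncomputable def runK {T : Type} (G : (List Nat → Bool) → Nat → T → T) (k0 : T)
    (ck : Nat → List Nat → Bool) (ts : List Nat) : Nat → T :=
  List.rec (fun _ => k0) (fun t _ ih C => G (ck t) C (ih (Nat.mul C 64))) ts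

noncomputable def ini (H RK w a m i : Nat) : Nat :=
  Bool.rec 0 (Bool.rec 0 (Nat.pow 2 (Nat.mul w (Nat.sub (Nat.div (dK H i) 108) a)))
    (inR a m (Nat.div (dK H i) 108))) (Nat.beq (dK RK (Nat.div (dK H i) 108)) i)

noncomputable def go (idx : List Nat) (G : (List Nat → Bool) → Nat → Fn idx → Fn idx)
    (k0 : Fn idx) (H RK CK w a m : Nat) (ts : List Nat) : Bool :=
  appL (ini H RK w a m) idx (runK G k0 (fun t ys => Nat.beq t (rd w (off w m) CK a m ys 0)) ts
    (Nat.mul 32 (Nat.pow 2 (Nat.mul w m))))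

noncomputable def enum (f : Nat → Nat → Nat) (d : Nat) : Nat → Nat → Nat → Nat :=
  Nat.rec (fun i _ u => f i u) (fun _ ih i p u => Nat.add (Nat.add
    (ih i (Nat.mul p 3) (Nat.xor u 1)) (ih (Nat.add i p) (Nat.mul p 3) (Nat.xor u 2)))
    (ih (Nat.add i (Nat.mul 2 p)) (Nat.mul p 3) (Nat.xor u 3))) d

noncomputable def dg (i j : Nat) : Nat := Nat.mod (Nat.div i (Nat.pow 3 j)) 3

noncomputable def sg (L h j : Nat) : Nat :=
  Bool.rec (Nat.sub (Nat.sub L 1) (Nat.mod (Nat.add j (Nat.mod (Nat.div h 12) 9)) L))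
    (Nat.mod (Nat.add j (Nat.mod (Nat.div h 12) 9)) L) (Nat.beq (Nat.mod (Nat.div h 6) 2) 0)

noncomputable def pN (k d : Nat) : Nat := dg 161857488 (Nat.add (Nat.mul 3 k) d)

noncomputable def tr (L h i : Nat) : Nat :=
  sumN (fun j => Nat.mul (pN (Nat.mod h 6) (dg i (sg L h j))) (Nat.pow 3 j)) L

noncomputable def valid (L : Nat) (gz : Bool) (RK mt h i : Nat) : Bool :=
  Bool.rec false (Bool.rec false (Bool.rec true (Nat.blt (Nat.mod h 6) 2) gz)
    (Nat.blt (Nat.div h 108) mt)) (Nat.beq (tr L h i) (dK RK (Nat.div h 108)))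

noncomputable def bad (L : Nat) (gz : Bool) (H RK mt al i u : Nat) : Nat :=
  Bool.rec 0 (Bool.rec 1 0 (valid L gz RK mt (dK H i) i)) (Nat.beq u al)

noncomputable def cnt (H al i u : Nat) : Nat :=
  Bool.rec 0 (Nat.pow 2 (Nat.mul 16 (Nat.div (dK H i) 108))) (Nat.beq u al)

noncomputable def badR (L H RK l : Nat) : Nat :=
  Bool.rec 1 (Bool.rec 1 0 (Nat.blt (dK RK l) (Nat.pow 3 L)))
    (Nat.beq (Nat.div (dK H (dK RK l)) 108) l)

noncomputable def cov (L : Nat) (gz : Bool) (H RK CK mt al : Nat) : Bool :=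
  Bool.rec false (Bool.rec false (Nat.beq (sumN (badR L H RK) mt) 0)
    (Nat.beq (enum (cnt H al) L 0 1 0) CK)) (Nat.beq (enum (bad L gz H RK mt al) L 0 1 0) 0)

end Vale.Agent.P348.MomK
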