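import Vale.Agent.P348.Sym
import Vale.Agent.P348.MomK

/-! Part Mom, first half: the generic step is the action of `M`. -/

namespace Vale.Agent.P348.MomK

open Finset

def enc {L : ℕ} (s : Cfg L) : ℕ := ∑ j : Fin L, (s j : ℕ) * 3 ^ (j : ℕ)

def dec (L i : ℕ) : Cfg L := fun j => ⟨i / 3 ^ (j : ℕ) % 3, Nat.mod_lt _ (by norm_num)⟩

theorem dec_enc {L : ℕ} (s : Cfg L) : dec L (enc s) = s := by
  have := finFunctionFinEquiv.symm_apply_apply s
  funext j
  apply Fin.ext
  have h2 : ((finFunctionFinEquiv.symm (finFunctionFinEquiv s) j : Fin 3) : ℕ) = s j := by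
    rw [this]
  rw [finFunctionFinEquiv_symm_apply_val, finFunctionFinEquiv_apply] at h2
  exact h2

theorem enc_dec {L i : ℕ} (h : i < 3 ^ L) : enc (dec L i) = i := by
  have := finFunctionFinEquiv.apply_symm_apply (⟨i, h⟩ : Fin (3 ^ L))
  have h2 := congrArg Fin.val this
  rw [finFunctionFinEquiv_apply] at h2
  simp only [finFunctionFinEquiv_symm_apply_val] at h2
  exact h2

theorem dig_enc {L : ℕ} (s : Cfg L) (j : Fin L) : enc s / 3 ^ (j : ℕ) % 3 = s j :=
  congrArg (fun f => (f j : ℕ)) (dec_enc s)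

theorem enc_update {L : ℕ} (s : Cfg L) (j : Fin L) (b : Fin 3) :
    enc (Function.update s j b) + s j * 3 ^ (j : ℕ) = enc s + b * 3 ^ (j : ℕ) := by
  unfold enc
  rw [← Finset.add_sum_erase _ _ (mem_univ j), ← Finset.add_sum_erase univ _ (mem_univ j)]
  have : ∑ x ∈ univ.erase j, ((Function.update s j b x : Fin 3) : ℕ) * 3 ^ (x : ℕ) =
      ∑ x ∈ univ.erase j, (s x : ℕ) * 3 ^ (x : ℕ) :=
    Finset.sum_congr rfl fun x hx => by rw [Function.update_of_ne (ne_of_mem_erase hx)]
  rw [this, Function.update_self]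
  ring

def upd {L : ℕ} (s : Cfg L) (j k : Fin L) (p : Fin 3 × Fin 3) : Cfg L :=
  Function.update (Function.update s j p.1) k p.2

theorem enc_upd {L : ℕ} (s : Cfg L) {j k : Fin L} (h : j ≠ k) (p : Fin 3 × Fin 3) :
    enc (upd s j k p) = enc s - s j * 3 ^ (j : ℕ) - s k * 3 ^ (k : ℕ) + p.1 * 3 ^ (j : ℕ) +
      p.2 * 3 ^ (k : ℕ) := by
  have h1 := enc_update s j p.1
  have h2 := enc_update (Function.update s j p.1) k p.2
  have h3 := enc_update s j 0
  have h4 := enc_update (Function.update s j 0) k 0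
  rw [Function.update_of_ne h.symm] at h2 h4
  unfold upd
  simp only [Fin.val_zero, zero_mul, add_zero] at h3 h4
  omega

theorem sum_bond {L : ℕ} (s : Cfg L) {j k : Fin L} (h : j ≠ k) (F : Fin 3 → Fin 3 → ℤ)
    (v : Cfg L → ℤ) :
    ∑ t : Cfg L, (if ∀ i, i ≠ j → i ≠ k → s i = t i then F (t j) (t k) else 0) * v t =
      ∑ p : Fin 3 × Fin 3, F p.1 p.2 * v (upd s j k p) := by
  classical
  simp only [ite_mul, zero_mul]
  rw [← Finset.sum_filter]
  refine Finset.sum_nbij' (fun t => (t j, t k)) (fun p => upd s j k p) (by simp) ?_ ?_ ?_ ?_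
  · intro p _
    simp only [mem_filter, mem_univ, true_and, upd]
    intro i hi hk
    rw [Function.update_of_ne hk, Function.update_of_ne hi]
  · intro t ht
    simp only [mem_filter, mem_univ, true_and] at ht
    funext i
    unfold upd
    by_cases hk : i = k
    · subst hk; simp
    · rw [Function.update_of_ne hk]
      by_cases hj : i = j
      · subst hj; simp
      · rw [Function.update_of_ne hj]; exact ht i hj hk
  · intro p _
    simp [upd, Function.update_of_ne h]
  · intro t ht
    simp only [mem_filter, mem_univ, true_and] at ht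
    have : upd s j k (t j, t k) = t := by
      funext i
      unfold upd
      by_cases hk : i = k
      · subst hk; simp
      · rw [Function.update_of_ne hk]
        by_cases hj : i = j
        · subst hj; simp
        · rw [Function.update_of_ne hj]; exact ht i hj hk
    rw [this]

def sgn (b : Bool) : ℤ := if b then 1 else -1

def gg (gz : Bool) : G := if gz then cls 2 else 0

def tlF (tw : Bool) (b e : Fin 3) : List (Bool × Fin 3 × Fin 3) :=
  ![![[(true, 1, 1), (!tw, 2, 2)], [(false, 1, 0)], [(tw, 2, 0)]],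
    ![[(false, 0, 1)], [(true, 0, 0), (!tw, 2, 2)], [(tw, 2, 1)]],
    ![[(tw, 0, 2)], [(tw, 1, 2)], [(!tw, 0, 0), (!tw, 1, 1)]]] b e

theorem tl_eq (tw : Bool) (b e : Fin 3) :
    tl tw b e = (tlF tw b e).map fun t => (t.1, (t.2.1 : ℕ), (t.2.2 : ℕ)) := by
  fin_cases b <;> fin_cases e <;> rfl

theorem tlF_len (tw : Bool) (b e : Fin 3) : (tlF tw b e).length ≤ 2 := by
  revert tw b e; decide

theorem loc_eq (tw : Bool) (b e : Fin 3) (p : Fin 3 × Fin 3) : loc (gg tw) b e p.1 p.2 =
    ((tlF tw b e).map fun t => if t.2 = p then sgn t.1 else 0).sum := by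
  revert tw b e p; decide

theorem sum_list (l : List (Bool × Fin 3 × Fin 3)) (F : Fin 3 × Fin 3 → ℤ) :
    ∑ p, (l.map fun t => if t.2 = p then sgn t.1 else 0).sum * F p =
      (l.map fun t => sgn t.1 * F t.2).sum := by
  induction l with
  | nil => simp
  | cons t l ih =>
    simp only [List.map_cons, List.sum_cons, add_mul, Finset.sum_add_distrib, ih]
    simp

theorem bondL_eq {L : ℕ} (s : Cfg L) {j k : Fin L} (h : j ≠ k) (tw : Bool)
    (rest : List (Bool × ℕ)) :
    bondL tw (enc s) (3 ^ (j : ℕ)) (3 ^ (k : ℕ)) rest =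
      ((tlF tw (s j) (s k)).map fun t => (t.1, enc (upd s j k t.2))) ++ rest := by
  unfold bondL
  have e1 : Nat.mod (Nat.div (enc s) (3 ^ (j : ℕ))) 3 = s j := dig_enc s j
  have e2 : Nat.mod (Nat.div (enc s) (3 ^ (k : ℕ))) 3 = s k := dig_enc s k
  rw [e1, e2, tl_eq]
  induction tlF tw (s j) (s k) with
  | nil => rfl
  | cons t l ih =>
    simp only [List.map_cons, List.cons_append]
    rw [← ih, enc_upd s h]
    rfl

theorem rot_val {L : ℕ} (j : Fin L) : (finRotate L j : ℕ) = (j + 1) % L := by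
  cases L with
  | zero => exact j.elim0
  | succ n => rw [finRotate_succ_apply, Fin.val_add]; simp

theorem rot_ne {L : ℕ} (hL : 2 ≤ L) (j : Fin L) : j ≠ finRotate L j := by
  intro h
  have h1 := congrArg Fin.val h
  rw [rot_val] at h1
  have := j.2
  by_cases h2 : (j : ℕ) + 1 < L
  · rw [Nat.mod_eq_of_lt h2] at h1; omega
  · have : (j : ℕ) + 1 = L := by omega
    rw [this, Nat.mod_self] at h1; omega

/-- contribution of one bond. -/
def trm {L : ℕ} (gz : Bool) (s : Cfg L) (v : Cfg L → ℤ) (j : Fin L) : ℤ :=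
  ((tlF (if (j : ℕ) + 1 = L then gz else false) (s j) (s (finRotate L j))).map
    fun t => sgn t.1 * v (upd s j (finRotate L j) t.2)).sum

theorem M_row {L : ℕ} (hL : 2 ≤ L) (gz : Bool) (s : Cfg L) (v : Cfg L → ℤ) :
    ∑ t, M L (gg gz) s t * v t = ∑ j, trm gz s v j := by
  unfold M
  simp only [Finset.sum_mul]
  rw [Finset.sum_comm]
  refine Finset.sum_congr rfl fun j _ => ?_
  rw [sum_bond s (rot_ne hL j) (fun b e => loc (if (j : ℕ) + 1 = L then gg gz else 0) (s j)
    (s (finRotate L j)) b e) v]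
  unfold trm
  rw [← sum_list _ fun p => v (upd s j (finRotate L j) p)]
  refine Finset.sum_congr rfl fun p _ => ?_
  rw [← loc_eq]
  split_ifs <;> rfl

theorem loop_eq {L : ℕ} (hL : 2 ≤ L) (gz : Bool) (s : Cfg L) (r : ℕ) : ∀ m, m + r + 1 = L →
    ∃ ts : List (Bool × Cfg L), loop gz (enc s) r (3 ^ m) = ts.map (fun t => (t.1, enc t.2)) ∧
      ts.length ≤ 2 * (r + 1) ∧ ∀ v : Cfg L → ℤ, (ts.map fun t => sgn t.1 * v t.2).sum =
        ∑ j : Fin L, if m ≤ j then trm gz s v j else 0 := by
  have split : ∀ (m : ℕ) (hm : m < L) (T : Fin L → ℤ), (∑ j : Fin L, if m ≤ j then T j else 0) =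
      T ⟨m, hm⟩ + ∑ j : Fin L, if m + 1 ≤ j then T j else 0 := by
    intro m hm T
    have : T ⟨m, hm⟩ = ∑ j : Fin L, if j = ⟨m, hm⟩ then T j else 0 := by simp
    rw [this, ← Finset.sum_add_distrib]
    refine Finset.sum_congr rfl fun j _ => ?_
    by_cases h1 : j = ⟨m, hm⟩
    · subst h1; simp
    · have h2 : (j : ℕ) ≠ m := fun h => h1 (Fin.ext h)
      rw [if_neg h1, zero_add]
      exact if_congr (by omega) rfl rfl
  induction r with
  | zero =>
    intro m hm
    have hm' : m < L := by omega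
    set j : Fin L := ⟨m, hm'⟩ with hj
    have hk : (finRotate L j : ℕ) = 0 := by
      rw [rot_val]; show (m + 1) % L = 0; rw [show m + 1 = L by omega, Nat.mod_self]
    refine ⟨(tlF gz (s j) (s (finRotate L j))).map fun t => (t.1, upd s j (finRotate L j) t.2),
      ?_, by simpa using tlF_len _ _ _, fun v => ?_⟩
    · have := bondL_eq s (rot_ne hL j) gz []
      rw [hk, pow_zero, List.append_nil] at this
      rw [List.map_map]
      exact this
    · rw [split m hm', Finset.sum_eq_zero fun i _ => if_neg (by have := i.2; omega), add_zero]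
      unfold trm
      rw [if_pos (by show m + 1 = L; omega), List.map_map]
      rfl
  | succ r ih =>
    intro m hm
    have hm' : m < L := by omega
    obtain ⟨ts, h1, h2, h3⟩ := ih (m + 1) (by omega)
    set j : Fin L := ⟨m, hm'⟩ with hj
    have hk : (finRotate L j : ℕ) = m + 1 := by
      rw [rot_val]; exact Nat.mod_eq_of_lt (by show m + 1 < L; omega)
    refine ⟨((tlF false (s j) (s (finRotate L j))).map
      fun t => (t.1, upd s j (finRotate L j) t.2)) ++ ts, ?_, ?_, fun v => ?_⟩
    · have := bondL_eq s (rot_ne hL j) false (loop gz (enc s) r (3 ^ (m + 1)))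
      rw [hk] at this
      rw [List.map_append, List.map_map, ← h1]
      exact this
    · have := tlF_len false (s j) (s (finRotate L j))
      simp only [List.length_append, List.length_map]
      omega
    · rw [split m hm', List.map_append, List.sum_append, h3]
      congr 1
      unfold trm
      rw [if_neg (by show ¬ m + 1 = L; omega), List.map_map]
      rfl

theorem row {n : ℕ} (hn : 1 ≤ n) (gz : Bool) (s : Cfg (n + 1)) :
    ∃ ts : List (Bool × Cfg (n + 1)), loop gz (enc s) n 1 = ts.map (fun t => (t.1, enc t.2)) ∧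
      ts.length ≤ 2 * (n + 1) ∧ ∀ v : Cfg (n + 1) → ℤ, ∑ t, M (n + 1) (gg gz) s t * v t =
        (ts.map fun t => sgn t.1 * v t.2).sum := by
  obtain ⟨ts, h1, h2, h3⟩ := loop_eq (L := n + 1) (by omega) gz s n 0 (by omega)
  refine ⟨ts, h1, h2, fun v => ?_⟩
  rw [h3, M_row (by omega)]
  simp

theorem foldS_spec (x : ℕ → ℕ) (B : ℕ) (l : List (Bool × ℕ)) : ∀ c, (∀ t ∈ l, x t.2 ≤ B) →
    l.length * B ≤ c → (foldS x l c : ℤ) = c + (l.map fun t => sgn t.1 * x t.2).sum ∧
      foldS x l c ≤ c + l.length * B := by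
  induction l with
  | nil => intro c _ _; simp [foldS]
  | cons t l ih =>
    intro c h hc
    have hx := h t (by simp)
    have h' : ∀ u ∈ l, x u.2 ≤ B := fun u hu => h u (by simp [hu])
    simp only [List.length_cons, add_mul, one_mul] at hc ⊢
    obtain ⟨b, i⟩ := t
    cases b
    · have e : foldS x ((false, i) :: l) c = foldS x l (c - x i) := rfl
      obtain ⟨a1, a2⟩ := ih (c - x i) h' (by simp only at hx; omega)
      rw [e, a1]
      refine ⟨?_, by omega⟩
      simp only at hx
      rw [Nat.cast_sub (by omega)]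
      simp [sgn]; ring
    · have e : foldS x ((true, i) :: l) c = foldS x l (c + x i) := rfl
      obtain ⟨a1, a2⟩ := ih (c + x i) h' (by omega)
      rw [e, a1]
      simp only at hx
      refine ⟨?_, by omega⟩
      simp [sgn]; ring

theorem ev_spec {n : ℕ} (hn : 1 ≤ n) (hn' : n ≤ 15) (gz : Bool) (x : ℕ → ℕ) (B : ℕ)
    (hx : ∀ t : Cfg (n + 1), x (enc t) ≤ B) (s : Cfg (n + 1)) :
    (ev n gz (32 * B) x (enc s) : ℤ) = 32 * B + ∑ t, M (n + 1) (gg gz) s t * x (enc t) ∧
      ev n gz (32 * B) x (enc s) ≤ 64 * B := by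
  obtain ⟨ts, h1, h2, h3⟩ := row hn gz s
  have hl : ts.length * B ≤ 32 * B := Nat.mul_le_mul_right _ (by omega)
  have := foldS_spec x B (ts.map fun t => (t.1, enc t.2)) (32 * B) (by
    intro t ht
    obtain ⟨u, _, rfl⟩ := List.mem_map.1 ht
    exact hx _) (by simpa using hl)
  unfold ev
  rw [h1, h3 fun t => (x (enc t) : ℤ)]
  simp only [List.length_map, List.map_map] at this
  refine ⟨?_, by omega⟩
  rw [this.1]
  push_cast
  rfl

theorem pow_bound {n : ℕ} (hn : 1 ≤ n) (gz : Bool) (k : ℕ) : ∀ s t : Cfg (n + 1),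
    |(M (n + 1) (gg gz) ^ k) s t| ≤ (2 * (n + 1) : ℤ) ^ k := by
  induction k with
  | zero => intro s t; rw [pow_zero, pow_zero, Matrix.one_apply]; split_ifs <;> simp
  | succ k ih =>
    intro s t
    obtain ⟨ts, -, h2, h3⟩ := row hn gz s
    rw [pow_succ', Matrix.mul_apply, h3 fun u => (M (n + 1) (gg gz) ^ k) u t]
    have : ∀ l : List (Bool × Cfg (n + 1)),
        |(l.map fun u => sgn u.1 * (M (n + 1) (gg gz) ^ k) u.2 t).sum| ≤
          l.length * (2 * (n + 1) : ℤ) ^ k := by
      intro l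
      induction l with
      | nil => simp
      | cons u l ihl =>
        simp only [List.map_cons, List.sum_cons, List.length_cons]
        refine (abs_add_le _ _).trans ?_
        have h5 : |sgn u.1 * (M (n + 1) (gg gz) ^ k) u.2 t| ≤ (2 * (n + 1) : ℤ) ^ k := by
          have := ih u.2 t
          unfold sgn
          split_ifs <;> simpa using this
        push_cast
        linarith
    refine (this ts).trans ?_
    rw [pow_succ']
    have h6 : (ts.length : ℤ) ≤ 2 * (n + 1) := by exact_mod_cast h2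
    exact mul_le_mul_of_nonneg_right h6 (by positivity)

end Vale.Agent.P348.MomK
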