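import Vale.Agent.P348.MomA

/-! Part Mom, second half: soundness of the run and of the orbit cover. -/

namespace Vale.Agent.P348.MomK

open Finset Matrix

theorem lane (B : ℤ) (hB : 0 < B) (l : ℕ) : ∀ (m : ℕ) (d : ℕ → ℤ) (Y : ℤ), l < m →
    (∀ k, k < m → 0 ≤ d k ∧ d k < B) → Y ≡ ∑ k ∈ range m, d k * B ^ k [ZMOD B ^ m] →
    Y / B ^ l % B = d l := by
  induction l with
  | zero =>
    intro m d Y hl hd h
    obtain ⟨m, rfl⟩ : ∃ m', m = m' + 1 := ⟨m - 1, by omega⟩
    obtain ⟨q, hq⟩ := h.symm.dvd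
    have e : Y = d 0 + B * (∑ k ∈ range m, d (k + 1) * B ^ k + B ^ m * q) := by
      rw [Finset.sum_range_succ'] at hq
      rw [mul_add, Finset.mul_sum]
      have : ∑ k ∈ range m, B * (d (k + 1) * B ^ k) = ∑ k ∈ range m, d (k + 1) * B ^ (k + 1) :=
        Finset.sum_congr rfl fun k _ => by ring
      rw [this]
      linear_combination hq
    rw [pow_zero, Int.ediv_one, e, Int.add_mul_emod_self_left]
    exact Int.emod_eq_of_lt (hd 0 hl).1 (hd 0 hl).2
  | succ l ih =>
    intro m d Y hl hd h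
    obtain ⟨m, rfl⟩ : ∃ m', m = m' + 1 := ⟨m - 1, by omega⟩
    obtain ⟨q, hq⟩ := h.symm.dvd
    have e : Y = d 0 + B * (∑ k ∈ range m, d (k + 1) * B ^ k + B ^ m * q) := by
      rw [Finset.sum_range_succ'] at hq
      rw [mul_add, Finset.mul_sum]
      have : ∑ k ∈ range m, B * (d (k + 1) * B ^ k) = ∑ k ∈ range m, d (k + 1) * B ^ (k + 1) :=
        Finset.sum_congr rfl fun k _ => by ring
      rw [this]
      linear_combination hq
    have e2 : Y / B = ∑ k ∈ range m, d (k + 1) * B ^ k + B ^ m * q := by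
      rw [e, Int.add_mul_ediv_left _ _ hB.ne', Int.ediv_eq_zero_of_lt (hd 0 (by omega)).1
        (hd 0 (by omega)).2, zero_add]
    rw [pow_succ', ← Int.ediv_ediv_of_nonneg hB.le]
    refine ih m (fun k => d (k + 1)) (Y / B) (by omega) (fun k hk => hd (k + 1) (by omega)) ?_
    rw [e2]
    exact (Int.modEq_iff_dvd.2 ⟨-q, by ring⟩)

theorem shift_cast (Y w l : ℕ) : ((Nat.mod (Nat.shiftRight Y (Nat.mul w l)) (Nat.pow 2 w) : ℕ) : ℤ) =
    (Y : ℤ) / ((2 : ℤ) ^ w) ^ l % 2 ^ w := by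
  show (((Y >>> (w * l)) % 2 ^ w : ℕ) : ℤ) = _
  rw [Nat.shiftRight_eq_div_pow]
  push_cast
  rw [pow_mul]

theorem sumN_eq (f : ℕ → ℕ) (n : ℕ) : sumN f n = ∑ j ∈ range n, f j := by
  induction n with
  | zero => rfl
  | succ n ih => rw [Finset.sum_range_succ, ← ih]; rfl

theorem inR_eq (a m l : ℕ) : inR a m l = decide (a ≤ l ∧ l < a + m) := by
  unfold inR
  by_cases h : a ≤ l
  · rw [Nat.ble_eq_true_of_le h]
    show Nat.blt l (a + m) = _
    by_cases h2 : l < a + m
    · rw [decide_eq_true ⟨h, h2⟩]; exact Nat.blt_eq.mpr h2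
    · rw [decide_eq_false fun h3 => h2 h3.2]
      exact Bool.eq_false_iff.2 fun h3 => h2 (Nat.blt_eq.mp h3)
  · have : Nat.ble a l = false := Bool.eq_false_iff.2 fun h3 => h (Nat.le_of_ble_eq_true h3)
    rw [this, decide_eq_false fun h3 => h h3.1]

theorem brec {α : Type} (a b : α) (p : Prop) [Decidable p] :
    (Bool.rec a b (decide p) : α) = if p then b else a := by
  by_cases h : p <;> simp [h]

theorem beq_dec (a b : ℕ) : Nat.beq a b = decide (a = b) := by
  by_cases h : a = b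
  · rw [decide_eq_true h]; subst h; exact Nat.beq_refl a
  · rw [decide_eq_false h]; exact Bool.eq_false_iff.2 fun h2 => h (Nat.eq_of_beq_eq_true h2)

theorem blt_dec (a b : ℕ) : Nat.blt a b = decide (a < b) := by
  by_cases h : a < b
  · rw [decide_eq_true h]; exact Nat.blt_eq.mpr h
  · rw [decide_eq_false h]; exact Bool.eq_false_iff.2 fun h2 => h (Nat.blt_eq.mp h2)

theorem rd_eq (w OFF CK a m RK : ℕ) (x : ℕ → ℕ) (n : ℕ) : ∀ l0,
    rd w OFF CK a m (mpK x RK n l0) l0 = ∑ j ∈ range n, if a ≤ l0 + j ∧ l0 + j < a + m then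
      dK CK (l0 + j) * Nat.mod (Nat.shiftRight (x (dK RK (l0 + j)) + OFF)
        (Nat.mul w (l0 + j - a))) (Nat.pow 2 w) else 0 := by
  induction n with
  | zero => intro l0; rfl
  | succ n ih =>
    intro l0
    have e : rd w OFF CK a m (mpK x RK (n + 1) l0) l0 = (Bool.rec 0 (dK CK l0 *
        Nat.mod (Nat.shiftRight (x (dK RK l0) + OFF) (Nat.mul w (l0 - a))) (Nat.pow 2 w))
        (inR a m l0) : ℕ) + rd w OFF CK a m (mpK x RK n (l0 + 1)) (l0 + 1) := rfl
    rw [e, ih, inR_eq, brec, Finset.sum_range_succ', add_comm]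
    simp only [add_zero, add_assoc, add_comm 1]

noncomputable def xs (n : ℕ) (gz : Bool) (k : ℕ) : (ℕ → ℕ) → ℕ → ℕ → ℕ :=
  Nat.rec (fun x _ => x) (fun _ ih x C => ih (ev n gz C x) (C * 64)) k

theorem run_chk {n : ℕ} {gz : Bool} {idx : List ℕ} {RK mt : ℕ}
    {G : (List ℕ → Bool) → ℕ → Fn idx → Fn idx} (h : Spec n gz idx RK mt G) (k0 : Fn idx)
    (ck : ℕ → List ℕ → Bool) (ts : List ℕ) : ∀ (x : ℕ → ℕ) (C : ℕ),
    appL x idx (runK G k0 ck ts C) = true → ∀ k, k < ts.length →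
      ck (ts.getD k 0) (mpK (xs n gz k x C) RK mt 0) = true := by
  induction ts with
  | nil => intro x C _ k hk; simp at hk
  | cons t ts ih =>
    intro x C hr k hk
    have e : runK G k0 ck (t :: ts) C = G (ck t) C (runK G k0 ck ts (C * 64)) := rfl
    rw [e, h] at hr
    cases hc : ck t (mpK x RK mt 0) with
    | false => rw [hc] at hr; exact absurd hr (by simp)
    | true =>
      rw [hc] at hr
      cases k with
      | zero => exact hc
      | succ k => exact ih _ _ hr k (by simpa using hk)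

theorem xs_spec {n : ℕ} (hn : 1 ≤ n) (hn' : n ≤ 15) (gz : Bool) (Q : ℕ) (k : ℕ) :
    ∀ (x : ℕ → ℕ) (B : ℕ) (V : Cfg (n + 1) → ℤ), Q ∣ B → (∀ t : Cfg (n + 1), x (enc t) ≤ B) →
      (∀ t, (x (enc t) : ℤ) ≡ V t [ZMOD Q]) →
      ∀ t, (xs n gz k x (32 * B) (enc t) : ℤ) ≡ (M (n + 1) (gg gz) ^ k *ᵥ V) t [ZMOD Q] := by
  induction k with
  | zero => intro x B V _ _ h t; rw [pow_zero, Matrix.one_mulVec]; exact h t
  | succ k ih =>
    intro x B V hQ hx h t
    have e : xs n gz (k + 1) x (32 * B) = xs n gz k (ev n gz (32 * B) x) (32 * (64 * B)) := by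
      rw [show 32 * (64 * B) = 32 * B * 64 by ring]; rfl
    rw [e, pow_succ, ← Matrix.mulVec_mulVec]
    refine ih _ (64 * B) _ (hQ.mul_left _) (fun s => (ev_spec hn hn' gz x B hx s).2)
      (fun s => ?_) t
    rw [(ev_spec hn hn' gz x B hx s).1]
    have h0 : (32 * B : ℤ) ≡ 0 [ZMOD Q] :=
      Int.modEq_zero_iff_dvd.2 ((Int.natCast_dvd_natCast.2 hQ).mul_left _)
    have h1 : ∑ u, M (n + 1) (gg gz) s u * x (enc u) ≡ ∑ u, M (n + 1) (gg gz) s u * V u [ZMOD Q] :=
      Int.ModEq.sum fun u _ => (h u).mul_left _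
    have := h0.add h1
    rw [zero_add] at this
    exact this

theorem run_sound {n : ℕ} (hn : 1 ≤ n) (hn' : n ≤ 15) {gz : Bool} {idx : List ℕ} {RK mt : ℕ}
    {G : (List ℕ → Bool) → ℕ → Fn idx → Fn idx} (h : Spec n gz idx RK mt G) {k0 : Fn idx}
    {H CK w a m : ℕ} {ts : List ℕ} (hr : go idx G k0 H RK CK w a m ts = true)
    (hR : ∀ l, l < mt → dK H (dK RK l) / 108 = l ∧ dK RK l < 3 ^ (n + 1)) (ham : a + m ≤ mt)
    (k : ℕ) (hk : k < ts.length) (hw : (2 * (n + 1)) ^ k < 2 ^ (w - 1)) :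
    (ts.getD k 0 : ℤ) = ∑ l ∈ range mt, if a ≤ l ∧ l < a + m then (dK CK l : ℤ) *
      ((M (n + 1) (gg gz) ^ k) (dec _ (dK RK l)) (dec _ (dK RK l)) + 2 ^ (w - 1)) else 0 := by
  have h1 := Nat.eq_of_beq_eq_true (run_chk h k0 _ ts _ _ hr k hk)
  rw [rd_eq] at h1
  rw [h1]
  push_cast
  refine Finset.sum_congr rfl fun l hl => ?_
  simp only [zero_add]
  split_ifs with hl2
  swap
  · rfl
  have hw1 : 1 ≤ w := by
    rcases Nat.eq_zero_or_pos w with h0 | h0
    · subst h0
      have : 0 < (2 * (n + 1)) ^ k := by positivity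
      simp at hw
    · exact h0
  congr 1
  rw [shift_cast]
  set Mk := M (n + 1) (gg gz) ^ k with hMk
  set B : ℤ := 2 ^ w with hB
  have hB2 : B = 2 * 2 ^ (w - 1) := by
    rw [hB, ← pow_succ']; congr 1; omega
  have hx := xs_spec hn hn' gz (2 ^ (w * m)) k (ini H RK w a m) (2 ^ (w * m))
    (fun t => ∑ j ∈ range m, if t = dec _ (dK RK (a + j)) then B ^ j else 0) dvd_rfl ?_ ?_
    (dec _ (dK RK l))
  · rw [enc_dec (hR l (mem_range.1 hl)).2] at hx
    have h3 := lane B (by positivity) (l - a) m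
      (fun j => Mk (dec _ (dK RK l)) (dec _ (dK RK (a + j))) + 2 ^ (w - 1))
      ((xs n gz k (ini H RK w a m) (32 * 2 ^ (w * m)) (dK RK l) + off w m : ℕ) : ℤ) (by omega)
      (fun j _ => ?_) ?_
    · rw [show a + (l - a) = l by omega] at h3
      exact h3
    · have := abs_le.1 (pow_bound hn gz k (dec _ (dK RK l)) (dec _ (dK RK (a + j))))
      have hw' : (2 * (n + 1) : ℤ) ^ k < 2 ^ (w - 1) := by exact_mod_cast hw
      constructor <;> linarith [this.1, this.2]
    · have e1 : (Mk *ᵥ fun t => ∑ j ∈ range m, if t = dec _ (dK RK (a + j)) then B ^ j else 0)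
          (dec _ (dK RK l)) =
          ∑ j ∈ range m, Mk (dec _ (dK RK l)) (dec _ (dK RK (a + j))) * B ^ j := by
        simp only [Matrix.mulVec, dotProduct, Finset.mul_sum]
        rw [Finset.sum_comm]
        refine Finset.sum_congr rfl fun j _ => ?_
        simp
      have e2 : (off w m : ℤ) = ∑ j ∈ range m, 2 ^ (w - 1) * B ^ j := by
        unfold off
        rw [sumN_eq]
        push_cast
        refine Finset.sum_congr rfl fun j _ => ?_
        show (((2 ^ (w - 1) * 2 ^ (w * j) : ℕ)) : ℤ) = _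
        push_cast
        rw [hB, pow_mul]
      rw [e1] at hx
      simp only [add_mul, Finset.sum_add_distrib]
      rw [Nat.cast_add, e2]
      have e3 : ((2 ^ (w * m) : ℕ) : ℤ) = B ^ m := by push_cast; rw [hB, pow_mul]
      rw [e3] at hx
      exact hx.add_right _
  · intro t
    unfold ini
    rw [beq_dec, inR_eq, brec, brec]
    split_ifs with h4 h5
    · show 2 ^ (w * (dK H (enc t) / 108 - a)) ≤ _
      have h6 : dK H (enc t) / 108 < a + m := h5.2
      exact Nat.pow_le_pow_right (by norm_num) (Nat.mul_le_mul_left _ (by omega))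
    · exact Nat.zero_le _
    · exact Nat.zero_le _
  · intro t
    suffices hs : (ini H RK w a m (enc t) : ℤ) =
        ∑ j ∈ range m, if t = dec _ (dK RK (a + j)) then B ^ j else 0 by rw [hs]
    unfold ini
    rw [beq_dec, inR_eq, brec, brec]
    have key : ∀ j, j < m → (t = dec _ (dK RK (a + j)) ↔
        dK RK (dK H (enc t) / 108) = enc t ∧ dK H (enc t) / 108 = a + j) := by
      intro j hj
      obtain ⟨r1, r2⟩ := hR (a + j) (by omega)
      constructor
      · intro e; rw [e, enc_dec r2, r1]; exact ⟨rfl, rfl⟩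
      · rintro ⟨e1, e2⟩; rw [← e2, e1, dec_enc]
    show ((if dK RK (dK H (enc t) / 108) = enc t then (if a ≤ dK H (enc t) / 108 ∧
      dK H (enc t) / 108 < a + m then 2 ^ (w * (dK H (enc t) / 108 - a)) else 0) else 0 : ℕ) : ℤ)
      = _
    split_ifs with h4 h5
    · rw [Finset.sum_eq_single (dK H (enc t) / 108 - a)]
      · rw [if_pos ((key _ (by omega)).2 ⟨h4, by omega⟩)]
        push_cast
        rw [hB, pow_mul]
      · intro j hj hne
        exact if_neg fun e => hne (by have := ((key j (mem_range.1 hj)).1 e).2; omega)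
      · intro h6; exact absurd (mem_range.2 (by omega)) h6
    · refine (Finset.sum_eq_zero fun j hj => if_neg fun e => h5 ?_).symm
      have := ((key j (mem_range.1 hj)).1 e).2
      have := mem_range.1 hj
      omega
    · exact (Finset.sum_eq_zero fun j hj => if_neg fun e =>
        h4 ((key j (mem_range.1 hj)).1 e).1).symm

end Vale.Agent.P348.MomK
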