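import Vale.Agent.P348.MomB

/-! Part Mom: the orbit cover and the final assembly lemmas. -/

namespace Vale.Agent.P348.MomK

open Finset Matrix

def code (u : G) : ℕ := u.1.val + 2 * u.2.val

theorem code_add (b : Fin 3) (v : G) : code (cls b + v) = (b + 1) ^^^ code v := by
  revert b v; decide

theorem code_inj (u v : G) (h : code u = code v) : u = v := by
  revert u v; decide

theorem enum_eq (f : ℕ → ℕ → ℕ) (d : ℕ) : ∀ i p u,
    enum f d i p u = ∑ s : Cfg d, f (i + p * enc s) (u ^^^ code (sec s)) := by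
  induction d with
  | zero =>
    intro i p u
    have : code (0 : G) = 0 := rfl
    simp [enum, enc, sec, this]
  | succ d ih =>
    intro i p u
    have e : enum f (d + 1) i p u = enum f d i (p * 3) (u ^^^ 1) + enum f d (i + p) (p * 3)
        (u ^^^ 2) + enum f d (i + 2 * p) (p * 3) (u ^^^ 3) := rfl
    rw [e, ih, ih, ih, ← (Fin.consEquiv fun _ : Fin (d + 1) => Fin 3).sum_comp,
      Fintype.sum_prod_type, Fin.sum_univ_three]
    have h1 : ∀ (b : Fin 3) (s : Cfg d),
        enc ((Fin.consEquiv fun _ : Fin (d + 1) => Fin 3) (b, s)) = b + 3 * enc s := by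
      intro b s
      simp only [enc, Fin.consEquiv, Equiv.coe_fn_mk, Fin.sum_univ_succ, Fin.cons_zero,
        Fin.cons_succ, Fin.val_zero, pow_zero, mul_one, Fin.val_succ, Finset.mul_sum]
      congr 1
      exact Finset.sum_congr rfl fun j _ => by ring
    have h2 : ∀ (b : Fin 3) (s : Cfg d),
        code (sec ((Fin.consEquiv fun _ : Fin (d + 1) => Fin 3) (b, s))) =
          (b + 1) ^^^ code (sec s) := by
      intro b s
      rw [← code_add]
      simp only [sec, Fin.consEquiv, Equiv.coe_fn_mk, Fin.sum_univ_succ, Fin.cons_zero,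
        Fin.cons_succ]
    simp only [h1, h2, Nat.xor_assoc]
    refine congrArg₂ _ (congrArg₂ _ ?_ ?_) ?_ <;> refine Finset.sum_congr rfl fun s _ => ?_ <;>
      congr 1 <;> simp <;> ring

def pm : Fin 6 → Equiv.Perm (Fin 3) :=
  ![1, Equiv.swap 0 1, Equiv.swap 0 2, Equiv.swap 1 2, Equiv.swap 0 1 * Equiv.swap 1 2,
    Equiv.swap 1 2 * Equiv.swap 0 1]

theorem pN_eq (k : Fin 6) (d : Fin 3) : pN k d = pm k d := by
  revert k d; decide +kernel

theorem pG_eq (gz : Bool) (k : Fin 6) (h : gz = true → (k : ℕ) < 2) : pG (pm k) (gg gz) = gg gz := by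
  revert gz k; decide

theorem diag_rotn {L : ℕ} (hL : 2 ≤ L) (g : G) (n : ℕ) (s : Cfg L) (r : ℕ) :
    (M L g ^ n) (fun j => s ⟨(j + r) % L, Nat.mod_lt _ (by omega)⟩)
      (fun j => s ⟨(j + r) % L, Nat.mod_lt _ (by omega)⟩) = (M L g ^ n) s s := by
  induction r with
  | zero =>
    have : (fun j : Fin L => s ⟨(j + 0) % L, Nat.mod_lt _ (by omega)⟩) = s := by
      funext j; congr 1; exact Fin.ext (Nat.mod_eq_of_lt j.2)
    rw [this]
  | succ r ih =>
    rw [← ih, ← diag_rot hL g n fun j : Fin L => s ⟨(j + r) % L, Nat.mod_lt _ (by omega)⟩]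
    have : (fun j : Fin L => s ⟨(j + (r + 1)) % L, Nat.mod_lt _ (by omega)⟩) =
        fun j : Fin L => s ⟨((finRotate L j : ℕ) + r) % L, Nat.mod_lt _ (by omega)⟩ := by
      funext j; congr 2
      rw [rot_val, Nat.mod_add_mod]; congr 1; omega
    rw [this]

theorem sg_lt {L : ℕ} (hL : 2 ≤ L) (h j : ℕ) : sg L h j < L := by
  unfold sg
  rw [beq_dec, brec]
  split_ifs
  · exact Nat.mod_lt _ (by omega)
  · show L - 1 - _ < L
    omega

theorem diag_sg {L : ℕ} (hL : 2 ≤ L) (g : G) (n : ℕ) (s : Cfg L) (h : ℕ) :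
    (M L g ^ n) (fun j => s ⟨sg L h j, sg_lt hL _ _⟩) (fun j => s ⟨sg L h j, sg_lt hL _ _⟩) =
      (M L g ^ n) s s := by
  by_cases h0 : Nat.mod (Nat.div h 6) 2 = 0
  · rw [← diag_rotn hL g n s (h / 12 % 9)]
    have : (fun j : Fin L => s ⟨sg L h j, sg_lt hL _ _⟩) =
        fun j : Fin L => s ⟨(j + h / 12 % 9) % L, Nat.mod_lt _ (by omega)⟩ := by
      funext j; congr 2
      unfold sg
      rw [beq_dec, brec, if_pos h0]; rfl
    rw [this]
  · rw [← diag_rev hL g n s, ← diag_rotn hL g n (fun j => s j.rev) (h / 12 % 9)]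
    have : (fun j : Fin L => s ⟨sg L h j, sg_lt hL _ _⟩) =
        fun j : Fin L => s (Fin.rev ⟨(j + h / 12 % 9) % L, Nat.mod_lt _ (by omega)⟩) := by
      funext j; congr 1
      apply Fin.ext
      rw [Fin.val_rev]
      show sg L h j = _
      unfold sg
      rw [beq_dec, brec, if_neg h0]
      show L - 1 - (j + h / 12 % 9) % L = L - ((j + h / 12 % 9) % L + 1)
      omega
    rw [this]

theorem valid_sound {L : ℕ} (hL : 2 ≤ L) {gz : Bool} {RK mt h : ℕ} {s : Cfg L}
    (hv : valid L gz RK mt h (enc s) = true) (n : ℕ) : h / 108 < mt ∧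
    (M L (gg gz) ^ n) s s = (M L (gg gz) ^ n) (dec _ (dK RK (h / 108))) (dec _ (dK RK (h / 108))) := by
  unfold valid at hv
  rw [beq_dec, blt_dec, blt_dec, brec, brec] at hv
  split_ifs at hv with h1 h2
  refine ⟨h2, ?_⟩
  set k : Fin 6 := ⟨h % 6, Nat.mod_lt _ (by norm_num)⟩ with hk
  have hg : pG (pm k) (gg gz) = gg gz := pG_eq gz k fun e => by
    subst e
    exact of_decide_eq_true hv
  have e1 : tr L h (enc s) = enc fun j : Fin L => pm k (s ⟨sg L h j, sg_lt hL _ _⟩) := by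
    unfold tr
    rw [sumN_eq, ← Fin.sum_univ_eq_sum_range
      (fun j => Nat.mul (pN (Nat.mod h 6) (dg (enc s) (sg L h j))) (Nat.pow 3 j)) L]
    unfold enc
    refine Finset.sum_congr rfl fun j _ => ?_
    rw [← pN_eq, ← dig_enc s ⟨sg L h j, sg_lt hL _ _⟩]
    rfl
  have e2 : dK RK (h / 108) = tr L h (enc s) := h1.symm
  rw [e2, e1, dec_enc, ← diag_sg hL (gg gz) n s h, ← diag_perm L (gg gz) (pm k) n, hg]

theorem cov_sound {L : ℕ} (hL : 2 ≤ L) (hL' : L ≤ 9) {gz : Bool} {H RK CK mt : ℕ} {α : G}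
    (hc : cov L gz H RK CK mt (code α) = true) :
    (∀ l, l < mt → dK H (dK RK l) / 108 = l ∧ dK RK l < 3 ^ L) ∧ ∀ n, mom L (gg gz) α n =
      ∑ l ∈ range mt, (dK CK l : ℤ) * (M L (gg gz) ^ n) (dec _ (dK RK l)) (dec _ (dK RK l)) := by
  unfold cov at hc
  rw [beq_dec, beq_dec, beq_dec, brec, brec] at hc
  split_ifs at hc with h1 h2
  have h3 := of_decide_eq_true hc
  rw [sumN_eq, Finset.sum_eq_zero_iff] at h3
  rw [enum_eq, Finset.sum_eq_zero_iff] at h1
  rw [enum_eq] at h2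
  simp only [zero_add, one_mul, Nat.zero_xor] at h1 h2
  refine ⟨fun l hl => ?_, fun n => ?_⟩
  · have := h3 l (mem_range.2 hl)
    unfold badR at this
    rw [beq_dec, blt_dec, brec, brec] at this
    split_ifs at this with a b
    exact ⟨a, b⟩
  have hv : ∀ s : Cfg L, sec s = α → valid L gz RK mt (dK H (enc s)) (enc s) = true := by
    intro s hs
    have := h1 s (mem_univ _)
    unfold bad at this
    rw [beq_dec, brec, if_pos (by rw [hs])] at this
    cases hh : valid L gz RK mt (dK H (enc s)) (enc s)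
    · rw [hh] at this; exact absurd this (by simp)
    · rfl
  set S := univ.filter fun s : Cfg L => sec s = α with hS
  have hmap : ∀ s ∈ S, dK H (enc s) / 108 ∈ range mt := fun s hs =>
    mem_range.2 (valid_sound hL (hv s (mem_filter.1 hs).2) 0).1
  have hfib : ∀ D : ℕ → ℤ, ∑ s ∈ S, D (dK H (enc s) / 108) =
      ∑ l ∈ range mt, ((S.filter fun s => dK H (enc s) / 108 = l).card : ℤ) * D l := by
    intro D
    rw [← Finset.sum_fiberwise_of_maps_to hmap]
    refine Finset.sum_congr rfl fun l _ => ?_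
    rw [Finset.sum_congr rfl fun s hs => by rw [(mem_filter.1 hs).2], Finset.sum_const,
      nsmul_eq_mul]
  have hCK : (CK : ℤ) = ∑ s ∈ S, ((2 : ℤ) ^ 16) ^ (dK H (enc s) / 108) := by
    rw [← h2, hS, Finset.sum_filter]
    push_cast
    refine Finset.sum_congr rfl fun s _ => ?_
    unfold cnt
    rw [beq_dec, brec]
    by_cases hs : sec s = α
    · rw [if_pos hs, if_pos (by rw [hs])]
      show ((2 ^ (16 * (dK H (enc s) / 108)) : ℕ) : ℤ) = _
      push_cast
      rw [pow_mul]; norm_num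
    · rw [if_neg hs, if_neg fun e => hs (code_inj _ _ e)]; rfl
  rw [hfib fun l => ((2 : ℤ) ^ 16) ^ l] at hCK
  unfold mom
  rw [Finset.sum_congr rfl fun s hs => (valid_sound hL (hv s (mem_filter.1 hs).2) n).2,
    hfib fun l => (M L (gg gz) ^ n) (dec _ (dK RK l)) (dec _ (dK RK l))]
  refine Finset.sum_congr rfl fun l hl => ?_
  congr 1
  have := lane (2 ^ 16) (by norm_num) l mt
    (fun l => ((S.filter fun s => dK H (enc s) / 108 = l).card : ℤ)) CK (mem_range.1 hl)
    (fun k _ => ⟨by positivity, ?_⟩) (by rw [hCK])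
  · rw [← this, ← shift_cast]; rfl
  · have a1 : (S.filter fun s => dK H (enc s) / 108 = k).card ≤ Fintype.card (Cfg L) :=
      Finset.card_le_univ _
    have a2 : Fintype.card (Cfg L) = 3 ^ L := by simp
    have a3 : 3 ^ L ≤ 3 ^ 9 := Nat.pow_le_pow_right (by norm_num) hL'
    have a4 : (S.filter fun s => dK H (enc s) / 108 = k).card < 2 ^ 16 := by omega
    exact_mod_cast a4

theorem final1 {n : ℕ} (hn : 1 ≤ n) (hn' : n ≤ 8) {gz : Bool} {idx : List ℕ} {RK mt : ℕ}
    {G' : (List ℕ → Bool) → ℕ → Fn idx → Fn idx} (h : Spec n gz idx RK mt G') {k0 : Fn idx}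
    {H CK w : ℕ} {ts : List ℕ} (α : G) (hc : cov (n + 1) gz H RK CK mt (code α) = true)
    (hr : go idx G' k0 H RK CK w 0 mt ts = true) (ms : List ℤ)
    (hf : ∀ k, k < ms.length → k < ts.length ∧ (2 * (n + 1)) ^ k < 2 ^ (w - 1) ∧
      ms.getD k 0 = ts.getD k 0 - 2 ^ (w - 1) * (sumN (dK CK) mt : ℕ)) (k : ℕ)
    (hk : k < ms.length) : mom (n + 1) (gg gz) α k = ms.getD k 0 := by
  obtain ⟨c1, c2⟩ := cov_sound (by omega) (by omega) hc
  obtain ⟨f1, f2, f3⟩ := hf k hk
  rw [f3, c2, run_sound hn (by omega) h hr c1 (by omega) k f1 f2, sumN_eq]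
  push_cast
  rw [Finset.mul_sum, ← Finset.sum_sub_distrib]
  refine Finset.sum_congr rfl fun l hl => ?_
  rw [if_pos ⟨Nat.zero_le _, by simpa using hl⟩]
  ring

theorem final2 {n : ℕ} (hn : 1 ≤ n) (hn' : n ≤ 8) {gz : Bool} {idx : List ℕ} {RK mt : ℕ}
    {G' : (List ℕ → Bool) → ℕ → Fn idx → Fn idx} (h : Spec n gz idx RK mt G') {k0 : Fn idx}
    {H CK w m1 m2 : ℕ} {ts ts' : List ℕ} (α : G) (hc : cov (n + 1) gz H RK CK mt (code α) = true)
    (hr : go idx G' k0 H RK CK w 0 m1 ts = true) (hr' : go idx G' k0 H RK CK w m1 m2 ts' = true)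
    (hm : m1 + m2 = mt) (ms : List ℤ)
    (hf : ∀ k, k < ms.length → k < ts.length ∧ k < ts'.length ∧ (2 * (n + 1)) ^ k < 2 ^ (w - 1) ∧
      ms.getD k 0 = ts.getD k 0 + ts'.getD k 0 - 2 ^ (w - 1) * (sumN (dK CK) mt : ℕ)) (k : ℕ)
    (hk : k < ms.length) : mom (n + 1) (gg gz) α k = ms.getD k 0 := by
  obtain ⟨c1, c2⟩ := cov_sound (by omega) (by omega) hc
  obtain ⟨f1, f1', f2, f3⟩ := hf k hk
  rw [f3, c2, run_sound hn (by omega) h hr c1 (by omega) k f1 f2,
    run_sound hn (by omega) h hr' c1 (by omega) k f1' f2, sumN_eq]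
  push_cast
  rw [Finset.mul_sum, ← Finset.sum_add_distrib, ← Finset.sum_sub_distrib]
  refine Finset.sum_congr rfl fun l hl => ?_
  have := mem_range.1 hl
  by_cases h1 : l < m1
  · rw [if_pos ⟨Nat.zero_le _, by omega⟩, if_neg (by omega)]; ring
  · rw [if_neg (by omega), if_pos ⟨by omega, by omega⟩]; ring

end Vale.Agent.P348.MomK
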