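import Vale.Agent.P348.MomK

/-! Generated kernel computation of sector moments. -/

open Nat (add sub)

set_option maxRecDepth 1000000
set_option maxHeartbeats 0
set_option linter.unusedVariables false

namespace Vale.Agent.P348.MomK

namespace S9x0

noncomputable def idx : List Nat :=
  [nat_lit 5, nat_lit 7, nat_lit 11, nat_lit 15, nat_lit 19, nat_lit 21, nat_lit 29, nat_lit 33,
  nat_lit 41, nat_lit 43, nat_lit 45, nat_lit 49, nat_lit 53, nat_lit 55, nat_lit 57, nat_lit 63,
  nat_lit 67, nat_lit 71, nat_lit 77, nat_lit 79, nat_lit 83, nat_lit 87, nat_lit 95, nat_lit 97,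
  nat_lit 99, nat_lit 103, nat_lit 107, nat_lit 113, nat_lit 115, nat_lit 119, nat_lit 123, nat_lit 127,
  nat_lit 129, nat_lit 135, nat_lit 139, nat_lit 143, nat_lit 145, nat_lit 147, nat_lit 155, nat_lit 159,
  nat_lit 163, nat_lit 165, nat_lit 171, nat_lit 175, nat_lit 179, nat_lit 185, nat_lit 187, nat_lit 189,
  nat_lit 193, nat_lit 197, nat_lit 199, nat_lit 201, nat_lit 209, nat_lit 213, nat_lit 221, nat_lit 223,
  nat_lit 227, nat_lit 231, nat_lit 235, nat_lit 237, nat_lit 245, nat_lit 249, nat_lit 257, nat_lit 259,
  nat_lit 261, nat_lit 265, nat_lit 269, nat_lit 275, nat_lit 277, nat_lit 281, nat_lit 285, nat_lit 289,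
  nat_lit 291, nat_lit 297, nat_lit 301, nat_lit 305, nat_lit 307, nat_lit 309, nat_lit 317, nat_lit 321,
  nat_lit 329, nat_lit 331, nat_lit 335, nat_lit 339, nat_lit 343, nat_lit 345, nat_lit 353, nat_lit 357,
  nat_lit 365, nat_lit 367, nat_lit 369, nat_lit 373, nat_lit 377, nat_lit 379, nat_lit 381, nat_lit 387,
  nat_lit 391, nat_lit 395, nat_lit 401, nat_lit 403, nat_lit 405, nat_lit 409, nat_lit 413, nat_lit 415,
  nat_lit 417, nat_lit 425, nat_lit 429, nat_lit 433, nat_lit 435, nat_lit 441, nat_lit 445, nat_lit 449,
  nat_lit 455, nat_lit 457, nat_lit 461, nat_lit 465, nat_lit 473, nat_lit 475, nat_lit 477, nat_lit 481,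
  nat_lit 485, nat_lit 487, nat_lit 489, nat_lit 495, nat_lit 499, nat_lit 503, nat_lit 509, nat_lit 511,
  nat_lit 513, nat_lit 517, nat_lit 521, nat_lit 523, nat_lit 525, nat_lit 533, nat_lit 537, nat_lit 545,
  nat_lit 547, nat_lit 551, nat_lit 555, nat_lit 559, nat_lit 561, nat_lit 567, nat_lit 571, nat_lit 575,
  nat_lit 577, nat_lit 579, nat_lit 587, nat_lit 591, nat_lit 595, nat_lit 597, nat_lit 603, nat_lit 607,
  nat_lit 611, nat_lit 617, nat_lit 619, nat_lit 623, nat_lit 627, nat_lit 635, nat_lit 637, nat_lit 639,
  nat_lit 643, nat_lit 647, nat_lit 653, nat_lit 655, nat_lit 659, nat_lit 663, nat_lit 667, nat_lit 669,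
  nat_lit 677, nat_lit 681, nat_lit 689, nat_lit 691, nat_lit 693, nat_lit 697, nat_lit 701, nat_lit 703,
  nat_lit 705, nat_lit 711, nat_lit 715, nat_lit 719, nat_lit 725, nat_lit 727, nat_lit 731, nat_lit 735,
  nat_lit 743, nat_lit 745, nat_lit 747, nat_lit 751, nat_lit 755, nat_lit 761, nat_lit 763, nat_lit 767,
  nat_lit 771, nat_lit 775, nat_lit 777, nat_lit 783, nat_lit 787, nat_lit 791, nat_lit 793, nat_lit 795,
  nat_lit 803, nat_lit 807, nat_lit 815, nat_lit 817, nat_lit 821, nat_lit 825, nat_lit 829, nat_lit 831,
  nat_lit 839, nat_lit 843, nat_lit 851, nat_lit 853, nat_lit 855, nat_lit 859, nat_lit 863, nat_lit 865,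
  nat_lit 867, nat_lit 873, nat_lit 877, nat_lit 881, nat_lit 887, nat_lit 889, nat_lit 891, nat_lit 895,
  nat_lit 899, nat_lit 901, nat_lit 903, nat_lit 911, nat_lit 915, nat_lit 919, nat_lit 921, nat_lit 927,
  nat_lit 931, nat_lit 935, nat_lit 941, nat_lit 943, nat_lit 947, nat_lit 951, nat_lit 959, nat_lit 961,
  nat_lit 963, nat_lit 967, nat_lit 971, nat_lit 977, nat_lit 979, nat_lit 983, nat_lit 987, nat_lit 991,
  nat_lit 993, nat_lit 1001, nat_lit 1005, nat_lit 1013, nat_lit 1015, nat_lit 1017, nat_lit 1021, nat_lit 1025,
  nat_lit 1027, nat_lit 1029, nat_lit 1035, nat_lit 1039, nat_lit 1043, nat_lit 1049, nat_lit 1051, nat_lit 1055,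
  nat_lit 1059, nat_lit 1067, nat_lit 1069, nat_lit 1071, nat_lit 1075, nat_lit 1079, nat_lit 1085, nat_lit 1087,
  nat_lit 1091, nat_lit 1095, nat_lit 1099, nat_lit 1101, nat_lit 1107, nat_lit 1111, nat_lit 1115, nat_lit 1117,
  nat_lit 1119, nat_lit 1127, nat_lit 1131, nat_lit 1135, nat_lit 1137, nat_lit 1143, nat_lit 1147, nat_lit 1151,
  nat_lit 1157, nat_lit 1159, nat_lit 1161, nat_lit 1165, nat_lit 1169, nat_lit 1171, nat_lit 1173, nat_lit 1181,
  nat_lit 1185, nat_lit 1193, nat_lit 1195, nat_lit 1199, nat_lit 1203, nat_lit 1207, nat_lit 1209, nat_lit 1215,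
  nat_lit 1219, nat_lit 1223, nat_lit 1225, nat_lit 1227, nat_lit 1235, nat_lit 1239, nat_lit 1243, nat_lit 1245,
  nat_lit 1251, nat_lit 1255, nat_lit 1259, nat_lit 1265, nat_lit 1267, nat_lit 1271, nat_lit 1275, nat_lit 1283,
  nat_lit 1285, nat_lit 1287, nat_lit 1291, nat_lit 1295, nat_lit 1297, nat_lit 1299, nat_lit 1305, nat_lit 1309,
  nat_lit 1313, nat_lit 1319, nat_lit 1321, nat_lit 1323, nat_lit 1327, nat_lit 1331, nat_lit 1333, nat_lit 1335,
  nat_lit 1343, nat_lit 1347, nat_lit 1355, nat_lit 1357, nat_lit 1361, nat_lit 1365, nat_lit 1369, nat_lit 1371,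
  nat_lit 1379, nat_lit 1383, nat_lit 1391, nat_lit 1393, nat_lit 1395, nat_lit 1399, nat_lit 1403, nat_lit 1409,
  nat_lit 1411, nat_lit 1415, nat_lit 1419, nat_lit 1423, nat_lit 1425, nat_lit 1431, nat_lit 1435, nat_lit 1439,
  nat_lit 1441, nat_lit 1443, nat_lit 1451, nat_lit 1455, nat_lit 1459, nat_lit 1461, nat_lit 1467, nat_lit 1471,
  nat_lit 1475, nat_lit 1481, nat_lit 1483, nat_lit 1485, nat_lit 1489, nat_lit 1493, nat_lit 1495, nat_lit 1497,
  nat_lit 1505, nat_lit 1509, nat_lit 1517, nat_lit 1519, nat_lit 1523, nat_lit 1527, nat_lit 1531, nat_lit 1533,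
  nat_lit 1539, nat_lit 1543, nat_lit 1547, nat_lit 1549, nat_lit 1551, nat_lit 1559, nat_lit 1563, nat_lit 1567,
  nat_lit 1569, nat_lit 1575, nat_lit 1579, nat_lit 1583, nat_lit 1589, nat_lit 1591, nat_lit 1595, nat_lit 1599,
  nat_lit 1607, nat_lit 1609, nat_lit 1611, nat_lit 1615, nat_lit 1619, nat_lit 1625, nat_lit 1627, nat_lit 1631,
  nat_lit 1635, nat_lit 1639, nat_lit 1641, nat_lit 1649, nat_lit 1653, nat_lit 1661, nat_lit 1663, nat_lit 1665,
  nat_lit 1669, nat_lit 1673, nat_lit 1675, nat_lit 1677, nat_lit 1683, nat_lit 1687, nat_lit 1691, nat_lit 1697,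
  nat_lit 1699, nat_lit 1701, nat_lit 1705, nat_lit 1709, nat_lit 1711, nat_lit 1713, nat_lit 1721, nat_lit 1725,
  nat_lit 1729, nat_lit 1731, nat_lit 1737, nat_lit 1741, nat_lit 1745, nat_lit 1751, nat_lit 1753, nat_lit 1757,
  nat_lit 1761, nat_lit 1769, nat_lit 1771, nat_lit 1773, nat_lit 1777, nat_lit 1781, nat_lit 1783, nat_lit 1785,
  nat_lit 1791, nat_lit 1795, nat_lit 1799, nat_lit 1805, nat_lit 1807, nat_lit 1809, nat_lit 1813, nat_lit 1817,
  nat_lit 1819, nat_lit 1821, nat_lit 1829, nat_lit 1833, nat_lit 1841, nat_lit 1843, nat_lit 1847, nat_lit 1851,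
  nat_lit 1855, nat_lit 1857, nat_lit 1865, nat_lit 1869, nat_lit 1877, nat_lit 1879, nat_lit 1881, nat_lit 1885,
  nat_lit 1889, nat_lit 1895, nat_lit 1897, nat_lit 1901, nat_lit 1905, nat_lit 1909, nat_lit 1911, nat_lit 1917,
  nat_lit 1921, nat_lit 1925, nat_lit 1927, nat_lit 1929, nat_lit 1937, nat_lit 1941, nat_lit 1949, nat_lit 1951,
  nat_lit 1955, nat_lit 1959, nat_lit 1963, nat_lit 1965, nat_lit 1973, nat_lit 1977, nat_lit 1985, nat_lit 1987,
  nat_lit 1989, nat_lit 1993, nat_lit 1997, nat_lit 1999, nat_lit 2001, nat_lit 2007, nat_lit 2011, nat_lit 2015,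
  nat_lit 2021, nat_lit 2023, nat_lit 2027, nat_lit 2031, nat_lit 2039, nat_lit 2041, nat_lit 2043, nat_lit 2047,
  nat_lit 2051, nat_lit 2057, nat_lit 2059, nat_lit 2063, nat_lit 2067, nat_lit 2071, nat_lit 2073, nat_lit 2079,
  nat_lit 2083, nat_lit 2087, nat_lit 2089, nat_lit 2091, nat_lit 2099, nat_lit 2103, nat_lit 2107, nat_lit 2109,
  nat_lit 2115, nat_lit 2119, nat_lit 2123, nat_lit 2129, nat_lit 2131, nat_lit 2133, nat_lit 2137, nat_lit 2141,
  nat_lit 2143, nat_lit 2145, nat_lit 2153, nat_lit 2157, nat_lit 2165, nat_lit 2167, nat_lit 2171, nat_lit 2175,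
  nat_lit 2179, nat_lit 2181, nat_lit 2189, nat_lit 2193, nat_lit 2201, nat_lit 2203, nat_lit 2205, nat_lit 2209,
  nat_lit 2213, nat_lit 2219, nat_lit 2221, nat_lit 2225, nat_lit 2229, nat_lit 2233, nat_lit 2235, nat_lit 2241,
  nat_lit 2245, nat_lit 2249, nat_lit 2251, nat_lit 2253, nat_lit 2261, nat_lit 2265, nat_lit 2273, nat_lit 2275,
  nat_lit 2279, nat_lit 2283, nat_lit 2287, nat_lit 2289, nat_lit 2297, nat_lit 2301, nat_lit 2309, nat_lit 2311,
  nat_lit 2313, nat_lit 2317, nat_lit 2321, nat_lit 2323, nat_lit 2325, nat_lit 2331, nat_lit 2335, nat_lit 2339,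
  nat_lit 2345, nat_lit 2347, nat_lit 2349, nat_lit 2353, nat_lit 2357, nat_lit 2359, nat_lit 2361, nat_lit 2369,
  nat_lit 2373, nat_lit 2377, nat_lit 2379, nat_lit 2385, nat_lit 2389, nat_lit 2393, nat_lit 2399, nat_lit 2401,
  nat_lit 2405, nat_lit 2409, nat_lit 2417, nat_lit 2419, nat_lit 2421, nat_lit 2425, nat_lit 2429, nat_lit 2435,
  nat_lit 2437, nat_lit 2441, nat_lit 2445, nat_lit 2449, nat_lit 2451, nat_lit 2459, nat_lit 2463, nat_lit 2471,
  nat_lit 2473, nat_lit 2475, nat_lit 2479, nat_lit 2483, nat_lit 2485, nat_lit 2487, nat_lit 2493, nat_lit 2497,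
  nat_lit 2501, nat_lit 2507, nat_lit 2509, nat_lit 2513, nat_lit 2517, nat_lit 2525, nat_lit 2527, nat_lit 2529,
  nat_lit 2533, nat_lit 2537, nat_lit 2543, nat_lit 2545, nat_lit 2549, nat_lit 2553, nat_lit 2557, nat_lit 2559,
  nat_lit 2565, nat_lit 2569, nat_lit 2573, nat_lit 2575, nat_lit 2577, nat_lit 2585, nat_lit 2589, nat_lit 2593,
  nat_lit 2595, nat_lit 2601, nat_lit 2605, nat_lit 2609, nat_lit 2615, nat_lit 2617, nat_lit 2619, nat_lit 2623,
  nat_lit 2627, nat_lit 2629, nat_lit 2631, nat_lit 2639, nat_lit 2643, nat_lit 2651, nat_lit 2653, nat_lit 2657,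
  nat_lit 2661, nat_lit 2665, nat_lit 2667, nat_lit 2673, nat_lit 2677, nat_lit 2681, nat_lit 2683, nat_lit 2685,
  nat_lit 2693, nat_lit 2697, nat_lit 2701, nat_lit 2703, nat_lit 2709, nat_lit 2713, nat_lit 2717, nat_lit 2723,
  nat_lit 2725, nat_lit 2729, nat_lit 2733, nat_lit 2741, nat_lit 2743, nat_lit 2745, nat_lit 2749, nat_lit 2753,
  nat_lit 2755, nat_lit 2757, nat_lit 2763, nat_lit 2767, nat_lit 2771, nat_lit 2777, nat_lit 2779, nat_lit 2781,
  nat_lit 2785, nat_lit 2789, nat_lit 2791, nat_lit 2793, nat_lit 2801, nat_lit 2805, nat_lit 2813, nat_lit 2815,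
  nat_lit 2819, nat_lit 2823, nat_lit 2827, nat_lit 2829, nat_lit 2837, nat_lit 2841, nat_lit 2849, nat_lit 2851,
  nat_lit 2853, nat_lit 2857, nat_lit 2861, nat_lit 2867, nat_lit 2869, nat_lit 2873, nat_lit 2877, nat_lit 2881,
  nat_lit 2883, nat_lit 2889, nat_lit 2893, nat_lit 2897, nat_lit 2899, nat_lit 2901, nat_lit 2909, nat_lit 2913,
  nat_lit 2921, nat_lit 2923, nat_lit 2927, nat_lit 2931, nat_lit 2935, nat_lit 2937, nat_lit 2945, nat_lit 2949,
  nat_lit 2957, nat_lit 2959, nat_lit 2961, nat_lit 2965, nat_lit 2969, nat_lit 2971, nat_lit 2973, nat_lit 2979,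
  nat_lit 2983, nat_lit 2987, nat_lit 2993, nat_lit 2995, nat_lit 2999, nat_lit 3003, nat_lit 3011, nat_lit 3013,
  nat_lit 3015, nat_lit 3019, nat_lit 3023, nat_lit 3029, nat_lit 3031, nat_lit 3035, nat_lit 3039, nat_lit 3043,
  nat_lit 3045, nat_lit 3051, nat_lit 3055, nat_lit 3059, nat_lit 3061, nat_lit 3063, nat_lit 3071, nat_lit 3075,
  nat_lit 3079, nat_lit 3081, nat_lit 3087, nat_lit 3091, nat_lit 3095, nat_lit 3101, nat_lit 3103, nat_lit 3105,
  nat_lit 3109, nat_lit 3113, nat_lit 3115, nat_lit 3117, nat_lit 3125, nat_lit 3129, nat_lit 3137, nat_lit 3139,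
  nat_lit 3143, nat_lit 3147, nat_lit 3151, nat_lit 3153, nat_lit 3161, nat_lit 3165, nat_lit 3173, nat_lit 3175,
  nat_lit 3177, nat_lit 3181, nat_lit 3185, nat_lit 3191, nat_lit 3193, nat_lit 3197, nat_lit 3201, nat_lit 3205,
  nat_lit 3207, nat_lit 3213, nat_lit 3217, nat_lit 3221, nat_lit 3223, nat_lit 3225, nat_lit 3233, nat_lit 3237,
  nat_lit 3245, nat_lit 3247, nat_lit 3251, nat_lit 3255, nat_lit 3259, nat_lit 3261, nat_lit 3269, nat_lit 3273,
  nat_lit 3281, nat_lit 3283, nat_lit 3285, nat_lit 3289, nat_lit 3293, nat_lit 3295, nat_lit 3297, nat_lit 3303,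
  nat_lit 3307, nat_lit 3311, nat_lit 3317, nat_lit 3319, nat_lit 3321, nat_lit 3325, nat_lit 3329, nat_lit 3331,
  nat_lit 3333, nat_lit 3341, nat_lit 3345, nat_lit 3349, nat_lit 3351, nat_lit 3357, nat_lit 3361, nat_lit 3365,
  nat_lit 3371, nat_lit 3373, nat_lit 3377, nat_lit 3381, nat_lit 3389, nat_lit 3391, nat_lit 3393, nat_lit 3397,
  nat_lit 3401, nat_lit 3403, nat_lit 3405, nat_lit 3411, nat_lit 3415, nat_lit 3419, nat_lit 3425, nat_lit 3427,
  nat_lit 3429, nat_lit 3433, nat_lit 3437, nat_lit 3439, nat_lit 3441, nat_lit 3449, nat_lit 3453, nat_lit 3461,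
  nat_lit 3463, nat_lit 3467, nat_lit 3471, nat_lit 3475, nat_lit 3477, nat_lit 3483, nat_lit 3487, nat_lit 3491,
  nat_lit 3493, nat_lit 3495, nat_lit 3503, nat_lit 3507, nat_lit 3511, nat_lit 3513, nat_lit 3519, nat_lit 3523,
  nat_lit 3527, nat_lit 3533, nat_lit 3535, nat_lit 3539, nat_lit 3543, nat_lit 3551, nat_lit 3553, nat_lit 3555,
  nat_lit 3559, nat_lit 3563, nat_lit 3569, nat_lit 3571, nat_lit 3575, nat_lit 3579, nat_lit 3583, nat_lit 3585,
  nat_lit 3593, nat_lit 3597, nat_lit 3605, nat_lit 3607, nat_lit 3609, nat_lit 3613, nat_lit 3617, nat_lit 3619,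
  nat_lit 3621, nat_lit 3627, nat_lit 3631, nat_lit 3635, nat_lit 3641, nat_lit 3643, nat_lit 3645, nat_lit 3649,
  nat_lit 3653, nat_lit 3655, nat_lit 3657, nat_lit 3665, nat_lit 3669, nat_lit 3673, nat_lit 3675, nat_lit 3681,
  nat_lit 3685, nat_lit 3689, nat_lit 3695, nat_lit 3697, nat_lit 3701, nat_lit 3705, nat_lit 3713, nat_lit 3715,
  nat_lit 3717, nat_lit 3721, nat_lit 3725, nat_lit 3727, nat_lit 3729, nat_lit 3735, nat_lit 3739, nat_lit 3743,
  nat_lit 3749, nat_lit 3751, nat_lit 3753, nat_lit 3757, nat_lit 3761, nat_lit 3763, nat_lit 3765, nat_lit 3773,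
  nat_lit 3777, nat_lit 3785, nat_lit 3787, nat_lit 3791, nat_lit 3795, nat_lit 3799, nat_lit 3801, nat_lit 3809,
  nat_lit 3813, nat_lit 3821, nat_lit 3823, nat_lit 3825, nat_lit 3829, nat_lit 3833, nat_lit 3839, nat_lit 3841,
  nat_lit 3845, nat_lit 3849, nat_lit 3853, nat_lit 3855, nat_lit 3861, nat_lit 3865, nat_lit 3869, nat_lit 3871,
  nat_lit 3873, nat_lit 3881, nat_lit 3885, nat_lit 3889, nat_lit 3891, nat_lit 3897, nat_lit 3901, nat_lit 3905,
  nat_lit 3911, nat_lit 3913, nat_lit 3915, nat_lit 3919, nat_lit 3923, nat_lit 3925, nat_lit 3927, nat_lit 3935,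
  nat_lit 3939, nat_lit 3947, nat_lit 3949, nat_lit 3953, nat_lit 3957, nat_lit 3961, nat_lit 3963, nat_lit 3969,
  nat_lit 3973, nat_lit 3977, nat_lit 3979, nat_lit 3981, nat_lit 3989, nat_lit 3993, nat_lit 3997, nat_lit 3999,
  nat_lit 4005, nat_lit 4009, nat_lit 4013, nat_lit 4019, nat_lit 4021, nat_lit 4025, nat_lit 4029, nat_lit 4037,
  nat_lit 4039, nat_lit 4041, nat_lit 4045, nat_lit 4049, nat_lit 4055, nat_lit 4057, nat_lit 4061, nat_lit 4065,
  nat_lit 4069, nat_lit 4071, nat_lit 4079, nat_lit 4083, nat_lit 4091, nat_lit 4093, nat_lit 4095, nat_lit 4099,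
  nat_lit 4103, nat_lit 4105, nat_lit 4107, nat_lit 4113, nat_lit 4117, nat_lit 4121, nat_lit 4127, nat_lit 4129,
  nat_lit 4133, nat_lit 4137, nat_lit 4145, nat_lit 4147, nat_lit 4149, nat_lit 4153, nat_lit 4157, nat_lit 4163,
  nat_lit 4165, nat_lit 4169, nat_lit 4173, nat_lit 4177, nat_lit 4179, nat_lit 4185, nat_lit 4189, nat_lit 4193,
  nat_lit 4195, nat_lit 4197, nat_lit 4205, nat_lit 4209, nat_lit 4217, nat_lit 4219, nat_lit 4223, nat_lit 4227,
  nat_lit 4231, nat_lit 4233, nat_lit 4241, nat_lit 4245, nat_lit 4253, nat_lit 4255, nat_lit 4257, nat_lit 4261,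
  nat_lit 4265, nat_lit 4267, nat_lit 4269, nat_lit 4275, nat_lit 4279, nat_lit 4283, nat_lit 4289, nat_lit 4291,
  nat_lit 4293, nat_lit 4297, nat_lit 4301, nat_lit 4303, nat_lit 4305, nat_lit 4313, nat_lit 4317, nat_lit 4321,
  nat_lit 4323, nat_lit 4329, nat_lit 4333, nat_lit 4337, nat_lit 4343, nat_lit 4345, nat_lit 4349, nat_lit 4353,
  nat_lit 4361, nat_lit 4363, nat_lit 4365, nat_lit 4369, nat_lit 4373, nat_lit 4375, nat_lit 4377, nat_lit 4383,
  nat_lit 4387, nat_lit 4391, nat_lit 4397, nat_lit 4399, nat_lit 4401, nat_lit 4405, nat_lit 4409, nat_lit 4411,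
  nat_lit 4413, nat_lit 4421, nat_lit 4425, nat_lit 4433, nat_lit 4435, nat_lit 4439, nat_lit 4443, nat_lit 4447,
  nat_lit 4449, nat_lit 4455, nat_lit 4459, nat_lit 4463, nat_lit 4465, nat_lit 4467, nat_lit 4475, nat_lit 4479,
  nat_lit 4483, nat_lit 4485, nat_lit 4491, nat_lit 4495, nat_lit 4499, nat_lit 4505, nat_lit 4507, nat_lit 4511,
  nat_lit 4515, nat_lit 4523, nat_lit 4525, nat_lit 4527, nat_lit 4531, nat_lit 4535, nat_lit 4541, nat_lit 4543,
  nat_lit 4547, nat_lit 4551, nat_lit 4555, nat_lit 4557, nat_lit 4565, nat_lit 4569, nat_lit 4577, nat_lit 4579,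
  nat_lit 4581, nat_lit 4585, nat_lit 4589, nat_lit 4591, nat_lit 4593, nat_lit 4599, nat_lit 4603, nat_lit 4607,
  nat_lit 4613, nat_lit 4615, nat_lit 4617, nat_lit 4621, nat_lit 4625, nat_lit 4627, nat_lit 4629, nat_lit 4637,
  nat_lit 4641, nat_lit 4645, nat_lit 4647, nat_lit 4653, nat_lit 4657, nat_lit 4661, nat_lit 4667, nat_lit 4669,
  nat_lit 4673, nat_lit 4677, nat_lit 4685, nat_lit 4687, nat_lit 4689, nat_lit 4693, nat_lit 4697, nat_lit 4699,
  nat_lit 4701, nat_lit 4707, nat_lit 4711, nat_lit 4715, nat_lit 4721, nat_lit 4723, nat_lit 4725, nat_lit 4729,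
  nat_lit 4733, nat_lit 4735, nat_lit 4737, nat_lit 4745, nat_lit 4749, nat_lit 4757, nat_lit 4759, nat_lit 4763,
  nat_lit 4767, nat_lit 4771, nat_lit 4773, nat_lit 4781, nat_lit 4785, nat_lit 4793, nat_lit 4795, nat_lit 4797,
  nat_lit 4801, nat_lit 4805, nat_lit 4811, nat_lit 4813, nat_lit 4817, nat_lit 4821, nat_lit 4825, nat_lit 4827,
  nat_lit 4833, nat_lit 4837, nat_lit 4841, nat_lit 4843, nat_lit 4845, nat_lit 4853, nat_lit 4857, nat_lit 4865,
  nat_lit 4867, nat_lit 4871, nat_lit 4875, nat_lit 4879, nat_lit 4881, nat_lit 4889, nat_lit 4893, nat_lit 4901,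
  nat_lit 4903, nat_lit 4905, nat_lit 4909, nat_lit 4913, nat_lit 4915, nat_lit 4917, nat_lit 4923, nat_lit 4927,
  nat_lit 4931, nat_lit 4937, nat_lit 4939, nat_lit 4943, nat_lit 4947, nat_lit 4955, nat_lit 4957, nat_lit 4959,
  nat_lit 4963, nat_lit 4967, nat_lit 4973, nat_lit 4975, nat_lit 4979, nat_lit 4983, nat_lit 4987, nat_lit 4989,
  nat_lit 4995, nat_lit 4999, nat_lit 5003, nat_lit 5005, nat_lit 5007, nat_lit 5015, nat_lit 5019, nat_lit 5023,
  nat_lit 5025, nat_lit 5031, nat_lit 5035, nat_lit 5039, nat_lit 5045, nat_lit 5047, nat_lit 5049, nat_lit 5053,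
  nat_lit 5057, nat_lit 5059, nat_lit 5061, nat_lit 5069, nat_lit 5073, nat_lit 5081, nat_lit 5083, nat_lit 5087,
  nat_lit 5091, nat_lit 5095, nat_lit 5097, nat_lit 5103, nat_lit 5107, nat_lit 5111, nat_lit 5113, nat_lit 5115,
  nat_lit 5123, nat_lit 5127, nat_lit 5131, nat_lit 5133, nat_lit 5139, nat_lit 5143, nat_lit 5147, nat_lit 5153,
  nat_lit 5155, nat_lit 5159, nat_lit 5163, nat_lit 5171, nat_lit 5173, nat_lit 5175, nat_lit 5179, nat_lit 5183,
  nat_lit 5185, nat_lit 5187, nat_lit 5193, nat_lit 5197, nat_lit 5201, nat_lit 5207, nat_lit 5209, nat_lit 5211,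
  nat_lit 5215, nat_lit 5219, nat_lit 5221, nat_lit 5223, nat_lit 5231, nat_lit 5235, nat_lit 5243, nat_lit 5245,
  nat_lit 5249, nat_lit 5253, nat_lit 5257, nat_lit 5259, nat_lit 5267, nat_lit 5271, nat_lit 5279, nat_lit 5281,
  nat_lit 5283, nat_lit 5287, nat_lit 5291, nat_lit 5297, nat_lit 5299, nat_lit 5303, nat_lit 5307, nat_lit 5311,
  nat_lit 5313, nat_lit 5319, nat_lit 5323, nat_lit 5327, nat_lit 5329, nat_lit 5331, nat_lit 5339, nat_lit 5343,
  nat_lit 5347, nat_lit 5349, nat_lit 5355, nat_lit 5359, nat_lit 5363, nat_lit 5369, nat_lit 5371, nat_lit 5373,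
  nat_lit 5377, nat_lit 5381, nat_lit 5383, nat_lit 5385, nat_lit 5393, nat_lit 5397, nat_lit 5405, nat_lit 5407,
  nat_lit 5411, nat_lit 5415, nat_lit 5419, nat_lit 5421, nat_lit 5427, nat_lit 5431, nat_lit 5435, nat_lit 5437,
  nat_lit 5439, nat_lit 5447, nat_lit 5451, nat_lit 5455, nat_lit 5457, nat_lit 5463, nat_lit 5467, nat_lit 5471,
  nat_lit 5477, nat_lit 5479, nat_lit 5483, nat_lit 5487, nat_lit 5495, nat_lit 5497, nat_lit 5499, nat_lit 5503,
  nat_lit 5507, nat_lit 5513, nat_lit 5515, nat_lit 5519, nat_lit 5523, nat_lit 5527, nat_lit 5529, nat_lit 5537,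
  nat_lit 5541, nat_lit 5549, nat_lit 5551, nat_lit 5553, nat_lit 5557, nat_lit 5561, nat_lit 5563, nat_lit 5565,
  nat_lit 5571, nat_lit 5575, nat_lit 5579, nat_lit 5585, nat_lit 5587, nat_lit 5591, nat_lit 5595, nat_lit 5603,
  nat_lit 5605, nat_lit 5607, nat_lit 5611, nat_lit 5615, nat_lit 5621, nat_lit 5623, nat_lit 5627, nat_lit 5631,
  nat_lit 5635, nat_lit 5637, nat_lit 5643, nat_lit 5647, nat_lit 5651, nat_lit 5653, nat_lit 5655, nat_lit 5663,
  nat_lit 5667, nat_lit 5675, nat_lit 5677, nat_lit 5681, nat_lit 5685, nat_lit 5689, nat_lit 5691, nat_lit 5699,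
  nat_lit 5703, nat_lit 5711, nat_lit 5713, nat_lit 5715, nat_lit 5719, nat_lit 5723, nat_lit 5725, nat_lit 5727,
  nat_lit 5733, nat_lit 5737, nat_lit 5741, nat_lit 5747, nat_lit 5749, nat_lit 5751, nat_lit 5755, nat_lit 5759,
  nat_lit 5761, nat_lit 5763, nat_lit 5771, nat_lit 5775, nat_lit 5779, nat_lit 5781, nat_lit 5787, nat_lit 5791,
  nat_lit 5795, nat_lit 5801, nat_lit 5803, nat_lit 5807, nat_lit 5811, nat_lit 5819, nat_lit 5821, nat_lit 5823,
  nat_lit 5827, nat_lit 5831, nat_lit 5837, nat_lit 5839, nat_lit 5843, nat_lit 5847, nat_lit 5851, nat_lit 5853,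
  nat_lit 5861, nat_lit 5865, nat_lit 5873, nat_lit 5875, nat_lit 5877, nat_lit 5881, nat_lit 5885, nat_lit 5887,
  nat_lit 5889, nat_lit 5895, nat_lit 5899, nat_lit 5903, nat_lit 5909, nat_lit 5911, nat_lit 5915, nat_lit 5919,
  nat_lit 5927, nat_lit 5929, nat_lit 5931, nat_lit 5935, nat_lit 5939, nat_lit 5945, nat_lit 5947, nat_lit 5951,
  nat_lit 5955, nat_lit 5959, nat_lit 5961, nat_lit 5967, nat_lit 5971, nat_lit 5975, nat_lit 5977, nat_lit 5979,
  nat_lit 5987, nat_lit 5991, nat_lit 5995, nat_lit 5997, nat_lit 6003, nat_lit 6007, nat_lit 6011, nat_lit 6017,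
  nat_lit 6019, nat_lit 6021, nat_lit 6025, nat_lit 6029, nat_lit 6031, nat_lit 6033, nat_lit 6041, nat_lit 6045,
  nat_lit 6053, nat_lit 6055, nat_lit 6059, nat_lit 6063, nat_lit 6067, nat_lit 6069, nat_lit 6077, nat_lit 6081,
  nat_lit 6089, nat_lit 6091, nat_lit 6093, nat_lit 6097, nat_lit 6101, nat_lit 6107, nat_lit 6109, nat_lit 6113,
  nat_lit 6117, nat_lit 6121, nat_lit 6123, nat_lit 6129, nat_lit 6133, nat_lit 6137, nat_lit 6139, nat_lit 6141,
  nat_lit 6149, nat_lit 6153, nat_lit 6161, nat_lit 6163, nat_lit 6167, nat_lit 6171, nat_lit 6175, nat_lit 6177,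
  nat_lit 6185, nat_lit 6189, nat_lit 6197, nat_lit 6199, nat_lit 6201, nat_lit 6205, nat_lit 6209, nat_lit 6211,
  nat_lit 6213, nat_lit 6219, nat_lit 6223, nat_lit 6227, nat_lit 6233, nat_lit 6235, nat_lit 6237, nat_lit 6241,
  nat_lit 6245, nat_lit 6247, nat_lit 6249, nat_lit 6257, nat_lit 6261, nat_lit 6265, nat_lit 6267, nat_lit 6273,
  nat_lit 6277, nat_lit 6281, nat_lit 6287, nat_lit 6289, nat_lit 6293, nat_lit 6297, nat_lit 6305, nat_lit 6307,
  nat_lit 6309, nat_lit 6313, nat_lit 6317, nat_lit 6319, nat_lit 6321, nat_lit 6327, nat_lit 6331, nat_lit 6335,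
  nat_lit 6341, nat_lit 6343, nat_lit 6345, nat_lit 6349, nat_lit 6353, nat_lit 6355, nat_lit 6357, nat_lit 6365,
  nat_lit 6369, nat_lit 6377, nat_lit 6379, nat_lit 6383, nat_lit 6387, nat_lit 6391, nat_lit 6393, nat_lit 6399,
  nat_lit 6403, nat_lit 6407, nat_lit 6409, nat_lit 6411, nat_lit 6419, nat_lit 6423, nat_lit 6427, nat_lit 6429,
  nat_lit 6435, nat_lit 6439, nat_lit 6443, nat_lit 6449, nat_lit 6451, nat_lit 6455, nat_lit 6459, nat_lit 6467,
  nat_lit 6469, nat_lit 6471, nat_lit 6475, nat_lit 6479, nat_lit 6485, nat_lit 6487, nat_lit 6491, nat_lit 6495,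
  nat_lit 6499, nat_lit 6501, nat_lit 6509, nat_lit 6513, nat_lit 6521, nat_lit 6523, nat_lit 6525, nat_lit 6529,
  nat_lit 6533, nat_lit 6535, nat_lit 6537, nat_lit 6543, nat_lit 6547, nat_lit 6551, nat_lit 6557, nat_lit 6559,
  nat_lit 6563, nat_lit 6567, nat_lit 6575, nat_lit 6577, nat_lit 6579, nat_lit 6583, nat_lit 6587, nat_lit 6593,
  nat_lit 6595, nat_lit 6599, nat_lit 6603, nat_lit 6607, nat_lit 6609, nat_lit 6615, nat_lit 6619, nat_lit 6623,
  nat_lit 6625, nat_lit 6627, nat_lit 6635, nat_lit 6639, nat_lit 6647, nat_lit 6649, nat_lit 6653, nat_lit 6657,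
  nat_lit 6661, nat_lit 6663, nat_lit 6671, nat_lit 6675, nat_lit 6683, nat_lit 6685, nat_lit 6687, nat_lit 6691,
  nat_lit 6695, nat_lit 6697, nat_lit 6699, nat_lit 6705, nat_lit 6709, nat_lit 6713, nat_lit 6719, nat_lit 6721,
  nat_lit 6723, nat_lit 6727, nat_lit 6731, nat_lit 6733, nat_lit 6735, nat_lit 6743, nat_lit 6747, nat_lit 6751,
  nat_lit 6753, nat_lit 6759, nat_lit 6763, nat_lit 6767, nat_lit 6773, nat_lit 6775, nat_lit 6779, nat_lit 6783,
  nat_lit 6791, nat_lit 6793, nat_lit 6795, nat_lit 6799, nat_lit 6803, nat_lit 6809, nat_lit 6811, nat_lit 6815,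
  nat_lit 6819, nat_lit 6823, nat_lit 6825, nat_lit 6833, nat_lit 6837, nat_lit 6845, nat_lit 6847, nat_lit 6849,
  nat_lit 6853, nat_lit 6857, nat_lit 6859, nat_lit 6861, nat_lit 6867, nat_lit 6871, nat_lit 6875, nat_lit 6881,
  nat_lit 6883, nat_lit 6887, nat_lit 6891, nat_lit 6899, nat_lit 6901, nat_lit 6903, nat_lit 6907, nat_lit 6911,
  nat_lit 6917, nat_lit 6919, nat_lit 6923, nat_lit 6927, nat_lit 6931, nat_lit 6933, nat_lit 6939, nat_lit 6943,
  nat_lit 6947, nat_lit 6949, nat_lit 6951, nat_lit 6959, nat_lit 6963, nat_lit 6967, nat_lit 6969, nat_lit 6975,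
  nat_lit 6979, nat_lit 6983, nat_lit 6989, nat_lit 6991, nat_lit 6993, nat_lit 6997, nat_lit 7001, nat_lit 7003,
  nat_lit 7005, nat_lit 7013, nat_lit 7017, nat_lit 7025, nat_lit 7027, nat_lit 7031, nat_lit 7035, nat_lit 7039,
  nat_lit 7041, nat_lit 7047, nat_lit 7051, nat_lit 7055, nat_lit 7057, nat_lit 7059, nat_lit 7067, nat_lit 7071,
  nat_lit 7075, nat_lit 7077, nat_lit 7083, nat_lit 7087, nat_lit 7091, nat_lit 7097, nat_lit 7099, nat_lit 7103,
  nat_lit 7107, nat_lit 7115, nat_lit 7117, nat_lit 7119, nat_lit 7123, nat_lit 7127, nat_lit 7129, nat_lit 7131,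
  nat_lit 7137, nat_lit 7141, nat_lit 7145, nat_lit 7151, nat_lit 7153, nat_lit 7155, nat_lit 7159, nat_lit 7163,
  nat_lit 7165, nat_lit 7167, nat_lit 7175, nat_lit 7179, nat_lit 7187, nat_lit 7189, nat_lit 7193, nat_lit 7197,
  nat_lit 7201, nat_lit 7203, nat_lit 7211, nat_lit 7215, nat_lit 7223, nat_lit 7225, nat_lit 7227, nat_lit 7231,
  nat_lit 7235, nat_lit 7241, nat_lit 7243, nat_lit 7247, nat_lit 7251, nat_lit 7255, nat_lit 7257, nat_lit 7263,
  nat_lit 7267, nat_lit 7271, nat_lit 7273, nat_lit 7275, nat_lit 7283, nat_lit 7287, nat_lit 7295, nat_lit 7297,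
  nat_lit 7301, nat_lit 7305, nat_lit 7309, nat_lit 7311, nat_lit 7319, nat_lit 7323, nat_lit 7331, nat_lit 7333,
  nat_lit 7335, nat_lit 7339, nat_lit 7343, nat_lit 7345, nat_lit 7347, nat_lit 7353, nat_lit 7357, nat_lit 7361,
  nat_lit 7367, nat_lit 7369, nat_lit 7373, nat_lit 7377, nat_lit 7385, nat_lit 7387, nat_lit 7389, nat_lit 7393,
  nat_lit 7397, nat_lit 7403, nat_lit 7405, nat_lit 7409, nat_lit 7413, nat_lit 7417, nat_lit 7419, nat_lit 7425,
  nat_lit 7429, nat_lit 7433, nat_lit 7435, nat_lit 7437, nat_lit 7445, nat_lit 7449, nat_lit 7453, nat_lit 7455,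
  nat_lit 7461, nat_lit 7465, nat_lit 7469, nat_lit 7475, nat_lit 7477, nat_lit 7479, nat_lit 7483, nat_lit 7487,
  nat_lit 7489, nat_lit 7491, nat_lit 7499, nat_lit 7503, nat_lit 7511, nat_lit 7513, nat_lit 7517, nat_lit 7521,
  nat_lit 7525, nat_lit 7527, nat_lit 7535, nat_lit 7539, nat_lit 7547, nat_lit 7549, nat_lit 7551, nat_lit 7555,
  nat_lit 7559, nat_lit 7565, nat_lit 7567, nat_lit 7571, nat_lit 7575, nat_lit 7579, nat_lit 7581, nat_lit 7587,
  nat_lit 7591, nat_lit 7595, nat_lit 7597, nat_lit 7599, nat_lit 7607, nat_lit 7611, nat_lit 7619, nat_lit 7621,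
  nat_lit 7625, nat_lit 7629, nat_lit 7633, nat_lit 7635, nat_lit 7643, nat_lit 7647, nat_lit 7655, nat_lit 7657,
  nat_lit 7659, nat_lit 7663, nat_lit 7667, nat_lit 7669, nat_lit 7671, nat_lit 7677, nat_lit 7681, nat_lit 7685,
  nat_lit 7691, nat_lit 7693, nat_lit 7695, nat_lit 7699, nat_lit 7703, nat_lit 7705, nat_lit 7707, nat_lit 7715,
  nat_lit 7719, nat_lit 7723, nat_lit 7725, nat_lit 7731, nat_lit 7735, nat_lit 7739, nat_lit 7745, nat_lit 7747,
  nat_lit 7751, nat_lit 7755, nat_lit 7763, nat_lit 7765, nat_lit 7767, nat_lit 7771, nat_lit 7775, nat_lit 7777,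
  nat_lit 7779, nat_lit 7785, nat_lit 7789, nat_lit 7793, nat_lit 7799, nat_lit 7801, nat_lit 7803, nat_lit 7807,
  nat_lit 7811, nat_lit 7813, nat_lit 7815, nat_lit 7823, nat_lit 7827, nat_lit 7835, nat_lit 7837, nat_lit 7841,
  nat_lit 7845, nat_lit 7849, nat_lit 7851, nat_lit 7857, nat_lit 7861, nat_lit 7865, nat_lit 7867, nat_lit 7869,
  nat_lit 7877, nat_lit 7881, nat_lit 7885, nat_lit 7887, nat_lit 7893, nat_lit 7897, nat_lit 7901, nat_lit 7907,
  nat_lit 7909, nat_lit 7913, nat_lit 7917, nat_lit 7925, nat_lit 7927, nat_lit 7929, nat_lit 7933, nat_lit 7937,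
  nat_lit 7943, nat_lit 7945, nat_lit 7949, nat_lit 7953, nat_lit 7957, nat_lit 7959, nat_lit 7967, nat_lit 7971,
  nat_lit 7979, nat_lit 7981, nat_lit 7983, nat_lit 7987, nat_lit 7991, nat_lit 7993, nat_lit 7995, nat_lit 8001,
  nat_lit 8005, nat_lit 8009, nat_lit 8015, nat_lit 8017, nat_lit 8019, nat_lit 8023, nat_lit 8027, nat_lit 8029,
  nat_lit 8031, nat_lit 8039, nat_lit 8043, nat_lit 8047, nat_lit 8049, nat_lit 8055, nat_lit 8059, nat_lit 8063,
  nat_lit 8069, nat_lit 8071, nat_lit 8075, nat_lit 8079, nat_lit 8087, nat_lit 8089, nat_lit 8091, nat_lit 8095,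
  nat_lit 8099, nat_lit 8101, nat_lit 8103, nat_lit 8109, nat_lit 8113, nat_lit 8117, nat_lit 8123, nat_lit 8125,
  nat_lit 8127, nat_lit 8131, nat_lit 8135, nat_lit 8137, nat_lit 8139, nat_lit 8147, nat_lit 8151, nat_lit 8159,
  nat_lit 8161, nat_lit 8165, nat_lit 8169, nat_lit 8173, nat_lit 8175, nat_lit 8183, nat_lit 8187, nat_lit 8195,
  nat_lit 8197, nat_lit 8199, nat_lit 8203, nat_lit 8207, nat_lit 8213, nat_lit 8215, nat_lit 8219, nat_lit 8223,
  nat_lit 8227, nat_lit 8229, nat_lit 8235, nat_lit 8239, nat_lit 8243, nat_lit 8245, nat_lit 8247, nat_lit 8255,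
  nat_lit 8259, nat_lit 8263, nat_lit 8265, nat_lit 8271, nat_lit 8275, nat_lit 8279, nat_lit 8285, nat_lit 8287,
  nat_lit 8289, nat_lit 8293, nat_lit 8297, nat_lit 8299, nat_lit 8301, nat_lit 8309, nat_lit 8313, nat_lit 8321,
  nat_lit 8323, nat_lit 8327, nat_lit 8331, nat_lit 8335, nat_lit 8337, nat_lit 8343, nat_lit 8347, nat_lit 8351,
  nat_lit 8353, nat_lit 8355, nat_lit 8363, nat_lit 8367, nat_lit 8371, nat_lit 8373, nat_lit 8379, nat_lit 8383,
  nat_lit 8387, nat_lit 8393, nat_lit 8395, nat_lit 8399, nat_lit 8403, nat_lit 8411, nat_lit 8413, nat_lit 8415,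
  nat_lit 8419, nat_lit 8423, nat_lit 8429, nat_lit 8431, nat_lit 8435, nat_lit 8439, nat_lit 8443, nat_lit 8445,
  nat_lit 8453, nat_lit 8457, nat_lit 8465, nat_lit 8467, nat_lit 8469, nat_lit 8473, nat_lit 8477, nat_lit 8479,
  nat_lit 8481, nat_lit 8487, nat_lit 8491, nat_lit 8495, nat_lit 8501, nat_lit 8503, nat_lit 8507, nat_lit 8511,
  nat_lit 8519, nat_lit 8521, nat_lit 8523, nat_lit 8527, nat_lit 8531, nat_lit 8537, nat_lit 8539, nat_lit 8543,
  nat_lit 8547, nat_lit 8551, nat_lit 8553, nat_lit 8559, nat_lit 8563, nat_lit 8567, nat_lit 8569, nat_lit 8571,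
  nat_lit 8579, nat_lit 8583, nat_lit 8591, nat_lit 8593, nat_lit 8597, nat_lit 8601, nat_lit 8605, nat_lit 8607,
  nat_lit 8615, nat_lit 8619, nat_lit 8627, nat_lit 8629, nat_lit 8631, nat_lit 8635, nat_lit 8639, nat_lit 8641,
  nat_lit 8643, nat_lit 8649, nat_lit 8653, nat_lit 8657, nat_lit 8663, nat_lit 8665, nat_lit 8667, nat_lit 8671,
  nat_lit 8675, nat_lit 8677, nat_lit 8679, nat_lit 8687, nat_lit 8691, nat_lit 8695, nat_lit 8697, nat_lit 8703,
  nat_lit 8707, nat_lit 8711, nat_lit 8717, nat_lit 8719, nat_lit 8723, nat_lit 8727, nat_lit 8735, nat_lit 8737,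
  nat_lit 8739, nat_lit 8743, nat_lit 8747, nat_lit 8753, nat_lit 8755, nat_lit 8759, nat_lit 8763, nat_lit 8767,
  nat_lit 8769, nat_lit 8777, nat_lit 8781, nat_lit 8789, nat_lit 8791, nat_lit 8793, nat_lit 8797, nat_lit 8801,
  nat_lit 8803, nat_lit 8805, nat_lit 8811, nat_lit 8815, nat_lit 8819, nat_lit 8825, nat_lit 8827, nat_lit 8831,
  nat_lit 8835, nat_lit 8843, nat_lit 8845, nat_lit 8847, nat_lit 8851, nat_lit 8855, nat_lit 8861, nat_lit 8863,
  nat_lit 8867, nat_lit 8871, nat_lit 8875, nat_lit 8877, nat_lit 8883, nat_lit 8887, nat_lit 8891, nat_lit 8893,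
  nat_lit 8895, nat_lit 8903, nat_lit 8907, nat_lit 8911, nat_lit 8913, nat_lit 8919, nat_lit 8923, nat_lit 8927,
  nat_lit 8933, nat_lit 8935, nat_lit 8937, nat_lit 8941, nat_lit 8945, nat_lit 8947, nat_lit 8949, nat_lit 8957,
  nat_lit 8961, nat_lit 8969, nat_lit 8971, nat_lit 8975, nat_lit 8979, nat_lit 8983, nat_lit 8985, nat_lit 8993,
  nat_lit 8997, nat_lit 9005, nat_lit 9007, nat_lit 9009, nat_lit 9013, nat_lit 9017, nat_lit 9023, nat_lit 9025,
  nat_lit 9029, nat_lit 9033, nat_lit 9037, nat_lit 9039, nat_lit 9045, nat_lit 9049, nat_lit 9053, nat_lit 9055,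
  nat_lit 9057, nat_lit 9065, nat_lit 9069, nat_lit 9077, nat_lit 9079, nat_lit 9083, nat_lit 9087, nat_lit 9091,
  nat_lit 9093, nat_lit 9101, nat_lit 9105, nat_lit 9113, nat_lit 9115, nat_lit 9117, nat_lit 9121, nat_lit 9125,
  nat_lit 9127, nat_lit 9129, nat_lit 9135, nat_lit 9139, nat_lit 9143, nat_lit 9149, nat_lit 9151, nat_lit 9153,
  nat_lit 9157, nat_lit 9161, nat_lit 9163, nat_lit 9165, nat_lit 9173, nat_lit 9177, nat_lit 9181, nat_lit 9183,
  nat_lit 9189, nat_lit 9193, nat_lit 9197, nat_lit 9203, nat_lit 9205, nat_lit 9209, nat_lit 9213, nat_lit 9221,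
  nat_lit 9223, nat_lit 9225, nat_lit 9229, nat_lit 9233, nat_lit 9235, nat_lit 9237, nat_lit 9243, nat_lit 9247,
  nat_lit 9251, nat_lit 9257, nat_lit 9259, nat_lit 9261, nat_lit 9265, nat_lit 9269, nat_lit 9271, nat_lit 9273,
  nat_lit 9281, nat_lit 9285, nat_lit 9293, nat_lit 9295, nat_lit 9299, nat_lit 9303, nat_lit 9307, nat_lit 9309,
  nat_lit 9315, nat_lit 9319, nat_lit 9323, nat_lit 9325, nat_lit 9327, nat_lit 9335, nat_lit 9339, nat_lit 9343,
  nat_lit 9345, nat_lit 9351, nat_lit 9355, nat_lit 9359, nat_lit 9365, nat_lit 9367, nat_lit 9371, nat_lit 9375,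
  nat_lit 9383, nat_lit 9385, nat_lit 9387, nat_lit 9391, nat_lit 9395, nat_lit 9401, nat_lit 9403, nat_lit 9407,
  nat_lit 9411, nat_lit 9415, nat_lit 9417, nat_lit 9425, nat_lit 9429, nat_lit 9437, nat_lit 9439, nat_lit 9441,
  nat_lit 9445, nat_lit 9449, nat_lit 9451, nat_lit 9453, nat_lit 9459, nat_lit 9463, nat_lit 9467, nat_lit 9473,
  nat_lit 9475, nat_lit 9479, nat_lit 9483, nat_lit 9491, nat_lit 9493, nat_lit 9495, nat_lit 9499, nat_lit 9503,
  nat_lit 9509, nat_lit 9511, nat_lit 9515, nat_lit 9519, nat_lit 9523, nat_lit 9525, nat_lit 9531, nat_lit 9535,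
  nat_lit 9539, nat_lit 9541, nat_lit 9543, nat_lit 9551, nat_lit 9555, nat_lit 9563, nat_lit 9565, nat_lit 9569,
  nat_lit 9573, nat_lit 9577, nat_lit 9579, nat_lit 9587, nat_lit 9591, nat_lit 9599, nat_lit 9601, nat_lit 9603,
  nat_lit 9607, nat_lit 9611, nat_lit 9613, nat_lit 9615, nat_lit 9621, nat_lit 9625, nat_lit 9629, nat_lit 9635,
  nat_lit 9637, nat_lit 9639, nat_lit 9643, nat_lit 9647, nat_lit 9649, nat_lit 9651, nat_lit 9659, nat_lit 9663,
  nat_lit 9667, nat_lit 9669, nat_lit 9675, nat_lit 9679, nat_lit 9683, nat_lit 9689, nat_lit 9691, nat_lit 9695,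
  nat_lit 9699, nat_lit 9707, nat_lit 9709, nat_lit 9711, nat_lit 9715, nat_lit 9719, nat_lit 9725, nat_lit 9727,
  nat_lit 9731, nat_lit 9735, nat_lit 9739, nat_lit 9741, nat_lit 9749, nat_lit 9753, nat_lit 9761, nat_lit 9763,
  nat_lit 9765, nat_lit 9769, nat_lit 9773, nat_lit 9775, nat_lit 9777, nat_lit 9783, nat_lit 9787, nat_lit 9791,
  nat_lit 9797, nat_lit 9799, nat_lit 9803, nat_lit 9807, nat_lit 9815, nat_lit 9817, nat_lit 9819, nat_lit 9823,
  nat_lit 9827, nat_lit 9833, nat_lit 9835, nat_lit 9839, nat_lit 9843, nat_lit 9847, nat_lit 9849, nat_lit 9855,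
  nat_lit 9859, nat_lit 9863, nat_lit 9865, nat_lit 9867, nat_lit 9875, nat_lit 9879, nat_lit 9883, nat_lit 9885,
  nat_lit 9891, nat_lit 9895, nat_lit 9899, nat_lit 9905, nat_lit 9907, nat_lit 9909, nat_lit 9913, nat_lit 9917,
  nat_lit 9919, nat_lit 9921, nat_lit 9929, nat_lit 9933, nat_lit 9941, nat_lit 9943, nat_lit 9947, nat_lit 9951,
  nat_lit 9955, nat_lit 9957, nat_lit 9963, nat_lit 9967, nat_lit 9971, nat_lit 9973, nat_lit 9975, nat_lit 9983,
  nat_lit 9987, nat_lit 9991, nat_lit 9993, nat_lit 9999, nat_lit 10003, nat_lit 10007, nat_lit 10013, nat_lit 10015,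
  nat_lit 10019, nat_lit 10023, nat_lit 10031, nat_lit 10033, nat_lit 10035, nat_lit 10039, nat_lit 10043, nat_lit 10045,
  nat_lit 10047, nat_lit 10053, nat_lit 10057, nat_lit 10061, nat_lit 10067, nat_lit 10069, nat_lit 10071, nat_lit 10075,
  nat_lit 10079, nat_lit 10081, nat_lit 10083, nat_lit 10091, nat_lit 10095, nat_lit 10103, nat_lit 10105, nat_lit 10109,
  nat_lit 10113, nat_lit 10117, nat_lit 10119, nat_lit 10127, nat_lit 10131, nat_lit 10139, nat_lit 10141, nat_lit 10143,
  nat_lit 10147, nat_lit 10151, nat_lit 10157, nat_lit 10159, nat_lit 10163, nat_lit 10167, nat_lit 10171, nat_lit 10173,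
  nat_lit 10179, nat_lit 10183, nat_lit 10187, nat_lit 10189, nat_lit 10191, nat_lit 10199, nat_lit 10203, nat_lit 10207,
  nat_lit 10209, nat_lit 10215, nat_lit 10219, nat_lit 10223, nat_lit 10229, nat_lit 10231, nat_lit 10233, nat_lit 10237,
  nat_lit 10241, nat_lit 10243, nat_lit 10245, nat_lit 10253, nat_lit 10257, nat_lit 10265, nat_lit 10267, nat_lit 10271,
  nat_lit 10275, nat_lit 10279, nat_lit 10281, nat_lit 10287, nat_lit 10291, nat_lit 10295, nat_lit 10297, nat_lit 10299,
  nat_lit 10307, nat_lit 10311, nat_lit 10315, nat_lit 10317, nat_lit 10323, nat_lit 10327, nat_lit 10331, nat_lit 10337,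
  nat_lit 10339, nat_lit 10343, nat_lit 10347, nat_lit 10355, nat_lit 10357, nat_lit 10359, nat_lit 10363, nat_lit 10367,
  nat_lit 10373, nat_lit 10375, nat_lit 10379, nat_lit 10383, nat_lit 10387, nat_lit 10389, nat_lit 10397, nat_lit 10401,
  nat_lit 10409, nat_lit 10411, nat_lit 10413, nat_lit 10417, nat_lit 10421, nat_lit 10423, nat_lit 10425, nat_lit 10431,
  nat_lit 10435, nat_lit 10439, nat_lit 10445, nat_lit 10447, nat_lit 10449, nat_lit 10453, nat_lit 10457, nat_lit 10459,
  nat_lit 10461, nat_lit 10469, nat_lit 10473, nat_lit 10477, nat_lit 10479, nat_lit 10485, nat_lit 10489, nat_lit 10493,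
  nat_lit 10499, nat_lit 10501, nat_lit 10505, nat_lit 10509, nat_lit 10517, nat_lit 10519, nat_lit 10521, nat_lit 10525,
  nat_lit 10529, nat_lit 10531, nat_lit 10533, nat_lit 10539, nat_lit 10543, nat_lit 10547, nat_lit 10553, nat_lit 10555,
  nat_lit 10557, nat_lit 10561, nat_lit 10565, nat_lit 10567, nat_lit 10569, nat_lit 10577, nat_lit 10581, nat_lit 10589,
  nat_lit 10591, nat_lit 10595, nat_lit 10599, nat_lit 10603, nat_lit 10605, nat_lit 10613, nat_lit 10617, nat_lit 10625,
  nat_lit 10627, nat_lit 10629, nat_lit 10633, nat_lit 10637, nat_lit 10643, nat_lit 10645, nat_lit 10649, nat_lit 10653,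
  nat_lit 10657, nat_lit 10659, nat_lit 10665, nat_lit 10669, nat_lit 10673, nat_lit 10675, nat_lit 10677, nat_lit 10685,
  nat_lit 10689, nat_lit 10697, nat_lit 10699, nat_lit 10703, nat_lit 10707, nat_lit 10711, nat_lit 10713, nat_lit 10721,
  nat_lit 10725, nat_lit 10733, nat_lit 10735, nat_lit 10737, nat_lit 10741, nat_lit 10745, nat_lit 10747, nat_lit 10749,
  nat_lit 10755, nat_lit 10759, nat_lit 10763, nat_lit 10769, nat_lit 10771, nat_lit 10775, nat_lit 10779, nat_lit 10787,
  nat_lit 10789, nat_lit 10791, nat_lit 10795, nat_lit 10799, nat_lit 10805, nat_lit 10807, nat_lit 10811, nat_lit 10815,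
  nat_lit 10819, nat_lit 10821, nat_lit 10827, nat_lit 10831, nat_lit 10835, nat_lit 10837, nat_lit 10839, nat_lit 10847,
  nat_lit 10851, nat_lit 10855, nat_lit 10857, nat_lit 10863, nat_lit 10867, nat_lit 10871, nat_lit 10877, nat_lit 10879,
  nat_lit 10881, nat_lit 10885, nat_lit 10889, nat_lit 10891, nat_lit 10893, nat_lit 10901, nat_lit 10905, nat_lit 10913,
  nat_lit 10915, nat_lit 10919, nat_lit 10923, nat_lit 10927, nat_lit 10929, nat_lit 10935, nat_lit 10939, nat_lit 10943,
  nat_lit 10945, nat_lit 10947, nat_lit 10955, nat_lit 10959, nat_lit 10963, nat_lit 10965, nat_lit 10971, nat_lit 10975,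
  nat_lit 10979, nat_lit 10985, nat_lit 10987, nat_lit 10991, nat_lit 10995, nat_lit 11003, nat_lit 11005, nat_lit 11007,
  nat_lit 11011, nat_lit 11015, nat_lit 11017, nat_lit 11019, nat_lit 11025, nat_lit 11029, nat_lit 11033, nat_lit 11039,
  nat_lit 11041, nat_lit 11043, nat_lit 11047, nat_lit 11051, nat_lit 11053, nat_lit 11055, nat_lit 11063, nat_lit 11067,
  nat_lit 11075, nat_lit 11077, nat_lit 11081, nat_lit 11085, nat_lit 11089, nat_lit 11091, nat_lit 11099, nat_lit 11103,
  nat_lit 11111, nat_lit 11113, nat_lit 11115, nat_lit 11119, nat_lit 11123, nat_lit 11129, nat_lit 11131, nat_lit 11135,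
  nat_lit 11139, nat_lit 11143, nat_lit 11145, nat_lit 11151, nat_lit 11155, nat_lit 11159, nat_lit 11161, nat_lit 11163,
  nat_lit 11171, nat_lit 11175, nat_lit 11179, nat_lit 11181, nat_lit 11187, nat_lit 11191, nat_lit 11195, nat_lit 11201,
  nat_lit 11203, nat_lit 11205, nat_lit 11209, nat_lit 11213, nat_lit 11215, nat_lit 11217, nat_lit 11225, nat_lit 11229,
  nat_lit 11237, nat_lit 11239, nat_lit 11243, nat_lit 11247, nat_lit 11251, nat_lit 11253, nat_lit 11259, nat_lit 11263,
  nat_lit 11267, nat_lit 11269, nat_lit 11271, nat_lit 11279, nat_lit 11283, nat_lit 11287, nat_lit 11289, nat_lit 11295,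
  nat_lit 11299, nat_lit 11303, nat_lit 11309, nat_lit 11311, nat_lit 11315, nat_lit 11319, nat_lit 11327, nat_lit 11329,
  nat_lit 11331, nat_lit 11335, nat_lit 11339, nat_lit 11345, nat_lit 11347, nat_lit 11351, nat_lit 11355, nat_lit 11359,
  nat_lit 11361, nat_lit 11369, nat_lit 11373, nat_lit 11381, nat_lit 11383, nat_lit 11385, nat_lit 11389, nat_lit 11393,
  nat_lit 11395, nat_lit 11397, nat_lit 11403, nat_lit 11407, nat_lit 11411, nat_lit 11417, nat_lit 11419, nat_lit 11423,
  nat_lit 11427, nat_lit 11435, nat_lit 11437, nat_lit 11439, nat_lit 11443, nat_lit 11447, nat_lit 11453, nat_lit 11455,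
  nat_lit 11459, nat_lit 11463, nat_lit 11467, nat_lit 11469, nat_lit 11475, nat_lit 11479, nat_lit 11483, nat_lit 11485,
  nat_lit 11487, nat_lit 11495, nat_lit 11499, nat_lit 11507, nat_lit 11509, nat_lit 11513, nat_lit 11517, nat_lit 11521,
  nat_lit 11523, nat_lit 11531, nat_lit 11535, nat_lit 11543, nat_lit 11545, nat_lit 11547, nat_lit 11551, nat_lit 11555,
  nat_lit 11557, nat_lit 11559, nat_lit 11565, nat_lit 11569, nat_lit 11573, nat_lit 11579, nat_lit 11581, nat_lit 11583,
  nat_lit 11587, nat_lit 11591, nat_lit 11593, nat_lit 11595, nat_lit 11603, nat_lit 11607, nat_lit 11611, nat_lit 11613,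
  nat_lit 11619, nat_lit 11623, nat_lit 11627, nat_lit 11633, nat_lit 11635, nat_lit 11639, nat_lit 11643, nat_lit 11651,
  nat_lit 11653, nat_lit 11655, nat_lit 11659, nat_lit 11663, nat_lit 11665, nat_lit 11667, nat_lit 11673, nat_lit 11677,
  nat_lit 11681, nat_lit 11687, nat_lit 11689, nat_lit 11691, nat_lit 11695, nat_lit 11699, nat_lit 11701, nat_lit 11703,
  nat_lit 11711, nat_lit 11715, nat_lit 11723, nat_lit 11725, nat_lit 11729, nat_lit 11733, nat_lit 11737, nat_lit 11739,
  nat_lit 11745, nat_lit 11749, nat_lit 11753, nat_lit 11755, nat_lit 11757, nat_lit 11765, nat_lit 11769, nat_lit 11773,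
  nat_lit 11775, nat_lit 11781, nat_lit 11785, nat_lit 11789, nat_lit 11795, nat_lit 11797, nat_lit 11801, nat_lit 11805,
  nat_lit 11813, nat_lit 11815, nat_lit 11817, nat_lit 11821, nat_lit 11825, nat_lit 11831, nat_lit 11833, nat_lit 11837,
  nat_lit 11841, nat_lit 11845, nat_lit 11847, nat_lit 11855, nat_lit 11859, nat_lit 11867, nat_lit 11869, nat_lit 11871,
  nat_lit 11875, nat_lit 11879, nat_lit 11881, nat_lit 11883, nat_lit 11889, nat_lit 11893, nat_lit 11897, nat_lit 11903,
  nat_lit 11905, nat_lit 11907, nat_lit 11911, nat_lit 11915, nat_lit 11917, nat_lit 11919, nat_lit 11927, nat_lit 11931,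
  nat_lit 11935, nat_lit 11937, nat_lit 11943, nat_lit 11947, nat_lit 11951, nat_lit 11957, nat_lit 11959, nat_lit 11963,
  nat_lit 11967, nat_lit 11975, nat_lit 11977, nat_lit 11979, nat_lit 11983, nat_lit 11987, nat_lit 11989, nat_lit 11991,
  nat_lit 11997, nat_lit 12001, nat_lit 12005, nat_lit 12011, nat_lit 12013, nat_lit 12015, nat_lit 12019, nat_lit 12023,
  nat_lit 12025, nat_lit 12027, nat_lit 12035, nat_lit 12039, nat_lit 12047, nat_lit 12049, nat_lit 12053, nat_lit 12057,
  nat_lit 12061, nat_lit 12063, nat_lit 12071, nat_lit 12075, nat_lit 12083, nat_lit 12085, nat_lit 12087, nat_lit 12091,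
  nat_lit 12095, nat_lit 12101, nat_lit 12103, nat_lit 12107, nat_lit 12111, nat_lit 12115, nat_lit 12117, nat_lit 12123,
  nat_lit 12127, nat_lit 12131, nat_lit 12133, nat_lit 12135, nat_lit 12143, nat_lit 12147, nat_lit 12155, nat_lit 12157,
  nat_lit 12161, nat_lit 12165, nat_lit 12169, nat_lit 12171, nat_lit 12179, nat_lit 12183, nat_lit 12191, nat_lit 12193,
  nat_lit 12195, nat_lit 12199, nat_lit 12203, nat_lit 12205, nat_lit 12207, nat_lit 12213, nat_lit 12217, nat_lit 12221,
  nat_lit 12227, nat_lit 12229, nat_lit 12233, nat_lit 12237, nat_lit 12245, nat_lit 12247, nat_lit 12249, nat_lit 12253,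
  nat_lit 12257, nat_lit 12263, nat_lit 12265, nat_lit 12269, nat_lit 12273, nat_lit 12277, nat_lit 12279, nat_lit 12285,
  nat_lit 12289, nat_lit 12293, nat_lit 12295, nat_lit 12297, nat_lit 12305, nat_lit 12309, nat_lit 12313, nat_lit 12315,
  nat_lit 12321, nat_lit 12325, nat_lit 12329, nat_lit 12335, nat_lit 12337, nat_lit 12339, nat_lit 12343, nat_lit 12347,
  nat_lit 12349, nat_lit 12351, nat_lit 12359, nat_lit 12363, nat_lit 12371, nat_lit 12373, nat_lit 12377, nat_lit 12381,
  nat_lit 12385, nat_lit 12387, nat_lit 12395, nat_lit 12399, nat_lit 12407, nat_lit 12409, nat_lit 12411, nat_lit 12415,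
  nat_lit 12419, nat_lit 12425, nat_lit 12427, nat_lit 12431, nat_lit 12435, nat_lit 12439, nat_lit 12441, nat_lit 12447,
  nat_lit 12451, nat_lit 12455, nat_lit 12457, nat_lit 12459, nat_lit 12467, nat_lit 12471, nat_lit 12479, nat_lit 12481,
  nat_lit 12485, nat_lit 12489, nat_lit 12493, nat_lit 12495, nat_lit 12503, nat_lit 12507, nat_lit 12515, nat_lit 12517,
  nat_lit 12519, nat_lit 12523, nat_lit 12527, nat_lit 12529, nat_lit 12531, nat_lit 12537, nat_lit 12541, nat_lit 12545,
  nat_lit 12551, nat_lit 12553, nat_lit 12555, nat_lit 12559, nat_lit 12563, nat_lit 12565, nat_lit 12567, nat_lit 12575,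
  nat_lit 12579, nat_lit 12583, nat_lit 12585, nat_lit 12591, nat_lit 12595, nat_lit 12599, nat_lit 12605, nat_lit 12607,
  nat_lit 12611, nat_lit 12615, nat_lit 12623, nat_lit 12625, nat_lit 12627, nat_lit 12631, nat_lit 12635, nat_lit 12641,
  nat_lit 12643, nat_lit 12647, nat_lit 12651, nat_lit 12655, nat_lit 12657, nat_lit 12665, nat_lit 12669, nat_lit 12677,
  nat_lit 12679, nat_lit 12681, nat_lit 12685, nat_lit 12689, nat_lit 12691, nat_lit 12693, nat_lit 12699, nat_lit 12703,
  nat_lit 12707, nat_lit 12713, nat_lit 12715, nat_lit 12719, nat_lit 12723, nat_lit 12731, nat_lit 12733, nat_lit 12735,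
  nat_lit 12739, nat_lit 12743, nat_lit 12749, nat_lit 12751, nat_lit 12755, nat_lit 12759, nat_lit 12763, nat_lit 12765,
  nat_lit 12771, nat_lit 12775, nat_lit 12779, nat_lit 12781, nat_lit 12783, nat_lit 12791, nat_lit 12795, nat_lit 12799,
  nat_lit 12801, nat_lit 12807, nat_lit 12811, nat_lit 12815, nat_lit 12821, nat_lit 12823, nat_lit 12825, nat_lit 12829,
  nat_lit 12833, nat_lit 12835, nat_lit 12837, nat_lit 12845, nat_lit 12849, nat_lit 12857, nat_lit 12859, nat_lit 12863,
  nat_lit 12867, nat_lit 12871, nat_lit 12873, nat_lit 12879, nat_lit 12883, nat_lit 12887, nat_lit 12889, nat_lit 12891,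
  nat_lit 12899, nat_lit 12903, nat_lit 12907, nat_lit 12909, nat_lit 12915, nat_lit 12919, nat_lit 12923, nat_lit 12929,
  nat_lit 12931, nat_lit 12935, nat_lit 12939, nat_lit 12947, nat_lit 12949, nat_lit 12951, nat_lit 12955, nat_lit 12959,
  nat_lit 12961, nat_lit 12963, nat_lit 12969, nat_lit 12973, nat_lit 12977, nat_lit 12983, nat_lit 12985, nat_lit 12987,
  nat_lit 12991, nat_lit 12995, nat_lit 12997, nat_lit 12999, nat_lit 13007, nat_lit 13011, nat_lit 13019, nat_lit 13021,
  nat_lit 13025, nat_lit 13029, nat_lit 13033, nat_lit 13035, nat_lit 13043, nat_lit 13047, nat_lit 13055, nat_lit 13057,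
  nat_lit 13059, nat_lit 13063, nat_lit 13067, nat_lit 13073, nat_lit 13075, nat_lit 13079, nat_lit 13083, nat_lit 13087,
  nat_lit 13089, nat_lit 13095, nat_lit 13099, nat_lit 13103, nat_lit 13105, nat_lit 13107, nat_lit 13115, nat_lit 13119,
  nat_lit 13123, nat_lit 13125, nat_lit 13131, nat_lit 13135, nat_lit 13139, nat_lit 13145, nat_lit 13147, nat_lit 13149,
  nat_lit 13153, nat_lit 13157, nat_lit 13159, nat_lit 13161, nat_lit 13169, nat_lit 13173, nat_lit 13181, nat_lit 13183,
  nat_lit 13187, nat_lit 13191, nat_lit 13195, nat_lit 13197, nat_lit 13203, nat_lit 13207, nat_lit 13211, nat_lit 13213,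
  nat_lit 13215, nat_lit 13223, nat_lit 13227, nat_lit 13231, nat_lit 13233, nat_lit 13239, nat_lit 13243, nat_lit 13247,
  nat_lit 13253, nat_lit 13255, nat_lit 13259, nat_lit 13263, nat_lit 13271, nat_lit 13273, nat_lit 13275, nat_lit 13279,
  nat_lit 13283, nat_lit 13289, nat_lit 13291, nat_lit 13295, nat_lit 13299, nat_lit 13303, nat_lit 13305, nat_lit 13313,
  nat_lit 13317, nat_lit 13325, nat_lit 13327, nat_lit 13329, nat_lit 13333, nat_lit 13337, nat_lit 13339, nat_lit 13341,
  nat_lit 13347, nat_lit 13351, nat_lit 13355, nat_lit 13361, nat_lit 13363, nat_lit 13365, nat_lit 13369, nat_lit 13373,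
  nat_lit 13375, nat_lit 13377, nat_lit 13385, nat_lit 13389, nat_lit 13393, nat_lit 13395, nat_lit 13401, nat_lit 13405,
  nat_lit 13409, nat_lit 13415, nat_lit 13417, nat_lit 13421, nat_lit 13425, nat_lit 13433, nat_lit 13435, nat_lit 13437,
  nat_lit 13441, nat_lit 13445, nat_lit 13447, nat_lit 13449, nat_lit 13455, nat_lit 13459, nat_lit 13463, nat_lit 13469,
  nat_lit 13471, nat_lit 13473, nat_lit 13477, nat_lit 13481, nat_lit 13483, nat_lit 13485, nat_lit 13493, nat_lit 13497,
  nat_lit 13505, nat_lit 13507, nat_lit 13511, nat_lit 13515, nat_lit 13519, nat_lit 13521, nat_lit 13529, nat_lit 13533,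
  nat_lit 13541, nat_lit 13543, nat_lit 13545, nat_lit 13549, nat_lit 13553, nat_lit 13559, nat_lit 13561, nat_lit 13565,
  nat_lit 13569, nat_lit 13573, nat_lit 13575, nat_lit 13581, nat_lit 13585, nat_lit 13589, nat_lit 13591, nat_lit 13593,
  nat_lit 13601, nat_lit 13605, nat_lit 13613, nat_lit 13615, nat_lit 13619, nat_lit 13623, nat_lit 13627, nat_lit 13629,
  nat_lit 13637, nat_lit 13641, nat_lit 13649, nat_lit 13651, nat_lit 13653, nat_lit 13657, nat_lit 13661, nat_lit 13663,
  nat_lit 13665, nat_lit 13671, nat_lit 13675, nat_lit 13679, nat_lit 13685, nat_lit 13687, nat_lit 13691, nat_lit 13695,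
  nat_lit 13703, nat_lit 13705, nat_lit 13707, nat_lit 13711, nat_lit 13715, nat_lit 13721, nat_lit 13723, nat_lit 13727,
  nat_lit 13731, nat_lit 13735, nat_lit 13737, nat_lit 13743, nat_lit 13747, nat_lit 13751, nat_lit 13753, nat_lit 13755,
  nat_lit 13763, nat_lit 13767, nat_lit 13771, nat_lit 13773, nat_lit 13779, nat_lit 13783, nat_lit 13787, nat_lit 13793,
  nat_lit 13795, nat_lit 13797, nat_lit 13801, nat_lit 13805, nat_lit 13807, nat_lit 13809, nat_lit 13817, nat_lit 13821,
  nat_lit 13829, nat_lit 13831, nat_lit 13835, nat_lit 13839, nat_lit 13843, nat_lit 13845, nat_lit 13851, nat_lit 13855,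
  nat_lit 13859, nat_lit 13861, nat_lit 13863, nat_lit 13871, nat_lit 13875, nat_lit 13879, nat_lit 13881, nat_lit 13887,
  nat_lit 13891, nat_lit 13895, nat_lit 13901, nat_lit 13903, nat_lit 13907, nat_lit 13911, nat_lit 13919, nat_lit 13921,
  nat_lit 13923, nat_lit 13927, nat_lit 13931, nat_lit 13933, nat_lit 13935, nat_lit 13941, nat_lit 13945, nat_lit 13949,
  nat_lit 13955, nat_lit 13957, nat_lit 13959, nat_lit 13963, nat_lit 13967, nat_lit 13969, nat_lit 13971, nat_lit 13979,
  nat_lit 13983, nat_lit 13991, nat_lit 13993, nat_lit 13997, nat_lit 14001, nat_lit 14005, nat_lit 14007, nat_lit 14015,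
  nat_lit 14019, nat_lit 14027, nat_lit 14029, nat_lit 14031, nat_lit 14035, nat_lit 14039, nat_lit 14045, nat_lit 14047,
  nat_lit 14051, nat_lit 14055, nat_lit 14059, nat_lit 14061, nat_lit 14067, nat_lit 14071, nat_lit 14075, nat_lit 14077,
  nat_lit 14079, nat_lit 14087, nat_lit 14091, nat_lit 14095, nat_lit 14097, nat_lit 14103, nat_lit 14107, nat_lit 14111,
  nat_lit 14117, nat_lit 14119, nat_lit 14121, nat_lit 14125, nat_lit 14129, nat_lit 14131, nat_lit 14133, nat_lit 14141,
  nat_lit 14145, nat_lit 14153, nat_lit 14155, nat_lit 14159, nat_lit 14163, nat_lit 14167, nat_lit 14169, nat_lit 14175,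
  nat_lit 14179, nat_lit 14183, nat_lit 14185, nat_lit 14187, nat_lit 14195, nat_lit 14199, nat_lit 14203, nat_lit 14205,
  nat_lit 14211, nat_lit 14215, nat_lit 14219, nat_lit 14225, nat_lit 14227, nat_lit 14231, nat_lit 14235, nat_lit 14243,
  nat_lit 14245, nat_lit 14247, nat_lit 14251, nat_lit 14255, nat_lit 14261, nat_lit 14263, nat_lit 14267, nat_lit 14271,
  nat_lit 14275, nat_lit 14277, nat_lit 14285, nat_lit 14289, nat_lit 14297, nat_lit 14299, nat_lit 14301, nat_lit 14305,
  nat_lit 14309, nat_lit 14311, nat_lit 14313, nat_lit 14319, nat_lit 14323, nat_lit 14327, nat_lit 14333, nat_lit 14335,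
  nat_lit 14339, nat_lit 14343, nat_lit 14351, nat_lit 14353, nat_lit 14355, nat_lit 14359, nat_lit 14363, nat_lit 14369,
  nat_lit 14371, nat_lit 14375, nat_lit 14379, nat_lit 14383, nat_lit 14385, nat_lit 14391, nat_lit 14395, nat_lit 14399,
  nat_lit 14401, nat_lit 14403, nat_lit 14411, nat_lit 14415, nat_lit 14423, nat_lit 14425, nat_lit 14429, nat_lit 14433,
  nat_lit 14437, nat_lit 14439, nat_lit 14447, nat_lit 14451, nat_lit 14459, nat_lit 14461, nat_lit 14463, nat_lit 14467,
  nat_lit 14471, nat_lit 14473, nat_lit 14475, nat_lit 14481, nat_lit 14485, nat_lit 14489, nat_lit 14495, nat_lit 14497,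
  nat_lit 14499, nat_lit 14503, nat_lit 14507, nat_lit 14509, nat_lit 14511, nat_lit 14519, nat_lit 14523, nat_lit 14527,
  nat_lit 14529, nat_lit 14535, nat_lit 14539, nat_lit 14543, nat_lit 14549, nat_lit 14551, nat_lit 14555, nat_lit 14559,
  nat_lit 14567, nat_lit 14569, nat_lit 14571, nat_lit 14575, nat_lit 14579, nat_lit 14585, nat_lit 14587, nat_lit 14591,
  nat_lit 14595, nat_lit 14599, nat_lit 14601, nat_lit 14609, nat_lit 14613, nat_lit 14621, nat_lit 14623, nat_lit 14625,
  nat_lit 14629, nat_lit 14633, nat_lit 14635, nat_lit 14637, nat_lit 14643, nat_lit 14647, nat_lit 14651, nat_lit 14657,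
  nat_lit 14659, nat_lit 14663, nat_lit 14667, nat_lit 14675, nat_lit 14677, nat_lit 14679, nat_lit 14683, nat_lit 14687,
  nat_lit 14693, nat_lit 14695, nat_lit 14699, nat_lit 14703, nat_lit 14707, nat_lit 14709, nat_lit 14715, nat_lit 14719,
  nat_lit 14723, nat_lit 14725, nat_lit 14727, nat_lit 14735, nat_lit 14739, nat_lit 14743, nat_lit 14745, nat_lit 14751,
  nat_lit 14755, nat_lit 14759, nat_lit 14765, nat_lit 14767, nat_lit 14769, nat_lit 14773, nat_lit 14777, nat_lit 14779,
  nat_lit 14781, nat_lit 14789, nat_lit 14793, nat_lit 14801, nat_lit 14803, nat_lit 14807, nat_lit 14811, nat_lit 14815,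
  nat_lit 14817, nat_lit 14825, nat_lit 14829, nat_lit 14837, nat_lit 14839, nat_lit 14841, nat_lit 14845, nat_lit 14849,
  nat_lit 14855, nat_lit 14857, nat_lit 14861, nat_lit 14865, nat_lit 14869, nat_lit 14871, nat_lit 14877, nat_lit 14881,
  nat_lit 14885, nat_lit 14887, nat_lit 14889, nat_lit 14897, nat_lit 14901, nat_lit 14909, nat_lit 14911, nat_lit 14915,
  nat_lit 14919, nat_lit 14923, nat_lit 14925, nat_lit 14933, nat_lit 14937, nat_lit 14945, nat_lit 14947, nat_lit 14949,
  nat_lit 14953, nat_lit 14957, nat_lit 14959, nat_lit 14961, nat_lit 14967, nat_lit 14971, nat_lit 14975, nat_lit 14981,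
  nat_lit 14983, nat_lit 14985, nat_lit 14989, nat_lit 14993, nat_lit 14995, nat_lit 14997, nat_lit 15005, nat_lit 15009,
  nat_lit 15013, nat_lit 15015, nat_lit 15021, nat_lit 15025, nat_lit 15029, nat_lit 15035, nat_lit 15037, nat_lit 15041,
  nat_lit 15045, nat_lit 15053, nat_lit 15055, nat_lit 15057, nat_lit 15061, nat_lit 15065, nat_lit 15067, nat_lit 15069,
  nat_lit 15075, nat_lit 15079, nat_lit 15083, nat_lit 15089, nat_lit 15091, nat_lit 15093, nat_lit 15097, nat_lit 15101,
  nat_lit 15103, nat_lit 15105, nat_lit 15113, nat_lit 15117, nat_lit 15125, nat_lit 15127, nat_lit 15131, nat_lit 15135,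
  nat_lit 15139, nat_lit 15141, nat_lit 15147, nat_lit 15151, nat_lit 15155, nat_lit 15157, nat_lit 15159, nat_lit 15167,
  nat_lit 15171, nat_lit 15175, nat_lit 15177, nat_lit 15183, nat_lit 15187, nat_lit 15191, nat_lit 15197, nat_lit 15199,
  nat_lit 15203, nat_lit 15207, nat_lit 15215, nat_lit 15217, nat_lit 15219, nat_lit 15223, nat_lit 15227, nat_lit 15233,
  nat_lit 15235, nat_lit 15239, nat_lit 15243, nat_lit 15247, nat_lit 15249, nat_lit 15257, nat_lit 15261, nat_lit 15269,
  nat_lit 15271, nat_lit 15273, nat_lit 15277, nat_lit 15281, nat_lit 15283, nat_lit 15285, nat_lit 15291, nat_lit 15295,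
  nat_lit 15299, nat_lit 15305, nat_lit 15307, nat_lit 15309, nat_lit 15313, nat_lit 15317, nat_lit 15319, nat_lit 15321,
  nat_lit 15329, nat_lit 15333, nat_lit 15337, nat_lit 15339, nat_lit 15345, nat_lit 15349, nat_lit 15353, nat_lit 15359,
  nat_lit 15361, nat_lit 15365, nat_lit 15369, nat_lit 15377, nat_lit 15379, nat_lit 15381, nat_lit 15385, nat_lit 15389,
  nat_lit 15391, nat_lit 15393, nat_lit 15399, nat_lit 15403, nat_lit 15407, nat_lit 15413, nat_lit 15415, nat_lit 15417,
  nat_lit 15421, nat_lit 15425, nat_lit 15427, nat_lit 15429, nat_lit 15437, nat_lit 15441, nat_lit 15449, nat_lit 15451,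
  nat_lit 15455, nat_lit 15459, nat_lit 15463, nat_lit 15465, nat_lit 15473, nat_lit 15477, nat_lit 15485, nat_lit 15487,
  nat_lit 15489, nat_lit 15493, nat_lit 15497, nat_lit 15503, nat_lit 15505, nat_lit 15509, nat_lit 15513, nat_lit 15517,
  nat_lit 15519, nat_lit 15525, nat_lit 15529, nat_lit 15533, nat_lit 15535, nat_lit 15537, nat_lit 15545, nat_lit 15549,
  nat_lit 15553, nat_lit 15555, nat_lit 15561, nat_lit 15565, nat_lit 15569, nat_lit 15575, nat_lit 15577, nat_lit 15579,
  nat_lit 15583, nat_lit 15587, nat_lit 15589, nat_lit 15591, nat_lit 15599, nat_lit 15603, nat_lit 15611, nat_lit 15613,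
  nat_lit 15617, nat_lit 15621, nat_lit 15625, nat_lit 15627, nat_lit 15633, nat_lit 15637, nat_lit 15641, nat_lit 15643,
  nat_lit 15645, nat_lit 15653, nat_lit 15657, nat_lit 15661, nat_lit 15663, nat_lit 15669, nat_lit 15673, nat_lit 15677,
  nat_lit 15683, nat_lit 15685, nat_lit 15689, nat_lit 15693, nat_lit 15701, nat_lit 15703, nat_lit 15705, nat_lit 15709,
  nat_lit 15713, nat_lit 15719, nat_lit 15721, nat_lit 15725, nat_lit 15729, nat_lit 15733, nat_lit 15735, nat_lit 15743,
  nat_lit 15747, nat_lit 15755, nat_lit 15757, nat_lit 15759, nat_lit 15763, nat_lit 15767, nat_lit 15769, nat_lit 15771,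
  nat_lit 15777, nat_lit 15781, nat_lit 15785, nat_lit 15791, nat_lit 15793, nat_lit 15797, nat_lit 15801, nat_lit 15809,
  nat_lit 15811, nat_lit 15813, nat_lit 15817, nat_lit 15821, nat_lit 15827, nat_lit 15829, nat_lit 15833, nat_lit 15837,
  nat_lit 15841, nat_lit 15843, nat_lit 15849, nat_lit 15853, nat_lit 15857, nat_lit 15859, nat_lit 15861, nat_lit 15869,
  nat_lit 15873, nat_lit 15881, nat_lit 15883, nat_lit 15887, nat_lit 15891, nat_lit 15895, nat_lit 15897, nat_lit 15905,
  nat_lit 15909, nat_lit 15917, nat_lit 15919, nat_lit 15921, nat_lit 15925, nat_lit 15929, nat_lit 15931, nat_lit 15933,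
  nat_lit 15939, nat_lit 15943, nat_lit 15947, nat_lit 15953, nat_lit 15955, nat_lit 15957, nat_lit 15961, nat_lit 15965,
  nat_lit 15967, nat_lit 15969, nat_lit 15977, nat_lit 15981, nat_lit 15985, nat_lit 15987, nat_lit 15993, nat_lit 15997,
  nat_lit 16001, nat_lit 16007, nat_lit 16009, nat_lit 16013, nat_lit 16017, nat_lit 16025, nat_lit 16027, nat_lit 16029,
  nat_lit 16033, nat_lit 16037, nat_lit 16039, nat_lit 16041, nat_lit 16047, nat_lit 16051, nat_lit 16055, nat_lit 16061,
  nat_lit 16063, nat_lit 16065, nat_lit 16069, nat_lit 16073, nat_lit 16075, nat_lit 16077, nat_lit 16085, nat_lit 16089,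
  nat_lit 16097, nat_lit 16099, nat_lit 16103, nat_lit 16107, nat_lit 16111, nat_lit 16113, nat_lit 16119, nat_lit 16123,
  nat_lit 16127, nat_lit 16129, nat_lit 16131, nat_lit 16139, nat_lit 16143, nat_lit 16147, nat_lit 16149, nat_lit 16155,
  nat_lit 16159, nat_lit 16163, nat_lit 16169, nat_lit 16171, nat_lit 16175, nat_lit 16179, nat_lit 16187, nat_lit 16189,
  nat_lit 16191, nat_lit 16195, nat_lit 16199, nat_lit 16205, nat_lit 16207, nat_lit 16211, nat_lit 16215, nat_lit 16219,
  nat_lit 16221, nat_lit 16229, nat_lit 16233, nat_lit 16241, nat_lit 16243, nat_lit 16245, nat_lit 16249, nat_lit 16253,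
  nat_lit 16255, nat_lit 16257, nat_lit 16263, nat_lit 16267, nat_lit 16271, nat_lit 16277, nat_lit 16279, nat_lit 16281,
  nat_lit 16285, nat_lit 16289, nat_lit 16291, nat_lit 16293, nat_lit 16301, nat_lit 16305, nat_lit 16309, nat_lit 16311,
  nat_lit 16317, nat_lit 16321, nat_lit 16325, nat_lit 16331, nat_lit 16333, nat_lit 16337, nat_lit 16341, nat_lit 16349,
  nat_lit 16351, nat_lit 16353, nat_lit 16357, nat_lit 16361, nat_lit 16363, nat_lit 16365, nat_lit 16371, nat_lit 16375,
  nat_lit 16379, nat_lit 16385, nat_lit 16387, nat_lit 16389, nat_lit 16393, nat_lit 16397, nat_lit 16399, nat_lit 16401,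
  nat_lit 16409, nat_lit 16413, nat_lit 16421, nat_lit 16423, nat_lit 16427, nat_lit 16431, nat_lit 16435, nat_lit 16437,
  nat_lit 16445, nat_lit 16449, nat_lit 16457, nat_lit 16459, nat_lit 16461, nat_lit 16465, nat_lit 16469, nat_lit 16475,
  nat_lit 16477, nat_lit 16481, nat_lit 16485, nat_lit 16489, nat_lit 16491, nat_lit 16497, nat_lit 16501, nat_lit 16505,
  nat_lit 16507, nat_lit 16509, nat_lit 16517, nat_lit 16521, nat_lit 16529, nat_lit 16531, nat_lit 16535, nat_lit 16539,
  nat_lit 16543, nat_lit 16545, nat_lit 16553, nat_lit 16557, nat_lit 16565, nat_lit 16567, nat_lit 16569, nat_lit 16573,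
  nat_lit 16577, nat_lit 16579, nat_lit 16581, nat_lit 16587, nat_lit 16591, nat_lit 16595, nat_lit 16601, nat_lit 16603,
  nat_lit 16607, nat_lit 16611, nat_lit 16619, nat_lit 16621, nat_lit 16623, nat_lit 16627, nat_lit 16631, nat_lit 16637,
  nat_lit 16639, nat_lit 16643, nat_lit 16647, nat_lit 16651, nat_lit 16653, nat_lit 16659, nat_lit 16663, nat_lit 16667,
  nat_lit 16669, nat_lit 16671, nat_lit 16679, nat_lit 16683, nat_lit 16687, nat_lit 16689, nat_lit 16695, nat_lit 16699,
  nat_lit 16703, nat_lit 16709, nat_lit 16711, nat_lit 16713, nat_lit 16717, nat_lit 16721, nat_lit 16723, nat_lit 16725,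
  nat_lit 16733, nat_lit 16737, nat_lit 16745, nat_lit 16747, nat_lit 16751, nat_lit 16755, nat_lit 16759, nat_lit 16761,
  nat_lit 16769, nat_lit 16773, nat_lit 16781, nat_lit 16783, nat_lit 16785, nat_lit 16789, nat_lit 16793, nat_lit 16799,
  nat_lit 16801, nat_lit 16805, nat_lit 16809, nat_lit 16813, nat_lit 16815, nat_lit 16821, nat_lit 16825, nat_lit 16829,
  nat_lit 16831, nat_lit 16833, nat_lit 16841, nat_lit 16845, nat_lit 16853, nat_lit 16855, nat_lit 16859, nat_lit 16863,
  nat_lit 16867, nat_lit 16869, nat_lit 16877, nat_lit 16881, nat_lit 16889, nat_lit 16891, nat_lit 16893, nat_lit 16897,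
  nat_lit 16901, nat_lit 16903, nat_lit 16905, nat_lit 16911, nat_lit 16915, nat_lit 16919, nat_lit 16925, nat_lit 16927,
  nat_lit 16929, nat_lit 16933, nat_lit 16937, nat_lit 16939, nat_lit 16941, nat_lit 16949, nat_lit 16953, nat_lit 16957,
  nat_lit 16959, nat_lit 16965, nat_lit 16969, nat_lit 16973, nat_lit 16979, nat_lit 16981, nat_lit 16985, nat_lit 16989,
  nat_lit 16997, nat_lit 16999, nat_lit 17001, nat_lit 17005, nat_lit 17009, nat_lit 17015, nat_lit 17017, nat_lit 17021,
  nat_lit 17025, nat_lit 17029, nat_lit 17031, nat_lit 17039, nat_lit 17043, nat_lit 17051, nat_lit 17053, nat_lit 17055,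
  nat_lit 17059, nat_lit 17063, nat_lit 17065, nat_lit 17067, nat_lit 17073, nat_lit 17077, nat_lit 17081, nat_lit 17087,
  nat_lit 17089, nat_lit 17093, nat_lit 17097, nat_lit 17105, nat_lit 17107, nat_lit 17109, nat_lit 17113, nat_lit 17117,
  nat_lit 17123, nat_lit 17125, nat_lit 17129, nat_lit 17133, nat_lit 17137, nat_lit 17139, nat_lit 17145, nat_lit 17149,
  nat_lit 17153, nat_lit 17155, nat_lit 17157, nat_lit 17165, nat_lit 17169, nat_lit 17173, nat_lit 17175, nat_lit 17181,
  nat_lit 17185, nat_lit 17189, nat_lit 17195, nat_lit 17197, nat_lit 17199, nat_lit 17203, nat_lit 17207, nat_lit 17209,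
  nat_lit 17211, nat_lit 17219, nat_lit 17223, nat_lit 17231, nat_lit 17233, nat_lit 17237, nat_lit 17241, nat_lit 17245,
  nat_lit 17247, nat_lit 17253, nat_lit 17257, nat_lit 17261, nat_lit 17263, nat_lit 17265, nat_lit 17273, nat_lit 17277,
  nat_lit 17281, nat_lit 17283, nat_lit 17289, nat_lit 17293, nat_lit 17297, nat_lit 17303, nat_lit 17305, nat_lit 17309,
  nat_lit 17313, nat_lit 17321, nat_lit 17323, nat_lit 17325, nat_lit 17329, nat_lit 17333, nat_lit 17335, nat_lit 17337,
  nat_lit 17343, nat_lit 17347, nat_lit 17351, nat_lit 17357, nat_lit 17359, nat_lit 17361, nat_lit 17365, nat_lit 17369,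
  nat_lit 17371, nat_lit 17373, nat_lit 17381, nat_lit 17385, nat_lit 17393, nat_lit 17395, nat_lit 17399, nat_lit 17403,
  nat_lit 17407, nat_lit 17409, nat_lit 17417, nat_lit 17421, nat_lit 17429, nat_lit 17431, nat_lit 17433, nat_lit 17437,
  nat_lit 17441, nat_lit 17447, nat_lit 17449, nat_lit 17453, nat_lit 17457, nat_lit 17461, nat_lit 17463, nat_lit 17469,
  nat_lit 17473, nat_lit 17477, nat_lit 17479, nat_lit 17481, nat_lit 17489, nat_lit 17493, nat_lit 17501, nat_lit 17503,
  nat_lit 17507, nat_lit 17511, nat_lit 17515, nat_lit 17517, nat_lit 17525, nat_lit 17529, nat_lit 17537, nat_lit 17539,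
  nat_lit 17541, nat_lit 17545, nat_lit 17549, nat_lit 17551, nat_lit 17553, nat_lit 17559, nat_lit 17563, nat_lit 17567,
  nat_lit 17573, nat_lit 17575, nat_lit 17579, nat_lit 17583, nat_lit 17591, nat_lit 17593, nat_lit 17595, nat_lit 17599,
  nat_lit 17603, nat_lit 17609, nat_lit 17611, nat_lit 17615, nat_lit 17619, nat_lit 17623, nat_lit 17625, nat_lit 17631,
  nat_lit 17635, nat_lit 17639, nat_lit 17641, nat_lit 17643, nat_lit 17651, nat_lit 17655, nat_lit 17659, nat_lit 17661,
  nat_lit 17667, nat_lit 17671, nat_lit 17675, nat_lit 17681, nat_lit 17683, nat_lit 17685, nat_lit 17689, nat_lit 17693,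
  nat_lit 17695, nat_lit 17697, nat_lit 17705, nat_lit 17709, nat_lit 17717, nat_lit 17719, nat_lit 17723, nat_lit 17727,
  nat_lit 17731, nat_lit 17733, nat_lit 17741, nat_lit 17745, nat_lit 17753, nat_lit 17755, nat_lit 17757, nat_lit 17761,
  nat_lit 17765, nat_lit 17771, nat_lit 17773, nat_lit 17777, nat_lit 17781, nat_lit 17785, nat_lit 17787, nat_lit 17793,
  nat_lit 17797, nat_lit 17801, nat_lit 17803, nat_lit 17805, nat_lit 17813, nat_lit 17817, nat_lit 17825, nat_lit 17827,
  nat_lit 17831, nat_lit 17835, nat_lit 17839, nat_lit 17841, nat_lit 17849, nat_lit 17853, nat_lit 17861, nat_lit 17863,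
  nat_lit 17865, nat_lit 17869, nat_lit 17873, nat_lit 17875, nat_lit 17877, nat_lit 17883, nat_lit 17887, nat_lit 17891,
  nat_lit 17897, nat_lit 17899, nat_lit 17901, nat_lit 17905, nat_lit 17909, nat_lit 17911, nat_lit 17913, nat_lit 17921,
  nat_lit 17925, nat_lit 17929, nat_lit 17931, nat_lit 17937, nat_lit 17941, nat_lit 17945, nat_lit 17951, nat_lit 17953,
  nat_lit 17957, nat_lit 17961, nat_lit 17969, nat_lit 17971, nat_lit 17973, nat_lit 17977, nat_lit 17981, nat_lit 17983,
  nat_lit 17985, nat_lit 17991, nat_lit 17995, nat_lit 17999, nat_lit 18005, nat_lit 18007, nat_lit 18009, nat_lit 18013,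
  nat_lit 18017, nat_lit 18019, nat_lit 18021, nat_lit 18029, nat_lit 18033, nat_lit 18041, nat_lit 18043, nat_lit 18047,
  nat_lit 18051, nat_lit 18055, nat_lit 18057, nat_lit 18063, nat_lit 18067, nat_lit 18071, nat_lit 18073, nat_lit 18075,
  nat_lit 18083, nat_lit 18087, nat_lit 18091, nat_lit 18093, nat_lit 18099, nat_lit 18103, nat_lit 18107, nat_lit 18113,
  nat_lit 18115, nat_lit 18119, nat_lit 18123, nat_lit 18131, nat_lit 18133, nat_lit 18135, nat_lit 18139, nat_lit 18143,
  nat_lit 18149, nat_lit 18151, nat_lit 18155, nat_lit 18159, nat_lit 18163, nat_lit 18165, nat_lit 18173, nat_lit 18177,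
  nat_lit 18185, nat_lit 18187, nat_lit 18189, nat_lit 18193, nat_lit 18197, nat_lit 18199, nat_lit 18201, nat_lit 18207,
  nat_lit 18211, nat_lit 18215, nat_lit 18221, nat_lit 18223, nat_lit 18227, nat_lit 18231, nat_lit 18239, nat_lit 18241,
  nat_lit 18243, nat_lit 18247, nat_lit 18251, nat_lit 18257, nat_lit 18259, nat_lit 18263, nat_lit 18267, nat_lit 18271,
  nat_lit 18273, nat_lit 18279, nat_lit 18283, nat_lit 18287, nat_lit 18289, nat_lit 18291, nat_lit 18299, nat_lit 18303,
  nat_lit 18311, nat_lit 18313, nat_lit 18317, nat_lit 18321, nat_lit 18325, nat_lit 18327, nat_lit 18335, nat_lit 18339,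
  nat_lit 18347, nat_lit 18349, nat_lit 18351, nat_lit 18355, nat_lit 18359, nat_lit 18361, nat_lit 18363, nat_lit 18369,
  nat_lit 18373, nat_lit 18377, nat_lit 18383, nat_lit 18385, nat_lit 18387, nat_lit 18391, nat_lit 18395, nat_lit 18397,
  nat_lit 18399, nat_lit 18407, nat_lit 18411, nat_lit 18415, nat_lit 18417, nat_lit 18423, nat_lit 18427, nat_lit 18431,
  nat_lit 18437, nat_lit 18439, nat_lit 18443, nat_lit 18447, nat_lit 18455, nat_lit 18457, nat_lit 18459, nat_lit 18463,
  nat_lit 18467, nat_lit 18473, nat_lit 18475, nat_lit 18479, nat_lit 18483, nat_lit 18487, nat_lit 18489, nat_lit 18497,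
  nat_lit 18501, nat_lit 18509, nat_lit 18511, nat_lit 18513, nat_lit 18517, nat_lit 18521, nat_lit 18523, nat_lit 18525,
  nat_lit 18531, nat_lit 18535, nat_lit 18539, nat_lit 18545, nat_lit 18547, nat_lit 18551, nat_lit 18555, nat_lit 18563,
  nat_lit 18565, nat_lit 18567, nat_lit 18571, nat_lit 18575, nat_lit 18581, nat_lit 18583, nat_lit 18587, nat_lit 18591,
  nat_lit 18595, nat_lit 18597, nat_lit 18603, nat_lit 18607, nat_lit 18611, nat_lit 18613, nat_lit 18615, nat_lit 18623,
  nat_lit 18627, nat_lit 18631, nat_lit 18633, nat_lit 18639, nat_lit 18643, nat_lit 18647, nat_lit 18653, nat_lit 18655,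
  nat_lit 18657, nat_lit 18661, nat_lit 18665, nat_lit 18667, nat_lit 18669, nat_lit 18677, nat_lit 18681, nat_lit 18689,
  nat_lit 18691, nat_lit 18695, nat_lit 18699, nat_lit 18703, nat_lit 18705, nat_lit 18711, nat_lit 18715, nat_lit 18719,
  nat_lit 18721, nat_lit 18723, nat_lit 18731, nat_lit 18735, nat_lit 18739, nat_lit 18741, nat_lit 18747, nat_lit 18751,
  nat_lit 18755, nat_lit 18761, nat_lit 18763, nat_lit 18767, nat_lit 18771, nat_lit 18779, nat_lit 18781, nat_lit 18783,
  nat_lit 18787, nat_lit 18791, nat_lit 18793, nat_lit 18795, nat_lit 18801, nat_lit 18805, nat_lit 18809, nat_lit 18815,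
  nat_lit 18817, nat_lit 18819, nat_lit 18823, nat_lit 18827, nat_lit 18829, nat_lit 18831, nat_lit 18839, nat_lit 18843,
  nat_lit 18851, nat_lit 18853, nat_lit 18857, nat_lit 18861, nat_lit 18865, nat_lit 18867, nat_lit 18875, nat_lit 18879,
  nat_lit 18887, nat_lit 18889, nat_lit 18891, nat_lit 18895, nat_lit 18899, nat_lit 18905, nat_lit 18907, nat_lit 18911,
  nat_lit 18915, nat_lit 18919, nat_lit 18921, nat_lit 18927, nat_lit 18931, nat_lit 18935, nat_lit 18937, nat_lit 18939,
  nat_lit 18947, nat_lit 18951, nat_lit 18955, nat_lit 18957, nat_lit 18963, nat_lit 18967, nat_lit 18971, nat_lit 18977,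
  nat_lit 18979, nat_lit 18981, nat_lit 18985, nat_lit 18989, nat_lit 18991, nat_lit 18993, nat_lit 19001, nat_lit 19005,
  nat_lit 19013, nat_lit 19015, nat_lit 19019, nat_lit 19023, nat_lit 19027, nat_lit 19029, nat_lit 19035, nat_lit 19039,
  nat_lit 19043, nat_lit 19045, nat_lit 19047, nat_lit 19055, nat_lit 19059, nat_lit 19063, nat_lit 19065, nat_lit 19071,
  nat_lit 19075, nat_lit 19079, nat_lit 19085, nat_lit 19087, nat_lit 19091, nat_lit 19095, nat_lit 19103, nat_lit 19105,
  nat_lit 19107, nat_lit 19111, nat_lit 19115, nat_lit 19121, nat_lit 19123, nat_lit 19127, nat_lit 19131, nat_lit 19135,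
  nat_lit 19137, nat_lit 19145, nat_lit 19149, nat_lit 19157, nat_lit 19159, nat_lit 19161, nat_lit 19165, nat_lit 19169,
  nat_lit 19171, nat_lit 19173, nat_lit 19179, nat_lit 19183, nat_lit 19187, nat_lit 19193, nat_lit 19195, nat_lit 19197,
  nat_lit 19201, nat_lit 19205, nat_lit 19207, nat_lit 19209, nat_lit 19217, nat_lit 19221, nat_lit 19225, nat_lit 19227,
  nat_lit 19233, nat_lit 19237, nat_lit 19241, nat_lit 19247, nat_lit 19249, nat_lit 19253, nat_lit 19257, nat_lit 19265,
  nat_lit 19267, nat_lit 19269, nat_lit 19273, nat_lit 19277, nat_lit 19279, nat_lit 19281, nat_lit 19287, nat_lit 19291,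
  nat_lit 19295, nat_lit 19301, nat_lit 19303, nat_lit 19305, nat_lit 19309, nat_lit 19313, nat_lit 19315, nat_lit 19317,
  nat_lit 19325, nat_lit 19329, nat_lit 19337, nat_lit 19339, nat_lit 19343, nat_lit 19347, nat_lit 19351, nat_lit 19353,
  nat_lit 19361, nat_lit 19365, nat_lit 19373, nat_lit 19375, nat_lit 19377, nat_lit 19381, nat_lit 19385, nat_lit 19391,
  nat_lit 19393, nat_lit 19397, nat_lit 19401, nat_lit 19405, nat_lit 19407, nat_lit 19413, nat_lit 19417, nat_lit 19421,
  nat_lit 19423, nat_lit 19425, nat_lit 19433, nat_lit 19437, nat_lit 19445, nat_lit 19447, nat_lit 19451, nat_lit 19455,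
  nat_lit 19459, nat_lit 19461, nat_lit 19469, nat_lit 19473, nat_lit 19481, nat_lit 19483, nat_lit 19485, nat_lit 19489,
  nat_lit 19493, nat_lit 19495, nat_lit 19497, nat_lit 19503, nat_lit 19507, nat_lit 19511, nat_lit 19517, nat_lit 19519,
  nat_lit 19523, nat_lit 19527, nat_lit 19535, nat_lit 19537, nat_lit 19539, nat_lit 19543, nat_lit 19547, nat_lit 19553,
  nat_lit 19555, nat_lit 19559, nat_lit 19563, nat_lit 19567, nat_lit 19569, nat_lit 19575, nat_lit 19579, nat_lit 19583,
  nat_lit 19585, nat_lit 19587, nat_lit 19595, nat_lit 19599, nat_lit 19603, nat_lit 19605, nat_lit 19611, nat_lit 19615,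
  nat_lit 19619, nat_lit 19625, nat_lit 19627, nat_lit 19629, nat_lit 19633, nat_lit 19637, nat_lit 19639, nat_lit 19641,
  nat_lit 19649, nat_lit 19653, nat_lit 19661, nat_lit 19663, nat_lit 19667, nat_lit 19671, nat_lit 19675, nat_lit 19677]

def TT : Type :=
  Nat → Nat → Nat → Nat → Nat → Nat → Nat → Nat → Nat → Nat → Nat → Nat → Nat → Nat → Nat → Nat →
  Nat → Nat → Nat → Nat → Nat → Nat → Nat → Nat → Nat → Nat → Nat → Nat → Nat → Nat → Nat → Nat →
  Nat → Nat → Nat → Nat → Nat → Nat → Nat → Nat → Nat → Nat → Nat → Nat → Nat → Nat → Nat → Nat →
  Nat → Nat → Nat → Nat → Nat → Nat → Nat → Nat → Nat → Nat → Nat → Nat → Nat → Nat → Nat → Nat →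
  Nat → Nat → Nat → Nat → Nat → Nat → Nat → Nat → Nat → Nat → Nat → Nat → Nat → Nat → Nat → Nat →
  Nat → Nat → Nat → Nat → Nat → Nat → Nat → Nat → Nat → Nat → Nat → Nat → Nat → Nat → Nat → Nat →
  Nat → Nat → Nat → Nat → Nat → Nat → Nat → Nat → Nat → Nat → Nat → Nat → Nat → Nat → Nat → Nat →
  Nat → Nat → Nat → Nat → Nat → Nat → Nat → Nat → Nat → Nat → Nat → Nat → Nat → Nat → Nat → Nat →
  Nat → Nat → Nat → Nat → Nat → Nat → Nat → Nat → Nat → Nat → Nat → Nat → Nat → Nat → Nat → Nat →
  Nat → Nat → Nat → Nat → Nat → Nat → Nat → Nat → Nat → Nat → Nat → Nat → Nat → Nat → Nat → Nat →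
  Nat → Nat → Nat → Nat → Nat → Nat → Nat → Nat → Nat → Nat → Nat → Nat → Nat → Nat → Nat → Nat →
  Nat → Nat → Nat → Nat → Nat → Nat → Nat → Nat → Nat → Nat → Nat → Nat → Nat → Nat → Nat → Nat →
  Nat → Nat → Nat → Nat → Nat → Nat → Nat → Nat → Nat → Nat → Nat → Nat → Nat → Nat → Nat → Nat →
  Nat → Nat → Nat → Nat → Nat → Nat → Nat → Nat → Nat → Nat → Nat → Nat → Nat → Nat → Nat → Nat →
  Nat → Nat → Nat → Nat → Nat → Nat → Nat → Nat → Nat → Nat → Nat → Nat → Nat → Nat → Nat → Nat →
  Nat → Nat → Nat → Nat → Nat → Nat → Nat → Nat → Nat → Nat → Nat → Nat → Nat → Nat → Nat → Nat →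
  Nat → Nat → Nat → Nat → Nat → Nat → Nat → Nat → Nat → Nat → Nat → Nat → Nat → Nat → Nat → Nat →
  Nat → Nat → Nat → Nat → Nat → Nat → Nat → Nat → Nat → Nat → Nat → Nat → Nat → Nat → Nat → Nat →
  Nat → Nat → Nat → Nat → Nat → Nat → Nat → Nat → Nat → Nat → Nat → Nat → Nat → Nat → Nat → Nat →
  Nat → Nat → Nat → Nat → Nat → Nat → Nat → Nat → Nat → Nat → Nat → Nat → Nat → Nat → Nat → Nat →
  Nat → Nat → Nat → Nat → Nat → Nat → Nat → Nat → Nat → Nat → Nat → Nat → Nat → Nat → Nat → Nat →
  Nat → Nat → Nat → Nat → Nat → Nat → Nat → Nat → Nat → Nat → Nat → Nat → Nat → Nat → Nat → Nat →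
  Nat → Nat → Nat → Nat → Nat → Nat → Nat → Nat → Nat → Nat → Nat → Nat → Nat → Nat → Nat → Nat →
  Nat → Nat → Nat → Nat → Nat → Nat → Nat → Nat → Nat → Nat → Nat → Nat → Nat → Nat → Nat → Nat →
  Nat → Nat → Nat → Nat → Nat → Nat → Nat → Nat → Nat → Nat → Nat → Nat → Nat → Nat → Nat → Nat →
  Nat → Nat → Nat → Nat → Nat → Nat → Nat → Nat → Nat → Nat → Nat → Nat → Nat → Nat → Nat → Nat →
  Nat → Nat → Nat → Nat → Nat → Nat → Nat → Nat → Nat → Nat → Nat → Nat → Nat → Nat → Nat → Nat →
  Nat → Nat → Nat → Nat → Nat → Nat → Nat → Nat → Nat → Nat → Nat → Nat → Nat → Nat → Nat → Nat →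
  Nat → Nat → Nat → Nat → Nat → Nat → Nat → Nat → Nat → Nat → Nat → Nat → Nat → Nat → Nat → Nat →
  Nat → Nat → Nat → Nat → Nat → Nat → Nat → Nat → Nat → Nat → Nat → Nat → Nat → Nat → Nat → Nat →
  Nat → Nat → Nat → Nat → Nat → Nat → Nat → Nat → Nat → Nat → Nat → Nat → Nat → Nat → Nat → Nat →
  Nat → Nat → Nat → Nat → Nat → Nat → Nat → Nat → Nat → Nat → Nat → Nat → Nat → Nat → Nat → Nat →
  Nat → Nat → Nat → Nat → Nat → Nat → Nat → Nat → Nat → Nat → Nat → Nat → Nat → Nat → Nat → Nat →
  Nat → Nat → Nat → Nat → Nat → Nat → Nat → Nat → Nat → Nat → Nat → Nat → Nat → Nat → Nat → Nat →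
  Nat → Nat → Nat → Nat → Nat → Nat → Nat → Nat → Nat → Nat → Nat → Nat → Nat → Nat → Nat → Nat →
  Nat → Nat → Nat → Nat → Nat → Nat → Nat → Nat → Nat → Nat → Nat → Nat → Nat → Nat → Nat → Nat →
  Nat → Nat → Nat → Nat → Nat → Nat → Nat → Nat → Nat → Nat → Nat → Nat → Nat → Nat → Nat → Nat →
  Nat → Nat → Nat → Nat → Nat → Nat → Nat → Nat → Nat → Nat → Nat → Nat → Nat → Nat → Nat → Nat →
  Nat → Nat → Nat → Nat → Nat → Nat → Nat → Nat → Nat → Nat → Nat → Nat → Nat → Nat → Nat → Nat →
  Nat → Nat → Nat → Nat → Nat → Nat → Nat → Nat → Nat → Nat → Nat → Nat → Nat → Nat → Nat → Nat →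
  Nat → Nat → Nat → Nat → Nat → Nat → Nat → Nat → Nat → Nat → Nat → Nat → Nat → Nat → Nat → Nat →
  Nat → Nat → Nat → Nat → Nat → Nat → Nat → Nat → Nat → Nat → Nat → Nat → Nat → Nat → Nat → Nat →
  Nat → Nat → Nat → Nat → Nat → Nat → Nat → Nat → Nat → Nat → Nat → Nat → Nat → Nat → Nat → Nat →
  Nat → Nat → Nat → Nat → Nat → Nat → Nat → Nat → Nat → Nat → Nat → Nat → Nat → Nat → Nat → Nat →
  Nat → Nat → Nat → Nat → Nat → Nat → Nat → Nat → Nat → Nat → Nat → Nat → Nat → Nat → Nat → Nat →
  Nat → Nat → Nat → Nat → Nat → Nat → Nat → Nat → Nat → Nat → Nat → Nat → Nat → Nat → Nat → Nat →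
  Nat → Nat → Nat → Nat → Nat → Nat → Nat → Nat → Nat → Nat → Nat → Nat → Nat → Nat → Nat → Nat →
  Nat → Nat → Nat → Nat → Nat → Nat → Nat → Nat → Nat → Nat → Nat → Nat → Nat → Nat → Nat → Nat →
  Nat → Nat → Nat → Nat → Nat → Nat → Nat → Nat → Nat → Nat → Nat → Nat → Nat → Nat → Nat → Nat →
  Nat → Nat → Nat → Nat → Nat → Nat → Nat → Nat → Nat → Nat → Nat → Nat → Nat → Nat → Nat → Nat →
  Nat → Nat → Nat → Nat → Nat → Nat → Nat → Nat → Nat → Nat → Nat → Nat → Nat → Nat → Nat → Nat →
  Nat → Nat → Nat → Nat → Nat → Nat → Nat → Nat → Nat → Nat → Nat → Nat → Nat → Nat → Nat → Nat →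
  Nat → Nat → Nat → Nat → Nat → Nat → Nat → Nat → Nat → Nat → Nat → Nat → Nat → Nat → Nat → Nat →
  Nat → Nat → Nat → Nat → Nat → Nat → Nat → Nat → Nat → Nat → Nat → Nat → Nat → Nat → Nat → Nat →
  Nat → Nat → Nat → Nat → Nat → Nat → Nat → Nat → Nat → Nat → Nat → Nat → Nat → Nat → Nat → Nat →
  Nat → Nat → Nat → Nat → Nat → Nat → Nat → Nat → Nat → Nat → Nat → Nat → Nat → Nat → Nat → Nat →
  Nat → Nat → Nat → Nat → Nat → Nat → Nat → Nat → Nat → Nat → Nat → Nat → Nat → Nat → Nat → Nat →
  Nat → Nat → Nat → Nat → Nat → Nat → Nat → Nat → Nat → Nat → Nat → Nat → Nat → Nat → Nat → Nat →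
  Nat → Nat → Nat → Nat → Nat → Nat → Nat → Nat → Nat → Nat → Nat → Nat → Nat → Nat → Nat → Nat →
  Nat → Nat → Nat → Nat → Nat → Nat → Nat → Nat → Nat → Nat → Nat → Nat → Nat → Nat → Nat → Nat →
  Nat → Nat → Nat → Nat → Nat → Nat → Nat → Nat → Nat → Nat → Nat → Nat → Nat → Nat → Nat → Nat →
  Nat → Nat → Nat → Nat → Nat → Nat → Nat → Nat → Nat → Nat → Nat → Nat → Nat → Nat → Nat → Nat →
  Nat → Nat → Nat → Nat → Nat → Nat → Nat → Nat → Nat → Nat → Nat → Nat → Nat → Nat → Nat → Nat →
  Nat → Nat → Nat → Nat → Nat → Nat → Nat → Nat → Nat → Nat → Nat → Nat → Nat → Nat → Nat → Nat →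
  Nat → Nat → Nat → Nat → Nat → Nat → Nat → Nat → Nat → Nat → Nat → Nat → Nat → Nat → Nat → Nat →
  Nat → Nat → Nat → Nat → Nat → Nat → Nat → Nat → Nat → Nat → Nat → Nat → Nat → Nat → Nat → Nat →
  Nat → Nat → Nat → Nat → Nat → Nat → Nat → Nat → Nat → Nat → Nat → Nat → Nat → Nat → Nat → Nat →
  Nat → Nat → Nat → Nat → Nat → Nat → Nat → Nat → Nat → Nat → Nat → Nat → Nat → Nat → Nat → Nat →
  Nat → Nat → Nat → Nat → Nat → Nat → Nat → Nat → Nat → Nat → Nat → Nat → Nat → Nat → Nat → Nat →
  Nat → Nat → Nat → Nat → Nat → Nat → Nat → Nat → Nat → Nat → Nat → Nat → Nat → Nat → Nat → Nat →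
  Nat → Nat → Nat → Nat → Nat → Nat → Nat → Nat → Nat → Nat → Nat → Nat → Nat → Nat → Nat → Nat →
  Nat → Nat → Nat → Nat → Nat → Nat → Nat → Nat → Nat → Nat → Nat → Nat → Nat → Nat → Nat → Nat →
  Nat → Nat → Nat → Nat → Nat → Nat → Nat → Nat → Nat → Nat → Nat → Nat → Nat → Nat → Nat → Nat →
  Nat → Nat → Nat → Nat → Nat → Nat → Nat → Nat → Nat → Nat → Nat → Nat → Nat → Nat → Nat → Nat →
  Nat → Nat → Nat → Nat → Nat → Nat → Nat → Nat → Nat → Nat → Nat → Nat → Nat → Nat → Nat → Nat →
  Nat → Nat → Nat → Nat → Nat → Nat → Nat → Nat → Nat → Nat → Nat → Nat → Nat → Nat → Nat → Nat →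
  Nat → Nat → Nat → Nat → Nat → Nat → Nat → Nat → Nat → Nat → Nat → Nat → Nat → Nat → Nat → Nat →
  Nat → Nat → Nat → Nat → Nat → Nat → Nat → Nat → Nat → Nat → Nat → Nat → Nat → Nat → Nat → Nat →
  Nat → Nat → Nat → Nat → Nat → Nat → Nat → Nat → Nat → Nat → Nat → Nat → Nat → Nat → Nat → Nat →
  Nat → Nat → Nat → Nat → Nat → Nat → Nat → Nat → Nat → Nat → Nat → Nat → Nat → Nat → Nat → Nat →
  Nat → Nat → Nat → Nat → Nat → Nat → Nat → Nat → Nat → Nat → Nat → Nat → Nat → Nat → Nat → Nat →
  Nat → Nat → Nat → Nat → Nat → Nat → Nat → Nat → Nat → Nat → Nat → Nat → Nat → Nat → Nat → Nat →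
  Nat → Nat → Nat → Nat → Nat → Nat → Nat → Nat → Nat → Nat → Nat → Nat → Nat → Nat → Nat → Nat →
  Nat → Nat → Nat → Nat → Nat → Nat → Nat → Nat → Nat → Nat → Nat → Nat → Nat → Nat → Nat → Nat →
  Nat → Nat → Nat → Nat → Nat → Nat → Nat → Nat → Nat → Nat → Nat → Nat → Nat → Nat → Nat → Nat →
  Nat → Nat → Nat → Nat → Nat → Nat → Nat → Nat → Nat → Nat → Nat → Nat → Nat → Nat → Nat → Nat →
  Nat → Nat → Nat → Nat → Nat → Nat → Nat → Nat → Nat → Nat → Nat → Nat → Nat → Nat → Nat → Nat →
  Nat → Nat → Nat → Nat → Nat → Nat → Nat → Nat → Nat → Nat → Nat → Nat → Nat → Nat → Nat → Nat →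
  Nat → Nat → Nat → Nat → Nat → Nat → Nat → Nat → Nat → Nat → Nat → Nat → Nat → Nat → Nat → Nat →
  Nat → Nat → Nat → Nat → Nat → Nat → Nat → Nat → Nat → Nat → Nat → Nat → Nat → Nat → Nat → Nat →
  Nat → Nat → Nat → Nat → Nat → Nat → Nat → Nat → Nat → Nat → Nat → Nat → Nat → Nat → Nat → Nat →
  Nat → Nat → Nat → Nat → Nat → Nat → Nat → Nat → Nat → Nat → Nat → Nat → Nat → Nat → Nat → Nat →
  Nat → Nat → Nat → Nat → Nat → Nat → Nat → Nat → Nat → Nat → Nat → Nat → Nat → Nat → Nat → Nat →
  Nat → Nat → Nat → Nat → Nat → Nat → Nat → Nat → Nat → Nat → Nat → Nat → Nat → Nat → Nat → Nat →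
  Nat → Nat → Nat → Nat → Nat → Nat → Nat → Nat → Nat → Nat → Nat → Nat → Nat → Nat → Nat → Nat →
  Nat → Nat → Nat → Nat → Nat → Nat → Nat → Nat → Nat → Nat → Nat → Nat → Nat → Nat → Nat → Nat →
  Nat → Nat → Nat → Nat → Nat → Nat → Nat → Nat → Nat → Nat → Nat → Nat → Nat → Nat → Nat → Nat →
  Nat → Nat → Nat → Nat → Nat → Nat → Nat → Nat → Nat → Nat → Nat → Nat → Nat → Nat → Nat → Nat →
  Nat → Nat → Nat → Nat → Nat → Nat → Nat → Nat → Nat → Nat → Nat → Nat → Nat → Nat → Nat → Nat →
  Nat → Nat → Nat → Nat → Nat → Nat → Nat → Nat → Nat → Nat → Nat → Nat → Nat → Nat → Nat → Nat →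
  Nat → Nat → Nat → Nat → Nat → Nat → Nat → Nat → Nat → Nat → Nat → Nat → Nat → Nat → Nat → Nat →
  Nat → Nat → Nat → Nat → Nat → Nat → Nat → Nat → Nat → Nat → Nat → Nat → Nat → Nat → Nat → Nat →
  Nat → Nat → Nat → Nat → Nat → Nat → Nat → Nat → Nat → Nat → Nat → Nat → Nat → Nat → Nat → Nat →
  Nat → Nat → Nat → Nat → Nat → Nat → Nat → Nat → Nat → Nat → Nat → Nat → Nat → Nat → Nat → Nat →
  Nat → Nat → Nat → Nat → Nat → Nat → Nat → Nat → Nat → Nat → Nat → Nat → Nat → Nat → Nat → Nat →
  Nat → Nat → Nat → Nat → Nat → Nat → Nat → Nat → Nat → Nat → Nat → Nat → Nat → Nat → Nat → Nat →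
  Nat → Nat → Nat → Nat → Nat → Nat → Nat → Nat → Nat → Nat → Nat → Nat → Nat → Nat → Nat → Nat →
  Nat → Nat → Nat → Nat → Nat → Nat → Nat → Nat → Nat → Nat → Nat → Nat → Nat → Nat → Nat → Nat →
  Nat → Nat → Nat → Nat → Nat → Nat → Nat → Nat → Nat → Nat → Nat → Nat → Nat → Nat → Nat → Nat →
  Nat → Nat → Nat → Nat → Nat → Nat → Nat → Nat → Nat → Nat → Nat → Nat → Nat → Nat → Nat → Nat →
  Nat → Nat → Nat → Nat → Nat → Nat → Nat → Nat → Nat → Nat → Nat → Nat → Nat → Nat → Nat → Nat →
  Nat → Nat → Nat → Nat → Nat → Nat → Nat → Nat → Nat → Nat → Nat → Nat → Nat → Nat → Nat → Nat →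
  Nat → Nat → Nat → Nat → Nat → Nat → Nat → Nat → Nat → Nat → Nat → Nat → Nat → Nat → Nat → Nat →
  Nat → Nat → Nat → Nat → Nat → Nat → Nat → Nat → Nat → Nat → Nat → Nat → Nat → Nat → Nat → Nat →
  Nat → Nat → Nat → Nat → Nat → Nat → Nat → Nat → Nat → Nat → Nat → Nat → Nat → Nat → Nat → Nat →
  Nat → Nat → Nat → Nat → Nat → Nat → Nat → Nat → Nat → Nat → Nat → Nat → Nat → Nat → Nat → Nat →
  Nat → Nat → Nat → Nat → Nat → Nat → Nat → Nat → Nat → Nat → Nat → Nat → Nat → Nat → Nat → Nat →
  Nat → Nat → Nat → Nat → Nat → Nat → Nat → Nat → Nat → Nat → Nat → Nat → Nat → Nat → Nat → Nat →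
  Nat → Nat → Nat → Nat → Nat → Nat → Nat → Nat → Nat → Nat → Nat → Nat → Nat → Nat → Nat → Nat →
  Nat → Nat → Nat → Nat → Nat → Nat → Nat → Nat → Nat → Nat → Nat → Nat → Nat → Nat → Nat → Nat →
  Nat → Nat → Nat → Nat → Nat → Nat → Nat → Nat → Nat → Nat → Nat → Nat → Nat → Nat → Nat → Nat →
  Nat → Nat → Nat → Nat → Nat → Nat → Nat → Nat → Nat → Nat → Nat → Nat → Nat → Nat → Nat → Nat →
  Nat → Nat → Nat → Nat → Nat → Nat → Nat → Nat → Nat → Nat → Nat → Nat → Nat → Nat → Nat → Nat →
  Nat → Nat → Nat → Nat → Nat → Nat → Nat → Nat → Nat → Nat → Nat → Nat → Nat → Nat → Nat → Nat →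
  Nat → Nat → Nat → Nat → Nat → Nat → Nat → Nat → Nat → Nat → Nat → Nat → Nat → Nat → Nat → Nat →
  Nat → Nat → Nat → Nat → Nat → Nat → Nat → Nat → Nat → Nat → Nat → Nat → Nat → Nat → Nat → Nat →
  Nat → Nat → Nat → Nat → Nat → Nat → Nat → Nat → Nat → Nat → Nat → Nat → Nat → Nat → Nat → Nat →
  Nat → Nat → Nat → Nat → Nat → Nat → Nat → Nat → Nat → Nat → Nat → Nat → Nat → Nat → Nat → Nat →
  Nat → Nat → Nat → Nat → Nat → Nat → Nat → Nat → Nat → Nat → Nat → Nat → Nat → Nat → Nat → Nat →
  Nat → Nat → Nat → Nat → Nat → Nat → Nat → Nat → Nat → Nat → Nat → Nat → Nat → Nat → Nat → Nat →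
  Nat → Nat → Nat → Nat → Nat → Nat → Nat → Nat → Nat → Nat → Nat → Nat → Nat → Nat → Nat → Nat →
  Nat → Nat → Nat → Nat → Nat → Nat → Nat → Nat → Nat → Nat → Nat → Nat → Nat → Nat → Nat → Nat →
  Nat → Nat → Nat → Nat → Nat → Nat → Nat → Nat → Nat → Nat → Nat → Nat → Nat → Nat → Nat → Nat →
  Nat → Nat → Nat → Nat → Nat → Nat → Nat → Nat → Nat → Nat → Nat → Nat → Nat → Nat → Nat → Nat →
  Nat → Nat → Nat → Nat → Nat → Nat → Nat → Nat → Nat → Nat → Nat → Nat → Nat → Nat → Nat → Nat →
  Nat → Nat → Nat → Nat → Nat → Nat → Nat → Nat → Nat → Nat → Nat → Nat → Nat → Nat → Nat → Nat →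
  Nat → Nat → Nat → Nat → Nat → Nat → Nat → Nat → Nat → Nat → Nat → Nat → Nat → Nat → Nat → Nat →
  Nat → Nat → Nat → Nat → Nat → Nat → Nat → Nat → Nat → Nat → Nat → Nat → Nat → Nat → Nat → Nat →
  Nat → Nat → Nat → Nat → Nat → Nat → Nat → Nat → Nat → Nat → Nat → Nat → Nat → Nat → Nat → Nat →
  Nat → Nat → Nat → Nat → Nat → Nat → Nat → Nat → Nat → Nat → Nat → Nat → Nat → Nat → Nat → Nat →
  Nat → Nat → Nat → Nat → Nat → Nat → Nat → Nat → Nat → Nat → Nat → Nat → Nat → Nat → Nat → Nat →
  Nat → Nat → Nat → Nat → Nat → Nat → Nat → Nat → Nat → Nat → Nat → Nat → Nat → Nat → Nat → Nat →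
  Nat → Nat → Nat → Nat → Nat → Nat → Nat → Nat → Nat → Nat → Nat → Nat → Nat → Nat → Nat → Nat →
  Nat → Nat → Nat → Nat → Nat → Nat → Nat → Nat → Nat → Nat → Nat → Nat → Nat → Nat → Nat → Nat →
  Nat → Nat → Nat → Nat → Nat → Nat → Nat → Nat → Nat → Nat → Nat → Nat → Nat → Nat → Nat → Nat →
  Nat → Nat → Nat → Nat → Nat → Nat → Nat → Nat → Nat → Nat → Nat → Nat → Nat → Nat → Nat → Nat →
  Nat → Nat → Nat → Nat → Nat → Nat → Nat → Nat → Nat → Nat → Nat → Nat → Nat → Nat → Nat → Nat →
  Nat → Nat → Nat → Nat → Nat → Nat → Nat → Nat → Nat → Nat → Nat → Nat → Nat → Nat → Nat → Nat →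
  Nat → Nat → Nat → Nat → Nat → Nat → Nat → Nat → Nat → Nat → Nat → Nat → Nat → Nat → Nat → Nat →
  Nat → Nat → Nat → Nat → Nat → Nat → Nat → Nat → Nat → Nat → Nat → Nat → Nat → Nat → Nat → Nat →
  Nat → Nat → Nat → Nat → Nat → Nat → Nat → Nat → Nat → Nat → Nat → Nat → Nat → Nat → Nat → Nat →
  Nat → Nat → Nat → Nat → Nat → Nat → Nat → Nat → Nat → Nat → Nat → Nat → Nat → Nat → Nat → Nat →
  Nat → Nat → Nat → Nat → Nat → Nat → Nat → Nat → Nat → Nat → Nat → Nat → Nat → Nat → Nat → Nat →
  Nat → Nat → Nat → Nat → Nat → Nat → Nat → Nat → Nat → Nat → Nat → Nat → Nat → Nat → Nat → Nat →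
  Nat → Nat → Nat → Nat → Nat → Nat → Nat → Nat → Nat → Nat → Nat → Nat → Nat → Nat → Nat → Nat →
  Nat → Nat → Nat → Nat → Nat → Nat → Nat → Nat → Nat → Nat → Nat → Nat → Nat → Nat → Nat → Nat →
  Nat → Nat → Nat → Nat → Nat → Nat → Nat → Nat → Nat → Nat → Nat → Nat → Nat → Nat → Nat → Nat →
  Nat → Nat → Nat → Nat → Nat → Nat → Nat → Nat → Nat → Nat → Nat → Nat → Nat → Nat → Nat → Nat →
  Nat → Nat → Nat → Nat → Nat → Nat → Nat → Nat → Nat → Nat → Nat → Nat → Nat → Nat → Nat → Nat →
  Nat → Nat → Nat → Nat → Nat → Nat → Nat → Nat → Nat → Nat → Nat → Nat → Nat → Nat → Nat → Nat →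
  Nat → Nat → Nat → Nat → Nat → Nat → Nat → Nat → Nat → Nat → Nat → Nat → Nat → Nat → Nat → Nat →
  Nat → Nat → Nat → Nat → Nat → Nat → Nat → Nat → Nat → Nat → Nat → Nat → Nat → Nat → Nat → Nat →
  Nat → Nat → Nat → Nat → Nat → Nat → Nat → Nat → Nat → Nat → Nat → Nat → Nat → Nat → Nat → Nat →
  Nat → Nat → Nat → Nat → Nat → Nat → Nat → Nat → Nat → Nat → Nat → Nat → Nat → Nat → Nat → Nat →
  Nat → Nat → Nat → Nat → Nat → Nat → Nat → Nat → Nat → Nat → Nat → Nat → Nat → Nat → Nat → Nat →
  Nat → Nat → Nat → Nat → Nat → Nat → Nat → Nat → Nat → Nat → Nat → Nat → Nat → Nat → Nat → Nat →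
  Nat → Nat → Nat → Nat → Nat → Nat → Nat → Nat → Nat → Nat → Nat → Nat → Nat → Nat → Nat → Nat →
  Nat → Nat → Nat → Nat → Nat → Nat → Nat → Nat → Nat → Nat → Nat → Nat → Nat → Nat → Nat → Nat →
  Nat → Nat → Nat → Nat → Nat → Nat → Nat → Nat → Nat → Nat → Nat → Nat → Nat → Nat → Nat → Nat →
  Nat → Nat → Nat → Nat → Nat → Nat → Nat → Nat → Nat → Nat → Nat → Nat → Nat → Nat → Nat → Nat →
  Nat → Nat → Nat → Nat → Nat → Nat → Nat → Nat → Nat → Nat → Nat → Nat → Nat → Nat → Nat → Nat →
  Nat → Nat → Nat → Nat → Nat → Nat → Nat → Nat → Nat → Nat → Nat → Nat → Nat → Nat → Nat → Nat →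
  Nat → Nat → Nat → Nat → Nat → Nat → Nat → Nat → Nat → Nat → Nat → Nat → Nat → Nat → Nat → Nat →
  Nat → Nat → Nat → Nat → Nat → Nat → Nat → Nat → Nat → Nat → Nat → Nat → Nat → Nat → Nat → Nat →
  Nat → Nat → Nat → Nat → Nat → Nat → Nat → Nat → Nat → Nat → Nat → Nat → Nat → Nat → Nat → Nat →
  Nat → Nat → Nat → Nat → Nat → Nat → Nat → Nat → Nat → Nat → Nat → Nat → Nat → Nat → Nat → Nat →
  Nat → Nat → Nat → Nat → Nat → Nat → Nat → Nat → Nat → Nat → Nat → Nat → Nat → Nat → Nat → Nat →
  Nat → Nat → Nat → Nat → Nat → Nat → Nat → Nat → Nat → Nat → Nat → Nat → Nat → Nat → Nat → Nat →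
  Nat → Nat → Nat → Nat → Nat → Nat → Nat → Nat → Nat → Nat → Nat → Nat → Nat → Nat → Nat → Nat →
  Nat → Nat → Nat → Nat → Nat → Nat → Nat → Nat → Nat → Nat → Nat → Nat → Nat → Nat → Nat → Nat →
  Nat → Nat → Nat → Nat → Nat → Nat → Nat → Nat → Nat → Nat → Nat → Nat → Nat → Nat → Nat → Nat →
  Nat → Nat → Nat → Nat → Nat → Nat → Nat → Nat → Nat → Nat → Nat → Nat → Nat → Nat → Nat → Nat →
  Nat → Nat → Nat → Nat → Nat → Nat → Nat → Nat → Nat → Nat → Nat → Nat → Nat → Nat → Nat → Nat →
  Nat → Nat → Nat → Nat → Nat → Nat → Nat → Nat → Nat → Nat → Nat → Nat → Nat → Nat → Nat → Nat →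
  Nat → Nat → Nat → Nat → Nat → Nat → Nat → Nat → Nat → Nat → Nat → Nat → Nat → Nat → Nat → Nat →
  Nat → Nat → Nat → Nat → Nat → Nat → Nat → Nat → Nat → Nat → Nat → Nat → Nat → Nat → Nat → Nat →
  Nat → Nat → Nat → Nat → Nat → Nat → Nat → Nat → Nat → Nat → Nat → Nat → Nat → Nat → Nat → Nat →
  Nat → Nat → Nat → Nat → Nat → Nat → Nat → Nat → Nat → Nat → Nat → Nat → Nat → Nat → Nat → Nat →
  Nat → Nat → Nat → Nat → Nat → Nat → Nat → Nat → Nat → Nat → Nat → Nat → Nat → Nat → Nat → Nat →
  Nat → Nat → Nat → Nat → Nat → Nat → Nat → Nat → Nat → Nat → Nat → Nat → Nat → Nat → Nat → Nat →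
  Nat → Nat → Nat → Nat → Nat → Nat → Nat → Nat → Nat → Nat → Nat → Nat → Nat → Nat → Nat → Nat →
  Nat → Nat → Nat → Nat → Nat → Nat → Nat → Nat → Nat → Nat → Nat → Nat → Nat → Nat → Nat → Nat →
  Nat → Nat → Nat → Nat → Nat → Nat → Nat → Nat → Nat → Nat → Nat → Nat → Nat → Nat → Nat → Nat →
  Nat → Nat → Nat → Nat → Nat → Nat → Nat → Nat → Nat → Nat → Nat → Nat → Nat → Nat → Nat → Nat →
  Nat → Nat → Nat → Nat → Nat → Nat → Nat → Nat → Nat → Nat → Nat → Nat → Nat → Nat → Nat → Nat →
  Nat → Nat → Nat → Nat → Nat → Nat → Nat → Nat → Nat → Nat → Nat → Nat → Nat → Nat → Nat → Nat →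
  Nat → Nat → Nat → Nat → Nat → Nat → Nat → Nat → Nat → Nat → Nat → Nat → Nat → Nat → Nat → Nat →
  Nat → Nat → Nat → Nat → Nat → Nat → Nat → Nat → Nat → Nat → Nat → Nat → Nat → Nat → Nat → Nat →
  Nat → Nat → Nat → Nat → Nat → Nat → Nat → Nat → Nat → Nat → Nat → Nat → Nat → Nat → Nat → Nat →
  Nat → Nat → Nat → Nat → Nat → Nat → Nat → Nat → Nat → Nat → Nat → Nat → Nat → Nat → Nat → Nat →
  Nat → Nat → Nat → Nat → Nat → Nat → Nat → Nat → Nat → Nat → Nat → Nat → Nat → Nat → Nat → Nat →
  Nat → Nat → Nat → Nat → Nat → Nat → Nat → Nat → Nat → Nat → Nat → Nat → Nat → Nat → Nat → Nat →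
  Nat → Nat → Nat → Nat → Nat → Nat → Nat → Nat → Nat → Nat → Nat → Nat → Nat → Nat → Nat → Nat →
  Nat → Nat → Nat → Nat → Nat → Nat → Nat → Nat → Nat → Nat → Nat → Nat → Nat → Nat → Nat → Nat →
  Nat → Nat → Nat → Nat → Nat → Nat → Nat → Nat → Nat → Nat → Nat → Nat → Nat → Nat → Nat → Nat →
  Nat → Nat → Nat → Nat → Nat → Nat → Nat → Nat → Nat → Nat → Nat → Nat → Nat → Nat → Nat → Nat →
  Nat → Nat → Nat → Nat → Nat → Nat → Nat → Nat → Nat → Nat → Nat → Nat → Nat → Nat → Nat → Nat →
  Nat → Nat → Nat → Nat → Nat → Nat → Nat → Nat → Nat → Nat → Nat → Nat → Nat → Nat → Nat → Nat →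
  Nat → Nat → Nat → Nat → Nat → Nat → Nat → Nat → Nat → Nat → Nat → Nat → Nat → Nat → Nat → Nat →
  Nat → Nat → Nat → Nat → Nat → Nat → Nat → Nat → Nat → Nat → Nat → Nat → Nat → Nat → Nat → Nat →
  Nat → Nat → Nat → Nat → Nat → Nat → Nat → Nat → Nat → Nat → Nat → Nat → Nat → Nat → Nat → Nat →
  Nat → Nat → Nat → Nat → Nat → Nat → Nat → Nat → Nat → Nat → Nat → Nat → Nat → Nat → Nat → Nat →
  Nat → Nat → Nat → Nat → Nat → Nat → Nat → Nat → Nat → Nat → Nat → Nat → Nat → Nat → Nat → Nat →
  Nat → Nat → Nat → Nat → Nat → Nat → Nat → Nat → Nat → Nat → Nat → Nat → Nat → Nat → Nat → Nat →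
  Nat → Nat → Nat → Nat → Nat → Nat → Nat → Nat → Nat → Nat → Nat → Nat → Nat → Nat → Nat → Nat →
  Nat → Nat → Nat → Nat → Nat → Nat → Nat → Nat → Nat → Nat → Nat → Nat → Nat → Nat → Nat → Nat →
  Nat → Nat → Nat → Nat → Nat → Nat → Nat → Nat → Nat → Nat → Nat → Nat → Nat → Nat → Nat → Nat →
  Nat → Nat → Nat → Nat → Nat → Nat → Nat → Nat → Nat → Nat → Nat → Nat → Nat → Nat → Nat → Nat →
  Nat → Nat → Nat → Nat → Nat → Nat → Nat → Nat → Nat → Nat → Nat → Nat → Nat → Nat → Nat → Nat →
  Nat → Nat → Nat → Nat → Nat → Nat → Nat → Nat → Nat → Nat → Nat → Nat → Nat → Nat → Nat → Nat →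
  Nat → Nat → Nat → Nat → Nat → Nat → Nat → Nat → Nat → Nat → Nat → Nat → Nat → Nat → Nat → Nat →
  Nat → Nat → Nat → Nat → Nat → Nat → Nat → Nat → Nat → Nat → Nat → Nat → Nat → Nat → Nat → Nat →
  Nat → Nat → Nat → Nat → Nat → Nat → Nat → Nat → Nat → Nat → Nat → Nat → Nat → Nat → Nat → Nat →
  Nat → Nat → Nat → Nat → Nat → Nat → Nat → Nat → Nat → Nat → Nat → Nat → Nat → Nat → Nat → Nat →
  Nat → Nat → Nat → Nat → Nat → Nat → Nat → Nat → Nat → Nat → Nat → Nat → Nat → Nat → Nat → Nat →
  Nat → Nat → Nat → Nat → Nat → Nat → Nat → Nat → Nat → Nat → Nat → Nat → Nat → Nat → Nat → Nat →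
  Nat → Nat → Nat → Nat → Nat → Nat → Nat → Nat → Nat → Nat → Nat → Nat → Nat → Nat → Nat → Nat →
  Nat → Nat → Nat → Nat → Nat → Nat → Nat → Nat → Nat → Nat → Nat → Nat → Nat → Nat → Nat → Nat →
  Nat → Nat → Nat → Nat → Nat → Nat → Nat → Nat → Nat → Nat → Nat → Nat → Nat → Nat → Nat → Nat →
  Nat → Nat → Nat → Nat → Nat → Nat → Nat → Nat → Nat → Nat → Nat → Nat → Nat → Nat → Nat → Nat →
  Nat → Nat → Nat → Nat → Nat → Nat → Nat → Nat → Nat → Nat → Nat → Nat → Nat → Nat → Nat → Nat →
  Nat → Nat → Nat → Nat → Nat → Nat → Nat → Nat → Nat → Nat → Nat → Nat → Nat → Nat → Nat → Nat →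
  Nat → Nat → Nat → Nat → Nat → Nat → Nat → Nat → Nat → Nat → Nat → Nat → Nat → Nat → Nat → Nat →
  Nat → Nat → Nat → Nat → Nat → Nat → Nat → Nat → Nat → Nat → Nat → Nat → Nat → Nat → Nat → Nat →
  Nat → Nat → Nat → Nat → Nat → Nat → Nat → Nat → Nat → Nat → Nat → Nat → Nat → Nat → Nat → Nat →
  Nat → Nat → Nat → Nat → Nat → Nat → Nat → Nat → Nat → Nat → Nat → Nat → Nat → Nat → Nat → Nat →
  Nat → Nat → Nat → Nat → Nat → Nat → Nat → Nat → Nat → Nat → Nat → Nat → Nat → Nat → Nat → Nat →
  Nat → Nat → Nat → Nat → Nat → Nat → Nat → Nat → Nat → Nat → Nat → Nat → Nat → Nat → Nat → Nat →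
  Nat → Nat → Nat → Nat → Nat → Nat → Nat → Nat → Nat → Nat → Nat → Nat → Nat → Nat → Nat → Nat →
  Nat → Nat → Nat → Nat → Nat → Nat → Nat → Nat → Nat → Nat → Nat → Nat → Nat → Nat → Nat → Nat →
  Nat → Nat → Nat → Nat → Nat → Nat → Nat → Nat → Nat → Nat → Nat → Nat → Nat → Nat → Nat → Nat →
  Nat → Nat → Nat → Nat → Nat → Nat → Nat → Nat → Nat → Nat → Nat → Nat → Nat → Nat → Nat → Nat →
  Nat → Nat → Nat → Nat → Nat → Nat → Nat → Nat → Nat → Nat → Nat → Nat → Nat → Nat → Nat → Nat →
  Nat → Nat → Nat → Nat → Nat → Nat → Nat → Nat → Nat → Nat → Nat → Nat → Nat → Nat → Nat → Nat →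
  Nat → Nat → Nat → Nat → Nat → Nat → Nat → Nat → Nat → Nat → Nat → Nat → Nat → Nat → Nat → Nat →
  Nat → Nat → Nat → Nat → Nat → Nat → Nat → Nat → Nat → Nat → Nat → Nat → Nat → Nat → Nat → Nat →
  Nat → Nat → Nat → Nat → Nat → Nat → Nat → Nat → Nat → Nat → Nat → Nat → Nat → Nat → Nat → Nat →
  Nat → Nat → Nat → Nat → Nat → Nat → Nat → Nat → Nat → Nat → Nat → Nat → Nat → Nat → Nat → Nat →
  Nat → Nat → Nat → Nat → Nat → Nat → Nat → Nat → Nat → Nat → Nat → Nat → Nat → Nat → Nat → Nat →
  Nat → Nat → Nat → Nat → Nat → Nat → Nat → Nat → Nat → Nat → Nat → Nat → Nat → Nat → Nat → Nat →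
  Nat → Nat → Nat → Nat → Nat → Nat → Nat → Nat → Nat → Nat → Nat → Nat → Nat → Nat → Nat → Nat →
  Nat → Nat → Nat → Nat → Nat → Nat → Nat → Nat → Nat → Nat → Nat → Nat → Nat → Nat → Nat → Nat →
  Nat → Nat → Nat → Nat → Nat → Nat → Nat → Nat → Nat → Nat → Nat → Nat → Nat → Nat → Nat → Nat →
  Nat → Nat → Nat → Nat → Nat → Nat → Nat → Nat → Nat → Nat → Nat → Nat → Nat → Nat → Nat → Nat →
  Nat → Nat → Nat → Nat → Nat → Nat → Nat → Nat → Nat → Nat → Nat → Nat → Nat → Nat → Nat → Nat →
  Nat → Nat → Nat → Nat → Nat → Nat → Nat → Nat → Nat → Nat → Nat → Nat → Nat → Nat → Nat → Nat →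
  Nat → Nat → Nat → Nat → Nat → Nat → Nat → Nat → Nat → Nat → Nat → Nat → Nat → Nat → Nat → Nat →
  Nat → Nat → Nat → Nat → Nat → Nat → Nat → Nat → Nat → Nat → Nat → Nat → Nat → Nat → Nat → Nat →
  Nat → Nat → Nat → Nat → Nat → Nat → Nat → Nat → Nat → Nat → Nat → Nat → Nat → Nat → Nat → Nat →
  Nat → Nat → Nat → Nat → Nat → Nat → Nat → Nat → Nat → Nat → Nat → Nat → Nat → Nat → Nat → Nat →
  Nat → Nat → Nat → Nat → Nat → Nat → Nat → Nat → Nat → Nat → Nat → Nat → Nat → Nat → Nat → Nat →
  Nat → Nat → Nat → Nat → Nat → Nat → Nat → Nat → Nat → Nat → Nat → Nat → Nat → Nat → Nat → Nat →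
  Nat → Nat → Nat → Nat → Nat → Nat → Nat → Nat → Nat → Nat → Nat → Nat → Nat → Nat → Nat → Nat →
  Nat → Nat → Nat → Nat → Nat → Nat → Nat → Nat → Nat → Nat → Nat → Nat → Nat → Nat → Nat → Nat →
  Nat → Nat → Nat → Nat → Nat → Nat → Nat → Nat → Nat → Nat → Nat → Nat → Nat → Nat → Nat → Nat →
  Nat → Nat → Nat → Nat → Nat → Nat → Nat → Nat → Nat → Nat → Nat → Nat → Nat → Nat → Nat → Nat →
  Nat → Nat → Nat → Nat → Nat → Nat → Nat → Nat → Nat → Nat → Nat → Nat → Nat → Nat → Nat → Nat →
  Nat → Nat → Nat → Nat → Nat → Nat → Nat → Nat → Nat → Nat → Nat → Nat → Nat → Nat → Nat → Nat →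
  Nat → Nat → Nat → Nat → Nat → Nat → Nat → Nat → Nat → Nat → Nat → Nat → Nat → Nat → Nat → Nat →
  Nat → Nat → Nat → Nat → Nat → Nat → Nat → Nat → Nat → Nat → Nat → Nat → Nat → Nat → Nat → Nat →
  Nat → Nat → Nat → Nat → Nat → Nat → Nat → Nat → Nat → Nat → Nat → Nat → Nat → Nat → Nat → Nat →
  Nat → Nat → Nat → Nat → Nat → Nat → Nat → Nat → Nat → Nat → Nat → Nat → Nat → Nat → Nat → Nat →
  Nat → Nat → Nat → Nat → Nat → Nat → Nat → Nat → Nat → Nat → Nat → Nat → Nat → Nat → Nat → Nat →
  Nat → Nat → Nat → Nat → Nat → Nat → Nat → Nat → Nat → Nat → Nat → Nat → Nat → Nat → Nat → Nat →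
  Nat → Nat → Nat → Nat → Nat → Nat → Nat → Nat → Nat → Nat → Nat → Nat → Nat → Nat → Nat → Nat →
  Nat → Nat → Nat → Nat → Nat → Nat → Nat → Nat → Nat → Nat → Nat → Nat → Nat → Nat → Nat → Nat →
  Nat → Nat → Nat → Nat → Nat → Nat → Nat → Nat → Nat → Nat → Nat → Nat → Nat → Nat → Nat → Nat →
  Nat → Nat → Nat → Nat → Nat → Nat → Nat → Nat → Nat → Nat → Nat → Nat → Nat → Nat → Nat → Nat →
  Nat → Nat → Nat → Nat → Nat → Nat → Nat → Nat → Nat → Nat → Nat → Nat → Nat → Nat → Nat → Nat →
  Nat → Nat → Nat → Nat → Nat → Nat → Nat → Nat → Nat → Nat → Nat → Nat → Nat → Nat → Nat → Nat →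
  Nat → Nat → Nat → Nat → Nat → Nat → Nat → Nat → Nat → Nat → Nat → Nat → Nat → Nat → Nat → Nat →
  Nat → Nat → Nat → Nat → Nat → Nat → Nat → Nat → Nat → Nat → Nat → Nat → Nat → Nat → Nat → Nat →
  Nat → Nat → Nat → Nat → Nat → Nat → Nat → Nat → Nat → Nat → Nat → Nat → Nat → Nat → Nat → Nat →
  Nat → Nat → Nat → Nat → Nat → Nat → Nat → Nat → Nat → Nat → Nat → Nat → Nat → Nat → Nat → Nat →
  Nat → Nat → Nat → Nat → Nat → Nat → Nat → Nat → Nat → Nat → Nat → Nat → Nat → Nat → Nat → Nat →
  Nat → Nat → Nat → Nat → Nat → Nat → Nat → Nat → Nat → Nat → Nat → Nat → Nat → Nat → Nat → Nat →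
  Nat → Nat → Nat → Nat → Nat → Nat → Nat → Nat → Nat → Nat → Nat → Nat → Nat → Nat → Nat → Nat →
  Nat → Nat → Nat → Nat → Nat → Nat → Nat → Nat → Nat → Nat → Nat → Nat → Nat → Nat → Nat → Nat →
  Nat → Nat → Nat → Nat → Nat → Nat → Nat → Nat → Nat → Nat → Nat → Nat → Nat → Nat → Nat → Nat →
  Nat → Nat → Nat → Nat → Nat → Nat → Nat → Nat → Nat → Nat → Nat → Nat → Nat → Nat → Nat → Nat →
  Nat → Nat → Nat → Nat → Nat → Nat → Nat → Nat → Nat → Nat → Nat → Nat → Nat → Nat → Nat → Nat →
  Nat → Nat → Nat → Nat → Nat → Nat → Nat → Nat → Nat → Nat → Nat → Nat → Nat → Nat → Nat → Nat →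
  Nat → Nat → Nat → Nat → Nat → Nat → Nat → Nat → Nat → Nat → Nat → Nat → Nat → Nat → Nat → Nat →
  Nat → Nat → Nat → Nat → Nat → Nat → Nat → Nat → Nat → Nat → Nat → Nat → Nat → Nat → Nat → Nat →
  Nat → Nat → Nat → Nat → Nat → Nat → Nat → Nat → Nat → Nat → Nat → Nat → Nat → Nat → Nat → Nat →
  Nat → Nat → Nat → Nat → Nat → Nat → Nat → Nat → Nat → Nat → Nat → Nat → Nat → Nat → Nat → Nat →
  Nat → Nat → Nat → Nat → Nat → Nat → Nat → Nat → Nat → Nat → Nat → Nat → Nat → Nat → Nat → Nat →
  Nat → Nat → Nat → Nat → Nat → Nat → Nat → Nat → Nat → Nat → Nat → Nat → Nat → Nat → Nat → Nat →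
  Nat → Nat → Nat → Nat → Nat → Nat → Nat → Nat → Nat → Nat → Nat → Nat → Nat → Nat → Nat → Nat →
  Nat → Nat → Nat → Nat → Nat → Nat → Nat → Nat → Nat → Nat → Nat → Nat → Nat → Nat → Nat → Nat →
  Nat → Nat → Nat → Nat → Nat → Nat → Nat → Nat → Nat → Nat → Nat → Nat → Nat → Nat → Nat → Nat →
  Nat → Nat → Nat → Nat → Nat → Nat → Nat → Nat → Nat → Nat → Nat → Nat → Nat → Nat → Nat → Nat →
  Nat → Nat → Nat → Nat → Nat → Nat → Nat → Nat → Nat → Nat → Nat → Nat → Nat → Nat → Nat → Nat →
  Nat → Nat → Nat → Nat → Nat → Nat → Nat → Nat → Nat → Nat → Nat → Nat → Nat → Nat → Nat → Nat →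
  Nat → Nat → Nat → Nat → Nat → Nat → Nat → Nat → Nat → Nat → Nat → Nat → Nat → Nat → Nat → Nat →
  Nat → Nat → Nat → Nat → Nat → Nat → Nat → Nat → Nat → Nat → Nat → Nat → Nat → Nat → Nat → Nat →
  Nat → Nat → Nat → Nat → Nat → Nat → Nat → Nat → Nat → Nat → Nat → Nat → Nat → Nat → Nat → Nat →
  Nat → Nat → Nat → Nat → Nat → Nat → Nat → Nat → Bool

noncomputable def base : TT :=
  fun _ _ _ _ _ _ _ _ _ _ _ _ _ _ _ _ _ _ _ _ _ _ _ _ _ _ _ _ _ _ _ _ _ _ _ _ _ _ _ _
  _ _ _ _ _ _ _ _ _ _ _ _ _ _ _ _ _ _ _ _ _ _ _ _ _ _ _ _ _ _ _ _ _ _ _ _ _ _ _ _
  _ _ _ _ _ _ _ _ _ _ _ _ _ _ _ _ _ _ _ _ _ _ _ _ _ _ _ _ _ _ _ _ _ _ _ _ _ _ _ _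
  _ _ _ _ _ _ _ _ _ _ _ _ _ _ _ _ _ _ _ _ _ _ _ _ _ _ _ _ _ _ _ _ _ _ _ _ _ _ _ _
  _ _ _ _ _ _ _ _ _ _ _ _ _ _ _ _ _ _ _ _ _ _ _ _ _ _ _ _ _ _ _ _ _ _ _ _ _ _ _ _
  _ _ _ _ _ _ _ _ _ _ _ _ _ _ _ _ _ _ _ _ _ _ _ _ _ _ _ _ _ _ _ _ _ _ _ _ _ _ _ _
  _ _ _ _ _ _ _ _ _ _ _ _ _ _ _ _ _ _ _ _ _ _ _ _ _ _ _ _ _ _ _ _ _ _ _ _ _ _ _ _
  _ _ _ _ _ _ _ _ _ _ _ _ _ _ _ _ _ _ _ _ _ _ _ _ _ _ _ _ _ _ _ _ _ _ _ _ _ _ _ _
  _ _ _ _ _ _ _ _ _ _ _ _ _ _ _ _ _ _ _ _ _ _ _ _ _ _ _ _ _ _ _ _ _ _ _ _ _ _ _ _
  _ _ _ _ _ _ _ _ _ _ _ _ _ _ _ _ _ _ _ _ _ _ _ _ _ _ _ _ _ _ _ _ _ _ _ _ _ _ _ _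
  _ _ _ _ _ _ _ _ _ _ _ _ _ _ _ _ _ _ _ _ _ _ _ _ _ _ _ _ _ _ _ _ _ _ _ _ _ _ _ _
  _ _ _ _ _ _ _ _ _ _ _ _ _ _ _ _ _ _ _ _ _ _ _ _ _ _ _ _ _ _ _ _ _ _ _ _ _ _ _ _
  _ _ _ _ _ _ _ _ _ _ _ _ _ _ _ _ _ _ _ _ _ _ _ _ _ _ _ _ _ _ _ _ _ _ _ _ _ _ _ _
  _ _ _ _ _ _ _ _ _ _ _ _ _ _ _ _ _ _ _ _ _ _ _ _ _ _ _ _ _ _ _ _ _ _ _ _ _ _ _ _
  _ _ _ _ _ _ _ _ _ _ _ _ _ _ _ _ _ _ _ _ _ _ _ _ _ _ _ _ _ _ _ _ _ _ _ _ _ _ _ _
  _ _ _ _ _ _ _ _ _ _ _ _ _ _ _ _ _ _ _ _ _ _ _ _ _ _ _ _ _ _ _ _ _ _ _ _ _ _ _ _
  _ _ _ _ _ _ _ _ _ _ _ _ _ _ _ _ _ _ _ _ _ _ _ _ _ _ _ _ _ _ _ _ _ _ _ _ _ _ _ _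
  _ _ _ _ _ _ _ _ _ _ _ _ _ _ _ _ _ _ _ _ _ _ _ _ _ _ _ _ _ _ _ _ _ _ _ _ _ _ _ _
  _ _ _ _ _ _ _ _ _ _ _ _ _ _ _ _ _ _ _ _ _ _ _ _ _ _ _ _ _ _ _ _ _ _ _ _ _ _ _ _
  _ _ _ _ _ _ _ _ _ _ _ _ _ _ _ _ _ _ _ _ _ _ _ _ _ _ _ _ _ _ _ _ _ _ _ _ _ _ _ _
  _ _ _ _ _ _ _ _ _ _ _ _ _ _ _ _ _ _ _ _ _ _ _ _ _ _ _ _ _ _ _ _ _ _ _ _ _ _ _ _
  _ _ _ _ _ _ _ _ _ _ _ _ _ _ _ _ _ _ _ _ _ _ _ _ _ _ _ _ _ _ _ _ _ _ _ _ _ _ _ _
  _ _ _ _ _ _ _ _ _ _ _ _ _ _ _ _ _ _ _ _ _ _ _ _ _ _ _ _ _ _ _ _ _ _ _ _ _ _ _ _
  _ _ _ _ _ _ _ _ _ _ _ _ _ _ _ _ _ _ _ _ _ _ _ _ _ _ _ _ _ _ _ _ _ _ _ _ _ _ _ _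
  _ _ _ _ _ _ _ _ _ _ _ _ _ _ _ _ _ _ _ _ _ _ _ _ _ _ _ _ _ _ _ _ _ _ _ _ _ _ _ _
  _ _ _ _ _ _ _ _ _ _ _ _ _ _ _ _ _ _ _ _ _ _ _ _ _ _ _ _ _ _ _ _ _ _ _ _ _ _ _ _
  _ _ _ _ _ _ _ _ _ _ _ _ _ _ _ _ _ _ _ _ _ _ _ _ _ _ _ _ _ _ _ _ _ _ _ _ _ _ _ _
  _ _ _ _ _ _ _ _ _ _ _ _ _ _ _ _ _ _ _ _ _ _ _ _ _ _ _ _ _ _ _ _ _ _ _ _ _ _ _ _
  _ _ _ _ _ _ _ _ _ _ _ _ _ _ _ _ _ _ _ _ _ _ _ _ _ _ _ _ _ _ _ _ _ _ _ _ _ _ _ _
  _ _ _ _ _ _ _ _ _ _ _ _ _ _ _ _ _ _ _ _ _ _ _ _ _ _ _ _ _ _ _ _ _ _ _ _ _ _ _ _
  _ _ _ _ _ _ _ _ _ _ _ _ _ _ _ _ _ _ _ _ _ _ _ _ _ _ _ _ _ _ _ _ _ _ _ _ _ _ _ _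
  _ _ _ _ _ _ _ _ _ _ _ _ _ _ _ _ _ _ _ _ _ _ _ _ _ _ _ _ _ _ _ _ _ _ _ _ _ _ _ _
  _ _ _ _ _ _ _ _ _ _ _ _ _ _ _ _ _ _ _ _ _ _ _ _ _ _ _ _ _ _ _ _ _ _ _ _ _ _ _ _
  _ _ _ _ _ _ _ _ _ _ _ _ _ _ _ _ _ _ _ _ _ _ _ _ _ _ _ _ _ _ _ _ _ _ _ _ _ _ _ _
  _ _ _ _ _ _ _ _ _ _ _ _ _ _ _ _ _ _ _ _ _ _ _ _ _ _ _ _ _ _ _ _ _ _ _ _ _ _ _ _
  _ _ _ _ _ _ _ _ _ _ _ _ _ _ _ _ _ _ _ _ _ _ _ _ _ _ _ _ _ _ _ _ _ _ _ _ _ _ _ _
  _ _ _ _ _ _ _ _ _ _ _ _ _ _ _ _ _ _ _ _ _ _ _ _ _ _ _ _ _ _ _ _ _ _ _ _ _ _ _ _
  _ _ _ _ _ _ _ _ _ _ _ _ _ _ _ _ _ _ _ _ _ _ _ _ _ _ _ _ _ _ _ _ _ _ _ _ _ _ _ _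
  _ _ _ _ _ _ _ _ _ _ _ _ _ _ _ _ _ _ _ _ _ _ _ _ _ _ _ _ _ _ _ _ _ _ _ _ _ _ _ _
  _ _ _ _ _ _ _ _ _ _ _ _ _ _ _ _ _ _ _ _ _ _ _ _ _ _ _ _ _ _ _ _ _ _ _ _ _ _ _ _
  _ _ _ _ _ _ _ _ _ _ _ _ _ _ _ _ _ _ _ _ _ _ _ _ _ _ _ _ _ _ _ _ _ _ _ _ _ _ _ _
  _ _ _ _ _ _ _ _ _ _ _ _ _ _ _ _ _ _ _ _ _ _ _ _ _ _ _ _ _ _ _ _ _ _ _ _ _ _ _ _
  _ _ _ _ _ _ _ _ _ _ _ _ _ _ _ _ _ _ _ _ _ _ _ _ _ _ _ _ _ _ _ _ _ _ _ _ _ _ _ _
  _ _ _ _ _ _ _ _ _ _ _ _ _ _ _ _ _ _ _ _ _ _ _ _ _ _ _ _ _ _ _ _ _ _ _ _ _ _ _ _
  _ _ _ _ _ _ _ _ _ _ _ _ _ _ _ _ _ _ _ _ _ _ _ _ _ _ _ _ _ _ _ _ _ _ _ _ _ _ _ _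
  _ _ _ _ _ _ _ _ _ _ _ _ _ _ _ _ _ _ _ _ _ _ _ _ _ _ _ _ _ _ _ _ _ _ _ _ _ _ _ _
  _ _ _ _ _ _ _ _ _ _ _ _ _ _ _ _ _ _ _ _ _ _ _ _ _ _ _ _ _ _ _ _ _ _ _ _ _ _ _ _
  _ _ _ _ _ _ _ _ _ _ _ _ _ _ _ _ _ _ _ _ _ _ _ _ _ _ _ _ _ _ _ _ _ _ _ _ _ _ _ _
  _ _ _ _ _ _ _ _ _ _ _ _ _ _ _ _ _ _ _ _ _ _ _ _ _ _ _ _ _ _ _ _ _ _ _ _ _ _ _ _
  _ _ _ _ _ _ _ _ _ _ _ _ _ _ _ _ _ _ _ _ _ _ _ _ _ _ _ _ _ _ _ _ _ _ _ _ _ _ _ _
  _ _ _ _ _ _ _ _ _ _ _ _ _ _ _ _ _ _ _ _ _ _ _ _ _ _ _ _ _ _ _ _ _ _ _ _ _ _ _ _
  _ _ _ _ _ _ _ _ _ _ _ _ _ _ _ _ _ _ _ _ _ _ _ _ _ _ _ _ _ _ _ _ _ _ _ _ _ _ _ _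
  _ _ _ _ _ _ _ _ _ _ _ _ _ _ _ _ _ _ _ _ _ _ _ _ _ _ _ _ _ _ _ _ _ _ _ _ _ _ _ _
  _ _ _ _ _ _ _ _ _ _ _ _ _ _ _ _ _ _ _ _ _ _ _ _ _ _ _ _ _ _ _ _ _ _ _ _ _ _ _ _
  _ _ _ _ _ _ _ _ _ _ _ _ _ _ _ _ _ _ _ _ _ _ _ _ _ _ _ _ _ _ _ _ _ _ _ _ _ _ _ _
  _ _ _ _ _ _ _ _ _ _ _ _ _ _ _ _ _ _ _ _ _ _ _ _ _ _ _ _ _ _ _ _ _ _ _ _ _ _ _ _
  _ _ _ _ _ _ _ _ _ _ _ _ _ _ _ _ _ _ _ _ _ _ _ _ _ _ _ _ _ _ _ _ _ _ _ _ _ _ _ _
  _ _ _ _ _ _ _ _ _ _ _ _ _ _ _ _ _ _ _ _ _ _ _ _ _ _ _ _ _ _ _ _ _ _ _ _ _ _ _ _
  _ _ _ _ _ _ _ _ _ _ _ _ _ _ _ _ _ _ _ _ _ _ _ _ _ _ _ _ _ _ _ _ _ _ _ _ _ _ _ _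
  _ _ _ _ _ _ _ _ _ _ _ _ _ _ _ _ _ _ _ _ _ _ _ _ _ _ _ _ _ _ _ _ _ _ _ _ _ _ _ _
  _ _ _ _ _ _ _ _ _ _ _ _ _ _ _ _ _ _ _ _ _ _ _ _ _ _ _ _ _ _ _ _ _ _ _ _ _ _ _ _
  _ _ _ _ _ _ _ _ _ _ _ _ _ _ _ _ _ _ _ _ _ _ _ _ _ _ _ _ _ _ _ _ _ _ _ _ _ _ _ _
  _ _ _ _ _ _ _ _ _ _ _ _ _ _ _ _ _ _ _ _ _ _ _ _ _ _ _ _ _ _ _ _ _ _ _ _ _ _ _ _
  _ _ _ _ _ _ _ _ _ _ _ _ _ _ _ _ _ _ _ _ _ _ _ _ _ _ _ _ _ _ _ _ _ _ _ _ _ _ _ _
  _ _ _ _ _ _ _ _ _ _ _ _ _ _ _ _ _ _ _ _ _ _ _ _ _ _ _ _ _ _ _ _ _ _ _ _ _ _ _ _
  _ _ _ _ _ _ _ _ _ _ _ _ _ _ _ _ _ _ _ _ _ _ _ _ _ _ _ _ _ _ _ _ _ _ _ _ _ _ _ _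
  _ _ _ _ _ _ _ _ _ _ _ _ _ _ _ _ _ _ _ _ _ _ _ _ _ _ _ _ _ _ _ _ _ _ _ _ _ _ _ _
  _ _ _ _ _ _ _ _ _ _ _ _ _ _ _ _ _ _ _ _ _ _ _ _ _ _ _ _ _ _ _ _ _ _ _ _ _ _ _ _
  _ _ _ _ _ _ _ _ _ _ _ _ _ _ _ _ _ _ _ _ _ _ _ _ _ _ _ _ _ _ _ _ _ _ _ _ _ _ _ _
  _ _ _ _ _ _ _ _ _ _ _ _ _ _ _ _ _ _ _ _ _ _ _ _ _ _ _ _ _ _ _ _ _ _ _ _ _ _ _ _
  _ _ _ _ _ _ _ _ _ _ _ _ _ _ _ _ _ _ _ _ _ _ _ _ _ _ _ _ _ _ _ _ _ _ _ _ _ _ _ _
  _ _ _ _ _ _ _ _ _ _ _ _ _ _ _ _ _ _ _ _ _ _ _ _ _ _ _ _ _ _ _ _ _ _ _ _ _ _ _ _
  _ _ _ _ _ _ _ _ _ _ _ _ _ _ _ _ _ _ _ _ _ _ _ _ _ _ _ _ _ _ _ _ _ _ _ _ _ _ _ _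
  _ _ _ _ _ _ _ _ _ _ _ _ _ _ _ _ _ _ _ _ _ _ _ _ _ _ _ _ _ _ _ _ _ _ _ _ _ _ _ _
  _ _ _ _ _ _ _ _ _ _ _ _ _ _ _ _ _ _ _ _ _ _ _ _ _ _ _ _ _ _ _ _ _ _ _ _ _ _ _ _
  _ _ _ _ _ _ _ _ _ _ _ _ _ _ _ _ _ _ _ _ _ _ _ _ _ _ _ _ _ _ _ _ _ _ _ _ _ _ _ _
  _ _ _ _ _ _ _ _ _ _ _ _ _ _ _ _ _ _ _ _ _ _ _ _ _ _ _ _ _ _ _ _ _ _ _ _ _ _ _ _
  _ _ _ _ _ _ _ _ _ _ _ _ _ _ _ _ _ _ _ _ _ _ _ _ _ _ _ _ _ _ _ _ _ _ _ _ _ _ _ _
  _ _ _ _ _ _ _ _ _ _ _ _ _ _ _ _ _ _ _ _ _ _ _ _ _ _ _ _ _ _ _ _ _ _ _ _ _ _ _ _
  _ _ _ _ _ _ _ _ _ _ _ _ _ _ _ _ _ _ _ _ _ _ _ _ _ _ _ _ _ _ _ _ _ _ _ _ _ _ _ _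
  _ _ _ _ _ _ _ _ _ _ _ _ _ _ _ _ _ _ _ _ _ _ _ _ _ _ _ _ _ _ _ _ _ _ _ _ _ _ _ _
  _ _ _ _ _ _ _ _ _ _ _ _ _ _ _ _ _ _ _ _ _ _ _ _ _ _ _ _ _ _ _ _ _ _ _ _ _ _ _ _
  _ _ _ _ _ _ _ _ _ _ _ _ _ _ _ _ _ _ _ _ _ _ _ _ _ _ _ _ _ _ _ _ _ _ _ _ _ _ _ _
  _ _ _ _ _ _ _ _ _ _ _ _ _ _ _ _ _ _ _ _ _ _ _ _ _ _ _ _ _ _ _ _ _ _ _ _ _ _ _ _
  _ _ _ _ _ _ _ _ _ _ _ _ _ _ _ _ _ _ _ _ _ _ _ _ _ _ _ _ _ _ _ _ _ _ _ _ _ _ _ _
  _ _ _ _ _ _ _ _ _ _ _ _ _ _ _ _ _ _ _ _ _ _ _ _ _ _ _ _ _ _ _ _ _ _ _ _ _ _ _ _
  _ _ _ _ _ _ _ _ _ _ _ _ _ _ _ _ _ _ _ _ _ _ _ _ _ _ _ _ _ _ _ _ _ _ _ _ _ _ _ _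
  _ _ _ _ _ _ _ _ _ _ _ _ _ _ _ _ _ _ _ _ _ _ _ _ _ _ _ _ _ _ _ _ _ _ _ _ _ _ _ _
  _ _ _ _ _ _ _ _ _ _ _ _ _ _ _ _ _ _ _ _ _ _ _ _ _ _ _ _ _ _ _ _ _ _ _ _ _ _ _ _
  _ _ _ _ _ _ _ _ _ _ _ _ _ _ _ _ _ _ _ _ _ _ _ _ _ _ _ _ _ _ _ _ _ _ _ _ _ _ _ _
  _ _ _ _ _ _ _ _ _ _ _ _ _ _ _ _ _ _ _ _ _ _ _ _ _ _ _ _ _ _ _ _ _ _ _ _ _ _ _ _
  _ _ _ _ _ _ _ _ _ _ _ _ _ _ _ _ _ _ _ _ _ _ _ _ _ _ _ _ _ _ _ _ _ _ _ _ _ _ _ _
  _ _ _ _ _ _ _ _ _ _ _ _ _ _ _ _ _ _ _ _ _ _ _ _ _ _ _ _ _ _ _ _ _ _ _ _ _ _ _ _
  _ _ _ _ _ _ _ _ _ _ _ _ _ _ _ _ _ _ _ _ _ _ _ _ _ _ _ _ _ _ _ _ _ _ _ _ _ _ _ _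
  _ _ _ _ _ _ _ _ _ _ _ _ _ _ _ _ _ _ _ _ _ _ _ _ _ _ _ _ _ _ _ _ _ _ _ _ _ _ _ _
  _ _ _ _ _ _ _ _ _ _ _ _ _ _ _ _ _ _ _ _ _ _ _ _ _ _ _ _ _ _ _ _ _ _ _ _ _ _ _ _
  _ _ _ _ _ _ _ _ _ _ _ _ _ _ _ _ _ _ _ _ _ _ _ _ _ _ _ _ _ _ _ _ _ _ _ _ _ _ _ _
  _ _ _ _ _ _ _ _ _ _ _ _ _ _ _ _ _ _ _ _ _ _ _ _ _ _ _ _ _ _ _ _ _ _ _ _ _ _ _ _
  _ _ _ _ _ _ _ _ _ _ _ _ _ _ _ _ _ _ _ _ _ _ _ _ _ _ _ _ _ _ _ _ _ _ _ _ _ _ _ _
  _ _ _ _ _ _ _ _ _ _ _ _ _ _ _ _ _ _ _ _ _ _ _ _ _ _ _ _ _ _ _ _ _ _ _ _ _ _ _ _
  _ _ _ _ _ _ _ _ _ _ _ _ _ _ _ _ _ _ _ _ _ _ _ _ _ _ _ _ _ _ _ _ _ _ _ _ _ _ _ _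
  _ _ _ _ _ _ _ _ _ _ _ _ _ _ _ _ _ _ _ _ _ _ _ _ _ _ _ _ _ _ _ _ _ _ _ _ _ _ _ _
  _ _ _ _ _ _ _ _ _ _ _ _ _ _ _ _ _ _ _ _ _ _ _ _ _ _ _ _ _ _ _ _ _ _ _ _ _ _ _ _
  _ _ _ _ _ _ _ _ _ _ _ _ _ _ _ _ _ _ _ _ _ _ _ _ _ _ _ _ _ _ _ _ _ _ _ _ _ _ _ _
  _ _ _ _ _ _ _ _ _ _ _ _ _ _ _ _ _ _ _ _ _ _ _ _ _ _ _ _ _ _ _ _ _ _ _ _ _ _ _ _
  _ _ _ _ _ _ _ _ _ _ _ _ _ _ _ _ _ _ _ _ _ _ _ _ _ _ _ _ _ _ _ _ _ _ _ _ _ _ _ _
  _ _ _ _ _ _ _ _ _ _ _ _ _ _ _ _ _ _ _ _ _ _ _ _ _ _ _ _ _ _ _ _ _ _ _ _ _ _ _ _
  _ _ _ _ _ _ _ _ _ _ _ _ _ _ _ _ _ _ _ _ _ _ _ _ _ _ _ _ _ _ _ _ _ _ _ _ _ _ _ _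
  _ _ _ _ _ _ _ _ _ _ _ _ _ _ _ _ _ _ _ _ _ _ _ _ _ _ _ _ _ _ _ _ _ _ _ _ _ _ _ _
  _ _ _ _ _ _ _ _ _ _ _ _ _ _ _ _ _ _ _ _ _ _ _ _ _ _ _ _ _ _ _ _ _ _ _ _ _ _ _ _
  _ _ _ _ _ _ _ _ _ _ _ _ _ _ _ _ _ _ _ _ _ _ _ _ _ _ _ _ _ _ _ _ _ _ _ _ _ _ _ _
  _ _ _ _ _ _ _ _ _ _ _ _ _ _ _ _ _ _ _ _ _ _ _ _ _ _ _ _ _ _ _ _ _ _ _ _ _ _ _ _
  _ _ _ _ _ _ _ _ _ _ _ _ _ _ _ _ _ _ _ _ _ _ _ _ _ _ _ _ _ _ _ _ _ _ _ _ _ _ _ _
  _ _ _ _ _ _ _ _ _ _ _ _ _ _ _ _ _ _ _ _ _ _ _ _ _ _ _ _ _ _ _ _ _ _ _ _ _ _ _ _
  _ _ _ _ _ _ _ _ _ _ _ _ _ _ _ _ _ _ _ _ _ _ _ _ _ _ _ _ _ _ _ _ _ _ _ _ _ _ _ _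
  _ _ _ _ _ _ _ _ _ _ _ _ _ _ _ _ _ _ _ _ _ _ _ _ _ _ _ _ _ _ _ _ _ _ _ _ _ _ _ _
  _ _ _ _ _ _ _ _ _ _ _ _ _ _ _ _ _ _ _ _ _ _ _ _ _ _ _ _ _ _ _ _ _ _ _ _ _ _ _ _
  _ _ _ _ _ _ _ _ _ _ _ _ _ _ _ _ _ _ _ _ _ _ _ _ _ _ _ _ _ _ _ _ _ _ _ _ _ _ _ _
  _ _ _ _ _ _ _ _ _ _ _ _ _ _ _ _ _ _ _ _ _ _ _ _ _ _ _ _ _ _ _ _ _ _ _ _ _ _ _ _
  _ _ _ _ _ _ _ _ _ _ _ _ _ _ _ _ _ _ _ _ _ _ _ _ _ _ _ _ _ _ _ _ _ _ _ _ _ _ _ _
  _ _ _ _ _ _ _ _ _ _ _ _ _ _ _ _ _ _ _ _ _ _ _ _ _ _ _ _ _ _ _ _ _ _ _ _ _ _ _ _
  _ _ _ _ _ _ _ _ _ _ _ _ _ _ _ _ _ _ _ _ _ _ _ _ _ _ _ _ _ _ _ _ _ _ _ _ _ _ _ _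
  _ _ _ _ _ _ _ _ _ _ _ _ _ _ _ _ _ _ _ _ _ _ _ _ _ _ _ _ _ _ _ _ _ _ _ _ _ _ _ _ => true

noncomputable def G (chk : List Nat → Bool) (C : Nat) (k : TT) : TT :=
  fun x5 x7 x11 x15 x19 x21 x29 x33 x41 x43 x45 x49 x53 x55 x57 x63
  x67 x71 x77 x79 x83 x87 x95 x97 x99 x103 x107 x113 x115 x119 x123 x127
  x129 x135 x139 x143 x145 x147 x155 x159 x163 x165 x171 x175 x179 x185 x187 x189
  x193 x197 x199 x201 x209 x213 x221 x223 x227 x231 x235 x237 x245 x249 x257 x259
  x261 x265 x269 x275 x277 x281 x285 x289 x291 x297 x301 x305 x307 x309 x317 x321
  x329 x331 x335 x339 x343 x345 x353 x357 x365 x367 x369 x373 x377 x379 x381 x387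
  x391 x395 x401 x403 x405 x409 x413 x415 x417 x425 x429 x433 x435 x441 x445 x449
  x455 x457 x461 x465 x473 x475 x477 x481 x485 x487 x489 x495 x499 x503 x509 x511
  x513 x517 x521 x523 x525 x533 x537 x545 x547 x551 x555 x559 x561 x567 x571 x575
  x577 x579 x587 x591 x595 x597 x603 x607 x611 x617 x619 x623 x627 x635 x637 x639
  x643 x647 x653 x655 x659 x663 x667 x669 x677 x681 x689 x691 x693 x697 x701 x703
  x705 x711 x715 x719 x725 x727 x731 x735 x743 x745 x747 x751 x755 x761 x763 x767
  x771 x775 x777 x783 x787 x791 x793 x795 x803 x807 x815 x817 x821 x825 x829 x831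
  x839 x843 x851 x853 x855 x859 x863 x865 x867 x873 x877 x881 x887 x889 x891 x895
  x899 x901 x903 x911 x915 x919 x921 x927 x931 x935 x941 x943 x947 x951 x959 x961
  x963 x967 x971 x977 x979 x983 x987 x991 x993 x1001 x1005 x1013 x1015 x1017 x1021 x1025
  x1027 x1029 x1035 x1039 x1043 x1049 x1051 x1055 x1059 x1067 x1069 x1071 x1075 x1079 x1085 x1087
  x1091 x1095 x1099 x1101 x1107 x1111 x1115 x1117 x1119 x1127 x1131 x1135 x1137 x1143 x1147 x1151
  x1157 x1159 x1161 x1165 x1169 x1171 x1173 x1181 x1185 x1193 x1195 x1199 x1203 x1207 x1209 x1215
  x1219 x1223 x1225 x1227 x1235 x1239 x1243 x1245 x1251 x1255 x1259 x1265 x1267 x1271 x1275 x1283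
  x1285 x1287 x1291 x1295 x1297 x1299 x1305 x1309 x1313 x1319 x1321 x1323 x1327 x1331 x1333 x1335
  x1343 x1347 x1355 x1357 x1361 x1365 x1369 x1371 x1379 x1383 x1391 x1393 x1395 x1399 x1403 x1409
  x1411 x1415 x1419 x1423 x1425 x1431 x1435 x1439 x1441 x1443 x1451 x1455 x1459 x1461 x1467 x1471
  x1475 x1481 x1483 x1485 x1489 x1493 x1495 x1497 x1505 x1509 x1517 x1519 x1523 x1527 x1531 x1533
  x1539 x1543 x1547 x1549 x1551 x1559 x1563 x1567 x1569 x1575 x1579 x1583 x1589 x1591 x1595 x1599
  x1607 x1609 x1611 x1615 x1619 x1625 x1627 x1631 x1635 x1639 x1641 x1649 x1653 x1661 x1663 x1665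
  x1669 x1673 x1675 x1677 x1683 x1687 x1691 x1697 x1699 x1701 x1705 x1709 x1711 x1713 x1721 x1725
  x1729 x1731 x1737 x1741 x1745 x1751 x1753 x1757 x1761 x1769 x1771 x1773 x1777 x1781 x1783 x1785
  x1791 x1795 x1799 x1805 x1807 x1809 x1813 x1817 x1819 x1821 x1829 x1833 x1841 x1843 x1847 x1851
  x1855 x1857 x1865 x1869 x1877 x1879 x1881 x1885 x1889 x1895 x1897 x1901 x1905 x1909 x1911 x1917
  x1921 x1925 x1927 x1929 x1937 x1941 x1949 x1951 x1955 x1959 x1963 x1965 x1973 x1977 x1985 x1987
  x1989 x1993 x1997 x1999 x2001 x2007 x2011 x2015 x2021 x2023 x2027 x2031 x2039 x2041 x2043 x2047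
  x2051 x2057 x2059 x2063 x2067 x2071 x2073 x2079 x2083 x2087 x2089 x2091 x2099 x2103 x2107 x2109
  x2115 x2119 x2123 x2129 x2131 x2133 x2137 x2141 x2143 x2145 x2153 x2157 x2165 x2167 x2171 x2175
  x2179 x2181 x2189 x2193 x2201 x2203 x2205 x2209 x2213 x2219 x2221 x2225 x2229 x2233 x2235 x2241
  x2245 x2249 x2251 x2253 x2261 x2265 x2273 x2275 x2279 x2283 x2287 x2289 x2297 x2301 x2309 x2311
  x2313 x2317 x2321 x2323 x2325 x2331 x2335 x2339 x2345 x2347 x2349 x2353 x2357 x2359 x2361 x2369
  x2373 x2377 x2379 x2385 x2389 x2393 x2399 x2401 x2405 x2409 x2417 x2419 x2421 x2425 x2429 x2435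
  x2437 x2441 x2445 x2449 x2451 x2459 x2463 x2471 x2473 x2475 x2479 x2483 x2485 x2487 x2493 x2497
  x2501 x2507 x2509 x2513 x2517 x2525 x2527 x2529 x2533 x2537 x2543 x2545 x2549 x2553 x2557 x2559
  x2565 x2569 x2573 x2575 x2577 x2585 x2589 x2593 x2595 x2601 x2605 x2609 x2615 x2617 x2619 x2623
  x2627 x2629 x2631 x2639 x2643 x2651 x2653 x2657 x2661 x2665 x2667 x2673 x2677 x2681 x2683 x2685
  x2693 x2697 x2701 x2703 x2709 x2713 x2717 x2723 x2725 x2729 x2733 x2741 x2743 x2745 x2749 x2753
  x2755 x2757 x2763 x2767 x2771 x2777 x2779 x2781 x2785 x2789 x2791 x2793 x2801 x2805 x2813 x2815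
  x2819 x2823 x2827 x2829 x2837 x2841 x2849 x2851 x2853 x2857 x2861 x2867 x2869 x2873 x2877 x2881
  x2883 x2889 x2893 x2897 x2899 x2901 x2909 x2913 x2921 x2923 x2927 x2931 x2935 x2937 x2945 x2949
  x2957 x2959 x2961 x2965 x2969 x2971 x2973 x2979 x2983 x2987 x2993 x2995 x2999 x3003 x3011 x3013
  x3015 x3019 x3023 x3029 x3031 x3035 x3039 x3043 x3045 x3051 x3055 x3059 x3061 x3063 x3071 x3075
  x3079 x3081 x3087 x3091 x3095 x3101 x3103 x3105 x3109 x3113 x3115 x3117 x3125 x3129 x3137 x3139
  x3143 x3147 x3151 x3153 x3161 x3165 x3173 x3175 x3177 x3181 x3185 x3191 x3193 x3197 x3201 x3205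
  x3207 x3213 x3217 x3221 x3223 x3225 x3233 x3237 x3245 x3247 x3251 x3255 x3259 x3261 x3269 x3273
  x3281 x3283 x3285 x3289 x3293 x3295 x3297 x3303 x3307 x3311 x3317 x3319 x3321 x3325 x3329 x3331
  x3333 x3341 x3345 x3349 x3351 x3357 x3361 x3365 x3371 x3373 x3377 x3381 x3389 x3391 x3393 x3397
  x3401 x3403 x3405 x3411 x3415 x3419 x3425 x3427 x3429 x3433 x3437 x3439 x3441 x3449 x3453 x3461
  x3463 x3467 x3471 x3475 x3477 x3483 x3487 x3491 x3493 x3495 x3503 x3507 x3511 x3513 x3519 x3523
  x3527 x3533 x3535 x3539 x3543 x3551 x3553 x3555 x3559 x3563 x3569 x3571 x3575 x3579 x3583 x3585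
  x3593 x3597 x3605 x3607 x3609 x3613 x3617 x3619 x3621 x3627 x3631 x3635 x3641 x3643 x3645 x3649
  x3653 x3655 x3657 x3665 x3669 x3673 x3675 x3681 x3685 x3689 x3695 x3697 x3701 x3705 x3713 x3715
  x3717 x3721 x3725 x3727 x3729 x3735 x3739 x3743 x3749 x3751 x3753 x3757 x3761 x3763 x3765 x3773
  x3777 x3785 x3787 x3791 x3795 x3799 x3801 x3809 x3813 x3821 x3823 x3825 x3829 x3833 x3839 x3841
  x3845 x3849 x3853 x3855 x3861 x3865 x3869 x3871 x3873 x3881 x3885 x3889 x3891 x3897 x3901 x3905
  x3911 x3913 x3915 x3919 x3923 x3925 x3927 x3935 x3939 x3947 x3949 x3953 x3957 x3961 x3963 x3969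
  x3973 x3977 x3979 x3981 x3989 x3993 x3997 x3999 x4005 x4009 x4013 x4019 x4021 x4025 x4029 x4037
  x4039 x4041 x4045 x4049 x4055 x4057 x4061 x4065 x4069 x4071 x4079 x4083 x4091 x4093 x4095 x4099
  x4103 x4105 x4107 x4113 x4117 x4121 x4127 x4129 x4133 x4137 x4145 x4147 x4149 x4153 x4157 x4163
  x4165 x4169 x4173 x4177 x4179 x4185 x4189 x4193 x4195 x4197 x4205 x4209 x4217 x4219 x4223 x4227
  x4231 x4233 x4241 x4245 x4253 x4255 x4257 x4261 x4265 x4267 x4269 x4275 x4279 x4283 x4289 x4291
  x4293 x4297 x4301 x4303 x4305 x4313 x4317 x4321 x4323 x4329 x4333 x4337 x4343 x4345 x4349 x4353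
  x4361 x4363 x4365 x4369 x4373 x4375 x4377 x4383 x4387 x4391 x4397 x4399 x4401 x4405 x4409 x4411
  x4413 x4421 x4425 x4433 x4435 x4439 x4443 x4447 x4449 x4455 x4459 x4463 x4465 x4467 x4475 x4479
  x4483 x4485 x4491 x4495 x4499 x4505 x4507 x4511 x4515 x4523 x4525 x4527 x4531 x4535 x4541 x4543
  x4547 x4551 x4555 x4557 x4565 x4569 x4577 x4579 x4581 x4585 x4589 x4591 x4593 x4599 x4603 x4607
  x4613 x4615 x4617 x4621 x4625 x4627 x4629 x4637 x4641 x4645 x4647 x4653 x4657 x4661 x4667 x4669
  x4673 x4677 x4685 x4687 x4689 x4693 x4697 x4699 x4701 x4707 x4711 x4715 x4721 x4723 x4725 x4729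
  x4733 x4735 x4737 x4745 x4749 x4757 x4759 x4763 x4767 x4771 x4773 x4781 x4785 x4793 x4795 x4797
  x4801 x4805 x4811 x4813 x4817 x4821 x4825 x4827 x4833 x4837 x4841 x4843 x4845 x4853 x4857 x4865
  x4867 x4871 x4875 x4879 x4881 x4889 x4893 x4901 x4903 x4905 x4909 x4913 x4915 x4917 x4923 x4927
  x4931 x4937 x4939 x4943 x4947 x4955 x4957 x4959 x4963 x4967 x4973 x4975 x4979 x4983 x4987 x4989
  x4995 x4999 x5003 x5005 x5007 x5015 x5019 x5023 x5025 x5031 x5035 x5039 x5045 x5047 x5049 x5053
  x5057 x5059 x5061 x5069 x5073 x5081 x5083 x5087 x5091 x5095 x5097 x5103 x5107 x5111 x5113 x5115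
  x5123 x5127 x5131 x5133 x5139 x5143 x5147 x5153 x5155 x5159 x5163 x5171 x5173 x5175 x5179 x5183
  x5185 x5187 x5193 x5197 x5201 x5207 x5209 x5211 x5215 x5219 x5221 x5223 x5231 x5235 x5243 x5245
  x5249 x5253 x5257 x5259 x5267 x5271 x5279 x5281 x5283 x5287 x5291 x5297 x5299 x5303 x5307 x5311
  x5313 x5319 x5323 x5327 x5329 x5331 x5339 x5343 x5347 x5349 x5355 x5359 x5363 x5369 x5371 x5373
  x5377 x5381 x5383 x5385 x5393 x5397 x5405 x5407 x5411 x5415 x5419 x5421 x5427 x5431 x5435 x5437
  x5439 x5447 x5451 x5455 x5457 x5463 x5467 x5471 x5477 x5479 x5483 x5487 x5495 x5497 x5499 x5503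
  x5507 x5513 x5515 x5519 x5523 x5527 x5529 x5537 x5541 x5549 x5551 x5553 x5557 x5561 x5563 x5565
  x5571 x5575 x5579 x5585 x5587 x5591 x5595 x5603 x5605 x5607 x5611 x5615 x5621 x5623 x5627 x5631
  x5635 x5637 x5643 x5647 x5651 x5653 x5655 x5663 x5667 x5675 x5677 x5681 x5685 x5689 x5691 x5699
  x5703 x5711 x5713 x5715 x5719 x5723 x5725 x5727 x5733 x5737 x5741 x5747 x5749 x5751 x5755 x5759
  x5761 x5763 x5771 x5775 x5779 x5781 x5787 x5791 x5795 x5801 x5803 x5807 x5811 x5819 x5821 x5823
  x5827 x5831 x5837 x5839 x5843 x5847 x5851 x5853 x5861 x5865 x5873 x5875 x5877 x5881 x5885 x5887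
  x5889 x5895 x5899 x5903 x5909 x5911 x5915 x5919 x5927 x5929 x5931 x5935 x5939 x5945 x5947 x5951
  x5955 x5959 x5961 x5967 x5971 x5975 x5977 x5979 x5987 x5991 x5995 x5997 x6003 x6007 x6011 x6017
  x6019 x6021 x6025 x6029 x6031 x6033 x6041 x6045 x6053 x6055 x6059 x6063 x6067 x6069 x6077 x6081
  x6089 x6091 x6093 x6097 x6101 x6107 x6109 x6113 x6117 x6121 x6123 x6129 x6133 x6137 x6139 x6141
  x6149 x6153 x6161 x6163 x6167 x6171 x6175 x6177 x6185 x6189 x6197 x6199 x6201 x6205 x6209 x6211
  x6213 x6219 x6223 x6227 x6233 x6235 x6237 x6241 x6245 x6247 x6249 x6257 x6261 x6265 x6267 x6273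
  x6277 x6281 x6287 x6289 x6293 x6297 x6305 x6307 x6309 x6313 x6317 x6319 x6321 x6327 x6331 x6335
  x6341 x6343 x6345 x6349 x6353 x6355 x6357 x6365 x6369 x6377 x6379 x6383 x6387 x6391 x6393 x6399
  x6403 x6407 x6409 x6411 x6419 x6423 x6427 x6429 x6435 x6439 x6443 x6449 x6451 x6455 x6459 x6467
  x6469 x6471 x6475 x6479 x6485 x6487 x6491 x6495 x6499 x6501 x6509 x6513 x6521 x6523 x6525 x6529
  x6533 x6535 x6537 x6543 x6547 x6551 x6557 x6559 x6563 x6567 x6575 x6577 x6579 x6583 x6587 x6593
  x6595 x6599 x6603 x6607 x6609 x6615 x6619 x6623 x6625 x6627 x6635 x6639 x6647 x6649 x6653 x6657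
  x6661 x6663 x6671 x6675 x6683 x6685 x6687 x6691 x6695 x6697 x6699 x6705 x6709 x6713 x6719 x6721
  x6723 x6727 x6731 x6733 x6735 x6743 x6747 x6751 x6753 x6759 x6763 x6767 x6773 x6775 x6779 x6783
  x6791 x6793 x6795 x6799 x6803 x6809 x6811 x6815 x6819 x6823 x6825 x6833 x6837 x6845 x6847 x6849
  x6853 x6857 x6859 x6861 x6867 x6871 x6875 x6881 x6883 x6887 x6891 x6899 x6901 x6903 x6907 x6911
  x6917 x6919 x6923 x6927 x6931 x6933 x6939 x6943 x6947 x6949 x6951 x6959 x6963 x6967 x6969 x6975
  x6979 x6983 x6989 x6991 x6993 x6997 x7001 x7003 x7005 x7013 x7017 x7025 x7027 x7031 x7035 x7039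
  x7041 x7047 x7051 x7055 x7057 x7059 x7067 x7071 x7075 x7077 x7083 x7087 x7091 x7097 x7099 x7103
  x7107 x7115 x7117 x7119 x7123 x7127 x7129 x7131 x7137 x7141 x7145 x7151 x7153 x7155 x7159 x7163
  x7165 x7167 x7175 x7179 x7187 x7189 x7193 x7197 x7201 x7203 x7211 x7215 x7223 x7225 x7227 x7231
  x7235 x7241 x7243 x7247 x7251 x7255 x7257 x7263 x7267 x7271 x7273 x7275 x7283 x7287 x7295 x7297
  x7301 x7305 x7309 x7311 x7319 x7323 x7331 x7333 x7335 x7339 x7343 x7345 x7347 x7353 x7357 x7361
  x7367 x7369 x7373 x7377 x7385 x7387 x7389 x7393 x7397 x7403 x7405 x7409 x7413 x7417 x7419 x7425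
  x7429 x7433 x7435 x7437 x7445 x7449 x7453 x7455 x7461 x7465 x7469 x7475 x7477 x7479 x7483 x7487
  x7489 x7491 x7499 x7503 x7511 x7513 x7517 x7521 x7525 x7527 x7535 x7539 x7547 x7549 x7551 x7555
  x7559 x7565 x7567 x7571 x7575 x7579 x7581 x7587 x7591 x7595 x7597 x7599 x7607 x7611 x7619 x7621
  x7625 x7629 x7633 x7635 x7643 x7647 x7655 x7657 x7659 x7663 x7667 x7669 x7671 x7677 x7681 x7685
  x7691 x7693 x7695 x7699 x7703 x7705 x7707 x7715 x7719 x7723 x7725 x7731 x7735 x7739 x7745 x7747
  x7751 x7755 x7763 x7765 x7767 x7771 x7775 x7777 x7779 x7785 x7789 x7793 x7799 x7801 x7803 x7807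
  x7811 x7813 x7815 x7823 x7827 x7835 x7837 x7841 x7845 x7849 x7851 x7857 x7861 x7865 x7867 x7869
  x7877 x7881 x7885 x7887 x7893 x7897 x7901 x7907 x7909 x7913 x7917 x7925 x7927 x7929 x7933 x7937
  x7943 x7945 x7949 x7953 x7957 x7959 x7967 x7971 x7979 x7981 x7983 x7987 x7991 x7993 x7995 x8001
  x8005 x8009 x8015 x8017 x8019 x8023 x8027 x8029 x8031 x8039 x8043 x8047 x8049 x8055 x8059 x8063
  x8069 x8071 x8075 x8079 x8087 x8089 x8091 x8095 x8099 x8101 x8103 x8109 x8113 x8117 x8123 x8125
  x8127 x8131 x8135 x8137 x8139 x8147 x8151 x8159 x8161 x8165 x8169 x8173 x8175 x8183 x8187 x8195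
  x8197 x8199 x8203 x8207 x8213 x8215 x8219 x8223 x8227 x8229 x8235 x8239 x8243 x8245 x8247 x8255
  x8259 x8263 x8265 x8271 x8275 x8279 x8285 x8287 x8289 x8293 x8297 x8299 x8301 x8309 x8313 x8321
  x8323 x8327 x8331 x8335 x8337 x8343 x8347 x8351 x8353 x8355 x8363 x8367 x8371 x8373 x8379 x8383
  x8387 x8393 x8395 x8399 x8403 x8411 x8413 x8415 x8419 x8423 x8429 x8431 x8435 x8439 x8443 x8445
  x8453 x8457 x8465 x8467 x8469 x8473 x8477 x8479 x8481 x8487 x8491 x8495 x8501 x8503 x8507 x8511
  x8519 x8521 x8523 x8527 x8531 x8537 x8539 x8543 x8547 x8551 x8553 x8559 x8563 x8567 x8569 x8571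
  x8579 x8583 x8591 x8593 x8597 x8601 x8605 x8607 x8615 x8619 x8627 x8629 x8631 x8635 x8639 x8641
  x8643 x8649 x8653 x8657 x8663 x8665 x8667 x8671 x8675 x8677 x8679 x8687 x8691 x8695 x8697 x8703
  x8707 x8711 x8717 x8719 x8723 x8727 x8735 x8737 x8739 x8743 x8747 x8753 x8755 x8759 x8763 x8767
  x8769 x8777 x8781 x8789 x8791 x8793 x8797 x8801 x8803 x8805 x8811 x8815 x8819 x8825 x8827 x8831
  x8835 x8843 x8845 x8847 x8851 x8855 x8861 x8863 x8867 x8871 x8875 x8877 x8883 x8887 x8891 x8893
  x8895 x8903 x8907 x8911 x8913 x8919 x8923 x8927 x8933 x8935 x8937 x8941 x8945 x8947 x8949 x8957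
  x8961 x8969 x8971 x8975 x8979 x8983 x8985 x8993 x8997 x9005 x9007 x9009 x9013 x9017 x9023 x9025
  x9029 x9033 x9037 x9039 x9045 x9049 x9053 x9055 x9057 x9065 x9069 x9077 x9079 x9083 x9087 x9091
  x9093 x9101 x9105 x9113 x9115 x9117 x9121 x9125 x9127 x9129 x9135 x9139 x9143 x9149 x9151 x9153
  x9157 x9161 x9163 x9165 x9173 x9177 x9181 x9183 x9189 x9193 x9197 x9203 x9205 x9209 x9213 x9221
  x9223 x9225 x9229 x9233 x9235 x9237 x9243 x9247 x9251 x9257 x9259 x9261 x9265 x9269 x9271 x9273
  x9281 x9285 x9293 x9295 x9299 x9303 x9307 x9309 x9315 x9319 x9323 x9325 x9327 x9335 x9339 x9343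
  x9345 x9351 x9355 x9359 x9365 x9367 x9371 x9375 x9383 x9385 x9387 x9391 x9395 x9401 x9403 x9407
  x9411 x9415 x9417 x9425 x9429 x9437 x9439 x9441 x9445 x9449 x9451 x9453 x9459 x9463 x9467 x9473
  x9475 x9479 x9483 x9491 x9493 x9495 x9499 x9503 x9509 x9511 x9515 x9519 x9523 x9525 x9531 x9535
  x9539 x9541 x9543 x9551 x9555 x9563 x9565 x9569 x9573 x9577 x9579 x9587 x9591 x9599 x9601 x9603
  x9607 x9611 x9613 x9615 x9621 x9625 x9629 x9635 x9637 x9639 x9643 x9647 x9649 x9651 x9659 x9663
  x9667 x9669 x9675 x9679 x9683 x9689 x9691 x9695 x9699 x9707 x9709 x9711 x9715 x9719 x9725 x9727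
  x9731 x9735 x9739 x9741 x9749 x9753 x9761 x9763 x9765 x9769 x9773 x9775 x9777 x9783 x9787 x9791
  x9797 x9799 x9803 x9807 x9815 x9817 x9819 x9823 x9827 x9833 x9835 x9839 x9843 x9847 x9849 x9855
  x9859 x9863 x9865 x9867 x9875 x9879 x9883 x9885 x9891 x9895 x9899 x9905 x9907 x9909 x9913 x9917
  x9919 x9921 x9929 x9933 x9941 x9943 x9947 x9951 x9955 x9957 x9963 x9967 x9971 x9973 x9975 x9983
  x9987 x9991 x9993 x9999 x10003 x10007 x10013 x10015 x10019 x10023 x10031 x10033 x10035 x10039 x10043 x10045
  x10047 x10053 x10057 x10061 x10067 x10069 x10071 x10075 x10079 x10081 x10083 x10091 x10095 x10103 x10105 x10109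
  x10113 x10117 x10119 x10127 x10131 x10139 x10141 x10143 x10147 x10151 x10157 x10159 x10163 x10167 x10171 x10173
  x10179 x10183 x10187 x10189 x10191 x10199 x10203 x10207 x10209 x10215 x10219 x10223 x10229 x10231 x10233 x10237
  x10241 x10243 x10245 x10253 x10257 x10265 x10267 x10271 x10275 x10279 x10281 x10287 x10291 x10295 x10297 x10299
  x10307 x10311 x10315 x10317 x10323 x10327 x10331 x10337 x10339 x10343 x10347 x10355 x10357 x10359 x10363 x10367
  x10373 x10375 x10379 x10383 x10387 x10389 x10397 x10401 x10409 x10411 x10413 x10417 x10421 x10423 x10425 x10431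
  x10435 x10439 x10445 x10447 x10449 x10453 x10457 x10459 x10461 x10469 x10473 x10477 x10479 x10485 x10489 x10493
  x10499 x10501 x10505 x10509 x10517 x10519 x10521 x10525 x10529 x10531 x10533 x10539 x10543 x10547 x10553 x10555
  x10557 x10561 x10565 x10567 x10569 x10577 x10581 x10589 x10591 x10595 x10599 x10603 x10605 x10613 x10617 x10625
  x10627 x10629 x10633 x10637 x10643 x10645 x10649 x10653 x10657 x10659 x10665 x10669 x10673 x10675 x10677 x10685
  x10689 x10697 x10699 x10703 x10707 x10711 x10713 x10721 x10725 x10733 x10735 x10737 x10741 x10745 x10747 x10749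
  x10755 x10759 x10763 x10769 x10771 x10775 x10779 x10787 x10789 x10791 x10795 x10799 x10805 x10807 x10811 x10815
  x10819 x10821 x10827 x10831 x10835 x10837 x10839 x10847 x10851 x10855 x10857 x10863 x10867 x10871 x10877 x10879
  x10881 x10885 x10889 x10891 x10893 x10901 x10905 x10913 x10915 x10919 x10923 x10927 x10929 x10935 x10939 x10943
  x10945 x10947 x10955 x10959 x10963 x10965 x10971 x10975 x10979 x10985 x10987 x10991 x10995 x11003 x11005 x11007
  x11011 x11015 x11017 x11019 x11025 x11029 x11033 x11039 x11041 x11043 x11047 x11051 x11053 x11055 x11063 x11067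
  x11075 x11077 x11081 x11085 x11089 x11091 x11099 x11103 x11111 x11113 x11115 x11119 x11123 x11129 x11131 x11135
  x11139 x11143 x11145 x11151 x11155 x11159 x11161 x11163 x11171 x11175 x11179 x11181 x11187 x11191 x11195 x11201
  x11203 x11205 x11209 x11213 x11215 x11217 x11225 x11229 x11237 x11239 x11243 x11247 x11251 x11253 x11259 x11263
  x11267 x11269 x11271 x11279 x11283 x11287 x11289 x11295 x11299 x11303 x11309 x11311 x11315 x11319 x11327 x11329
  x11331 x11335 x11339 x11345 x11347 x11351 x11355 x11359 x11361 x11369 x11373 x11381 x11383 x11385 x11389 x11393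
  x11395 x11397 x11403 x11407 x11411 x11417 x11419 x11423 x11427 x11435 x11437 x11439 x11443 x11447 x11453 x11455
  x11459 x11463 x11467 x11469 x11475 x11479 x11483 x11485 x11487 x11495 x11499 x11507 x11509 x11513 x11517 x11521
  x11523 x11531 x11535 x11543 x11545 x11547 x11551 x11555 x11557 x11559 x11565 x11569 x11573 x11579 x11581 x11583
  x11587 x11591 x11593 x11595 x11603 x11607 x11611 x11613 x11619 x11623 x11627 x11633 x11635 x11639 x11643 x11651
  x11653 x11655 x11659 x11663 x11665 x11667 x11673 x11677 x11681 x11687 x11689 x11691 x11695 x11699 x11701 x11703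
  x11711 x11715 x11723 x11725 x11729 x11733 x11737 x11739 x11745 x11749 x11753 x11755 x11757 x11765 x11769 x11773
  x11775 x11781 x11785 x11789 x11795 x11797 x11801 x11805 x11813 x11815 x11817 x11821 x11825 x11831 x11833 x11837
  x11841 x11845 x11847 x11855 x11859 x11867 x11869 x11871 x11875 x11879 x11881 x11883 x11889 x11893 x11897 x11903
  x11905 x11907 x11911 x11915 x11917 x11919 x11927 x11931 x11935 x11937 x11943 x11947 x11951 x11957 x11959 x11963
  x11967 x11975 x11977 x11979 x11983 x11987 x11989 x11991 x11997 x12001 x12005 x12011 x12013 x12015 x12019 x12023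
  x12025 x12027 x12035 x12039 x12047 x12049 x12053 x12057 x12061 x12063 x12071 x12075 x12083 x12085 x12087 x12091
  x12095 x12101 x12103 x12107 x12111 x12115 x12117 x12123 x12127 x12131 x12133 x12135 x12143 x12147 x12155 x12157
  x12161 x12165 x12169 x12171 x12179 x12183 x12191 x12193 x12195 x12199 x12203 x12205 x12207 x12213 x12217 x12221
  x12227 x12229 x12233 x12237 x12245 x12247 x12249 x12253 x12257 x12263 x12265 x12269 x12273 x12277 x12279 x12285
  x12289 x12293 x12295 x12297 x12305 x12309 x12313 x12315 x12321 x12325 x12329 x12335 x12337 x12339 x12343 x12347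
  x12349 x12351 x12359 x12363 x12371 x12373 x12377 x12381 x12385 x12387 x12395 x12399 x12407 x12409 x12411 x12415
  x12419 x12425 x12427 x12431 x12435 x12439 x12441 x12447 x12451 x12455 x12457 x12459 x12467 x12471 x12479 x12481
  x12485 x12489 x12493 x12495 x12503 x12507 x12515 x12517 x12519 x12523 x12527 x12529 x12531 x12537 x12541 x12545
  x12551 x12553 x12555 x12559 x12563 x12565 x12567 x12575 x12579 x12583 x12585 x12591 x12595 x12599 x12605 x12607
  x12611 x12615 x12623 x12625 x12627 x12631 x12635 x12641 x12643 x12647 x12651 x12655 x12657 x12665 x12669 x12677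
  x12679 x12681 x12685 x12689 x12691 x12693 x12699 x12703 x12707 x12713 x12715 x12719 x12723 x12731 x12733 x12735
  x12739 x12743 x12749 x12751 x12755 x12759 x12763 x12765 x12771 x12775 x12779 x12781 x12783 x12791 x12795 x12799
  x12801 x12807 x12811 x12815 x12821 x12823 x12825 x12829 x12833 x12835 x12837 x12845 x12849 x12857 x12859 x12863
  x12867 x12871 x12873 x12879 x12883 x12887 x12889 x12891 x12899 x12903 x12907 x12909 x12915 x12919 x12923 x12929
  x12931 x12935 x12939 x12947 x12949 x12951 x12955 x12959 x12961 x12963 x12969 x12973 x12977 x12983 x12985 x12987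
  x12991 x12995 x12997 x12999 x13007 x13011 x13019 x13021 x13025 x13029 x13033 x13035 x13043 x13047 x13055 x13057
  x13059 x13063 x13067 x13073 x13075 x13079 x13083 x13087 x13089 x13095 x13099 x13103 x13105 x13107 x13115 x13119
  x13123 x13125 x13131 x13135 x13139 x13145 x13147 x13149 x13153 x13157 x13159 x13161 x13169 x13173 x13181 x13183
  x13187 x13191 x13195 x13197 x13203 x13207 x13211 x13213 x13215 x13223 x13227 x13231 x13233 x13239 x13243 x13247
  x13253 x13255 x13259 x13263 x13271 x13273 x13275 x13279 x13283 x13289 x13291 x13295 x13299 x13303 x13305 x13313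
  x13317 x13325 x13327 x13329 x13333 x13337 x13339 x13341 x13347 x13351 x13355 x13361 x13363 x13365 x13369 x13373
  x13375 x13377 x13385 x13389 x13393 x13395 x13401 x13405 x13409 x13415 x13417 x13421 x13425 x13433 x13435 x13437
  x13441 x13445 x13447 x13449 x13455 x13459 x13463 x13469 x13471 x13473 x13477 x13481 x13483 x13485 x13493 x13497
  x13505 x13507 x13511 x13515 x13519 x13521 x13529 x13533 x13541 x13543 x13545 x13549 x13553 x13559 x13561 x13565
  x13569 x13573 x13575 x13581 x13585 x13589 x13591 x13593 x13601 x13605 x13613 x13615 x13619 x13623 x13627 x13629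
  x13637 x13641 x13649 x13651 x13653 x13657 x13661 x13663 x13665 x13671 x13675 x13679 x13685 x13687 x13691 x13695
  x13703 x13705 x13707 x13711 x13715 x13721 x13723 x13727 x13731 x13735 x13737 x13743 x13747 x13751 x13753 x13755
  x13763 x13767 x13771 x13773 x13779 x13783 x13787 x13793 x13795 x13797 x13801 x13805 x13807 x13809 x13817 x13821
  x13829 x13831 x13835 x13839 x13843 x13845 x13851 x13855 x13859 x13861 x13863 x13871 x13875 x13879 x13881 x13887
  x13891 x13895 x13901 x13903 x13907 x13911 x13919 x13921 x13923 x13927 x13931 x13933 x13935 x13941 x13945 x13949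
  x13955 x13957 x13959 x13963 x13967 x13969 x13971 x13979 x13983 x13991 x13993 x13997 x14001 x14005 x14007 x14015
  x14019 x14027 x14029 x14031 x14035 x14039 x14045 x14047 x14051 x14055 x14059 x14061 x14067 x14071 x14075 x14077
  x14079 x14087 x14091 x14095 x14097 x14103 x14107 x14111 x14117 x14119 x14121 x14125 x14129 x14131 x14133 x14141
  x14145 x14153 x14155 x14159 x14163 x14167 x14169 x14175 x14179 x14183 x14185 x14187 x14195 x14199 x14203 x14205
  x14211 x14215 x14219 x14225 x14227 x14231 x14235 x14243 x14245 x14247 x14251 x14255 x14261 x14263 x14267 x14271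
  x14275 x14277 x14285 x14289 x14297 x14299 x14301 x14305 x14309 x14311 x14313 x14319 x14323 x14327 x14333 x14335
  x14339 x14343 x14351 x14353 x14355 x14359 x14363 x14369 x14371 x14375 x14379 x14383 x14385 x14391 x14395 x14399
  x14401 x14403 x14411 x14415 x14423 x14425 x14429 x14433 x14437 x14439 x14447 x14451 x14459 x14461 x14463 x14467
  x14471 x14473 x14475 x14481 x14485 x14489 x14495 x14497 x14499 x14503 x14507 x14509 x14511 x14519 x14523 x14527
  x14529 x14535 x14539 x14543 x14549 x14551 x14555 x14559 x14567 x14569 x14571 x14575 x14579 x14585 x14587 x14591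
  x14595 x14599 x14601 x14609 x14613 x14621 x14623 x14625 x14629 x14633 x14635 x14637 x14643 x14647 x14651 x14657
  x14659 x14663 x14667 x14675 x14677 x14679 x14683 x14687 x14693 x14695 x14699 x14703 x14707 x14709 x14715 x14719
  x14723 x14725 x14727 x14735 x14739 x14743 x14745 x14751 x14755 x14759 x14765 x14767 x14769 x14773 x14777 x14779
  x14781 x14789 x14793 x14801 x14803 x14807 x14811 x14815 x14817 x14825 x14829 x14837 x14839 x14841 x14845 x14849
  x14855 x14857 x14861 x14865 x14869 x14871 x14877 x14881 x14885 x14887 x14889 x14897 x14901 x14909 x14911 x14915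
  x14919 x14923 x14925 x14933 x14937 x14945 x14947 x14949 x14953 x14957 x14959 x14961 x14967 x14971 x14975 x14981
  x14983 x14985 x14989 x14993 x14995 x14997 x15005 x15009 x15013 x15015 x15021 x15025 x15029 x15035 x15037 x15041
  x15045 x15053 x15055 x15057 x15061 x15065 x15067 x15069 x15075 x15079 x15083 x15089 x15091 x15093 x15097 x15101
  x15103 x15105 x15113 x15117 x15125 x15127 x15131 x15135 x15139 x15141 x15147 x15151 x15155 x15157 x15159 x15167
  x15171 x15175 x15177 x15183 x15187 x15191 x15197 x15199 x15203 x15207 x15215 x15217 x15219 x15223 x15227 x15233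
  x15235 x15239 x15243 x15247 x15249 x15257 x15261 x15269 x15271 x15273 x15277 x15281 x15283 x15285 x15291 x15295
  x15299 x15305 x15307 x15309 x15313 x15317 x15319 x15321 x15329 x15333 x15337 x15339 x15345 x15349 x15353 x15359
  x15361 x15365 x15369 x15377 x15379 x15381 x15385 x15389 x15391 x15393 x15399 x15403 x15407 x15413 x15415 x15417
  x15421 x15425 x15427 x15429 x15437 x15441 x15449 x15451 x15455 x15459 x15463 x15465 x15473 x15477 x15485 x15487
  x15489 x15493 x15497 x15503 x15505 x15509 x15513 x15517 x15519 x15525 x15529 x15533 x15535 x15537 x15545 x15549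
  x15553 x15555 x15561 x15565 x15569 x15575 x15577 x15579 x15583 x15587 x15589 x15591 x15599 x15603 x15611 x15613
  x15617 x15621 x15625 x15627 x15633 x15637 x15641 x15643 x15645 x15653 x15657 x15661 x15663 x15669 x15673 x15677
  x15683 x15685 x15689 x15693 x15701 x15703 x15705 x15709 x15713 x15719 x15721 x15725 x15729 x15733 x15735 x15743
  x15747 x15755 x15757 x15759 x15763 x15767 x15769 x15771 x15777 x15781 x15785 x15791 x15793 x15797 x15801 x15809
  x15811 x15813 x15817 x15821 x15827 x15829 x15833 x15837 x15841 x15843 x15849 x15853 x15857 x15859 x15861 x15869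
  x15873 x15881 x15883 x15887 x15891 x15895 x15897 x15905 x15909 x15917 x15919 x15921 x15925 x15929 x15931 x15933
  x15939 x15943 x15947 x15953 x15955 x15957 x15961 x15965 x15967 x15969 x15977 x15981 x15985 x15987 x15993 x15997
  x16001 x16007 x16009 x16013 x16017 x16025 x16027 x16029 x16033 x16037 x16039 x16041 x16047 x16051 x16055 x16061
  x16063 x16065 x16069 x16073 x16075 x16077 x16085 x16089 x16097 x16099 x16103 x16107 x16111 x16113 x16119 x16123
  x16127 x16129 x16131 x16139 x16143 x16147 x16149 x16155 x16159 x16163 x16169 x16171 x16175 x16179 x16187 x16189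
  x16191 x16195 x16199 x16205 x16207 x16211 x16215 x16219 x16221 x16229 x16233 x16241 x16243 x16245 x16249 x16253
  x16255 x16257 x16263 x16267 x16271 x16277 x16279 x16281 x16285 x16289 x16291 x16293 x16301 x16305 x16309 x16311
  x16317 x16321 x16325 x16331 x16333 x16337 x16341 x16349 x16351 x16353 x16357 x16361 x16363 x16365 x16371 x16375
  x16379 x16385 x16387 x16389 x16393 x16397 x16399 x16401 x16409 x16413 x16421 x16423 x16427 x16431 x16435 x16437
  x16445 x16449 x16457 x16459 x16461 x16465 x16469 x16475 x16477 x16481 x16485 x16489 x16491 x16497 x16501 x16505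
  x16507 x16509 x16517 x16521 x16529 x16531 x16535 x16539 x16543 x16545 x16553 x16557 x16565 x16567 x16569 x16573
  x16577 x16579 x16581 x16587 x16591 x16595 x16601 x16603 x16607 x16611 x16619 x16621 x16623 x16627 x16631 x16637
  x16639 x16643 x16647 x16651 x16653 x16659 x16663 x16667 x16669 x16671 x16679 x16683 x16687 x16689 x16695 x16699
  x16703 x16709 x16711 x16713 x16717 x16721 x16723 x16725 x16733 x16737 x16745 x16747 x16751 x16755 x16759 x16761
  x16769 x16773 x16781 x16783 x16785 x16789 x16793 x16799 x16801 x16805 x16809 x16813 x16815 x16821 x16825 x16829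
  x16831 x16833 x16841 x16845 x16853 x16855 x16859 x16863 x16867 x16869 x16877 x16881 x16889 x16891 x16893 x16897
  x16901 x16903 x16905 x16911 x16915 x16919 x16925 x16927 x16929 x16933 x16937 x16939 x16941 x16949 x16953 x16957
  x16959 x16965 x16969 x16973 x16979 x16981 x16985 x16989 x16997 x16999 x17001 x17005 x17009 x17015 x17017 x17021
  x17025 x17029 x17031 x17039 x17043 x17051 x17053 x17055 x17059 x17063 x17065 x17067 x17073 x17077 x17081 x17087
  x17089 x17093 x17097 x17105 x17107 x17109 x17113 x17117 x17123 x17125 x17129 x17133 x17137 x17139 x17145 x17149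
  x17153 x17155 x17157 x17165 x17169 x17173 x17175 x17181 x17185 x17189 x17195 x17197 x17199 x17203 x17207 x17209
  x17211 x17219 x17223 x17231 x17233 x17237 x17241 x17245 x17247 x17253 x17257 x17261 x17263 x17265 x17273 x17277
  x17281 x17283 x17289 x17293 x17297 x17303 x17305 x17309 x17313 x17321 x17323 x17325 x17329 x17333 x17335 x17337
  x17343 x17347 x17351 x17357 x17359 x17361 x17365 x17369 x17371 x17373 x17381 x17385 x17393 x17395 x17399 x17403
  x17407 x17409 x17417 x17421 x17429 x17431 x17433 x17437 x17441 x17447 x17449 x17453 x17457 x17461 x17463 x17469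
  x17473 x17477 x17479 x17481 x17489 x17493 x17501 x17503 x17507 x17511 x17515 x17517 x17525 x17529 x17537 x17539
  x17541 x17545 x17549 x17551 x17553 x17559 x17563 x17567 x17573 x17575 x17579 x17583 x17591 x17593 x17595 x17599
  x17603 x17609 x17611 x17615 x17619 x17623 x17625 x17631 x17635 x17639 x17641 x17643 x17651 x17655 x17659 x17661
  x17667 x17671 x17675 x17681 x17683 x17685 x17689 x17693 x17695 x17697 x17705 x17709 x17717 x17719 x17723 x17727
  x17731 x17733 x17741 x17745 x17753 x17755 x17757 x17761 x17765 x17771 x17773 x17777 x17781 x17785 x17787 x17793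
  x17797 x17801 x17803 x17805 x17813 x17817 x17825 x17827 x17831 x17835 x17839 x17841 x17849 x17853 x17861 x17863
  x17865 x17869 x17873 x17875 x17877 x17883 x17887 x17891 x17897 x17899 x17901 x17905 x17909 x17911 x17913 x17921
  x17925 x17929 x17931 x17937 x17941 x17945 x17951 x17953 x17957 x17961 x17969 x17971 x17973 x17977 x17981 x17983
  x17985 x17991 x17995 x17999 x18005 x18007 x18009 x18013 x18017 x18019 x18021 x18029 x18033 x18041 x18043 x18047
  x18051 x18055 x18057 x18063 x18067 x18071 x18073 x18075 x18083 x18087 x18091 x18093 x18099 x18103 x18107 x18113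
  x18115 x18119 x18123 x18131 x18133 x18135 x18139 x18143 x18149 x18151 x18155 x18159 x18163 x18165 x18173 x18177
  x18185 x18187 x18189 x18193 x18197 x18199 x18201 x18207 x18211 x18215 x18221 x18223 x18227 x18231 x18239 x18241
  x18243 x18247 x18251 x18257 x18259 x18263 x18267 x18271 x18273 x18279 x18283 x18287 x18289 x18291 x18299 x18303
  x18311 x18313 x18317 x18321 x18325 x18327 x18335 x18339 x18347 x18349 x18351 x18355 x18359 x18361 x18363 x18369
  x18373 x18377 x18383 x18385 x18387 x18391 x18395 x18397 x18399 x18407 x18411 x18415 x18417 x18423 x18427 x18431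
  x18437 x18439 x18443 x18447 x18455 x18457 x18459 x18463 x18467 x18473 x18475 x18479 x18483 x18487 x18489 x18497
  x18501 x18509 x18511 x18513 x18517 x18521 x18523 x18525 x18531 x18535 x18539 x18545 x18547 x18551 x18555 x18563
  x18565 x18567 x18571 x18575 x18581 x18583 x18587 x18591 x18595 x18597 x18603 x18607 x18611 x18613 x18615 x18623
  x18627 x18631 x18633 x18639 x18643 x18647 x18653 x18655 x18657 x18661 x18665 x18667 x18669 x18677 x18681 x18689
  x18691 x18695 x18699 x18703 x18705 x18711 x18715 x18719 x18721 x18723 x18731 x18735 x18739 x18741 x18747 x18751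
  x18755 x18761 x18763 x18767 x18771 x18779 x18781 x18783 x18787 x18791 x18793 x18795 x18801 x18805 x18809 x18815
  x18817 x18819 x18823 x18827 x18829 x18831 x18839 x18843 x18851 x18853 x18857 x18861 x18865 x18867 x18875 x18879
  x18887 x18889 x18891 x18895 x18899 x18905 x18907 x18911 x18915 x18919 x18921 x18927 x18931 x18935 x18937 x18939
  x18947 x18951 x18955 x18957 x18963 x18967 x18971 x18977 x18979 x18981 x18985 x18989 x18991 x18993 x19001 x19005
  x19013 x19015 x19019 x19023 x19027 x19029 x19035 x19039 x19043 x19045 x19047 x19055 x19059 x19063 x19065 x19071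
  x19075 x19079 x19085 x19087 x19091 x19095 x19103 x19105 x19107 x19111 x19115 x19121 x19123 x19127 x19131 x19135
  x19137 x19145 x19149 x19157 x19159 x19161 x19165 x19169 x19171 x19173 x19179 x19183 x19187 x19193 x19195 x19197
  x19201 x19205 x19207 x19209 x19217 x19221 x19225 x19227 x19233 x19237 x19241 x19247 x19249 x19253 x19257 x19265
  x19267 x19269 x19273 x19277 x19279 x19281 x19287 x19291 x19295 x19301 x19303 x19305 x19309 x19313 x19315 x19317
  x19325 x19329 x19337 x19339 x19343 x19347 x19351 x19353 x19361 x19365 x19373 x19375 x19377 x19381 x19385 x19391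
  x19393 x19397 x19401 x19405 x19407 x19413 x19417 x19421 x19423 x19425 x19433 x19437 x19445 x19447 x19451 x19455
  x19459 x19461 x19469 x19473 x19481 x19483 x19485 x19489 x19493 x19495 x19497 x19503 x19507 x19511 x19517 x19519
  x19523 x19527 x19535 x19537 x19539 x19543 x19547 x19553 x19555 x19559 x19563 x19567 x19569 x19575 x19579 x19583
  x19585 x19587 x19595 x19599 x19603 x19605 x19611 x19615 x19619 x19625 x19627 x19629 x19633 x19637 x19639 x19641
  x19649 x19653 x19661 x19663 x19667 x19671 x19675 x19677 =>
  Bool.rec false (k
  (sub (add (add (add (add (add (add (add (add (add (add (add (add (sub (sub C x7) x11) x41) x77) x113) x221) x329) x653) x977) x1949) x2921) x5837) x8753) x17501) x13125)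
  (sub (add (add (add (add (add (add (add (add (add (add (add (add (sub (sub C x5) x19) x43) x79) x115) x223) x331) x655) x979) x1951) x2923) x5839) x8755) x17503) x6567)
  (sub (add (add (add (add (add (add (add (add (add (add (sub (sub (sub C x15) x5) x29) x119) x227) x335) x659) x983) x1955) x2927) x5843) x8759) x17507) x13131)
  (add (add (add (add (add (add (add (add (add (add (add (add (sub (sub (sub C x11) x21) x33) x123) x231) x339) x663) x987) x1959) x2931) x5847) x8763) x17511) x6577) x13139)
  (sub (add (add (add (add (add (add (add (add (add (add (sub (sub (sub C x21) x7) x55) x127) x235) x343) x667) x991) x1963) x2935) x5851) x8767) x17515) x6579)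
  (add (add (add (add (add (add (add (add (add (add (add (add (sub (sub (sub C x19) x15) x57) x129) x237) x345) x669) x993) x1965) x2937) x5853) x8769) x17517) x6583) x13145)
  (sub (add (add (add (add (add (add (add (add (sub (sub (add (add (sub C x33) x41) x53) x11) x83) x353) x677) x1001) x1973) x2945) x5861) x8777) x17525) x13149)
  (add (add (add (add (add (add (add (add (add (add (sub (sub (sub (sub C x29) x45) x15) x87) x357) x681) x1005) x1977) x2949) x5865) x8781) x17529) x6595) x13157)
  (sub (add (add (add (add (add (add (add (add (sub (add (add (add (add (sub C x43) x29) x53) x5) x77) x95) x365) x689) x1013) x1985) x2957) x5873) x8789) x17537) x13161)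
  (sub (add (add (add (add (add (add (add (add (sub (add (add (sub (sub C x41) x49) x7) x79) x97) x367) x691) x1015) x1987) x2959) x5875) x8791) x17539) x6603)
  (add (add (add (add (add (add (add (add (add (add (sub (sub (sub (add (add C x49) x53) x33) x63) x99) x369) x693) x1017) x1989) x2961) x5877) x8793) x17541) x6607) x13169)
  (sub (add (add (add (add (add (add (add (add (sub (sub (sub (add (add C x45) x53) x43) x67) x103) x373) x697) x1021) x1993) x2965) x5881) x8797) x17545) x6609)
  (sub (add (add (add (add (add (add (add (add (sub (sub (add (add (add (add C x45) x49) x29) x41) x71) x107) x377) x701) x1025) x1997) x2969) x5885) x8801) x17549) x13173)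
  (sub (add (add (add (add (add (add (add (add (sub (sub (add (add (sub C x57) x67) x79) x19) x163) x379) x703) x1027) x1999) x2971) x5887) x8803) x17551) x6615)
  (add (add (add (add (add (add (add (add (add (add (sub (sub (sub (sub C x55) x63) x21) x165) x381) x705) x1029) x2001) x2973) x5889) x8805) x17553) x6619) x13181)
  (add (add (add (add (add (add (add (add (add (add (sub (sub (sub (add (add C x67) x71) x57) x45) x171) x387) x711) x1035) x2007) x2979) x5895) x8811) x17559) x6625) x13187)
  (sub (add (add (add (add (add (add (add (add (sub (sub (add (add (add (add C x63) x71) x55) x79) x49) x175) x391) x715) x1039) x2011) x2983) x5899) x8815) x17563) x6627)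
  (sub (add (add (add (add (add (add (add (add (sub (sub (sub (add (add C x63) x67) x77) x53) x179) x395) x719) x1043) x2015) x2987) x5903) x8819) x17567) x13191)
  (sub (add (add (add (add (add (add (add (add (sub (add (add (sub (sub C x79) x71) x5) x41) x185) x401) x725) x1049) x2021) x2993) x5909) x8825) x17573) x13197)
  (sub (add (add (add (add (add (add (add (add (sub (add (add (add (add (sub C x77) x55) x67) x7) x43) x187) x403) x727) x1051) x2023) x2995) x5911) x8827) x17575) x6639)
  (sub (add (add (add (add (add (add (sub (sub (add (add (add (add (sub C x87) x95) x107) x119) x155) x29) x245) x1055) x2027) x2999) x5915) x8831) x17579) x13203)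
  (add (add (add (add (add (add (add (add (sub (sub (add (add (sub (sub C x83) x99) x123) x159) x33) x249) x1059) x2031) x3003) x5919) x8835) x17583) x6649) x13211)
  (sub (add (add (add (add (add (add (sub (sub (sub (add (add (sub C x97) x83) x107) x113) x41) x257) x1067) x2039) x3011) x5927) x8843) x17591) x13215)
  (sub (add (add (add (add (add (add (sub (sub (sub (sub (sub C x95) x103) x115) x43) x259) x1069) x2041) x3013) x5929) x8845) x17593) x6657)
  (add (add (add (add (add (add (add (add (sub (sub (sub (sub (add (add C x103) x107) x87) x135) x45) x261) x1071) x2043) x3015) x5931) x8847) x17595) x6661) x13223)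
  (sub (add (add (add (add (add (add (sub (sub (sub (sub (add (add C x99) x107) x97) x139) x49) x265) x1075) x2047) x3019) x5935) x8851) x17599) x6663)
  (sub (add (add (add (add (add (add (sub (sub (sub (add (add (add (add C x99) x103) x83) x95) x143) x53) x269) x1079) x2051) x3023) x5939) x8855) x17603) x13227)
  (sub (add (add (add (add (add (add (sub (add (add (sub (sub (sub C x115) x119) x95) x5) x221) x275) x1085) x2057) x3029) x5945) x8861) x17609) x13233)
  (sub (add (add (add (add (add (add (sub (add (add (sub (sub (sub C x113) x127) x97) x7) x223) x277) x1087) x2059) x3031) x5947) x8863) x17611) x6675)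
  (sub (add (add (add (add (add (add (sub (add (add (add (add (sub (sub C x123) x113) x83) x155) x11) x227) x281) x1091) x2063) x3035) x5951) x8867) x17615) x13239)
  (add (add (add (add (add (add (add (add (sub (add (add (add (add (sub (sub C x119) x129) x87) x159) x15) x231) x285) x1095) x2067) x3039) x5955) x8871) x17619) x6685) x13247)
  (sub (add (add (add (add (add (add (sub (add (add (sub (sub (sub C x129) x115) x145) x19) x235) x289) x1099) x2071) x3043) x5959) x8875) x17623) x6687)
  (add (add (add (add (add (add (add (add (sub (add (add (sub (sub (sub C x127) x123) x147) x21) x237) x291) x1101) x2073) x3045) x5961) x8877) x17625) x6691) x13253)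
  (add (add (add (add (add (add (add (add (sub (sub (sub (add (add (add (add C x139) x143) x147) x159) x99) x189) x297) x1107) x2079) x3051) x5967) x8883) x17631) x6697) x13259)
  (sub (add (add (add (add (add (add (sub (sub (sub (sub (add (add C x135) x143) x145) x103) x193) x301) x1111) x2083) x3055) x5971) x8887) x17635) x6699)
  (sub (add (add (add (add (add (add (sub (sub (sub (sub (add (add C x135) x139) x155) x107) x197) x305) x1115) x2087) x3059) x5975) x8891) x17639) x13263)
  (sub (add (add (add (add (add (add (sub (sub (sub (sub (sub C x147) x139) x127) x199) x307) x1117) x2089) x3061) x5977) x8893) x17641) x6705)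
  (add (add (add (add (add (add (add (add (sub (sub (sub (add (add (sub C x145) x135) x159) x129) x201) x309) x1119) x2091) x3063) x5979) x8895) x17643) x6709) x13271)
  (sub (add (add (add (add (add (add (sub (sub (add (add (sub (sub C x159) x143) x83) x119) x209) x317) x1127) x2099) x3071) x5987) x8903) x17651) x13275)
  (add (add (add (add (add (add (add (add (sub (sub (add (add (add (add (sub C x155) x135) x147) x87) x123) x213) x321) x1131) x2103) x3075) x5991) x8907) x17655) x6721) x13283)
  (sub (add (add (add (add (add (add (sub (sub (add (add (add (add (sub C x165) x175) x187) x199) x235) x55) x487) x1135) x2107) x3079) x5995) x8911) x17659) x6723)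
  (add (add (add (add (add (add (add (add (sub (sub (add (add (sub (sub C x163) x171) x201) x237) x57) x489) x1137) x2109) x3081) x5997) x8913) x17661) x6727) x13289)
  (add (add (add (add (add (add (add (add (sub (sub (sub (sub (add (add C x175) x179) x165) x189) x63) x495) x1143) x2115) x3087) x6003) x8919) x17667) x6733) x13295)
  (sub (add (add (add (add (add (add (sub (sub (sub (add (add (add (add C x171) x179) x163) x187) x193) x67) x499) x1147) x2119) x3091) x6007) x8923) x17671) x6735)
  (sub (add (add (add (add (add (add (sub (sub (sub (sub (add (add C x171) x175) x185) x197) x71) x503) x1151) x2123) x3095) x6011) x8927) x17675) x13299)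
  (sub (add (add (add (add (add (add (sub (sub (sub (sub (sub C x187) x179) x221) x77) x509) x1157) x2129) x3101) x6017) x8933) x17681) x13305)
  (sub (add (add (add (add (add (add (sub (sub (sub (add (add (sub C x185) x163) x175) x223) x79) x511) x1159) x2131) x3103) x6019) x8935) x17683) x6747)
  (add (add (add (add (add (add (add (add (sub (sub (sub (add (add (add (add C x193) x197) x201) x213) x171) x135) x513) x1161) x2133) x3105) x6021) x8937) x17685) x6751) x13313)
  (sub (add (add (add (add (add (add (sub (sub (sub (sub (add (add C x189) x197) x199) x175) x139) x517) x1165) x2137) x3109) x6025) x8941) x17689) x6753)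
  (sub (add (add (add (add (add (add (sub (sub (sub (sub (add (add C x189) x193) x209) x179) x143) x521) x1169) x2141) x3113) x6029) x8945) x17693) x13317)
  (sub (add (add (add (add (add (add (sub (sub (add (add (sub (sub C x201) x193) x163) x235) x145) x523) x1171) x2143) x3115) x6031) x8947) x17695) x6759)
  (add (add (add (add (add (add (add (add (sub (sub (add (add (add (add (sub C x199) x189) x213) x165) x237) x147) x525) x1173) x2145) x3117) x6033) x8949) x17697) x6763) x13325)
  (sub (add (add (add (add (add (add (sub (sub (sub (sub (sub C x213) x197) x227) x155) x533) x1181) x2153) x3125) x6041) x8957) x17705) x13329)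
  (add (add (add (add (add (add (add (add (sub (sub (sub (add (add (sub C x209) x189) x201) x231) x159) x537) x1185) x2157) x3129) x6045) x8961) x17709) x6775) x13337)
  (sub (add (add (add (add (add (add (sub (add (add (sub (sub (sub C x223) x227) x185) x5) x113) x545) x1193) x2165) x3137) x6053) x8969) x17717) x13341)
  (sub (add (add (add (add (add (add (sub (add (add (sub (sub (sub C x221) x235) x187) x7) x115) x547) x1195) x2167) x3139) x6055) x8971) x17719) x6783)
  (sub (add (add (add (add (add (add (sub (add (add (sub (sub (sub C x231) x221) x209) x11) x119) x551) x1199) x2171) x3143) x6059) x8975) x17723) x13347)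
  (add (add (add (add (add (add (add (add (sub (add (add (sub (sub (sub C x227) x237) x213) x15) x123) x555) x1203) x2175) x3147) x6063) x8979) x17727) x6793) x13355)
  (sub (add (add (add (add (add (add (sub (add (add (add (add (sub (sub C x237) x223) x163) x199) x19) x127) x559) x1207) x2179) x3151) x6067) x8983) x17731) x6795)
  (add (add (add (add (add (add (add (add (sub (add (add (add (add (sub (sub C x235) x231) x165) x201) x21) x129) x561) x1209) x2181) x3153) x6069) x8985) x17733) x6799) x13361)
  (sub (add (add (add (add (sub (sub (add (add (add (add (add (add (sub C x249) x257) x269) x281) x317) x353) x461) x83) x731) x3161) x6077) x8993) x17741) x13365)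
  (add (add (add (add (add (add (sub (sub (add (add (add (add (sub (sub C x245) x261) x285) x321) x357) x465) x87) x735) x3165) x6081) x8997) x17745) x6811) x13373)
  (sub (add (add (add (add (sub (sub (add (add (sub (add (add (sub C x259) x245) x269) x275) x365) x473) x95) x743) x3173) x6089) x9005) x17753) x13377)
  (sub (add (add (add (add (sub (sub (add (add (sub (sub (sub C x257) x265) x277) x367) x475) x97) x745) x3175) x6091) x9007) x17755) x6819)
  (add (add (add (add (add (add (sub (sub (add (add (sub (sub (add (add C x265) x269) x249) x297) x369) x477) x99) x747) x3177) x6093) x9009) x17757) x6823) x13385)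
  (sub (add (add (add (add (sub (sub (add (add (sub (sub (add (add C x261) x269) x259) x301) x373) x481) x103) x751) x3181) x6097) x9013) x17761) x6825)
  (sub (add (add (add (add (sub (sub (add (add (sub (add (add (add (add C x261) x265) x245) x257) x305) x377) x485) x107) x755) x3185) x6101) x9017) x17765) x13389)
  (sub (add (add (add (add (sub (sub (sub (sub (sub (sub C x277) x281) x257) x329) x113) x761) x3191) x6107) x9023) x17771) x13395)
  (sub (add (add (add (add (sub (sub (sub (sub (sub (sub C x275) x289) x259) x331) x115) x763) x3193) x6109) x9025) x17773) x6837)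
  (sub (add (add (add (add (sub (sub (sub (add (add (sub (sub C x285) x275) x245) x317) x335) x119) x767) x3197) x6113) x9029) x17777) x13401)
  (add (add (add (add (add (add (sub (sub (sub (add (add (sub (sub C x281) x291) x249) x321) x339) x123) x771) x3201) x6117) x9033) x17781) x6847) x13409)
  (sub (add (add (add (add (sub (sub (sub (sub (sub (sub C x291) x277) x307) x343) x127) x775) x3205) x6121) x9037) x17785) x6849)
  (add (add (add (add (add (add (sub (sub (sub (sub (sub (sub C x289) x285) x309) x345) x129) x777) x3207) x6123) x9039) x17787) x6853) x13415)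
  (add (add (add (add (add (add (sub (sub (sub (sub (add (add (add (add C x301) x305) x309) x321) x261) x405) x135) x783) x3213) x6129) x9045) x17793) x6859) x13421)
  (sub (add (add (add (add (sub (sub (sub (sub (sub (add (add C x297) x305) x307) x265) x409) x139) x787) x3217) x6133) x9049) x17797) x6861)
  (sub (add (add (add (add (sub (sub (sub (sub (sub (add (add C x297) x301) x317) x269) x413) x143) x791) x3221) x6137) x9053) x17801) x13425)
  (sub (add (add (add (add (sub (sub (sub (sub (sub (sub C x309) x301) x289) x415) x145) x793) x3223) x6139) x9055) x17803) x6867)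
  (add (add (add (add (add (add (sub (sub (sub (sub (add (add (sub C x307) x297) x321) x291) x417) x147) x795) x3225) x6141) x9057) x17805) x6871) x13433)
  (sub (add (add (add (add (sub (sub (sub (add (add (sub (sub C x321) x305) x245) x281) x425) x155) x803) x3233) x6149) x9065) x17813) x13437)
  (add (add (add (add (add (add (sub (sub (sub (add (add (add (add (sub C x317) x297) x309) x249) x285) x429) x159) x807) x3237) x6153) x9069) x17817) x6883) x13445)
  (sub (add (add (add (add (sub (add (add (sub (add (add (sub (sub C x331) x335) x365) x401) x275) x5) x653) x815) x3245) x6161) x9077) x17825) x13449)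
  (sub (add (add (add (add (sub (add (add (sub (add (add (sub (sub C x329) x343) x367) x403) x277) x7) x655) x817) x3247) x6163) x9079) x17827) x6891)
  (sub (add (add (add (add (sub (add (add (sub (sub (sub (sub C x339) x329) x353) x281) x11) x659) x821) x3251) x6167) x9083) x17831) x13455)
  (add (add (add (add (add (add (sub (add (add (sub (sub (sub (sub C x335) x345) x357) x285) x15) x663) x825) x3255) x6171) x9087) x17835) x6901) x13463)
  (sub (add (add (add (add (sub (add (add (sub (sub (sub (sub C x345) x331) x379) x289) x19) x667) x829) x3259) x6175) x9091) x17839) x6903)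
  (add (add (add (add (add (add (sub (add (add (sub (sub (sub (sub C x343) x339) x381) x291) x21) x669) x831) x3261) x6177) x9093) x17841) x6907) x13469)
  (sub (add (add (add (add (sub (add (add (add (add (sub (add (add (sub C x357) x365) x377) x335) x245) x461) x29) x677) x839) x3269) x6185) x9101) x17849) x13473)
  (add (add (add (add (add (add (sub (add (add (add (add (sub (sub (sub C x353) x369) x339) x249) x465) x33) x681) x843) x3273) x6189) x9105) x17853) x6919) x13481)
  (sub (add (add (add (add (sub (add (add (add (add (add (add (add (add (sub C x367) x353) x377) x329) x401) x257) x473) x41) x689) x851) x3281) x6197) x9113) x17861) x13485)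
  (sub (add (add (add (add (sub (add (add (add (add (add (add (sub (sub C x365) x373) x331) x403) x259) x475) x43) x691) x853) x3283) x6199) x9115) x17863) x6927)
  (add (add (add (add (add (add (sub (add (add (add (add (sub (sub (add (add C x373) x377) x357) x387) x261) x477) x45) x693) x855) x3285) x6201) x9117) x17865) x6931) x13493)
  (sub (add (add (add (add (sub (add (add (add (add (sub (sub (add (add C x369) x377) x367) x391) x265) x481) x49) x697) x859) x3289) x6205) x9121) x17869) x6933)
  (sub (add (add (add (add (sub (add (add (add (add (sub (add (add (add (add C x369) x373) x353) x365) x395) x269) x485) x53) x701) x863) x3293) x6209) x9125) x17873) x13497)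
  (sub (add (add (add (add (sub (add (add (sub (sub (add (add (sub C x381) x391) x403) x343) x433) x55) x703) x865) x3295) x6211) x9127) x17875) x6939)
  (add (add (add (add (add (add (sub (add (add (sub (sub (sub (sub C x379) x387) x345) x435) x57) x705) x867) x3297) x6213) x9129) x17877) x6943) x13505)
  (add (add (add (add (add (add (sub (add (add (sub (sub (sub (add (add C x391) x395) x381) x369) x441) x63) x711) x873) x3303) x6219) x9135) x17883) x6949) x13511)
  (sub (add (add (add (add (sub (add (add (sub (sub (add (add (add (add C x387) x395) x379) x403) x373) x445) x67) x715) x877) x3307) x6223) x9139) x17887) x6951)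
  (sub (add (add (add (add (sub (add (add (sub (sub (sub (add (add C x387) x391) x401) x377) x449) x71) x719) x881) x3311) x6227) x9143) x17891) x13515)
  (sub (add (add (add (add (sub (add (add (sub (add (add (sub (sub C x403) x395) x329) x365) x455) x77) x725) x887) x3317) x6233) x9149) x17897) x13521)
  (sub (add (add (add (add (sub (add (add (sub (add (add (add (add (sub C x401) x379) x391) x331) x367) x457) x79) x727) x889) x3319) x6235) x9151) x17899) x6963)
  (add (add (add (add (add (add (sub (sub (sub (add (add (add (add (add (add C x409) x413) x417) x429) x441) x477) x297) x567) x891) x3321) x6237) x9153) x17901) x6967) x13529)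
  (sub (add (add (add (add (sub (sub (sub (add (add (sub (add (add C x405) x413) x415) x445) x481) x301) x571) x895) x3325) x6241) x9157) x17905) x6969)
  (sub (add (add (add (add (sub (sub (sub (add (add (sub (add (add C x405) x409) x425) x449) x485) x305) x575) x899) x3329) x6245) x9161) x17909) x13533)
  (sub (add (add (add (add (sub (sub (sub (sub (sub (sub C x417) x409) x433) x307) x577) x901) x3331) x6247) x9163) x17911) x6975)
  (add (add (add (add (add (add (sub (sub (sub (sub (add (add (sub C x415) x405) x429) x435) x309) x579) x903) x3333) x6249) x9165) x17913) x6979) x13541)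
  (sub (add (add (add (add (sub (sub (sub (sub (sub (sub C x429) x413) x461) x317) x587) x911) x3341) x6257) x9173) x17921) x13545)
  (add (add (add (add (add (add (sub (sub (sub (sub (add (add (sub C x425) x405) x417) x465) x321) x591) x915) x3345) x6261) x9177) x17925) x6991) x13553)
  (sub (add (add (add (add (sub (sub (sub (sub (add (add (sub C x435) x445) x457) x415) x379) x595) x919) x3349) x6265) x9181) x17929) x6993)
  (add (add (add (add (add (add (sub (sub (sub (sub (sub (sub C x433) x441) x417) x381) x597) x921) x3351) x6267) x9183) x17931) x6997) x13559)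
  (add (add (add (add (add (add (sub (sub (sub (add (add (sub (add (add C x445) x449) x435) x405) x477) x387) x603) x927) x3357) x6273) x9189) x17937) x7003) x13565)
  (sub (add (add (add (add (sub (sub (sub (add (add (add (add (add (add C x441) x449) x433) x457) x409) x481) x391) x607) x931) x3361) x6277) x9193) x17941) x7005)
  (sub (add (add (add (add (sub (sub (sub (add (add (sub (add (add C x441) x445) x455) x413) x485) x395) x611) x935) x3365) x6281) x9197) x17945) x13569)
  (sub (add (add (add (add (sub (sub (sub (sub (sub (sub C x457) x449) x473) x401) x617) x941) x3371) x6287) x9203) x17951) x13575)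
  (sub (add (add (add (add (sub (sub (sub (sub (add (add (sub C x455) x433) x445) x475) x403) x619) x943) x3373) x6289) x9205) x17953) x7017)
  (sub (add (add (add (add (sub (sub (add (add (sub (add (add (sub C x465) x473) x485) x425) x245) x353) x623) x947) x3377) x6293) x9209) x17957) x13581)
  (add (add (add (add (add (add (sub (sub (add (add (sub (sub (sub C x461) x477) x429) x249) x357) x627) x951) x3381) x6297) x9213) x17961) x7027) x13589)
  (sub (add (add (add (add (sub (sub (add (add (sub (add (add (sub C x475) x461) x485) x455) x257) x365) x635) x959) x3389) x6305) x9221) x17969) x13593)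
  (sub (add (add (add (add (sub (sub (add (add (sub (sub (sub C x473) x481) x457) x259) x367) x637) x961) x3391) x6307) x9223) x17971) x7035)
  (add (add (add (add (add (add (sub (sub (add (add (add (add (sub (add (add C x481) x485) x465) x405) x441) x261) x369) x639) x963) x3393) x6309) x9225) x17973) x7039) x13601)
  (sub (add (add (add (add (sub (sub (add (add (add (add (sub (add (add C x477) x485) x475) x409) x445) x265) x373) x643) x967) x3397) x6313) x9229) x17977) x7041)
  (sub (add (add (add (add (sub (sub (add (add (add (add (add (add (add (add C x477) x481) x461) x473) x413) x449) x269) x377) x647) x971) x3401) x6317) x9233) x17981) x13605)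
  (sub (add (add (add (add (sub (sub (add (add (add (add (add (add (sub C x489) x499) x511) x523) x559) x595) x703) x163) x1459) x3403) x6319) x9235) x17983) x7047)
  (add (add (add (add (add (add (sub (sub (add (add (add (add (sub (sub C x487) x495) x525) x561) x597) x705) x165) x1461) x3405) x6321) x9237) x17985) x7051) x13613)
  (add (add (add (add (add (add (sub (sub (add (add (sub (sub (add (add C x499) x503) x489) x513) x603) x711) x171) x1467) x3411) x6327) x9243) x17991) x7057) x13619)
  (sub (add (add (add (add (sub (sub (add (add (sub (add (add (add (add C x495) x503) x487) x511) x517) x607) x715) x175) x1471) x3415) x6331) x9247) x17995) x7059)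
  (sub (add (add (add (add (sub (sub (add (add (sub (sub (add (add C x495) x499) x509) x521) x611) x719) x179) x1475) x3419) x6335) x9251) x17999) x13623)
  (sub (add (add (add (add (sub (sub (add (add (sub (sub (sub C x511) x503) x545) x617) x725) x185) x1481) x3425) x6341) x9257) x18005) x13629)
  (sub (add (add (add (add (sub (sub (add (add (sub (add (add (sub C x509) x487) x499) x547) x619) x727) x187) x1483) x3427) x6343) x9259) x18007) x7071)
  (add (add (add (add (add (add (sub (sub (sub (sub (add (add (add (add C x517) x521) x525) x537) x495) x567) x189) x1485) x3429) x6345) x9261) x18009) x7075) x13637)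
  (sub (add (add (add (add (sub (sub (sub (sub (sub (add (add C x513) x521) x523) x499) x571) x193) x1489) x3433) x6349) x9265) x18013) x7077)
  (sub (add (add (add (add (sub (sub (sub (sub (sub (add (add C x513) x517) x533) x503) x575) x197) x1493) x3437) x6353) x9269) x18017) x13641)
  (sub (add (add (add (add (sub (sub (sub (add (add (sub (sub C x525) x517) x487) x559) x577) x199) x1495) x3439) x6355) x9271) x18019) x7083)
  (add (add (add (add (add (add (sub (sub (sub (add (add (add (add (sub C x523) x513) x537) x489) x561) x579) x201) x1497) x3441) x6357) x9273) x18021) x7087) x13649)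
  (sub (add (add (add (add (sub (sub (sub (sub (sub (sub C x537) x521) x551) x587) x209) x1505) x3449) x6365) x9281) x18029) x13653)
  (add (add (add (add (add (add (sub (sub (sub (sub (add (add (sub C x533) x513) x525) x555) x591) x213) x1509) x3453) x6369) x9285) x18033) x7099) x13661)
  (sub (add (add (add (add (sub (sub (sub (sub (sub (sub C x547) x551) x509) x653) x221) x1517) x3461) x6377) x9293) x18041) x13665)
  (sub (add (add (add (add (sub (sub (sub (sub (sub (sub C x545) x559) x511) x655) x223) x1519) x3463) x6379) x9295) x18043) x7107)
  (sub (add (add (add (add (sub (sub (sub (sub (sub (sub C x555) x545) x533) x659) x227) x1523) x3467) x6383) x9299) x18047) x13671)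
  (add (add (add (add (add (add (sub (sub (sub (sub (sub (sub C x551) x561) x537) x663) x231) x1527) x3471) x6387) x9303) x18051) x7117) x13679)
  (sub (add (add (add (add (sub (sub (sub (add (add (sub (sub C x561) x547) x487) x523) x667) x235) x1531) x3475) x6391) x9307) x18055) x7119)
  (add (add (add (add (add (add (sub (sub (sub (add (add (sub (sub C x559) x555) x489) x525) x669) x237) x1533) x3477) x6393) x9309) x18057) x7123) x13685)
  (add (add (add (add (add (add (sub (sub (sub (add (add (add (add (add (add C x571) x575) x579) x591) x603) x639) x513) x405) x1539) x3483) x6399) x9315) x18063) x7129) x13691)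
  (sub (add (add (add (add (sub (sub (sub (add (add (sub (add (add C x567) x575) x577) x607) x643) x517) x409) x1543) x3487) x6403) x9319) x18067) x7131)
  (sub (add (add (add (add (sub (sub (sub (add (add (sub (add (add C x567) x571) x587) x611) x647) x521) x413) x1547) x3491) x6407) x9323) x18071) x13695)
  (sub (add (add (add (add (sub (sub (sub (sub (sub (sub C x579) x571) x595) x523) x415) x1549) x3493) x6409) x9325) x18073) x7137)
  (add (add (add (add (add (add (sub (sub (sub (sub (add (add (sub C x577) x567) x591) x597) x525) x417) x1551) x3495) x6411) x9327) x18075) x7141) x13703)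
  (sub (add (add (add (add (sub (sub (sub (sub (sub (sub C x591) x575) x623) x533) x425) x1559) x3503) x6419) x9335) x18083) x13707)
  (add (add (add (add (add (add (sub (sub (sub (sub (add (add (sub C x587) x567) x579) x627) x537) x429) x1563) x3507) x6423) x9339) x18087) x7153) x13715)
  (sub (add (add (add (add (sub (sub (add (add (sub (add (add (sub C x597) x607) x619) x577) x487) x703) x433) x1567) x3511) x6427) x9343) x18091) x7155)
  (add (add (add (add (add (add (sub (sub (add (add (sub (sub (sub C x595) x603) x579) x489) x705) x435) x1569) x3513) x6429) x9345) x18093) x7159) x13721)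
  (add (add (add (add (add (add (sub (sub (add (add (add (add (sub (add (add C x607) x611) x597) x567) x639) x495) x711) x441) x1575) x3519) x6435) x9351) x18099) x7165) x13727)
  (sub (add (add (add (add (sub (sub (add (add (add (add (add (add (add (add C x603) x611) x595) x619) x571) x643) x499) x715) x445) x1579) x3523) x6439) x9355) x18103) x7167)
  (sub (add (add (add (add (sub (sub (add (add (add (add (sub (add (add C x603) x607) x617) x575) x647) x503) x719) x449) x1583) x3527) x6443) x9359) x18107) x13731)
  (sub (add (add (add (add (sub (sub (add (add (sub (sub (sub C x619) x611) x635) x509) x725) x455) x1589) x3533) x6449) x9365) x18113) x13737)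
  (sub (add (add (add (add (sub (sub (add (add (sub (add (add (sub C x617) x595) x607) x637) x511) x727) x457) x1591) x3535) x6451) x9367) x18115) x7179)
  (sub (add (add (add (add (sub (sub (sub (sub (add (add (sub C x627) x635) x647) x587) x677) x461) x1595) x3539) x6455) x9371) x18119) x13743)
  (add (add (add (add (add (add (sub (sub (sub (sub (sub (sub C x623) x639) x591) x681) x465) x1599) x3543) x6459) x9375) x18123) x7189) x13751)
  (sub (add (add (add (add (sub (sub (sub (sub (add (add (sub C x637) x623) x647) x617) x689) x473) x1607) x3551) x6467) x9383) x18131) x13755)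
  (sub (add (add (add (add (sub (sub (sub (sub (sub (sub C x635) x643) x619) x691) x475) x1609) x3553) x6469) x9385) x18133) x7197)
  (add (add (add (add (add (add (sub (sub (sub (add (add (sub (add (add C x643) x647) x627) x567) x603) x693) x477) x1611) x3555) x6471) x9387) x18135) x7201) x13763)
  (sub (add (add (add (add (sub (sub (sub (add (add (sub (add (add C x639) x647) x637) x571) x607) x697) x481) x1615) x3559) x6475) x9391) x18139) x7203)
  (sub (add (add (add (add (sub (sub (sub (add (add (add (add (add (add C x639) x643) x623) x635) x575) x611) x701) x485) x1619) x3563) x6479) x9395) x18143) x13767)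
  (sub (add (add (add (add (sub (add (add (sub (add (add (sub (sub C x655) x659) x689) x725) x545) x5) x329) x1625) x3569) x6485) x9401) x18149) x13773)
  (sub (add (add (add (add (sub (add (add (sub (add (add (sub (sub C x653) x667) x691) x727) x547) x7) x331) x1627) x3571) x6487) x9403) x18151) x7215)
  (sub (add (add (add (add (sub (add (add (sub (sub (sub (sub C x663) x653) x677) x551) x11) x335) x1631) x3575) x6491) x9407) x18155) x13779)
  (add (add (add (add (add (add (sub (add (add (sub (sub (sub (sub C x659) x669) x681) x555) x15) x339) x1635) x3579) x6495) x9411) x18159) x7225) x13787)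
  (sub (add (add (add (add (sub (add (add (sub (sub (sub (sub C x669) x655) x703) x559) x19) x343) x1639) x3583) x6499) x9415) x18163) x7227)
  (add (add (add (add (add (add (sub (add (add (sub (sub (sub (sub C x667) x663) x705) x561) x21) x345) x1641) x3585) x6501) x9417) x18165) x7231) x13793)
  (sub (add (add (add (add (sub (add (add (sub (sub (add (add (sub C x681) x689) x701) x659) x623) x29) x353) x1649) x3593) x6509) x9425) x18173) x13797)
  (add (add (add (add (add (add (sub (add (add (sub (sub (sub (sub C x677) x693) x663) x627) x33) x357) x1653) x3597) x6513) x9429) x18177) x7243) x13805)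
  (sub (add (add (add (add (sub (add (add (sub (add (add (add (add (sub C x691) x677) x701) x653) x725) x635) x41) x365) x1661) x3605) x6521) x9437) x18185) x13809)
  (sub (add (add (add (add (sub (add (add (sub (add (add (sub (sub C x689) x697) x655) x727) x637) x43) x367) x1663) x3607) x6523) x9439) x18187) x7251)
  (add (add (add (add (add (add (sub (add (add (sub (sub (sub (add (add C x697) x701) x681) x711) x639) x45) x369) x1665) x3609) x6525) x9441) x18189) x7255) x13817)
  (sub (add (add (add (add (sub (add (add (sub (sub (sub (add (add C x693) x701) x691) x715) x643) x49) x373) x1669) x3613) x6529) x9445) x18193) x7257)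
  (sub (add (add (add (add (sub (add (add (sub (sub (add (add (add (add C x693) x697) x677) x689) x719) x647) x53) x377) x1673) x3617) x6533) x9449) x18197) x13821)
  (sub (add (add (add (add (sub (add (add (add (add (sub (add (add (sub C x705) x715) x727) x667) x487) x595) x55) x379) x1675) x3619) x6535) x9451) x18199) x7263)
  (add (add (add (add (add (add (sub (add (add (add (add (sub (sub (sub C x703) x711) x669) x489) x597) x57) x381) x1677) x3621) x6537) x9453) x18201) x7267) x13829)
  (add (add (add (add (add (add (sub (add (add (add (add (sub (sub (add (add C x715) x719) x705) x693) x495) x603) x63) x387) x1683) x3627) x6543) x9459) x18207) x7273) x13835)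
  (sub (add (add (add (add (sub (add (add (add (add (sub (add (add (add (add C x711) x719) x703) x727) x697) x499) x607) x67) x391) x1687) x3631) x6547) x9463) x18211) x7275)
  (sub (add (add (add (add (sub (add (add (add (add (sub (sub (add (add C x711) x715) x725) x701) x503) x611) x71) x395) x1691) x3635) x6551) x9467) x18215) x13839)
  (sub (add (add (add (add (sub (add (add (add (add (add (add (sub (sub C x727) x719) x653) x689) x509) x617) x77) x401) x1697) x3641) x6557) x9473) x18221) x13845)
  (sub (add (add (add (add (sub (add (add (add (add (add (add (add (add (sub C x725) x703) x715) x655) x691) x511) x619) x79) x403) x1699) x3643) x6559) x9475) x18223) x7287)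
  (sub (add (add (sub (sub (add (add (add (add (add (add (add (add (sub C x735) x743) x755) x767) x803) x839) x947) x1055) x1379) x245) x2189) x9479) x18227) x13851)
  (add (add (add (add (sub (sub (add (add (add (add (add (add (sub (sub C x731) x747) x771) x807) x843) x951) x1059) x1383) x249) x2193) x9483) x18231) x7297) x13859)
  (sub (add (add (sub (sub (add (add (add (add (sub (add (add (sub C x745) x731) x755) x761) x851) x959) x1067) x1391) x257) x2201) x9491) x18239) x13863)
  (sub (add (add (sub (sub (add (add (add (add (sub (sub (sub C x743) x751) x763) x853) x961) x1069) x1393) x259) x2203) x9493) x18241) x7305)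
  (add (add (add (add (sub (sub (add (add (add (add (sub (sub (add (add C x751) x755) x735) x783) x855) x963) x1071) x1395) x261) x2205) x9495) x18243) x7309) x13871)
  (sub (add (add (sub (sub (add (add (add (add (sub (sub (add (add C x747) x755) x745) x787) x859) x967) x1075) x1399) x265) x2209) x9499) x18247) x7311)
  (sub (add (add (sub (sub (add (add (add (add (sub (add (add (add (add C x747) x751) x731) x743) x791) x863) x971) x1079) x1403) x269) x2213) x9503) x18251) x13875)
  (sub (add (add (sub (sub (add (add (sub (sub (sub (sub C x763) x767) x743) x815) x1085) x1409) x275) x2219) x9509) x18257) x13881)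
  (sub (add (add (sub (sub (add (add (sub (sub (sub (sub C x761) x775) x745) x817) x1087) x1411) x277) x2221) x9511) x18259) x7323)
  (sub (add (add (sub (sub (add (add (sub (add (add (sub (sub C x771) x761) x731) x803) x821) x1091) x1415) x281) x2225) x9515) x18263) x13887)
  (add (add (add (add (sub (sub (add (add (sub (add (add (sub (sub C x767) x777) x735) x807) x825) x1095) x1419) x285) x2229) x9519) x18267) x7333) x13895)
  (sub (add (add (sub (sub (add (add (sub (sub (sub (sub C x777) x763) x793) x829) x1099) x1423) x289) x2233) x9523) x18271) x7335)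
  (add (add (add (add (sub (sub (add (add (sub (sub (sub (sub C x775) x771) x795) x831) x1101) x1425) x291) x2235) x9525) x18273) x7339) x13901)
  (add (add (add (add (sub (sub (add (add (sub (sub (add (add (add (add C x787) x791) x795) x807) x747) x891) x1107) x1431) x297) x2241) x9531) x18279) x7345) x13907)
  (sub (add (add (sub (sub (add (add (sub (sub (sub (add (add C x783) x791) x793) x751) x895) x1111) x1435) x301) x2245) x9535) x18283) x7347)
  (sub (add (add (sub (sub (add (add (sub (sub (sub (add (add C x783) x787) x803) x755) x899) x1115) x1439) x305) x2249) x9539) x18287) x13911)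
  (sub (add (add (sub (sub (add (add (sub (sub (sub (sub C x795) x787) x775) x901) x1117) x1441) x307) x2251) x9541) x18289) x7353)
  (add (add (add (add (sub (sub (add (add (sub (sub (add (add (sub C x793) x783) x807) x777) x903) x1119) x1443) x309) x2253) x9543) x18291) x7357) x13919)
  (sub (add (add (sub (sub (add (add (sub (add (add (sub (sub C x807) x791) x731) x767) x911) x1127) x1451) x317) x2261) x9551) x18299) x13923)
  (add (add (add (add (sub (sub (add (add (sub (add (add (add (add (sub C x803) x783) x795) x735) x771) x915) x1131) x1455) x321) x2265) x9555) x18303) x7369) x13931)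
  (sub (add (add (sub (sub (sub (sub (add (add (sub (sub C x817) x821) x851) x887) x761) x977) x329) x2273) x9563) x18311) x13935)
  (sub (add (add (sub (sub (sub (sub (add (add (sub (sub C x815) x829) x853) x889) x763) x979) x331) x2275) x9565) x18313) x7377)
  (sub (add (add (sub (sub (sub (sub (sub (sub (sub C x825) x815) x839) x767) x983) x335) x2279) x9569) x18317) x13941)
  (add (add (add (add (sub (sub (sub (sub (sub (sub (sub C x821) x831) x843) x771) x987) x339) x2283) x9573) x18321) x7387) x13949)
  (sub (add (add (sub (sub (sub (sub (sub (sub (sub C x831) x817) x865) x775) x991) x343) x2287) x9577) x18325) x7389)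
  (add (add (add (add (sub (sub (sub (sub (sub (sub (sub C x829) x825) x867) x777) x993) x345) x2289) x9579) x18327) x7393) x13955)
  (sub (add (add (sub (sub (sub (add (add (sub (add (add (sub C x843) x851) x863) x821) x731) x947) x1001) x353) x2297) x9587) x18335) x13959)
  (add (add (add (add (sub (sub (sub (add (add (sub (sub (sub C x839) x855) x825) x735) x951) x1005) x357) x2301) x9591) x18339) x7405) x13967)
  (sub (add (add (sub (sub (sub (add (add (add (add (add (add (sub C x853) x839) x863) x815) x887) x743) x959) x1013) x365) x2309) x9599) x18347) x13971)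
  (sub (add (add (sub (sub (sub (add (add (add (add (sub (sub C x851) x859) x817) x889) x745) x961) x1015) x367) x2311) x9601) x18349) x7413)
  (add (add (add (add (sub (sub (sub (add (add (sub (sub (add (add C x859) x863) x843) x873) x747) x963) x1017) x369) x2313) x9603) x18351) x7417) x13979)
  (sub (add (add (sub (sub (sub (add (add (sub (sub (add (add C x855) x863) x853) x877) x751) x967) x1021) x373) x2317) x9607) x18355) x7419)
  (sub (add (add (sub (sub (sub (add (add (sub (add (add (add (add C x855) x859) x839) x851) x881) x755) x971) x1025) x377) x2321) x9611) x18359) x13983)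
  (sub (add (add (sub (sub (sub (sub (sub (add (add (sub C x867) x877) x889) x829) x919) x1027) x379) x2323) x9613) x18361) x7425)
  (add (add (add (add (sub (sub (sub (sub (sub (sub (sub C x865) x873) x831) x921) x1029) x381) x2325) x9615) x18363) x7429) x13991)
  (add (add (add (add (sub (sub (sub (sub (sub (sub (add (add C x877) x881) x867) x855) x927) x1035) x387) x2331) x9621) x18369) x7435) x13997)
  (sub (add (add (sub (sub (sub (sub (sub (add (add (add (add C x873) x881) x865) x889) x859) x931) x1039) x391) x2335) x9625) x18373) x7437)
  (sub (add (add (sub (sub (sub (sub (sub (sub (add (add C x873) x877) x887) x863) x935) x1043) x395) x2339) x9629) x18377) x14001)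
  (sub (add (add (sub (sub (sub (sub (add (add (sub (sub C x889) x881) x815) x851) x941) x1049) x401) x2345) x9635) x18383) x14007)
  (sub (add (add (sub (sub (sub (sub (add (add (add (add (sub C x887) x865) x877) x817) x853) x943) x1051) x403) x2347) x9637) x18385) x7449)
  (add (add (add (add (sub (sub (sub (sub (add (add (add (add (add (add C x895) x899) x903) x915) x927) x963) x783) x1215) x405) x2349) x9639) x18387) x7453) x14015)
  (sub (add (add (sub (sub (sub (sub (add (add (sub (add (add C x891) x899) x901) x931) x967) x787) x1219) x409) x2353) x9643) x18391) x7455)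
  (sub (add (add (sub (sub (sub (sub (add (add (sub (add (add C x891) x895) x911) x935) x971) x791) x1223) x413) x2357) x9647) x18395) x14019)
  (sub (add (add (sub (sub (sub (sub (sub (sub (sub C x903) x895) x919) x793) x1225) x415) x2359) x9649) x18397) x7461)
  (add (add (add (add (sub (sub (sub (sub (sub (add (add (sub C x901) x891) x915) x921) x795) x1227) x417) x2361) x9651) x18399) x7465) x14027)
  (sub (add (add (sub (sub (sub (sub (sub (sub (sub C x915) x899) x947) x803) x1235) x425) x2369) x9659) x18407) x14031)
  (add (add (add (add (sub (sub (sub (sub (sub (add (add (sub C x911) x891) x903) x951) x807) x1239) x429) x2373) x9663) x18411) x7477) x14039)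
  (sub (add (add (sub (sub (sub (sub (sub (add (add (sub C x921) x931) x943) x901) x865) x1243) x433) x2377) x9667) x18415) x7479)
  (add (add (add (add (sub (sub (sub (sub (sub (sub (sub C x919) x927) x903) x867) x1245) x435) x2379) x9669) x18417) x7483) x14045)
  (add (add (add (add (sub (sub (sub (sub (add (add (sub (add (add C x931) x935) x921) x891) x963) x873) x1251) x441) x2385) x9675) x18423) x7489) x14051)
  (sub (add (add (sub (sub (sub (sub (add (add (add (add (add (add C x927) x935) x919) x943) x895) x967) x877) x1255) x445) x2389) x9679) x18427) x7491)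
  (sub (add (add (sub (sub (sub (sub (add (add (sub (add (add C x927) x931) x941) x899) x971) x881) x1259) x449) x2393) x9683) x18431) x14055)
  (sub (add (add (sub (sub (sub (sub (sub (sub (sub C x943) x935) x959) x887) x1265) x455) x2399) x9689) x18437) x14061)
  (sub (add (add (sub (sub (sub (sub (sub (add (add (sub C x941) x919) x931) x961) x889) x1267) x457) x2401) x9691) x18439) x7503)
  (sub (add (add (sub (sub (sub (add (add (sub (add (add (sub C x951) x959) x971) x911) x731) x839) x1271) x461) x2405) x9695) x18443) x14067)
  (add (add (add (add (sub (sub (sub (add (add (sub (sub (sub C x947) x963) x915) x735) x843) x1275) x465) x2409) x9699) x18447) x7513) x14075)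
  (sub (add (add (sub (sub (sub (add (add (sub (add (add (sub C x961) x947) x971) x941) x743) x851) x1283) x473) x2417) x9707) x18455) x14079)
  (sub (add (add (sub (sub (sub (add (add (sub (sub (sub C x959) x967) x943) x745) x853) x1285) x475) x2419) x9709) x18457) x7521)
  (add (add (add (add (sub (sub (sub (add (add (add (add (sub (add (add C x967) x971) x951) x891) x927) x747) x855) x1287) x477) x2421) x9711) x18459) x7525) x14087)
  (sub (add (add (sub (sub (sub (add (add (add (add (sub (add (add C x963) x971) x961) x895) x931) x751) x859) x1291) x481) x2425) x9715) x18463) x7527)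
  (sub (add (add (sub (sub (sub (add (add (add (add (add (add (add (add C x963) x967) x947) x959) x899) x935) x755) x863) x1295) x485) x2429) x9719) x18467) x14091)
  (sub (add (add (sub (add (add (sub (add (add (add (add (sub (sub C x979) x983) x1013) x1049) x1085) x1193) x815) x5) x1949) x2435) x9725) x18473) x14097)
  (sub (add (add (sub (add (add (sub (add (add (add (add (sub (sub C x977) x991) x1015) x1051) x1087) x1195) x817) x7) x1951) x2437) x9727) x18475) x7539)
  (sub (add (add (sub (add (add (sub (add (add (sub (sub (sub C x987) x977) x1001) x1091) x1199) x821) x11) x1955) x2441) x9731) x18479) x14103)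
  (add (add (add (add (sub (add (add (sub (add (add (sub (sub (sub C x983) x993) x1005) x1095) x1203) x825) x15) x1959) x2445) x9735) x18483) x7549) x14111)
  (sub (add (add (sub (add (add (sub (add (add (sub (sub (sub C x993) x979) x1027) x1099) x1207) x829) x19) x1963) x2449) x9739) x18487) x7551)
  (add (add (add (add (sub (add (add (sub (add (add (sub (sub (sub C x991) x987) x1029) x1101) x1209) x831) x21) x1965) x2451) x9741) x18489) x7555) x14117)
  (sub (add (add (sub (add (add (sub (sub (sub (add (add (sub C x1005) x1013) x1025) x983) x1055) x839) x29) x1973) x2459) x9749) x18497) x14121)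
  (add (add (add (add (sub (add (add (sub (sub (sub (sub (sub C x1001) x1017) x987) x1059) x843) x33) x1977) x2463) x9753) x18501) x7567) x14129)
  (sub (add (add (sub (add (add (sub (sub (add (add (add (add (sub C x1015) x1001) x1025) x977) x1049) x1067) x851) x41) x1985) x2471) x9761) x18509) x14133)
  (sub (add (add (sub (add (add (sub (sub (add (add (sub (sub C x1013) x1021) x979) x1051) x1069) x853) x43) x1987) x2473) x9763) x18511) x7575)
  (add (add (add (add (sub (add (add (sub (sub (sub (sub (add (add C x1021) x1025) x1005) x1035) x1071) x855) x45) x1989) x2475) x9765) x18513) x7579) x14141)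
  (sub (add (add (sub (add (add (sub (sub (sub (sub (add (add C x1017) x1025) x1015) x1039) x1075) x859) x49) x1993) x2479) x9769) x18517) x7581)
  (sub (add (add (sub (add (add (sub (sub (sub (add (add (add (add C x1017) x1021) x1001) x1013) x1043) x1079) x863) x53) x1997) x2483) x9773) x18521) x14145)
  (sub (add (add (sub (add (add (sub (sub (sub (add (add (sub C x1029) x1039) x1051) x991) x1135) x865) x55) x1999) x2485) x9775) x18523) x7587)
  (add (add (add (add (sub (add (add (sub (sub (sub (sub (sub C x1027) x1035) x993) x1137) x867) x57) x2001) x2487) x9777) x18525) x7591) x14153)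
  (add (add (add (add (sub (add (add (sub (sub (sub (sub (add (add C x1039) x1043) x1029) x1017) x1143) x873) x63) x2007) x2493) x9783) x18531) x7597) x14159)
  (sub (add (add (sub (add (add (sub (sub (sub (add (add (add (add C x1035) x1043) x1027) x1051) x1021) x1147) x877) x67) x2011) x2497) x9787) x18535) x7599)
  (sub (add (add (sub (add (add (sub (sub (sub (sub (add (add C x1035) x1039) x1049) x1025) x1151) x881) x71) x2015) x2501) x9791) x18539) x14163)
  (sub (add (add (sub (add (add (sub (sub (add (add (sub (sub C x1051) x1043) x977) x1013) x1157) x887) x77) x2021) x2507) x9797) x18545) x14169)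
  (sub (add (add (sub (add (add (sub (sub (add (add (add (add (sub C x1049) x1027) x1039) x979) x1015) x1159) x889) x79) x2023) x2509) x9799) x18547) x7611)
  (sub (add (add (sub (add (add (add (add (sub (add (add (add (add (sub C x1059) x1067) x1079) x1091) x1127) x1001) x731) x1379) x83) x2027) x2513) x9803) x18551) x14175)
  (add (add (add (add (sub (add (add (add (add (sub (add (add (sub (sub C x1055) x1071) x1095) x1131) x1005) x735) x1383) x87) x2031) x2517) x9807) x18555) x7621) x14183)
  (sub (add (add (sub (add (add (add (add (sub (sub (add (add (sub C x1069) x1055) x1079) x1085) x1013) x743) x1391) x95) x2039) x2525) x9815) x18563) x14187)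
  (sub (add (add (sub (add (add (add (add (sub (sub (sub (sub C x1067) x1075) x1087) x1015) x745) x1393) x97) x2041) x2527) x9817) x18565) x7629)
  (add (add (add (add (sub (add (add (add (add (sub (sub (sub (add (add C x1075) x1079) x1059) x1107) x1017) x747) x1395) x99) x2043) x2529) x9819) x18567) x7633) x14195)
  (sub (add (add (sub (add (add (add (add (sub (sub (sub (add (add C x1071) x1079) x1069) x1111) x1021) x751) x1399) x103) x2047) x2533) x9823) x18571) x7635)
  (sub (add (add (sub (add (add (add (add (sub (sub (add (add (add (add C x1071) x1075) x1055) x1067) x1115) x1025) x755) x1403) x107) x2051) x2537) x9827) x18575) x14199)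
  (sub (add (add (sub (add (add (add (add (add (add (sub (sub (sub C x1087) x1091) x1067) x977) x1193) x761) x1409) x113) x2057) x2543) x9833) x18581) x14205)
  (sub (add (add (sub (add (add (add (add (add (add (sub (sub (sub C x1085) x1099) x1069) x979) x1195) x763) x1411) x115) x2059) x2545) x9835) x18583) x7647)
  (sub (add (add (sub (add (add (add (add (add (add (add (add (sub (sub C x1095) x1085) x1055) x1127) x983) x1199) x767) x1415) x119) x2063) x2549) x9839) x18587) x14211)
  (add (add (add (add (sub (add (add (add (add (add (add (add (add (sub (sub C x1091) x1101) x1059) x1131) x987) x1203) x771) x1419) x123) x2067) x2553) x9843) x18591) x7657) x14219)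
  (sub (add (add (sub (add (add (add (add (add (add (sub (sub (sub C x1101) x1087) x1117) x991) x1207) x775) x1423) x127) x2071) x2557) x9847) x18595) x7659)
  (add (add (add (add (sub (add (add (add (add (add (add (sub (sub (sub C x1099) x1095) x1119) x993) x1209) x777) x1425) x129) x2073) x2559) x9849) x18597) x7663) x14225)
  (add (add (add (add (sub (add (add (add (add (sub (sub (add (add (add (add C x1111) x1115) x1119) x1131) x1071) x1161) x783) x1431) x135) x2079) x2565) x9855) x18603) x7669) x14231)
  (sub (add (add (sub (add (add (add (add (sub (sub (sub (add (add C x1107) x1115) x1117) x1075) x1165) x787) x1435) x139) x2083) x2569) x9859) x18607) x7671)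
  (sub (add (add (sub (add (add (add (add (sub (sub (sub (add (add C x1107) x1111) x1127) x1079) x1169) x791) x1439) x143) x2087) x2573) x9863) x18611) x14235)
  (sub (add (add (sub (add (add (add (add (sub (sub (sub (sub C x1119) x1111) x1099) x1171) x793) x1441) x145) x2089) x2575) x9865) x18613) x7677)
  (add (add (add (add (sub (add (add (add (add (sub (sub (add (add (sub C x1117) x1107) x1131) x1101) x1173) x795) x1443) x147) x2091) x2577) x9867) x18615) x7681) x14243)
  (sub (add (add (sub (add (add (add (add (sub (add (add (sub (sub C x1131) x1115) x1055) x1091) x1181) x803) x1451) x155) x2099) x2585) x9875) x18623) x14247)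
  (add (add (add (add (sub (add (add (add (add (sub (add (add (add (add (sub C x1127) x1107) x1119) x1059) x1095) x1185) x807) x1455) x159) x2103) x2589) x9879) x18627) x7693) x14255)
  (sub (add (add (sub (add (add (sub (sub (add (add (add (add (sub C x1137) x1147) x1159) x1171) x1207) x1027) x1297) x163) x2107) x2593) x9883) x18631) x7695)
  (add (add (add (add (sub (add (add (sub (sub (add (add (sub (sub C x1135) x1143) x1173) x1209) x1029) x1299) x165) x2109) x2595) x9885) x18633) x7699) x14261)
  (add (add (add (add (sub (add (add (sub (sub (sub (sub (add (add C x1147) x1151) x1137) x1161) x1035) x1305) x171) x2115) x2601) x9891) x18639) x7705) x14267)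
  (sub (add (add (sub (add (add (sub (sub (sub (add (add (add (add C x1143) x1151) x1135) x1159) x1165) x1039) x1309) x175) x2119) x2605) x9895) x18643) x7707)
  (sub (add (add (sub (add (add (sub (sub (sub (sub (add (add C x1143) x1147) x1157) x1169) x1043) x1313) x179) x2123) x2609) x9899) x18647) x14271)
  (sub (add (add (sub (add (add (sub (sub (sub (sub (sub C x1159) x1151) x1193) x1049) x1319) x185) x2129) x2615) x9905) x18653) x14277)
  (sub (add (add (sub (add (add (sub (sub (sub (add (add (sub C x1157) x1135) x1147) x1195) x1051) x1321) x187) x2131) x2617) x9907) x18655) x7719)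
  (add (add (add (add (sub (add (add (sub (sub (sub (add (add (add (add C x1165) x1169) x1173) x1185) x1143) x1107) x1323) x189) x2133) x2619) x9909) x18657) x7723) x14285)
  (sub (add (add (sub (add (add (sub (sub (sub (sub (add (add C x1161) x1169) x1171) x1147) x1111) x1327) x193) x2137) x2623) x9913) x18661) x7725)
  (sub (add (add (sub (add (add (sub (sub (sub (sub (add (add C x1161) x1165) x1181) x1151) x1115) x1331) x197) x2141) x2627) x9917) x18665) x14289)
  (sub (add (add (sub (add (add (sub (sub (add (add (sub (sub C x1173) x1165) x1135) x1207) x1117) x1333) x199) x2143) x2629) x9919) x18667) x7731)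
  (add (add (add (add (sub (add (add (sub (sub (add (add (add (add (sub C x1171) x1161) x1185) x1137) x1209) x1119) x1335) x201) x2145) x2631) x9921) x18669) x7735) x14297)
  (sub (add (add (sub (add (add (sub (sub (sub (sub (sub C x1185) x1169) x1199) x1127) x1343) x209) x2153) x2639) x9929) x18677) x14301)
  (add (add (add (add (sub (add (add (sub (sub (sub (add (add (sub C x1181) x1161) x1173) x1203) x1131) x1347) x213) x2157) x2643) x9933) x18681) x7747) x14309)
  (sub (add (add (sub (add (add (sub (add (add (sub (sub (sub C x1195) x1199) x1157) x977) x1085) x1355) x221) x2165) x2651) x9941) x18689) x14313)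
  (sub (add (add (sub (add (add (sub (add (add (sub (sub (sub C x1193) x1207) x1159) x979) x1087) x1357) x223) x2167) x2653) x9943) x18691) x7755)
  (sub (add (add (sub (add (add (sub (add (add (sub (sub (sub C x1203) x1193) x1181) x983) x1091) x1361) x227) x2171) x2657) x9947) x18695) x14319)
  (add (add (add (add (sub (add (add (sub (add (add (sub (sub (sub C x1199) x1209) x1185) x987) x1095) x1365) x231) x2175) x2661) x9951) x18699) x7765) x14327)
  (sub (add (add (sub (add (add (sub (add (add (add (add (sub (sub C x1209) x1195) x1135) x1171) x991) x1099) x1369) x235) x2179) x2665) x9955) x18703) x7767)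
  (add (add (add (add (sub (add (add (sub (add (add (add (add (sub (sub C x1207) x1203) x1137) x1173) x993) x1101) x1371) x237) x2181) x2667) x9957) x18705) x7771) x14333)
  (add (add (add (add (sub (sub (sub (add (add (add (add (add (add (add (add C x1219) x1223) x1227) x1239) x1251) x1287) x1323) x1431) x891) x1701) x2673) x9963) x18711) x7777) x14339)
  (sub (add (add (sub (sub (sub (add (add (add (add (sub (add (add C x1215) x1223) x1225) x1255) x1291) x1327) x1435) x895) x1705) x2677) x9967) x18715) x7779)
  (sub (add (add (sub (sub (sub (add (add (add (add (sub (add (add C x1215) x1219) x1235) x1259) x1295) x1331) x1439) x899) x1709) x2681) x9971) x18719) x14343)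
  (sub (add (add (sub (sub (sub (add (add (sub (sub (sub C x1227) x1219) x1243) x1333) x1441) x901) x1711) x2683) x9973) x18721) x7785)
  (add (add (add (add (sub (sub (sub (add (add (sub (add (add (sub C x1225) x1215) x1239) x1245) x1335) x1443) x903) x1713) x2685) x9975) x18723) x7789) x14351)
  (sub (add (add (sub (sub (sub (add (add (sub (sub (sub C x1239) x1223) x1271) x1343) x1451) x911) x1721) x2693) x9983) x18731) x14355)
  (add (add (add (add (sub (sub (sub (add (add (sub (add (add (sub C x1235) x1215) x1227) x1275) x1347) x1455) x915) x1725) x2697) x9987) x18735) x7801) x14363)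
  (sub (add (add (sub (sub (sub (sub (sub (add (add (sub C x1245) x1255) x1267) x1225) x1297) x919) x1729) x2701) x9991) x18739) x7803)
  (add (add (add (add (sub (sub (sub (sub (sub (sub (sub C x1243) x1251) x1227) x1299) x921) x1731) x2703) x9993) x18741) x7807) x14369)
  (add (add (add (add (sub (sub (sub (sub (add (add (sub (add (add C x1255) x1259) x1245) x1215) x1287) x1305) x927) x1737) x2709) x9999) x18747) x7813) x14375)
  (sub (add (add (sub (sub (sub (sub (add (add (add (add (add (add C x1251) x1259) x1243) x1267) x1219) x1291) x1309) x931) x1741) x2713) x10003) x18751) x7815)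
  (sub (add (add (sub (sub (sub (sub (add (add (sub (add (add C x1251) x1255) x1265) x1223) x1295) x1313) x935) x1745) x2717) x10007) x18755) x14379)
  (sub (add (add (sub (sub (sub (sub (sub (sub (sub C x1267) x1259) x1283) x1319) x941) x1751) x2723) x10013) x18761) x14385)
  (sub (add (add (sub (sub (sub (sub (sub (add (add (sub C x1265) x1243) x1255) x1285) x1321) x943) x1753) x2725) x10015) x18763) x7827)
  (sub (add (add (sub (sub (sub (sub (sub (add (add (sub C x1275) x1283) x1295) x1235) x1379) x947) x1757) x2729) x10019) x18767) x14391)
  (add (add (add (add (sub (sub (sub (sub (sub (sub (sub C x1271) x1287) x1239) x1383) x951) x1761) x2733) x10023) x18771) x7837) x14399)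
  (sub (add (add (sub (sub (sub (sub (sub (add (add (sub C x1285) x1271) x1295) x1265) x1391) x959) x1769) x2741) x10031) x18779) x14403)
  (sub (add (add (sub (sub (sub (sub (sub (sub (sub C x1283) x1291) x1267) x1393) x961) x1771) x2743) x10033) x18781) x7845)
  (add (add (add (add (sub (sub (sub (sub (add (add (sub (add (add C x1291) x1295) x1275) x1215) x1251) x1395) x963) x1773) x2745) x10035) x18783) x7849) x14411)
  (sub (add (add (sub (sub (sub (sub (add (add (sub (add (add C x1287) x1295) x1285) x1219) x1255) x1399) x967) x1777) x2749) x10039) x18787) x7851)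
  (sub (add (add (sub (sub (sub (sub (add (add (add (add (add (add C x1287) x1291) x1271) x1283) x1223) x1259) x1403) x971) x1781) x2753) x10043) x18791) x14415)
  (sub (add (add (sub (sub (sub (sub (add (add (add (add (sub C x1299) x1309) x1321) x1333) x1369) x1243) x1135) x1783) x2755) x10045) x18793) x7857)
  (add (add (add (add (sub (sub (sub (sub (add (add (sub (sub C x1297) x1305) x1335) x1371) x1245) x1137) x1785) x2757) x10047) x18795) x7861) x14423)
  (add (add (add (add (sub (sub (sub (sub (sub (sub (add (add C x1309) x1313) x1299) x1323) x1251) x1143) x1791) x2763) x10053) x18801) x7867) x14429)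
  (sub (add (add (sub (sub (sub (sub (sub (add (add (add (add C x1305) x1313) x1297) x1321) x1327) x1255) x1147) x1795) x2767) x10057) x18805) x7869)
  (sub (add (add (sub (sub (sub (sub (sub (sub (add (add C x1305) x1309) x1319) x1331) x1259) x1151) x1799) x2771) x10061) x18809) x14433)
  (sub (add (add (sub (sub (sub (sub (sub (sub (sub C x1321) x1313) x1355) x1265) x1157) x1805) x2777) x10067) x18815) x14439)
  (sub (add (add (sub (sub (sub (sub (sub (add (add (sub C x1319) x1297) x1309) x1357) x1267) x1159) x1807) x2779) x10069) x18817) x7881)
  (add (add (add (add (sub (sub (sub (add (add (sub (add (add (add (add C x1327) x1331) x1335) x1347) x1305) x1215) x1431) x1161) x1809) x2781) x10071) x18819) x7885) x14447)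
  (sub (add (add (sub (sub (sub (add (add (sub (sub (add (add C x1323) x1331) x1333) x1309) x1219) x1435) x1165) x1813) x2785) x10075) x18823) x7887)
  (sub (add (add (sub (sub (sub (add (add (sub (sub (add (add C x1323) x1327) x1343) x1313) x1223) x1439) x1169) x1817) x2789) x10079) x18827) x14451)
  (sub (add (add (sub (sub (sub (add (add (add (add (sub (sub C x1335) x1327) x1297) x1369) x1225) x1441) x1171) x1819) x2791) x10081) x18829) x7893)
  (add (add (add (add (sub (sub (sub (add (add (add (add (add (add (sub C x1333) x1323) x1347) x1299) x1371) x1227) x1443) x1173) x1821) x2793) x10083) x18831) x7897) x14459)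
  (sub (add (add (sub (sub (sub (add (add (sub (sub (sub C x1347) x1331) x1361) x1235) x1451) x1181) x1829) x2801) x10091) x18839) x14463)
  (add (add (add (add (sub (sub (sub (add (add (sub (add (add (sub C x1343) x1323) x1335) x1365) x1239) x1455) x1185) x1833) x2805) x10095) x18843) x7909) x14471)
  (sub (add (add (sub (sub (sub (sub (sub (sub (sub C x1357) x1361) x1319) x1409) x1193) x1841) x2813) x10103) x18851) x14475)
  (sub (add (add (sub (sub (sub (sub (sub (sub (sub C x1355) x1369) x1321) x1411) x1195) x1843) x2815) x10105) x18853) x7917)
  (sub (add (add (sub (sub (sub (sub (sub (sub (sub C x1365) x1355) x1343) x1415) x1199) x1847) x2819) x10109) x18857) x14481)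
  (add (add (add (add (sub (sub (sub (sub (sub (sub (sub C x1361) x1371) x1347) x1419) x1203) x1851) x2823) x10113) x18861) x7927) x14489)
  (sub (add (add (sub (sub (sub (sub (add (add (sub (sub C x1371) x1357) x1297) x1333) x1423) x1207) x1855) x2827) x10117) x18865) x7929)
  (add (add (add (add (sub (sub (sub (sub (add (add (sub (sub C x1369) x1365) x1299) x1335) x1425) x1209) x1857) x2829) x10119) x18867) x7933) x14495)
  (sub (add (add (sub (sub (add (add (sub (add (add (add (add (sub C x1383) x1391) x1403) x1415) x1451) x1271) x731) x1055) x1865) x2837) x10127) x18875) x14499)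
  (add (add (add (add (sub (sub (add (add (sub (add (add (sub (sub C x1379) x1395) x1419) x1455) x1275) x735) x1059) x1869) x2841) x10131) x18879) x7945) x14507)
  (sub (add (add (sub (sub (add (add (sub (sub (add (add (sub C x1393) x1379) x1403) x1409) x1283) x743) x1067) x1877) x2849) x10139) x18887) x14511)
  (sub (add (add (sub (sub (add (add (sub (sub (sub (sub C x1391) x1399) x1411) x1285) x745) x1069) x1879) x2851) x10141) x18889) x7953)
  (add (add (add (add (sub (sub (add (add (sub (sub (sub (add (add C x1399) x1403) x1383) x1431) x1287) x747) x1071) x1881) x2853) x10143) x18891) x7957) x14519)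
  (sub (add (add (sub (sub (add (add (sub (sub (sub (add (add C x1395) x1403) x1393) x1435) x1291) x751) x1075) x1885) x2857) x10147) x18895) x7959)
  (sub (add (add (sub (sub (add (add (sub (sub (add (add (add (add C x1395) x1399) x1379) x1391) x1439) x1295) x755) x1079) x1889) x2861) x10151) x18899) x14523)
  (sub (add (add (sub (sub (add (add (sub (sub (sub (sub C x1411) x1415) x1391) x1355) x761) x1085) x1895) x2867) x10157) x18905) x14529)
  (sub (add (add (sub (sub (add (add (sub (sub (sub (sub C x1409) x1423) x1393) x1357) x763) x1087) x1897) x2869) x10159) x18907) x7971)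
  (sub (add (add (sub (sub (add (add (sub (add (add (sub (sub C x1419) x1409) x1379) x1451) x1361) x767) x1091) x1901) x2873) x10163) x18911) x14535)
  (add (add (add (add (sub (sub (add (add (sub (add (add (sub (sub C x1415) x1425) x1383) x1455) x1365) x771) x1095) x1905) x2877) x10167) x18915) x7981) x14543)
  (sub (add (add (sub (sub (add (add (sub (sub (sub (sub C x1425) x1411) x1441) x1369) x775) x1099) x1909) x2881) x10171) x18919) x7983)
  (add (add (add (add (sub (sub (add (add (sub (sub (sub (sub C x1423) x1419) x1443) x1371) x777) x1101) x1911) x2883) x10173) x18921) x7987) x14549)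
  (add (add (add (add (sub (sub (add (add (add (add (sub (add (add (add (add C x1435) x1439) x1443) x1455) x1395) x1215) x1323) x783) x1107) x1917) x2889) x10179) x18927) x7993) x14555)
  (sub (add (add (sub (sub (add (add (add (add (sub (sub (add (add C x1431) x1439) x1441) x1399) x1219) x1327) x787) x1111) x1921) x2893) x10183) x18931) x7995)
  (sub (add (add (sub (sub (add (add (add (add (sub (sub (add (add C x1431) x1435) x1451) x1403) x1223) x1331) x791) x1115) x1925) x2897) x10187) x18935) x14559)
  (sub (add (add (sub (sub (add (add (add (add (sub (sub (sub C x1443) x1435) x1423) x1225) x1333) x793) x1117) x1927) x2899) x10189) x18937) x8001)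
  (add (add (add (add (sub (sub (add (add (add (add (sub (add (add (sub C x1441) x1431) x1455) x1425) x1227) x1335) x795) x1119) x1929) x2901) x10191) x18939) x8005) x14567)
  (sub (add (add (sub (sub (add (add (add (add (add (add (sub (sub C x1455) x1439) x1379) x1415) x1235) x1343) x803) x1127) x1937) x2909) x10199) x18947) x14571)
  (add (add (add (add (sub (sub (add (add (add (add (add (add (add (add (sub C x1451) x1431) x1443) x1383) x1419) x1239) x1347) x807) x1131) x1941) x2913) x10203) x18951) x8017) x14579)
  (sub (add (add (sub (sub (add (add (add (add (add (add (add (add (sub C x1461) x1471) x1483) x1495) x1531) x1567) x1675) x1783) x2107) x487) x4375) x10207) x18955) x8019)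
  (add (add (add (add (sub (sub (add (add (add (add (add (add (sub (sub C x1459) x1467) x1497) x1533) x1569) x1677) x1785) x2109) x489) x4377) x10209) x18957) x8023) x14585)
  (add (add (add (add (sub (sub (add (add (add (add (sub (sub (add (add C x1471) x1475) x1461) x1485) x1575) x1683) x1791) x2115) x495) x4383) x10215) x18963) x8029) x14591)
  (sub (add (add (sub (sub (add (add (add (add (sub (add (add (add (add C x1467) x1475) x1459) x1483) x1489) x1579) x1687) x1795) x2119) x499) x4387) x10219) x18967) x8031)
  (sub (add (add (sub (sub (add (add (add (add (sub (sub (add (add C x1467) x1471) x1481) x1493) x1583) x1691) x1799) x2123) x503) x4391) x10223) x18971) x14595)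
  (sub (add (add (sub (sub (add (add (add (add (sub (sub (sub C x1483) x1475) x1517) x1589) x1697) x1805) x2129) x509) x4397) x10229) x18977) x14601)
  (sub (add (add (sub (sub (add (add (add (add (sub (add (add (sub C x1481) x1459) x1471) x1519) x1591) x1699) x1807) x2131) x511) x4399) x10231) x18979) x8043)
  (add (add (add (add (sub (sub (add (add (sub (sub (add (add (add (add C x1489) x1493) x1497) x1509) x1467) x1539) x1809) x2133) x513) x4401) x10233) x18981) x8047) x14609)
  (sub (add (add (sub (sub (add (add (sub (sub (sub (add (add C x1485) x1493) x1495) x1471) x1543) x1813) x2137) x517) x4405) x10237) x18985) x8049)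
  (sub (add (add (sub (sub (add (add (sub (sub (sub (add (add C x1485) x1489) x1505) x1475) x1547) x1817) x2141) x521) x4409) x10241) x18989) x14613)
  (sub (add (add (sub (sub (add (add (sub (add (add (sub (sub C x1497) x1489) x1459) x1531) x1549) x1819) x2143) x523) x4411) x10243) x18991) x8055)
  (add (add (add (add (sub (sub (add (add (sub (add (add (add (add (sub C x1495) x1485) x1509) x1461) x1533) x1551) x1821) x2145) x525) x4413) x10245) x18993) x8059) x14621)
  (sub (add (add (sub (sub (add (add (sub (sub (sub (sub C x1509) x1493) x1523) x1559) x1829) x2153) x533) x4421) x10253) x19001) x14625)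
  (add (add (add (add (sub (sub (add (add (sub (sub (add (add (sub C x1505) x1485) x1497) x1527) x1563) x1833) x2157) x537) x4425) x10257) x19005) x8071) x14633)
  (sub (add (add (sub (sub (add (add (sub (sub (sub (sub C x1519) x1523) x1481) x1625) x1841) x2165) x545) x4433) x10265) x19013) x14637)
  (sub (add (add (sub (sub (add (add (sub (sub (sub (sub C x1517) x1531) x1483) x1627) x1843) x2167) x547) x4435) x10267) x19015) x8079)
  (sub (add (add (sub (sub (add (add (sub (sub (sub (sub C x1527) x1517) x1505) x1631) x1847) x2171) x551) x4439) x10271) x19019) x14643)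
  (add (add (add (add (sub (sub (add (add (sub (sub (sub (sub C x1523) x1533) x1509) x1635) x1851) x2175) x555) x4443) x10275) x19023) x8089) x14651)
  (sub (add (add (sub (sub (add (add (sub (add (add (sub (sub C x1533) x1519) x1459) x1495) x1639) x1855) x2179) x559) x4447) x10279) x19027) x8091)
  (add (add (add (add (sub (sub (add (add (sub (add (add (sub (sub C x1531) x1527) x1461) x1497) x1641) x1857) x2181) x561) x4449) x10281) x19029) x8095) x14657)
  (add (add (add (add (sub (sub (sub (sub (add (add (add (add (add (add C x1543) x1547) x1551) x1563) x1575) x1611) x1485) x1701) x567) x4455) x10287) x19035) x8101) x14663)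
  (sub (add (add (sub (sub (sub (sub (add (add (sub (add (add C x1539) x1547) x1549) x1579) x1615) x1489) x1705) x571) x4459) x10291) x19039) x8103)
  (sub (add (add (sub (sub (sub (sub (add (add (sub (add (add C x1539) x1543) x1559) x1583) x1619) x1493) x1709) x575) x4463) x10295) x19043) x14667)
  (sub (add (add (sub (sub (sub (sub (sub (sub (sub C x1551) x1543) x1567) x1495) x1711) x577) x4465) x10297) x19045) x8109)
  (add (add (add (add (sub (sub (sub (sub (sub (add (add (sub C x1549) x1539) x1563) x1569) x1497) x1713) x579) x4467) x10299) x19047) x8113) x14675)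
  (sub (add (add (sub (sub (sub (sub (sub (sub (sub C x1563) x1547) x1595) x1505) x1721) x587) x4475) x10307) x19055) x14679)
  (add (add (add (add (sub (sub (sub (sub (sub (add (add (sub C x1559) x1539) x1551) x1599) x1509) x1725) x591) x4479) x10311) x19059) x8125) x14687)
  (sub (add (add (sub (sub (sub (add (add (sub (add (add (sub C x1569) x1579) x1591) x1549) x1459) x1675) x1729) x595) x4483) x10315) x19063) x8127)
  (add (add (add (add (sub (sub (sub (add (add (sub (sub (sub C x1567) x1575) x1551) x1461) x1677) x1731) x597) x4485) x10317) x19065) x8131) x14693)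
  (add (add (add (add (sub (sub (sub (add (add (add (add (sub (add (add C x1579) x1583) x1569) x1539) x1611) x1467) x1683) x1737) x603) x4491) x10323) x19071) x8137) x14699)
  (sub (add (add (sub (sub (sub (add (add (add (add (add (add (add (add C x1575) x1583) x1567) x1591) x1543) x1615) x1471) x1687) x1741) x607) x4495) x10327) x19075) x8139)
  (sub (add (add (sub (sub (sub (add (add (add (add (sub (add (add C x1575) x1579) x1589) x1547) x1619) x1475) x1691) x1745) x611) x4499) x10331) x19079) x14703)
  (sub (add (add (sub (sub (sub (add (add (sub (sub (sub C x1591) x1583) x1607) x1481) x1697) x1751) x617) x4505) x10337) x19085) x14709)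
  (sub (add (add (sub (sub (sub (add (add (sub (add (add (sub C x1589) x1567) x1579) x1609) x1483) x1699) x1753) x619) x4507) x10339) x19087) x8151)
  (sub (add (add (sub (sub (sub (sub (sub (add (add (sub C x1599) x1607) x1619) x1559) x1649) x1757) x623) x4511) x10343) x19091) x14715)
  (add (add (add (add (sub (sub (sub (sub (sub (sub (sub C x1595) x1611) x1563) x1653) x1761) x627) x4515) x10347) x19095) x8161) x14723)
  (sub (add (add (sub (sub (sub (sub (sub (add (add (sub C x1609) x1595) x1619) x1589) x1661) x1769) x635) x4523) x10355) x19103) x14727)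
  (sub (add (add (sub (sub (sub (sub (sub (sub (sub C x1607) x1615) x1591) x1663) x1771) x637) x4525) x10357) x19105) x8169)
  (add (add (add (add (sub (sub (sub (sub (add (add (sub (add (add C x1615) x1619) x1599) x1539) x1575) x1665) x1773) x639) x4527) x10359) x19107) x8173) x14735)
  (sub (add (add (sub (sub (sub (sub (add (add (sub (add (add C x1611) x1619) x1609) x1543) x1579) x1669) x1777) x643) x4531) x10363) x19111) x8175)
  (sub (add (add (sub (sub (sub (sub (add (add (add (add (add (add C x1611) x1615) x1595) x1607) x1547) x1583) x1673) x1781) x647) x4535) x10367) x19115) x14739)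
  (sub (add (add (sub (sub (sub (sub (add (add (sub (sub C x1627) x1631) x1661) x1697) x1517) x1949) x653) x4541) x10373) x19121) x14745)
  (sub (add (add (sub (sub (sub (sub (add (add (sub (sub C x1625) x1639) x1663) x1699) x1519) x1951) x655) x4543) x10375) x19123) x8187)
  (sub (add (add (sub (sub (sub (sub (sub (sub (sub C x1635) x1625) x1649) x1523) x1955) x659) x4547) x10379) x19127) x14751)
  (add (add (add (add (sub (sub (sub (sub (sub (sub (sub C x1631) x1641) x1653) x1527) x1959) x663) x4551) x10383) x19131) x8197) x14759)
  (sub (add (add (sub (sub (sub (sub (sub (sub (sub C x1641) x1627) x1675) x1531) x1963) x667) x4555) x10387) x19135) x8199)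
  (add (add (add (add (sub (sub (sub (sub (sub (sub (sub C x1639) x1635) x1677) x1533) x1965) x669) x4557) x10389) x19137) x8203) x14765)
  (sub (add (add (sub (sub (sub (sub (sub (add (add (sub C x1653) x1661) x1673) x1631) x1595) x1973) x677) x4565) x10397) x19145) x14769)
  (add (add (add (add (sub (sub (sub (sub (sub (sub (sub C x1649) x1665) x1635) x1599) x1977) x681) x4569) x10401) x19149) x8215) x14777)
  (sub (add (add (sub (sub (sub (sub (add (add (add (add (sub C x1663) x1649) x1673) x1625) x1697) x1607) x1985) x689) x4577) x10409) x19157) x14781)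
  (sub (add (add (sub (sub (sub (sub (add (add (sub (sub C x1661) x1669) x1627) x1699) x1609) x1987) x691) x4579) x10411) x19159) x8223)
  (add (add (add (add (sub (sub (sub (sub (sub (sub (add (add C x1669) x1673) x1653) x1683) x1611) x1989) x693) x4581) x10413) x19161) x8227) x14789)
  (sub (add (add (sub (sub (sub (sub (sub (sub (add (add C x1665) x1673) x1663) x1687) x1615) x1993) x697) x4585) x10417) x19165) x8229)
  (sub (add (add (sub (sub (sub (sub (sub (add (add (add (add C x1665) x1669) x1649) x1661) x1691) x1619) x1997) x701) x4589) x10421) x19169) x14793)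
  (sub (add (add (sub (sub (sub (add (add (sub (add (add (sub C x1677) x1687) x1699) x1639) x1459) x1567) x1999) x703) x4591) x10423) x19171) x8235)
  (add (add (add (add (sub (sub (sub (add (add (sub (sub (sub C x1675) x1683) x1641) x1461) x1569) x2001) x705) x4593) x10425) x19173) x8239) x14801)
  (add (add (add (add (sub (sub (sub (add (add (sub (sub (add (add C x1687) x1691) x1677) x1665) x1467) x1575) x2007) x711) x4599) x10431) x19179) x8245) x14807)
  (sub (add (add (sub (sub (sub (add (add (sub (add (add (add (add C x1683) x1691) x1675) x1699) x1669) x1471) x1579) x2011) x715) x4603) x10435) x19183) x8247)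
  (sub (add (add (sub (sub (sub (add (add (sub (sub (add (add C x1683) x1687) x1697) x1673) x1475) x1583) x2015) x719) x4607) x10439) x19187) x14811)
  (sub (add (add (sub (sub (sub (add (add (add (add (sub (sub C x1699) x1691) x1625) x1661) x1481) x1589) x2021) x725) x4613) x10445) x19193) x14817)
  (sub (add (add (sub (sub (sub (add (add (add (add (add (add (sub C x1697) x1675) x1687) x1627) x1663) x1483) x1591) x2023) x727) x4615) x10447) x19195) x8259)
  (add (add (add (add (sub (sub (sub (add (add (add (add (add (add (add (add C x1705) x1709) x1713) x1725) x1737) x1773) x1809) x1917) x1539) x1215) x4617) x10449) x19197) x8263) x14825)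
  (sub (add (add (sub (sub (sub (add (add (add (add (sub (add (add C x1701) x1709) x1711) x1741) x1777) x1813) x1921) x1543) x1219) x4621) x10453) x19201) x8265)
  (sub (add (add (sub (sub (sub (add (add (add (add (sub (add (add C x1701) x1705) x1721) x1745) x1781) x1817) x1925) x1547) x1223) x4625) x10457) x19205) x14829)
  (sub (add (add (sub (sub (sub (add (add (sub (sub (sub C x1713) x1705) x1729) x1819) x1927) x1549) x1225) x4627) x10459) x19207) x8271)
  (add (add (add (add (sub (sub (sub (add (add (sub (add (add (sub C x1711) x1701) x1725) x1731) x1821) x1929) x1551) x1227) x4629) x10461) x19209) x8275) x14837)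
  (sub (add (add (sub (sub (sub (add (add (sub (sub (sub C x1725) x1709) x1757) x1829) x1937) x1559) x1235) x4637) x10469) x19217) x14841)
  (add (add (add (add (sub (sub (sub (add (add (sub (add (add (sub C x1721) x1701) x1713) x1761) x1833) x1941) x1563) x1239) x4641) x10473) x19221) x8287) x14849)
  (sub (add (add (sub (sub (sub (sub (sub (add (add (sub C x1731) x1741) x1753) x1711) x1783) x1567) x1243) x4645) x10477) x19225) x8289)
  (add (add (add (add (sub (sub (sub (sub (sub (sub (sub C x1729) x1737) x1713) x1785) x1569) x1245) x4647) x10479) x19227) x8293) x14855)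
  (add (add (add (add (sub (sub (sub (sub (add (add (sub (add (add C x1741) x1745) x1731) x1701) x1773) x1791) x1575) x1251) x4653) x10485) x19233) x8299) x14861)
  (sub (add (add (sub (sub (sub (sub (add (add (add (add (add (add C x1737) x1745) x1729) x1753) x1705) x1777) x1795) x1579) x1255) x4657) x10489) x19237) x8301)
  (sub (add (add (sub (sub (sub (sub (add (add (sub (add (add C x1737) x1741) x1751) x1709) x1781) x1799) x1583) x1259) x4661) x10493) x19241) x14865)
  (sub (add (add (sub (sub (sub (sub (sub (sub (sub C x1753) x1745) x1769) x1805) x1589) x1265) x4667) x10499) x19247) x14871)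
  (sub (add (add (sub (sub (sub (sub (sub (add (add (sub C x1751) x1729) x1741) x1771) x1807) x1591) x1267) x4669) x10501) x19249) x8313)
  (sub (add (add (sub (sub (sub (sub (sub (add (add (sub C x1761) x1769) x1781) x1721) x1865) x1595) x1271) x4673) x10505) x19253) x14877)
  (add (add (add (add (sub (sub (sub (sub (sub (sub (sub C x1757) x1773) x1725) x1869) x1599) x1275) x4677) x10509) x19257) x8323) x14885)
  (sub (add (add (sub (sub (sub (sub (sub (add (add (sub C x1771) x1757) x1781) x1751) x1877) x1607) x1283) x4685) x10517) x19265) x14889)
  (sub (add (add (sub (sub (sub (sub (sub (sub (sub C x1769) x1777) x1753) x1879) x1609) x1285) x4687) x10519) x19267) x8331)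
  (add (add (add (add (sub (sub (sub (sub (add (add (sub (add (add C x1777) x1781) x1761) x1701) x1737) x1881) x1611) x1287) x4689) x10521) x19269) x8335) x14897)
  (sub (add (add (sub (sub (sub (sub (add (add (sub (add (add C x1773) x1781) x1771) x1705) x1741) x1885) x1615) x1291) x4693) x10525) x19273) x8337)
  (sub (add (add (sub (sub (sub (sub (add (add (add (add (add (add C x1773) x1777) x1757) x1769) x1709) x1745) x1889) x1619) x1295) x4697) x10529) x19277) x14901)
  (sub (add (add (sub (sub (add (add (sub (add (add (add (add (sub C x1785) x1795) x1807) x1819) x1855) x1729) x1459) x2107) x1297) x4699) x10531) x19279) x8343)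
  (add (add (add (add (sub (sub (add (add (sub (add (add (sub (sub C x1783) x1791) x1821) x1857) x1731) x1461) x2109) x1299) x4701) x10533) x19281) x8347) x14909)
  (add (add (add (add (sub (sub (add (add (sub (sub (sub (add (add C x1795) x1799) x1785) x1809) x1737) x1467) x2115) x1305) x4707) x10539) x19287) x8353) x14915)
  (sub (add (add (sub (sub (add (add (sub (sub (add (add (add (add C x1791) x1799) x1783) x1807) x1813) x1741) x1471) x2119) x1309) x4711) x10543) x19291) x8355)
  (sub (add (add (sub (sub (add (add (sub (sub (sub (add (add C x1791) x1795) x1805) x1817) x1745) x1475) x2123) x1313) x4715) x10547) x19295) x14919)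
  (sub (add (add (sub (sub (add (add (sub (sub (sub (sub C x1807) x1799) x1841) x1751) x1481) x2129) x1319) x4721) x10553) x19301) x14925)
  (sub (add (add (sub (sub (add (add (sub (sub (add (add (sub C x1805) x1783) x1795) x1843) x1753) x1483) x2131) x1321) x4723) x10555) x19303) x8367)
  (add (add (add (add (sub (sub (add (add (add (add (sub (add (add (add (add C x1813) x1817) x1821) x1833) x1791) x1701) x1917) x1485) x2133) x1323) x4725) x10557) x19305) x8371) x14933)
  (sub (add (add (sub (sub (add (add (add (add (sub (sub (add (add C x1809) x1817) x1819) x1795) x1705) x1921) x1489) x2137) x1327) x4729) x10561) x19309) x8373)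
  (sub (add (add (sub (sub (add (add (add (add (sub (sub (add (add C x1809) x1813) x1829) x1799) x1709) x1925) x1493) x2141) x1331) x4733) x10565) x19313) x14937)
  (sub (add (add (sub (sub (add (add (add (add (add (add (sub (sub C x1821) x1813) x1783) x1855) x1711) x1927) x1495) x2143) x1333) x4735) x10567) x19315) x8379)
  (add (add (add (add (sub (sub (add (add (add (add (add (add (add (add (sub C x1819) x1809) x1833) x1785) x1857) x1713) x1929) x1497) x2145) x1335) x4737) x10569) x19317) x8383) x14945)
  (sub (add (add (sub (sub (add (add (add (add (sub (sub (sub C x1833) x1817) x1847) x1721) x1937) x1505) x2153) x1343) x4745) x10577) x19325) x14949)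
  (add (add (add (add (sub (sub (add (add (add (add (sub (add (add (sub C x1829) x1809) x1821) x1851) x1725) x1941) x1509) x2157) x1347) x4749) x10581) x19329) x8395) x14957)
  (sub (add (add (sub (sub (add (add (sub (sub (sub (sub C x1843) x1847) x1805) x1895) x1517) x2165) x1355) x4757) x10589) x19337) x14961)
  (sub (add (add (sub (sub (add (add (sub (sub (sub (sub C x1841) x1855) x1807) x1897) x1519) x2167) x1357) x4759) x10591) x19339) x8403)
  (sub (add (add (sub (sub (add (add (sub (sub (sub (sub C x1851) x1841) x1829) x1901) x1523) x2171) x1361) x4763) x10595) x19343) x14967)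
  (add (add (add (add (sub (sub (add (add (sub (sub (sub (sub C x1847) x1857) x1833) x1905) x1527) x2175) x1365) x4767) x10599) x19347) x8413) x14975)
  (sub (add (add (sub (sub (add (add (sub (add (add (sub (sub C x1857) x1843) x1783) x1819) x1909) x1531) x2179) x1369) x4771) x10603) x19351) x8415)
  (add (add (add (add (sub (sub (add (add (sub (add (add (sub (sub C x1855) x1851) x1785) x1821) x1911) x1533) x2181) x1371) x4773) x10605) x19353) x8419) x14981)
  (sub (add (add (sub (sub (sub (sub (add (add (add (add (sub C x1869) x1877) x1889) x1901) x1937) x1757) x2027) x1379) x4781) x10613) x19361) x14985)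
  (add (add (add (add (sub (sub (sub (sub (add (add (sub (sub C x1865) x1881) x1905) x1941) x1761) x2031) x1383) x4785) x10617) x19365) x8431) x14993)
  (sub (add (add (sub (sub (sub (sub (sub (add (add (sub C x1879) x1865) x1889) x1895) x1769) x2039) x1391) x4793) x10625) x19373) x14997)
  (sub (add (add (sub (sub (sub (sub (sub (sub (sub C x1877) x1885) x1897) x1771) x2041) x1393) x4795) x10627) x19375) x8439)
  (add (add (add (add (sub (sub (sub (sub (sub (sub (add (add C x1885) x1889) x1869) x1917) x1773) x2043) x1395) x4797) x10629) x19377) x8443) x15005)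
  (sub (add (add (sub (sub (sub (sub (sub (sub (add (add C x1881) x1889) x1879) x1921) x1777) x2047) x1399) x4801) x10633) x19381) x8445)
  (sub (add (add (sub (sub (sub (sub (sub (add (add (add (add C x1881) x1885) x1865) x1877) x1925) x1781) x2051) x1403) x4805) x10637) x19385) x15009)
  (sub (add (add (sub (sub (sub (sub (sub (sub (sub C x1897) x1901) x1877) x1841) x2057) x1409) x4811) x10643) x19391) x15015)
  (sub (add (add (sub (sub (sub (sub (sub (sub (sub C x1895) x1909) x1879) x1843) x2059) x1411) x4813) x10645) x19393) x8457)
  (sub (add (add (sub (sub (sub (sub (add (add (sub (sub C x1905) x1895) x1865) x1937) x1847) x2063) x1415) x4817) x10649) x19397) x15021)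
  (add (add (add (add (sub (sub (sub (sub (add (add (sub (sub C x1901) x1911) x1869) x1941) x1851) x2067) x1419) x4821) x10653) x19401) x8467) x15029)
  (sub (add (add (sub (sub (sub (sub (sub (sub (sub C x1911) x1897) x1927) x1855) x2071) x1423) x4825) x10657) x19405) x8469)
  (add (add (add (add (sub (sub (sub (sub (sub (sub (sub C x1909) x1905) x1929) x1857) x2073) x1425) x4827) x10659) x19407) x8473) x15035)
  (add (add (add (add (sub (sub (sub (add (add (sub (add (add (add (add C x1921) x1925) x1929) x1941) x1881) x1701) x1809) x2079) x1431) x4833) x10665) x19413) x8479) x15041)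
  (sub (add (add (sub (sub (sub (add (add (sub (sub (add (add C x1917) x1925) x1927) x1885) x1705) x1813) x2083) x1435) x4837) x10669) x19417) x8481)
  (sub (add (add (sub (sub (sub (add (add (sub (sub (add (add C x1917) x1921) x1937) x1889) x1709) x1817) x2087) x1439) x4841) x10673) x19421) x15045)
  (sub (add (add (sub (sub (sub (add (add (sub (sub (sub C x1929) x1921) x1909) x1711) x1819) x2089) x1441) x4843) x10675) x19423) x8487)
  (add (add (add (add (sub (sub (sub (add (add (sub (add (add (sub C x1927) x1917) x1941) x1911) x1713) x1821) x2091) x1443) x4845) x10677) x19425) x8491) x15053)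
  (sub (add (add (sub (sub (sub (add (add (add (add (sub (sub C x1941) x1925) x1865) x1901) x1721) x1829) x2099) x1451) x4853) x10685) x19433) x15057)
  (add (add (add (add (sub (sub (sub (add (add (add (add (add (add (sub C x1937) x1917) x1929) x1869) x1905) x1725) x1833) x2103) x1455) x4857) x10689) x19437) x8503) x15065)
  (sub (add (add (sub (add (add (sub (add (add (add (add (sub (sub C x1951) x1955) x1985) x2021) x2057) x2165) x1625) x5) x977) x4865) x10697) x19445) x15069)
  (sub (add (add (sub (add (add (sub (add (add (add (add (sub (sub C x1949) x1963) x1987) x2023) x2059) x2167) x1627) x7) x979) x4867) x10699) x19447) x8511)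
  (sub (add (add (sub (add (add (sub (add (add (sub (sub (sub C x1959) x1949) x1973) x2063) x2171) x1631) x11) x983) x4871) x10703) x19451) x15075)
  (add (add (add (add (sub (add (add (sub (add (add (sub (sub (sub C x1955) x1965) x1977) x2067) x2175) x1635) x15) x987) x4875) x10707) x19455) x8521) x15083)
  (sub (add (add (sub (add (add (sub (add (add (sub (sub (sub C x1965) x1951) x1999) x2071) x2179) x1639) x19) x991) x4879) x10711) x19459) x8523)
  (add (add (add (add (sub (add (add (sub (add (add (sub (sub (sub C x1963) x1959) x2001) x2073) x2181) x1641) x21) x993) x4881) x10713) x19461) x8527) x15089)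
  (sub (add (add (sub (add (add (sub (sub (sub (add (add (sub C x1977) x1985) x1997) x1955) x2027) x1649) x29) x1001) x4889) x10721) x19469) x15093)
  (add (add (add (add (sub (add (add (sub (sub (sub (sub (sub C x1973) x1989) x1959) x2031) x1653) x33) x1005) x4893) x10725) x19473) x8539) x15101)
  (sub (add (add (sub (add (add (sub (sub (add (add (add (add (sub C x1987) x1973) x1997) x1949) x2021) x2039) x1661) x41) x1013) x4901) x10733) x19481) x15105)
  (sub (add (add (sub (add (add (sub (sub (add (add (sub (sub C x1985) x1993) x1951) x2023) x2041) x1663) x43) x1015) x4903) x10735) x19483) x8547)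
  (add (add (add (add (sub (add (add (sub (sub (sub (sub (add (add C x1993) x1997) x1977) x2007) x2043) x1665) x45) x1017) x4905) x10737) x19485) x8551) x15113)
  (sub (add (add (sub (add (add (sub (sub (sub (sub (add (add C x1989) x1997) x1987) x2011) x2047) x1669) x49) x1021) x4909) x10741) x19489) x8553)
  (sub (add (add (sub (add (add (sub (sub (sub (add (add (add (add C x1989) x1993) x1973) x1985) x2015) x2051) x1673) x53) x1025) x4913) x10745) x19493) x15117)
  (sub (add (add (sub (add (add (sub (sub (sub (add (add (sub C x2001) x2011) x2023) x1963) x2107) x1675) x55) x1027) x4915) x10747) x19495) x8559)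
  (add (add (add (add (sub (add (add (sub (sub (sub (sub (sub C x1999) x2007) x1965) x2109) x1677) x57) x1029) x4917) x10749) x19497) x8563) x15125)
  (add (add (add (add (sub (add (add (sub (sub (sub (sub (add (add C x2011) x2015) x2001) x1989) x2115) x1683) x63) x1035) x4923) x10755) x19503) x8569) x15131)
  (sub (add (add (sub (add (add (sub (sub (sub (add (add (add (add C x2007) x2015) x1999) x2023) x1993) x2119) x1687) x67) x1039) x4927) x10759) x19507) x8571)
  (sub (add (add (sub (add (add (sub (sub (sub (sub (add (add C x2007) x2011) x2021) x1997) x2123) x1691) x71) x1043) x4931) x10763) x19511) x15135)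
  (sub (add (add (sub (add (add (sub (sub (add (add (sub (sub C x2023) x2015) x1949) x1985) x2129) x1697) x77) x1049) x4937) x10769) x19517) x15141)
  (sub (add (add (sub (add (add (sub (sub (add (add (add (add (sub C x2021) x1999) x2011) x1951) x1987) x2131) x1699) x79) x1051) x4939) x10771) x19519) x8583)
  (sub (add (add (sub (add (add (sub (sub (add (add (add (add (sub C x2031) x2039) x2051) x2063) x2099) x1973) x1865) x83) x1055) x4943) x10775) x19523) x15147)
  (add (add (add (add (sub (add (add (sub (sub (add (add (sub (sub C x2027) x2043) x2067) x2103) x1977) x1869) x87) x1059) x4947) x10779) x19527) x8593) x15155)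
  (sub (add (add (sub (add (add (sub (sub (sub (add (add (sub C x2041) x2027) x2051) x2057) x1985) x1877) x95) x1067) x4955) x10787) x19535) x15159)
  (sub (add (add (sub (add (add (sub (sub (sub (sub (sub C x2039) x2047) x2059) x1987) x1879) x97) x1069) x4957) x10789) x19537) x8601)
  (add (add (add (add (sub (add (add (sub (sub (sub (sub (add (add C x2047) x2051) x2031) x2079) x1989) x1881) x99) x1071) x4959) x10791) x19539) x8605) x15167)
  (sub (add (add (sub (add (add (sub (sub (sub (sub (add (add C x2043) x2051) x2041) x2083) x1993) x1885) x103) x1075) x4963) x10795) x19543) x8607)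
  (sub (add (add (sub (add (add (sub (sub (sub (add (add (add (add C x2043) x2047) x2027) x2039) x2087) x1997) x1889) x107) x1079) x4967) x10799) x19547) x15171)
  (sub (add (add (sub (add (add (sub (add (add (sub (sub (sub C x2059) x2063) x2039) x1949) x2165) x1895) x113) x1085) x4973) x10805) x19553) x15177)
  (sub (add (add (sub (add (add (sub (add (add (sub (sub (sub C x2057) x2071) x2041) x1951) x2167) x1897) x115) x1087) x4975) x10807) x19555) x8619)
  (sub (add (add (sub (add (add (sub (add (add (add (add (sub (sub C x2067) x2057) x2027) x2099) x1955) x2171) x1901) x119) x1091) x4979) x10811) x19559) x15183)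
  (add (add (add (add (sub (add (add (sub (add (add (add (add (sub (sub C x2063) x2073) x2031) x2103) x1959) x2175) x1905) x123) x1095) x4983) x10815) x19563) x8629) x15191)
  (sub (add (add (sub (add (add (sub (add (add (sub (sub (sub C x2073) x2059) x2089) x1963) x2179) x1909) x127) x1099) x4987) x10819) x19567) x8631)
  (add (add (add (add (sub (add (add (sub (add (add (sub (sub (sub C x2071) x2067) x2091) x1965) x2181) x1911) x129) x1101) x4989) x10821) x19569) x8635) x15197)
  (add (add (add (add (sub (add (add (sub (sub (sub (add (add (add (add C x2083) x2087) x2091) x2103) x2043) x2133) x1917) x135) x1107) x4995) x10827) x19575) x8641) x15203)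
  (sub (add (add (sub (add (add (sub (sub (sub (sub (add (add C x2079) x2087) x2089) x2047) x2137) x1921) x139) x1111) x4999) x10831) x19579) x8643)
  (sub (add (add (sub (add (add (sub (sub (sub (sub (add (add C x2079) x2083) x2099) x2051) x2141) x1925) x143) x1115) x5003) x10835) x19583) x15207)
  (sub (add (add (sub (add (add (sub (sub (sub (sub (sub C x2091) x2083) x2071) x2143) x1927) x145) x1117) x5005) x10837) x19585) x8649)
  (add (add (add (add (sub (add (add (sub (sub (sub (add (add (sub C x2089) x2079) x2103) x2073) x2145) x1929) x147) x1119) x5007) x10839) x19587) x8653) x15215)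
  (sub (add (add (sub (add (add (sub (sub (add (add (sub (sub C x2103) x2087) x2027) x2063) x2153) x1937) x155) x1127) x5015) x10847) x19595) x15219)
  (add (add (add (add (sub (add (add (sub (sub (add (add (add (add (sub C x2099) x2079) x2091) x2031) x2067) x2157) x1941) x159) x1131) x5019) x10851) x19599) x8665) x15227)
  (sub (add (add (sub (add (add (add (add (sub (add (add (add (add (sub C x2109) x2119) x2131) x2143) x2179) x1999) x1459) x1783) x163) x1135) x5023) x10855) x19603) x8667)
  (add (add (add (add (sub (add (add (add (add (sub (add (add (sub (sub C x2107) x2115) x2145) x2181) x2001) x1461) x1785) x165) x1137) x5025) x10857) x19605) x8671) x15233)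
  (add (add (add (add (sub (add (add (add (add (sub (sub (sub (add (add C x2119) x2123) x2109) x2133) x2007) x1467) x1791) x171) x1143) x5031) x10863) x19611) x8677) x15239)
  (sub (add (add (sub (add (add (add (add (sub (sub (add (add (add (add C x2115) x2123) x2107) x2131) x2137) x2011) x1471) x1795) x175) x1147) x5035) x10867) x19615) x8679)
  (sub (add (add (sub (add (add (add (add (sub (sub (sub (add (add C x2115) x2119) x2129) x2141) x2015) x1475) x1799) x179) x1151) x5039) x10871) x19619) x15243)
  (sub (add (add (sub (add (add (add (add (sub (sub (sub (sub C x2131) x2123) x2165) x2021) x1481) x1805) x185) x1157) x5045) x10877) x19625) x15249)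
  (sub (add (add (sub (add (add (add (add (sub (sub (add (add (sub C x2129) x2107) x2119) x2167) x2023) x1483) x1807) x187) x1159) x5047) x10879) x19627) x8691)
  (add (add (add (add (sub (add (add (add (add (sub (sub (add (add (add (add C x2137) x2141) x2145) x2157) x2115) x2079) x1485) x1809) x189) x1161) x5049) x10881) x19629) x8695) x15257)
  (sub (add (add (sub (add (add (add (add (sub (sub (sub (add (add C x2133) x2141) x2143) x2119) x2083) x1489) x1813) x193) x1165) x5053) x10885) x19633) x8697)
  (sub (add (add (sub (add (add (add (add (sub (sub (sub (add (add C x2133) x2137) x2153) x2123) x2087) x1493) x1817) x197) x1169) x5057) x10889) x19637) x15261)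
  (sub (add (add (sub (add (add (add (add (sub (add (add (sub (sub C x2145) x2137) x2107) x2179) x2089) x1495) x1819) x199) x1171) x5059) x10891) x19639) x8703)
  (add (add (add (add (sub (add (add (add (add (sub (add (add (add (add (sub C x2143) x2133) x2157) x2109) x2181) x2091) x1497) x1821) x201) x1173) x5061) x10893) x19641) x8707) x15269)
  (sub (add (add (sub (add (add (add (add (sub (sub (sub (sub C x2157) x2141) x2171) x2099) x1505) x1829) x209) x1181) x5069) x10901) x19649) x15273)
  (add (add (add (add (sub (add (add (add (add (sub (sub (add (add (sub C x2153) x2133) x2145) x2175) x2103) x1509) x1833) x213) x1185) x5073) x10905) x19653) x8719) x15281)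
  (sub (add (add (sub (add (add (add (add (add (add (sub (sub (sub C x2167) x2171) x2129) x1949) x2057) x1517) x1841) x221) x1193) x5081) x10913) x19661) x15285)
  (sub (add (add (sub (add (add (add (add (add (add (sub (sub (sub C x2165) x2179) x2131) x1951) x2059) x1519) x1843) x223) x1195) x5083) x10915) x19663) x8727)
  (sub (add (add (sub (add (add (add (add (add (add (sub (sub (sub C x2175) x2165) x2153) x1955) x2063) x1523) x1847) x227) x1199) x5087) x10919) x19667) x15291)
  (add (add (add (add (sub (add (add (add (add (add (add (sub (sub (sub C x2171) x2181) x2157) x1959) x2067) x1527) x1851) x231) x1203) x5091) x10923) x19671) x8737) x15299)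
  (sub (add (add (sub (add (add (add (add (add (add (add (add (sub (sub C x2181) x2167) x2107) x2143) x1963) x2071) x1531) x1855) x235) x1207) x5095) x10927) x19675) x8739)
  (add (add (add (add (sub (add (add (add (add (add (add (add (add (sub (sub C x2179) x2175) x2109) x2145) x1965) x2073) x1533) x1857) x237) x1209) x5097) x10929) x19677) x8743) x15305)
  (sub (sub (sub (add (add (add (add (add (add (add (add (add (add (sub C x2193) x2201) x2213) x2225) x2261) x2297) x2405) x2513) x2837) x3161) x4133) x731) x6563) x15309)
  (add (add (sub (sub (add (add (add (add (add (add (add (add (sub (sub C x2189) x2205) x2229) x2265) x2301) x2409) x2517) x2841) x3165) x4137) x735) x6567) x8755) x15317)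
  (sub (sub (sub (add (add (add (add (add (add (sub (add (add (sub C x2203) x2189) x2213) x2219) x2309) x2417) x2525) x2849) x3173) x4145) x743) x6575) x15321)
  (sub (sub (sub (add (add (add (add (add (add (sub (sub (sub C x2201) x2209) x2221) x2311) x2419) x2527) x2851) x3175) x4147) x745) x6577) x8763)
  (add (add (sub (sub (add (add (add (add (add (add (sub (sub (add (add C x2209) x2213) x2193) x2241) x2313) x2421) x2529) x2853) x3177) x4149) x747) x6579) x8767) x15329)
  (sub (sub (sub (add (add (add (add (add (add (sub (sub (add (add C x2205) x2213) x2203) x2245) x2317) x2425) x2533) x2857) x3181) x4153) x751) x6583) x8769)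
  (sub (sub (sub (add (add (add (add (add (add (sub (add (add (add (add C x2205) x2209) x2189) x2201) x2249) x2321) x2429) x2537) x2861) x3185) x4157) x755) x6587) x15333)
  (sub (sub (sub (add (add (add (add (sub (sub (sub (sub C x2221) x2225) x2201) x2273) x2543) x2867) x3191) x4163) x761) x6593) x15339)
  (sub (sub (sub (add (add (add (add (sub (sub (sub (sub C x2219) x2233) x2203) x2275) x2545) x2869) x3193) x4165) x763) x6595) x8781)
  (sub (sub (sub (add (add (add (add (sub (add (add (sub (sub C x2229) x2219) x2189) x2261) x2279) x2549) x2873) x3197) x4169) x767) x6599) x15345)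
  (add (add (sub (sub (add (add (add (add (sub (add (add (sub (sub C x2225) x2235) x2193) x2265) x2283) x2553) x2877) x3201) x4173) x771) x6603) x8791) x15353)
  (sub (sub (sub (add (add (add (add (sub (sub (sub (sub C x2235) x2221) x2251) x2287) x2557) x2881) x3205) x4177) x775) x6607) x8793)
  (add (add (sub (sub (add (add (add (add (sub (sub (sub (sub C x2233) x2229) x2253) x2289) x2559) x2883) x3207) x4179) x777) x6609) x8797) x15359)
  (add (add (sub (sub (add (add (add (add (sub (sub (add (add (add (add C x2245) x2249) x2253) x2265) x2205) x2349) x2565) x2889) x3213) x4185) x783) x6615) x8803) x15365)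
  (sub (sub (sub (add (add (add (add (sub (sub (sub (add (add C x2241) x2249) x2251) x2209) x2353) x2569) x2893) x3217) x4189) x787) x6619) x8805)
  (sub (sub (sub (add (add (add (add (sub (sub (sub (add (add C x2241) x2245) x2261) x2213) x2357) x2573) x2897) x3221) x4193) x791) x6623) x15369)
  (sub (sub (sub (add (add (add (add (sub (sub (sub (sub C x2253) x2245) x2233) x2359) x2575) x2899) x3223) x4195) x793) x6625) x8811)
  (add (add (sub (sub (add (add (add (add (sub (sub (add (add (sub C x2251) x2241) x2265) x2235) x2361) x2577) x2901) x3225) x4197) x795) x6627) x8815) x15377)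
  (sub (sub (sub (add (add (add (add (sub (add (add (sub (sub C x2265) x2249) x2189) x2225) x2369) x2585) x2909) x3233) x4205) x803) x6635) x15381)
  (add (add (sub (sub (add (add (add (add (sub (add (add (add (add (sub C x2261) x2241) x2253) x2193) x2229) x2373) x2589) x2913) x3237) x4209) x807) x6639) x8827) x15389)
  (sub (sub (sub (add (add (sub (sub (add (add (sub (sub C x2275) x2279) x2309) x2345) x2219) x2435) x3245) x4217) x815) x6647) x15393)
  (sub (sub (sub (add (add (sub (sub (add (add (sub (sub C x2273) x2287) x2311) x2347) x2221) x2437) x3247) x4219) x817) x6649) x8835)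
  (sub (sub (sub (add (add (sub (sub (sub (sub (sub C x2283) x2273) x2297) x2225) x2441) x3251) x4223) x821) x6653) x15399)
  (add (add (sub (sub (add (add (sub (sub (sub (sub (sub C x2279) x2289) x2301) x2229) x2445) x3255) x4227) x825) x6657) x8845) x15407)
  (sub (sub (sub (add (add (sub (sub (sub (sub (sub C x2289) x2275) x2323) x2233) x2449) x3259) x4231) x829) x6661) x8847)
  (add (add (sub (sub (add (add (sub (sub (sub (sub (sub C x2287) x2283) x2325) x2235) x2451) x3261) x4233) x831) x6663) x8851) x15413)
  (sub (sub (sub (add (add (sub (add (add (sub (add (add (sub C x2301) x2309) x2321) x2279) x2189) x2405) x2459) x3269) x4241) x839) x6671) x15417)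
  (add (add (sub (sub (add (add (sub (add (add (sub (sub (sub C x2297) x2313) x2283) x2193) x2409) x2463) x3273) x4245) x843) x6675) x8863) x15425)
  (sub (sub (sub (add (add (sub (add (add (add (add (add (add (sub C x2311) x2297) x2321) x2273) x2345) x2201) x2417) x2471) x3281) x4253) x851) x6683) x15429)
  (sub (sub (sub (add (add (sub (add (add (add (add (sub (sub C x2309) x2317) x2275) x2347) x2203) x2419) x2473) x3283) x4255) x853) x6685) x8871)
  (add (add (sub (sub (add (add (sub (add (add (sub (sub (add (add C x2317) x2321) x2301) x2331) x2205) x2421) x2475) x3285) x4257) x855) x6687) x8875) x15437)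
  (sub (sub (sub (add (add (sub (add (add (sub (sub (add (add C x2313) x2321) x2311) x2335) x2209) x2425) x2479) x3289) x4261) x859) x6691) x8877)
  (sub (sub (sub (add (add (sub (add (add (sub (add (add (add (add C x2313) x2317) x2297) x2309) x2339) x2213) x2429) x2483) x3293) x4265) x863) x6695) x15441)
  (sub (sub (sub (add (add (sub (sub (sub (add (add (sub C x2325) x2335) x2347) x2287) x2377) x2485) x3295) x4267) x865) x6697) x8883)
  (add (add (sub (sub (add (add (sub (sub (sub (sub (sub C x2323) x2331) x2289) x2379) x2487) x3297) x4269) x867) x6699) x8887) x15449)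
  (add (add (sub (sub (add (add (sub (sub (sub (sub (add (add C x2335) x2339) x2325) x2313) x2385) x2493) x3303) x4275) x873) x6705) x8893) x15455)
  (sub (sub (sub (add (add (sub (sub (sub (add (add (add (add C x2331) x2339) x2323) x2347) x2317) x2389) x2497) x3307) x4279) x877) x6709) x8895)
  (sub (sub (sub (add (add (sub (sub (sub (sub (add (add C x2331) x2335) x2345) x2321) x2393) x2501) x3311) x4283) x881) x6713) x15459)
  (sub (sub (sub (add (add (sub (sub (add (add (sub (sub C x2347) x2339) x2273) x2309) x2399) x2507) x3317) x4289) x887) x6719) x15465)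
  (sub (sub (sub (add (add (sub (sub (add (add (add (add (sub C x2345) x2323) x2335) x2275) x2311) x2401) x2509) x3319) x4291) x889) x6721) x8907)
  (add (add (sub (sub (add (add (sub (sub (add (add (add (add (add (add C x2353) x2357) x2361) x2373) x2385) x2421) x2241) x2673) x3321) x4293) x891) x6723) x8911) x15473)
  (sub (sub (sub (add (add (sub (sub (add (add (sub (add (add C x2349) x2357) x2359) x2389) x2425) x2245) x2677) x3325) x4297) x895) x6727) x8913)
  (sub (sub (sub (add (add (sub (sub (add (add (sub (add (add C x2349) x2353) x2369) x2393) x2429) x2249) x2681) x3329) x4301) x899) x6731) x15477)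
  (sub (sub (sub (add (add (sub (sub (sub (sub (sub C x2361) x2353) x2377) x2251) x2683) x3331) x4303) x901) x6733) x8919)
  (add (add (sub (sub (add (add (sub (sub (sub (add (add (sub C x2359) x2349) x2373) x2379) x2253) x2685) x3333) x4305) x903) x6735) x8923) x15485)
  (sub (sub (sub (add (add (sub (sub (sub (sub (sub C x2373) x2357) x2405) x2261) x2693) x3341) x4313) x911) x6743) x15489)
  (add (add (sub (sub (add (add (sub (sub (sub (add (add (sub C x2369) x2349) x2361) x2409) x2265) x2697) x3345) x4317) x915) x6747) x8935) x15497)
  (sub (sub (sub (add (add (sub (sub (sub (add (add (sub C x2379) x2389) x2401) x2359) x2323) x2701) x3349) x4321) x919) x6751) x8937)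
  (add (add (sub (sub (add (add (sub (sub (sub (sub (sub C x2377) x2385) x2361) x2325) x2703) x3351) x4323) x921) x6753) x8941) x15503)
  (add (add (sub (sub (add (add (sub (sub (add (add (sub (add (add C x2389) x2393) x2379) x2349) x2421) x2331) x2709) x3357) x4329) x927) x6759) x8947) x15509)
  (sub (sub (sub (add (add (sub (sub (add (add (add (add (add (add C x2385) x2393) x2377) x2401) x2353) x2425) x2335) x2713) x3361) x4333) x931) x6763) x8949)
  (sub (sub (sub (add (add (sub (sub (add (add (sub (add (add C x2385) x2389) x2399) x2357) x2429) x2339) x2717) x3365) x4337) x935) x6767) x15513)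
  (sub (sub (sub (add (add (sub (sub (sub (sub (sub C x2401) x2393) x2417) x2345) x2723) x3371) x4343) x941) x6773) x15519)
  (sub (sub (sub (add (add (sub (sub (sub (add (add (sub C x2399) x2377) x2389) x2419) x2347) x2725) x3373) x4345) x943) x6775) x8961)
  (sub (sub (sub (add (add (sub (add (add (sub (add (add (sub C x2409) x2417) x2429) x2369) x2189) x2297) x2729) x3377) x4349) x947) x6779) x15525)
  (add (add (sub (sub (add (add (sub (add (add (sub (sub (sub C x2405) x2421) x2373) x2193) x2301) x2733) x3381) x4353) x951) x6783) x8971) x15533)
  (sub (sub (sub (add (add (sub (add (add (sub (add (add (sub C x2419) x2405) x2429) x2399) x2201) x2309) x2741) x3389) x4361) x959) x6791) x15537)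
  (sub (sub (sub (add (add (sub (add (add (sub (sub (sub C x2417) x2425) x2401) x2203) x2311) x2743) x3391) x4363) x961) x6793) x8979)
  (add (add (sub (sub (add (add (sub (add (add (add (add (sub (add (add C x2425) x2429) x2409) x2349) x2385) x2205) x2313) x2745) x3393) x4365) x963) x6795) x8983) x15545)
  (sub (sub (sub (add (add (sub (add (add (add (add (sub (add (add C x2421) x2429) x2419) x2353) x2389) x2209) x2317) x2749) x3397) x4369) x967) x6799) x8985)
  (sub (sub (sub (add (add (sub (add (add (add (add (add (add (add (add C x2421) x2425) x2405) x2417) x2357) x2393) x2213) x2321) x2753) x3401) x4373) x971) x6803) x15549)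
  (sub (sub (sub (sub (sub (add (add (add (add (sub (sub C x2437) x2441) x2471) x2507) x2543) x2651) x2273) x2921) x977) x6809) x15555)
  (sub (sub (sub (sub (sub (add (add (add (add (sub (sub C x2435) x2449) x2473) x2509) x2545) x2653) x2275) x2923) x979) x6811) x8997)
  (sub (sub (sub (sub (sub (add (add (sub (sub (sub C x2445) x2435) x2459) x2549) x2657) x2279) x2927) x983) x6815) x15561)
  (add (add (sub (sub (sub (sub (add (add (sub (sub (sub C x2441) x2451) x2463) x2553) x2661) x2283) x2931) x987) x6819) x9007) x15569)
  (sub (sub (sub (sub (sub (add (add (sub (sub (sub C x2451) x2437) x2485) x2557) x2665) x2287) x2935) x991) x6823) x9009)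
  (add (add (sub (sub (sub (sub (add (add (sub (sub (sub C x2449) x2445) x2487) x2559) x2667) x2289) x2937) x993) x6825) x9013) x15575)
  (sub (sub (sub (sub (sub (sub (sub (add (add (sub C x2463) x2471) x2483) x2441) x2513) x2297) x2945) x1001) x6833) x15579)
  (add (add (sub (sub (sub (sub (sub (sub (sub (sub C x2459) x2475) x2445) x2517) x2301) x2949) x1005) x6837) x9025) x15587)
  (sub (sub (sub (sub (sub (sub (add (add (add (add (sub C x2473) x2459) x2483) x2435) x2507) x2525) x2309) x2957) x1013) x6845) x15591)
  (sub (sub (sub (sub (sub (sub (add (add (sub (sub C x2471) x2479) x2437) x2509) x2527) x2311) x2959) x1015) x6847) x9033)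
  (add (add (sub (sub (sub (sub (sub (sub (sub (add (add C x2479) x2483) x2463) x2493) x2529) x2313) x2961) x1017) x6849) x9037) x15599)
  (sub (sub (sub (sub (sub (sub (sub (sub (add (add C x2475) x2483) x2473) x2497) x2533) x2317) x2965) x1021) x6853) x9039)
  (sub (sub (sub (sub (sub (sub (sub (add (add (add (add C x2475) x2479) x2459) x2471) x2501) x2537) x2321) x2969) x1025) x6857) x15603)
  (sub (sub (sub (sub (sub (sub (sub (add (add (sub C x2487) x2497) x2509) x2449) x2593) x2323) x2971) x1027) x6859) x9045)
  (add (add (sub (sub (sub (sub (sub (sub (sub (sub C x2485) x2493) x2451) x2595) x2325) x2973) x1029) x6861) x9049) x15611)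
  (add (add (sub (sub (sub (sub (sub (sub (sub (add (add C x2497) x2501) x2487) x2475) x2601) x2331) x2979) x1035) x6867) x9055) x15617)
  (sub (sub (sub (sub (sub (sub (sub (add (add (add (add C x2493) x2501) x2485) x2509) x2479) x2605) x2335) x2983) x1039) x6871) x9057)
  (sub (sub (sub (sub (sub (sub (sub (sub (add (add C x2493) x2497) x2507) x2483) x2609) x2339) x2987) x1043) x6875) x15621)
  (sub (sub (sub (sub (sub (sub (add (add (sub (sub C x2509) x2501) x2435) x2471) x2615) x2345) x2993) x1049) x6881) x15627)
  (sub (sub (sub (sub (sub (sub (add (add (add (add (sub C x2507) x2485) x2497) x2437) x2473) x2617) x2347) x2995) x1051) x6883) x9069)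
  (sub (sub (sub (sub (add (add (sub (add (add (add (add (sub C x2517) x2525) x2537) x2549) x2585) x2459) x2189) x2837) x2999) x1055) x6887) x15633)
  (add (add (sub (sub (sub (add (add (sub (add (add (sub (sub C x2513) x2529) x2553) x2589) x2463) x2193) x2841) x3003) x1059) x6891) x9079) x15641)
  (sub (sub (sub (sub (add (add (sub (sub (add (add (sub C x2527) x2513) x2537) x2543) x2471) x2201) x2849) x3011) x1067) x6899) x15645)
  (sub (sub (sub (sub (add (add (sub (sub (sub (sub C x2525) x2533) x2545) x2473) x2203) x2851) x3013) x1069) x6901) x9087)
  (add (add (sub (sub (sub (add (add (sub (sub (sub (add (add C x2533) x2537) x2517) x2565) x2475) x2205) x2853) x3015) x1071) x6903) x9091) x15653)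
  (sub (sub (sub (sub (add (add (sub (sub (sub (add (add C x2529) x2537) x2527) x2569) x2479) x2209) x2857) x3019) x1075) x6907) x9093)
  (sub (sub (sub (sub (add (add (sub (sub (add (add (add (add C x2529) x2533) x2513) x2525) x2573) x2483) x2213) x2861) x3023) x1079) x6911) x15657)
  (sub (sub (sub (sub (add (add (add (add (sub (sub (sub C x2545) x2549) x2525) x2435) x2651) x2219) x2867) x3029) x1085) x6917) x15663)
  (sub (sub (sub (sub (add (add (add (add (sub (sub (sub C x2543) x2557) x2527) x2437) x2653) x2221) x2869) x3031) x1087) x6919) x9105)
  (sub (sub (sub (sub (add (add (add (add (add (add (sub (sub C x2553) x2543) x2513) x2585) x2441) x2657) x2225) x2873) x3035) x1091) x6923) x15669)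
  (add (add (sub (sub (sub (add (add (add (add (add (add (sub (sub C x2549) x2559) x2517) x2589) x2445) x2661) x2229) x2877) x3039) x1095) x6927) x9115) x15677)
  (sub (sub (sub (sub (add (add (add (add (sub (sub (sub C x2559) x2545) x2575) x2449) x2665) x2233) x2881) x3043) x1099) x6931) x9117)
  (add (add (sub (sub (sub (add (add (add (add (sub (sub (sub C x2557) x2553) x2577) x2451) x2667) x2235) x2883) x3045) x1101) x6933) x9121) x15683)
  (add (add (sub (sub (sub (add (add (sub (sub (add (add (add (add C x2569) x2573) x2577) x2589) x2529) x2619) x2241) x2889) x3051) x1107) x6939) x9127) x15689)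
  (sub (sub (sub (sub (add (add (sub (sub (sub (add (add C x2565) x2573) x2575) x2533) x2623) x2245) x2893) x3055) x1111) x6943) x9129)
  (sub (sub (sub (sub (add (add (sub (sub (sub (add (add C x2565) x2569) x2585) x2537) x2627) x2249) x2897) x3059) x1115) x6947) x15693)
  (sub (sub (sub (sub (add (add (sub (sub (sub (sub C x2577) x2569) x2557) x2629) x2251) x2899) x3061) x1117) x6949) x9135)
  (add (add (sub (sub (sub (add (add (sub (sub (add (add (sub C x2575) x2565) x2589) x2559) x2631) x2253) x2901) x3063) x1119) x6951) x9139) x15701)
  (sub (sub (sub (sub (add (add (sub (add (add (sub (sub C x2589) x2573) x2513) x2549) x2639) x2261) x2909) x3071) x1127) x6959) x15705)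
  (add (add (sub (sub (sub (add (add (sub (add (add (add (add (sub C x2585) x2565) x2577) x2517) x2553) x2643) x2265) x2913) x3075) x1131) x6963) x9151) x15713)
  (sub (sub (sub (sub (sub (sub (add (add (add (add (sub C x2595) x2605) x2617) x2629) x2665) x2485) x2755) x3079) x1135) x6967) x9153)
  (add (add (sub (sub (sub (sub (sub (add (add (sub (sub C x2593) x2601) x2631) x2667) x2487) x2757) x3081) x1137) x6969) x9157) x15719)
  (add (add (sub (sub (sub (sub (sub (sub (sub (add (add C x2605) x2609) x2595) x2619) x2493) x2763) x3087) x1143) x6975) x9163) x15725)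
  (sub (sub (sub (sub (sub (sub (sub (add (add (add (add C x2601) x2609) x2593) x2617) x2623) x2497) x2767) x3091) x1147) x6979) x9165)
  (sub (sub (sub (sub (sub (sub (sub (sub (add (add C x2601) x2605) x2615) x2627) x2501) x2771) x3095) x1151) x6983) x15729)
  (sub (sub (sub (sub (sub (sub (sub (sub (sub C x2617) x2609) x2651) x2507) x2777) x3101) x1157) x6989) x15735)
  (sub (sub (sub (sub (sub (sub (sub (add (add (sub C x2615) x2593) x2605) x2653) x2509) x2779) x3103) x1159) x6991) x9177)
  (add (add (sub (sub (sub (sub (sub (sub (add (add (add (add C x2623) x2627) x2631) x2643) x2601) x2565) x2781) x3105) x1161) x6993) x9181) x15743)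
  (sub (sub (sub (sub (sub (sub (sub (sub (add (add C x2619) x2627) x2629) x2605) x2569) x2785) x3109) x1165) x6997) x9183)
  (sub (sub (sub (sub (sub (sub (sub (sub (add (add C x2619) x2623) x2639) x2609) x2573) x2789) x3113) x1169) x7001) x15747)
  (sub (sub (sub (sub (sub (sub (add (add (sub (sub C x2631) x2623) x2593) x2665) x2575) x2791) x3115) x1171) x7003) x9189)
  (add (add (sub (sub (sub (sub (sub (add (add (add (add (sub C x2629) x2619) x2643) x2595) x2667) x2577) x2793) x3117) x1173) x7005) x9193) x15755)
  (sub (sub (sub (sub (sub (sub (sub (sub (sub C x2643) x2627) x2657) x2585) x2801) x3125) x1181) x7013) x15759)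
  (add (add (sub (sub (sub (sub (sub (sub (add (add (sub C x2639) x2619) x2631) x2661) x2589) x2805) x3129) x1185) x7017) x9205) x15767)
  (sub (sub (sub (sub (sub (add (add (sub (sub (sub C x2653) x2657) x2615) x2435) x2543) x2813) x3137) x1193) x7025) x15771)
  (sub (sub (sub (sub (sub (add (add (sub (sub (sub C x2651) x2665) x2617) x2437) x2545) x2815) x3139) x1195) x7027) x9213)
  (sub (sub (sub (sub (sub (add (add (sub (sub (sub C x2661) x2651) x2639) x2441) x2549) x2819) x3143) x1199) x7031) x15777)
  (add (add (sub (sub (sub (sub (add (add (sub (sub (sub C x2657) x2667) x2643) x2445) x2553) x2823) x3147) x1203) x7035) x9223) x15785)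
  (sub (sub (sub (sub (sub (add (add (add (add (sub (sub C x2667) x2653) x2593) x2629) x2449) x2557) x2827) x3151) x1207) x7039) x9225)
  (add (add (sub (sub (sub (sub (add (add (add (add (sub (sub C x2665) x2661) x2595) x2631) x2451) x2559) x2829) x3153) x1209) x7041) x9229) x15791)
  (add (add (sub (sub (sub (sub (add (add (add (add (add (add (add (add C x2677) x2681) x2685) x2697) x2709) x2745) x2781) x2889) x2349) x3645) x1215) x7047) x9235) x15797)
  (sub (sub (sub (sub (sub (add (add (add (add (sub (add (add C x2673) x2681) x2683) x2713) x2749) x2785) x2893) x2353) x3649) x1219) x7051) x9237)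
  (sub (sub (sub (sub (sub (add (add (add (add (sub (add (add C x2673) x2677) x2693) x2717) x2753) x2789) x2897) x2357) x3653) x1223) x7055) x15801)
  (sub (sub (sub (sub (sub (add (add (sub (sub (sub C x2685) x2677) x2701) x2791) x2899) x2359) x3655) x1225) x7057) x9243)
  (add (add (sub (sub (sub (sub (add (add (sub (add (add (sub C x2683) x2673) x2697) x2703) x2793) x2901) x2361) x3657) x1227) x7059) x9247) x15809)
  (sub (sub (sub (sub (sub (add (add (sub (sub (sub C x2697) x2681) x2729) x2801) x2909) x2369) x3665) x1235) x7067) x15813)
  (add (add (sub (sub (sub (sub (add (add (sub (add (add (sub C x2693) x2673) x2685) x2733) x2805) x2913) x2373) x3669) x1239) x7071) x9259) x15821)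
  (sub (sub (sub (sub (sub (sub (sub (add (add (sub C x2703) x2713) x2725) x2683) x2755) x2377) x3673) x1243) x7075) x9261)
  (add (add (sub (sub (sub (sub (sub (sub (sub (sub C x2701) x2709) x2685) x2757) x2379) x3675) x1245) x7077) x9265) x15827)
  (add (add (sub (sub (sub (sub (sub (add (add (sub (add (add C x2713) x2717) x2703) x2673) x2745) x2763) x2385) x3681) x1251) x7083) x9271) x15833)
  (sub (sub (sub (sub (sub (sub (add (add (add (add (add (add C x2709) x2717) x2701) x2725) x2677) x2749) x2767) x2389) x3685) x1255) x7087) x9273)
  (sub (sub (sub (sub (sub (sub (add (add (sub (add (add C x2709) x2713) x2723) x2681) x2753) x2771) x2393) x3689) x1259) x7091) x15837)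
  (sub (sub (sub (sub (sub (sub (sub (sub (sub C x2725) x2717) x2741) x2777) x2399) x3695) x1265) x7097) x15843)
  (sub (sub (sub (sub (sub (sub (sub (add (add (sub C x2723) x2701) x2713) x2743) x2779) x2401) x3697) x1267) x7099) x9285)
  (sub (sub (sub (sub (sub (sub (sub (add (add (sub C x2733) x2741) x2753) x2693) x2837) x2405) x3701) x1271) x7103) x15849)
  (add (add (sub (sub (sub (sub (sub (sub (sub (sub C x2729) x2745) x2697) x2841) x2409) x3705) x1275) x7107) x9295) x15857)
  (sub (sub (sub (sub (sub (sub (sub (add (add (sub C x2743) x2729) x2753) x2723) x2849) x2417) x3713) x1283) x7115) x15861)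
  (sub (sub (sub (sub (sub (sub (sub (sub (sub C x2741) x2749) x2725) x2851) x2419) x3715) x1285) x7117) x9303)
  (add (add (sub (sub (sub (sub (sub (add (add (sub (add (add C x2749) x2753) x2733) x2673) x2709) x2853) x2421) x3717) x1287) x7119) x9307) x15869)
  (sub (sub (sub (sub (sub (sub (add (add (sub (add (add C x2745) x2753) x2743) x2677) x2713) x2857) x2425) x3721) x1291) x7123) x9309)
  (sub (sub (sub (sub (sub (sub (add (add (add (add (add (add C x2745) x2749) x2729) x2741) x2681) x2717) x2861) x2429) x3725) x1295) x7127) x15873)
  (sub (sub (sub (sub (sub (sub (add (add (add (add (sub C x2757) x2767) x2779) x2791) x2827) x2701) x2593) x3727) x1297) x7129) x9315)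
  (add (add (sub (sub (sub (sub (sub (add (add (sub (sub C x2755) x2763) x2793) x2829) x2703) x2595) x3729) x1299) x7131) x9319) x15881)
  (add (add (sub (sub (sub (sub (sub (sub (sub (add (add C x2767) x2771) x2757) x2781) x2709) x2601) x3735) x1305) x7137) x9325) x15887)
  (sub (sub (sub (sub (sub (sub (sub (add (add (add (add C x2763) x2771) x2755) x2779) x2785) x2713) x2605) x3739) x1309) x7141) x9327)
  (sub (sub (sub (sub (sub (sub (sub (sub (add (add C x2763) x2767) x2777) x2789) x2717) x2609) x3743) x1313) x7145) x15891)
  (sub (sub (sub (sub (sub (sub (sub (sub (sub C x2779) x2771) x2813) x2723) x2615) x3749) x1319) x7151) x15897)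
  (sub (sub (sub (sub (sub (sub (sub (add (add (sub C x2777) x2755) x2767) x2815) x2725) x2617) x3751) x1321) x7153) x9339)
  (add (add (sub (sub (sub (sub (add (add (sub (add (add (add (add C x2785) x2789) x2793) x2805) x2763) x2673) x2889) x2619) x3753) x1323) x7155) x9343) x15905)
  (sub (sub (sub (sub (sub (add (add (sub (sub (add (add C x2781) x2789) x2791) x2767) x2677) x2893) x2623) x3757) x1327) x7159) x9345)
  (sub (sub (sub (sub (sub (add (add (sub (sub (add (add C x2781) x2785) x2801) x2771) x2681) x2897) x2627) x3761) x1331) x7163) x15909)
  (sub (sub (sub (sub (sub (add (add (add (add (sub (sub C x2793) x2785) x2755) x2827) x2683) x2899) x2629) x3763) x1333) x7165) x9351)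
  (add (add (sub (sub (sub (sub (add (add (add (add (add (add (sub C x2791) x2781) x2805) x2757) x2829) x2685) x2901) x2631) x3765) x1335) x7167) x9355) x15917)
  (sub (sub (sub (sub (sub (add (add (sub (sub (sub C x2805) x2789) x2819) x2693) x2909) x2639) x3773) x1343) x7175) x15921)
  (add (add (sub (sub (sub (sub (add (add (sub (add (add (sub C x2801) x2781) x2793) x2823) x2697) x2913) x2643) x3777) x1347) x7179) x9367) x15929)
  (sub (sub (sub (sub (sub (sub (sub (sub (sub C x2815) x2819) x2777) x2867) x2651) x3785) x1355) x7187) x15933)
  (sub (sub (sub (sub (sub (sub (sub (sub (sub C x2813) x2827) x2779) x2869) x2653) x3787) x1357) x7189) x9375)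
  (sub (sub (sub (sub (sub (sub (sub (sub (sub C x2823) x2813) x2801) x2873) x2657) x3791) x1361) x7193) x15939)
  (add (add (sub (sub (sub (sub (sub (sub (sub (sub C x2819) x2829) x2805) x2877) x2661) x3795) x1365) x7197) x9385) x15947)
  (sub (sub (sub (sub (sub (sub (add (add (sub (sub C x2829) x2815) x2755) x2791) x2881) x2665) x3799) x1369) x7201) x9387)
  (add (add (sub (sub (sub (sub (sub (add (add (sub (sub C x2827) x2823) x2757) x2793) x2883) x2667) x3801) x1371) x7203) x9391) x15953)
  (sub (sub (sub (sub (add (add (sub (add (add (add (add (sub C x2841) x2849) x2861) x2873) x2909) x2729) x2189) x2513) x3809) x1379) x7211) x15957)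
  (add (add (sub (sub (sub (add (add (sub (add (add (sub (sub C x2837) x2853) x2877) x2913) x2733) x2193) x2517) x3813) x1383) x7215) x9403) x15965)
  (sub (sub (sub (sub (add (add (sub (sub (add (add (sub C x2851) x2837) x2861) x2867) x2741) x2201) x2525) x3821) x1391) x7223) x15969)
  (sub (sub (sub (sub (add (add (sub (sub (sub (sub C x2849) x2857) x2869) x2743) x2203) x2527) x3823) x1393) x7225) x9411)
  (add (add (sub (sub (sub (add (add (sub (sub (sub (add (add C x2857) x2861) x2841) x2889) x2745) x2205) x2529) x3825) x1395) x7227) x9415) x15977)
  (sub (sub (sub (sub (add (add (sub (sub (sub (add (add C x2853) x2861) x2851) x2893) x2749) x2209) x2533) x3829) x1399) x7231) x9417)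
  (sub (sub (sub (sub (add (add (sub (sub (add (add (add (add C x2853) x2857) x2837) x2849) x2897) x2753) x2213) x2537) x3833) x1403) x7235) x15981)
  (sub (sub (sub (sub (add (add (sub (sub (sub (sub C x2869) x2873) x2849) x2813) x2219) x2543) x3839) x1409) x7241) x15987)
  (sub (sub (sub (sub (add (add (sub (sub (sub (sub C x2867) x2881) x2851) x2815) x2221) x2545) x3841) x1411) x7243) x9429)
  (sub (sub (sub (sub (add (add (sub (add (add (sub (sub C x2877) x2867) x2837) x2909) x2819) x2225) x2549) x3845) x1415) x7247) x15993)
  (add (add (sub (sub (sub (add (add (sub (add (add (sub (sub C x2873) x2883) x2841) x2913) x2823) x2229) x2553) x3849) x1419) x7251) x9439) x16001)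
  (sub (sub (sub (sub (add (add (sub (sub (sub (sub C x2883) x2869) x2899) x2827) x2233) x2557) x3853) x1423) x7255) x9441)
  (add (add (sub (sub (sub (add (add (sub (sub (sub (sub C x2881) x2877) x2901) x2829) x2235) x2559) x3855) x1425) x7257) x9445) x16007)
  (add (add (sub (sub (sub (add (add (add (add (sub (add (add (add (add C x2893) x2897) x2901) x2913) x2853) x2673) x2781) x2241) x2565) x3861) x1431) x7263) x9451) x16013)
  (sub (sub (sub (sub (add (add (add (add (sub (sub (add (add C x2889) x2897) x2899) x2857) x2677) x2785) x2245) x2569) x3865) x1435) x7267) x9453)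
  (sub (sub (sub (sub (add (add (add (add (sub (sub (add (add C x2889) x2893) x2909) x2861) x2681) x2789) x2249) x2573) x3869) x1439) x7271) x16017)
  (sub (sub (sub (sub (add (add (add (add (sub (sub (sub C x2901) x2893) x2881) x2683) x2791) x2251) x2575) x3871) x1441) x7273) x9459)
  (add (add (sub (sub (sub (add (add (add (add (sub (add (add (sub C x2899) x2889) x2913) x2883) x2685) x2793) x2253) x2577) x3873) x1443) x7275) x9463) x16025)
  (sub (sub (sub (sub (add (add (add (add (add (add (sub (sub C x2913) x2897) x2837) x2873) x2693) x2801) x2261) x2585) x3881) x1451) x7283) x16029)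
  (add (add (sub (sub (sub (add (add (add (add (add (add (add (add (sub C x2909) x2889) x2901) x2841) x2877) x2697) x2805) x2265) x2589) x3885) x1455) x7287) x9475) x16037)
  (sub (sub (add (add (sub (add (add (add (add (add (add (sub (sub C x2923) x2927) x2957) x2993) x3029) x3137) x3245) x3569) x2435) x5) x5837) x7295) x16041)
  (sub (sub (add (add (sub (add (add (add (add (add (add (sub (sub C x2921) x2935) x2959) x2995) x3031) x3139) x3247) x3571) x2437) x7) x5839) x7297) x9483)
  (sub (sub (add (add (sub (add (add (add (add (sub (sub (sub C x2931) x2921) x2945) x3035) x3143) x3251) x3575) x2441) x11) x5843) x7301) x16047)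
  (add (add (sub (add (add (sub (add (add (add (add (sub (sub (sub C x2927) x2937) x2949) x3039) x3147) x3255) x3579) x2445) x15) x5847) x7305) x9493) x16055)
  (sub (sub (add (add (sub (add (add (add (add (sub (sub (sub C x2937) x2923) x2971) x3043) x3151) x3259) x3583) x2449) x19) x5851) x7309) x9495)
  (add (add (sub (add (add (sub (add (add (add (add (sub (sub (sub C x2935) x2931) x2973) x3045) x3153) x3261) x3585) x2451) x21) x5853) x7311) x9499) x16061)
  (sub (sub (add (add (sub (add (add (sub (sub (add (add (sub C x2949) x2957) x2969) x2927) x2999) x3269) x3593) x2459) x29) x5861) x7319) x16065)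
  (add (add (sub (add (add (sub (add (add (sub (sub (sub (sub C x2945) x2961) x2931) x3003) x3273) x3597) x2463) x33) x5865) x7323) x9511) x16073)
  (sub (sub (add (add (sub (add (add (sub (add (add (add (add (sub C x2959) x2945) x2969) x2921) x2993) x3011) x3281) x3605) x2471) x41) x5873) x7331) x16077)
  (sub (sub (add (add (sub (add (add (sub (add (add (sub (sub C x2957) x2965) x2923) x2995) x3013) x3283) x3607) x2473) x43) x5875) x7333) x9519)
  (add (add (sub (add (add (sub (add (add (sub (sub (sub (add (add C x2965) x2969) x2949) x2979) x3015) x3285) x3609) x2475) x45) x5877) x7335) x9523) x16085)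
  (sub (sub (add (add (sub (add (add (sub (sub (sub (add (add C x2961) x2969) x2959) x2983) x3019) x3289) x3613) x2479) x49) x5881) x7339) x9525)
  (sub (sub (add (add (sub (add (add (sub (sub (add (add (add (add C x2961) x2965) x2945) x2957) x2987) x3023) x3293) x3617) x2483) x53) x5885) x7343) x16089)
  (sub (sub (add (add (sub (add (add (sub (sub (add (add (sub C x2973) x2983) x2995) x2935) x3079) x3295) x3619) x2485) x55) x5887) x7345) x9531)
  (add (add (sub (add (add (sub (add (add (sub (sub (sub (sub C x2971) x2979) x2937) x3081) x3297) x3621) x2487) x57) x5889) x7347) x9535) x16097)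
  (add (add (sub (add (add (sub (add (add (sub (sub (sub (add (add C x2983) x2987) x2973) x2961) x3087) x3303) x3627) x2493) x63) x5895) x7353) x9541) x16103)
  (sub (sub (add (add (sub (add (add (sub (sub (add (add (add (add C x2979) x2987) x2971) x2995) x2965) x3091) x3307) x3631) x2497) x67) x5899) x7357) x9543)
  (sub (sub (add (add (sub (add (add (sub (sub (sub (add (add C x2979) x2983) x2993) x2969) x3095) x3311) x3635) x2501) x71) x5903) x7361) x16107)
  (sub (sub (add (add (sub (add (add (sub (add (add (sub (sub C x2995) x2987) x2921) x2957) x3101) x3317) x3641) x2507) x77) x5909) x7367) x16113)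
  (sub (sub (add (add (sub (add (add (sub (add (add (add (add (sub C x2993) x2971) x2983) x2923) x2959) x3103) x3319) x3643) x2509) x79) x5911) x7369) x9555)
  (sub (sub (add (add (sub (sub (sub (add (add (add (add (sub C x3003) x3011) x3023) x3035) x3071) x2945) x3161) x2513) x83) x5915) x7373) x16119)
  (add (add (sub (add (add (sub (sub (sub (add (add (sub (sub C x2999) x3015) x3039) x3075) x2949) x3165) x2517) x87) x5919) x7377) x9565) x16127)
  (sub (sub (add (add (sub (sub (sub (sub (add (add (sub C x3013) x2999) x3023) x3029) x2957) x3173) x2525) x95) x5927) x7385) x16131)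
  (sub (sub (add (add (sub (sub (sub (sub (sub (sub C x3011) x3019) x3031) x2959) x3175) x2527) x97) x5929) x7387) x9573)
  (add (add (sub (add (add (sub (sub (sub (sub (sub (add (add C x3019) x3023) x3003) x3051) x2961) x3177) x2529) x99) x5931) x7389) x9577) x16139)
  (sub (sub (add (add (sub (sub (sub (sub (sub (add (add C x3015) x3023) x3013) x3055) x2965) x3181) x2533) x103) x5935) x7393) x9579)
  (sub (sub (add (add (sub (sub (sub (sub (add (add (add (add C x3015) x3019) x2999) x3011) x3059) x2969) x3185) x2537) x107) x5939) x7397) x16143)
  (sub (sub (add (add (sub (sub (add (add (sub (sub (sub C x3031) x3035) x3011) x2921) x3137) x3191) x2543) x113) x5945) x7403) x16149)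
  (sub (sub (add (add (sub (sub (add (add (sub (sub (sub C x3029) x3043) x3013) x2923) x3139) x3193) x2545) x115) x5947) x7405) x9591)
  (sub (sub (add (add (sub (sub (add (add (add (add (sub (sub C x3039) x3029) x2999) x3071) x2927) x3143) x3197) x2549) x119) x5951) x7409) x16155)
  (add (add (sub (add (add (sub (sub (add (add (add (add (sub (sub C x3035) x3045) x3003) x3075) x2931) x3147) x3201) x2553) x123) x5955) x7413) x9601) x16163)
  (sub (sub (add (add (sub (sub (add (add (sub (sub (sub C x3045) x3031) x3061) x2935) x3151) x3205) x2557) x127) x5959) x7417) x9603)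
  (add (add (sub (add (add (sub (sub (add (add (sub (sub (sub C x3043) x3039) x3063) x2937) x3153) x3207) x2559) x129) x5961) x7419) x9607) x16169)
  (add (add (sub (add (add (sub (sub (sub (sub (add (add (add (add C x3055) x3059) x3063) x3075) x3015) x3105) x3213) x2565) x135) x5967) x7425) x9613) x16175)
  (sub (sub (add (add (sub (sub (sub (sub (sub (add (add C x3051) x3059) x3061) x3019) x3109) x3217) x2569) x139) x5971) x7429) x9615)
  (sub (sub (add (add (sub (sub (sub (sub (sub (add (add C x3051) x3055) x3071) x3023) x3113) x3221) x2573) x143) x5975) x7433) x16179)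
  (sub (sub (add (add (sub (sub (sub (sub (sub (sub C x3063) x3055) x3043) x3115) x3223) x2575) x145) x5977) x7435) x9621)
  (add (add (sub (add (add (sub (sub (sub (sub (add (add (sub C x3061) x3051) x3075) x3045) x3117) x3225) x2577) x147) x5979) x7437) x9625) x16187)
  (sub (sub (add (add (sub (sub (sub (add (add (sub (sub C x3075) x3059) x2999) x3035) x3125) x3233) x2585) x155) x5987) x7445) x16191)
  (add (add (sub (add (add (sub (sub (sub (add (add (add (add (sub C x3071) x3051) x3063) x3003) x3039) x3129) x3237) x2589) x159) x5991) x7449) x9637) x16199)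
  (sub (sub (add (add (sub (sub (sub (add (add (add (add (sub C x3081) x3091) x3103) x3115) x3151) x2971) x3403) x2593) x163) x5995) x7453) x9639)
  (add (add (sub (add (add (sub (sub (sub (add (add (sub (sub C x3079) x3087) x3117) x3153) x2973) x3405) x2595) x165) x5997) x7455) x9643) x16205)
  (add (add (sub (add (add (sub (sub (sub (sub (sub (add (add C x3091) x3095) x3081) x3105) x2979) x3411) x2601) x171) x6003) x7461) x9649) x16211)
  (sub (sub (add (add (sub (sub (sub (sub (add (add (add (add C x3087) x3095) x3079) x3103) x3109) x2983) x3415) x2605) x175) x6007) x7465) x9651)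
  (sub (sub (add (add (sub (sub (sub (sub (sub (add (add C x3087) x3091) x3101) x3113) x2987) x3419) x2609) x179) x6011) x7469) x16215)
  (sub (sub (add (add (sub (sub (sub (sub (sub (sub C x3103) x3095) x3137) x2993) x3425) x2615) x185) x6017) x7475) x16221)
  (sub (sub (add (add (sub (sub (sub (sub (add (add (sub C x3101) x3079) x3091) x3139) x2995) x3427) x2617) x187) x6019) x7477) x9663)
  (add (add (sub (add (add (sub (sub (sub (sub (add (add (add (add C x3109) x3113) x3117) x3129) x3087) x3051) x3429) x2619) x189) x6021) x7479) x9667) x16229)
  (sub (sub (add (add (sub (sub (sub (sub (sub (add (add C x3105) x3113) x3115) x3091) x3055) x3433) x2623) x193) x6025) x7483) x9669)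
  (sub (sub (add (add (sub (sub (sub (sub (sub (add (add C x3105) x3109) x3125) x3095) x3059) x3437) x2627) x197) x6029) x7487) x16233)
  (sub (sub (add (add (sub (sub (sub (add (add (sub (sub C x3117) x3109) x3079) x3151) x3061) x3439) x2629) x199) x6031) x7489) x9675)
  (add (add (sub (add (add (sub (sub (sub (add (add (add (add (sub C x3115) x3105) x3129) x3081) x3153) x3063) x3441) x2631) x201) x6033) x7491) x9679) x16241)
  (sub (sub (add (add (sub (sub (sub (sub (sub (sub C x3129) x3113) x3143) x3071) x3449) x2639) x209) x6041) x7499) x16245)
  (add (add (sub (add (add (sub (sub (sub (sub (add (add (sub C x3125) x3105) x3117) x3147) x3075) x3453) x2643) x213) x6045) x7503) x9691) x16253)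
  (sub (sub (add (add (sub (sub (add (add (sub (sub (sub C x3139) x3143) x3101) x2921) x3029) x3461) x2651) x221) x6053) x7511) x16257)
  (sub (sub (add (add (sub (sub (add (add (sub (sub (sub C x3137) x3151) x3103) x2923) x3031) x3463) x2653) x223) x6055) x7513) x9699)
  (sub (sub (add (add (sub (sub (add (add (sub (sub (sub C x3147) x3137) x3125) x2927) x3035) x3467) x2657) x227) x6059) x7517) x16263)
  (add (add (sub (add (add (sub (sub (add (add (sub (sub (sub C x3143) x3153) x3129) x2931) x3039) x3471) x2661) x231) x6063) x7521) x9709) x16271)
  (sub (sub (add (add (sub (sub (add (add (add (add (sub (sub C x3153) x3139) x3079) x3115) x2935) x3043) x3475) x2665) x235) x6067) x7525) x9711)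
  (add (add (sub (add (add (sub (sub (add (add (add (add (sub (sub C x3151) x3147) x3081) x3117) x2937) x3045) x3477) x2667) x237) x6069) x7527) x9715) x16277)
  (sub (sub (add (add (add (add (sub (add (add (add (add (add (add (sub C x3165) x3173) x3185) x3197) x3233) x3269) x3377) x2999) x2189) x4133) x245) x6077) x7535) x16281)
  (add (add (sub (add (add (add (add (sub (add (add (add (add (sub (sub C x3161) x3177) x3201) x3237) x3273) x3381) x3003) x2193) x4137) x249) x6081) x7539) x9727) x16289)
  (sub (sub (add (add (add (add (sub (add (add (sub (add (add (sub C x3175) x3161) x3185) x3191) x3281) x3389) x3011) x2201) x4145) x257) x6089) x7547) x16293)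
  (sub (sub (add (add (add (add (sub (add (add (sub (sub (sub C x3173) x3181) x3193) x3283) x3391) x3013) x2203) x4147) x259) x6091) x7549) x9735)
  (add (add (sub (add (add (add (add (sub (add (add (sub (sub (add (add C x3181) x3185) x3165) x3213) x3285) x3393) x3015) x2205) x4149) x261) x6093) x7551) x9739) x16301)
  (sub (sub (add (add (add (add (sub (add (add (sub (sub (add (add C x3177) x3185) x3175) x3217) x3289) x3397) x3019) x2209) x4153) x265) x6097) x7555) x9741)
  (sub (sub (add (add (add (add (sub (add (add (sub (add (add (add (add C x3177) x3181) x3161) x3173) x3221) x3293) x3401) x3023) x2213) x4157) x269) x6101) x7559) x16305)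
  (sub (sub (add (add (add (add (sub (sub (sub (sub (sub C x3193) x3197) x3173) x3245) x3029) x2219) x4163) x275) x6107) x7565) x16311)
  (sub (sub (add (add (add (add (sub (sub (sub (sub (sub C x3191) x3205) x3175) x3247) x3031) x2221) x4165) x277) x6109) x7567) x9753)
  (sub (sub (add (add (add (add (sub (sub (add (add (sub (sub C x3201) x3191) x3161) x3233) x3251) x3035) x2225) x4169) x281) x6113) x7571) x16317)
  (add (add (sub (add (add (add (add (sub (sub (add (add (sub (sub C x3197) x3207) x3165) x3237) x3255) x3039) x2229) x4173) x285) x6117) x7575) x9763) x16325)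
  (sub (sub (add (add (add (add (sub (sub (sub (sub (sub C x3207) x3193) x3223) x3259) x3043) x2233) x4177) x289) x6121) x7579) x9765)
  (add (add (sub (add (add (add (add (sub (sub (sub (sub (sub C x3205) x3201) x3225) x3261) x3045) x2235) x4179) x291) x6123) x7581) x9769) x16331)
  (add (add (sub (add (add (add (add (sub (sub (sub (add (add (add (add C x3217) x3221) x3225) x3237) x3177) x3321) x3051) x2241) x4185) x297) x6129) x7587) x9775) x16337)
  (sub (sub (add (add (add (add (sub (sub (sub (sub (add (add C x3213) x3221) x3223) x3181) x3325) x3055) x2245) x4189) x301) x6133) x7591) x9777)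
  (sub (sub (add (add (add (add (sub (sub (sub (sub (add (add C x3213) x3217) x3233) x3185) x3329) x3059) x2249) x4193) x305) x6137) x7595) x16341)
  (sub (sub (add (add (add (add (sub (sub (sub (sub (sub C x3225) x3217) x3205) x3331) x3061) x2251) x4195) x307) x6139) x7597) x9783)
  (add (add (sub (add (add (add (add (sub (sub (sub (add (add (sub C x3223) x3213) x3237) x3207) x3333) x3063) x2253) x4197) x309) x6141) x7599) x9787) x16349)
  (sub (sub (add (add (add (add (sub (sub (add (add (sub (sub C x3237) x3221) x3161) x3197) x3341) x3071) x2261) x4205) x317) x6149) x7607) x16353)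
  (add (add (sub (add (add (add (add (sub (sub (add (add (add (add (sub C x3233) x3213) x3225) x3165) x3201) x3345) x3075) x2265) x4209) x321) x6153) x7611) x9799) x16361)
  (sub (sub (add (add (add (add (add (add (sub (add (add (sub (sub C x3247) x3251) x3281) x3317) x3191) x2921) x3569) x2273) x4217) x329) x6161) x7619) x16365)
  (sub (sub (add (add (add (add (add (add (sub (add (add (sub (sub C x3245) x3259) x3283) x3319) x3193) x2923) x3571) x2275) x4219) x331) x6163) x7621) x9807)
  (sub (sub (add (add (add (add (add (add (sub (sub (sub (sub C x3255) x3245) x3269) x3197) x2927) x3575) x2279) x4223) x335) x6167) x7625) x16371)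
  (add (add (sub (add (add (add (add (add (add (sub (sub (sub (sub C x3251) x3261) x3273) x3201) x2931) x3579) x2283) x4227) x339) x6171) x7629) x9817) x16379)
  (sub (sub (add (add (add (add (add (add (sub (sub (sub (sub C x3261) x3247) x3295) x3205) x2935) x3583) x2287) x4231) x343) x6175) x7633) x9819)
  (add (add (sub (add (add (add (add (add (add (sub (sub (sub (sub C x3259) x3255) x3297) x3207) x2937) x3585) x2289) x4233) x345) x6177) x7635) x9823) x16385)
  (sub (sub (add (add (add (add (add (add (add (add (sub (add (add (sub C x3273) x3281) x3293) x3251) x3161) x3377) x2945) x3593) x2297) x4241) x353) x6185) x7643) x16389)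
  (add (add (sub (add (add (add (add (add (add (add (add (sub (sub (sub C x3269) x3285) x3255) x3165) x3381) x2949) x3597) x2301) x4245) x357) x6189) x7647) x9835) x16397)
  (sub (sub (add (add (add (add (add (add (add (add (add (add (add (add (sub C x3283) x3269) x3293) x3245) x3317) x3173) x3389) x2957) x3605) x2309) x4253) x365) x6197) x7655) x16401)
  (sub (sub (add (add (add (add (add (add (add (add (add (add (sub (sub C x3281) x3289) x3247) x3319) x3175) x3391) x2959) x3607) x2311) x4255) x367) x6199) x7657) x9843)
  (add (add (sub (add (add (add (add (add (add (add (add (sub (sub (add (add C x3289) x3293) x3273) x3303) x3177) x3393) x2961) x3609) x2313) x4257) x369) x6201) x7659) x9847) x16409)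
  (sub (sub (add (add (add (add (add (add (add (add (sub (sub (add (add C x3285) x3293) x3283) x3307) x3181) x3397) x2965) x3613) x2317) x4261) x373) x6205) x7663) x9849)
  (sub (sub (add (add (add (add (add (add (add (add (sub (add (add (add (add C x3285) x3289) x3269) x3281) x3311) x3185) x3401) x2969) x3617) x2321) x4265) x377) x6209) x7667) x16413)
  (sub (sub (add (add (add (add (add (add (sub (sub (add (add (sub C x3297) x3307) x3319) x3259) x3349) x2971) x3619) x2323) x4267) x379) x6211) x7669) x9855)
  (add (add (sub (add (add (add (add (add (add (sub (sub (sub (sub C x3295) x3303) x3261) x3351) x2973) x3621) x2325) x4269) x381) x6213) x7671) x9859) x16421)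
  (add (add (sub (add (add (add (add (add (add (sub (sub (sub (add (add C x3307) x3311) x3297) x3285) x3357) x2979) x3627) x2331) x4275) x387) x6219) x7677) x9865) x16427)
  (sub (sub (add (add (add (add (add (add (sub (sub (add (add (add (add C x3303) x3311) x3295) x3319) x3289) x3361) x2983) x3631) x2335) x4279) x391) x6223) x7681) x9867)
  (sub (sub (add (add (add (add (add (add (sub (sub (sub (add (add C x3303) x3307) x3317) x3293) x3365) x2987) x3635) x2339) x4283) x395) x6227) x7685) x16431)
  (sub (sub (add (add (add (add (add (add (sub (add (add (sub (sub C x3319) x3311) x3245) x3281) x3371) x2993) x3641) x2345) x4289) x401) x6233) x7691) x16437)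
  (sub (sub (add (add (add (add (add (add (sub (add (add (add (add (sub C x3317) x3295) x3307) x3247) x3283) x3373) x2995) x3643) x2347) x4291) x403) x6235) x7693) x9879)
  (add (add (sub (add (add (add (add (sub (sub (add (add (add (add (add (add C x3325) x3329) x3333) x3345) x3357) x3393) x3213) x3483) x2349) x4293) x405) x6237) x7695) x9883) x16445)
  (sub (sub (add (add (add (add (sub (sub (add (add (sub (add (add C x3321) x3329) x3331) x3361) x3397) x3217) x3487) x2353) x4297) x409) x6241) x7699) x9885)
  (sub (sub (add (add (add (add (sub (sub (add (add (sub (add (add C x3321) x3325) x3341) x3365) x3401) x3221) x3491) x2357) x4301) x413) x6245) x7703) x16449)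
  (sub (sub (add (add (add (add (sub (sub (sub (sub (sub C x3333) x3325) x3349) x3223) x3493) x2359) x4303) x415) x6247) x7705) x9891)
  (add (add (sub (add (add (add (add (sub (sub (sub (add (add (sub C x3331) x3321) x3345) x3351) x3225) x3495) x2361) x4305) x417) x6249) x7707) x9895) x16457)
  (sub (sub (add (add (add (add (sub (sub (sub (sub (sub C x3345) x3329) x3377) x3233) x3503) x2369) x4313) x425) x6257) x7715) x16461)
  (add (add (sub (add (add (add (add (sub (sub (sub (add (add (sub C x3341) x3321) x3333) x3381) x3237) x3507) x2373) x4317) x429) x6261) x7719) x9907) x16469)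
  (sub (sub (add (add (add (add (sub (sub (sub (add (add (sub C x3351) x3361) x3373) x3331) x3295) x3511) x2377) x4321) x433) x6265) x7723) x9909)
  (add (add (sub (add (add (add (add (sub (sub (sub (sub (sub C x3349) x3357) x3333) x3297) x3513) x2379) x4323) x435) x6267) x7725) x9913) x16475)
  (add (add (sub (add (add (add (add (sub (sub (add (add (sub (add (add C x3361) x3365) x3351) x3321) x3393) x3303) x3519) x2385) x4329) x441) x6273) x7731) x9919) x16481)
  (sub (sub (add (add (add (add (sub (sub (add (add (add (add (add (add C x3357) x3365) x3349) x3373) x3325) x3397) x3307) x3523) x2389) x4333) x445) x6277) x7735) x9921)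
  (sub (sub (add (add (add (add (sub (sub (add (add (sub (add (add C x3357) x3361) x3371) x3329) x3401) x3311) x3527) x2393) x4337) x449) x6281) x7739) x16485)
  (sub (sub (add (add (add (add (sub (sub (sub (sub (sub C x3373) x3365) x3389) x3317) x3533) x2399) x4343) x455) x6287) x7745) x16491)
  (sub (sub (add (add (add (add (sub (sub (sub (add (add (sub C x3371) x3349) x3361) x3391) x3319) x3535) x2401) x4345) x457) x6289) x7747) x9933)
  (sub (sub (add (add (add (add (sub (add (add (sub (add (add (sub C x3381) x3389) x3401) x3341) x3161) x3269) x3539) x2405) x4349) x461) x6293) x7751) x16497)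
  (add (add (sub (add (add (add (add (sub (add (add (sub (sub (sub C x3377) x3393) x3345) x3165) x3273) x3543) x2409) x4353) x465) x6297) x7755) x9943) x16505)
  (sub (sub (add (add (add (add (sub (add (add (sub (add (add (sub C x3391) x3377) x3401) x3371) x3173) x3281) x3551) x2417) x4361) x473) x6305) x7763) x16509)
  (sub (sub (add (add (add (add (sub (add (add (sub (sub (sub C x3389) x3397) x3373) x3175) x3283) x3553) x2419) x4363) x475) x6307) x7765) x9951)
  (add (add (sub (add (add (add (add (sub (add (add (add (add (sub (add (add C x3397) x3401) x3381) x3321) x3357) x3177) x3285) x3555) x2421) x4365) x477) x6309) x7767) x9955) x16517)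
  (sub (sub (add (add (add (add (sub (add (add (add (add (sub (add (add C x3393) x3401) x3391) x3325) x3361) x3181) x3289) x3559) x2425) x4369) x481) x6313) x7771) x9957)
  (sub (sub (add (add (add (add (sub (add (add (add (add (add (add (add (add C x3393) x3397) x3377) x3389) x3329) x3365) x3185) x3293) x3563) x2429) x4373) x485) x6317) x7775) x16521)
  (sub (sub (add (add (sub (sub (add (add (add (add (add (add (sub C x3405) x3415) x3427) x3439) x3475) x3511) x3619) x3079) x3889) x487) x6319) x7777) x9963)
  (add (add (sub (add (add (sub (sub (add (add (add (add (sub (sub C x3403) x3411) x3441) x3477) x3513) x3621) x3081) x3891) x489) x6321) x7779) x9967) x16529)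
  (add (add (sub (add (add (sub (sub (add (add (sub (sub (add (add C x3415) x3419) x3405) x3429) x3519) x3627) x3087) x3897) x495) x6327) x7785) x9973) x16535)
  (sub (sub (add (add (sub (sub (add (add (sub (add (add (add (add C x3411) x3419) x3403) x3427) x3433) x3523) x3631) x3091) x3901) x499) x6331) x7789) x9975)
  (sub (sub (add (add (sub (sub (add (add (sub (sub (add (add C x3411) x3415) x3425) x3437) x3527) x3635) x3095) x3905) x503) x6335) x7793) x16539)
  (sub (sub (add (add (sub (sub (add (add (sub (sub (sub C x3427) x3419) x3461) x3533) x3641) x3101) x3911) x509) x6341) x7799) x16545)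
  (sub (sub (add (add (sub (sub (add (add (sub (add (add (sub C x3425) x3403) x3415) x3463) x3535) x3643) x3103) x3913) x511) x6343) x7801) x9987)
  (add (add (sub (add (add (sub (sub (sub (sub (add (add (add (add C x3433) x3437) x3441) x3453) x3411) x3483) x3105) x3915) x513) x6345) x7803) x9991) x16553)
  (sub (sub (add (add (sub (sub (sub (sub (sub (add (add C x3429) x3437) x3439) x3415) x3487) x3109) x3919) x517) x6349) x7807) x9993)
  (sub (sub (add (add (sub (sub (sub (sub (sub (add (add C x3429) x3433) x3449) x3419) x3491) x3113) x3923) x521) x6353) x7811) x16557)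
  (sub (sub (add (add (sub (sub (sub (add (add (sub (sub C x3441) x3433) x3403) x3475) x3493) x3115) x3925) x523) x6355) x7813) x9999)
  (add (add (sub (add (add (sub (sub (sub (add (add (add (add (sub C x3439) x3429) x3453) x3405) x3477) x3495) x3117) x3927) x525) x6357) x7815) x10003) x16565)
  (sub (sub (add (add (sub (sub (sub (sub (sub (sub C x3453) x3437) x3467) x3503) x3125) x3935) x533) x6365) x7823) x16569)
  (add (add (sub (add (add (sub (sub (sub (sub (add (add (sub C x3449) x3429) x3441) x3471) x3507) x3129) x3939) x537) x6369) x7827) x10015) x16577)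
  (sub (sub (add (add (sub (sub (sub (sub (sub (sub C x3463) x3467) x3425) x3569) x3137) x3947) x545) x6377) x7835) x16581)
  (sub (sub (add (add (sub (sub (sub (sub (sub (sub C x3461) x3475) x3427) x3571) x3139) x3949) x547) x6379) x7837) x10023)
  (sub (sub (add (add (sub (sub (sub (sub (sub (sub C x3471) x3461) x3449) x3575) x3143) x3953) x551) x6383) x7841) x16587)
  (add (add (sub (add (add (sub (sub (sub (sub (sub (sub C x3467) x3477) x3453) x3579) x3147) x3957) x555) x6387) x7845) x10033) x16595)
  (sub (sub (add (add (sub (sub (sub (add (add (sub (sub C x3477) x3463) x3403) x3439) x3583) x3151) x3961) x559) x6391) x7849) x10035)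
  (add (add (sub (add (add (sub (sub (sub (add (add (sub (sub C x3475) x3471) x3405) x3441) x3585) x3153) x3963) x561) x6393) x7851) x10039) x16601)
  (add (add (sub (add (add (sub (sub (sub (add (add (add (add (add (add C x3487) x3491) x3495) x3507) x3519) x3555) x3429) x3321) x3969) x567) x6399) x7857) x10045) x16607)
  (sub (sub (add (add (sub (sub (sub (add (add (sub (add (add C x3483) x3491) x3493) x3523) x3559) x3433) x3325) x3973) x571) x6403) x7861) x10047)
  (sub (sub (add (add (sub (sub (sub (add (add (sub (add (add C x3483) x3487) x3503) x3527) x3563) x3437) x3329) x3977) x575) x6407) x7865) x16611)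
  (sub (sub (add (add (sub (sub (sub (sub (sub (sub C x3495) x3487) x3511) x3439) x3331) x3979) x577) x6409) x7867) x10053)
  (add (add (sub (add (add (sub (sub (sub (sub (add (add (sub C x3493) x3483) x3507) x3513) x3441) x3333) x3981) x579) x6411) x7869) x10057) x16619)
  (sub (sub (add (add (sub (sub (sub (sub (sub (sub C x3507) x3491) x3539) x3449) x3341) x3989) x587) x6419) x7877) x16623)
  (add (add (sub (add (add (sub (sub (sub (sub (add (add (sub C x3503) x3483) x3495) x3543) x3453) x3345) x3993) x591) x6423) x7881) x10069) x16631)
  (sub (sub (add (add (sub (sub (add (add (sub (add (add (sub C x3513) x3523) x3535) x3493) x3403) x3619) x3349) x3997) x595) x6427) x7885) x10071)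
  (add (add (sub (add (add (sub (sub (add (add (sub (sub (sub C x3511) x3519) x3495) x3405) x3621) x3351) x3999) x597) x6429) x7887) x10075) x16637)
  (add (add (sub (add (add (sub (sub (add (add (add (add (sub (add (add C x3523) x3527) x3513) x3483) x3555) x3411) x3627) x3357) x4005) x603) x6435) x7893) x10081) x16643)
  (sub (sub (add (add (sub (sub (add (add (add (add (add (add (add (add C x3519) x3527) x3511) x3535) x3487) x3559) x3415) x3631) x3361) x4009) x607) x6439) x7897) x10083)
  (sub (sub (add (add (sub (sub (add (add (add (add (sub (add (add C x3519) x3523) x3533) x3491) x3563) x3419) x3635) x3365) x4013) x611) x6443) x7901) x16647)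
  (sub (sub (add (add (sub (sub (add (add (sub (sub (sub C x3535) x3527) x3551) x3425) x3641) x3371) x4019) x617) x6449) x7907) x16653)
  (sub (sub (add (add (sub (sub (add (add (sub (add (add (sub C x3533) x3511) x3523) x3553) x3427) x3643) x3373) x4021) x619) x6451) x7909) x10095)
  (sub (sub (add (add (sub (sub (sub (sub (add (add (sub C x3543) x3551) x3563) x3503) x3593) x3377) x4025) x623) x6455) x7913) x16659)
  (add (add (sub (add (add (sub (sub (sub (sub (sub (sub C x3539) x3555) x3507) x3597) x3381) x4029) x627) x6459) x7917) x10105) x16667)
  (sub (sub (add (add (sub (sub (sub (sub (add (add (sub C x3553) x3539) x3563) x3533) x3605) x3389) x4037) x635) x6467) x7925) x16671)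
  (sub (sub (add (add (sub (sub (sub (sub (sub (sub C x3551) x3559) x3535) x3607) x3391) x4039) x637) x6469) x7927) x10113)
  (add (add (sub (add (add (sub (sub (sub (add (add (sub (add (add C x3559) x3563) x3543) x3483) x3519) x3609) x3393) x4041) x639) x6471) x7929) x10117) x16679)
  (sub (sub (add (add (sub (sub (sub (add (add (sub (add (add C x3555) x3563) x3553) x3487) x3523) x3613) x3397) x4045) x643) x6475) x7933) x10119)
  (sub (sub (add (add (sub (sub (sub (add (add (add (add (add (add C x3555) x3559) x3539) x3551) x3491) x3527) x3617) x3401) x4049) x647) x6479) x7937) x16683)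
  (sub (sub (add (add (sub (add (add (sub (add (add (sub (sub C x3571) x3575) x3605) x3641) x3461) x2921) x3245) x4055) x653) x6485) x7943) x16689)
  (sub (sub (add (add (sub (add (add (sub (add (add (sub (sub C x3569) x3583) x3607) x3643) x3463) x2923) x3247) x4057) x655) x6487) x7945) x10131)
  (sub (sub (add (add (sub (add (add (sub (sub (sub (sub C x3579) x3569) x3593) x3467) x2927) x3251) x4061) x659) x6491) x7949) x16695)
  (add (add (sub (add (add (sub (add (add (sub (sub (sub (sub C x3575) x3585) x3597) x3471) x2931) x3255) x4065) x663) x6495) x7953) x10141) x16703)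
  (sub (sub (add (add (sub (add (add (sub (sub (sub (sub C x3585) x3571) x3619) x3475) x2935) x3259) x4069) x667) x6499) x7957) x10143)
  (add (add (sub (add (add (sub (add (add (sub (sub (sub (sub C x3583) x3579) x3621) x3477) x2937) x3261) x4071) x669) x6501) x7959) x10147) x16709)
  (sub (sub (add (add (sub (add (add (sub (sub (add (add (sub C x3597) x3605) x3617) x3575) x3539) x2945) x3269) x4079) x677) x6509) x7967) x16713)
  (add (add (sub (add (add (sub (add (add (sub (sub (sub (sub C x3593) x3609) x3579) x3543) x2949) x3273) x4083) x681) x6513) x7971) x10159) x16721)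
  (sub (sub (add (add (sub (add (add (sub (add (add (add (add (sub C x3607) x3593) x3617) x3569) x3641) x3551) x2957) x3281) x4091) x689) x6521) x7979) x16725)
  (sub (sub (add (add (sub (add (add (sub (add (add (sub (sub C x3605) x3613) x3571) x3643) x3553) x2959) x3283) x4093) x691) x6523) x7981) x10167)
  (add (add (sub (add (add (sub (add (add (sub (sub (sub (add (add C x3613) x3617) x3597) x3627) x3555) x2961) x3285) x4095) x693) x6525) x7983) x10171) x16733)
  (sub (sub (add (add (sub (add (add (sub (sub (sub (add (add C x3609) x3617) x3607) x3631) x3559) x2965) x3289) x4099) x697) x6529) x7987) x10173)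
  (sub (sub (add (add (sub (add (add (sub (sub (add (add (add (add C x3609) x3613) x3593) x3605) x3635) x3563) x2969) x3293) x4103) x701) x6533) x7991) x16737)
  (sub (sub (add (add (sub (add (add (add (add (sub (add (add (sub C x3621) x3631) x3643) x3583) x3403) x3511) x2971) x3295) x4105) x703) x6535) x7993) x10179)
  (add (add (sub (add (add (sub (add (add (add (add (sub (sub (sub C x3619) x3627) x3585) x3405) x3513) x2973) x3297) x4107) x705) x6537) x7995) x10183) x16745)
  (add (add (sub (add (add (sub (add (add (add (add (sub (sub (add (add C x3631) x3635) x3621) x3609) x3411) x3519) x2979) x3303) x4113) x711) x6543) x8001) x10189) x16751)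
  (sub (sub (add (add (sub (add (add (add (add (sub (add (add (add (add C x3627) x3635) x3619) x3643) x3613) x3415) x3523) x2983) x3307) x4117) x715) x6547) x8005) x10191)
  (sub (sub (add (add (sub (add (add (add (add (sub (sub (add (add C x3627) x3631) x3641) x3617) x3419) x3527) x2987) x3311) x4121) x719) x6551) x8009) x16755)
  (sub (sub (add (add (sub (add (add (add (add (add (add (sub (sub C x3643) x3635) x3569) x3605) x3425) x3533) x2993) x3317) x4127) x725) x6557) x8015) x16761)
  (sub (sub (add (add (sub (add (add (add (add (add (add (add (add (sub C x3641) x3619) x3631) x3571) x3607) x3427) x3535) x2995) x3319) x4129) x727) x6559) x8017) x10203)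
  (add (add (sub (sub (sub (add (add (add (add (add (add (add (add (add (add C x3649) x3653) x3657) x3669) x3681) x3717) x3753) x3861) x3969) x4293) x2673) x5103) x8019) x10207) x16769)
  (sub (sub (sub (sub (add (add (add (add (add (add (sub (add (add C x3645) x3653) x3655) x3685) x3721) x3757) x3865) x3973) x4297) x2677) x5107) x8023) x10209)
  (sub (sub (sub (sub (add (add (add (add (add (add (sub (add (add C x3645) x3649) x3665) x3689) x3725) x3761) x3869) x3977) x4301) x2681) x5111) x8027) x16773)
  (sub (sub (sub (sub (add (add (add (add (sub (sub (sub C x3657) x3649) x3673) x3763) x3871) x3979) x4303) x2683) x5113) x8029) x10215)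
  (add (add (sub (sub (sub (add (add (add (add (sub (add (add (sub C x3655) x3645) x3669) x3675) x3765) x3873) x3981) x4305) x2685) x5115) x8031) x10219) x16781)
  (sub (sub (sub (sub (add (add (add (add (sub (sub (sub C x3669) x3653) x3701) x3773) x3881) x3989) x4313) x2693) x5123) x8039) x16785)
  (add (add (sub (sub (sub (add (add (add (add (sub (add (add (sub C x3665) x3645) x3657) x3705) x3777) x3885) x3993) x4317) x2697) x5127) x8043) x10231) x16793)
  (sub (sub (sub (sub (add (add (sub (sub (add (add (sub C x3675) x3685) x3697) x3655) x3727) x3997) x4321) x2701) x5131) x8047) x10233)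
  (add (add (sub (sub (sub (add (add (sub (sub (sub (sub C x3673) x3681) x3657) x3729) x3999) x4323) x2703) x5133) x8049) x10237) x16799)
  (add (add (sub (sub (sub (add (add (sub (add (add (sub (add (add C x3685) x3689) x3675) x3645) x3717) x3735) x4005) x4329) x2709) x5139) x8055) x10243) x16805)
  (sub (sub (sub (sub (add (add (sub (add (add (add (add (add (add C x3681) x3689) x3673) x3697) x3649) x3721) x3739) x4009) x4333) x2713) x5143) x8059) x10245)
  (sub (sub (sub (sub (add (add (sub (add (add (sub (add (add C x3681) x3685) x3695) x3653) x3725) x3743) x4013) x4337) x2717) x5147) x8063) x16809)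
  (sub (sub (sub (sub (add (add (sub (sub (sub (sub C x3697) x3689) x3713) x3749) x4019) x4343) x2723) x5153) x8069) x16815)
  (sub (sub (sub (sub (add (add (sub (sub (add (add (sub C x3695) x3673) x3685) x3715) x3751) x4021) x4345) x2725) x5155) x8071) x10257)
  (sub (sub (sub (sub (add (add (sub (sub (add (add (sub C x3705) x3713) x3725) x3665) x3809) x4025) x4349) x2729) x5159) x8075) x16821)
  (add (add (sub (sub (sub (add (add (sub (sub (sub (sub C x3701) x3717) x3669) x3813) x4029) x4353) x2733) x5163) x8079) x10267) x16829)
  (sub (sub (sub (sub (add (add (sub (sub (add (add (sub C x3715) x3701) x3725) x3695) x3821) x4037) x4361) x2741) x5171) x8087) x16833)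
  (sub (sub (sub (sub (add (add (sub (sub (sub (sub C x3713) x3721) x3697) x3823) x4039) x4363) x2743) x5173) x8089) x10275)
  (add (add (sub (sub (sub (add (add (sub (add (add (sub (add (add C x3721) x3725) x3705) x3645) x3681) x3825) x4041) x4365) x2745) x5175) x8091) x10279) x16841)
  (sub (sub (sub (sub (add (add (sub (add (add (sub (add (add C x3717) x3725) x3715) x3649) x3685) x3829) x4045) x4369) x2749) x5179) x8095) x10281)
  (sub (sub (sub (sub (add (add (sub (add (add (add (add (add (add C x3717) x3721) x3701) x3713) x3653) x3689) x3833) x4049) x4373) x2753) x5183) x8099) x16845)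
  (sub (sub (sub (sub (sub (sub (add (add (add (add (sub C x3729) x3739) x3751) x3763) x3799) x3673) x3889) x2755) x5185) x8101) x10287)
  (add (add (sub (sub (sub (sub (sub (add (add (sub (sub C x3727) x3735) x3765) x3801) x3675) x3891) x2757) x5187) x8103) x10291) x16853)
  (add (add (sub (sub (sub (sub (sub (sub (sub (add (add C x3739) x3743) x3729) x3753) x3681) x3897) x2763) x5193) x8109) x10297) x16859)
  (sub (sub (sub (sub (sub (sub (sub (add (add (add (add C x3735) x3743) x3727) x3751) x3757) x3685) x3901) x2767) x5197) x8113) x10299)
  (sub (sub (sub (sub (sub (sub (sub (sub (add (add C x3735) x3739) x3749) x3761) x3689) x3905) x2771) x5201) x8117) x16863)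
  (sub (sub (sub (sub (sub (sub (sub (sub (sub C x3751) x3743) x3785) x3695) x3911) x2777) x5207) x8123) x16869)
  (sub (sub (sub (sub (sub (sub (sub (add (add (sub C x3749) x3727) x3739) x3787) x3697) x3913) x2779) x5209) x8125) x10311)
  (add (add (sub (sub (sub (sub (add (add (sub (add (add (add (add C x3757) x3761) x3765) x3777) x3735) x3645) x3861) x3915) x2781) x5211) x8127) x10315) x16877)
  (sub (sub (sub (sub (sub (add (add (sub (sub (add (add C x3753) x3761) x3763) x3739) x3649) x3865) x3919) x2785) x5215) x8131) x10317)
  (sub (sub (sub (sub (sub (add (add (sub (sub (add (add C x3753) x3757) x3773) x3743) x3653) x3869) x3923) x2789) x5219) x8135) x16881)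
  (sub (sub (sub (sub (sub (add (add (add (add (sub (sub C x3765) x3757) x3727) x3799) x3655) x3871) x3925) x2791) x5221) x8137) x10323)
  (add (add (sub (sub (sub (sub (add (add (add (add (add (add (sub C x3763) x3753) x3777) x3729) x3801) x3657) x3873) x3927) x2793) x5223) x8139) x10327) x16889)
  (sub (sub (sub (sub (sub (add (add (sub (sub (sub C x3777) x3761) x3791) x3665) x3881) x3935) x2801) x5231) x8147) x16893)
  (add (add (sub (sub (sub (sub (add (add (sub (add (add (sub C x3773) x3753) x3765) x3795) x3669) x3885) x3939) x2805) x5235) x8151) x10339) x16901)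
  (sub (sub (sub (sub (sub (sub (sub (sub (sub C x3787) x3791) x3749) x3839) x3947) x2813) x5243) x8159) x16905)
  (sub (sub (sub (sub (sub (sub (sub (sub (sub C x3785) x3799) x3751) x3841) x3949) x2815) x5245) x8161) x10347)
  (sub (sub (sub (sub (sub (sub (sub (sub (sub C x3795) x3785) x3773) x3845) x3953) x2819) x5249) x8165) x16911)
  (add (add (sub (sub (sub (sub (sub (sub (sub (sub C x3791) x3801) x3777) x3849) x3957) x2823) x5253) x8169) x10357) x16919)
  (sub (sub (sub (sub (sub (sub (add (add (sub (sub C x3801) x3787) x3727) x3763) x3853) x3961) x2827) x5257) x8173) x10359)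
  (add (add (sub (sub (sub (sub (sub (add (add (sub (sub C x3799) x3795) x3729) x3765) x3855) x3963) x2829) x5259) x8175) x10363) x16925)
  (sub (sub (sub (sub (sub (sub (add (add (add (add (sub C x3813) x3821) x3833) x3845) x3881) x3701) x4133) x2837) x5267) x8183) x16929)
  (add (add (sub (sub (sub (sub (sub (add (add (sub (sub C x3809) x3825) x3849) x3885) x3705) x4137) x2841) x5271) x8187) x10375) x16937)
  (sub (sub (sub (sub (sub (sub (sub (add (add (sub C x3823) x3809) x3833) x3839) x3713) x4145) x2849) x5279) x8195) x16941)
  (sub (sub (sub (sub (sub (sub (sub (sub (sub C x3821) x3829) x3841) x3715) x4147) x2851) x5281) x8197) x10383)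
  (add (add (sub (sub (sub (sub (sub (sub (sub (add (add C x3829) x3833) x3813) x3861) x3717) x4149) x2853) x5283) x8199) x10387) x16949)
  (sub (sub (sub (sub (sub (sub (sub (sub (add (add C x3825) x3833) x3823) x3865) x3721) x4153) x2857) x5287) x8203) x10389)
  (sub (sub (sub (sub (sub (sub (sub (add (add (add (add C x3825) x3829) x3809) x3821) x3869) x3725) x4157) x2861) x5291) x8207) x16953)
  (sub (sub (sub (sub (sub (sub (sub (sub (sub C x3841) x3845) x3821) x3785) x4163) x2867) x5297) x8213) x16959)
  (sub (sub (sub (sub (sub (sub (sub (sub (sub C x3839) x3853) x3823) x3787) x4165) x2869) x5299) x8215) x10401)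
  (sub (sub (sub (sub (sub (sub (add (add (sub (sub C x3849) x3839) x3809) x3881) x3791) x4169) x2873) x5303) x8219) x16965)
  (add (add (sub (sub (sub (sub (sub (add (add (sub (sub C x3845) x3855) x3813) x3885) x3795) x4173) x2877) x5307) x8223) x10411) x16973)
  (sub (sub (sub (sub (sub (sub (sub (sub (sub C x3855) x3841) x3871) x3799) x4177) x2881) x5311) x8227) x10413)
  (add (add (sub (sub (sub (sub (sub (sub (sub (sub C x3853) x3849) x3873) x3801) x4179) x2883) x5313) x8229) x10417) x16979)
  (add (add (sub (sub (sub (sub (add (add (sub (add (add (add (add C x3865) x3869) x3873) x3885) x3825) x3645) x3753) x4185) x2889) x5319) x8235) x10423) x16985)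
  (sub (sub (sub (sub (sub (add (add (sub (sub (add (add C x3861) x3869) x3871) x3829) x3649) x3757) x4189) x2893) x5323) x8239) x10425)
  (sub (sub (sub (sub (sub (add (add (sub (sub (add (add C x3861) x3865) x3881) x3833) x3653) x3761) x4193) x2897) x5327) x8243) x16989)
  (sub (sub (sub (sub (sub (add (add (sub (sub (sub C x3873) x3865) x3853) x3655) x3763) x4195) x2899) x5329) x8245) x10431)
  (add (add (sub (sub (sub (sub (add (add (sub (add (add (sub C x3871) x3861) x3885) x3855) x3657) x3765) x4197) x2901) x5331) x8247) x10435) x16997)
  (sub (sub (sub (sub (sub (add (add (add (add (sub (sub C x3885) x3869) x3809) x3845) x3665) x3773) x4205) x2909) x5339) x8255) x17001)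
  (add (add (sub (sub (sub (sub (add (add (add (add (add (add (sub C x3881) x3861) x3873) x3813) x3849) x3669) x3777) x4209) x2913) x5343) x8259) x10447) x17009)
  (sub (sub (sub (sub (sub (add (add (add (add (add (add (sub C x3891) x3901) x3913) x3925) x3961) x3997) x4105) x3727) x3403) x5347) x8263) x10449)
  (add (add (sub (sub (sub (sub (add (add (add (add (sub (sub C x3889) x3897) x3927) x3963) x3999) x4107) x3729) x3405) x5349) x8265) x10453) x17015)
  (add (add (sub (sub (sub (sub (add (add (sub (sub (add (add C x3901) x3905) x3891) x3915) x4005) x4113) x3735) x3411) x5355) x8271) x10459) x17021)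
  (sub (sub (sub (sub (sub (add (add (sub (add (add (add (add C x3897) x3905) x3889) x3913) x3919) x4009) x4117) x3739) x3415) x5359) x8275) x10461)
  (sub (sub (sub (sub (sub (add (add (sub (sub (add (add C x3897) x3901) x3911) x3923) x4013) x4121) x3743) x3419) x5363) x8279) x17025)
  (sub (sub (sub (sub (sub (add (add (sub (sub (sub C x3913) x3905) x3947) x4019) x4127) x3749) x3425) x5369) x8285) x17031)
  (sub (sub (sub (sub (sub (add (add (sub (add (add (sub C x3911) x3889) x3901) x3949) x4021) x4129) x3751) x3427) x5371) x8287) x10473)
  (add (add (sub (sub (sub (sub (sub (sub (add (add (add (add C x3919) x3923) x3927) x3939) x3897) x3969) x3753) x3429) x5373) x8289) x10477) x17039)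
  (sub (sub (sub (sub (sub (sub (sub (sub (add (add C x3915) x3923) x3925) x3901) x3973) x3757) x3433) x5377) x8293) x10479)
  (sub (sub (sub (sub (sub (sub (sub (sub (add (add C x3915) x3919) x3935) x3905) x3977) x3761) x3437) x5381) x8297) x17043)
  (sub (sub (sub (sub (sub (sub (add (add (sub (sub C x3927) x3919) x3889) x3961) x3979) x3763) x3439) x5383) x8299) x10485)
  (add (add (sub (sub (sub (sub (sub (add (add (add (add (sub C x3925) x3915) x3939) x3891) x3963) x3981) x3765) x3441) x5385) x8301) x10489) x17051)
  (sub (sub (sub (sub (sub (sub (sub (sub (sub C x3939) x3923) x3953) x3989) x3773) x3449) x5393) x8309) x17055)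
  (add (add (sub (sub (sub (sub (sub (sub (add (add (sub C x3935) x3915) x3927) x3957) x3993) x3777) x3453) x5397) x8313) x10501) x17063)
  (sub (sub (sub (sub (sub (sub (sub (sub (sub C x3949) x3953) x3911) x4055) x3785) x3461) x5405) x8321) x17067)
  (sub (sub (sub (sub (sub (sub (sub (sub (sub C x3947) x3961) x3913) x4057) x3787) x3463) x5407) x8323) x10509)
  (sub (sub (sub (sub (sub (sub (sub (sub (sub C x3957) x3947) x3935) x4061) x3791) x3467) x5411) x8327) x17073)
  (add (add (sub (sub (sub (sub (sub (sub (sub (sub C x3953) x3963) x3939) x4065) x3795) x3471) x5415) x8331) x10519) x17081)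
  (sub (sub (sub (sub (sub (sub (add (add (sub (sub C x3963) x3949) x3889) x3925) x4069) x3799) x3475) x5419) x8335) x10521)
  (add (add (sub (sub (sub (sub (sub (add (add (sub (sub C x3961) x3957) x3891) x3927) x4071) x3801) x3477) x5421) x8337) x10525) x17087)
  (add (add (sub (sub (sub (add (add (sub (add (add (add (add (add (add C x3973) x3977) x3981) x3993) x4005) x4041) x3915) x3645) x4293) x3483) x5427) x8343) x10531) x17093)
  (sub (sub (sub (sub (add (add (sub (add (add (sub (add (add C x3969) x3977) x3979) x4009) x4045) x3919) x3649) x4297) x3487) x5431) x8347) x10533)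
  (sub (sub (sub (sub (add (add (sub (add (add (sub (add (add C x3969) x3973) x3989) x4013) x4049) x3923) x3653) x4301) x3491) x5435) x8351) x17097)
  (sub (sub (sub (sub (add (add (sub (sub (sub (sub C x3981) x3973) x3997) x3925) x3655) x4303) x3493) x5437) x8353) x10539)
  (add (add (sub (sub (sub (add (add (sub (sub (add (add (sub C x3979) x3969) x3993) x3999) x3927) x3657) x4305) x3495) x5439) x8355) x10543) x17105)
  (sub (sub (sub (sub (add (add (sub (sub (sub (sub C x3993) x3977) x4025) x3935) x3665) x4313) x3503) x5447) x8363) x17109)
  (add (add (sub (sub (sub (add (add (sub (sub (add (add (sub C x3989) x3969) x3981) x4029) x3939) x3669) x4317) x3507) x5451) x8367) x10555) x17117)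
  (sub (sub (sub (sub (add (add (add (add (sub (add (add (sub C x3999) x4009) x4021) x3979) x3889) x4105) x3673) x4321) x3511) x5455) x8371) x10557)
  (add (add (sub (sub (sub (add (add (add (add (sub (sub (sub C x3997) x4005) x3981) x3891) x4107) x3675) x4323) x3513) x5457) x8373) x10561) x17123)
  (add (add (sub (sub (sub (add (add (add (add (add (add (sub (add (add C x4009) x4013) x3999) x3969) x4041) x3897) x4113) x3681) x4329) x3519) x5463) x8379) x10567) x17129)
  (sub (sub (sub (sub (add (add (add (add (add (add (add (add (add (add C x4005) x4013) x3997) x4021) x3973) x4045) x3901) x4117) x3685) x4333) x3523) x5467) x8383) x10569)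
  (sub (sub (sub (sub (add (add (add (add (add (add (sub (add (add C x4005) x4009) x4019) x3977) x4049) x3905) x4121) x3689) x4337) x3527) x5471) x8387) x17133)
  (sub (sub (sub (sub (add (add (add (add (sub (sub (sub C x4021) x4013) x4037) x3911) x4127) x3695) x4343) x3533) x5477) x8393) x17139)
  (sub (sub (sub (sub (add (add (add (add (sub (add (add (sub C x4019) x3997) x4009) x4039) x3913) x4129) x3697) x4345) x3535) x5479) x8395) x10581)
  (sub (sub (sub (sub (add (add (sub (sub (add (add (sub C x4029) x4037) x4049) x3989) x4079) x3701) x4349) x3539) x5483) x8399) x17145)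
  (add (add (sub (sub (sub (add (add (sub (sub (sub (sub C x4025) x4041) x3993) x4083) x3705) x4353) x3543) x5487) x8403) x10591) x17153)
  (sub (sub (sub (sub (add (add (sub (sub (add (add (sub C x4039) x4025) x4049) x4019) x4091) x3713) x4361) x3551) x5495) x8411) x17157)
  (sub (sub (sub (sub (add (add (sub (sub (sub (sub C x4037) x4045) x4021) x4093) x3715) x4363) x3553) x5497) x8413) x10599)
  (add (add (sub (sub (sub (add (add (sub (add (add (sub (add (add C x4045) x4049) x4029) x3969) x4005) x4095) x3717) x4365) x3555) x5499) x8415) x10603) x17165)
  (sub (sub (sub (sub (add (add (sub (add (add (sub (add (add C x4041) x4049) x4039) x3973) x4009) x4099) x3721) x4369) x3559) x5503) x8419) x10605)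
  (sub (sub (sub (sub (add (add (sub (add (add (add (add (add (add C x4041) x4045) x4025) x4037) x3977) x4013) x4103) x3725) x4373) x3563) x5507) x8423) x17169)
  (sub (sub (sub (sub (sub (sub (add (add (sub (sub C x4057) x4061) x4091) x4127) x3947) x4217) x3569) x5513) x8429) x17175)
  (sub (sub (sub (sub (sub (sub (add (add (sub (sub C x4055) x4069) x4093) x4129) x3949) x4219) x3571) x5515) x8431) x10617)
  (sub (sub (sub (sub (sub (sub (sub (sub (sub C x4065) x4055) x4079) x3953) x4223) x3575) x5519) x8435) x17181)
  (add (add (sub (sub (sub (sub (sub (sub (sub (sub C x4061) x4071) x4083) x3957) x4227) x3579) x5523) x8439) x10627) x17189)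
  (sub (sub (sub (sub (sub (sub (sub (sub (sub C x4071) x4057) x4105) x3961) x4231) x3583) x5527) x8443) x10629)
  (add (add (sub (sub (sub (sub (sub (sub (sub (sub C x4069) x4065) x4107) x3963) x4233) x3585) x5529) x8445) x10633) x17195)
  (sub (sub (sub (sub (sub (sub (sub (add (add (sub C x4083) x4091) x4103) x4061) x4025) x4241) x3593) x5537) x8453) x17199)
  (add (add (sub (sub (sub (sub (sub (sub (sub (sub C x4079) x4095) x4065) x4029) x4245) x3597) x5541) x8457) x10645) x17207)
  (sub (sub (sub (sub (sub (sub (add (add (add (add (sub C x4093) x4079) x4103) x4055) x4127) x4037) x4253) x3605) x5549) x8465) x17211)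
  (sub (sub (sub (sub (sub (sub (add (add (sub (sub C x4091) x4099) x4057) x4129) x4039) x4255) x3607) x5551) x8467) x10653)
  (add (add (sub (sub (sub (sub (sub (sub (sub (add (add C x4099) x4103) x4083) x4113) x4041) x4257) x3609) x5553) x8469) x10657) x17219)
  (sub (sub (sub (sub (sub (sub (sub (sub (add (add C x4095) x4103) x4093) x4117) x4045) x4261) x3613) x5557) x8473) x10659)
  (sub (sub (sub (sub (sub (sub (sub (add (add (add (add C x4095) x4099) x4079) x4091) x4121) x4049) x4265) x3617) x5561) x8477) x17223)
  (sub (sub (sub (sub (sub (add (add (sub (add (add (sub C x4107) x4117) x4129) x4069) x3889) x3997) x4267) x3619) x5563) x8479) x10665)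
  (add (add (sub (sub (sub (sub (add (add (sub (sub (sub C x4105) x4113) x4071) x3891) x3999) x4269) x3621) x5565) x8481) x10669) x17231)
  (add (add (sub (sub (sub (sub (add (add (sub (sub (add (add C x4117) x4121) x4107) x4095) x3897) x4005) x4275) x3627) x5571) x8487) x10675) x17237)
  (sub (sub (sub (sub (sub (add (add (sub (add (add (add (add C x4113) x4121) x4105) x4129) x4099) x3901) x4009) x4279) x3631) x5575) x8491) x10677)
  (sub (sub (sub (sub (sub (add (add (sub (sub (add (add C x4113) x4117) x4127) x4103) x3905) x4013) x4283) x3635) x5579) x8495) x17241)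
  (sub (sub (sub (sub (sub (add (add (add (add (sub (sub C x4129) x4121) x4055) x4091) x3911) x4019) x4289) x3641) x5585) x8501) x17247)
  (sub (sub (sub (sub (sub (add (add (add (add (add (add (sub C x4127) x4105) x4117) x4057) x4093) x3913) x4021) x4291) x3643) x5587) x8503) x10689)
  (sub (sub (sub (add (add (sub (add (add (add (add (add (add (sub C x4137) x4145) x4157) x4169) x4205) x4241) x4349) x3809) x2189) x3161) x5591) x8507) x17253)
  (add (add (sub (sub (add (add (sub (add (add (add (add (sub (sub C x4133) x4149) x4173) x4209) x4245) x4353) x3813) x2193) x3165) x5595) x8511) x10699) x17261)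
  (sub (sub (sub (add (add (sub (add (add (sub (add (add (sub C x4147) x4133) x4157) x4163) x4253) x4361) x3821) x2201) x3173) x5603) x8519) x17265)
  (sub (sub (sub (add (add (sub (add (add (sub (sub (sub C x4145) x4153) x4165) x4255) x4363) x3823) x2203) x3175) x5605) x8521) x10707)
  (add (add (sub (sub (add (add (sub (add (add (sub (sub (add (add C x4153) x4157) x4137) x4185) x4257) x4365) x3825) x2205) x3177) x5607) x8523) x10711) x17273)
  (sub (sub (sub (add (add (sub (add (add (sub (sub (add (add C x4149) x4157) x4147) x4189) x4261) x4369) x3829) x2209) x3181) x5611) x8527) x10713)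
  (sub (sub (sub (add (add (sub (add (add (sub (add (add (add (add C x4149) x4153) x4133) x4145) x4193) x4265) x4373) x3833) x2213) x3185) x5615) x8531) x17277)
  (sub (sub (sub (add (add (sub (sub (sub (sub (sub C x4165) x4169) x4145) x4217) x3839) x2219) x3191) x5621) x8537) x17283)
  (sub (sub (sub (add (add (sub (sub (sub (sub (sub C x4163) x4177) x4147) x4219) x3841) x2221) x3193) x5623) x8539) x10725)
  (sub (sub (sub (add (add (sub (sub (add (add (sub (sub C x4173) x4163) x4133) x4205) x4223) x3845) x2225) x3197) x5627) x8543) x17289)
  (add (add (sub (sub (add (add (sub (sub (add (add (sub (sub C x4169) x4179) x4137) x4209) x4227) x3849) x2229) x3201) x5631) x8547) x10735) x17297)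
  (sub (sub (sub (add (add (sub (sub (sub (sub (sub C x4179) x4165) x4195) x4231) x3853) x2233) x3205) x5635) x8551) x10737)
  (add (add (sub (sub (add (add (sub (sub (sub (sub (sub C x4177) x4173) x4197) x4233) x3855) x2235) x3207) x5637) x8553) x10741) x17303)
  (add (add (sub (sub (add (add (sub (sub (sub (add (add (add (add C x4189) x4193) x4197) x4209) x4149) x4293) x3861) x2241) x3213) x5643) x8559) x10747) x17309)
  (sub (sub (sub (add (add (sub (sub (sub (sub (add (add C x4185) x4193) x4195) x4153) x4297) x3865) x2245) x3217) x5647) x8563) x10749)
  (sub (sub (sub (add (add (sub (sub (sub (sub (add (add C x4185) x4189) x4205) x4157) x4301) x3869) x2249) x3221) x5651) x8567) x17313)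
  (sub (sub (sub (add (add (sub (sub (sub (sub (sub C x4197) x4189) x4177) x4303) x3871) x2251) x3223) x5653) x8569) x10755)
  (add (add (sub (sub (add (add (sub (sub (sub (add (add (sub C x4195) x4185) x4209) x4179) x4305) x3873) x2253) x3225) x5655) x8571) x10759) x17321)
  (sub (sub (sub (add (add (sub (sub (add (add (sub (sub C x4209) x4193) x4133) x4169) x4313) x3881) x2261) x3233) x5663) x8579) x17325)
  (add (add (sub (sub (add (add (sub (sub (add (add (add (add (sub C x4205) x4185) x4197) x4137) x4173) x4317) x3885) x2265) x3237) x5667) x8583) x10771) x17333)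
  (sub (sub (sub (add (add (sub (sub (add (add (sub (sub C x4219) x4223) x4253) x4289) x4163) x4055) x2273) x3245) x5675) x8591) x17337)
  (sub (sub (sub (add (add (sub (sub (add (add (sub (sub C x4217) x4231) x4255) x4291) x4165) x4057) x2275) x3247) x5677) x8593) x10779)
  (sub (sub (sub (add (add (sub (sub (sub (sub (sub C x4227) x4217) x4241) x4169) x4061) x2279) x3251) x5681) x8597) x17343)
  (add (add (sub (sub (add (add (sub (sub (sub (sub (sub C x4223) x4233) x4245) x4173) x4065) x2283) x3255) x5685) x8601) x10789) x17351)
  (sub (sub (sub (add (add (sub (sub (sub (sub (sub C x4233) x4219) x4267) x4177) x4069) x2287) x3259) x5689) x8605) x10791)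
  (add (add (sub (sub (add (add (sub (sub (sub (sub (sub C x4231) x4227) x4269) x4179) x4071) x2289) x3261) x5691) x8607) x10795) x17357)
  (sub (sub (sub (add (add (sub (add (add (sub (add (add (sub C x4245) x4253) x4265) x4223) x4133) x4349) x4079) x2297) x3269) x5699) x8615) x17361)
  (add (add (sub (sub (add (add (sub (add (add (sub (sub (sub C x4241) x4257) x4227) x4137) x4353) x4083) x2301) x3273) x5703) x8619) x10807) x17369)
  (sub (sub (sub (add (add (sub (add (add (add (add (add (add (sub C x4255) x4241) x4265) x4217) x4289) x4145) x4361) x4091) x2309) x3281) x5711) x8627) x17373)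
  (sub (sub (sub (add (add (sub (add (add (add (add (sub (sub C x4253) x4261) x4219) x4291) x4147) x4363) x4093) x2311) x3283) x5713) x8629) x10815)
  (add (add (sub (sub (add (add (sub (add (add (sub (sub (add (add C x4261) x4265) x4245) x4275) x4149) x4365) x4095) x2313) x3285) x5715) x8631) x10819) x17381)
  (sub (sub (sub (add (add (sub (add (add (sub (sub (add (add C x4257) x4265) x4255) x4279) x4153) x4369) x4099) x2317) x3289) x5719) x8635) x10821)
  (sub (sub (sub (add (add (sub (add (add (sub (add (add (add (add C x4257) x4261) x4241) x4253) x4283) x4157) x4373) x4103) x2321) x3293) x5723) x8639) x17385)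
  (sub (sub (sub (add (add (sub (sub (sub (add (add (sub C x4269) x4279) x4291) x4231) x4321) x4105) x2323) x3295) x5725) x8641) x10827)
  (add (add (sub (sub (add (add (sub (sub (sub (sub (sub C x4267) x4275) x4233) x4323) x4107) x2325) x3297) x5727) x8643) x10831) x17393)
  (add (add (sub (sub (add (add (sub (sub (sub (sub (add (add C x4279) x4283) x4269) x4257) x4329) x4113) x2331) x3303) x5733) x8649) x10837) x17399)
  (sub (sub (sub (add (add (sub (sub (sub (add (add (add (add C x4275) x4283) x4267) x4291) x4261) x4333) x4117) x2335) x3307) x5737) x8653) x10839)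
  (sub (sub (sub (add (add (sub (sub (sub (sub (add (add C x4275) x4279) x4289) x4265) x4337) x4121) x2339) x3311) x5741) x8657) x17403)
  (sub (sub (sub (add (add (sub (sub (add (add (sub (sub C x4291) x4283) x4217) x4253) x4343) x4127) x2345) x3317) x5747) x8663) x17409)
  (sub (sub (sub (add (add (sub (sub (add (add (add (add (sub C x4289) x4267) x4279) x4219) x4255) x4345) x4129) x2347) x3319) x5749) x8665) x10851)
  (add (add (sub (sub (add (add (add (add (sub (add (add (add (add (add (add C x4297) x4301) x4305) x4317) x4329) x4365) x4185) x3645) x3969) x2349) x3321) x5751) x8667) x10855) x17417)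
  (sub (sub (sub (add (add (add (add (sub (add (add (sub (add (add C x4293) x4301) x4303) x4333) x4369) x4189) x3649) x3973) x2353) x3325) x5755) x8671) x10857)
  (sub (sub (sub (add (add (add (add (sub (add (add (sub (add (add C x4293) x4297) x4313) x4337) x4373) x4193) x3653) x3977) x2357) x3329) x5759) x8675) x17421)
  (sub (sub (sub (add (add (add (add (sub (sub (sub (sub C x4305) x4297) x4321) x4195) x3655) x3979) x2359) x3331) x5761) x8677) x10863)
  (add (add (sub (sub (add (add (add (add (sub (sub (add (add (sub C x4303) x4293) x4317) x4323) x4197) x3657) x3981) x2361) x3333) x5763) x8679) x10867) x17429)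
  (sub (sub (sub (add (add (add (add (sub (sub (sub (sub C x4317) x4301) x4349) x4205) x3665) x3989) x2369) x3341) x5771) x8687) x17433)
  (add (add (sub (sub (add (add (add (add (sub (sub (add (add (sub C x4313) x4293) x4305) x4353) x4209) x3669) x3993) x2373) x3345) x5775) x8691) x10879) x17441)
  (sub (sub (sub (add (add (add (add (sub (sub (add (add (sub C x4323) x4333) x4345) x4303) x4267) x3673) x3997) x2377) x3349) x5779) x8695) x10881)
  (add (add (sub (sub (add (add (add (add (sub (sub (sub (sub C x4321) x4329) x4305) x4269) x3675) x3999) x2379) x3351) x5781) x8697) x10885) x17447)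
  (add (add (sub (sub (add (add (add (add (sub (add (add (sub (add (add C x4333) x4337) x4323) x4293) x4365) x4275) x3681) x4005) x2385) x3357) x5787) x8703) x10891) x17453)
  (sub (sub (sub (add (add (add (add (sub (add (add (add (add (add (add C x4329) x4337) x4321) x4345) x4297) x4369) x4279) x3685) x4009) x2389) x3361) x5791) x8707) x10893)
  (sub (sub (sub (add (add (add (add (sub (add (add (sub (add (add C x4329) x4333) x4343) x4301) x4373) x4283) x3689) x4013) x2393) x3365) x5795) x8711) x17457)
  (sub (sub (sub (add (add (add (add (sub (sub (sub (sub C x4345) x4337) x4361) x4289) x3695) x4019) x2399) x3371) x5801) x8717) x17463)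
  (sub (sub (sub (add (add (add (add (sub (sub (add (add (sub C x4343) x4321) x4333) x4363) x4291) x3697) x4021) x2401) x3373) x5803) x8719) x10905)
  (sub (sub (sub (add (add (add (add (add (add (sub (add (add (sub C x4353) x4361) x4373) x4313) x4133) x4241) x3701) x4025) x2405) x3377) x5807) x8723) x17469)
  (add (add (sub (sub (add (add (add (add (add (add (sub (sub (sub C x4349) x4365) x4317) x4137) x4245) x3705) x4029) x2409) x3381) x5811) x8727) x10915) x17477)
  (sub (sub (sub (add (add (add (add (add (add (sub (add (add (sub C x4363) x4349) x4373) x4343) x4145) x4253) x3713) x4037) x2417) x3389) x5819) x8735) x17481)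
  (sub (sub (sub (add (add (add (add (add (add (sub (sub (sub C x4361) x4369) x4345) x4147) x4255) x3715) x4039) x2419) x3391) x5821) x8737) x10923)
  (add (add (sub (sub (add (add (add (add (add (add (add (add (sub (add (add C x4369) x4373) x4353) x4293) x4329) x4149) x4257) x3717) x4041) x2421) x3393) x5823) x8739) x10927) x17489)
  (sub (sub (sub (add (add (add (add (add (add (add (add (sub (add (add C x4365) x4373) x4363) x4297) x4333) x4153) x4261) x3721) x4045) x2425) x3397) x5827) x8743) x10929)
  (sub (sub (sub (add (add (add (add (add (add (add (add (add (add (add (add C x4365) x4369) x4349) x4361) x4301) x4337) x4157) x4265) x3725) x4049) x2429) x3401) x5831) x8747) x17493)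
  (sub (sub (sub (add (add (add (add (add (add (add (add (add (add (sub C x4377) x4387) x4399) x4411) x4447) x4483) x4591) x4699) x5023) x5347) x6319) x1459) x13123) x10935)
  (add (add (sub (sub (add (add (add (add (add (add (add (add (sub (sub C x4375) x4383) x4413) x4449) x4485) x4593) x4701) x5025) x5349) x6321) x1461) x13125) x10939) x17501)
  (add (add (sub (sub (add (add (add (add (add (add (sub (sub (add (add C x4387) x4391) x4377) x4401) x4491) x4599) x4707) x5031) x5355) x6327) x1467) x13131) x10945) x17507)
  (sub (sub (sub (add (add (add (add (add (add (sub (add (add (add (add C x4383) x4391) x4375) x4399) x4405) x4495) x4603) x4711) x5035) x5359) x6331) x1471) x13135) x10947)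
  (sub (sub (sub (add (add (add (add (add (add (sub (sub (add (add C x4383) x4387) x4397) x4409) x4499) x4607) x4715) x5039) x5363) x6335) x1475) x13139) x17511)
  (sub (sub (sub (add (add (add (add (add (add (sub (sub (sub C x4399) x4391) x4433) x4505) x4613) x4721) x5045) x5369) x6341) x1481) x13145) x17517)
  (sub (sub (sub (add (add (add (add (add (add (sub (add (add (sub C x4397) x4375) x4387) x4435) x4507) x4615) x4723) x5047) x5371) x6343) x1483) x13147) x10959)
  (add (add (sub (sub (add (add (add (add (sub (sub (add (add (add (add C x4405) x4409) x4413) x4425) x4383) x4455) x4725) x5049) x5373) x6345) x1485) x13149) x10963) x17525)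
  (sub (sub (sub (add (add (add (add (sub (sub (sub (add (add C x4401) x4409) x4411) x4387) x4459) x4729) x5053) x5377) x6349) x1489) x13153) x10965)
  (sub (sub (sub (add (add (add (add (sub (sub (sub (add (add C x4401) x4405) x4421) x4391) x4463) x4733) x5057) x5381) x6353) x1493) x13157) x17529)
  (sub (sub (sub (add (add (add (add (sub (add (add (sub (sub C x4413) x4405) x4375) x4447) x4465) x4735) x5059) x5383) x6355) x1495) x13159) x10971)
  (add (add (sub (sub (add (add (add (add (sub (add (add (add (add (sub C x4411) x4401) x4425) x4377) x4449) x4467) x4737) x5061) x5385) x6357) x1497) x13161) x10975) x17537)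
  (sub (sub (sub (add (add (add (add (sub (sub (sub (sub C x4425) x4409) x4439) x4475) x4745) x5069) x5393) x6365) x1505) x13169) x17541)
  (add (add (sub (sub (add (add (add (add (sub (sub (add (add (sub C x4421) x4401) x4413) x4443) x4479) x4749) x5073) x5397) x6369) x1509) x13173) x10987) x17549)
  (sub (sub (sub (add (add (add (add (sub (sub (sub (sub C x4435) x4439) x4397) x4541) x4757) x5081) x5405) x6377) x1517) x13181) x17553)
  (sub (sub (sub (add (add (add (add (sub (sub (sub (sub C x4433) x4447) x4399) x4543) x4759) x5083) x5407) x6379) x1519) x13183) x10995)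
  (sub (sub (sub (add (add (add (add (sub (sub (sub (sub C x4443) x4433) x4421) x4547) x4763) x5087) x5411) x6383) x1523) x13187) x17559)
  (add (add (sub (sub (add (add (add (add (sub (sub (sub (sub C x4439) x4449) x4425) x4551) x4767) x5091) x5415) x6387) x1527) x13191) x11005) x17567)
  (sub (sub (sub (add (add (add (add (sub (add (add (sub (sub C x4449) x4435) x4375) x4411) x4555) x4771) x5095) x5419) x6391) x1531) x13195) x11007)
  (add (add (sub (sub (add (add (add (add (sub (add (add (sub (sub C x4447) x4443) x4377) x4413) x4557) x4773) x5097) x5421) x6393) x1533) x13197) x11011) x17573)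
  (add (add (sub (sub (add (add (sub (sub (add (add (add (add (add (add C x4459) x4463) x4467) x4479) x4491) x4527) x4401) x4617) x5427) x6399) x1539) x13203) x11017) x17579)
  (sub (sub (sub (add (add (sub (sub (add (add (sub (add (add C x4455) x4463) x4465) x4495) x4531) x4405) x4621) x5431) x6403) x1543) x13207) x11019)
  (sub (sub (sub (add (add (sub (sub (add (add (sub (add (add C x4455) x4459) x4475) x4499) x4535) x4409) x4625) x5435) x6407) x1547) x13211) x17583)
  (sub (sub (sub (add (add (sub (sub (sub (sub (sub C x4467) x4459) x4483) x4411) x4627) x5437) x6409) x1549) x13213) x11025)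
  (add (add (sub (sub (add (add (sub (sub (sub (add (add (sub C x4465) x4455) x4479) x4485) x4413) x4629) x5439) x6411) x1551) x13215) x11029) x17591)
  (sub (sub (sub (add (add (sub (sub (sub (sub (sub C x4479) x4463) x4511) x4421) x4637) x5447) x6419) x1559) x13223) x17595)
  (add (add (sub (sub (add (add (sub (sub (sub (add (add (sub C x4475) x4455) x4467) x4515) x4425) x4641) x5451) x6423) x1563) x13227) x11041) x17603)
  (sub (sub (sub (add (add (sub (add (add (sub (add (add (sub C x4485) x4495) x4507) x4465) x4375) x4591) x4645) x5455) x6427) x1567) x13231) x11043)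
  (add (add (sub (sub (add (add (sub (add (add (sub (sub (sub C x4483) x4491) x4467) x4377) x4593) x4647) x5457) x6429) x1569) x13233) x11047) x17609)
  (add (add (sub (sub (add (add (sub (add (add (add (add (sub (add (add C x4495) x4499) x4485) x4455) x4527) x4383) x4599) x4653) x5463) x6435) x1575) x13239) x11053) x17615)
  (sub (sub (sub (add (add (sub (add (add (add (add (add (add (add (add C x4491) x4499) x4483) x4507) x4459) x4531) x4387) x4603) x4657) x5467) x6439) x1579) x13243) x11055)
  (sub (sub (sub (add (add (sub (add (add (add (add (sub (add (add C x4491) x4495) x4505) x4463) x4535) x4391) x4607) x4661) x5471) x6443) x1583) x13247) x17619)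
  (sub (sub (sub (add (add (sub (add (add (sub (sub (sub C x4507) x4499) x4523) x4397) x4613) x4667) x5477) x6449) x1589) x13253) x17625)
  (sub (sub (sub (add (add (sub (add (add (sub (add (add (sub C x4505) x4483) x4495) x4525) x4399) x4615) x4669) x5479) x6451) x1591) x13255) x11067)
  (sub (sub (sub (add (add (sub (sub (sub (add (add (sub C x4515) x4523) x4535) x4475) x4565) x4673) x5483) x6455) x1595) x13259) x17631)
  (add (add (sub (sub (add (add (sub (sub (sub (sub (sub C x4511) x4527) x4479) x4569) x4677) x5487) x6459) x1599) x13263) x11077) x17639)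
  (sub (sub (sub (add (add (sub (sub (sub (add (add (sub C x4525) x4511) x4535) x4505) x4577) x4685) x5495) x6467) x1607) x13271) x17643)
  (sub (sub (sub (add (add (sub (sub (sub (sub (sub C x4523) x4531) x4507) x4579) x4687) x5497) x6469) x1609) x13273) x11085)
  (add (add (sub (sub (add (add (sub (sub (add (add (sub (add (add C x4531) x4535) x4515) x4455) x4491) x4581) x4689) x5499) x6471) x1611) x13275) x11089) x17651)
  (sub (sub (sub (add (add (sub (sub (add (add (sub (add (add C x4527) x4535) x4525) x4459) x4495) x4585) x4693) x5503) x6475) x1615) x13279) x11091)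
  (sub (sub (sub (add (add (sub (sub (add (add (add (add (add (add C x4527) x4531) x4511) x4523) x4463) x4499) x4589) x4697) x5507) x6479) x1619) x13283) x17655)
  (sub (sub (sub (add (add (sub (sub (add (add (sub (sub C x4543) x4547) x4577) x4613) x4433) x4865) x5513) x6485) x1625) x13289) x17661)
  (sub (sub (sub (add (add (sub (sub (add (add (sub (sub C x4541) x4555) x4579) x4615) x4435) x4867) x5515) x6487) x1627) x13291) x11103)
  (sub (sub (sub (add (add (sub (sub (sub (sub (sub C x4551) x4541) x4565) x4439) x4871) x5519) x6491) x1631) x13295) x17667)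
  (add (add (sub (sub (add (add (sub (sub (sub (sub (sub C x4547) x4557) x4569) x4443) x4875) x5523) x6495) x1635) x13299) x11113) x17675)
  (sub (sub (sub (add (add (sub (sub (sub (sub (sub C x4557) x4543) x4591) x4447) x4879) x5527) x6499) x1639) x13303) x11115)
  (add (add (sub (sub (add (add (sub (sub (sub (sub (sub C x4555) x4551) x4593) x4449) x4881) x5529) x6501) x1641) x13305) x11119) x17681)
  (sub (sub (sub (add (add (sub (sub (sub (add (add (sub C x4569) x4577) x4589) x4547) x4511) x4889) x5537) x6509) x1649) x13313) x17685)
  (add (add (sub (sub (add (add (sub (sub (sub (sub (sub C x4565) x4581) x4551) x4515) x4893) x5541) x6513) x1653) x13317) x11131) x17693)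
  (sub (sub (sub (add (add (sub (sub (add (add (add (add (sub C x4579) x4565) x4589) x4541) x4613) x4523) x4901) x5549) x6521) x1661) x13325) x17697)
  (sub (sub (sub (add (add (sub (sub (add (add (sub (sub C x4577) x4585) x4543) x4615) x4525) x4903) x5551) x6523) x1663) x13327) x11139)
  (add (add (sub (sub (add (add (sub (sub (sub (sub (add (add C x4585) x4589) x4569) x4599) x4527) x4905) x5553) x6525) x1665) x13329) x11143) x17705)
  (sub (sub (sub (add (add (sub (sub (sub (sub (add (add C x4581) x4589) x4579) x4603) x4531) x4909) x5557) x6529) x1669) x13333) x11145)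
  (sub (sub (sub (add (add (sub (sub (sub (add (add (add (add C x4581) x4585) x4565) x4577) x4607) x4535) x4913) x5561) x6533) x1673) x13337) x17709)
  (sub (sub (sub (add (add (sub (add (add (sub (add (add (sub C x4593) x4603) x4615) x4555) x4375) x4483) x4915) x5563) x6535) x1675) x13339) x11151)
  (add (add (sub (sub (add (add (sub (add (add (sub (sub (sub C x4591) x4599) x4557) x4377) x4485) x4917) x5565) x6537) x1677) x13341) x11155) x17717)
  (add (add (sub (sub (add (add (sub (add (add (sub (sub (add (add C x4603) x4607) x4593) x4581) x4383) x4491) x4923) x5571) x6543) x1683) x13347) x11161) x17723)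
  (sub (sub (sub (add (add (sub (add (add (sub (add (add (add (add C x4599) x4607) x4591) x4615) x4585) x4387) x4495) x4927) x5575) x6547) x1687) x13351) x11163)
  (sub (sub (sub (add (add (sub (add (add (sub (sub (add (add C x4599) x4603) x4613) x4589) x4391) x4499) x4931) x5579) x6551) x1691) x13355) x17727)
  (sub (sub (sub (add (add (sub (add (add (add (add (sub (sub C x4615) x4607) x4541) x4577) x4397) x4505) x4937) x5585) x6557) x1697) x13361) x17733)
  (sub (sub (sub (add (add (sub (add (add (add (add (add (add (sub C x4613) x4591) x4603) x4543) x4579) x4399) x4507) x4939) x5587) x6559) x1699) x13363) x11175)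
  (add (add (sub (sub (sub (sub (add (add (add (add (add (add (add (add C x4621) x4625) x4629) x4641) x4653) x4689) x4725) x4833) x4455) x5103) x1701) x13365) x11179) x17741)
  (sub (sub (sub (sub (sub (add (add (add (add (sub (add (add C x4617) x4625) x4627) x4657) x4693) x4729) x4837) x4459) x5107) x1705) x13369) x11181)
  (sub (sub (sub (sub (sub (add (add (add (add (sub (add (add C x4617) x4621) x4637) x4661) x4697) x4733) x4841) x4463) x5111) x1709) x13373) x17745)
  (sub (sub (sub (sub (sub (add (add (sub (sub (sub C x4629) x4621) x4645) x4735) x4843) x4465) x5113) x1711) x13375) x11187)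
  (add (add (sub (sub (sub (sub (add (add (sub (add (add (sub C x4627) x4617) x4641) x4647) x4737) x4845) x4467) x5115) x1713) x13377) x11191) x17753)
  (sub (sub (sub (sub (sub (add (add (sub (sub (sub C x4641) x4625) x4673) x4745) x4853) x4475) x5123) x1721) x13385) x17757)
  (add (add (sub (sub (sub (sub (add (add (sub (add (add (sub C x4637) x4617) x4629) x4677) x4749) x4857) x4479) x5127) x1725) x13389) x11203) x17765)
  (sub (sub (sub (sub (sub (sub (sub (add (add (sub C x4647) x4657) x4669) x4627) x4699) x4483) x5131) x1729) x13393) x11205)
  (add (add (sub (sub (sub (sub (sub (sub (sub (sub C x4645) x4653) x4629) x4701) x4485) x5133) x1731) x13395) x11209) x17771)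
  (add (add (sub (sub (sub (sub (sub (add (add (sub (add (add C x4657) x4661) x4647) x4617) x4689) x4707) x4491) x5139) x1737) x13401) x11215) x17777)
  (sub (sub (sub (sub (sub (sub (add (add (add (add (add (add C x4653) x4661) x4645) x4669) x4621) x4693) x4711) x4495) x5143) x1741) x13405) x11217)
  (sub (sub (sub (sub (sub (sub (add (add (sub (add (add C x4653) x4657) x4667) x4625) x4697) x4715) x4499) x5147) x1745) x13409) x17781)
  (sub (sub (sub (sub (sub (sub (sub (sub (sub C x4669) x4661) x4685) x4721) x4505) x5153) x1751) x13415) x17787)
  (sub (sub (sub (sub (sub (sub (sub (add (add (sub C x4667) x4645) x4657) x4687) x4723) x4507) x5155) x1753) x13417) x11229)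
  (sub (sub (sub (sub (sub (sub (sub (add (add (sub C x4677) x4685) x4697) x4637) x4781) x4511) x5159) x1757) x13421) x17793)
  (add (add (sub (sub (sub (sub (sub (sub (sub (sub C x4673) x4689) x4641) x4785) x4515) x5163) x1761) x13425) x11239) x17801)
  (sub (sub (sub (sub (sub (sub (sub (add (add (sub C x4687) x4673) x4697) x4667) x4793) x4523) x5171) x1769) x13433) x17805)
  (sub (sub (sub (sub (sub (sub (sub (sub (sub C x4685) x4693) x4669) x4795) x4525) x5173) x1771) x13435) x11247)
  (add (add (sub (sub (sub (sub (sub (add (add (sub (add (add C x4693) x4697) x4677) x4617) x4653) x4797) x4527) x5175) x1773) x13437) x11251) x17813)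
  (sub (sub (sub (sub (sub (sub (add (add (sub (add (add C x4689) x4697) x4687) x4621) x4657) x4801) x4531) x5179) x1777) x13441) x11253)
  (sub (sub (sub (sub (sub (sub (add (add (add (add (add (add C x4689) x4693) x4673) x4685) x4625) x4661) x4805) x4535) x5183) x1781) x13445) x17817)
  (sub (sub (sub (sub (add (add (sub (add (add (add (add (sub C x4701) x4711) x4723) x4735) x4771) x4645) x4375) x5023) x5185) x1783) x13447) x11259)
  (add (add (sub (sub (sub (add (add (sub (add (add (sub (sub C x4699) x4707) x4737) x4773) x4647) x4377) x5025) x5187) x1785) x13449) x11263) x17825)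
  (add (add (sub (sub (sub (add (add (sub (sub (sub (add (add C x4711) x4715) x4701) x4725) x4653) x4383) x5031) x5193) x1791) x13455) x11269) x17831)
  (sub (sub (sub (sub (add (add (sub (sub (add (add (add (add C x4707) x4715) x4699) x4723) x4729) x4657) x4387) x5035) x5197) x1795) x13459) x11271)
  (sub (sub (sub (sub (add (add (sub (sub (sub (add (add C x4707) x4711) x4721) x4733) x4661) x4391) x5039) x5201) x1799) x13463) x17835)
  (sub (sub (sub (sub (add (add (sub (sub (sub (sub C x4723) x4715) x4757) x4667) x4397) x5045) x5207) x1805) x13469) x17841)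
  (sub (sub (sub (sub (add (add (sub (sub (add (add (sub C x4721) x4699) x4711) x4759) x4669) x4399) x5047) x5209) x1807) x13471) x11283)
  (add (add (sub (sub (sub (add (add (add (add (sub (add (add (add (add C x4729) x4733) x4737) x4749) x4707) x4617) x4833) x4401) x5049) x5211) x1809) x13473) x11287) x17849)
  (sub (sub (sub (sub (add (add (add (add (sub (sub (add (add C x4725) x4733) x4735) x4711) x4621) x4837) x4405) x5053) x5215) x1813) x13477) x11289)
  (sub (sub (sub (sub (add (add (add (add (sub (sub (add (add C x4725) x4729) x4745) x4715) x4625) x4841) x4409) x5057) x5219) x1817) x13481) x17853)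
  (sub (sub (sub (sub (add (add (add (add (add (add (sub (sub C x4737) x4729) x4699) x4771) x4627) x4843) x4411) x5059) x5221) x1819) x13483) x11295)
  (add (add (sub (sub (sub (add (add (add (add (add (add (add (add (sub C x4735) x4725) x4749) x4701) x4773) x4629) x4845) x4413) x5061) x5223) x1821) x13485) x11299) x17861)
  (sub (sub (sub (sub (add (add (add (add (sub (sub (sub C x4749) x4733) x4763) x4637) x4853) x4421) x5069) x5231) x1829) x13493) x17865)
  (add (add (sub (sub (sub (add (add (add (add (sub (add (add (sub C x4745) x4725) x4737) x4767) x4641) x4857) x4425) x5073) x5235) x1833) x13497) x11311) x17873)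
  (sub (sub (sub (sub (add (add (sub (sub (sub (sub C x4759) x4763) x4721) x4811) x4433) x5081) x5243) x1841) x13505) x17877)
  (sub (sub (sub (sub (add (add (sub (sub (sub (sub C x4757) x4771) x4723) x4813) x4435) x5083) x5245) x1843) x13507) x11319)
  (sub (sub (sub (sub (add (add (sub (sub (sub (sub C x4767) x4757) x4745) x4817) x4439) x5087) x5249) x1847) x13511) x17883)
  (add (add (sub (sub (sub (add (add (sub (sub (sub (sub C x4763) x4773) x4749) x4821) x4443) x5091) x5253) x1851) x13515) x11329) x17891)
  (sub (sub (sub (sub (add (add (sub (add (add (sub (sub C x4773) x4759) x4699) x4735) x4825) x4447) x5095) x5257) x1855) x13519) x11331)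
  (add (add (sub (sub (sub (add (add (sub (add (add (sub (sub C x4771) x4767) x4701) x4737) x4827) x4449) x5097) x5259) x1857) x13521) x11335) x17897)
  (sub (sub (sub (sub (sub (sub (add (add (add (add (sub C x4785) x4793) x4805) x4817) x4853) x4673) x4943) x5267) x1865) x13529) x17901)
  (add (add (sub (sub (sub (sub (sub (add (add (sub (sub C x4781) x4797) x4821) x4857) x4677) x4947) x5271) x1869) x13533) x11347) x17909)
  (sub (sub (sub (sub (sub (sub (sub (add (add (sub C x4795) x4781) x4805) x4811) x4685) x4955) x5279) x1877) x13541) x17913)
  (sub (sub (sub (sub (sub (sub (sub (sub (sub C x4793) x4801) x4813) x4687) x4957) x5281) x1879) x13543) x11355)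
  (add (add (sub (sub (sub (sub (sub (sub (sub (add (add C x4801) x4805) x4785) x4833) x4689) x4959) x5283) x1881) x13545) x11359) x17921)
  (sub (sub (sub (sub (sub (sub (sub (sub (add (add C x4797) x4805) x4795) x4837) x4693) x4963) x5287) x1885) x13549) x11361)
  (sub (sub (sub (sub (sub (sub (sub (add (add (add (add C x4797) x4801) x4781) x4793) x4841) x4697) x4967) x5291) x1889) x13553) x17925)
  (sub (sub (sub (sub (sub (sub (sub (sub (sub C x4813) x4817) x4793) x4757) x4973) x5297) x1895) x13559) x17931)
  (sub (sub (sub (sub (sub (sub (sub (sub (sub C x4811) x4825) x4795) x4759) x4975) x5299) x1897) x13561) x11373)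
  (sub (sub (sub (sub (sub (sub (add (add (sub (sub C x4821) x4811) x4781) x4853) x4763) x4979) x5303) x1901) x13565) x17937)
  (add (add (sub (sub (sub (sub (sub (add (add (sub (sub C x4817) x4827) x4785) x4857) x4767) x4983) x5307) x1905) x13569) x11383) x17945)
  (sub (sub (sub (sub (sub (sub (sub (sub (sub C x4827) x4813) x4843) x4771) x4987) x5311) x1909) x13573) x11385)
  (add (add (sub (sub (sub (sub (sub (sub (sub (sub C x4825) x4821) x4845) x4773) x4989) x5313) x1911) x13575) x11389) x17951)
  (add (add (sub (sub (sub (sub (add (add (sub (add (add (add (add C x4837) x4841) x4845) x4857) x4797) x4617) x4725) x4995) x5319) x1917) x13581) x11395) x17957)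
  (sub (sub (sub (sub (sub (add (add (sub (sub (add (add C x4833) x4841) x4843) x4801) x4621) x4729) x4999) x5323) x1921) x13585) x11397)
  (sub (sub (sub (sub (sub (add (add (sub (sub (add (add C x4833) x4837) x4853) x4805) x4625) x4733) x5003) x5327) x1925) x13589) x17961)
  (sub (sub (sub (sub (sub (add (add (sub (sub (sub C x4845) x4837) x4825) x4627) x4735) x5005) x5329) x1927) x13591) x11403)
  (add (add (sub (sub (sub (sub (add (add (sub (add (add (sub C x4843) x4833) x4857) x4827) x4629) x4737) x5007) x5331) x1929) x13593) x11407) x17969)
  (sub (sub (sub (sub (sub (add (add (add (add (sub (sub C x4857) x4841) x4781) x4817) x4637) x4745) x5015) x5339) x1937) x13601) x17973)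
  (add (add (sub (sub (sub (sub (add (add (add (add (add (add (sub C x4853) x4833) x4845) x4785) x4821) x4641) x4749) x5019) x5343) x1941) x13605) x11419) x17981)
  (sub (sub (sub (sub (sub (add (add (add (add (sub (sub C x4867) x4871) x4901) x4937) x4973) x5081) x4541) x5837) x1949) x13613) x17985)
  (sub (sub (sub (sub (sub (add (add (add (add (sub (sub C x4865) x4879) x4903) x4939) x4975) x5083) x4543) x5839) x1951) x13615) x11427)
  (sub (sub (sub (sub (sub (add (add (sub (sub (sub C x4875) x4865) x4889) x4979) x5087) x4547) x5843) x1955) x13619) x17991)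
  (add (add (sub (sub (sub (sub (add (add (sub (sub (sub C x4871) x4881) x4893) x4983) x5091) x4551) x5847) x1959) x13623) x11437) x17999)
  (sub (sub (sub (sub (sub (add (add (sub (sub (sub C x4881) x4867) x4915) x4987) x5095) x4555) x5851) x1963) x13627) x11439)
  (add (add (sub (sub (sub (sub (add (add (sub (sub (sub C x4879) x4875) x4917) x4989) x5097) x4557) x5853) x1965) x13629) x11443) x18005)
  (sub (sub (sub (sub (sub (sub (sub (add (add (sub C x4893) x4901) x4913) x4871) x4943) x4565) x5861) x1973) x13637) x18009)
  (add (add (sub (sub (sub (sub (sub (sub (sub (sub C x4889) x4905) x4875) x4947) x4569) x5865) x1977) x13641) x11455) x18017)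
  (sub (sub (sub (sub (sub (sub (add (add (add (add (sub C x4903) x4889) x4913) x4865) x4937) x4955) x4577) x5873) x1985) x13649) x18021)
  (sub (sub (sub (sub (sub (sub (add (add (sub (sub C x4901) x4909) x4867) x4939) x4957) x4579) x5875) x1987) x13651) x11463)
  (add (add (sub (sub (sub (sub (sub (sub (sub (add (add C x4909) x4913) x4893) x4923) x4959) x4581) x5877) x1989) x13653) x11467) x18029)
  (sub (sub (sub (sub (sub (sub (sub (sub (add (add C x4905) x4913) x4903) x4927) x4963) x4585) x5881) x1993) x13657) x11469)
  (sub (sub (sub (sub (sub (sub (sub (add (add (add (add C x4905) x4909) x4889) x4901) x4931) x4967) x4589) x5885) x1997) x13661) x18033)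
  (sub (sub (sub (sub (sub (sub (sub (add (add (sub C x4917) x4927) x4939) x4879) x5023) x4591) x5887) x1999) x13663) x11475)
  (add (add (sub (sub (sub (sub (sub (sub (sub (sub C x4915) x4923) x4881) x5025) x4593) x5889) x2001) x13665) x11479) x18041)
  (add (add (sub (sub (sub (sub (sub (sub (sub (add (add C x4927) x4931) x4917) x4905) x5031) x4599) x5895) x2007) x13671) x11485) x18047)
  (sub (sub (sub (sub (sub (sub (sub (add (add (add (add C x4923) x4931) x4915) x4939) x4909) x5035) x4603) x5899) x2011) x13675) x11487)
  (sub (sub (sub (sub (sub (sub (sub (sub (add (add C x4923) x4927) x4937) x4913) x5039) x4607) x5903) x2015) x13679) x18051)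
  (sub (sub (sub (sub (sub (sub (add (add (sub (sub C x4939) x4931) x4865) x4901) x5045) x4613) x5909) x2021) x13685) x18057)
  (sub (sub (sub (sub (sub (sub (add (add (add (add (sub C x4937) x4915) x4927) x4867) x4903) x5047) x4615) x5911) x2023) x13687) x11499)
  (sub (sub (sub (sub (sub (sub (add (add (add (add (sub C x4947) x4955) x4967) x4979) x5015) x4889) x4781) x5915) x2027) x13691) x18063)
  (add (add (sub (sub (sub (sub (sub (add (add (sub (sub C x4943) x4959) x4983) x5019) x4893) x4785) x5919) x2031) x13695) x11509) x18071)
  (sub (sub (sub (sub (sub (sub (sub (add (add (sub C x4957) x4943) x4967) x4973) x4901) x4793) x5927) x2039) x13703) x18075)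
  (sub (sub (sub (sub (sub (sub (sub (sub (sub C x4955) x4963) x4975) x4903) x4795) x5929) x2041) x13705) x11517)
  (add (add (sub (sub (sub (sub (sub (sub (sub (add (add C x4963) x4967) x4947) x4995) x4905) x4797) x5931) x2043) x13707) x11521) x18083)
  (sub (sub (sub (sub (sub (sub (sub (sub (add (add C x4959) x4967) x4957) x4999) x4909) x4801) x5935) x2047) x13711) x11523)
  (sub (sub (sub (sub (sub (sub (sub (add (add (add (add C x4959) x4963) x4943) x4955) x5003) x4913) x4805) x5939) x2051) x13715) x18087)
  (sub (sub (sub (sub (sub (add (add (sub (sub (sub C x4975) x4979) x4955) x4865) x5081) x4811) x5945) x2057) x13721) x18093)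
  (sub (sub (sub (sub (sub (add (add (sub (sub (sub C x4973) x4987) x4957) x4867) x5083) x4813) x5947) x2059) x13723) x11535)
  (sub (sub (sub (sub (sub (add (add (add (add (sub (sub C x4983) x4973) x4943) x5015) x4871) x5087) x4817) x5951) x2063) x13727) x18099)
  (add (add (sub (sub (sub (sub (add (add (add (add (sub (sub C x4979) x4989) x4947) x5019) x4875) x5091) x4821) x5955) x2067) x13731) x11545) x18107)
  (sub (sub (sub (sub (sub (add (add (sub (sub (sub C x4989) x4975) x5005) x4879) x5095) x4825) x5959) x2071) x13735) x11547)
  (add (add (sub (sub (sub (sub (add (add (sub (sub (sub C x4987) x4983) x5007) x4881) x5097) x4827) x5961) x2073) x13737) x11551) x18113)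
  (add (add (sub (sub (sub (sub (sub (sub (add (add (add (add C x4999) x5003) x5007) x5019) x4959) x5049) x4833) x5967) x2079) x13743) x11557) x18119)
  (sub (sub (sub (sub (sub (sub (sub (sub (add (add C x4995) x5003) x5005) x4963) x5053) x4837) x5971) x2083) x13747) x11559)
  (sub (sub (sub (sub (sub (sub (sub (sub (add (add C x4995) x4999) x5015) x4967) x5057) x4841) x5975) x2087) x13751) x18123)
  (sub (sub (sub (sub (sub (sub (sub (sub (sub C x5007) x4999) x4987) x5059) x4843) x5977) x2089) x13753) x11565)
  (add (add (sub (sub (sub (sub (sub (sub (add (add (sub C x5005) x4995) x5019) x4989) x5061) x4845) x5979) x2091) x13755) x11569) x18131)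
  (sub (sub (sub (sub (sub (sub (add (add (sub (sub C x5019) x5003) x4943) x4979) x5069) x4853) x5987) x2099) x13763) x18135)
  (add (add (sub (sub (sub (sub (sub (add (add (add (add (sub C x5015) x4995) x5007) x4947) x4983) x5073) x4857) x5991) x2103) x13767) x11581) x18143)
  (sub (sub (sub (sub (add (add (sub (add (add (add (add (sub C x5025) x5035) x5047) x5059) x5095) x4915) x4375) x4699) x5995) x2107) x13771) x11583)
  (add (add (sub (sub (sub (add (add (sub (add (add (sub (sub C x5023) x5031) x5061) x5097) x4917) x4377) x4701) x5997) x2109) x13773) x11587) x18149)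
  (add (add (sub (sub (sub (add (add (sub (sub (sub (add (add C x5035) x5039) x5025) x5049) x4923) x4383) x4707) x6003) x2115) x13779) x11593) x18155)
  (sub (sub (sub (sub (add (add (sub (sub (add (add (add (add C x5031) x5039) x5023) x5047) x5053) x4927) x4387) x4711) x6007) x2119) x13783) x11595)
  (sub (sub (sub (sub (add (add (sub (sub (sub (add (add C x5031) x5035) x5045) x5057) x4931) x4391) x4715) x6011) x2123) x13787) x18159)
  (sub (sub (sub (sub (add (add (sub (sub (sub (sub C x5047) x5039) x5081) x4937) x4397) x4721) x6017) x2129) x13793) x18165)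
  (sub (sub (sub (sub (add (add (sub (sub (add (add (sub C x5045) x5023) x5035) x5083) x4939) x4399) x4723) x6019) x2131) x13795) x11607)
  (add (add (sub (sub (sub (add (add (sub (sub (add (add (add (add C x5053) x5057) x5061) x5073) x5031) x4995) x4401) x4725) x6021) x2133) x13797) x11611) x18173)
  (sub (sub (sub (sub (add (add (sub (sub (sub (add (add C x5049) x5057) x5059) x5035) x4999) x4405) x4729) x6025) x2137) x13801) x11613)
  (sub (sub (sub (sub (add (add (sub (sub (sub (add (add C x5049) x5053) x5069) x5039) x5003) x4409) x4733) x6029) x2141) x13805) x18177)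
  (sub (sub (sub (sub (add (add (sub (add (add (sub (sub C x5061) x5053) x5023) x5095) x5005) x4411) x4735) x6031) x2143) x13807) x11619)
  (add (add (sub (sub (sub (add (add (sub (add (add (add (add (sub C x5059) x5049) x5073) x5025) x5097) x5007) x4413) x4737) x6033) x2145) x13809) x11623) x18185)
  (sub (sub (sub (sub (add (add (sub (sub (sub (sub C x5073) x5057) x5087) x5015) x4421) x4745) x6041) x2153) x13817) x18189)
  (add (add (sub (sub (sub (add (add (sub (sub (add (add (sub C x5069) x5049) x5061) x5091) x5019) x4425) x4749) x6045) x2157) x13821) x11635) x18197)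
  (sub (sub (sub (sub (add (add (add (add (sub (sub (sub C x5083) x5087) x5045) x4865) x4973) x4433) x4757) x6053) x2165) x13829) x18201)
  (sub (sub (sub (sub (add (add (add (add (sub (sub (sub C x5081) x5095) x5047) x4867) x4975) x4435) x4759) x6055) x2167) x13831) x11643)
  (sub (sub (sub (sub (add (add (add (add (sub (sub (sub C x5091) x5081) x5069) x4871) x4979) x4439) x4763) x6059) x2171) x13835) x18207)
  (add (add (sub (sub (sub (add (add (add (add (sub (sub (sub C x5087) x5097) x5073) x4875) x4983) x4443) x4767) x6063) x2175) x13839) x11653) x18215)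
  (sub (sub (sub (sub (add (add (add (add (add (add (sub (sub C x5097) x5083) x5023) x5059) x4879) x4987) x4447) x4771) x6067) x2179) x13843) x11655)
  (add (add (sub (sub (sub (add (add (add (add (add (add (sub (sub C x5095) x5091) x5025) x5061) x4881) x4989) x4449) x4773) x6069) x2181) x13845) x11659) x18221)
  (add (add (sub (sub (sub (add (add (add (add (add (add (add (add (add (add C x5107) x5111) x5115) x5127) x5139) x5175) x5211) x5319) x5427) x5751) x4617) x3645) x13851) x11665) x18227)
  (sub (sub (sub (sub (add (add (add (add (add (add (sub (add (add C x5103) x5111) x5113) x5143) x5179) x5215) x5323) x5431) x5755) x4621) x3649) x13855) x11667)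
  (sub (sub (sub (sub (add (add (add (add (add (add (sub (add (add C x5103) x5107) x5123) x5147) x5183) x5219) x5327) x5435) x5759) x4625) x3653) x13859) x18231)
  (sub (sub (sub (sub (add (add (add (add (sub (sub (sub C x5115) x5107) x5131) x5221) x5329) x5437) x5761) x4627) x3655) x13861) x11673)
  (add (add (sub (sub (sub (add (add (add (add (sub (add (add (sub C x5113) x5103) x5127) x5133) x5223) x5331) x5439) x5763) x4629) x3657) x13863) x11677) x18239)
  (sub (sub (sub (sub (add (add (add (add (sub (sub (sub C x5127) x5111) x5159) x5231) x5339) x5447) x5771) x4637) x3665) x13871) x18243)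
  (add (add (sub (sub (sub (add (add (add (add (sub (add (add (sub C x5123) x5103) x5115) x5163) x5235) x5343) x5451) x5775) x4641) x3669) x13875) x11689) x18251)
  (sub (sub (sub (sub (add (add (sub (sub (add (add (sub C x5133) x5143) x5155) x5113) x5185) x5455) x5779) x4645) x3673) x13879) x11691)
  (add (add (sub (sub (sub (add (add (sub (sub (sub (sub C x5131) x5139) x5115) x5187) x5457) x5781) x4647) x3675) x13881) x11695) x18257)
  (add (add (sub (sub (sub (add (add (sub (add (add (sub (add (add C x5143) x5147) x5133) x5103) x5175) x5193) x5463) x5787) x4653) x3681) x13887) x11701) x18263)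
  (sub (sub (sub (sub (add (add (sub (add (add (add (add (add (add C x5139) x5147) x5131) x5155) x5107) x5179) x5197) x5467) x5791) x4657) x3685) x13891) x11703)
  (sub (sub (sub (sub (add (add (sub (add (add (sub (add (add C x5139) x5143) x5153) x5111) x5183) x5201) x5471) x5795) x4661) x3689) x13895) x18267)
  (sub (sub (sub (sub (add (add (sub (sub (sub (sub C x5155) x5147) x5171) x5207) x5477) x5801) x4667) x3695) x13901) x18273)
  (sub (sub (sub (sub (add (add (sub (sub (add (add (sub C x5153) x5131) x5143) x5173) x5209) x5479) x5803) x4669) x3697) x13903) x11715)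
  (sub (sub (sub (sub (add (add (sub (sub (add (add (sub C x5163) x5171) x5183) x5123) x5267) x5483) x5807) x4673) x3701) x13907) x18279)
  (add (add (sub (sub (sub (add (add (sub (sub (sub (sub C x5159) x5175) x5127) x5271) x5487) x5811) x4677) x3705) x13911) x11725) x18287)
  (sub (sub (sub (sub (add (add (sub (sub (add (add (sub C x5173) x5159) x5183) x5153) x5279) x5495) x5819) x4685) x3713) x13919) x18291)
  (sub (sub (sub (sub (add (add (sub (sub (sub (sub C x5171) x5179) x5155) x5281) x5497) x5821) x4687) x3715) x13921) x11733)
  (add (add (sub (sub (sub (add (add (sub (add (add (sub (add (add C x5179) x5183) x5163) x5103) x5139) x5283) x5499) x5823) x4689) x3717) x13923) x11737) x18299)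
  (sub (sub (sub (sub (add (add (sub (add (add (sub (add (add C x5175) x5183) x5173) x5107) x5143) x5287) x5503) x5827) x4693) x3721) x13927) x11739)
  (sub (sub (sub (sub (add (add (sub (add (add (add (add (add (add C x5175) x5179) x5159) x5171) x5111) x5147) x5291) x5507) x5831) x4697) x3725) x13931) x18303)
  (sub (sub (sub (sub (sub (sub (add (add (add (add (sub C x5187) x5197) x5209) x5221) x5257) x5131) x5347) x4699) x3727) x13933) x11745)
  (add (add (sub (sub (sub (sub (sub (add (add (sub (sub C x5185) x5193) x5223) x5259) x5133) x5349) x4701) x3729) x13935) x11749) x18311)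
  (add (add (sub (sub (sub (sub (sub (sub (sub (add (add C x5197) x5201) x5187) x5211) x5139) x5355) x4707) x3735) x13941) x11755) x18317)
  (sub (sub (sub (sub (sub (sub (sub (add (add (add (add C x5193) x5201) x5185) x5209) x5215) x5143) x5359) x4711) x3739) x13945) x11757)
  (sub (sub (sub (sub (sub (sub (sub (sub (add (add C x5193) x5197) x5207) x5219) x5147) x5363) x4715) x3743) x13949) x18321)
  (sub (sub (sub (sub (sub (sub (sub (sub (sub C x5209) x5201) x5243) x5153) x5369) x4721) x3749) x13955) x18327)
  (sub (sub (sub (sub (sub (sub (sub (add (add (sub C x5207) x5185) x5197) x5245) x5155) x5371) x4723) x3751) x13957) x11769)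
  (add (add (sub (sub (sub (sub (add (add (sub (add (add (add (add C x5215) x5219) x5223) x5235) x5193) x5103) x5319) x5373) x4725) x3753) x13959) x11773) x18335)
  (sub (sub (sub (sub (sub (add (add (sub (sub (add (add C x5211) x5219) x5221) x5197) x5107) x5323) x5377) x4729) x3757) x13963) x11775)
  (sub (sub (sub (sub (sub (add (add (sub (sub (add (add C x5211) x5215) x5231) x5201) x5111) x5327) x5381) x4733) x3761) x13967) x18339)
  (sub (sub (sub (sub (sub (add (add (add (add (sub (sub C x5223) x5215) x5185) x5257) x5113) x5329) x5383) x4735) x3763) x13969) x11781)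
  (add (add (sub (sub (sub (sub (add (add (add (add (add (add (sub C x5221) x5211) x5235) x5187) x5259) x5115) x5331) x5385) x4737) x3765) x13971) x11785) x18347)
  (sub (sub (sub (sub (sub (add (add (sub (sub (sub C x5235) x5219) x5249) x5123) x5339) x5393) x4745) x3773) x13979) x18351)
  (add (add (sub (sub (sub (sub (add (add (sub (add (add (sub C x5231) x5211) x5223) x5253) x5127) x5343) x5397) x4749) x3777) x13983) x11797) x18359)
  (sub (sub (sub (sub (sub (sub (sub (sub (sub C x5245) x5249) x5207) x5297) x5405) x4757) x3785) x13991) x18363)
  (sub (sub (sub (sub (sub (sub (sub (sub (sub C x5243) x5257) x5209) x5299) x5407) x4759) x3787) x13993) x11805)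
  (sub (sub (sub (sub (sub (sub (sub (sub (sub C x5253) x5243) x5231) x5303) x5411) x4763) x3791) x13997) x18369)
  (add (add (sub (sub (sub (sub (sub (sub (sub (sub C x5249) x5259) x5235) x5307) x5415) x4767) x3795) x14001) x11815) x18377)
  (sub (sub (sub (sub (sub (sub (add (add (sub (sub C x5259) x5245) x5185) x5221) x5311) x5419) x4771) x3799) x14005) x11817)
  (add (add (sub (sub (sub (sub (sub (add (add (sub (sub C x5257) x5253) x5187) x5223) x5313) x5421) x4773) x3801) x14007) x11821) x18383)
  (sub (sub (sub (sub (sub (sub (add (add (add (add (sub C x5271) x5279) x5291) x5303) x5339) x5159) x5591) x4781) x3809) x14015) x18387)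
  (add (add (sub (sub (sub (sub (sub (add (add (sub (sub C x5267) x5283) x5307) x5343) x5163) x5595) x4785) x3813) x14019) x11833) x18395)
  (sub (sub (sub (sub (sub (sub (sub (add (add (sub C x5281) x5267) x5291) x5297) x5171) x5603) x4793) x3821) x14027) x18399)
  (sub (sub (sub (sub (sub (sub (sub (sub (sub C x5279) x5287) x5299) x5173) x5605) x4795) x3823) x14029) x11841)
  (add (add (sub (sub (sub (sub (sub (sub (sub (add (add C x5287) x5291) x5271) x5319) x5175) x5607) x4797) x3825) x14031) x11845) x18407)
  (sub (sub (sub (sub (sub (sub (sub (sub (add (add C x5283) x5291) x5281) x5323) x5179) x5611) x4801) x3829) x14035) x11847)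
  (sub (sub (sub (sub (sub (sub (sub (add (add (add (add C x5283) x5287) x5267) x5279) x5327) x5183) x5615) x4805) x3833) x14039) x18411)
  (sub (sub (sub (sub (sub (sub (sub (sub (sub C x5299) x5303) x5279) x5243) x5621) x4811) x3839) x14045) x18417)
  (sub (sub (sub (sub (sub (sub (sub (sub (sub C x5297) x5311) x5281) x5245) x5623) x4813) x3841) x14047) x11859)
  (sub (sub (sub (sub (sub (sub (add (add (sub (sub C x5307) x5297) x5267) x5339) x5249) x5627) x4817) x3845) x14051) x18423)
  (add (add (sub (sub (sub (sub (sub (add (add (sub (sub C x5303) x5313) x5271) x5343) x5253) x5631) x4821) x3849) x14055) x11869) x18431)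
  (sub (sub (sub (sub (sub (sub (sub (sub (sub C x5313) x5299) x5329) x5257) x5635) x4825) x3853) x14059) x11871)
  (add (add (sub (sub (sub (sub (sub (sub (sub (sub C x5311) x5307) x5331) x5259) x5637) x4827) x3855) x14061) x11875) x18437)
  (add (add (sub (sub (sub (sub (add (add (sub (add (add (add (add C x5323) x5327) x5331) x5343) x5283) x5103) x5211) x5643) x4833) x3861) x14067) x11881) x18443)
  (sub (sub (sub (sub (sub (add (add (sub (sub (add (add C x5319) x5327) x5329) x5287) x5107) x5215) x5647) x4837) x3865) x14071) x11883)
  (sub (sub (sub (sub (sub (add (add (sub (sub (add (add C x5319) x5323) x5339) x5291) x5111) x5219) x5651) x4841) x3869) x14075) x18447)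
  (sub (sub (sub (sub (sub (add (add (sub (sub (sub C x5331) x5323) x5311) x5113) x5221) x5653) x4843) x3871) x14077) x11889)
  (add (add (sub (sub (sub (sub (add (add (sub (add (add (sub C x5329) x5319) x5343) x5313) x5115) x5223) x5655) x4845) x3873) x14079) x11893) x18455)
  (sub (sub (sub (sub (sub (add (add (add (add (sub (sub C x5343) x5327) x5267) x5303) x5123) x5231) x5663) x4853) x3881) x14087) x18459)
  (add (add (sub (sub (sub (sub (add (add (add (add (add (add (sub C x5339) x5319) x5331) x5271) x5307) x5127) x5235) x5667) x4857) x3885) x14091) x11905) x18467)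
  (sub (sub (sub (add (add (sub (add (add (add (add (add (add (sub C x5349) x5359) x5371) x5383) x5419) x5455) x5563) x5185) x4375) x6319) x3889) x14095) x11907)
  (add (add (sub (sub (add (add (sub (add (add (add (add (sub (sub C x5347) x5355) x5385) x5421) x5457) x5565) x5187) x4377) x6321) x3891) x14097) x11911) x18473)
  (add (add (sub (sub (add (add (sub (add (add (sub (sub (add (add C x5359) x5363) x5349) x5373) x5463) x5571) x5193) x4383) x6327) x3897) x14103) x11917) x18479)
  (sub (sub (sub (add (add (sub (add (add (sub (add (add (add (add C x5355) x5363) x5347) x5371) x5377) x5467) x5575) x5197) x4387) x6331) x3901) x14107) x11919)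
  (sub (sub (sub (add (add (sub (add (add (sub (sub (add (add C x5355) x5359) x5369) x5381) x5471) x5579) x5201) x4391) x6335) x3905) x14111) x18483)
  (sub (sub (sub (add (add (sub (add (add (sub (sub (sub C x5371) x5363) x5405) x5477) x5585) x5207) x4397) x6341) x3911) x14117) x18489)
  (sub (sub (sub (add (add (sub (add (add (sub (add (add (sub C x5369) x5347) x5359) x5407) x5479) x5587) x5209) x4399) x6343) x3913) x14119) x11931)
  (add (add (sub (sub (add (add (sub (sub (sub (add (add (add (add C x5377) x5381) x5385) x5397) x5355) x5427) x5211) x4401) x6345) x3915) x14121) x11935) x18497)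
  (sub (sub (sub (add (add (sub (sub (sub (sub (add (add C x5373) x5381) x5383) x5359) x5431) x5215) x4405) x6349) x3919) x14125) x11937)
  (sub (sub (sub (add (add (sub (sub (sub (sub (add (add C x5373) x5377) x5393) x5363) x5435) x5219) x4409) x6353) x3923) x14129) x18501)
  (sub (sub (sub (add (add (sub (sub (add (add (sub (sub C x5385) x5377) x5347) x5419) x5437) x5221) x4411) x6355) x3925) x14131) x11943)
  (add (add (sub (sub (add (add (sub (sub (add (add (add (add (sub C x5383) x5373) x5397) x5349) x5421) x5439) x5223) x4413) x6357) x3927) x14133) x11947) x18509)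
  (sub (sub (sub (add (add (sub (sub (sub (sub (sub C x5397) x5381) x5411) x5447) x5231) x4421) x6365) x3935) x14141) x18513)
  (add (add (sub (sub (add (add (sub (sub (sub (add (add (sub C x5393) x5373) x5385) x5415) x5451) x5235) x4425) x6369) x3939) x14145) x11959) x18521)
  (sub (sub (sub (add (add (sub (sub (sub (sub (sub C x5407) x5411) x5369) x5513) x5243) x4433) x6377) x3947) x14153) x18525)
  (sub (sub (sub (add (add (sub (sub (sub (sub (sub C x5405) x5419) x5371) x5515) x5245) x4435) x6379) x3949) x14155) x11967)
  (sub (sub (sub (add (add (sub (sub (sub (sub (sub C x5415) x5405) x5393) x5519) x5249) x4439) x6383) x3953) x14159) x18531)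
  (add (add (sub (sub (add (add (sub (sub (sub (sub (sub C x5411) x5421) x5397) x5523) x5253) x4443) x6387) x3957) x14163) x11977) x18539)
  (sub (sub (sub (add (add (sub (sub (add (add (sub (sub C x5421) x5407) x5347) x5383) x5527) x5257) x4447) x6391) x3961) x14167) x11979)
  (add (add (sub (sub (add (add (sub (sub (add (add (sub (sub C x5419) x5415) x5349) x5385) x5529) x5259) x4449) x6393) x3963) x14169) x11983) x18545)
  (add (add (sub (sub (add (add (add (add (sub (add (add (add (add (add (add C x5431) x5435) x5439) x5451) x5463) x5499) x5373) x5103) x5751) x4455) x6399) x3969) x14175) x11989) x18551)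
  (sub (sub (sub (add (add (add (add (sub (add (add (sub (add (add C x5427) x5435) x5437) x5467) x5503) x5377) x5107) x5755) x4459) x6403) x3973) x14179) x11991)
  (sub (sub (sub (add (add (add (add (sub (add (add (sub (add (add C x5427) x5431) x5447) x5471) x5507) x5381) x5111) x5759) x4463) x6407) x3977) x14183) x18555)
  (sub (sub (sub (add (add (add (add (sub (sub (sub (sub C x5439) x5431) x5455) x5383) x5113) x5761) x4465) x6409) x3979) x14185) x11997)
  (add (add (sub (sub (add (add (add (add (sub (sub (add (add (sub C x5437) x5427) x5451) x5457) x5385) x5115) x5763) x4467) x6411) x3981) x14187) x12001) x18563)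
  (sub (sub (sub (add (add (add (add (sub (sub (sub (sub C x5451) x5435) x5483) x5393) x5123) x5771) x4475) x6419) x3989) x14195) x18567)
  (add (add (sub (sub (add (add (add (add (sub (sub (add (add (sub C x5447) x5427) x5439) x5487) x5397) x5127) x5775) x4479) x6423) x3993) x14199) x12013) x18575)
  (sub (sub (sub (add (add (add (add (add (add (sub (add (add (sub C x5457) x5467) x5479) x5437) x5347) x5563) x5131) x5779) x4483) x6427) x3997) x14203) x12015)
  (add (add (sub (sub (add (add (add (add (add (add (sub (sub (sub C x5455) x5463) x5439) x5349) x5565) x5133) x5781) x4485) x6429) x3999) x14205) x12019) x18581)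
  (add (add (sub (sub (add (add (add (add (add (add (add (add (sub (add (add C x5467) x5471) x5457) x5427) x5499) x5355) x5571) x5139) x5787) x4491) x6435) x4005) x14211) x12025) x18587)
  (sub (sub (sub (add (add (add (add (add (add (add (add (add (add (add (add C x5463) x5471) x5455) x5479) x5431) x5503) x5359) x5575) x5143) x5791) x4495) x6439) x4009) x14215) x12027)
  (sub (sub (sub (add (add (add (add (add (add (add (add (sub (add (add C x5463) x5467) x5477) x5435) x5507) x5363) x5579) x5147) x5795) x4499) x6443) x4013) x14219) x18591)
  (sub (sub (sub (add (add (add (add (add (add (sub (sub (sub C x5479) x5471) x5495) x5369) x5585) x5153) x5801) x4505) x6449) x4019) x14225) x18597)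
  (sub (sub (sub (add (add (add (add (add (add (sub (add (add (sub C x5477) x5455) x5467) x5497) x5371) x5587) x5155) x5803) x4507) x6451) x4021) x14227) x12039)
  (sub (sub (sub (add (add (add (add (sub (sub (add (add (sub C x5487) x5495) x5507) x5447) x5537) x5159) x5807) x4511) x6455) x4025) x14231) x18603)
  (add (add (sub (sub (add (add (add (add (sub (sub (sub (sub C x5483) x5499) x5451) x5541) x5163) x5811) x4515) x6459) x4029) x14235) x12049) x18611)
  (sub (sub (sub (add (add (add (add (sub (sub (add (add (sub C x5497) x5483) x5507) x5477) x5549) x5171) x5819) x4523) x6467) x4037) x14243) x18615)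
  (sub (sub (sub (add (add (add (add (sub (sub (sub (sub C x5495) x5503) x5479) x5551) x5173) x5821) x4525) x6469) x4039) x14245) x12057)
  (add (add (sub (sub (add (add (add (add (sub (add (add (sub (add (add C x5503) x5507) x5487) x5427) x5463) x5553) x5175) x5823) x4527) x6471) x4041) x14247) x12061) x18623)
  (sub (sub (sub (add (add (add (add (sub (add (add (sub (add (add C x5499) x5507) x5497) x5431) x5467) x5557) x5179) x5827) x4531) x6475) x4045) x14251) x12063)
  (sub (sub (sub (add (add (add (add (sub (add (add (add (add (add (add C x5499) x5503) x5483) x5495) x5435) x5471) x5561) x5183) x5831) x4535) x6479) x4049) x14255) x18627)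
  (sub (sub (sub (add (add (sub (sub (add (add (sub (sub C x5515) x5519) x5549) x5585) x5405) x5675) x4541) x6485) x4055) x14261) x18633)
  (sub (sub (sub (add (add (sub (sub (add (add (sub (sub C x5513) x5527) x5551) x5587) x5407) x5677) x4543) x6487) x4057) x14263) x12075)
  (sub (sub (sub (add (add (sub (sub (sub (sub (sub C x5523) x5513) x5537) x5411) x5681) x4547) x6491) x4061) x14267) x18639)
  (add (add (sub (sub (add (add (sub (sub (sub (sub (sub C x5519) x5529) x5541) x5415) x5685) x4551) x6495) x4065) x14271) x12085) x18647)
  (sub (sub (sub (add (add (sub (sub (sub (sub (sub C x5529) x5515) x5563) x5419) x5689) x4555) x6499) x4069) x14275) x12087)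
  (add (add (sub (sub (add (add (sub (sub (sub (sub (sub C x5527) x5523) x5565) x5421) x5691) x4557) x6501) x4071) x14277) x12091) x18653)
  (sub (sub (sub (add (add (sub (sub (sub (add (add (sub C x5541) x5549) x5561) x5519) x5483) x5699) x4565) x6509) x4079) x14285) x18657)
  (add (add (sub (sub (add (add (sub (sub (sub (sub (sub C x5537) x5553) x5523) x5487) x5703) x4569) x6513) x4083) x14289) x12103) x18665)
  (sub (sub (sub (add (add (sub (sub (add (add (add (add (sub C x5551) x5537) x5561) x5513) x5585) x5495) x5711) x4577) x6521) x4091) x14297) x18669)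
  (sub (sub (sub (add (add (sub (sub (add (add (sub (sub C x5549) x5557) x5515) x5587) x5497) x5713) x4579) x6523) x4093) x14299) x12111)
  (add (add (sub (sub (add (add (sub (sub (sub (sub (add (add C x5557) x5561) x5541) x5571) x5499) x5715) x4581) x6525) x4095) x14301) x12115) x18677)
  (sub (sub (sub (add (add (sub (sub (sub (sub (add (add C x5553) x5561) x5551) x5575) x5503) x5719) x4585) x6529) x4099) x14305) x12117)
  (sub (sub (sub (add (add (sub (sub (sub (add (add (add (add C x5553) x5557) x5537) x5549) x5579) x5507) x5723) x4589) x6533) x4103) x14309) x18681)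
  (sub (sub (sub (add (add (sub (add (add (sub (add (add (sub C x5565) x5575) x5587) x5527) x5347) x5455) x5725) x4591) x6535) x4105) x14311) x12123)
  (add (add (sub (sub (add (add (sub (add (add (sub (sub (sub C x5563) x5571) x5529) x5349) x5457) x5727) x4593) x6537) x4107) x14313) x12127) x18689)
  (add (add (sub (sub (add (add (sub (add (add (sub (sub (add (add C x5575) x5579) x5565) x5553) x5355) x5463) x5733) x4599) x6543) x4113) x14319) x12133) x18695)
  (sub (sub (sub (add (add (sub (add (add (sub (add (add (add (add C x5571) x5579) x5563) x5587) x5557) x5359) x5467) x5737) x4603) x6547) x4117) x14323) x12135)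
  (sub (sub (sub (add (add (sub (add (add (sub (sub (add (add C x5571) x5575) x5585) x5561) x5363) x5471) x5741) x4607) x6551) x4121) x14327) x18699)
  (sub (sub (sub (add (add (sub (add (add (add (add (sub (sub C x5587) x5579) x5513) x5549) x5369) x5477) x5747) x4613) x6557) x4127) x14333) x18705)
  (sub (sub (sub (add (add (sub (add (add (add (add (add (add (sub C x5585) x5563) x5575) x5515) x5551) x5371) x5479) x5749) x4615) x6559) x4129) x14335) x12147)
  (sub (sub (sub (sub (sub (add (add (add (add (add (add (sub C x5595) x5603) x5615) x5627) x5663) x5699) x5807) x5267) x6077) x4133) x14339) x18711)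
  (add (add (sub (sub (sub (sub (add (add (add (add (sub (sub C x5591) x5607) x5631) x5667) x5703) x5811) x5271) x6081) x4137) x14343) x12157) x18719)
  (sub (sub (sub (sub (sub (add (add (sub (add (add (sub C x5605) x5591) x5615) x5621) x5711) x5819) x5279) x6089) x4145) x14351) x18723)
  (sub (sub (sub (sub (sub (add (add (sub (sub (sub C x5603) x5611) x5623) x5713) x5821) x5281) x6091) x4147) x14353) x12165)
  (add (add (sub (sub (sub (sub (add (add (sub (sub (add (add C x5611) x5615) x5595) x5643) x5715) x5823) x5283) x6093) x4149) x14355) x12169) x18731)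
  (sub (sub (sub (sub (sub (add (add (sub (sub (add (add C x5607) x5615) x5605) x5647) x5719) x5827) x5287) x6097) x4153) x14359) x12171)
  (sub (sub (sub (sub (sub (add (add (sub (add (add (add (add C x5607) x5611) x5591) x5603) x5651) x5723) x5831) x5291) x6101) x4157) x14363) x18735)
  (sub (sub (sub (sub (sub (sub (sub (sub (sub C x5623) x5627) x5603) x5675) x5297) x6107) x4163) x14369) x18741)
  (sub (sub (sub (sub (sub (sub (sub (sub (sub C x5621) x5635) x5605) x5677) x5299) x6109) x4165) x14371) x12183)
  (sub (sub (sub (sub (sub (sub (add (add (sub (sub C x5631) x5621) x5591) x5663) x5681) x5303) x6113) x4169) x14375) x18747)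
  (add (add (sub (sub (sub (sub (sub (add (add (sub (sub C x5627) x5637) x5595) x5667) x5685) x5307) x6117) x4173) x14379) x12193) x18755)
  (sub (sub (sub (sub (sub (sub (sub (sub (sub C x5637) x5623) x5653) x5689) x5311) x6121) x4177) x14383) x12195)
  (add (add (sub (sub (sub (sub (sub (sub (sub (sub C x5635) x5631) x5655) x5691) x5313) x6123) x4179) x14385) x12199) x18761)
  (add (add (sub (sub (sub (sub (sub (sub (add (add (add (add C x5647) x5651) x5655) x5667) x5607) x5751) x5319) x6129) x4185) x14391) x12205) x18767)
  (sub (sub (sub (sub (sub (sub (sub (sub (add (add C x5643) x5651) x5653) x5611) x5755) x5323) x6133) x4189) x14395) x12207)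
  (sub (sub (sub (sub (sub (sub (sub (sub (add (add C x5643) x5647) x5663) x5615) x5759) x5327) x6137) x4193) x14399) x18771)
  (sub (sub (sub (sub (sub (sub (sub (sub (sub C x5655) x5647) x5635) x5761) x5329) x6139) x4195) x14401) x12213)
  (add (add (sub (sub (sub (sub (sub (sub (add (add (sub C x5653) x5643) x5667) x5637) x5763) x5331) x6141) x4197) x14403) x12217) x18779)
  (sub (sub (sub (sub (sub (sub (add (add (sub (sub C x5667) x5651) x5591) x5627) x5771) x5339) x6149) x4205) x14411) x18783)
  (add (add (sub (sub (sub (sub (sub (add (add (add (add (sub C x5663) x5643) x5655) x5595) x5631) x5775) x5343) x6153) x4209) x14415) x12229) x18791)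
  (sub (sub (sub (sub (sub (sub (add (add (sub (sub C x5677) x5681) x5711) x5747) x5621) x5513) x6161) x4217) x14423) x18795)
  (sub (sub (sub (sub (sub (sub (add (add (sub (sub C x5675) x5689) x5713) x5749) x5623) x5515) x6163) x4219) x14425) x12237)
  (sub (sub (sub (sub (sub (sub (sub (sub (sub C x5685) x5675) x5699) x5627) x5519) x6167) x4223) x14429) x18801)
  (add (add (sub (sub (sub (sub (sub (sub (sub (sub C x5681) x5691) x5703) x5631) x5523) x6171) x4227) x14433) x12247) x18809)
  (sub (sub (sub (sub (sub (sub (sub (sub (sub C x5691) x5677) x5725) x5635) x5527) x6175) x4231) x14437) x12249)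
  (add (add (sub (sub (sub (sub (sub (sub (sub (sub C x5689) x5685) x5727) x5637) x5529) x6177) x4233) x14439) x12253) x18815)
  (sub (sub (sub (sub (sub (add (add (sub (add (add (sub C x5703) x5711) x5723) x5681) x5591) x5807) x5537) x6185) x4241) x14447) x18819)
  (add (add (sub (sub (sub (sub (add (add (sub (sub (sub C x5699) x5715) x5685) x5595) x5811) x5541) x6189) x4245) x14451) x12265) x18827)
  (sub (sub (sub (sub (sub (add (add (add (add (add (add (sub C x5713) x5699) x5723) x5675) x5747) x5603) x5819) x5549) x6197) x4253) x14459) x18831)
  (sub (sub (sub (sub (sub (add (add (add (add (sub (sub C x5711) x5719) x5677) x5749) x5605) x5821) x5551) x6199) x4255) x14461) x12273)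
  (add (add (sub (sub (sub (sub (add (add (sub (sub (add (add C x5719) x5723) x5703) x5733) x5607) x5823) x5553) x6201) x4257) x14463) x12277) x18839)
  (sub (sub (sub (sub (sub (add (add (sub (sub (add (add C x5715) x5723) x5713) x5737) x5611) x5827) x5557) x6205) x4261) x14467) x12279)
  (sub (sub (sub (sub (sub (add (add (sub (add (add (add (add C x5715) x5719) x5699) x5711) x5741) x5615) x5831) x5561) x6209) x4265) x14471) x18843)
  (sub (sub (sub (sub (sub (sub (sub (add (add (sub C x5727) x5737) x5749) x5689) x5779) x5563) x6211) x4267) x14473) x12285)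
  (add (add (sub (sub (sub (sub (sub (sub (sub (sub C x5725) x5733) x5691) x5781) x5565) x6213) x4269) x14475) x12289) x18851)
  (add (add (sub (sub (sub (sub (sub (sub (sub (add (add C x5737) x5741) x5727) x5715) x5787) x5571) x6219) x4275) x14481) x12295) x18857)
  (sub (sub (sub (sub (sub (sub (sub (add (add (add (add C x5733) x5741) x5725) x5749) x5719) x5791) x5575) x6223) x4279) x14485) x12297)
  (sub (sub (sub (sub (sub (sub (sub (sub (add (add C x5733) x5737) x5747) x5723) x5795) x5579) x6227) x4283) x14489) x18861)
  (sub (sub (sub (sub (sub (sub (add (add (sub (sub C x5749) x5741) x5675) x5711) x5801) x5585) x6233) x4289) x14495) x18867)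
  (sub (sub (sub (sub (sub (sub (add (add (add (add (sub C x5747) x5725) x5737) x5677) x5713) x5803) x5587) x6235) x4291) x14497) x12309)
  (add (add (sub (sub (sub (add (add (sub (add (add (add (add (add (add C x5755) x5759) x5763) x5775) x5787) x5823) x5643) x5103) x5427) x6237) x4293) x14499) x12313) x18875)
  (sub (sub (sub (sub (add (add (sub (add (add (sub (add (add C x5751) x5759) x5761) x5791) x5827) x5647) x5107) x5431) x6241) x4297) x14503) x12315)
  (sub (sub (sub (sub (add (add (sub (add (add (sub (add (add C x5751) x5755) x5771) x5795) x5831) x5651) x5111) x5435) x6245) x4301) x14507) x18879)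
  (sub (sub (sub (sub (add (add (sub (sub (sub (sub C x5763) x5755) x5779) x5653) x5113) x5437) x6247) x4303) x14509) x12321)
  (add (add (sub (sub (sub (add (add (sub (sub (add (add (sub C x5761) x5751) x5775) x5781) x5655) x5115) x5439) x6249) x4305) x14511) x12325) x18887)
  (sub (sub (sub (sub (add (add (sub (sub (sub (sub C x5775) x5759) x5807) x5663) x5123) x5447) x6257) x4313) x14519) x18891)
  (add (add (sub (sub (sub (add (add (sub (sub (add (add (sub C x5771) x5751) x5763) x5811) x5667) x5127) x5451) x6261) x4317) x14523) x12337) x18899)
  (sub (sub (sub (sub (add (add (sub (sub (add (add (sub C x5781) x5791) x5803) x5761) x5725) x5131) x5455) x6265) x4321) x14527) x12339)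
  (add (add (sub (sub (sub (add (add (sub (sub (sub (sub C x5779) x5787) x5763) x5727) x5133) x5457) x6267) x4323) x14529) x12343) x18905)
  (add (add (sub (sub (sub (add (add (sub (add (add (sub (add (add C x5791) x5795) x5781) x5751) x5823) x5733) x5139) x5463) x6273) x4329) x14535) x12349) x18911)
  (sub (sub (sub (sub (add (add (sub (add (add (add (add (add (add C x5787) x5795) x5779) x5803) x5755) x5827) x5737) x5143) x5467) x6277) x4333) x14539) x12351)
  (sub (sub (sub (sub (add (add (sub (add (add (sub (add (add C x5787) x5791) x5801) x5759) x5831) x5741) x5147) x5471) x6281) x4337) x14543) x18915)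
  (sub (sub (sub (sub (add (add (sub (sub (sub (sub C x5803) x5795) x5819) x5747) x5153) x5477) x6287) x4343) x14549) x18921)
  (sub (sub (sub (sub (add (add (sub (sub (add (add (sub C x5801) x5779) x5791) x5821) x5749) x5155) x5479) x6289) x4345) x14551) x12363)
  (sub (sub (sub (sub (add (add (add (add (sub (add (add (sub C x5811) x5819) x5831) x5771) x5591) x5699) x5159) x5483) x6293) x4349) x14555) x18927)
  (add (add (sub (sub (sub (add (add (add (add (sub (sub (sub C x5807) x5823) x5775) x5595) x5703) x5163) x5487) x6297) x4353) x14559) x12373) x18935)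
  (sub (sub (sub (sub (add (add (add (add (sub (add (add (sub C x5821) x5807) x5831) x5801) x5603) x5711) x5171) x5495) x6305) x4361) x14567) x18939)
  (sub (sub (sub (sub (add (add (add (add (sub (sub (sub C x5819) x5827) x5803) x5605) x5713) x5173) x5497) x6307) x4363) x14569) x12381)
  (add (add (sub (sub (sub (add (add (add (add (add (add (sub (add (add C x5827) x5831) x5811) x5751) x5787) x5607) x5715) x5175) x5499) x6309) x4365) x14571) x12385) x18947)
  (sub (sub (sub (sub (add (add (add (add (add (add (sub (add (add C x5823) x5831) x5821) x5755) x5791) x5611) x5719) x5179) x5503) x6313) x4369) x14575) x12387)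
  (sub (sub (sub (sub (add (add (add (add (add (add (add (add (add (add C x5823) x5827) x5807) x5819) x5759) x5795) x5615) x5723) x5183) x5507) x6317) x4373) x14579) x18951)
  (sub (sub (add (add (sub (add (add (add (add (add (add (sub (sub C x5839) x5843) x5873) x5909) x5945) x6053) x6161) x6485) x4865) x5) x2921) x14585) x18957)
  (sub (sub (add (add (sub (add (add (add (add (add (add (sub (sub C x5837) x5851) x5875) x5911) x5947) x6055) x6163) x6487) x4867) x7) x2923) x14587) x12399)
  (sub (sub (add (add (sub (add (add (add (add (sub (sub (sub C x5847) x5837) x5861) x5951) x6059) x6167) x6491) x4871) x11) x2927) x14591) x18963)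
  (add (add (sub (add (add (sub (add (add (add (add (sub (sub (sub C x5843) x5853) x5865) x5955) x6063) x6171) x6495) x4875) x15) x2931) x14595) x12409) x18971)
  (sub (sub (add (add (sub (add (add (add (add (sub (sub (sub C x5853) x5839) x5887) x5959) x6067) x6175) x6499) x4879) x19) x2935) x14599) x12411)
  (add (add (sub (add (add (sub (add (add (add (add (sub (sub (sub C x5851) x5847) x5889) x5961) x6069) x6177) x6501) x4881) x21) x2937) x14601) x12415) x18977)
  (sub (sub (add (add (sub (add (add (sub (sub (add (add (sub C x5865) x5873) x5885) x5843) x5915) x6185) x6509) x4889) x29) x2945) x14609) x18981)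
  (add (add (sub (add (add (sub (add (add (sub (sub (sub (sub C x5861) x5877) x5847) x5919) x6189) x6513) x4893) x33) x2949) x14613) x12427) x18989)
  (sub (sub (add (add (sub (add (add (sub (add (add (add (add (sub C x5875) x5861) x5885) x5837) x5909) x5927) x6197) x6521) x4901) x41) x2957) x14621) x18993)
  (sub (sub (add (add (sub (add (add (sub (add (add (sub (sub C x5873) x5881) x5839) x5911) x5929) x6199) x6523) x4903) x43) x2959) x14623) x12435)
  (add (add (sub (add (add (sub (add (add (sub (sub (sub (add (add C x5881) x5885) x5865) x5895) x5931) x6201) x6525) x4905) x45) x2961) x14625) x12439) x19001)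
  (sub (sub (add (add (sub (add (add (sub (sub (sub (add (add C x5877) x5885) x5875) x5899) x5935) x6205) x6529) x4909) x49) x2965) x14629) x12441)
  (sub (sub (add (add (sub (add (add (sub (sub (add (add (add (add C x5877) x5881) x5861) x5873) x5903) x5939) x6209) x6533) x4913) x53) x2969) x14633) x19005)
  (sub (sub (add (add (sub (add (add (sub (sub (add (add (sub C x5889) x5899) x5911) x5851) x5995) x6211) x6535) x4915) x55) x2971) x14635) x12447)
  (add (add (sub (add (add (sub (add (add (sub (sub (sub (sub C x5887) x5895) x5853) x5997) x6213) x6537) x4917) x57) x2973) x14637) x12451) x19013)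
  (add (add (sub (add (add (sub (add (add (sub (sub (sub (add (add C x5899) x5903) x5889) x5877) x6003) x6219) x6543) x4923) x63) x2979) x14643) x12457) x19019)
  (sub (sub (add (add (sub (add (add (sub (sub (add (add (add (add C x5895) x5903) x5887) x5911) x5881) x6007) x6223) x6547) x4927) x67) x2983) x14647) x12459)
  (sub (sub (add (add (sub (add (add (sub (sub (sub (add (add C x5895) x5899) x5909) x5885) x6011) x6227) x6551) x4931) x71) x2987) x14651) x19023)
  (sub (sub (add (add (sub (add (add (sub (add (add (sub (sub C x5911) x5903) x5837) x5873) x6017) x6233) x6557) x4937) x77) x2993) x14657) x19029)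
  (sub (sub (add (add (sub (add (add (sub (add (add (add (add (sub C x5909) x5887) x5899) x5839) x5875) x6019) x6235) x6559) x4939) x79) x2995) x14659) x12471)
  (sub (sub (add (add (sub (sub (sub (add (add (add (add (sub C x5919) x5927) x5939) x5951) x5987) x5861) x6077) x4943) x83) x2999) x14663) x19035)
  (add (add (sub (add (add (sub (sub (sub (add (add (sub (sub C x5915) x5931) x5955) x5991) x5865) x6081) x4947) x87) x3003) x14667) x12481) x19043)
  (sub (sub (add (add (sub (sub (sub (sub (add (add (sub C x5929) x5915) x5939) x5945) x5873) x6089) x4955) x95) x3011) x14675) x19047)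
  (sub (sub (add (add (sub (sub (sub (sub (sub (sub C x5927) x5935) x5947) x5875) x6091) x4957) x97) x3013) x14677) x12489)
  (add (add (sub (add (add (sub (sub (sub (sub (sub (add (add C x5935) x5939) x5919) x5967) x5877) x6093) x4959) x99) x3015) x14679) x12493) x19055)
  (sub (sub (add (add (sub (sub (sub (sub (sub (add (add C x5931) x5939) x5929) x5971) x5881) x6097) x4963) x103) x3019) x14683) x12495)
  (sub (sub (add (add (sub (sub (sub (sub (add (add (add (add C x5931) x5935) x5915) x5927) x5975) x5885) x6101) x4967) x107) x3023) x14687) x19059)
  (sub (sub (add (add (sub (sub (add (add (sub (sub (sub C x5947) x5951) x5927) x5837) x6053) x6107) x4973) x113) x3029) x14693) x19065)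
  (sub (sub (add (add (sub (sub (add (add (sub (sub (sub C x5945) x5959) x5929) x5839) x6055) x6109) x4975) x115) x3031) x14695) x12507)
  (sub (sub (add (add (sub (sub (add (add (add (add (sub (sub C x5955) x5945) x5915) x5987) x5843) x6059) x6113) x4979) x119) x3035) x14699) x19071)
  (add (add (sub (add (add (sub (sub (add (add (add (add (sub (sub C x5951) x5961) x5919) x5991) x5847) x6063) x6117) x4983) x123) x3039) x14703) x12517) x19079)
  (sub (sub (add (add (sub (sub (add (add (sub (sub (sub C x5961) x5947) x5977) x5851) x6067) x6121) x4987) x127) x3043) x14707) x12519)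
  (add (add (sub (add (add (sub (sub (add (add (sub (sub (sub C x5959) x5955) x5979) x5853) x6069) x6123) x4989) x129) x3045) x14709) x12523) x19085)
  (add (add (sub (add (add (sub (sub (sub (sub (add (add (add (add C x5971) x5975) x5979) x5991) x5931) x6021) x6129) x4995) x135) x3051) x14715) x12529) x19091)
  (sub (sub (add (add (sub (sub (sub (sub (sub (add (add C x5967) x5975) x5977) x5935) x6025) x6133) x4999) x139) x3055) x14719) x12531)
  (sub (sub (add (add (sub (sub (sub (sub (sub (add (add C x5967) x5971) x5987) x5939) x6029) x6137) x5003) x143) x3059) x14723) x19095)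
  (sub (sub (add (add (sub (sub (sub (sub (sub (sub C x5979) x5971) x5959) x6031) x6139) x5005) x145) x3061) x14725) x12537)
  (add (add (sub (add (add (sub (sub (sub (sub (add (add (sub C x5977) x5967) x5991) x5961) x6033) x6141) x5007) x147) x3063) x14727) x12541) x19103)
  (sub (sub (add (add (sub (sub (sub (add (add (sub (sub C x5991) x5975) x5915) x5951) x6041) x6149) x5015) x155) x3071) x14735) x19107)
  (add (add (sub (add (add (sub (sub (sub (add (add (add (add (sub C x5987) x5967) x5979) x5919) x5955) x6045) x6153) x5019) x159) x3075) x14739) x12553) x19115)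
  (sub (sub (add (add (sub (sub (sub (add (add (add (add (sub C x5997) x6007) x6019) x6031) x6067) x5887) x6319) x5023) x163) x3079) x14743) x12555)
  (add (add (sub (add (add (sub (sub (sub (add (add (sub (sub C x5995) x6003) x6033) x6069) x5889) x6321) x5025) x165) x3081) x14745) x12559) x19121)
  (add (add (sub (add (add (sub (sub (sub (sub (sub (add (add C x6007) x6011) x5997) x6021) x5895) x6327) x5031) x171) x3087) x14751) x12565) x19127)
  (sub (sub (add (add (sub (sub (sub (sub (add (add (add (add C x6003) x6011) x5995) x6019) x6025) x5899) x6331) x5035) x175) x3091) x14755) x12567)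
  (sub (sub (add (add (sub (sub (sub (sub (sub (add (add C x6003) x6007) x6017) x6029) x5903) x6335) x5039) x179) x3095) x14759) x19131)
  (sub (sub (add (add (sub (sub (sub (sub (sub (sub C x6019) x6011) x6053) x5909) x6341) x5045) x185) x3101) x14765) x19137)
  (sub (sub (add (add (sub (sub (sub (sub (add (add (sub C x6017) x5995) x6007) x6055) x5911) x6343) x5047) x187) x3103) x14767) x12579)
  (add (add (sub (add (add (sub (sub (sub (sub (add (add (add (add C x6025) x6029) x6033) x6045) x6003) x5967) x6345) x5049) x189) x3105) x14769) x12583) x19145)
  (sub (sub (add (add (sub (sub (sub (sub (sub (add (add C x6021) x6029) x6031) x6007) x5971) x6349) x5053) x193) x3109) x14773) x12585)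
  (sub (sub (add (add (sub (sub (sub (sub (sub (add (add C x6021) x6025) x6041) x6011) x5975) x6353) x5057) x197) x3113) x14777) x19149)
  (sub (sub (add (add (sub (sub (sub (add (add (sub (sub C x6033) x6025) x5995) x6067) x5977) x6355) x5059) x199) x3115) x14779) x12591)
  (add (add (sub (add (add (sub (sub (sub (add (add (add (add (sub C x6031) x6021) x6045) x5997) x6069) x5979) x6357) x5061) x201) x3117) x14781) x12595) x19157)
  (sub (sub (add (add (sub (sub (sub (sub (sub (sub C x6045) x6029) x6059) x5987) x6365) x5069) x209) x3125) x14789) x19161)
  (add (add (sub (add (add (sub (sub (sub (sub (add (add (sub C x6041) x6021) x6033) x6063) x5991) x6369) x5073) x213) x3129) x14793) x12607) x19169)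
  (sub (sub (add (add (sub (sub (add (add (sub (sub (sub C x6055) x6059) x6017) x5837) x5945) x6377) x5081) x221) x3137) x14801) x19173)
  (sub (sub (add (add (sub (sub (add (add (sub (sub (sub C x6053) x6067) x6019) x5839) x5947) x6379) x5083) x223) x3139) x14803) x12615)
  (sub (sub (add (add (sub (sub (add (add (sub (sub (sub C x6063) x6053) x6041) x5843) x5951) x6383) x5087) x227) x3143) x14807) x19179)
  (add (add (sub (add (add (sub (sub (add (add (sub (sub (sub C x6059) x6069) x6045) x5847) x5955) x6387) x5091) x231) x3147) x14811) x12625) x19187)
  (sub (sub (add (add (sub (sub (add (add (add (add (sub (sub C x6069) x6055) x5995) x6031) x5851) x5959) x6391) x5095) x235) x3151) x14815) x12627)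
  (add (add (sub (add (add (sub (sub (add (add (add (add (sub (sub C x6067) x6063) x5997) x6033) x5853) x5961) x6393) x5097) x237) x3153) x14817) x12631) x19193)
  (sub (sub (add (add (sub (sub (add (add (add (add (add (add (sub C x6081) x6089) x6101) x6113) x6149) x6185) x6293) x5915) x5591) x245) x3161) x14825) x19197)
  (add (add (sub (add (add (sub (sub (add (add (add (add (sub (sub C x6077) x6093) x6117) x6153) x6189) x6297) x5919) x5595) x249) x3165) x14829) x12643) x19205)
  (sub (sub (add (add (sub (sub (add (add (sub (add (add (sub C x6091) x6077) x6101) x6107) x6197) x6305) x5927) x5603) x257) x3173) x14837) x19209)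
  (sub (sub (add (add (sub (sub (add (add (sub (sub (sub C x6089) x6097) x6109) x6199) x6307) x5929) x5605) x259) x3175) x14839) x12651)
  (add (add (sub (add (add (sub (sub (add (add (sub (sub (add (add C x6097) x6101) x6081) x6129) x6201) x6309) x5931) x5607) x261) x3177) x14841) x12655) x19217)
  (sub (sub (add (add (sub (sub (add (add (sub (sub (add (add C x6093) x6101) x6091) x6133) x6205) x6313) x5935) x5611) x265) x3181) x14845) x12657)
  (sub (sub (add (add (sub (sub (add (add (sub (add (add (add (add C x6093) x6097) x6077) x6089) x6137) x6209) x6317) x5939) x5615) x269) x3185) x14849) x19221)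
  (sub (sub (add (add (sub (sub (sub (sub (sub (sub C x6109) x6113) x6089) x6161) x5945) x5621) x275) x3191) x14855) x19227)
  (sub (sub (add (add (sub (sub (sub (sub (sub (sub C x6107) x6121) x6091) x6163) x5947) x5623) x277) x3193) x14857) x12669)
  (sub (sub (add (add (sub (sub (sub (add (add (sub (sub C x6117) x6107) x6077) x6149) x6167) x5951) x5627) x281) x3197) x14861) x19233)
  (add (add (sub (add (add (sub (sub (sub (add (add (sub (sub C x6113) x6123) x6081) x6153) x6171) x5955) x5631) x285) x3201) x14865) x12679) x19241)
  (sub (sub (add (add (sub (sub (sub (sub (sub (sub C x6123) x6109) x6139) x6175) x5959) x5635) x289) x3205) x14869) x12681)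
  (add (add (sub (add (add (sub (sub (sub (sub (sub (sub C x6121) x6117) x6141) x6177) x5961) x5637) x291) x3207) x14871) x12685) x19247)
  (add (add (sub (add (add (sub (sub (sub (sub (add (add (add (add C x6133) x6137) x6141) x6153) x6093) x6237) x5967) x5643) x297) x3213) x14877) x12691) x19253)
  (sub (sub (add (add (sub (sub (sub (sub (sub (add (add C x6129) x6137) x6139) x6097) x6241) x5971) x5647) x301) x3217) x14881) x12693)
  (sub (sub (add (add (sub (sub (sub (sub (sub (add (add C x6129) x6133) x6149) x6101) x6245) x5975) x5651) x305) x3221) x14885) x19257)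
  (sub (sub (add (add (sub (sub (sub (sub (sub (sub C x6141) x6133) x6121) x6247) x5977) x5653) x307) x3223) x14887) x12699)
  (add (add (sub (add (add (sub (sub (sub (sub (add (add (sub C x6139) x6129) x6153) x6123) x6249) x5979) x5655) x309) x3225) x14889) x12703) x19265)
  (sub (sub (add (add (sub (sub (sub (add (add (sub (sub C x6153) x6137) x6077) x6113) x6257) x5987) x5663) x317) x3233) x14897) x19269)
  (add (add (sub (add (add (sub (sub (sub (add (add (add (add (sub C x6149) x6129) x6141) x6081) x6117) x6261) x5991) x5667) x321) x3237) x14901) x12715) x19277)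
  (sub (sub (add (add (sub (add (add (sub (add (add (sub (sub C x6163) x6167) x6197) x6233) x6107) x5837) x6485) x5675) x329) x3245) x14909) x19281)
  (sub (sub (add (add (sub (add (add (sub (add (add (sub (sub C x6161) x6175) x6199) x6235) x6109) x5839) x6487) x5677) x331) x3247) x14911) x12723)
  (sub (sub (add (add (sub (add (add (sub (sub (sub (sub C x6171) x6161) x6185) x6113) x5843) x6491) x5681) x335) x3251) x14915) x19287)
  (add (add (sub (add (add (sub (add (add (sub (sub (sub (sub C x6167) x6177) x6189) x6117) x5847) x6495) x5685) x339) x3255) x14919) x12733) x19295)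
  (sub (sub (add (add (sub (add (add (sub (sub (sub (sub C x6177) x6163) x6211) x6121) x5851) x6499) x5689) x343) x3259) x14923) x12735)
  (add (add (sub (add (add (sub (add (add (sub (sub (sub (sub C x6175) x6171) x6213) x6123) x5853) x6501) x5691) x345) x3261) x14925) x12739) x19301)
  (sub (sub (add (add (sub (add (add (add (add (sub (add (add (sub C x6189) x6197) x6209) x6167) x6077) x6293) x5861) x6509) x5699) x353) x3269) x14933) x19305)
  (add (add (sub (add (add (sub (add (add (add (add (sub (sub (sub C x6185) x6201) x6171) x6081) x6297) x5865) x6513) x5703) x357) x3273) x14937) x12751) x19313)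
  (sub (sub (add (add (sub (add (add (add (add (add (add (add (add (sub C x6199) x6185) x6209) x6161) x6233) x6089) x6305) x5873) x6521) x5711) x365) x3281) x14945) x19317)
  (sub (sub (add (add (sub (add (add (add (add (add (add (sub (sub C x6197) x6205) x6163) x6235) x6091) x6307) x5875) x6523) x5713) x367) x3283) x14947) x12759)
  (add (add (sub (add (add (sub (add (add (add (add (sub (sub (add (add C x6205) x6209) x6189) x6219) x6093) x6309) x5877) x6525) x5715) x369) x3285) x14949) x12763) x19325)
  (sub (sub (add (add (sub (add (add (add (add (sub (sub (add (add C x6201) x6209) x6199) x6223) x6097) x6313) x5881) x6529) x5719) x373) x3289) x14953) x12765)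
  (sub (sub (add (add (sub (add (add (add (add (sub (add (add (add (add C x6201) x6205) x6185) x6197) x6227) x6101) x6317) x5885) x6533) x5723) x377) x3293) x14957) x19329)
  (sub (sub (add (add (sub (add (add (sub (sub (add (add (sub C x6213) x6223) x6235) x6175) x6265) x5887) x6535) x5725) x379) x3295) x14959) x12771)
  (add (add (sub (add (add (sub (add (add (sub (sub (sub (sub C x6211) x6219) x6177) x6267) x5889) x6537) x5727) x381) x3297) x14961) x12775) x19337)
  (add (add (sub (add (add (sub (add (add (sub (sub (sub (add (add C x6223) x6227) x6213) x6201) x6273) x5895) x6543) x5733) x387) x3303) x14967) x12781) x19343)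
  (sub (sub (add (add (sub (add (add (sub (sub (add (add (add (add C x6219) x6227) x6211) x6235) x6205) x6277) x5899) x6547) x5737) x391) x3307) x14971) x12783)
  (sub (sub (add (add (sub (add (add (sub (sub (sub (add (add C x6219) x6223) x6233) x6209) x6281) x5903) x6551) x5741) x395) x3311) x14975) x19347)
  (sub (sub (add (add (sub (add (add (sub (add (add (sub (sub C x6235) x6227) x6161) x6197) x6287) x5909) x6557) x5747) x401) x3317) x14981) x19353)
  (sub (sub (add (add (sub (add (add (sub (add (add (add (add (sub C x6233) x6211) x6223) x6163) x6199) x6289) x5911) x6559) x5749) x403) x3319) x14983) x12795)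
  (add (add (sub (add (add (sub (sub (sub (add (add (add (add (add (add C x6241) x6245) x6249) x6261) x6273) x6309) x6129) x6399) x5751) x405) x3321) x14985) x12799) x19361)
  (sub (sub (add (add (sub (sub (sub (add (add (sub (add (add C x6237) x6245) x6247) x6277) x6313) x6133) x6403) x5755) x409) x3325) x14989) x12801)
  (sub (sub (add (add (sub (sub (sub (add (add (sub (add (add C x6237) x6241) x6257) x6281) x6317) x6137) x6407) x5759) x413) x3329) x14993) x19365)
  (sub (sub (add (add (sub (sub (sub (sub (sub (sub C x6249) x6241) x6265) x6139) x6409) x5761) x415) x3331) x14995) x12807)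
  (add (add (sub (add (add (sub (sub (sub (sub (add (add (sub C x6247) x6237) x6261) x6267) x6141) x6411) x5763) x417) x3333) x14997) x12811) x19373)
  (sub (sub (add (add (sub (sub (sub (sub (sub (sub C x6261) x6245) x6293) x6149) x6419) x5771) x425) x3341) x15005) x19377)
  (add (add (sub (add (add (sub (sub (sub (sub (add (add (sub C x6257) x6237) x6249) x6297) x6153) x6423) x5775) x429) x3345) x15009) x12823) x19385)
  (sub (sub (add (add (sub (sub (sub (sub (add (add (sub C x6267) x6277) x6289) x6247) x6211) x6427) x5779) x433) x3349) x15013) x12825)
  (add (add (sub (add (add (sub (sub (sub (sub (sub (sub C x6265) x6273) x6249) x6213) x6429) x5781) x435) x3351) x15015) x12829) x19391)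
  (add (add (sub (add (add (sub (sub (sub (add (add (sub (add (add C x6277) x6281) x6267) x6237) x6309) x6219) x6435) x5787) x441) x3357) x15021) x12835) x19397)
  (sub (sub (add (add (sub (sub (sub (add (add (add (add (add (add C x6273) x6281) x6265) x6289) x6241) x6313) x6223) x6439) x5791) x445) x3361) x15025) x12837)
  (sub (sub (add (add (sub (sub (sub (add (add (sub (add (add C x6273) x6277) x6287) x6245) x6317) x6227) x6443) x5795) x449) x3365) x15029) x19401)
  (sub (sub (add (add (sub (sub (sub (sub (sub (sub C x6289) x6281) x6305) x6233) x6449) x5801) x455) x3371) x15035) x19407)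
  (sub (sub (add (add (sub (sub (sub (sub (add (add (sub C x6287) x6265) x6277) x6307) x6235) x6451) x5803) x457) x3373) x15037) x12849)
  (sub (sub (add (add (sub (sub (add (add (sub (add (add (sub C x6297) x6305) x6317) x6257) x6077) x6185) x6455) x5807) x461) x3377) x15041) x19413)
  (add (add (sub (add (add (sub (sub (add (add (sub (sub (sub C x6293) x6309) x6261) x6081) x6189) x6459) x5811) x465) x3381) x15045) x12859) x19421)
  (sub (sub (add (add (sub (sub (add (add (sub (add (add (sub C x6307) x6293) x6317) x6287) x6089) x6197) x6467) x5819) x473) x3389) x15053) x19425)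
  (sub (sub (add (add (sub (sub (add (add (sub (sub (sub C x6305) x6313) x6289) x6091) x6199) x6469) x5821) x475) x3391) x15055) x12867)
  (add (add (sub (add (add (sub (sub (add (add (add (add (sub (add (add C x6313) x6317) x6297) x6237) x6273) x6093) x6201) x6471) x5823) x477) x3393) x15057) x12871) x19433)
  (sub (sub (add (add (sub (sub (add (add (add (add (sub (add (add C x6309) x6317) x6307) x6241) x6277) x6097) x6205) x6475) x5827) x481) x3397) x15061) x12873)
  (sub (sub (add (add (sub (sub (add (add (add (add (add (add (add (add C x6309) x6313) x6293) x6305) x6245) x6281) x6101) x6209) x6479) x5831) x485) x3401) x15065) x19437)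
  (sub (sub (add (add (add (add (sub (add (add (add (add (add (add (sub C x6321) x6331) x6343) x6355) x6391) x6427) x6535) x5995) x4375) x5347) x487) x3403) x15067) x12879)
  (add (add (sub (add (add (add (add (sub (add (add (add (add (sub (sub C x6319) x6327) x6357) x6393) x6429) x6537) x5997) x4377) x5349) x489) x3405) x15069) x12883) x19445)
  (add (add (sub (add (add (add (add (sub (add (add (sub (sub (add (add C x6331) x6335) x6321) x6345) x6435) x6543) x6003) x4383) x5355) x495) x3411) x15075) x12889) x19451)
  (sub (sub (add (add (add (add (sub (add (add (sub (add (add (add (add C x6327) x6335) x6319) x6343) x6349) x6439) x6547) x6007) x4387) x5359) x499) x3415) x15079) x12891)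
  (sub (sub (add (add (add (add (sub (add (add (sub (sub (add (add C x6327) x6331) x6341) x6353) x6443) x6551) x6011) x4391) x5363) x503) x3419) x15083) x19455)
  (sub (sub (add (add (add (add (sub (add (add (sub (sub (sub C x6343) x6335) x6377) x6449) x6557) x6017) x4397) x5369) x509) x3425) x15089) x19461)
  (sub (sub (add (add (add (add (sub (add (add (sub (add (add (sub C x6341) x6319) x6331) x6379) x6451) x6559) x6019) x4399) x5371) x511) x3427) x15091) x12903)
  (add (add (sub (add (add (add (add (sub (sub (sub (add (add (add (add C x6349) x6353) x6357) x6369) x6327) x6399) x6021) x4401) x5373) x513) x3429) x15093) x12907) x19469)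
  (sub (sub (add (add (add (add (sub (sub (sub (sub (add (add C x6345) x6353) x6355) x6331) x6403) x6025) x4405) x5377) x517) x3433) x15097) x12909)
  (sub (sub (add (add (add (add (sub (sub (sub (sub (add (add C x6345) x6349) x6365) x6335) x6407) x6029) x4409) x5381) x521) x3437) x15101) x19473)
  (sub (sub (add (add (add (add (sub (sub (add (add (sub (sub C x6357) x6349) x6319) x6391) x6409) x6031) x4411) x5383) x523) x3439) x15103) x12915)
  (add (add (sub (add (add (add (add (sub (sub (add (add (add (add (sub C x6355) x6345) x6369) x6321) x6393) x6411) x6033) x4413) x5385) x525) x3441) x15105) x12919) x19481)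
  (sub (sub (add (add (add (add (sub (sub (sub (sub (sub C x6369) x6353) x6383) x6419) x6041) x4421) x5393) x533) x3449) x15113) x19485)
  (add (add (sub (add (add (add (add (sub (sub (sub (add (add (sub C x6365) x6345) x6357) x6387) x6423) x6045) x4425) x5397) x537) x3453) x15117) x12931) x19493)
  (sub (sub (add (add (add (add (sub (sub (sub (sub (sub C x6379) x6383) x6341) x6485) x6053) x4433) x5405) x545) x3461) x15125) x19497)
  (sub (sub (add (add (add (add (sub (sub (sub (sub (sub C x6377) x6391) x6343) x6487) x6055) x4435) x5407) x547) x3463) x15127) x12939)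
  (sub (sub (add (add (add (add (sub (sub (sub (sub (sub C x6387) x6377) x6365) x6491) x6059) x4439) x5411) x551) x3467) x15131) x19503)
  (add (add (sub (add (add (add (add (sub (sub (sub (sub (sub C x6383) x6393) x6369) x6495) x6063) x4443) x5415) x555) x3471) x15135) x12949) x19511)
  (sub (sub (add (add (add (add (sub (sub (add (add (sub (sub C x6393) x6379) x6319) x6355) x6499) x6067) x4447) x5419) x559) x3475) x15139) x12951)
  (add (add (sub (add (add (add (add (sub (sub (add (add (sub (sub C x6391) x6387) x6321) x6357) x6501) x6069) x4449) x5421) x561) x3477) x15141) x12955) x19517)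
  (add (add (sub (add (add (add (add (sub (sub (add (add (add (add (add (add C x6403) x6407) x6411) x6423) x6435) x6471) x6345) x6237) x4455) x5427) x567) x3483) x15147) x12961) x19523)
  (sub (sub (add (add (add (add (sub (sub (add (add (sub (add (add C x6399) x6407) x6409) x6439) x6475) x6349) x6241) x4459) x5431) x571) x3487) x15151) x12963)
  (sub (sub (add (add (add (add (sub (sub (add (add (sub (add (add C x6399) x6403) x6419) x6443) x6479) x6353) x6245) x4463) x5435) x575) x3491) x15155) x19527)
  (sub (sub (add (add (add (add (sub (sub (sub (sub (sub C x6411) x6403) x6427) x6355) x6247) x4465) x5437) x577) x3493) x15157) x12969)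
  (add (add (sub (add (add (add (add (sub (sub (sub (add (add (sub C x6409) x6399) x6423) x6429) x6357) x6249) x4467) x5439) x579) x3495) x15159) x12973) x19535)
  (sub (sub (add (add (add (add (sub (sub (sub (sub (sub C x6423) x6407) x6455) x6365) x6257) x4475) x5447) x587) x3503) x15167) x19539)
  (add (add (sub (add (add (add (add (sub (sub (sub (add (add (sub C x6419) x6399) x6411) x6459) x6369) x6261) x4479) x5451) x591) x3507) x15171) x12985) x19547)
  (sub (sub (add (add (add (add (sub (add (add (sub (add (add (sub C x6429) x6439) x6451) x6409) x6319) x6535) x6265) x4483) x5455) x595) x3511) x15175) x12987)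
  (add (add (sub (add (add (add (add (sub (add (add (sub (sub (sub C x6427) x6435) x6411) x6321) x6537) x6267) x4485) x5457) x597) x3513) x15177) x12991) x19553)
  (add (add (sub (add (add (add (add (sub (add (add (add (add (sub (add (add C x6439) x6443) x6429) x6399) x6471) x6327) x6543) x6273) x4491) x5463) x603) x3519) x15183) x12997) x19559)
  (sub (sub (add (add (add (add (sub (add (add (add (add (add (add (add (add C x6435) x6443) x6427) x6451) x6403) x6475) x6331) x6547) x6277) x4495) x5467) x607) x3523) x15187) x12999)
  (sub (sub (add (add (add (add (sub (add (add (add (add (sub (add (add C x6435) x6439) x6449) x6407) x6479) x6335) x6551) x6281) x4499) x5471) x611) x3527) x15191) x19563)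
  (sub (sub (add (add (add (add (sub (add (add (sub (sub (sub C x6451) x6443) x6467) x6341) x6557) x6287) x4505) x5477) x617) x3533) x15197) x19569)
  (sub (sub (add (add (add (add (sub (add (add (sub (add (add (sub C x6449) x6427) x6439) x6469) x6343) x6559) x6289) x4507) x5479) x619) x3535) x15199) x13011)
  (sub (sub (add (add (add (add (sub (sub (sub (add (add (sub C x6459) x6467) x6479) x6419) x6509) x6293) x4511) x5483) x623) x3539) x15203) x19575)
  (add (add (sub (add (add (add (add (sub (sub (sub (sub (sub C x6455) x6471) x6423) x6513) x6297) x4515) x5487) x627) x3543) x15207) x13021) x19583)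
  (sub (sub (add (add (add (add (sub (sub (sub (add (add (sub C x6469) x6455) x6479) x6449) x6521) x6305) x4523) x5495) x635) x3551) x15215) x19587)
  (sub (sub (add (add (add (add (sub (sub (sub (sub (sub C x6467) x6475) x6451) x6523) x6307) x4525) x5497) x637) x3553) x15217) x13029)
  (add (add (sub (add (add (add (add (sub (sub (add (add (sub (add (add C x6475) x6479) x6459) x6399) x6435) x6525) x6309) x4527) x5499) x639) x3555) x15219) x13033) x19595)
  (sub (sub (add (add (add (add (sub (sub (add (add (sub (add (add C x6471) x6479) x6469) x6403) x6439) x6529) x6313) x4531) x5503) x643) x3559) x15223) x13035)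
  (sub (sub (add (add (add (add (sub (sub (add (add (add (add (add (add C x6471) x6475) x6455) x6467) x6407) x6443) x6533) x6317) x4535) x5507) x647) x3563) x15227) x19599)
  (sub (sub (add (add (add (add (add (add (sub (add (add (sub (sub C x6487) x6491) x6521) x6557) x6377) x5837) x6161) x4541) x5513) x653) x3569) x15233) x19605)
  (sub (sub (add (add (add (add (add (add (sub (add (add (sub (sub C x6485) x6499) x6523) x6559) x6379) x5839) x6163) x4543) x5515) x655) x3571) x15235) x13047)
  (sub (sub (add (add (add (add (add (add (sub (sub (sub (sub C x6495) x6485) x6509) x6383) x5843) x6167) x4547) x5519) x659) x3575) x15239) x19611)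
  (add (add (sub (add (add (add (add (add (add (sub (sub (sub (sub C x6491) x6501) x6513) x6387) x5847) x6171) x4551) x5523) x663) x3579) x15243) x13057) x19619)
  (sub (sub (add (add (add (add (add (add (sub (sub (sub (sub C x6501) x6487) x6535) x6391) x5851) x6175) x4555) x5527) x667) x3583) x15247) x13059)
  (add (add (sub (add (add (add (add (add (add (sub (sub (sub (sub C x6499) x6495) x6537) x6393) x5853) x6177) x4557) x5529) x669) x3585) x15249) x13063) x19625)
  (sub (sub (add (add (add (add (add (add (sub (sub (add (add (sub C x6513) x6521) x6533) x6491) x6455) x5861) x6185) x4565) x5537) x677) x3593) x15257) x19629)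
  (add (add (sub (add (add (add (add (add (add (sub (sub (sub (sub C x6509) x6525) x6495) x6459) x5865) x6189) x4569) x5541) x681) x3597) x15261) x13075) x19637)
  (sub (sub (add (add (add (add (add (add (sub (add (add (add (add (sub C x6523) x6509) x6533) x6485) x6557) x6467) x5873) x6197) x4577) x5549) x689) x3605) x15269) x19641)
  (sub (sub (add (add (add (add (add (add (sub (add (add (sub (sub C x6521) x6529) x6487) x6559) x6469) x5875) x6199) x4579) x5551) x691) x3607) x15271) x13083)
  (add (add (sub (add (add (add (add (add (add (sub (sub (sub (add (add C x6529) x6533) x6513) x6543) x6471) x5877) x6201) x4581) x5553) x693) x3609) x15273) x13087) x19649)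
  (sub (sub (add (add (add (add (add (add (sub (sub (sub (add (add C x6525) x6533) x6523) x6547) x6475) x5881) x6205) x4585) x5557) x697) x3613) x15277) x13089)
  (sub (sub (add (add (add (add (add (add (sub (sub (add (add (add (add C x6525) x6529) x6509) x6521) x6551) x6479) x5885) x6209) x4589) x5561) x701) x3617) x15281) x19653)
  (sub (sub (add (add (add (add (add (add (add (add (sub (add (add (sub C x6537) x6547) x6559) x6499) x6319) x6427) x5887) x6211) x4591) x5563) x703) x3619) x15283) x13095)
  (add (add (sub (add (add (add (add (add (add (add (add (sub (sub (sub C x6535) x6543) x6501) x6321) x6429) x5889) x6213) x4593) x5565) x705) x3621) x15285) x13099) x19661)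
  (add (add (sub (add (add (add (add (add (add (add (add (sub (sub (add (add C x6547) x6551) x6537) x6525) x6327) x6435) x5895) x6219) x4599) x5571) x711) x3627) x15291) x13105) x19667)
  (sub (sub (add (add (add (add (add (add (add (add (sub (add (add (add (add C x6543) x6551) x6535) x6559) x6529) x6331) x6439) x5899) x6223) x4603) x5575) x715) x3631) x15295) x13107)
  (sub (sub (add (add (add (add (add (add (add (add (sub (sub (add (add C x6543) x6547) x6557) x6533) x6335) x6443) x5903) x6227) x4607) x5579) x719) x3635) x15299) x19671)
  (sub (sub (add (add (add (add (add (add (add (add (add (add (sub (sub C x6559) x6551) x6485) x6521) x6341) x6449) x5909) x6233) x4613) x5585) x725) x3641) x15305) x19677)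
  (sub (sub (add (add (add (add (add (add (add (add (add (add (add (add (sub C x6557) x6535) x6547) x6487) x6523) x6343) x6451) x5911) x6235) x4615) x5587) x727) x3643) x15307) x13119)
  (sub (sub (add (add (add (add (add (add (add (add (add (add (add (add (sub C x6567) x6575) x6587) x6599) x6635) x6671) x6779) x6887) x7211) x7535) x8507) x9479) x12395) x2189) x13123)
  (sub (sub (add (add (add (add (add (add (add (add (add (add (sub (sub C x6563) x6579) x6603) x6639) x6675) x6783) x6891) x7215) x7539) x8511) x9483) x12399) x2193) x7)
  (sub (sub (add (add (add (add (add (add (add (add (sub (add (add (sub C x6577) x6563) x6587) x6593) x6683) x6791) x6899) x7223) x7547) x8519) x9491) x12407) x2201) x13135)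
  (add (add (sub (add (add (add (add (add (add (add (add (sub (sub (sub C x6575) x6583) x6595) x6685) x6793) x6901) x7225) x7549) x8521) x9493) x12409) x2203) x15) x13139)
  (sub (sub (add (add (add (add (add (add (add (add (sub (sub (add (add C x6583) x6587) x6567) x6615) x6687) x6795) x6903) x7227) x7551) x8523) x9495) x12411) x2205) x19)
  (add (add (sub (add (add (add (add (add (add (add (add (sub (sub (add (add C x6579) x6587) x6577) x6619) x6691) x6799) x6907) x7231) x7555) x8527) x9499) x12415) x2209) x21) x13145)
  (sub (sub (add (add (add (add (add (add (add (add (sub (add (add (add (add C x6579) x6583) x6563) x6575) x6623) x6695) x6803) x6911) x7235) x7559) x8531) x9503) x12419) x2213) x13147)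
  (sub (sub (add (add (add (add (add (add (sub (sub (sub (sub C x6595) x6599) x6575) x6647) x6917) x7241) x7565) x8537) x9509) x12425) x2219) x13153)
  (add (add (sub (add (add (add (add (add (add (sub (sub (sub (sub C x6593) x6607) x6577) x6649) x6919) x7243) x7567) x8539) x9511) x12427) x2221) x33) x13157)
  (sub (sub (add (add (add (add (add (add (sub (add (add (sub (sub C x6603) x6593) x6563) x6635) x6653) x6923) x7247) x7571) x8543) x9515) x12431) x2225) x13159)
  (sub (sub (add (add (add (add (add (add (sub (add (add (sub (sub C x6599) x6609) x6567) x6639) x6657) x6927) x7251) x7575) x8547) x9519) x12435) x2229) x43)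
  (add (add (sub (add (add (add (add (add (add (sub (sub (sub (sub C x6609) x6595) x6625) x6661) x6931) x7255) x7579) x8551) x9523) x12439) x2233) x45) x13169)
  (sub (sub (add (add (add (add (add (add (sub (sub (sub (sub C x6607) x6603) x6627) x6663) x6933) x7257) x7581) x8553) x9525) x12441) x2235) x49)
  (sub (sub (add (add (add (add (add (add (sub (sub (add (add (add (add C x6619) x6623) x6627) x6639) x6579) x6723) x6939) x7263) x7587) x8559) x9531) x12447) x2241) x55)
  (add (add (sub (add (add (add (add (add (add (sub (sub (sub (add (add C x6615) x6623) x6625) x6583) x6727) x6943) x7267) x7591) x8563) x9535) x12451) x2245) x57) x13181)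
  (sub (sub (add (add (add (add (add (add (sub (sub (sub (add (add C x6615) x6619) x6635) x6587) x6731) x6947) x7271) x7595) x8567) x9539) x12455) x2249) x13183)
  (add (add (sub (add (add (add (add (add (add (sub (sub (sub (sub C x6627) x6619) x6607) x6733) x6949) x7273) x7597) x8569) x9541) x12457) x2251) x63) x13187)
  (sub (sub (add (add (add (add (add (add (sub (sub (add (add (sub C x6625) x6615) x6639) x6609) x6735) x6951) x7275) x7599) x8571) x9543) x12459) x2253) x67)
  (sub (sub (add (add (add (add (add (add (sub (add (add (sub (sub C x6639) x6623) x6563) x6599) x6743) x6959) x7283) x7607) x8579) x9551) x12467) x2261) x13195)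
  (sub (sub (add (add (add (add (add (add (sub (add (add (add (add (sub C x6635) x6615) x6627) x6567) x6603) x6747) x6963) x7287) x7611) x8583) x9555) x12471) x2265) x79)
  (sub (sub (add (add (add (add (sub (sub (add (add (sub (sub C x6649) x6653) x6683) x6719) x6593) x6809) x7619) x8591) x9563) x12479) x2273) x13207)
  (add (add (sub (add (add (add (add (sub (sub (add (add (sub (sub C x6647) x6661) x6685) x6721) x6595) x6811) x7621) x8593) x9565) x12481) x2275) x87) x13211)
  (sub (sub (add (add (add (add (sub (sub (sub (sub (sub C x6657) x6647) x6671) x6599) x6815) x7625) x8597) x9569) x12485) x2279) x13213)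
  (sub (sub (add (add (add (add (sub (sub (sub (sub (sub C x6653) x6663) x6675) x6603) x6819) x7629) x8601) x9573) x12489) x2283) x97)
  (add (add (sub (add (add (add (add (sub (sub (sub (sub (sub C x6663) x6649) x6697) x6607) x6823) x7633) x8605) x9577) x12493) x2287) x99) x13223)
  (sub (sub (add (add (add (add (sub (sub (sub (sub (sub C x6661) x6657) x6699) x6609) x6825) x7635) x8607) x9579) x12495) x2289) x103)
  (sub (sub (add (add (add (add (sub (add (add (sub (add (add (sub C x6675) x6683) x6695) x6653) x6563) x6779) x6833) x7643) x8615) x9587) x12503) x2297) x13231)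
  (sub (sub (add (add (add (add (sub (add (add (sub (sub (sub C x6671) x6687) x6657) x6567) x6783) x6837) x7647) x8619) x9591) x12507) x2301) x115)
  (sub (sub (add (add (add (add (sub (add (add (add (add (add (add (sub C x6685) x6671) x6695) x6647) x6719) x6575) x6791) x6845) x7655) x8627) x9599) x12515) x2309) x13243)
  (add (add (sub (add (add (add (add (sub (add (add (add (add (sub (sub C x6683) x6691) x6649) x6721) x6577) x6793) x6847) x7657) x8629) x9601) x12517) x2311) x123) x13247)
  (sub (sub (add (add (add (add (sub (add (add (sub (sub (add (add C x6691) x6695) x6675) x6705) x6579) x6795) x6849) x7659) x8631) x9603) x12519) x2313) x127)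
  (add (add (sub (add (add (add (add (sub (add (add (sub (sub (add (add C x6687) x6695) x6685) x6709) x6583) x6799) x6853) x7663) x8635) x9607) x12523) x2317) x129) x13253)
  (sub (sub (add (add (add (add (sub (add (add (sub (add (add (add (add C x6687) x6691) x6671) x6683) x6713) x6587) x6803) x6857) x7667) x8639) x9611) x12527) x2321) x13255)
  (add (add (sub (add (add (add (add (sub (sub (sub (add (add (sub C x6699) x6709) x6721) x6661) x6751) x6859) x7669) x8641) x9613) x12529) x2323) x135) x13259)
  (sub (sub (add (add (add (add (sub (sub (sub (sub (sub C x6697) x6705) x6663) x6753) x6861) x7671) x8643) x9615) x12531) x2325) x139)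
  (sub (sub (add (add (add (add (sub (sub (sub (sub (add (add C x6709) x6713) x6699) x6687) x6759) x6867) x7677) x8649) x9621) x12537) x2331) x145)
  (add (add (sub (add (add (add (add (sub (sub (sub (add (add (add (add C x6705) x6713) x6697) x6721) x6691) x6763) x6871) x7681) x8653) x9625) x12541) x2335) x147) x13271)
  (sub (sub (add (add (add (add (sub (sub (sub (sub (add (add C x6705) x6709) x6719) x6695) x6767) x6875) x7685) x8657) x9629) x12545) x2339) x13273)
  (sub (sub (add (add (add (add (sub (sub (add (add (sub (sub C x6721) x6713) x6647) x6683) x6773) x6881) x7691) x8663) x9635) x12551) x2345) x13279)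
  (add (add (sub (add (add (add (add (sub (sub (add (add (add (add (sub C x6719) x6697) x6709) x6649) x6685) x6775) x6883) x7693) x8665) x9637) x12553) x2347) x159) x13283)
  (sub (sub (add (add (add (add (sub (sub (add (add (add (add (add (add C x6727) x6731) x6735) x6747) x6759) x6795) x6615) x7047) x7695) x8667) x9639) x12555) x2349) x163)
  (add (add (sub (add (add (add (add (sub (sub (add (add (sub (add (add C x6723) x6731) x6733) x6763) x6799) x6619) x7051) x7699) x8671) x9643) x12559) x2353) x165) x13289)
  (sub (sub (add (add (add (add (sub (sub (add (add (sub (add (add C x6723) x6727) x6743) x6767) x6803) x6623) x7055) x7703) x8675) x9647) x12563) x2357) x13291)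
  (add (add (sub (add (add (add (add (sub (sub (sub (sub (sub C x6735) x6727) x6751) x6625) x7057) x7705) x8677) x9649) x12565) x2359) x171) x13295)
  (sub (sub (add (add (add (add (sub (sub (sub (add (add (sub C x6733) x6723) x6747) x6753) x6627) x7059) x7707) x8679) x9651) x12567) x2361) x175)
  (sub (sub (add (add (add (add (sub (sub (sub (sub (sub C x6747) x6731) x6779) x6635) x7067) x7715) x8687) x9659) x12575) x2369) x13303)
  (sub (sub (add (add (add (add (sub (sub (sub (add (add (sub C x6743) x6723) x6735) x6783) x6639) x7071) x7719) x8691) x9663) x12579) x2373) x187)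
  (add (add (sub (add (add (add (add (sub (sub (sub (add (add (sub C x6753) x6763) x6775) x6733) x6697) x7075) x7723) x8695) x9667) x12583) x2377) x189) x13313)
  (sub (sub (add (add (add (add (sub (sub (sub (sub (sub C x6751) x6759) x6735) x6699) x7077) x7725) x8697) x9669) x12585) x2379) x193)
  (sub (sub (add (add (add (add (sub (sub (add (add (sub (add (add C x6763) x6767) x6753) x6723) x6795) x6705) x7083) x7731) x8703) x9675) x12591) x2385) x199)
  (add (add (sub (add (add (add (add (sub (sub (add (add (add (add (add (add C x6759) x6767) x6751) x6775) x6727) x6799) x6709) x7087) x7735) x8707) x9679) x12595) x2389) x201) x13325)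
  (sub (sub (add (add (add (add (sub (sub (add (add (sub (add (add C x6759) x6763) x6773) x6731) x6803) x6713) x7091) x7739) x8711) x9683) x12599) x2393) x13327)
  (sub (sub (add (add (add (add (sub (sub (sub (sub (sub C x6775) x6767) x6791) x6719) x7097) x7745) x8717) x9689) x12605) x2399) x13333)
  (add (add (sub (add (add (add (add (sub (sub (sub (add (add (sub C x6773) x6751) x6763) x6793) x6721) x7099) x7747) x8719) x9691) x12607) x2401) x213) x13337)
  (sub (sub (add (add (add (add (sub (add (add (sub (add (add (sub C x6783) x6791) x6803) x6743) x6563) x6671) x7103) x7751) x8723) x9695) x12611) x2405) x13339)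
  (sub (sub (add (add (add (add (sub (add (add (sub (sub (sub C x6779) x6795) x6747) x6567) x6675) x7107) x7755) x8727) x9699) x12615) x2409) x223)
  (sub (sub (add (add (add (add (sub (add (add (sub (add (add (sub C x6793) x6779) x6803) x6773) x6575) x6683) x7115) x7763) x8735) x9707) x12623) x2417) x13351)
  (add (add (sub (add (add (add (add (sub (add (add (sub (sub (sub C x6791) x6799) x6775) x6577) x6685) x7117) x7765) x8737) x9709) x12625) x2419) x231) x13355)
  (sub (sub (add (add (add (add (sub (add (add (add (add (sub (add (add C x6799) x6803) x6783) x6723) x6759) x6579) x6687) x7119) x7767) x8739) x9711) x12627) x2421) x235)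
  (add (add (sub (add (add (add (add (sub (add (add (add (add (sub (add (add C x6795) x6803) x6793) x6727) x6763) x6583) x6691) x7123) x7771) x8743) x9715) x12631) x2425) x237) x13361)
  (sub (sub (add (add (add (add (sub (add (add (add (add (add (add (add (add C x6795) x6799) x6779) x6791) x6731) x6767) x6587) x6695) x7127) x7775) x8747) x9719) x12635) x2429) x13363)
  (sub (sub (add (add (sub (sub (add (add (add (add (sub (sub C x6811) x6815) x6845) x6881) x6917) x7025) x6647) x7295) x9725) x12641) x2435) x13369)
  (add (add (sub (add (add (sub (sub (add (add (add (add (sub (sub C x6809) x6823) x6847) x6883) x6919) x7027) x6649) x7297) x9727) x12643) x2437) x249) x13373)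
  (sub (sub (add (add (sub (sub (add (add (sub (sub (sub C x6819) x6809) x6833) x6923) x7031) x6653) x7301) x9731) x12647) x2441) x13375)
  (sub (sub (add (add (sub (sub (add (add (sub (sub (sub C x6815) x6825) x6837) x6927) x7035) x6657) x7305) x9735) x12651) x2445) x259)
  (add (add (sub (add (add (sub (sub (add (add (sub (sub (sub C x6825) x6811) x6859) x6931) x7039) x6661) x7309) x9739) x12655) x2449) x261) x13385)
  (sub (sub (add (add (sub (sub (add (add (sub (sub (sub C x6823) x6819) x6861) x6933) x7041) x6663) x7311) x9741) x12657) x2451) x265)
  (sub (sub (add (add (sub (sub (sub (sub (add (add (sub C x6837) x6845) x6857) x6815) x6887) x6671) x7319) x9749) x12665) x2459) x13393)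
  (sub (sub (add (add (sub (sub (sub (sub (sub (sub C x6833) x6849) x6819) x6891) x6675) x7323) x9753) x12669) x2463) x277)
  (sub (sub (add (add (sub (sub (sub (add (add (add (add (sub C x6847) x6833) x6857) x6809) x6881) x6899) x6683) x7331) x9761) x12677) x2471) x13405)
  (add (add (sub (add (add (sub (sub (sub (add (add (sub (sub C x6845) x6853) x6811) x6883) x6901) x6685) x7333) x9763) x12679) x2473) x285) x13409)
  (sub (sub (add (add (sub (sub (sub (sub (sub (add (add C x6853) x6857) x6837) x6867) x6903) x6687) x7335) x9765) x12681) x2475) x289)
  (add (add (sub (add (add (sub (sub (sub (sub (sub (add (add C x6849) x6857) x6847) x6871) x6907) x6691) x7339) x9769) x12685) x2479) x291) x13415)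
  (sub (sub (add (add (sub (sub (sub (sub (add (add (add (add C x6849) x6853) x6833) x6845) x6875) x6911) x6695) x7343) x9773) x12689) x2483) x13417)
  (add (add (sub (add (add (sub (sub (sub (sub (add (add (sub C x6861) x6871) x6883) x6823) x6967) x6697) x7345) x9775) x12691) x2485) x297) x13421)
  (sub (sub (add (add (sub (sub (sub (sub (sub (sub C x6859) x6867) x6825) x6969) x6699) x7347) x9777) x12693) x2487) x301)
  (sub (sub (add (add (sub (sub (sub (sub (sub (add (add C x6871) x6875) x6861) x6849) x6975) x6705) x7353) x9783) x12699) x2493) x307)
  (add (add (sub (add (add (sub (sub (sub (sub (add (add (add (add C x6867) x6875) x6859) x6883) x6853) x6979) x6709) x7357) x9787) x12703) x2497) x309) x13433)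
  (sub (sub (add (add (sub (sub (sub (sub (sub (add (add C x6867) x6871) x6881) x6857) x6983) x6713) x7361) x9791) x12707) x2501) x13435)
  (sub (sub (add (add (sub (sub (sub (add (add (sub (sub C x6883) x6875) x6809) x6845) x6989) x6719) x7367) x9797) x12713) x2507) x13441)
  (add (add (sub (add (add (sub (sub (sub (add (add (add (add (sub C x6881) x6859) x6871) x6811) x6847) x6991) x6721) x7369) x9799) x12715) x2509) x321) x13445)
  (sub (sub (add (add (sub (add (add (sub (add (add (add (add (sub C x6891) x6899) x6911) x6923) x6959) x6833) x6563) x7211) x7373) x9803) x12719) x2513) x13447)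
  (sub (sub (add (add (sub (add (add (sub (add (add (sub (sub C x6887) x6903) x6927) x6963) x6837) x6567) x7215) x7377) x9807) x12723) x2517) x331)
  (sub (sub (add (add (sub (add (add (sub (sub (add (add (sub C x6901) x6887) x6911) x6917) x6845) x6575) x7223) x7385) x9815) x12731) x2525) x13459)
  (add (add (sub (add (add (sub (add (add (sub (sub (sub (sub C x6899) x6907) x6919) x6847) x6577) x7225) x7387) x9817) x12733) x2527) x339) x13463)
  (sub (sub (add (add (sub (add (add (sub (sub (sub (add (add C x6907) x6911) x6891) x6939) x6849) x6579) x7227) x7389) x9819) x12735) x2529) x343)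
  (add (add (sub (add (add (sub (add (add (sub (sub (sub (add (add C x6903) x6911) x6901) x6943) x6853) x6583) x7231) x7393) x9823) x12739) x2533) x345) x13469)
  (sub (sub (add (add (sub (add (add (sub (sub (add (add (add (add C x6903) x6907) x6887) x6899) x6947) x6857) x6587) x7235) x7397) x9827) x12743) x2537) x13471)
  (sub (sub (add (add (sub (add (add (add (add (sub (sub (sub C x6919) x6923) x6899) x6809) x7025) x6593) x7241) x7403) x9833) x12749) x2543) x13477)
  (add (add (sub (add (add (sub (add (add (add (add (sub (sub (sub C x6917) x6931) x6901) x6811) x7027) x6595) x7243) x7405) x9835) x12751) x2545) x357) x13481)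
  (sub (sub (add (add (sub (add (add (add (add (add (add (sub (sub C x6927) x6917) x6887) x6959) x6815) x7031) x6599) x7247) x7409) x9839) x12755) x2549) x13483)
  (sub (sub (add (add (sub (add (add (add (add (add (add (sub (sub C x6923) x6933) x6891) x6963) x6819) x7035) x6603) x7251) x7413) x9843) x12759) x2553) x367)
  (add (add (sub (add (add (sub (add (add (add (add (sub (sub (sub C x6933) x6919) x6949) x6823) x7039) x6607) x7255) x7417) x9847) x12763) x2557) x369) x13493)
  (sub (sub (add (add (sub (add (add (add (add (sub (sub (sub C x6931) x6927) x6951) x6825) x7041) x6609) x7257) x7419) x9849) x12765) x2559) x373)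
  (sub (sub (add (add (sub (add (add (sub (sub (add (add (add (add C x6943) x6947) x6951) x6963) x6903) x6993) x6615) x7263) x7425) x9855) x12771) x2565) x379)
  (add (add (sub (add (add (sub (add (add (sub (sub (sub (add (add C x6939) x6947) x6949) x6907) x6997) x6619) x7267) x7429) x9859) x12775) x2569) x381) x13505)
  (sub (sub (add (add (sub (add (add (sub (sub (sub (add (add C x6939) x6943) x6959) x6911) x7001) x6623) x7271) x7433) x9863) x12779) x2573) x13507)
  (add (add (sub (add (add (sub (add (add (sub (sub (sub (sub C x6951) x6943) x6931) x7003) x6625) x7273) x7435) x9865) x12781) x2575) x387) x13511)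
  (sub (sub (add (add (sub (add (add (sub (sub (add (add (sub C x6949) x6939) x6963) x6933) x7005) x6627) x7275) x7437) x9867) x12783) x2577) x391)
  (sub (sub (add (add (sub (add (add (sub (add (add (sub (sub C x6963) x6947) x6887) x6923) x7013) x6635) x7283) x7445) x9875) x12791) x2585) x13519)
  (sub (sub (add (add (sub (add (add (sub (add (add (add (add (sub C x6959) x6939) x6951) x6891) x6927) x7017) x6639) x7287) x7449) x9879) x12795) x2589) x403)
  (add (add (sub (add (add (sub (sub (sub (add (add (add (add (sub C x6969) x6979) x6991) x7003) x7039) x6859) x7129) x7453) x9883) x12799) x2593) x405) x13529)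
  (sub (sub (add (add (sub (sub (sub (add (add (sub (sub C x6967) x6975) x7005) x7041) x6861) x7131) x7455) x9885) x12801) x2595) x409)
  (sub (sub (add (add (sub (sub (sub (sub (sub (add (add C x6979) x6983) x6969) x6993) x6867) x7137) x7461) x9891) x12807) x2601) x415)
  (add (add (sub (add (add (sub (sub (sub (sub (add (add (add (add C x6975) x6983) x6967) x6991) x6997) x6871) x7141) x7465) x9895) x12811) x2605) x417) x13541)
  (sub (sub (add (add (sub (sub (sub (sub (sub (add (add C x6975) x6979) x6989) x7001) x6875) x7145) x7469) x9899) x12815) x2609) x13543)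
  (sub (sub (add (add (sub (sub (sub (sub (sub (sub C x6991) x6983) x7025) x6881) x7151) x7475) x9905) x12821) x2615) x13549)
  (add (add (sub (add (add (sub (sub (sub (sub (add (add (sub C x6989) x6967) x6979) x7027) x6883) x7153) x7477) x9907) x12823) x2617) x429) x13553)
  (sub (sub (add (add (sub (sub (sub (sub (add (add (add (add C x6997) x7001) x7005) x7017) x6975) x6939) x7155) x7479) x9909) x12825) x2619) x433)
  (add (add (sub (add (add (sub (sub (sub (sub (sub (add (add C x6993) x7001) x7003) x6979) x6943) x7159) x7483) x9913) x12829) x2623) x435) x13559)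
  (sub (sub (add (add (sub (sub (sub (sub (sub (add (add C x6993) x6997) x7013) x6983) x6947) x7163) x7487) x9917) x12833) x2627) x13561)
  (add (add (sub (add (add (sub (sub (sub (add (add (sub (sub C x7005) x6997) x6967) x7039) x6949) x7165) x7489) x9919) x12835) x2629) x441) x13565)
  (sub (sub (add (add (sub (sub (sub (add (add (add (add (sub C x7003) x6993) x7017) x6969) x7041) x6951) x7167) x7491) x9921) x12837) x2631) x445)
  (sub (sub (add (add (sub (sub (sub (sub (sub (sub C x7017) x7001) x7031) x6959) x7175) x7499) x9929) x12845) x2639) x13573)
  (sub (sub (add (add (sub (sub (sub (sub (add (add (sub C x7013) x6993) x7005) x7035) x6963) x7179) x7503) x9933) x12849) x2643) x457)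
  (sub (sub (add (add (sub (sub (add (add (sub (sub (sub C x7027) x7031) x6989) x6809) x6917) x7187) x7511) x9941) x12857) x2651) x13585)
  (add (add (sub (add (add (sub (sub (add (add (sub (sub (sub C x7025) x7039) x6991) x6811) x6919) x7189) x7513) x9943) x12859) x2653) x465) x13589)
  (sub (sub (add (add (sub (sub (add (add (sub (sub (sub C x7035) x7025) x7013) x6815) x6923) x7193) x7517) x9947) x12863) x2657) x13591)
  (sub (sub (add (add (sub (sub (add (add (sub (sub (sub C x7031) x7041) x7017) x6819) x6927) x7197) x7521) x9951) x12867) x2661) x475)
  (add (add (sub (add (add (sub (sub (add (add (add (add (sub (sub C x7041) x7027) x6967) x7003) x6823) x6931) x7201) x7525) x9955) x12871) x2665) x477) x13601)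
  (sub (sub (add (add (sub (sub (add (add (add (add (sub (sub C x7039) x7035) x6969) x7005) x6825) x6933) x7203) x7527) x9957) x12873) x2667) x481)
  (sub (sub (add (add (sub (sub (add (add (add (add (add (add (add (add C x7051) x7055) x7059) x7071) x7083) x7119) x7155) x7263) x6723) x8019) x9963) x12879) x2673) x487)
  (add (add (sub (add (add (sub (sub (add (add (add (add (sub (add (add C x7047) x7055) x7057) x7087) x7123) x7159) x7267) x6727) x8023) x9967) x12883) x2677) x489) x13613)
  (sub (sub (add (add (sub (sub (add (add (add (add (sub (add (add C x7047) x7051) x7067) x7091) x7127) x7163) x7271) x6731) x8027) x9971) x12887) x2681) x13615)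
  (add (add (sub (add (add (sub (sub (add (add (sub (sub (sub C x7059) x7051) x7075) x7165) x7273) x6733) x8029) x9973) x12889) x2683) x495) x13619)
  (sub (sub (add (add (sub (sub (add (add (sub (add (add (sub C x7057) x7047) x7071) x7077) x7167) x7275) x6735) x8031) x9975) x12891) x2685) x499)
  (sub (sub (add (add (sub (sub (add (add (sub (sub (sub C x7071) x7055) x7103) x7175) x7283) x6743) x8039) x9983) x12899) x2693) x13627)
  (sub (sub (add (add (sub (sub (add (add (sub (add (add (sub C x7067) x7047) x7059) x7107) x7179) x7287) x6747) x8043) x9987) x12903) x2697) x511)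
  (add (add (sub (add (add (sub (sub (sub (sub (add (add (sub C x7077) x7087) x7099) x7057) x7129) x6751) x8047) x9991) x12907) x2701) x513) x13637)
  (sub (sub (add (add (sub (sub (sub (sub (sub (sub C x7075) x7083) x7059) x7131) x6753) x8049) x9993) x12909) x2703) x517)
  (sub (sub (add (add (sub (sub (sub (add (add (sub (add (add C x7087) x7091) x7077) x7047) x7119) x7137) x6759) x8055) x9999) x12915) x2709) x523)
  (add (add (sub (add (add (sub (sub (sub (add (add (add (add (add (add C x7083) x7091) x7075) x7099) x7051) x7123) x7141) x6763) x8059) x10003) x12919) x2713) x525) x13649)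
  (sub (sub (add (add (sub (sub (sub (add (add (sub (add (add C x7083) x7087) x7097) x7055) x7127) x7145) x6767) x8063) x10007) x12923) x2717) x13651)
  (sub (sub (add (add (sub (sub (sub (sub (sub (sub C x7099) x7091) x7115) x7151) x6773) x8069) x10013) x12929) x2723) x13657)
  (add (add (sub (add (add (sub (sub (sub (sub (add (add (sub C x7097) x7075) x7087) x7117) x7153) x6775) x8071) x10015) x12931) x2725) x537) x13661)
  (sub (sub (add (add (sub (sub (sub (sub (add (add (sub C x7107) x7115) x7127) x7067) x7211) x6779) x8075) x10019) x12935) x2729) x13663)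
  (sub (sub (add (add (sub (sub (sub (sub (sub (sub C x7103) x7119) x7071) x7215) x6783) x8079) x10023) x12939) x2733) x547)
  (sub (sub (add (add (sub (sub (sub (sub (add (add (sub C x7117) x7103) x7127) x7097) x7223) x6791) x8087) x10031) x12947) x2741) x13675)
  (add (add (sub (add (add (sub (sub (sub (sub (sub (sub C x7115) x7123) x7099) x7225) x6793) x8089) x10033) x12949) x2743) x555) x13679)
  (sub (sub (add (add (sub (sub (sub (add (add (sub (add (add C x7123) x7127) x7107) x7047) x7083) x7227) x6795) x8091) x10035) x12951) x2745) x559)
  (add (add (sub (add (add (sub (sub (sub (add (add (sub (add (add C x7119) x7127) x7117) x7051) x7087) x7231) x6799) x8095) x10039) x12955) x2749) x561) x13685)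
  (sub (sub (add (add (sub (sub (sub (add (add (add (add (add (add C x7119) x7123) x7103) x7115) x7055) x7091) x7235) x6803) x8099) x10043) x12959) x2753) x13687)
  (add (add (sub (add (add (sub (sub (sub (add (add (add (add (sub C x7131) x7141) x7153) x7165) x7201) x7075) x6967) x8101) x10045) x12961) x2755) x567) x13691)
  (sub (sub (add (add (sub (sub (sub (add (add (sub (sub C x7129) x7137) x7167) x7203) x7077) x6969) x8103) x10047) x12963) x2757) x571)
  (sub (sub (add (add (sub (sub (sub (sub (sub (add (add C x7141) x7145) x7131) x7155) x7083) x6975) x8109) x10053) x12969) x2763) x577)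
  (add (add (sub (add (add (sub (sub (sub (sub (add (add (add (add C x7137) x7145) x7129) x7153) x7159) x7087) x6979) x8113) x10057) x12973) x2767) x579) x13703)
  (sub (sub (add (add (sub (sub (sub (sub (sub (add (add C x7137) x7141) x7151) x7163) x7091) x6983) x8117) x10061) x12977) x2771) x13705)
  (sub (sub (add (add (sub (sub (sub (sub (sub (sub C x7153) x7145) x7187) x7097) x6989) x8123) x10067) x12983) x2777) x13711)
  (add (add (sub (add (add (sub (sub (sub (sub (add (add (sub C x7151) x7129) x7141) x7189) x7099) x6991) x8125) x10069) x12985) x2779) x591) x13715)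
  (sub (sub (add (add (sub (sub (add (add (sub (add (add (add (add C x7159) x7163) x7167) x7179) x7137) x7047) x7263) x6993) x8127) x10071) x12987) x2781) x595)
  (add (add (sub (add (add (sub (sub (add (add (sub (sub (add (add C x7155) x7163) x7165) x7141) x7051) x7267) x6997) x8131) x10075) x12991) x2785) x597) x13721)
  (sub (sub (add (add (sub (sub (add (add (sub (sub (add (add C x7155) x7159) x7175) x7145) x7055) x7271) x7001) x8135) x10079) x12995) x2789) x13723)
  (add (add (sub (add (add (sub (sub (add (add (add (add (sub (sub C x7167) x7159) x7129) x7201) x7057) x7273) x7003) x8137) x10081) x12997) x2791) x603) x13727)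
  (sub (sub (add (add (sub (sub (add (add (add (add (add (add (sub C x7165) x7155) x7179) x7131) x7203) x7059) x7275) x7005) x8139) x10083) x12999) x2793) x607)
  (sub (sub (add (add (sub (sub (add (add (sub (sub (sub C x7179) x7163) x7193) x7067) x7283) x7013) x8147) x10091) x13007) x2801) x13735)
  (sub (sub (add (add (sub (sub (add (add (sub (add (add (sub C x7175) x7155) x7167) x7197) x7071) x7287) x7017) x8151) x10095) x13011) x2805) x619)
  (sub (sub (add (add (sub (sub (sub (sub (sub (sub C x7189) x7193) x7151) x7241) x7025) x8159) x10103) x13019) x2813) x13747)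
  (add (add (sub (add (add (sub (sub (sub (sub (sub (sub C x7187) x7201) x7153) x7243) x7027) x8161) x10105) x13021) x2815) x627) x13751)
  (sub (sub (add (add (sub (sub (sub (sub (sub (sub C x7197) x7187) x7175) x7247) x7031) x8165) x10109) x13025) x2819) x13753)
  (sub (sub (add (add (sub (sub (sub (sub (sub (sub C x7193) x7203) x7179) x7251) x7035) x8169) x10113) x13029) x2823) x637)
  (add (add (sub (add (add (sub (sub (sub (add (add (sub (sub C x7203) x7189) x7129) x7165) x7255) x7039) x8173) x10117) x13033) x2827) x639) x13763)
  (sub (sub (add (add (sub (sub (sub (add (add (sub (sub C x7201) x7197) x7131) x7167) x7257) x7041) x8175) x10119) x13035) x2829) x643)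
  (sub (sub (add (add (sub (add (add (sub (add (add (add (add (sub C x7215) x7223) x7235) x7247) x7283) x7103) x6563) x6887) x8183) x10127) x13043) x2837) x13771)
  (sub (sub (add (add (sub (add (add (sub (add (add (sub (sub C x7211) x7227) x7251) x7287) x7107) x6567) x6891) x8187) x10131) x13047) x2841) x655)
  (sub (sub (add (add (sub (add (add (sub (sub (add (add (sub C x7225) x7211) x7235) x7241) x7115) x6575) x6899) x8195) x10139) x13055) x2849) x13783)
  (add (add (sub (add (add (sub (add (add (sub (sub (sub (sub C x7223) x7231) x7243) x7117) x6577) x6901) x8197) x10141) x13057) x2851) x663) x13787)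
  (sub (sub (add (add (sub (add (add (sub (sub (sub (add (add C x7231) x7235) x7215) x7263) x7119) x6579) x6903) x8199) x10143) x13059) x2853) x667)
  (add (add (sub (add (add (sub (add (add (sub (sub (sub (add (add C x7227) x7235) x7225) x7267) x7123) x6583) x6907) x8203) x10147) x13063) x2857) x669) x13793)
  (sub (sub (add (add (sub (add (add (sub (sub (add (add (add (add C x7227) x7231) x7211) x7223) x7271) x7127) x6587) x6911) x8207) x10151) x13067) x2861) x13795)
  (sub (sub (add (add (sub (add (add (sub (sub (sub (sub C x7243) x7247) x7223) x7187) x6593) x6917) x8213) x10157) x13073) x2867) x13801)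
  (add (add (sub (add (add (sub (add (add (sub (sub (sub (sub C x7241) x7255) x7225) x7189) x6595) x6919) x8215) x10159) x13075) x2869) x681) x13805)
  (sub (sub (add (add (sub (add (add (sub (add (add (sub (sub C x7251) x7241) x7211) x7283) x7193) x6599) x6923) x8219) x10163) x13079) x2873) x13807)
  (sub (sub (add (add (sub (add (add (sub (add (add (sub (sub C x7247) x7257) x7215) x7287) x7197) x6603) x6927) x8223) x10167) x13083) x2877) x691)
  (add (add (sub (add (add (sub (add (add (sub (sub (sub (sub C x7257) x7243) x7273) x7201) x6607) x6931) x8227) x10171) x13087) x2881) x693) x13817)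
  (sub (sub (add (add (sub (add (add (sub (sub (sub (sub C x7255) x7251) x7275) x7203) x6609) x6933) x8229) x10173) x13089) x2883) x697)
  (sub (sub (add (add (sub (add (add (add (add (sub (add (add (add (add C x7267) x7271) x7275) x7287) x7227) x7047) x7155) x6615) x6939) x8235) x10179) x13095) x2889) x703)
  (add (add (sub (add (add (sub (add (add (add (add (sub (sub (add (add C x7263) x7271) x7273) x7231) x7051) x7159) x6619) x6943) x8239) x10183) x13099) x2893) x705) x13829)
  (sub (sub (add (add (sub (add (add (add (add (sub (sub (add (add C x7263) x7267) x7283) x7235) x7055) x7163) x6623) x6947) x8243) x10187) x13103) x2897) x13831)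
  (add (add (sub (add (add (sub (add (add (add (add (sub (sub (sub C x7275) x7267) x7255) x7057) x7165) x6625) x6949) x8245) x10189) x13105) x2899) x711) x13835)
  (sub (sub (add (add (sub (add (add (add (add (sub (add (add (sub C x7273) x7263) x7287) x7257) x7059) x7167) x6627) x6951) x8247) x10191) x13107) x2901) x715)
  (sub (sub (add (add (sub (add (add (add (add (add (add (sub (sub C x7287) x7271) x7211) x7247) x7067) x7175) x6635) x6959) x8255) x10199) x13115) x2909) x13843)
  (sub (sub (add (add (sub (add (add (add (add (add (add (add (add (sub C x7283) x7263) x7275) x7215) x7251) x7071) x7179) x6639) x6963) x8259) x10203) x13119) x2913) x727)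
  (sub (sub (sub (sub (add (add (add (add (add (add (sub (sub C x7297) x7301) x7331) x7367) x7403) x7511) x7619) x7943) x6809) x8753) x2921) x13855)
  (add (add (sub (sub (sub (add (add (add (add (add (add (sub (sub C x7295) x7309) x7333) x7369) x7405) x7513) x7621) x7945) x6811) x8755) x2923) x735) x13859)
  (sub (sub (sub (sub (add (add (add (add (sub (sub (sub C x7305) x7295) x7319) x7409) x7517) x7625) x7949) x6815) x8759) x2927) x13861)
  (sub (sub (sub (sub (add (add (add (add (sub (sub (sub C x7301) x7311) x7323) x7413) x7521) x7629) x7953) x6819) x8763) x2931) x745)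
  (add (add (sub (sub (sub (add (add (add (add (sub (sub (sub C x7311) x7297) x7345) x7417) x7525) x7633) x7957) x6823) x8767) x2935) x747) x13871)
  (sub (sub (sub (sub (add (add (add (add (sub (sub (sub C x7309) x7305) x7347) x7419) x7527) x7635) x7959) x6825) x8769) x2937) x751)
  (sub (sub (sub (sub (add (add (sub (sub (add (add (sub C x7323) x7331) x7343) x7301) x7373) x7643) x7967) x6833) x8777) x2945) x13879)
  (sub (sub (sub (sub (add (add (sub (sub (sub (sub C x7319) x7335) x7305) x7377) x7647) x7971) x6837) x8781) x2949) x763)
  (sub (sub (sub (sub (add (add (sub (add (add (add (add (sub C x7333) x7319) x7343) x7295) x7367) x7385) x7655) x7979) x6845) x8789) x2957) x13891)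
  (add (add (sub (sub (sub (add (add (sub (add (add (sub (sub C x7331) x7339) x7297) x7369) x7387) x7657) x7981) x6847) x8791) x2959) x771) x13895)
  (sub (sub (sub (sub (add (add (sub (sub (sub (add (add C x7339) x7343) x7323) x7353) x7389) x7659) x7983) x6849) x8793) x2961) x775)
  (add (add (sub (sub (sub (add (add (sub (sub (sub (add (add C x7335) x7343) x7333) x7357) x7393) x7663) x7987) x6853) x8797) x2965) x777) x13901)
  (sub (sub (sub (sub (add (add (sub (sub (add (add (add (add C x7335) x7339) x7319) x7331) x7361) x7397) x7667) x7991) x6857) x8801) x2969) x13903)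
  (add (add (sub (sub (sub (add (add (sub (sub (add (add (sub C x7347) x7357) x7369) x7309) x7453) x7669) x7993) x6859) x8803) x2971) x783) x13907)
  (sub (sub (sub (sub (add (add (sub (sub (sub (sub C x7345) x7353) x7311) x7455) x7671) x7995) x6861) x8805) x2973) x787)
  (sub (sub (sub (sub (add (add (sub (sub (sub (add (add C x7357) x7361) x7347) x7335) x7461) x7677) x8001) x6867) x8811) x2979) x793)
  (add (add (sub (sub (sub (add (add (sub (sub (add (add (add (add C x7353) x7361) x7345) x7369) x7339) x7465) x7681) x8005) x6871) x8815) x2983) x795) x13919)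
  (sub (sub (sub (sub (add (add (sub (sub (sub (add (add C x7353) x7357) x7367) x7343) x7469) x7685) x8009) x6875) x8819) x2987) x13921)
  (sub (sub (sub (sub (add (add (sub (add (add (sub (sub C x7369) x7361) x7295) x7331) x7475) x7691) x8015) x6881) x8825) x2993) x13927)
  (add (add (sub (sub (sub (add (add (sub (add (add (add (add (sub C x7367) x7345) x7357) x7297) x7333) x7477) x7693) x8017) x6883) x8827) x2995) x807) x13931)
  (sub (sub (sub (sub (sub (sub (add (add (add (add (sub C x7377) x7385) x7397) x7409) x7445) x7319) x7535) x6887) x8831) x2999) x13933)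
  (sub (sub (sub (sub (sub (sub (add (add (sub (sub C x7373) x7389) x7413) x7449) x7323) x7539) x6891) x8835) x3003) x817)
  (sub (sub (sub (sub (sub (sub (sub (add (add (sub C x7387) x7373) x7397) x7403) x7331) x7547) x6899) x8843) x3011) x13945)
  (add (add (sub (sub (sub (sub (sub (sub (sub (sub C x7385) x7393) x7405) x7333) x7549) x6901) x8845) x3013) x825) x13949)
  (sub (sub (sub (sub (sub (sub (sub (sub (add (add C x7393) x7397) x7377) x7425) x7335) x7551) x6903) x8847) x3015) x829)
  (add (add (sub (sub (sub (sub (sub (sub (sub (add (add C x7389) x7397) x7387) x7429) x7339) x7555) x6907) x8851) x3019) x831) x13955)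
  (sub (sub (sub (sub (sub (sub (sub (add (add (add (add C x7389) x7393) x7373) x7385) x7433) x7343) x7559) x6911) x8855) x3023) x13957)
  (sub (sub (sub (sub (sub (add (add (sub (sub (sub C x7405) x7409) x7385) x7295) x7511) x7565) x6917) x8861) x3029) x13963)
  (add (add (sub (sub (sub (sub (add (add (sub (sub (sub C x7403) x7417) x7387) x7297) x7513) x7567) x6919) x8863) x3031) x843) x13967)
  (sub (sub (sub (sub (sub (add (add (add (add (sub (sub C x7413) x7403) x7373) x7445) x7301) x7517) x7571) x6923) x8867) x3035) x13969)
  (sub (sub (sub (sub (sub (add (add (add (add (sub (sub C x7409) x7419) x7377) x7449) x7305) x7521) x7575) x6927) x8871) x3039) x853)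
  (add (add (sub (sub (sub (sub (add (add (sub (sub (sub C x7419) x7405) x7435) x7309) x7525) x7579) x6931) x8875) x3043) x855) x13979)
  (sub (sub (sub (sub (sub (add (add (sub (sub (sub C x7417) x7413) x7437) x7311) x7527) x7581) x6933) x8877) x3045) x859)
  (sub (sub (sub (sub (sub (sub (sub (add (add (add (add C x7429) x7433) x7437) x7449) x7389) x7479) x7587) x6939) x8883) x3051) x865)
  (add (add (sub (sub (sub (sub (sub (sub (sub (add (add C x7425) x7433) x7435) x7393) x7483) x7591) x6943) x8887) x3055) x867) x13991)
  (sub (sub (sub (sub (sub (sub (sub (sub (add (add C x7425) x7429) x7445) x7397) x7487) x7595) x6947) x8891) x3059) x13993)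
  (add (add (sub (sub (sub (sub (sub (sub (sub (sub C x7437) x7429) x7417) x7489) x7597) x6949) x8893) x3061) x873) x13997)
  (sub (sub (sub (sub (sub (sub (sub (add (add (sub C x7435) x7425) x7449) x7419) x7491) x7599) x6951) x8895) x3063) x877)
  (sub (sub (sub (sub (sub (sub (add (add (sub (sub C x7449) x7433) x7373) x7409) x7499) x7607) x6959) x8903) x3071) x14005)
  (sub (sub (sub (sub (sub (sub (add (add (add (add (sub C x7445) x7425) x7437) x7377) x7413) x7503) x7611) x6963) x8907) x3075) x889)
  (add (add (sub (sub (sub (sub (sub (add (add (add (add (sub C x7455) x7465) x7477) x7489) x7525) x7345) x7777) x6967) x8911) x3079) x891) x14015)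
  (sub (sub (sub (sub (sub (sub (add (add (sub (sub C x7453) x7461) x7491) x7527) x7347) x7779) x6969) x8913) x3081) x895)
  (sub (sub (sub (sub (sub (sub (sub (sub (add (add C x7465) x7469) x7455) x7479) x7353) x7785) x6975) x8919) x3087) x901)
  (add (add (sub (sub (sub (sub (sub (sub (add (add (add (add C x7461) x7469) x7453) x7477) x7483) x7357) x7789) x6979) x8923) x3091) x903) x14027)
  (sub (sub (sub (sub (sub (sub (sub (sub (add (add C x7461) x7465) x7475) x7487) x7361) x7793) x6983) x8927) x3095) x14029)
  (sub (sub (sub (sub (sub (sub (sub (sub (sub C x7477) x7469) x7511) x7367) x7799) x6989) x8933) x3101) x14035)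
  (add (add (sub (sub (sub (sub (sub (sub (add (add (sub C x7475) x7453) x7465) x7513) x7369) x7801) x6991) x8935) x3103) x915) x14039)
  (sub (sub (sub (sub (sub (sub (sub (add (add (add (add C x7483) x7487) x7491) x7503) x7461) x7425) x7803) x6993) x8937) x3105) x919)
  (add (add (sub (sub (sub (sub (sub (sub (sub (add (add C x7479) x7487) x7489) x7465) x7429) x7807) x6997) x8941) x3109) x921) x14045)
  (sub (sub (sub (sub (sub (sub (sub (sub (add (add C x7479) x7483) x7499) x7469) x7433) x7811) x7001) x8945) x3113) x14047)
  (add (add (sub (sub (sub (sub (sub (add (add (sub (sub C x7491) x7483) x7453) x7525) x7435) x7813) x7003) x8947) x3115) x927) x14051)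
  (sub (sub (sub (sub (sub (sub (add (add (add (add (sub C x7489) x7479) x7503) x7455) x7527) x7437) x7815) x7005) x8949) x3117) x931)
  (sub (sub (sub (sub (sub (sub (sub (sub (sub C x7503) x7487) x7517) x7445) x7823) x7013) x8957) x3125) x14059)
  (sub (sub (sub (sub (sub (sub (sub (add (add (sub C x7499) x7479) x7491) x7521) x7449) x7827) x7017) x8961) x3129) x943)
  (sub (sub (sub (sub (sub (add (add (sub (sub (sub C x7513) x7517) x7475) x7295) x7403) x7835) x7025) x8969) x3137) x14071)
  (add (add (sub (sub (sub (sub (add (add (sub (sub (sub C x7511) x7525) x7477) x7297) x7405) x7837) x7027) x8971) x3139) x951) x14075)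
  (sub (sub (sub (sub (sub (add (add (sub (sub (sub C x7521) x7511) x7499) x7301) x7409) x7841) x7031) x8975) x3143) x14077)
  (sub (sub (sub (sub (sub (add (add (sub (sub (sub C x7517) x7527) x7503) x7305) x7413) x7845) x7035) x8979) x3147) x961)
  (add (add (sub (sub (sub (sub (add (add (add (add (sub (sub C x7527) x7513) x7453) x7489) x7309) x7417) x7849) x7039) x8983) x3151) x963) x14087)
  (sub (sub (sub (sub (sub (add (add (add (add (sub (sub C x7525) x7521) x7455) x7491) x7311) x7419) x7851) x7041) x8985) x3153) x967)
  (sub (sub (sub (add (add (sub (add (add (add (add (add (add (sub C x7539) x7547) x7559) x7571) x7607) x7643) x7751) x7373) x6563) x8507) x8993) x3161) x14095)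
  (sub (sub (sub (add (add (sub (add (add (add (add (sub (sub C x7535) x7551) x7575) x7611) x7647) x7755) x7377) x6567) x8511) x8997) x3165) x979)
  (sub (sub (sub (add (add (sub (add (add (sub (add (add (sub C x7549) x7535) x7559) x7565) x7655) x7763) x7385) x6575) x8519) x9005) x3173) x14107)
  (add (add (sub (sub (add (add (sub (add (add (sub (sub (sub C x7547) x7555) x7567) x7657) x7765) x7387) x6577) x8521) x9007) x3175) x987) x14111)
  (sub (sub (sub (add (add (sub (add (add (sub (sub (add (add C x7555) x7559) x7539) x7587) x7659) x7767) x7389) x6579) x8523) x9009) x3177) x991)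
  (add (add (sub (sub (add (add (sub (add (add (sub (sub (add (add C x7551) x7559) x7549) x7591) x7663) x7771) x7393) x6583) x8527) x9013) x3181) x993) x14117)
  (sub (sub (sub (add (add (sub (add (add (sub (add (add (add (add C x7551) x7555) x7535) x7547) x7595) x7667) x7775) x7397) x6587) x8531) x9017) x3185) x14119)
  (sub (sub (sub (add (add (sub (sub (sub (sub (sub C x7567) x7571) x7547) x7619) x7403) x6593) x8537) x9023) x3191) x14125)
  (add (add (sub (sub (add (add (sub (sub (sub (sub (sub C x7565) x7579) x7549) x7621) x7405) x6595) x8539) x9025) x3193) x1005) x14129)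
  (sub (sub (sub (add (add (sub (sub (add (add (sub (sub C x7575) x7565) x7535) x7607) x7625) x7409) x6599) x8543) x9029) x3197) x14131)
  (sub (sub (sub (add (add (sub (sub (add (add (sub (sub C x7571) x7581) x7539) x7611) x7629) x7413) x6603) x8547) x9033) x3201) x1015)
  (add (add (sub (sub (add (add (sub (sub (sub (sub (sub C x7581) x7567) x7597) x7633) x7417) x6607) x8551) x9037) x3205) x1017) x14141)
  (sub (sub (sub (add (add (sub (sub (sub (sub (sub C x7579) x7575) x7599) x7635) x7419) x6609) x8553) x9039) x3207) x1021)
  (sub (sub (sub (add (add (sub (sub (sub (add (add (add (add C x7591) x7595) x7599) x7611) x7551) x7695) x7425) x6615) x8559) x9045) x3213) x1027)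
  (add (add (sub (sub (add (add (sub (sub (sub (sub (add (add C x7587) x7595) x7597) x7555) x7699) x7429) x6619) x8563) x9049) x3217) x1029) x14153)
  (sub (sub (sub (add (add (sub (sub (sub (sub (add (add C x7587) x7591) x7607) x7559) x7703) x7433) x6623) x8567) x9053) x3221) x14155)
  (add (add (sub (sub (add (add (sub (sub (sub (sub (sub C x7599) x7591) x7579) x7705) x7435) x6625) x8569) x9055) x3223) x1035) x14159)
  (sub (sub (sub (add (add (sub (sub (sub (add (add (sub C x7597) x7587) x7611) x7581) x7707) x7437) x6627) x8571) x9057) x3225) x1039)
  (sub (sub (sub (add (add (sub (sub (add (add (sub (sub C x7611) x7595) x7535) x7571) x7715) x7445) x6635) x8579) x9065) x3233) x14167)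
  (sub (sub (sub (add (add (sub (sub (add (add (add (add (sub C x7607) x7587) x7599) x7539) x7575) x7719) x7449) x6639) x8583) x9069) x3237) x1051)
  (sub (sub (sub (add (add (add (add (sub (add (add (sub (sub C x7621) x7625) x7655) x7691) x7565) x7295) x7943) x6647) x8591) x9077) x3245) x14179)
  (add (add (sub (sub (add (add (add (add (sub (add (add (sub (sub C x7619) x7633) x7657) x7693) x7567) x7297) x7945) x6649) x8593) x9079) x3247) x1059) x14183)
  (sub (sub (sub (add (add (add (add (sub (sub (sub (sub C x7629) x7619) x7643) x7571) x7301) x7949) x6653) x8597) x9083) x3251) x14185)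
  (sub (sub (sub (add (add (add (add (sub (sub (sub (sub C x7625) x7635) x7647) x7575) x7305) x7953) x6657) x8601) x9087) x3255) x1069)
  (add (add (sub (sub (add (add (add (add (sub (sub (sub (sub C x7635) x7621) x7669) x7579) x7309) x7957) x6661) x8605) x9091) x3259) x1071) x14195)
  (sub (sub (sub (add (add (add (add (sub (sub (sub (sub C x7633) x7629) x7671) x7581) x7311) x7959) x6663) x8607) x9093) x3261) x1075)
  (sub (sub (sub (add (add (add (add (add (add (sub (add (add (sub C x7647) x7655) x7667) x7625) x7535) x7751) x7319) x7967) x6671) x8615) x9101) x3269) x14203)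
  (sub (sub (sub (add (add (add (add (add (add (sub (sub (sub C x7643) x7659) x7629) x7539) x7755) x7323) x7971) x6675) x8619) x9105) x3273) x1087)
  (sub (sub (sub (add (add (add (add (add (add (add (add (add (add (sub C x7657) x7643) x7667) x7619) x7691) x7547) x7763) x7331) x7979) x6683) x8627) x9113) x3281) x14215)
  (add (add (sub (sub (add (add (add (add (add (add (add (add (sub (sub C x7655) x7663) x7621) x7693) x7549) x7765) x7333) x7981) x6685) x8629) x9115) x3283) x1095) x14219)
  (sub (sub (sub (add (add (add (add (add (add (sub (sub (add (add C x7663) x7667) x7647) x7677) x7551) x7767) x7335) x7983) x6687) x8631) x9117) x3285) x1099)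
  (add (add (sub (sub (add (add (add (add (add (add (sub (sub (add (add C x7659) x7667) x7657) x7681) x7555) x7771) x7339) x7987) x6691) x8635) x9121) x3289) x1101) x14225)
  (sub (sub (sub (add (add (add (add (add (add (sub (add (add (add (add C x7659) x7663) x7643) x7655) x7685) x7559) x7775) x7343) x7991) x6695) x8639) x9125) x3293) x14227)
  (add (add (sub (sub (add (add (add (add (sub (sub (add (add (sub C x7671) x7681) x7693) x7633) x7723) x7345) x7993) x6697) x8641) x9127) x3295) x1107) x14231)
  (sub (sub (sub (add (add (add (add (sub (sub (sub (sub C x7669) x7677) x7635) x7725) x7347) x7995) x6699) x8643) x9129) x3297) x1111)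
  (sub (sub (sub (add (add (add (add (sub (sub (sub (add (add C x7681) x7685) x7671) x7659) x7731) x7353) x8001) x6705) x8649) x9135) x3303) x1117)
  (add (add (sub (sub (add (add (add (add (sub (sub (add (add (add (add C x7677) x7685) x7669) x7693) x7663) x7735) x7357) x8005) x6709) x8653) x9139) x3307) x1119) x14243)
  (sub (sub (sub (add (add (add (add (sub (sub (sub (add (add C x7677) x7681) x7691) x7667) x7739) x7361) x8009) x6713) x8657) x9143) x3311) x14245)
  (sub (sub (sub (add (add (add (add (sub (add (add (sub (sub C x7693) x7685) x7619) x7655) x7745) x7367) x8015) x6719) x8663) x9149) x3317) x14251)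
  (add (add (sub (sub (add (add (add (add (sub (add (add (add (add (sub C x7691) x7669) x7681) x7621) x7657) x7747) x7369) x8017) x6721) x8665) x9151) x3319) x1131) x14255)
  (sub (sub (sub (add (add (sub (sub (add (add (add (add (add (add C x7699) x7703) x7707) x7719) x7731) x7767) x7587) x7857) x6723) x8667) x9153) x3321) x1135)
  (add (add (sub (sub (add (add (sub (sub (add (add (sub (add (add C x7695) x7703) x7705) x7735) x7771) x7591) x7861) x6727) x8671) x9157) x3325) x1137) x14261)
  (sub (sub (sub (add (add (sub (sub (add (add (sub (add (add C x7695) x7699) x7715) x7739) x7775) x7595) x7865) x6731) x8675) x9161) x3329) x14263)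
  (add (add (sub (sub (add (add (sub (sub (sub (sub (sub C x7707) x7699) x7723) x7597) x7867) x6733) x8677) x9163) x3331) x1143) x14267)
  (sub (sub (sub (add (add (sub (sub (sub (add (add (sub C x7705) x7695) x7719) x7725) x7599) x7869) x6735) x8679) x9165) x3333) x1147)
  (sub (sub (sub (add (add (sub (sub (sub (sub (sub C x7719) x7703) x7751) x7607) x7877) x6743) x8687) x9173) x3341) x14275)
  (sub (sub (sub (add (add (sub (sub (sub (add (add (sub C x7715) x7695) x7707) x7755) x7611) x7881) x6747) x8691) x9177) x3345) x1159)
  (add (add (sub (sub (add (add (sub (sub (sub (add (add (sub C x7725) x7735) x7747) x7705) x7669) x7885) x6751) x8695) x9181) x3349) x1161) x14285)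
  (sub (sub (sub (add (add (sub (sub (sub (sub (sub C x7723) x7731) x7707) x7671) x7887) x6753) x8697) x9183) x3351) x1165)
  (sub (sub (sub (add (add (sub (sub (add (add (sub (add (add C x7735) x7739) x7725) x7695) x7767) x7677) x7893) x6759) x8703) x9189) x3357) x1171)
  (add (add (sub (sub (add (add (sub (sub (add (add (add (add (add (add C x7731) x7739) x7723) x7747) x7699) x7771) x7681) x7897) x6763) x8707) x9193) x3361) x1173) x14297)
  (sub (sub (sub (add (add (sub (sub (add (add (sub (add (add C x7731) x7735) x7745) x7703) x7775) x7685) x7901) x6767) x8711) x9197) x3365) x14299)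
  (sub (sub (sub (add (add (sub (sub (sub (sub (sub C x7747) x7739) x7763) x7691) x7907) x6773) x8717) x9203) x3371) x14305)
  (add (add (sub (sub (add (add (sub (sub (sub (add (add (sub C x7745) x7723) x7735) x7765) x7693) x7909) x6775) x8719) x9205) x3373) x1185) x14309)
  (sub (sub (sub (add (add (sub (add (add (sub (add (add (sub C x7755) x7763) x7775) x7715) x7535) x7643) x7913) x6779) x8723) x9209) x3377) x14311)
  (sub (sub (sub (add (add (sub (add (add (sub (sub (sub C x7751) x7767) x7719) x7539) x7647) x7917) x6783) x8727) x9213) x3381) x1195)
  (sub (sub (sub (add (add (sub (add (add (sub (add (add (sub C x7765) x7751) x7775) x7745) x7547) x7655) x7925) x6791) x8735) x9221) x3389) x14323)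
  (add (add (sub (sub (add (add (sub (add (add (sub (sub (sub C x7763) x7771) x7747) x7549) x7657) x7927) x6793) x8737) x9223) x3391) x1203) x14327)
  (sub (sub (sub (add (add (sub (add (add (add (add (sub (add (add C x7771) x7775) x7755) x7695) x7731) x7551) x7659) x7929) x6795) x8739) x9225) x3393) x1207)
  (add (add (sub (sub (add (add (sub (add (add (add (add (sub (add (add C x7767) x7775) x7765) x7699) x7735) x7555) x7663) x7933) x6799) x8743) x9229) x3397) x1209) x14333)
  (sub (sub (sub (add (add (sub (add (add (add (add (add (add (add (add C x7767) x7771) x7751) x7763) x7703) x7739) x7559) x7667) x7937) x6803) x8747) x9233) x3401) x14335)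
  (add (add (sub (sub (sub (sub (add (add (add (add (add (add (sub C x7779) x7789) x7801) x7813) x7849) x7885) x7993) x7453) x8263) x9235) x3403) x1215) x14339)
  (sub (sub (sub (sub (sub (add (add (add (add (sub (sub C x7777) x7785) x7815) x7851) x7887) x7995) x7455) x8265) x9237) x3405) x1219)
  (sub (sub (sub (sub (sub (add (add (sub (sub (add (add C x7789) x7793) x7779) x7803) x7893) x8001) x7461) x8271) x9243) x3411) x1225)
  (add (add (sub (sub (sub (sub (add (add (sub (add (add (add (add C x7785) x7793) x7777) x7801) x7807) x7897) x8005) x7465) x8275) x9247) x3415) x1227) x14351)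
  (sub (sub (sub (sub (sub (add (add (sub (sub (add (add C x7785) x7789) x7799) x7811) x7901) x8009) x7469) x8279) x9251) x3419) x14353)
  (sub (sub (sub (sub (sub (add (add (sub (sub (sub C x7801) x7793) x7835) x7907) x8015) x7475) x8285) x9257) x3425) x14359)
  (add (add (sub (sub (sub (sub (add (add (sub (add (add (sub C x7799) x7777) x7789) x7837) x7909) x8017) x7477) x8287) x9259) x3427) x1239) x14363)
  (sub (sub (sub (sub (sub (sub (sub (add (add (add (add C x7807) x7811) x7815) x7827) x7785) x7857) x7479) x8289) x9261) x3429) x1243)
  (add (add (sub (sub (sub (sub (sub (sub (sub (add (add C x7803) x7811) x7813) x7789) x7861) x7483) x8293) x9265) x3433) x1245) x14369)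
  (sub (sub (sub (sub (sub (sub (sub (sub (add (add C x7803) x7807) x7823) x7793) x7865) x7487) x8297) x9269) x3437) x14371)
  (add (add (sub (sub (sub (sub (sub (add (add (sub (sub C x7815) x7807) x7777) x7849) x7867) x7489) x8299) x9271) x3439) x1251) x14375)
  (sub (sub (sub (sub (sub (sub (add (add (add (add (sub C x7813) x7803) x7827) x7779) x7851) x7869) x7491) x8301) x9273) x3441) x1255)
  (sub (sub (sub (sub (sub (sub (sub (sub (sub C x7827) x7811) x7841) x7877) x7499) x8309) x9281) x3449) x14383)
  (sub (sub (sub (sub (sub (sub (sub (add (add (sub C x7823) x7803) x7815) x7845) x7881) x7503) x8313) x9285) x3453) x1267)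
  (sub (sub (sub (sub (sub (sub (sub (sub (sub C x7837) x7841) x7799) x7943) x7511) x8321) x9293) x3461) x14395)
  (add (add (sub (sub (sub (sub (sub (sub (sub (sub C x7835) x7849) x7801) x7945) x7513) x8323) x9295) x3463) x1275) x14399)
  (sub (sub (sub (sub (sub (sub (sub (sub (sub C x7845) x7835) x7823) x7949) x7517) x8327) x9299) x3467) x14401)
  (sub (sub (sub (sub (sub (sub (sub (sub (sub C x7841) x7851) x7827) x7953) x7521) x8331) x9303) x3471) x1285)
  (add (add (sub (sub (sub (sub (sub (add (add (sub (sub C x7851) x7837) x7777) x7813) x7957) x7525) x8335) x9307) x3475) x1287) x14411)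
  (sub (sub (sub (sub (sub (sub (add (add (sub (sub C x7849) x7845) x7779) x7815) x7959) x7527) x8337) x9309) x3477) x1291)
  (sub (sub (sub (sub (sub (sub (add (add (add (add (add (add C x7861) x7865) x7869) x7881) x7893) x7929) x7803) x7695) x8343) x9315) x3483) x1297)
  (add (add (sub (sub (sub (sub (sub (add (add (sub (add (add C x7857) x7865) x7867) x7897) x7933) x7807) x7699) x8347) x9319) x3487) x1299) x14423)
  (sub (sub (sub (sub (sub (sub (add (add (sub (add (add C x7857) x7861) x7877) x7901) x7937) x7811) x7703) x8351) x9323) x3491) x14425)
  (add (add (sub (sub (sub (sub (sub (sub (sub (sub C x7869) x7861) x7885) x7813) x7705) x8353) x9325) x3493) x1305) x14429)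
  (sub (sub (sub (sub (sub (sub (sub (add (add (sub C x7867) x7857) x7881) x7887) x7815) x7707) x8355) x9327) x3495) x1309)
  (sub (sub (sub (sub (sub (sub (sub (sub (sub C x7881) x7865) x7913) x7823) x7715) x8363) x9335) x3503) x14437)
  (sub (sub (sub (sub (sub (sub (sub (add (add (sub C x7877) x7857) x7869) x7917) x7827) x7719) x8367) x9339) x3507) x1321)
  (add (add (sub (sub (sub (sub (add (add (sub (add (add (sub C x7887) x7897) x7909) x7867) x7777) x7993) x7723) x8371) x9343) x3511) x1323) x14447)
  (sub (sub (sub (sub (sub (add (add (sub (sub (sub C x7885) x7893) x7869) x7779) x7995) x7725) x8373) x9345) x3513) x1327)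
  (sub (sub (sub (sub (sub (add (add (add (add (sub (add (add C x7897) x7901) x7887) x7857) x7929) x7785) x8001) x7731) x8379) x9351) x3519) x1333)
  (add (add (sub (sub (sub (sub (add (add (add (add (add (add (add (add C x7893) x7901) x7885) x7909) x7861) x7933) x7789) x8005) x7735) x8383) x9355) x3523) x1335) x14459)
  (sub (sub (sub (sub (sub (add (add (add (add (sub (add (add C x7893) x7897) x7907) x7865) x7937) x7793) x8009) x7739) x8387) x9359) x3527) x14461)
  (sub (sub (sub (sub (sub (add (add (sub (sub (sub C x7909) x7901) x7925) x7799) x8015) x7745) x8393) x9365) x3533) x14467)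
  (add (add (sub (sub (sub (sub (add (add (sub (add (add (sub C x7907) x7885) x7897) x7927) x7801) x8017) x7747) x8395) x9367) x3535) x1347) x14471)
  (sub (sub (sub (sub (sub (sub (sub (add (add (sub C x7917) x7925) x7937) x7877) x7967) x7751) x8399) x9371) x3539) x14473)
  (sub (sub (sub (sub (sub (sub (sub (sub (sub C x7913) x7929) x7881) x7971) x7755) x8403) x9375) x3543) x1357)
  (sub (sub (sub (sub (sub (sub (sub (add (add (sub C x7927) x7913) x7937) x7907) x7979) x7763) x8411) x9383) x3551) x14485)
  (add (add (sub (sub (sub (sub (sub (sub (sub (sub C x7925) x7933) x7909) x7981) x7765) x8413) x9385) x3553) x1365) x14489)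
  (sub (sub (sub (sub (sub (sub (add (add (sub (add (add C x7933) x7937) x7917) x7857) x7893) x7983) x7767) x8415) x9387) x3555) x1369)
  (add (add (sub (sub (sub (sub (sub (add (add (sub (add (add C x7929) x7937) x7927) x7861) x7897) x7987) x7771) x8419) x9391) x3559) x1371) x14495)
  (sub (sub (sub (sub (sub (sub (add (add (add (add (add (add C x7929) x7933) x7913) x7925) x7865) x7901) x7991) x7775) x8423) x9395) x3563) x14497)
  (sub (sub (sub (sub (add (add (sub (add (add (sub (sub C x7945) x7949) x7979) x8015) x7835) x7295) x7619) x8429) x9401) x3569) x14503)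
  (add (add (sub (sub (sub (add (add (sub (add (add (sub (sub C x7943) x7957) x7981) x8017) x7837) x7297) x7621) x8431) x9403) x3571) x1383) x14507)
  (sub (sub (sub (sub (add (add (sub (sub (sub (sub C x7953) x7943) x7967) x7841) x7301) x7625) x8435) x9407) x3575) x14509)
  (sub (sub (sub (sub (add (add (sub (sub (sub (sub C x7949) x7959) x7971) x7845) x7305) x7629) x8439) x9411) x3579) x1393)
  (add (add (sub (sub (sub (add (add (sub (sub (sub (sub C x7959) x7945) x7993) x7849) x7309) x7633) x8443) x9415) x3583) x1395) x14519)
  (sub (sub (sub (sub (add (add (sub (sub (sub (sub C x7957) x7953) x7995) x7851) x7311) x7635) x8445) x9417) x3585) x1399)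
  (sub (sub (sub (sub (add (add (sub (sub (add (add (sub C x7971) x7979) x7991) x7949) x7913) x7319) x7643) x8453) x9425) x3593) x14527)
  (sub (sub (sub (sub (add (add (sub (sub (sub (sub C x7967) x7983) x7953) x7917) x7323) x7647) x8457) x9429) x3597) x1411)
  (sub (sub (sub (sub (add (add (sub (add (add (add (add (sub C x7981) x7967) x7991) x7943) x8015) x7925) x7331) x7655) x8465) x9437) x3605) x14539)
  (add (add (sub (sub (sub (add (add (sub (add (add (sub (sub C x7979) x7987) x7945) x8017) x7927) x7333) x7657) x8467) x9439) x3607) x1419) x14543)
  (sub (sub (sub (sub (add (add (sub (sub (sub (add (add C x7987) x7991) x7971) x8001) x7929) x7335) x7659) x8469) x9441) x3609) x1423)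
  (add (add (sub (sub (sub (add (add (sub (sub (sub (add (add C x7983) x7991) x7981) x8005) x7933) x7339) x7663) x8473) x9445) x3613) x1425) x14549)
  (sub (sub (sub (sub (add (add (sub (sub (add (add (add (add C x7983) x7987) x7967) x7979) x8009) x7937) x7343) x7667) x8477) x9449) x3617) x14551)
  (add (add (sub (sub (sub (add (add (add (add (sub (add (add (sub C x7995) x8005) x8017) x7957) x7777) x7885) x7345) x7669) x8479) x9451) x3619) x1431) x14555)
  (sub (sub (sub (sub (add (add (add (add (sub (sub (sub C x7993) x8001) x7959) x7779) x7887) x7347) x7671) x8481) x9453) x3621) x1435)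
  (sub (sub (sub (sub (add (add (add (add (sub (sub (add (add C x8005) x8009) x7995) x7983) x7785) x7893) x7353) x7677) x8487) x9459) x3627) x1441)
  (add (add (sub (sub (sub (add (add (add (add (sub (add (add (add (add C x8001) x8009) x7993) x8017) x7987) x7789) x7897) x7357) x7681) x8491) x9463) x3631) x1443) x14567)
  (sub (sub (sub (sub (add (add (add (add (sub (sub (add (add C x8001) x8005) x8015) x7991) x7793) x7901) x7361) x7685) x8495) x9467) x3635) x14569)
  (sub (sub (sub (sub (add (add (add (add (add (add (sub (sub C x8017) x8009) x7943) x7979) x7799) x7907) x7367) x7691) x8501) x9473) x3641) x14575)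
  (add (add (sub (sub (sub (add (add (add (add (add (add (add (add (sub C x8015) x7993) x8005) x7945) x7981) x7801) x7909) x7369) x7693) x8503) x9475) x3643) x1455) x14579)
  (sub (sub (sub (sub (add (add (add (add (add (add (add (add (add (add C x8023) x8027) x8031) x8043) x8055) x8091) x8127) x8235) x8343) x8667) x7047) x10935) x3645) x1459)
  (add (add (sub (sub (sub (add (add (add (add (add (add (sub (add (add C x8019) x8027) x8029) x8059) x8095) x8131) x8239) x8347) x8671) x7051) x10939) x3649) x1461) x14585)
  (sub (sub (sub (sub (add (add (add (add (add (add (sub (add (add C x8019) x8023) x8039) x8063) x8099) x8135) x8243) x8351) x8675) x7055) x10943) x3653) x14587)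
  (add (add (sub (sub (sub (add (add (add (add (sub (sub (sub C x8031) x8023) x8047) x8137) x8245) x8353) x8677) x7057) x10945) x3655) x1467) x14591)
  (sub (sub (sub (sub (add (add (add (add (sub (add (add (sub C x8029) x8019) x8043) x8049) x8139) x8247) x8355) x8679) x7059) x10947) x3657) x1471)
  (sub (sub (sub (sub (add (add (add (add (sub (sub (sub C x8043) x8027) x8075) x8147) x8255) x8363) x8687) x7067) x10955) x3665) x14599)
  (sub (sub (sub (sub (add (add (add (add (sub (add (add (sub C x8039) x8019) x8031) x8079) x8151) x8259) x8367) x8691) x7071) x10959) x3669) x1483)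
  (add (add (sub (sub (sub (add (add (sub (sub (add (add (sub C x8049) x8059) x8071) x8029) x8101) x8371) x8695) x7075) x10963) x3673) x1485) x14609)
  (sub (sub (sub (sub (add (add (sub (sub (sub (sub C x8047) x8055) x8031) x8103) x8373) x8697) x7077) x10965) x3675) x1489)
  (sub (sub (sub (sub (add (add (sub (add (add (sub (add (add C x8059) x8063) x8049) x8019) x8091) x8109) x8379) x8703) x7083) x10971) x3681) x1495)
  (add (add (sub (sub (sub (add (add (sub (add (add (add (add (add (add C x8055) x8063) x8047) x8071) x8023) x8095) x8113) x8383) x8707) x7087) x10975) x3685) x1497) x14621)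
  (sub (sub (sub (sub (add (add (sub (add (add (sub (add (add C x8055) x8059) x8069) x8027) x8099) x8117) x8387) x8711) x7091) x10979) x3689) x14623)
  (sub (sub (sub (sub (add (add (sub (sub (sub (sub C x8071) x8063) x8087) x8123) x8393) x8717) x7097) x10985) x3695) x14629)
  (add (add (sub (sub (sub (add (add (sub (sub (add (add (sub C x8069) x8047) x8059) x8089) x8125) x8395) x8719) x7099) x10987) x3697) x1509) x14633)
  (sub (sub (sub (sub (add (add (sub (sub (add (add (sub C x8079) x8087) x8099) x8039) x8183) x8399) x8723) x7103) x10991) x3701) x14635)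
  (sub (sub (sub (sub (add (add (sub (sub (sub (sub C x8075) x8091) x8043) x8187) x8403) x8727) x7107) x10995) x3705) x1519)
  (sub (sub (sub (sub (add (add (sub (sub (add (add (sub C x8089) x8075) x8099) x8069) x8195) x8411) x8735) x7115) x11003) x3713) x14647)
  (add (add (sub (sub (sub (add (add (sub (sub (sub (sub C x8087) x8095) x8071) x8197) x8413) x8737) x7117) x11005) x3715) x1527) x14651)
  (sub (sub (sub (sub (add (add (sub (add (add (sub (add (add C x8095) x8099) x8079) x8019) x8055) x8199) x8415) x8739) x7119) x11007) x3717) x1531)
  (add (add (sub (sub (sub (add (add (sub (add (add (sub (add (add C x8091) x8099) x8089) x8023) x8059) x8203) x8419) x8743) x7123) x11011) x3721) x1533) x14657)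
  (sub (sub (sub (sub (add (add (sub (add (add (add (add (add (add C x8091) x8095) x8075) x8087) x8027) x8063) x8207) x8423) x8747) x7127) x11015) x3725) x14659)
  (add (add (sub (sub (sub (sub (sub (add (add (add (add (sub C x8103) x8113) x8125) x8137) x8173) x8047) x8263) x7129) x11017) x3727) x1539) x14663)
  (sub (sub (sub (sub (sub (sub (add (add (sub (sub C x8101) x8109) x8139) x8175) x8049) x8265) x7131) x11019) x3729) x1543)
  (sub (sub (sub (sub (sub (sub (sub (sub (add (add C x8113) x8117) x8103) x8127) x8055) x8271) x7137) x11025) x3735) x1549)
  (add (add (sub (sub (sub (sub (sub (sub (add (add (add (add C x8109) x8117) x8101) x8125) x8131) x8059) x8275) x7141) x11029) x3739) x1551) x14675)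
  (sub (sub (sub (sub (sub (sub (sub (sub (add (add C x8109) x8113) x8123) x8135) x8063) x8279) x7145) x11033) x3743) x14677)
  (sub (sub (sub (sub (sub (sub (sub (sub (sub C x8125) x8117) x8159) x8069) x8285) x7151) x11039) x3749) x14683)
  (add (add (sub (sub (sub (sub (sub (sub (add (add (sub C x8123) x8101) x8113) x8161) x8071) x8287) x7153) x11041) x3751) x1563) x14687)
  (sub (sub (sub (sub (sub (add (add (sub (add (add (add (add C x8131) x8135) x8139) x8151) x8109) x8019) x8235) x8289) x7155) x11043) x3753) x1567)
  (add (add (sub (sub (sub (sub (add (add (sub (sub (add (add C x8127) x8135) x8137) x8113) x8023) x8239) x8293) x7159) x11047) x3757) x1569) x14693)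
  (sub (sub (sub (sub (sub (add (add (sub (sub (add (add C x8127) x8131) x8147) x8117) x8027) x8243) x8297) x7163) x11051) x3761) x14695)
  (add (add (sub (sub (sub (sub (add (add (add (add (sub (sub C x8139) x8131) x8101) x8173) x8029) x8245) x8299) x7165) x11053) x3763) x1575) x14699)
  (sub (sub (sub (sub (sub (add (add (add (add (add (add (sub C x8137) x8127) x8151) x8103) x8175) x8031) x8247) x8301) x7167) x11055) x3765) x1579)
  (sub (sub (sub (sub (sub (add (add (sub (sub (sub C x8151) x8135) x8165) x8039) x8255) x8309) x7175) x11063) x3773) x14707)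
  (sub (sub (sub (sub (sub (add (add (sub (add (add (sub C x8147) x8127) x8139) x8169) x8043) x8259) x8313) x7179) x11067) x3777) x1591)
  (sub (sub (sub (sub (sub (sub (sub (sub (sub C x8161) x8165) x8123) x8213) x8321) x7187) x11075) x3785) x14719)
  (add (add (sub (sub (sub (sub (sub (sub (sub (sub C x8159) x8173) x8125) x8215) x8323) x7189) x11077) x3787) x1599) x14723)
  (sub (sub (sub (sub (sub (sub (sub (sub (sub C x8169) x8159) x8147) x8219) x8327) x7193) x11081) x3791) x14725)
  (sub (sub (sub (sub (sub (sub (sub (sub (sub C x8165) x8175) x8151) x8223) x8331) x7197) x11085) x3795) x1609)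
  (add (add (sub (sub (sub (sub (sub (add (add (sub (sub C x8175) x8161) x8101) x8137) x8227) x8335) x7201) x11089) x3799) x1611) x14735)
  (sub (sub (sub (sub (sub (sub (add (add (sub (sub C x8173) x8169) x8103) x8139) x8229) x8337) x7203) x11091) x3801) x1615)
  (sub (sub (sub (sub (sub (sub (add (add (add (add (sub C x8187) x8195) x8207) x8219) x8255) x8075) x8507) x7211) x11099) x3809) x14743)
  (sub (sub (sub (sub (sub (sub (add (add (sub (sub C x8183) x8199) x8223) x8259) x8079) x8511) x7215) x11103) x3813) x1627)
  (sub (sub (sub (sub (sub (sub (sub (add (add (sub C x8197) x8183) x8207) x8213) x8087) x8519) x7223) x11111) x3821) x14755)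
  (add (add (sub (sub (sub (sub (sub (sub (sub (sub C x8195) x8203) x8215) x8089) x8521) x7225) x11113) x3823) x1635) x14759)
  (sub (sub (sub (sub (sub (sub (sub (sub (add (add C x8203) x8207) x8187) x8235) x8091) x8523) x7227) x11115) x3825) x1639)
  (add (add (sub (sub (sub (sub (sub (sub (sub (add (add C x8199) x8207) x8197) x8239) x8095) x8527) x7231) x11119) x3829) x1641) x14765)
  (sub (sub (sub (sub (sub (sub (sub (add (add (add (add C x8199) x8203) x8183) x8195) x8243) x8099) x8531) x7235) x11123) x3833) x14767)
  (sub (sub (sub (sub (sub (sub (sub (sub (sub C x8215) x8219) x8195) x8159) x8537) x7241) x11129) x3839) x14773)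
  (add (add (sub (sub (sub (sub (sub (sub (sub (sub C x8213) x8227) x8197) x8161) x8539) x7243) x11131) x3841) x1653) x14777)
  (sub (sub (sub (sub (sub (sub (add (add (sub (sub C x8223) x8213) x8183) x8255) x8165) x8543) x7247) x11135) x3845) x14779)
  (sub (sub (sub (sub (sub (sub (add (add (sub (sub C x8219) x8229) x8187) x8259) x8169) x8547) x7251) x11139) x3849) x1663)
  (add (add (sub (sub (sub (sub (sub (sub (sub (sub C x8229) x8215) x8245) x8173) x8551) x7255) x11143) x3853) x1665) x14789)
  (sub (sub (sub (sub (sub (sub (sub (sub (sub C x8227) x8223) x8247) x8175) x8553) x7257) x11145) x3855) x1669)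
  (sub (sub (sub (sub (sub (add (add (sub (add (add (add (add C x8239) x8243) x8247) x8259) x8199) x8019) x8127) x8559) x7263) x11151) x3861) x1675)
  (add (add (sub (sub (sub (sub (add (add (sub (sub (add (add C x8235) x8243) x8245) x8203) x8023) x8131) x8563) x7267) x11155) x3865) x1677) x14801)
  (sub (sub (sub (sub (sub (add (add (sub (sub (add (add C x8235) x8239) x8255) x8207) x8027) x8135) x8567) x7271) x11159) x3869) x14803)
  (add (add (sub (sub (sub (sub (add (add (sub (sub (sub C x8247) x8239) x8227) x8029) x8137) x8569) x7273) x11161) x3871) x1683) x14807)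
  (sub (sub (sub (sub (sub (add (add (sub (add (add (sub C x8245) x8235) x8259) x8229) x8031) x8139) x8571) x7275) x11163) x3873) x1687)
  (sub (sub (sub (sub (sub (add (add (add (add (sub (sub C x8259) x8243) x8183) x8219) x8039) x8147) x8579) x7283) x11171) x3881) x14815)
  (sub (sub (sub (sub (sub (add (add (add (add (add (add (sub C x8255) x8235) x8247) x8187) x8223) x8043) x8151) x8583) x7287) x11175) x3885) x1699)
  (add (add (sub (sub (sub (sub (add (add (add (add (add (add (sub C x8265) x8275) x8287) x8299) x8335) x8371) x8479) x8101) x7777) x11179) x3889) x1701) x14825)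
  (sub (sub (sub (sub (sub (add (add (add (add (sub (sub C x8263) x8271) x8301) x8337) x8373) x8481) x8103) x7779) x11181) x3891) x1705)
  (sub (sub (sub (sub (sub (add (add (sub (sub (add (add C x8275) x8279) x8265) x8289) x8379) x8487) x8109) x7785) x11187) x3897) x1711)
  (add (add (sub (sub (sub (sub (add (add (sub (add (add (add (add C x8271) x8279) x8263) x8287) x8293) x8383) x8491) x8113) x7789) x11191) x3901) x1713) x14837)
  (sub (sub (sub (sub (sub (add (add (sub (sub (add (add C x8271) x8275) x8285) x8297) x8387) x8495) x8117) x7793) x11195) x3905) x14839)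
  (sub (sub (sub (sub (sub (add (add (sub (sub (sub C x8287) x8279) x8321) x8393) x8501) x8123) x7799) x11201) x3911) x14845)
  (add (add (sub (sub (sub (sub (add (add (sub (add (add (sub C x8285) x8263) x8275) x8323) x8395) x8503) x8125) x7801) x11203) x3913) x1725) x14849)
  (sub (sub (sub (sub (sub (sub (sub (add (add (add (add C x8293) x8297) x8301) x8313) x8271) x8343) x8127) x7803) x11205) x3915) x1729)
  (add (add (sub (sub (sub (sub (sub (sub (sub (add (add C x8289) x8297) x8299) x8275) x8347) x8131) x7807) x11209) x3919) x1731) x14855)
  (sub (sub (sub (sub (sub (sub (sub (sub (add (add C x8289) x8293) x8309) x8279) x8351) x8135) x7811) x11213) x3923) x14857)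
  (add (add (sub (sub (sub (sub (sub (add (add (sub (sub C x8301) x8293) x8263) x8335) x8353) x8137) x7813) x11215) x3925) x1737) x14861)
  (sub (sub (sub (sub (sub (sub (add (add (add (add (sub C x8299) x8289) x8313) x8265) x8337) x8355) x8139) x7815) x11217) x3927) x1741)
  (sub (sub (sub (sub (sub (sub (sub (sub (sub C x8313) x8297) x8327) x8363) x8147) x7823) x11225) x3935) x14869)
  (sub (sub (sub (sub (sub (sub (sub (add (add (sub C x8309) x8289) x8301) x8331) x8367) x8151) x7827) x11229) x3939) x1753)
  (sub (sub (sub (sub (sub (sub (sub (sub (sub C x8323) x8327) x8285) x8429) x8159) x7835) x11237) x3947) x14881)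
  (add (add (sub (sub (sub (sub (sub (sub (sub (sub C x8321) x8335) x8287) x8431) x8161) x7837) x11239) x3949) x1761) x14885)
  (sub (sub (sub (sub (sub (sub (sub (sub (sub C x8331) x8321) x8309) x8435) x8165) x7841) x11243) x3953) x14887)
  (sub (sub (sub (sub (sub (sub (sub (sub (sub C x8327) x8337) x8313) x8439) x8169) x7845) x11247) x3957) x1771)
  (add (add (sub (sub (sub (sub (sub (add (add (sub (sub C x8337) x8323) x8263) x8299) x8443) x8173) x7849) x11251) x3961) x1773) x14897)
  (sub (sub (sub (sub (sub (sub (add (add (sub (sub C x8335) x8331) x8265) x8301) x8445) x8175) x7851) x11253) x3963) x1777)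
  (sub (sub (sub (sub (add (add (sub (add (add (add (add (add (add C x8347) x8351) x8355) x8367) x8379) x8415) x8289) x8019) x8667) x7857) x11259) x3969) x1783)
  (add (add (sub (sub (sub (add (add (sub (add (add (sub (add (add C x8343) x8351) x8353) x8383) x8419) x8293) x8023) x8671) x7861) x11263) x3973) x1785) x14909)
  (sub (sub (sub (sub (add (add (sub (add (add (sub (add (add C x8343) x8347) x8363) x8387) x8423) x8297) x8027) x8675) x7865) x11267) x3977) x14911)
  (add (add (sub (sub (sub (add (add (sub (sub (sub (sub C x8355) x8347) x8371) x8299) x8029) x8677) x7867) x11269) x3979) x1791) x14915)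
  (sub (sub (sub (sub (add (add (sub (sub (add (add (sub C x8353) x8343) x8367) x8373) x8301) x8031) x8679) x7869) x11271) x3981) x1795)
  (sub (sub (sub (sub (add (add (sub (sub (sub (sub C x8367) x8351) x8399) x8309) x8039) x8687) x7877) x11279) x3989) x14923)
  (sub (sub (sub (sub (add (add (sub (sub (add (add (sub C x8363) x8343) x8355) x8403) x8313) x8043) x8691) x7881) x11283) x3993) x1807)
  (add (add (sub (sub (sub (add (add (add (add (sub (add (add (sub C x8373) x8383) x8395) x8353) x8263) x8479) x8047) x8695) x7885) x11287) x3997) x1809) x14933)
  (sub (sub (sub (sub (add (add (add (add (sub (sub (sub C x8371) x8379) x8355) x8265) x8481) x8049) x8697) x7887) x11289) x3999) x1813)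
  (sub (sub (sub (sub (add (add (add (add (add (add (sub (add (add C x8383) x8387) x8373) x8343) x8415) x8271) x8487) x8055) x8703) x7893) x11295) x4005) x1819)
  (add (add (sub (sub (sub (add (add (add (add (add (add (add (add (add (add C x8379) x8387) x8371) x8395) x8347) x8419) x8275) x8491) x8059) x8707) x7897) x11299) x4009) x1821) x14945)
  (sub (sub (sub (sub (add (add (add (add (add (add (sub (add (add C x8379) x8383) x8393) x8351) x8423) x8279) x8495) x8063) x8711) x7901) x11303) x4013) x14947)
  (sub (sub (sub (sub (add (add (add (add (sub (sub (sub C x8395) x8387) x8411) x8285) x8501) x8069) x8717) x7907) x11309) x4019) x14953)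
  (add (add (sub (sub (sub (add (add (add (add (sub (add (add (sub C x8393) x8371) x8383) x8413) x8287) x8503) x8071) x8719) x7909) x11311) x4021) x1833) x14957)
  (sub (sub (sub (sub (add (add (sub (sub (add (add (sub C x8403) x8411) x8423) x8363) x8453) x8075) x8723) x7913) x11315) x4025) x14959)
  (sub (sub (sub (sub (add (add (sub (sub (sub (sub C x8399) x8415) x8367) x8457) x8079) x8727) x7917) x11319) x4029) x1843)
  (sub (sub (sub (sub (add (add (sub (sub (add (add (sub C x8413) x8399) x8423) x8393) x8465) x8087) x8735) x7925) x11327) x4037) x14971)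
  (add (add (sub (sub (sub (add (add (sub (sub (sub (sub C x8411) x8419) x8395) x8467) x8089) x8737) x7927) x11329) x4039) x1851) x14975)
  (sub (sub (sub (sub (add (add (sub (add (add (sub (add (add C x8419) x8423) x8403) x8343) x8379) x8469) x8091) x8739) x7929) x11331) x4041) x1855)
  (add (add (sub (sub (sub (add (add (sub (add (add (sub (add (add C x8415) x8423) x8413) x8347) x8383) x8473) x8095) x8743) x7933) x11335) x4045) x1857) x14981)
  (sub (sub (sub (sub (add (add (sub (add (add (add (add (add (add C x8415) x8419) x8399) x8411) x8351) x8387) x8477) x8099) x8747) x7937) x11339) x4049) x14983)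
  (sub (sub (sub (sub (sub (sub (add (add (sub (sub C x8431) x8435) x8465) x8501) x8321) x8591) x7943) x11345) x4055) x14989)
  (add (add (sub (sub (sub (sub (sub (add (add (sub (sub C x8429) x8443) x8467) x8503) x8323) x8593) x7945) x11347) x4057) x1869) x14993)
  (sub (sub (sub (sub (sub (sub (sub (sub (sub C x8439) x8429) x8453) x8327) x8597) x7949) x11351) x4061) x14995)
  (sub (sub (sub (sub (sub (sub (sub (sub (sub C x8435) x8445) x8457) x8331) x8601) x7953) x11355) x4065) x1879)
  (add (add (sub (sub (sub (sub (sub (sub (sub (sub C x8445) x8431) x8479) x8335) x8605) x7957) x11359) x4069) x1881) x15005)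
  (sub (sub (sub (sub (sub (sub (sub (sub (sub C x8443) x8439) x8481) x8337) x8607) x7959) x11361) x4071) x1885)
  (sub (sub (sub (sub (sub (sub (sub (add (add (sub C x8457) x8465) x8477) x8435) x8399) x8615) x7967) x11369) x4079) x15013)
  (sub (sub (sub (sub (sub (sub (sub (sub (sub C x8453) x8469) x8439) x8403) x8619) x7971) x11373) x4083) x1897)
  (sub (sub (sub (sub (sub (sub (add (add (add (add (sub C x8467) x8453) x8477) x8429) x8501) x8411) x8627) x7979) x11381) x4091) x15025)
  (add (add (sub (sub (sub (sub (sub (add (add (sub (sub C x8465) x8473) x8431) x8503) x8413) x8629) x7981) x11383) x4093) x1905) x15029)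
  (sub (sub (sub (sub (sub (sub (sub (sub (add (add C x8473) x8477) x8457) x8487) x8415) x8631) x7983) x11385) x4095) x1909)
  (add (add (sub (sub (sub (sub (sub (sub (sub (add (add C x8469) x8477) x8467) x8491) x8419) x8635) x7987) x11389) x4099) x1911) x15035)
  (sub (sub (sub (sub (sub (sub (sub (add (add (add (add C x8469) x8473) x8453) x8465) x8495) x8423) x8639) x7991) x11393) x4103) x15037)
  (add (add (sub (sub (sub (sub (add (add (sub (add (add (sub C x8481) x8491) x8503) x8443) x8263) x8371) x8641) x7993) x11395) x4105) x1917) x15041)
  (sub (sub (sub (sub (sub (add (add (sub (sub (sub C x8479) x8487) x8445) x8265) x8373) x8643) x7995) x11397) x4107) x1921)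
  (sub (sub (sub (sub (sub (add (add (sub (sub (add (add C x8491) x8495) x8481) x8469) x8271) x8379) x8649) x8001) x11403) x4113) x1927)
  (add (add (sub (sub (sub (sub (add (add (sub (add (add (add (add C x8487) x8495) x8479) x8503) x8473) x8275) x8383) x8653) x8005) x11407) x4117) x1929) x15053)
  (sub (sub (sub (sub (sub (add (add (sub (sub (add (add C x8487) x8491) x8501) x8477) x8279) x8387) x8657) x8009) x11411) x4121) x15055)
  (sub (sub (sub (sub (sub (add (add (add (add (sub (sub C x8503) x8495) x8429) x8465) x8285) x8393) x8663) x8015) x11417) x4127) x15061)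
  (add (add (sub (sub (sub (sub (add (add (add (add (add (add (sub C x8501) x8479) x8491) x8431) x8467) x8287) x8395) x8665) x8017) x11419) x4129) x1941) x15065)
  (sub (sub (sub (add (add (sub (add (add (add (add (add (add (sub C x8511) x8519) x8531) x8543) x8579) x8615) x8723) x8183) x6563) x7535) x11423) x4133) x15067)
  (sub (sub (sub (add (add (sub (add (add (add (add (sub (sub C x8507) x8523) x8547) x8583) x8619) x8727) x8187) x6567) x7539) x11427) x4137) x1951)
  (sub (sub (sub (add (add (sub (add (add (sub (add (add (sub C x8521) x8507) x8531) x8537) x8627) x8735) x8195) x6575) x7547) x11435) x4145) x15079)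
  (add (add (sub (sub (add (add (sub (add (add (sub (sub (sub C x8519) x8527) x8539) x8629) x8737) x8197) x6577) x7549) x11437) x4147) x1959) x15083)
  (sub (sub (sub (add (add (sub (add (add (sub (sub (add (add C x8527) x8531) x8511) x8559) x8631) x8739) x8199) x6579) x7551) x11439) x4149) x1963)
  (add (add (sub (sub (add (add (sub (add (add (sub (sub (add (add C x8523) x8531) x8521) x8563) x8635) x8743) x8203) x6583) x7555) x11443) x4153) x1965) x15089)
  (sub (sub (sub (add (add (sub (add (add (sub (add (add (add (add C x8523) x8527) x8507) x8519) x8567) x8639) x8747) x8207) x6587) x7559) x11447) x4157) x15091)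
  (sub (sub (sub (add (add (sub (sub (sub (sub (sub C x8539) x8543) x8519) x8591) x8213) x6593) x7565) x11453) x4163) x15097)
  (add (add (sub (sub (add (add (sub (sub (sub (sub (sub C x8537) x8551) x8521) x8593) x8215) x6595) x7567) x11455) x4165) x1977) x15101)
  (sub (sub (sub (add (add (sub (sub (add (add (sub (sub C x8547) x8537) x8507) x8579) x8597) x8219) x6599) x7571) x11459) x4169) x15103)
  (sub (sub (sub (add (add (sub (sub (add (add (sub (sub C x8543) x8553) x8511) x8583) x8601) x8223) x6603) x7575) x11463) x4173) x1987)
  (add (add (sub (sub (add (add (sub (sub (sub (sub (sub C x8553) x8539) x8569) x8605) x8227) x6607) x7579) x11467) x4177) x1989) x15113)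
  (sub (sub (sub (add (add (sub (sub (sub (sub (sub C x8551) x8547) x8571) x8607) x8229) x6609) x7581) x11469) x4179) x1993)
  (sub (sub (sub (add (add (sub (sub (sub (add (add (add (add C x8563) x8567) x8571) x8583) x8523) x8667) x8235) x6615) x7587) x11475) x4185) x1999)
  (add (add (sub (sub (add (add (sub (sub (sub (sub (add (add C x8559) x8567) x8569) x8527) x8671) x8239) x6619) x7591) x11479) x4189) x2001) x15125)
  (sub (sub (sub (add (add (sub (sub (sub (sub (add (add C x8559) x8563) x8579) x8531) x8675) x8243) x6623) x7595) x11483) x4193) x15127)
  (add (add (sub (sub (add (add (sub (sub (sub (sub (sub C x8571) x8563) x8551) x8677) x8245) x6625) x7597) x11485) x4195) x2007) x15131)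
  (sub (sub (sub (add (add (sub (sub (sub (add (add (sub C x8569) x8559) x8583) x8553) x8679) x8247) x6627) x7599) x11487) x4197) x2011)
  (sub (sub (sub (add (add (sub (sub (add (add (sub (sub C x8583) x8567) x8507) x8543) x8687) x8255) x6635) x7607) x11495) x4205) x15139)
  (sub (sub (sub (add (add (sub (sub (add (add (add (add (sub C x8579) x8559) x8571) x8511) x8547) x8691) x8259) x6639) x7611) x11499) x4209) x2023)
  (sub (sub (sub (add (add (sub (sub (add (add (sub (sub C x8593) x8597) x8627) x8663) x8537) x8429) x6647) x7619) x11507) x4217) x15151)
  (add (add (sub (sub (add (add (sub (sub (add (add (sub (sub C x8591) x8605) x8629) x8665) x8539) x8431) x6649) x7621) x11509) x4219) x2031) x15155)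
  (sub (sub (sub (add (add (sub (sub (sub (sub (sub C x8601) x8591) x8615) x8543) x8435) x6653) x7625) x11513) x4223) x15157)
  (sub (sub (sub (add (add (sub (sub (sub (sub (sub C x8597) x8607) x8619) x8547) x8439) x6657) x7629) x11517) x4227) x2041)
  (add (add (sub (sub (add (add (sub (sub (sub (sub (sub C x8607) x8593) x8641) x8551) x8443) x6661) x7633) x11521) x4231) x2043) x15167)
  (sub (sub (sub (add (add (sub (sub (sub (sub (sub C x8605) x8601) x8643) x8553) x8445) x6663) x7635) x11523) x4233) x2047)
  (sub (sub (sub (add (add (sub (add (add (sub (add (add (sub C x8619) x8627) x8639) x8597) x8507) x8723) x8453) x6671) x7643) x11531) x4241) x15175)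
  (sub (sub (sub (add (add (sub (add (add (sub (sub (sub C x8615) x8631) x8601) x8511) x8727) x8457) x6675) x7647) x11535) x4245) x2059)
  (sub (sub (sub (add (add (sub (add (add (add (add (add (add (sub C x8629) x8615) x8639) x8591) x8663) x8519) x8735) x8465) x6683) x7655) x11543) x4253) x15187)
  (add (add (sub (sub (add (add (sub (add (add (add (add (sub (sub C x8627) x8635) x8593) x8665) x8521) x8737) x8467) x6685) x7657) x11545) x4255) x2067) x15191)
  (sub (sub (sub (add (add (sub (add (add (sub (sub (add (add C x8635) x8639) x8619) x8649) x8523) x8739) x8469) x6687) x7659) x11547) x4257) x2071)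
  (add (add (sub (sub (add (add (sub (add (add (sub (sub (add (add C x8631) x8639) x8629) x8653) x8527) x8743) x8473) x6691) x7663) x11551) x4261) x2073) x15197)
  (sub (sub (sub (add (add (sub (add (add (sub (add (add (add (add C x8631) x8635) x8615) x8627) x8657) x8531) x8747) x8477) x6695) x7667) x11555) x4265) x15199)
  (add (add (sub (sub (add (add (sub (sub (sub (add (add (sub C x8643) x8653) x8665) x8605) x8695) x8479) x6697) x7669) x11557) x4267) x2079) x15203)
  (sub (sub (sub (add (add (sub (sub (sub (sub (sub C x8641) x8649) x8607) x8697) x8481) x6699) x7671) x11559) x4269) x2083)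
  (sub (sub (sub (add (add (sub (sub (sub (sub (add (add C x8653) x8657) x8643) x8631) x8703) x8487) x6705) x7677) x11565) x4275) x2089)
  (add (add (sub (sub (add (add (sub (sub (sub (add (add (add (add C x8649) x8657) x8641) x8665) x8635) x8707) x8491) x6709) x7681) x11569) x4279) x2091) x15215)
  (sub (sub (sub (add (add (sub (sub (sub (sub (add (add C x8649) x8653) x8663) x8639) x8711) x8495) x6713) x7685) x11573) x4283) x15217)
  (sub (sub (sub (add (add (sub (sub (add (add (sub (sub C x8665) x8657) x8591) x8627) x8717) x8501) x6719) x7691) x11579) x4289) x15223)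
  (add (add (sub (sub (add (add (sub (sub (add (add (add (add (sub C x8663) x8641) x8653) x8593) x8629) x8719) x8503) x6721) x7693) x11581) x4291) x2103) x15227)
  (sub (sub (sub (add (add (add (add (sub (add (add (add (add (add (add C x8671) x8675) x8679) x8691) x8703) x8739) x8559) x8019) x8343) x6723) x7695) x11583) x4293) x2107)
  (add (add (sub (sub (add (add (add (add (sub (add (add (sub (add (add C x8667) x8675) x8677) x8707) x8743) x8563) x8023) x8347) x6727) x7699) x11587) x4297) x2109) x15233)
  (sub (sub (sub (add (add (add (add (sub (add (add (sub (add (add C x8667) x8671) x8687) x8711) x8747) x8567) x8027) x8351) x6731) x7703) x11591) x4301) x15235)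
  (add (add (sub (sub (add (add (add (add (sub (sub (sub (sub C x8679) x8671) x8695) x8569) x8029) x8353) x6733) x7705) x11593) x4303) x2115) x15239)
  (sub (sub (sub (add (add (add (add (sub (sub (add (add (sub C x8677) x8667) x8691) x8697) x8571) x8031) x8355) x6735) x7707) x11595) x4305) x2119)
  (sub (sub (sub (add (add (add (add (sub (sub (sub (sub C x8691) x8675) x8723) x8579) x8039) x8363) x6743) x7715) x11603) x4313) x15247)
  (sub (sub (sub (add (add (add (add (sub (sub (add (add (sub C x8687) x8667) x8679) x8727) x8583) x8043) x8367) x6747) x7719) x11607) x4317) x2131)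
  (add (add (sub (sub (add (add (add (add (sub (sub (add (add (sub C x8697) x8707) x8719) x8677) x8641) x8047) x8371) x6751) x7723) x11611) x4321) x2133) x15257)
  (sub (sub (sub (add (add (add (add (sub (sub (sub (sub C x8695) x8703) x8679) x8643) x8049) x8373) x6753) x7725) x11613) x4323) x2137)
  (sub (sub (sub (add (add (add (add (sub (add (add (sub (add (add C x8707) x8711) x8697) x8667) x8739) x8649) x8055) x8379) x6759) x7731) x11619) x4329) x2143)
  (add (add (sub (sub (add (add (add (add (sub (add (add (add (add (add (add C x8703) x8711) x8695) x8719) x8671) x8743) x8653) x8059) x8383) x6763) x7735) x11623) x4333) x2145) x15269)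
  (sub (sub (sub (add (add (add (add (sub (add (add (sub (add (add C x8703) x8707) x8717) x8675) x8747) x8657) x8063) x8387) x6767) x7739) x11627) x4337) x15271)
  (sub (sub (sub (add (add (add (add (sub (sub (sub (sub C x8719) x8711) x8735) x8663) x8069) x8393) x6773) x7745) x11633) x4343) x15277)
  (add (add (sub (sub (add (add (add (add (sub (sub (add (add (sub C x8717) x8695) x8707) x8737) x8665) x8071) x8395) x6775) x7747) x11635) x4345) x2157) x15281)
  (sub (sub (sub (add (add (add (add (add (add (sub (add (add (sub C x8727) x8735) x8747) x8687) x8507) x8615) x8075) x8399) x6779) x7751) x11639) x4349) x15283)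
  (sub (sub (sub (add (add (add (add (add (add (sub (sub (sub C x8723) x8739) x8691) x8511) x8619) x8079) x8403) x6783) x7755) x11643) x4353) x2167)
  (sub (sub (sub (add (add (add (add (add (add (sub (add (add (sub C x8737) x8723) x8747) x8717) x8519) x8627) x8087) x8411) x6791) x7763) x11651) x4361) x15295)
  (add (add (sub (sub (add (add (add (add (add (add (sub (sub (sub C x8735) x8743) x8719) x8521) x8629) x8089) x8413) x6793) x7765) x11653) x4363) x2175) x15299)
  (sub (sub (sub (add (add (add (add (add (add (add (add (sub (add (add C x8743) x8747) x8727) x8667) x8703) x8523) x8631) x8091) x8415) x6795) x7767) x11655) x4365) x2179)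
  (add (add (sub (sub (add (add (add (add (add (add (add (add (sub (add (add C x8739) x8747) x8737) x8671) x8707) x8527) x8635) x8095) x8419) x6799) x7771) x11659) x4369) x2181) x15305)
  (sub (sub (sub (add (add (add (add (add (add (add (add (add (add (add (add C x8739) x8743) x8723) x8735) x8675) x8711) x8531) x8639) x8099) x8423) x6803) x7775) x11663) x4373) x15307)
  (sub (add (add (sub (add (add (add (add (add (add (add (add (sub (sub C x8755) x8759) x8789) x8825) x8861) x8969) x9077) x9401) x9725) x10697) x7295) x5) x17501) x15313)
  (add (add (add (add (sub (add (add (add (add (add (add (add (add (sub (sub C x8753) x8767) x8791) x8827) x8863) x8971) x9079) x9403) x9727) x10699) x7297) x7) x17503) x2193) x15317)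
  (sub (add (add (sub (add (add (add (add (add (add (sub (sub (sub C x8763) x8753) x8777) x8867) x8975) x9083) x9407) x9731) x10703) x7301) x11) x17507) x15319)
  (sub (add (add (sub (add (add (add (add (add (add (sub (sub (sub C x8759) x8769) x8781) x8871) x8979) x9087) x9411) x9735) x10707) x7305) x15) x17511) x2203)
  (add (add (add (add (sub (add (add (add (add (add (add (sub (sub (sub C x8769) x8755) x8803) x8875) x8983) x9091) x9415) x9739) x10711) x7309) x19) x17515) x2205) x15329)
  (sub (add (add (sub (add (add (add (add (add (add (sub (sub (sub C x8767) x8763) x8805) x8877) x8985) x9093) x9417) x9741) x10713) x7311) x21) x17517) x2209)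
  (sub (add (add (sub (add (add (add (add (sub (sub (add (add (sub C x8781) x8789) x8801) x8759) x8831) x9101) x9425) x9749) x10721) x7319) x29) x17525) x15337)
  (sub (add (add (sub (add (add (add (add (sub (sub (sub (sub C x8777) x8793) x8763) x8835) x9105) x9429) x9753) x10725) x7323) x33) x17529) x2221)
  (sub (add (add (sub (add (add (add (add (sub (add (add (add (add (sub C x8791) x8777) x8801) x8753) x8825) x8843) x9113) x9437) x9761) x10733) x7331) x41) x17537) x15349)
  (add (add (add (add (sub (add (add (add (add (sub (add (add (sub (sub C x8789) x8797) x8755) x8827) x8845) x9115) x9439) x9763) x10735) x7333) x43) x17539) x2229) x15353)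
  (sub (add (add (sub (add (add (add (add (sub (sub (sub (add (add C x8797) x8801) x8781) x8811) x8847) x9117) x9441) x9765) x10737) x7335) x45) x17541) x2233)
  (add (add (add (add (sub (add (add (add (add (sub (sub (sub (add (add C x8793) x8801) x8791) x8815) x8851) x9121) x9445) x9769) x10741) x7339) x49) x17545) x2235) x15359)
  (sub (add (add (sub (add (add (add (add (sub (sub (add (add (add (add C x8793) x8797) x8777) x8789) x8819) x8855) x9125) x9449) x9773) x10745) x7343) x53) x17549) x15361)
  (add (add (add (add (sub (add (add (add (add (sub (sub (add (add (sub C x8805) x8815) x8827) x8767) x8911) x9127) x9451) x9775) x10747) x7345) x55) x17551) x2241) x15365)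
  (sub (add (add (sub (add (add (add (add (sub (sub (sub (sub C x8803) x8811) x8769) x8913) x9129) x9453) x9777) x10749) x7347) x57) x17553) x2245)
  (sub (add (add (sub (add (add (add (add (sub (sub (sub (add (add C x8815) x8819) x8805) x8793) x8919) x9135) x9459) x9783) x10755) x7353) x63) x17559) x2251)
  (add (add (add (add (sub (add (add (add (add (sub (sub (add (add (add (add C x8811) x8819) x8803) x8827) x8797) x8923) x9139) x9463) x9787) x10759) x7357) x67) x17563) x2253) x15377)
  (sub (add (add (sub (add (add (add (add (sub (sub (sub (add (add C x8811) x8815) x8825) x8801) x8927) x9143) x9467) x9791) x10763) x7361) x71) x17567) x15379)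
  (sub (add (add (sub (add (add (add (add (sub (add (add (sub (sub C x8827) x8819) x8753) x8789) x8933) x9149) x9473) x9797) x10769) x7367) x77) x17573) x15385)
  (add (add (add (add (sub (add (add (add (add (sub (add (add (add (add (sub C x8825) x8803) x8815) x8755) x8791) x8935) x9151) x9475) x9799) x10771) x7369) x79) x17575) x2265) x15389)
  (sub (add (add (sub (add (add (sub (sub (add (add (add (add (sub C x8835) x8843) x8855) x8867) x8903) x8777) x8993) x9803) x10775) x7373) x83) x17579) x15391)
  (sub (add (add (sub (add (add (sub (sub (add (add (sub (sub C x8831) x8847) x8871) x8907) x8781) x8997) x9807) x10779) x7377) x87) x17583) x2275)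
  (sub (add (add (sub (add (add (sub (sub (sub (add (add (sub C x8845) x8831) x8855) x8861) x8789) x9005) x9815) x10787) x7385) x95) x17591) x15403)
  (add (add (add (add (sub (add (add (sub (sub (sub (sub (sub C x8843) x8851) x8863) x8791) x9007) x9817) x10789) x7387) x97) x17593) x2283) x15407)
  (sub (add (add (sub (add (add (sub (sub (sub (sub (add (add C x8851) x8855) x8835) x8883) x8793) x9009) x9819) x10791) x7389) x99) x17595) x2287)
  (add (add (add (add (sub (add (add (sub (sub (sub (sub (add (add C x8847) x8855) x8845) x8887) x8797) x9013) x9823) x10795) x7393) x103) x17599) x2289) x15413)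
  (sub (add (add (sub (add (add (sub (sub (sub (add (add (add (add C x8847) x8851) x8831) x8843) x8891) x8801) x9017) x9827) x10799) x7397) x107) x17603) x15415)
  (sub (add (add (sub (add (add (sub (add (add (sub (sub (sub C x8863) x8867) x8843) x8753) x8969) x9023) x9833) x10805) x7403) x113) x17609) x15421)
  (add (add (add (add (sub (add (add (sub (add (add (sub (sub (sub C x8861) x8875) x8845) x8755) x8971) x9025) x9835) x10807) x7405) x115) x17611) x2301) x15425)
  (sub (add (add (sub (add (add (sub (add (add (add (add (sub (sub C x8871) x8861) x8831) x8903) x8759) x8975) x9029) x9839) x10811) x7409) x119) x17615) x15427)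
  (sub (add (add (sub (add (add (sub (add (add (add (add (sub (sub C x8867) x8877) x8835) x8907) x8763) x8979) x9033) x9843) x10815) x7413) x123) x17619) x2311)
  (add (add (add (add (sub (add (add (sub (add (add (sub (sub (sub C x8877) x8863) x8893) x8767) x8983) x9037) x9847) x10819) x7417) x127) x17623) x2313) x15437)
  (sub (add (add (sub (add (add (sub (add (add (sub (sub (sub C x8875) x8871) x8895) x8769) x8985) x9039) x9849) x10821) x7419) x129) x17625) x2317)
  (sub (add (add (sub (add (add (sub (sub (sub (add (add (add (add C x8887) x8891) x8895) x8907) x8847) x8937) x9045) x9855) x10827) x7425) x135) x17631) x2323)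
  (add (add (add (add (sub (add (add (sub (sub (sub (sub (add (add C x8883) x8891) x8893) x8851) x8941) x9049) x9859) x10831) x7429) x139) x17635) x2325) x15449)
  (sub (add (add (sub (add (add (sub (sub (sub (sub (add (add C x8883) x8887) x8903) x8855) x8945) x9053) x9863) x10835) x7433) x143) x17639) x15451)
  (add (add (add (add (sub (add (add (sub (sub (sub (sub (sub C x8895) x8887) x8875) x8947) x9055) x9865) x10837) x7435) x145) x17641) x2331) x15455)
  (sub (add (add (sub (add (add (sub (sub (sub (add (add (sub C x8893) x8883) x8907) x8877) x8949) x9057) x9867) x10839) x7437) x147) x17643) x2335)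
  (sub (add (add (sub (add (add (sub (sub (add (add (sub (sub C x8907) x8891) x8831) x8867) x8957) x9065) x9875) x10847) x7445) x155) x17651) x15463)
  (sub (add (add (sub (add (add (sub (sub (add (add (add (add (sub C x8903) x8883) x8895) x8835) x8871) x8961) x9069) x9879) x10851) x7449) x159) x17655) x2347)
  (add (add (add (add (sub (add (add (sub (sub (add (add (add (add (sub C x8913) x8923) x8935) x8947) x8983) x8803) x9235) x9883) x10855) x7453) x163) x17659) x2349) x15473)
  (sub (add (add (sub (add (add (sub (sub (add (add (sub (sub C x8911) x8919) x8949) x8985) x8805) x9237) x9885) x10857) x7455) x165) x17661) x2353)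
  (sub (add (add (sub (add (add (sub (sub (sub (sub (add (add C x8923) x8927) x8913) x8937) x8811) x9243) x9891) x10863) x7461) x171) x17667) x2359)
  (add (add (add (add (sub (add (add (sub (sub (sub (add (add (add (add C x8919) x8927) x8911) x8935) x8941) x8815) x9247) x9895) x10867) x7465) x175) x17671) x2361) x15485)
  (sub (add (add (sub (add (add (sub (sub (sub (sub (add (add C x8919) x8923) x8933) x8945) x8819) x9251) x9899) x10871) x7469) x179) x17675) x15487)
  (sub (add (add (sub (add (add (sub (sub (sub (sub (sub C x8935) x8927) x8969) x8825) x9257) x9905) x10877) x7475) x185) x17681) x15493)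
  (add (add (add (add (sub (add (add (sub (sub (sub (add (add (sub C x8933) x8911) x8923) x8971) x8827) x9259) x9907) x10879) x7477) x187) x17683) x2373) x15497)
  (sub (add (add (sub (add (add (sub (sub (sub (add (add (add (add C x8941) x8945) x8949) x8961) x8919) x8883) x9261) x9909) x10881) x7479) x189) x17685) x2377)
  (add (add (add (add (sub (add (add (sub (sub (sub (sub (add (add C x8937) x8945) x8947) x8923) x8887) x9265) x9913) x10885) x7483) x193) x17689) x2379) x15503)
  (sub (add (add (sub (add (add (sub (sub (sub (sub (add (add C x8937) x8941) x8957) x8927) x8891) x9269) x9917) x10889) x7487) x197) x17693) x15505)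
  (add (add (add (add (sub (add (add (sub (sub (add (add (sub (sub C x8949) x8941) x8911) x8983) x8893) x9271) x9919) x10891) x7489) x199) x17695) x2385) x15509)
  (sub (add (add (sub (add (add (sub (sub (add (add (add (add (sub C x8947) x8937) x8961) x8913) x8985) x8895) x9273) x9921) x10893) x7491) x201) x17697) x2389)
  (sub (add (add (sub (add (add (sub (sub (sub (sub (sub C x8961) x8945) x8975) x8903) x9281) x9929) x10901) x7499) x209) x17705) x15517)
  (sub (add (add (sub (add (add (sub (sub (sub (add (add (sub C x8957) x8937) x8949) x8979) x8907) x9285) x9933) x10905) x7503) x213) x17709) x2401)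
  (sub (add (add (sub (add (add (sub (add (add (sub (sub (sub C x8971) x8975) x8933) x8753) x8861) x9293) x9941) x10913) x7511) x221) x17717) x15529)
  (add (add (add (add (sub (add (add (sub (add (add (sub (sub (sub C x8969) x8983) x8935) x8755) x8863) x9295) x9943) x10915) x7513) x223) x17719) x2409) x15533)
  (sub (add (add (sub (add (add (sub (add (add (sub (sub (sub C x8979) x8969) x8957) x8759) x8867) x9299) x9947) x10919) x7517) x227) x17723) x15535)
  (sub (add (add (sub (add (add (sub (add (add (sub (sub (sub C x8975) x8985) x8961) x8763) x8871) x9303) x9951) x10923) x7521) x231) x17727) x2419)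
  (add (add (add (add (sub (add (add (sub (add (add (add (add (sub (sub C x8985) x8971) x8911) x8947) x8767) x8875) x9307) x9955) x10927) x7525) x235) x17731) x2421) x15545)
  (sub (add (add (sub (add (add (sub (add (add (add (add (sub (sub C x8983) x8979) x8913) x8949) x8769) x8877) x9309) x9957) x10929) x7527) x237) x17733) x2425)
  (sub (add (add (sub (sub (sub (add (add (add (add (add (add (sub C x8997) x9005) x9017) x9029) x9065) x9101) x9209) x8831) x9479) x7535) x245) x17741) x15553)
  (sub (add (add (sub (sub (sub (add (add (add (add (sub (sub C x8993) x9009) x9033) x9069) x9105) x9213) x8835) x9483) x7539) x249) x17745) x2437)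
  (sub (add (add (sub (sub (sub (add (add (sub (add (add (sub C x9007) x8993) x9017) x9023) x9113) x9221) x8843) x9491) x7547) x257) x17753) x15565)
  (add (add (add (add (sub (sub (sub (add (add (sub (sub (sub C x9005) x9013) x9025) x9115) x9223) x8845) x9493) x7549) x259) x17755) x2445) x15569)
  (sub (add (add (sub (sub (sub (add (add (sub (sub (add (add C x9013) x9017) x8997) x9045) x9117) x9225) x8847) x9495) x7551) x261) x17757) x2449)
  (add (add (add (add (sub (sub (sub (add (add (sub (sub (add (add C x9009) x9017) x9007) x9049) x9121) x9229) x8851) x9499) x7555) x265) x17761) x2451) x15575)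
  (sub (add (add (sub (sub (sub (add (add (sub (add (add (add (add C x9009) x9013) x8993) x9005) x9053) x9125) x9233) x8855) x9503) x7559) x269) x17765) x15577)
  (sub (add (add (sub (sub (sub (sub (sub (sub (sub C x9025) x9029) x9005) x9077) x8861) x9509) x7565) x275) x17771) x15583)
  (add (add (add (add (sub (sub (sub (sub (sub (sub (sub C x9023) x9037) x9007) x9079) x8863) x9511) x7567) x277) x17773) x2463) x15587)
  (sub (add (add (sub (sub (sub (sub (add (add (sub (sub C x9033) x9023) x8993) x9065) x9083) x8867) x9515) x7571) x281) x17777) x15589)
  (sub (add (add (sub (sub (sub (sub (add (add (sub (sub C x9029) x9039) x8997) x9069) x9087) x8871) x9519) x7575) x285) x17781) x2473)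
  (add (add (add (add (sub (sub (sub (sub (sub (sub (sub C x9039) x9025) x9055) x9091) x8875) x9523) x7579) x289) x17785) x2475) x15599)
  (sub (add (add (sub (sub (sub (sub (sub (sub (sub C x9037) x9033) x9057) x9093) x8877) x9525) x7581) x291) x17787) x2479)
  (sub (add (add (sub (sub (sub (sub (sub (add (add (add (add C x9049) x9053) x9057) x9069) x9009) x9153) x8883) x9531) x7587) x297) x17793) x2485)
  (add (add (add (add (sub (sub (sub (sub (sub (sub (add (add C x9045) x9053) x9055) x9013) x9157) x8887) x9535) x7591) x301) x17797) x2487) x15611)
  (sub (add (add (sub (sub (sub (sub (sub (sub (add (add C x9045) x9049) x9065) x9017) x9161) x8891) x9539) x7595) x305) x17801) x15613)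
  (add (add (add (add (sub (sub (sub (sub (sub (sub (sub C x9057) x9049) x9037) x9163) x8893) x9541) x7597) x307) x17803) x2493) x15617)
  (sub (add (add (sub (sub (sub (sub (sub (add (add (sub C x9055) x9045) x9069) x9039) x9165) x8895) x9543) x7599) x309) x17805) x2497)
  (sub (add (add (sub (sub (sub (sub (add (add (sub (sub C x9069) x9053) x8993) x9029) x9173) x8903) x9551) x7607) x317) x17813) x15625)
  (sub (add (add (sub (sub (sub (sub (add (add (add (add (sub C x9065) x9045) x9057) x8997) x9033) x9177) x8907) x9555) x7611) x321) x17817) x2509)
  (sub (add (add (sub (sub (add (add (sub (add (add (sub (sub C x9079) x9083) x9113) x9149) x9023) x8753) x9401) x9563) x7619) x329) x17825) x15637)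
  (add (add (add (add (sub (sub (add (add (sub (add (add (sub (sub C x9077) x9091) x9115) x9151) x9025) x8755) x9403) x9565) x7621) x331) x17827) x2517) x15641)
  (sub (add (add (sub (sub (add (add (sub (sub (sub (sub C x9087) x9077) x9101) x9029) x8759) x9407) x9569) x7625) x335) x17831) x15643)
  (sub (add (add (sub (sub (add (add (sub (sub (sub (sub C x9083) x9093) x9105) x9033) x8763) x9411) x9573) x7629) x339) x17835) x2527)
  (add (add (add (add (sub (sub (add (add (sub (sub (sub (sub C x9093) x9079) x9127) x9037) x8767) x9415) x9577) x7633) x343) x17839) x2529) x15653)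
  (sub (add (add (sub (sub (add (add (sub (sub (sub (sub C x9091) x9087) x9129) x9039) x8769) x9417) x9579) x7635) x345) x17841) x2533)
  (sub (add (add (sub (sub (add (add (add (add (sub (add (add (sub C x9105) x9113) x9125) x9083) x8993) x9209) x8777) x9425) x9587) x7643) x353) x17849) x15661)
  (sub (add (add (sub (sub (add (add (add (add (sub (sub (sub C x9101) x9117) x9087) x8997) x9213) x8781) x9429) x9591) x7647) x357) x17853) x2545)
  (sub (add (add (sub (sub (add (add (add (add (add (add (add (add (sub C x9115) x9101) x9125) x9077) x9149) x9005) x9221) x8789) x9437) x9599) x7655) x365) x17861) x15673)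
  (add (add (add (add (sub (sub (add (add (add (add (add (add (sub (sub C x9113) x9121) x9079) x9151) x9007) x9223) x8791) x9439) x9601) x7657) x367) x17863) x2553) x15677)
  (sub (add (add (sub (sub (add (add (add (add (sub (sub (add (add C x9121) x9125) x9105) x9135) x9009) x9225) x8793) x9441) x9603) x7659) x369) x17865) x2557)
  (add (add (add (add (sub (sub (add (add (add (add (sub (sub (add (add C x9117) x9125) x9115) x9139) x9013) x9229) x8797) x9445) x9607) x7663) x373) x17869) x2559) x15683)
  (sub (add (add (sub (sub (add (add (add (add (sub (add (add (add (add C x9117) x9121) x9101) x9113) x9143) x9017) x9233) x8801) x9449) x9611) x7667) x377) x17873) x15685)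
  (add (add (add (add (sub (sub (add (add (sub (sub (add (add (sub C x9129) x9139) x9151) x9091) x9181) x8803) x9451) x9613) x7669) x379) x17875) x2565) x15689)
  (sub (add (add (sub (sub (add (add (sub (sub (sub (sub C x9127) x9135) x9093) x9183) x8805) x9453) x9615) x7671) x381) x17877) x2569)
  (sub (add (add (sub (sub (add (add (sub (sub (sub (add (add C x9139) x9143) x9129) x9117) x9189) x8811) x9459) x9621) x7677) x387) x17883) x2575)
  (add (add (add (add (sub (sub (add (add (sub (sub (add (add (add (add C x9135) x9143) x9127) x9151) x9121) x9193) x8815) x9463) x9625) x7681) x391) x17887) x2577) x15701)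
  (sub (add (add (sub (sub (add (add (sub (sub (sub (add (add C x9135) x9139) x9149) x9125) x9197) x8819) x9467) x9629) x7685) x395) x17891) x15703)
  (sub (add (add (sub (sub (add (add (sub (add (add (sub (sub C x9151) x9143) x9077) x9113) x9203) x8825) x9473) x9635) x7691) x401) x17897) x15709)
  (add (add (add (add (sub (sub (add (add (sub (add (add (add (add (sub C x9149) x9127) x9139) x9079) x9115) x9205) x8827) x9475) x9637) x7693) x403) x17899) x2589) x15713)
  (sub (add (add (sub (sub (sub (sub (add (add (add (add (add (add C x9157) x9161) x9165) x9177) x9189) x9225) x9045) x9315) x9639) x7695) x405) x17901) x2593)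
  (add (add (add (add (sub (sub (sub (sub (add (add (sub (add (add C x9153) x9161) x9163) x9193) x9229) x9049) x9319) x9643) x7699) x409) x17905) x2595) x15719)
  (sub (add (add (sub (sub (sub (sub (add (add (sub (add (add C x9153) x9157) x9173) x9197) x9233) x9053) x9323) x9647) x7703) x413) x17909) x15721)
  (add (add (add (add (sub (sub (sub (sub (sub (sub (sub C x9165) x9157) x9181) x9055) x9325) x9649) x7705) x415) x17911) x2601) x15725)
  (sub (add (add (sub (sub (sub (sub (sub (add (add (sub C x9163) x9153) x9177) x9183) x9057) x9327) x9651) x7707) x417) x17913) x2605)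
  (sub (add (add (sub (sub (sub (sub (sub (sub (sub C x9177) x9161) x9209) x9065) x9335) x9659) x7715) x425) x17921) x15733)
  (sub (add (add (sub (sub (sub (sub (sub (add (add (sub C x9173) x9153) x9165) x9213) x9069) x9339) x9663) x7719) x429) x17925) x2617)
  (add (add (add (add (sub (sub (sub (sub (sub (add (add (sub C x9183) x9193) x9205) x9163) x9127) x9343) x9667) x7723) x433) x17929) x2619) x15743)
  (sub (add (add (sub (sub (sub (sub (sub (sub (sub C x9181) x9189) x9165) x9129) x9345) x9669) x7725) x435) x17931) x2623)
  (sub (add (add (sub (sub (sub (sub (add (add (sub (add (add C x9193) x9197) x9183) x9153) x9225) x9135) x9351) x9675) x7731) x441) x17937) x2629)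
  (add (add (add (add (sub (sub (sub (sub (add (add (add (add (add (add C x9189) x9197) x9181) x9205) x9157) x9229) x9139) x9355) x9679) x7735) x445) x17941) x2631) x15755)
  (sub (add (add (sub (sub (sub (sub (add (add (sub (add (add C x9189) x9193) x9203) x9161) x9233) x9143) x9359) x9683) x7739) x449) x17945) x15757)
  (sub (add (add (sub (sub (sub (sub (sub (sub (sub C x9205) x9197) x9221) x9149) x9365) x9689) x7745) x455) x17951) x15763)
  (add (add (add (add (sub (sub (sub (sub (sub (add (add (sub C x9203) x9181) x9193) x9223) x9151) x9367) x9691) x7747) x457) x17953) x2643) x15767)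
  (sub (add (add (sub (sub (sub (add (add (sub (add (add (sub C x9213) x9221) x9233) x9173) x8993) x9101) x9371) x9695) x7751) x461) x17957) x15769)
  (sub (add (add (sub (sub (sub (add (add (sub (sub (sub C x9209) x9225) x9177) x8997) x9105) x9375) x9699) x7755) x465) x17961) x2653)
  (sub (add (add (sub (sub (sub (add (add (sub (add (add (sub C x9223) x9209) x9233) x9203) x9005) x9113) x9383) x9707) x7763) x473) x17969) x15781)
  (add (add (add (add (sub (sub (sub (add (add (sub (sub (sub C x9221) x9229) x9205) x9007) x9115) x9385) x9709) x7765) x475) x17971) x2661) x15785)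
  (sub (add (add (sub (sub (sub (add (add (add (add (sub (add (add C x9229) x9233) x9213) x9153) x9189) x9009) x9117) x9387) x9711) x7767) x477) x17973) x2665)
  (add (add (add (add (sub (sub (sub (add (add (add (add (sub (add (add C x9225) x9233) x9223) x9157) x9193) x9013) x9121) x9391) x9715) x7771) x481) x17977) x2667) x15791)
  (sub (add (add (sub (sub (sub (add (add (add (add (add (add (add (add C x9225) x9229) x9209) x9221) x9161) x9197) x9017) x9125) x9395) x9719) x7775) x485) x17981) x15793)
  (add (add (add (add (sub (sub (sub (add (add (add (add (add (add (sub C x9237) x9247) x9259) x9271) x9307) x9343) x9451) x8911) x10207) x7777) x487) x17983) x2673) x15797)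
  (sub (add (add (sub (sub (sub (add (add (add (add (sub (sub C x9235) x9243) x9273) x9309) x9345) x9453) x8913) x10209) x7779) x489) x17985) x2677)
  (sub (add (add (sub (sub (sub (add (add (sub (sub (add (add C x9247) x9251) x9237) x9261) x9351) x9459) x8919) x10215) x7785) x495) x17991) x2683)
  (add (add (add (add (sub (sub (sub (add (add (sub (add (add (add (add C x9243) x9251) x9235) x9259) x9265) x9355) x9463) x8923) x10219) x7789) x499) x17995) x2685) x15809)
  (sub (add (add (sub (sub (sub (add (add (sub (sub (add (add C x9243) x9247) x9257) x9269) x9359) x9467) x8927) x10223) x7793) x503) x17999) x15811)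
  (sub (add (add (sub (sub (sub (add (add (sub (sub (sub C x9259) x9251) x9293) x9365) x9473) x8933) x10229) x7799) x509) x18005) x15817)
  (add (add (add (add (sub (sub (sub (add (add (sub (add (add (sub C x9257) x9235) x9247) x9295) x9367) x9475) x8935) x10231) x7801) x511) x18007) x2697) x15821)
  (sub (add (add (sub (sub (sub (sub (sub (add (add (add (add C x9265) x9269) x9273) x9285) x9243) x9315) x8937) x10233) x7803) x513) x18009) x2701)
  (add (add (add (add (sub (sub (sub (sub (sub (sub (add (add C x9261) x9269) x9271) x9247) x9319) x8941) x10237) x7807) x517) x18013) x2703) x15827)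
  (sub (add (add (sub (sub (sub (sub (sub (sub (add (add C x9261) x9265) x9281) x9251) x9323) x8945) x10241) x7811) x521) x18017) x15829)
  (add (add (add (add (sub (sub (sub (sub (add (add (sub (sub C x9273) x9265) x9235) x9307) x9325) x8947) x10243) x7813) x523) x18019) x2709) x15833)
  (sub (add (add (sub (sub (sub (sub (add (add (add (add (sub C x9271) x9261) x9285) x9237) x9309) x9327) x8949) x10245) x7815) x525) x18021) x2713)
  (sub (add (add (sub (sub (sub (sub (sub (sub (sub C x9285) x9269) x9299) x9335) x8957) x10253) x7823) x533) x18029) x15841)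
  (sub (add (add (sub (sub (sub (sub (sub (add (add (sub C x9281) x9261) x9273) x9303) x9339) x8961) x10257) x7827) x537) x18033) x2725)
  (sub (add (add (sub (sub (sub (sub (sub (sub (sub C x9295) x9299) x9257) x9401) x8969) x10265) x7835) x545) x18041) x15853)
  (add (add (add (add (sub (sub (sub (sub (sub (sub (sub C x9293) x9307) x9259) x9403) x8971) x10267) x7837) x547) x18043) x2733) x15857)
  (sub (add (add (sub (sub (sub (sub (sub (sub (sub C x9303) x9293) x9281) x9407) x8975) x10271) x7841) x551) x18047) x15859)
  (sub (add (add (sub (sub (sub (sub (sub (sub (sub C x9299) x9309) x9285) x9411) x8979) x10275) x7845) x555) x18051) x2743)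
  (add (add (add (add (sub (sub (sub (sub (add (add (sub (sub C x9309) x9295) x9235) x9271) x9415) x8983) x10279) x7849) x559) x18055) x2745) x15869)
  (sub (add (add (sub (sub (sub (sub (add (add (sub (sub C x9307) x9303) x9237) x9273) x9417) x8985) x10281) x7851) x561) x18057) x2749)
  (sub (add (add (sub (sub (sub (sub (add (add (add (add (add (add C x9319) x9323) x9327) x9339) x9351) x9387) x9261) x9153) x10287) x7857) x567) x18063) x2755)
  (add (add (add (add (sub (sub (sub (sub (add (add (sub (add (add C x9315) x9323) x9325) x9355) x9391) x9265) x9157) x10291) x7861) x571) x18067) x2757) x15881)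
  (sub (add (add (sub (sub (sub (sub (add (add (sub (add (add C x9315) x9319) x9335) x9359) x9395) x9269) x9161) x10295) x7865) x575) x18071) x15883)
  (add (add (add (add (sub (sub (sub (sub (sub (sub (sub C x9327) x9319) x9343) x9271) x9163) x10297) x7867) x577) x18073) x2763) x15887)
  (sub (add (add (sub (sub (sub (sub (sub (add (add (sub C x9325) x9315) x9339) x9345) x9273) x9165) x10299) x7869) x579) x18075) x2767)
  (sub (add (add (sub (sub (sub (sub (sub (sub (sub C x9339) x9323) x9371) x9281) x9173) x10307) x7877) x587) x18083) x15895)
  (sub (add (add (sub (sub (sub (sub (sub (add (add (sub C x9335) x9315) x9327) x9375) x9285) x9177) x10311) x7881) x591) x18087) x2779)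
  (add (add (add (add (sub (sub (sub (add (add (sub (add (add (sub C x9345) x9355) x9367) x9325) x9235) x9451) x9181) x10315) x7885) x595) x18091) x2781) x15905)
  (sub (add (add (sub (sub (sub (add (add (sub (sub (sub C x9343) x9351) x9327) x9237) x9453) x9183) x10317) x7887) x597) x18093) x2785)
  (sub (add (add (sub (sub (sub (add (add (add (add (sub (add (add C x9355) x9359) x9345) x9315) x9387) x9243) x9459) x9189) x10323) x7893) x603) x18099) x2791)
  (add (add (add (add (sub (sub (sub (add (add (add (add (add (add (add (add C x9351) x9359) x9343) x9367) x9319) x9391) x9247) x9463) x9193) x10327) x7897) x607) x18103) x2793) x15917)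
  (sub (add (add (sub (sub (sub (add (add (add (add (sub (add (add C x9351) x9355) x9365) x9323) x9395) x9251) x9467) x9197) x10331) x7901) x611) x18107) x15919)
  (sub (add (add (sub (sub (sub (add (add (sub (sub (sub C x9367) x9359) x9383) x9257) x9473) x9203) x10337) x7907) x617) x18113) x15925)
  (add (add (add (add (sub (sub (sub (add (add (sub (add (add (sub C x9365) x9343) x9355) x9385) x9259) x9475) x9205) x10339) x7909) x619) x18115) x2805) x15929)
  (sub (add (add (sub (sub (sub (sub (sub (add (add (sub C x9375) x9383) x9395) x9335) x9425) x9209) x10343) x7913) x623) x18119) x15931)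
  (sub (add (add (sub (sub (sub (sub (sub (sub (sub C x9371) x9387) x9339) x9429) x9213) x10347) x7917) x627) x18123) x2815)
  (sub (add (add (sub (sub (sub (sub (sub (add (add (sub C x9385) x9371) x9395) x9365) x9437) x9221) x10355) x7925) x635) x18131) x15943)
  (add (add (add (add (sub (sub (sub (sub (sub (sub (sub C x9383) x9391) x9367) x9439) x9223) x10357) x7927) x637) x18133) x2823) x15947)
  (sub (add (add (sub (sub (sub (sub (add (add (sub (add (add C x9391) x9395) x9375) x9315) x9351) x9441) x9225) x10359) x7929) x639) x18135) x2827)
  (add (add (add (add (sub (sub (sub (sub (add (add (sub (add (add C x9387) x9395) x9385) x9319) x9355) x9445) x9229) x10363) x7933) x643) x18139) x2829) x15953)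
  (sub (add (add (sub (sub (sub (sub (add (add (add (add (add (add C x9387) x9391) x9371) x9383) x9323) x9359) x9449) x9233) x10367) x7937) x647) x18143) x15955)
  (sub (add (add (sub (sub (add (add (sub (add (add (sub (sub C x9403) x9407) x9437) x9473) x9293) x8753) x9077) x10373) x7943) x653) x18149) x15961)
  (add (add (add (add (sub (sub (add (add (sub (add (add (sub (sub C x9401) x9415) x9439) x9475) x9295) x8755) x9079) x10375) x7945) x655) x18151) x2841) x15965)
  (sub (add (add (sub (sub (add (add (sub (sub (sub (sub C x9411) x9401) x9425) x9299) x8759) x9083) x10379) x7949) x659) x18155) x15967)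
  (sub (add (add (sub (sub (add (add (sub (sub (sub (sub C x9407) x9417) x9429) x9303) x8763) x9087) x10383) x7953) x663) x18159) x2851)
  (add (add (add (add (sub (sub (add (add (sub (sub (sub (sub C x9417) x9403) x9451) x9307) x8767) x9091) x10387) x7957) x667) x18163) x2853) x15977)
  (sub (add (add (sub (sub (add (add (sub (sub (sub (sub C x9415) x9411) x9453) x9309) x8769) x9093) x10389) x7959) x669) x18165) x2857)
  (sub (add (add (sub (sub (add (add (sub (sub (add (add (sub C x9429) x9437) x9449) x9407) x9371) x8777) x9101) x10397) x7967) x677) x18173) x15985)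
  (sub (add (add (sub (sub (add (add (sub (sub (sub (sub C x9425) x9441) x9411) x9375) x8781) x9105) x10401) x7971) x681) x18177) x2869)
  (sub (add (add (sub (sub (add (add (sub (add (add (add (add (sub C x9439) x9425) x9449) x9401) x9473) x9383) x8789) x9113) x10409) x7979) x689) x18185) x15997)
  (add (add (add (add (sub (sub (add (add (sub (add (add (sub (sub C x9437) x9445) x9403) x9475) x9385) x8791) x9115) x10411) x7981) x691) x18187) x2877) x16001)
  (sub (add (add (sub (sub (add (add (sub (sub (sub (add (add C x9445) x9449) x9429) x9459) x9387) x8793) x9117) x10413) x7983) x693) x18189) x2881)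
  (add (add (add (add (sub (sub (add (add (sub (sub (sub (add (add C x9441) x9449) x9439) x9463) x9391) x8797) x9121) x10417) x7987) x697) x18193) x2883) x16007)
  (sub (add (add (sub (sub (add (add (sub (sub (add (add (add (add C x9441) x9445) x9425) x9437) x9467) x9395) x8801) x9125) x10421) x7991) x701) x18197) x16009)
  (add (add (add (add (sub (sub (add (add (add (add (sub (add (add (sub C x9453) x9463) x9475) x9415) x9235) x9343) x8803) x9127) x10423) x7993) x703) x18199) x2889) x16013)
  (sub (add (add (sub (sub (add (add (add (add (sub (sub (sub C x9451) x9459) x9417) x9237) x9345) x8805) x9129) x10425) x7995) x705) x18201) x2893)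
  (sub (add (add (sub (sub (add (add (add (add (sub (sub (add (add C x9463) x9467) x9453) x9441) x9243) x9351) x8811) x9135) x10431) x8001) x711) x18207) x2899)
  (add (add (add (add (sub (sub (add (add (add (add (sub (add (add (add (add C x9459) x9467) x9451) x9475) x9445) x9247) x9355) x8815) x9139) x10435) x8005) x715) x18211) x2901) x16025)
  (sub (add (add (sub (sub (add (add (add (add (sub (sub (add (add C x9459) x9463) x9473) x9449) x9251) x9359) x8819) x9143) x10439) x8009) x719) x18215) x16027)
  (sub (add (add (sub (sub (add (add (add (add (add (add (sub (sub C x9475) x9467) x9401) x9437) x9257) x9365) x8825) x9149) x10445) x8015) x725) x18221) x16033)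
  (add (add (add (add (sub (sub (add (add (add (add (add (add (add (add (sub C x9473) x9451) x9463) x9403) x9439) x9259) x9367) x8827) x9151) x10447) x8017) x727) x18223) x2913) x16037)
  (sub (add (add (add (add (sub (add (add (add (add (add (add (add (add (sub C x9483) x9491) x9503) x9515) x9551) x9587) x9695) x9803) x10127) x8993) x6563) x12395) x731) x18227) x16039)
  (sub (add (add (add (add (sub (add (add (add (add (add (add (sub (sub C x9479) x9495) x9519) x9555) x9591) x9699) x9807) x10131) x8997) x6567) x12399) x735) x18231) x2923)
  (sub (add (add (add (add (sub (add (add (add (add (sub (add (add (sub C x9493) x9479) x9503) x9509) x9599) x9707) x9815) x10139) x9005) x6575) x12407) x743) x18239) x16051)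
  (add (add (add (add (add (add (sub (add (add (add (add (sub (sub (sub C x9491) x9499) x9511) x9601) x9709) x9817) x10141) x9007) x6577) x12409) x745) x18241) x2931) x16055)
  (sub (add (add (add (add (sub (add (add (add (add (sub (sub (add (add C x9499) x9503) x9483) x9531) x9603) x9711) x9819) x10143) x9009) x6579) x12411) x747) x18243) x2935)
  (add (add (add (add (add (add (sub (add (add (add (add (sub (sub (add (add C x9495) x9503) x9493) x9535) x9607) x9715) x9823) x10147) x9013) x6583) x12415) x751) x18247) x2937) x16061)
  (sub (add (add (add (add (sub (add (add (add (add (sub (add (add (add (add C x9495) x9499) x9479) x9491) x9539) x9611) x9719) x9827) x10151) x9017) x6587) x12419) x755) x18251) x16063)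
  (sub (add (add (add (add (sub (add (add (sub (sub (sub (sub C x9511) x9515) x9491) x9563) x9833) x10157) x9023) x6593) x12425) x761) x18257) x16069)
  (add (add (add (add (add (add (sub (add (add (sub (sub (sub (sub C x9509) x9523) x9493) x9565) x9835) x10159) x9025) x6595) x12427) x763) x18259) x2949) x16073)
  (sub (add (add (add (add (sub (add (add (sub (add (add (sub (sub C x9519) x9509) x9479) x9551) x9569) x9839) x10163) x9029) x6599) x12431) x767) x18263) x16075)
  (sub (add (add (add (add (sub (add (add (sub (add (add (sub (sub C x9515) x9525) x9483) x9555) x9573) x9843) x10167) x9033) x6603) x12435) x771) x18267) x2959)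
  (add (add (add (add (add (add (sub (add (add (sub (sub (sub (sub C x9525) x9511) x9541) x9577) x9847) x10171) x9037) x6607) x12439) x775) x18271) x2961) x16085)
  (sub (add (add (add (add (sub (add (add (sub (sub (sub (sub C x9523) x9519) x9543) x9579) x9849) x10173) x9039) x6609) x12441) x777) x18273) x2965)
  (sub (add (add (add (add (sub (add (add (sub (sub (add (add (add (add C x9535) x9539) x9543) x9555) x9495) x9639) x9855) x10179) x9045) x6615) x12447) x783) x18279) x2971)
  (add (add (add (add (add (add (sub (add (add (sub (sub (sub (add (add C x9531) x9539) x9541) x9499) x9643) x9859) x10183) x9049) x6619) x12451) x787) x18283) x2973) x16097)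
  (sub (add (add (add (add (sub (add (add (sub (sub (sub (add (add C x9531) x9535) x9551) x9503) x9647) x9863) x10187) x9053) x6623) x12455) x791) x18287) x16099)
  (add (add (add (add (add (add (sub (add (add (sub (sub (sub (sub C x9543) x9535) x9523) x9649) x9865) x10189) x9055) x6625) x12457) x793) x18289) x2979) x16103)
  (sub (add (add (add (add (sub (add (add (sub (sub (add (add (sub C x9541) x9531) x9555) x9525) x9651) x9867) x10191) x9057) x6627) x12459) x795) x18291) x2983)
  (sub (add (add (add (add (sub (add (add (sub (add (add (sub (sub C x9555) x9539) x9479) x9515) x9659) x9875) x10199) x9065) x6635) x12467) x803) x18299) x16111)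
  (sub (add (add (add (add (sub (add (add (sub (add (add (add (add (sub C x9551) x9531) x9543) x9483) x9519) x9663) x9879) x10203) x9069) x6639) x12471) x807) x18303) x2995)
  (sub (add (add (add (add (sub (sub (sub (add (add (sub (sub C x9565) x9569) x9599) x9635) x9509) x9725) x9077) x6647) x12479) x815) x18311) x16123)
  (add (add (add (add (add (add (sub (sub (sub (add (add (sub (sub C x9563) x9577) x9601) x9637) x9511) x9727) x9079) x6649) x12481) x817) x18313) x3003) x16127)
  (sub (add (add (add (add (sub (sub (sub (sub (sub (sub C x9573) x9563) x9587) x9515) x9731) x9083) x6653) x12485) x821) x18317) x16129)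
  (sub (add (add (add (add (sub (sub (sub (sub (sub (sub C x9569) x9579) x9591) x9519) x9735) x9087) x6657) x12489) x825) x18321) x3013)
  (add (add (add (add (add (add (sub (sub (sub (sub (sub (sub C x9579) x9565) x9613) x9523) x9739) x9091) x6661) x12493) x829) x18325) x3015) x16139)
  (sub (add (add (add (add (sub (sub (sub (sub (sub (sub C x9577) x9573) x9615) x9525) x9741) x9093) x6663) x12495) x831) x18327) x3019)
  (sub (add (add (add (add (sub (sub (add (add (sub (add (add (sub C x9591) x9599) x9611) x9569) x9479) x9695) x9749) x9101) x6671) x12503) x839) x18335) x16147)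
  (sub (add (add (add (add (sub (sub (add (add (sub (sub (sub C x9587) x9603) x9573) x9483) x9699) x9753) x9105) x6675) x12507) x843) x18339) x3031)
  (sub (add (add (add (add (sub (sub (add (add (add (add (add (add (sub C x9601) x9587) x9611) x9563) x9635) x9491) x9707) x9761) x9113) x6683) x12515) x851) x18347) x16159)
  (add (add (add (add (add (add (sub (sub (add (add (add (add (sub (sub C x9599) x9607) x9565) x9637) x9493) x9709) x9763) x9115) x6685) x12517) x853) x18349) x3039) x16163)
  (sub (add (add (add (add (sub (sub (add (add (sub (sub (add (add C x9607) x9611) x9591) x9621) x9495) x9711) x9765) x9117) x6687) x12519) x855) x18351) x3043)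
  (add (add (add (add (add (add (sub (sub (add (add (sub (sub (add (add C x9603) x9611) x9601) x9625) x9499) x9715) x9769) x9121) x6691) x12523) x859) x18355) x3045) x16169)
  (sub (add (add (add (add (sub (sub (add (add (sub (add (add (add (add C x9603) x9607) x9587) x9599) x9629) x9503) x9719) x9773) x9125) x6695) x12527) x863) x18359) x16171)
  (add (add (add (add (add (add (sub (sub (sub (sub (add (add (sub C x9615) x9625) x9637) x9577) x9667) x9775) x9127) x6697) x12529) x865) x18361) x3051) x16175)
  (sub (add (add (add (add (sub (sub (sub (sub (sub (sub C x9613) x9621) x9579) x9669) x9777) x9129) x6699) x12531) x867) x18363) x3055)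
  (sub (add (add (add (add (sub (sub (sub (sub (sub (add (add C x9625) x9629) x9615) x9603) x9675) x9783) x9135) x6705) x12537) x873) x18369) x3061)
  (add (add (add (add (add (add (sub (sub (sub (sub (add (add (add (add C x9621) x9629) x9613) x9637) x9607) x9679) x9787) x9139) x6709) x12541) x877) x18373) x3063) x16187)
  (sub (add (add (add (add (sub (sub (sub (sub (sub (add (add C x9621) x9625) x9635) x9611) x9683) x9791) x9143) x6713) x12545) x881) x18377) x16189)
  (sub (add (add (add (add (sub (sub (sub (add (add (sub (sub C x9637) x9629) x9563) x9599) x9689) x9797) x9149) x6719) x12551) x887) x18383) x16195)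
  (add (add (add (add (add (add (sub (sub (sub (add (add (add (add (sub C x9635) x9613) x9625) x9565) x9601) x9691) x9799) x9151) x6721) x12553) x889) x18385) x3075) x16199)
  (sub (add (add (add (add (sub (sub (sub (add (add (add (add (add (add C x9643) x9647) x9651) x9663) x9675) x9711) x9531) x9963) x9153) x6723) x12555) x891) x18387) x3079)
  (add (add (add (add (add (add (sub (sub (sub (add (add (sub (add (add C x9639) x9647) x9649) x9679) x9715) x9535) x9967) x9157) x6727) x12559) x895) x18391) x3081) x16205)
  (sub (add (add (add (add (sub (sub (sub (add (add (sub (add (add C x9639) x9643) x9659) x9683) x9719) x9539) x9971) x9161) x6731) x12563) x899) x18395) x16207)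
  (add (add (add (add (add (add (sub (sub (sub (sub (sub (sub C x9651) x9643) x9667) x9541) x9973) x9163) x6733) x12565) x901) x18397) x3087) x16211)
  (sub (add (add (add (add (sub (sub (sub (sub (add (add (sub C x9649) x9639) x9663) x9669) x9543) x9975) x9165) x6735) x12567) x903) x18399) x3091)
  (sub (add (add (add (add (sub (sub (sub (sub (sub (sub C x9663) x9647) x9695) x9551) x9983) x9173) x6743) x12575) x911) x18407) x16219)
  (sub (add (add (add (add (sub (sub (sub (sub (add (add (sub C x9659) x9639) x9651) x9699) x9555) x9987) x9177) x6747) x12579) x915) x18411) x3103)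
  (add (add (add (add (add (add (sub (sub (sub (sub (add (add (sub C x9669) x9679) x9691) x9649) x9613) x9991) x9181) x6751) x12583) x919) x18415) x3105) x16229)
  (sub (add (add (add (add (sub (sub (sub (sub (sub (sub C x9667) x9675) x9651) x9615) x9993) x9183) x6753) x12585) x921) x18417) x3109)
  (sub (add (add (add (add (sub (sub (sub (add (add (sub (add (add C x9679) x9683) x9669) x9639) x9711) x9621) x9999) x9189) x6759) x12591) x927) x18423) x3115)
  (add (add (add (add (add (add (sub (sub (sub (add (add (add (add (add (add C x9675) x9683) x9667) x9691) x9643) x9715) x9625) x10003) x9193) x6763) x12595) x931) x18427) x3117) x16241)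
  (sub (add (add (add (add (sub (sub (sub (add (add (sub (add (add C x9675) x9679) x9689) x9647) x9719) x9629) x10007) x9197) x6767) x12599) x935) x18431) x16243)
  (sub (add (add (add (add (sub (sub (sub (sub (sub (sub C x9691) x9683) x9707) x9635) x10013) x9203) x6773) x12605) x941) x18437) x16249)
  (add (add (add (add (add (add (sub (sub (sub (sub (add (add (sub C x9689) x9667) x9679) x9709) x9637) x10015) x9205) x6775) x12607) x943) x18439) x3129) x16253)
  (sub (add (add (add (add (sub (sub (add (add (sub (add (add (sub C x9699) x9707) x9719) x9659) x9479) x9587) x10019) x9209) x6779) x12611) x947) x18443) x16255)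
  (sub (add (add (add (add (sub (sub (add (add (sub (sub (sub C x9695) x9711) x9663) x9483) x9591) x10023) x9213) x6783) x12615) x951) x18447) x3139)
  (sub (add (add (add (add (sub (sub (add (add (sub (add (add (sub C x9709) x9695) x9719) x9689) x9491) x9599) x10031) x9221) x6791) x12623) x959) x18455) x16267)
  (add (add (add (add (add (add (sub (sub (add (add (sub (sub (sub C x9707) x9715) x9691) x9493) x9601) x10033) x9223) x6793) x12625) x961) x18457) x3147) x16271)
  (sub (add (add (add (add (sub (sub (add (add (add (add (sub (add (add C x9715) x9719) x9699) x9639) x9675) x9495) x9603) x10035) x9225) x6795) x12627) x963) x18459) x3151)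
  (add (add (add (add (add (add (sub (sub (add (add (add (add (sub (add (add C x9711) x9719) x9709) x9643) x9679) x9499) x9607) x10039) x9229) x6799) x12631) x967) x18463) x3153) x16277)
  (sub (add (add (add (add (sub (sub (add (add (add (add (add (add (add (add C x9711) x9715) x9695) x9707) x9647) x9683) x9503) x9611) x10043) x9233) x6803) x12635) x971) x18467) x16279)
  (sub (add (add (add (add (add (add (sub (add (add (add (add (sub (sub C x9727) x9731) x9761) x9797) x9833) x9941) x9563) x8753) x10697) x6809) x12641) x977) x18473) x16285)
  (add (add (add (add (add (add (add (add (sub (add (add (add (add (sub (sub C x9725) x9739) x9763) x9799) x9835) x9943) x9565) x8755) x10699) x6811) x12643) x979) x18475) x3165) x16289)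
  (sub (add (add (add (add (add (add (sub (add (add (sub (sub (sub C x9735) x9725) x9749) x9839) x9947) x9569) x8759) x10703) x6815) x12647) x983) x18479) x16291)
  (sub (add (add (add (add (add (add (sub (add (add (sub (sub (sub C x9731) x9741) x9753) x9843) x9951) x9573) x8763) x10707) x6819) x12651) x987) x18483) x3175)
  (add (add (add (add (add (add (add (add (sub (add (add (sub (sub (sub C x9741) x9727) x9775) x9847) x9955) x9577) x8767) x10711) x6823) x12655) x991) x18487) x3177) x16301)
  (sub (add (add (add (add (add (add (sub (add (add (sub (sub (sub C x9739) x9735) x9777) x9849) x9957) x9579) x8769) x10713) x6825) x12657) x993) x18489) x3181)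
  (sub (add (add (add (add (add (add (sub (sub (sub (add (add (sub C x9753) x9761) x9773) x9731) x9803) x9587) x8777) x10721) x6833) x12665) x1001) x18497) x16309)
  (sub (add (add (add (add (add (add (sub (sub (sub (sub (sub C x9749) x9765) x9735) x9807) x9591) x8781) x10725) x6837) x12669) x1005) x18501) x3193)
  (sub (add (add (add (add (add (add (sub (sub (add (add (add (add (sub C x9763) x9749) x9773) x9725) x9797) x9815) x9599) x8789) x10733) x6845) x12677) x1013) x18509) x16321)
  (add (add (add (add (add (add (add (add (sub (sub (add (add (sub (sub C x9761) x9769) x9727) x9799) x9817) x9601) x8791) x10735) x6847) x12679) x1015) x18511) x3201) x16325)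
  (sub (add (add (add (add (add (add (sub (sub (sub (sub (add (add C x9769) x9773) x9753) x9783) x9819) x9603) x8793) x10737) x6849) x12681) x1017) x18513) x3205)
  (add (add (add (add (add (add (add (add (sub (sub (sub (sub (add (add C x9765) x9773) x9763) x9787) x9823) x9607) x8797) x10741) x6853) x12685) x1021) x18517) x3207) x16331)
  (sub (add (add (add (add (add (add (sub (sub (sub (add (add (add (add C x9765) x9769) x9749) x9761) x9791) x9827) x9611) x8801) x10745) x6857) x12689) x1025) x18521) x16333)
  (add (add (add (add (add (add (add (add (sub (sub (sub (add (add (sub C x9777) x9787) x9799) x9739) x9883) x9613) x8803) x10747) x6859) x12691) x1027) x18523) x3213) x16337)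
  (sub (add (add (add (add (add (add (sub (sub (sub (sub (sub C x9775) x9783) x9741) x9885) x9615) x8805) x10749) x6861) x12693) x1029) x18525) x3217)
  (sub (add (add (add (add (add (add (sub (sub (sub (sub (add (add C x9787) x9791) x9777) x9765) x9891) x9621) x8811) x10755) x6867) x12699) x1035) x18531) x3223)
  (add (add (add (add (add (add (add (add (sub (sub (sub (add (add (add (add C x9783) x9791) x9775) x9799) x9769) x9895) x9625) x8815) x10759) x6871) x12703) x1039) x18535) x3225) x16349)
  (sub (add (add (add (add (add (add (sub (sub (sub (sub (add (add C x9783) x9787) x9797) x9773) x9899) x9629) x8819) x10763) x6875) x12707) x1043) x18539) x16351)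
  (sub (add (add (add (add (add (add (sub (sub (add (add (sub (sub C x9799) x9791) x9725) x9761) x9905) x9635) x8825) x10769) x6881) x12713) x1049) x18545) x16357)
  (add (add (add (add (add (add (add (add (sub (sub (add (add (add (add (sub C x9797) x9775) x9787) x9727) x9763) x9907) x9637) x8827) x10771) x6883) x12715) x1051) x18547) x3237) x16361)
  (sub (add (add (add (add (add (add (add (add (sub (add (add (add (add (sub C x9807) x9815) x9827) x9839) x9875) x9749) x9479) x10127) x8831) x10775) x6887) x12719) x1055) x18551) x16363)
  (sub (add (add (add (add (add (add (add (add (sub (add (add (sub (sub C x9803) x9819) x9843) x9879) x9753) x9483) x10131) x8835) x10779) x6891) x12723) x1059) x18555) x3247)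
  (sub (add (add (add (add (add (add (add (add (sub (sub (add (add (sub C x9817) x9803) x9827) x9833) x9761) x9491) x10139) x8843) x10787) x6899) x12731) x1067) x18563) x16375)
  (add (add (add (add (add (add (add (add (add (add (sub (sub (sub (sub C x9815) x9823) x9835) x9763) x9493) x10141) x8845) x10789) x6901) x12733) x1069) x18565) x3255) x16379)
  (sub (add (add (add (add (add (add (add (add (sub (sub (sub (add (add C x9823) x9827) x9807) x9855) x9765) x9495) x10143) x8847) x10791) x6903) x12735) x1071) x18567) x3259)
  (add (add (add (add (add (add (add (add (add (add (sub (sub (sub (add (add C x9819) x9827) x9817) x9859) x9769) x9499) x10147) x8851) x10795) x6907) x12739) x1075) x18571) x3261) x16385)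
  (sub (add (add (add (add (add (add (add (add (sub (sub (add (add (add (add C x9819) x9823) x9803) x9815) x9863) x9773) x9503) x10151) x8855) x10799) x6911) x12743) x1079) x18575) x16387)
  (sub (add (add (add (add (add (add (add (add (add (add (sub (sub (sub C x9835) x9839) x9815) x9725) x9941) x9509) x10157) x8861) x10805) x6917) x12749) x1085) x18581) x16393)
  (add (add (add (add (add (add (add (add (add (add (add (add (sub (sub (sub C x9833) x9847) x9817) x9727) x9943) x9511) x10159) x8863) x10807) x6919) x12751) x1087) x18583) x3273) x16397)
  (sub (add (add (add (add (add (add (add (add (add (add (add (add (sub (sub C x9843) x9833) x9803) x9875) x9731) x9947) x9515) x10163) x8867) x10811) x6923) x12755) x1091) x18587) x16399)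
  (sub (add (add (add (add (add (add (add (add (add (add (add (add (sub (sub C x9839) x9849) x9807) x9879) x9735) x9951) x9519) x10167) x8871) x10815) x6927) x12759) x1095) x18591) x3283)
  (add (add (add (add (add (add (add (add (add (add (add (add (sub (sub (sub C x9849) x9835) x9865) x9739) x9955) x9523) x10171) x8875) x10819) x6931) x12763) x1099) x18595) x3285) x16409)
  (sub (add (add (add (add (add (add (add (add (add (add (sub (sub (sub C x9847) x9843) x9867) x9741) x9957) x9525) x10173) x8877) x10821) x6933) x12765) x1101) x18597) x3289)
  (sub (add (add (add (add (add (add (add (add (sub (sub (add (add (add (add C x9859) x9863) x9867) x9879) x9819) x9909) x9531) x10179) x8883) x10827) x6939) x12771) x1107) x18603) x3295)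
  (add (add (add (add (add (add (add (add (add (add (sub (sub (sub (add (add C x9855) x9863) x9865) x9823) x9913) x9535) x10183) x8887) x10831) x6943) x12775) x1111) x18607) x3297) x16421)
  (sub (add (add (add (add (add (add (add (add (sub (sub (sub (add (add C x9855) x9859) x9875) x9827) x9917) x9539) x10187) x8891) x10835) x6947) x12779) x1115) x18611) x16423)
  (add (add (add (add (add (add (add (add (add (add (sub (sub (sub (sub C x9867) x9859) x9847) x9919) x9541) x10189) x8893) x10837) x6949) x12781) x1117) x18613) x3303) x16427)
  (sub (add (add (add (add (add (add (add (add (sub (sub (add (add (sub C x9865) x9855) x9879) x9849) x9921) x9543) x10191) x8895) x10839) x6951) x12783) x1119) x18615) x3307)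
  (sub (add (add (add (add (add (add (add (add (sub (add (add (sub (sub C x9879) x9863) x9803) x9839) x9929) x9551) x10199) x8903) x10847) x6959) x12791) x1127) x18623) x16435)
  (sub (add (add (add (add (add (add (add (add (sub (add (add (add (add (sub C x9875) x9855) x9867) x9807) x9843) x9933) x9555) x10203) x8907) x10851) x6963) x12795) x1131) x18627) x3319)
  (add (add (add (add (add (add (add (add (sub (sub (add (add (add (add (sub C x9885) x9895) x9907) x9919) x9955) x9775) x10045) x8911) x10855) x6967) x12799) x1135) x18631) x3321) x16445)
  (sub (add (add (add (add (add (add (sub (sub (add (add (sub (sub C x9883) x9891) x9921) x9957) x9777) x10047) x8913) x10857) x6969) x12801) x1137) x18633) x3325)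
  (sub (add (add (add (add (add (add (sub (sub (sub (sub (add (add C x9895) x9899) x9885) x9909) x9783) x10053) x8919) x10863) x6975) x12807) x1143) x18639) x3331)
  (add (add (add (add (add (add (add (add (sub (sub (sub (add (add (add (add C x9891) x9899) x9883) x9907) x9913) x9787) x10057) x8923) x10867) x6979) x12811) x1147) x18643) x3333) x16457)
  (sub (add (add (add (add (add (add (sub (sub (sub (sub (add (add C x9891) x9895) x9905) x9917) x9791) x10061) x8927) x10871) x6983) x12815) x1151) x18647) x16459)
  (sub (add (add (add (add (add (add (sub (sub (sub (sub (sub C x9907) x9899) x9941) x9797) x10067) x8933) x10877) x6989) x12821) x1157) x18653) x16465)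
  (add (add (add (add (add (add (add (add (sub (sub (sub (add (add (sub C x9905) x9883) x9895) x9943) x9799) x10069) x8935) x10879) x6991) x12823) x1159) x18655) x3345) x16469)
  (sub (add (add (add (add (add (add (sub (sub (sub (add (add (add (add C x9913) x9917) x9921) x9933) x9891) x9855) x10071) x8937) x10881) x6993) x12825) x1161) x18657) x3349)
  (add (add (add (add (add (add (add (add (sub (sub (sub (sub (add (add C x9909) x9917) x9919) x9895) x9859) x10075) x8941) x10885) x6997) x12829) x1165) x18661) x3351) x16475)
  (sub (add (add (add (add (add (add (sub (sub (sub (sub (add (add C x9909) x9913) x9929) x9899) x9863) x10079) x8945) x10889) x7001) x12833) x1169) x18665) x16477)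
  (add (add (add (add (add (add (add (add (sub (sub (add (add (sub (sub C x9921) x9913) x9883) x9955) x9865) x10081) x8947) x10891) x7003) x12835) x1171) x18667) x3357) x16481)
  (sub (add (add (add (add (add (add (sub (sub (add (add (add (add (sub C x9919) x9909) x9933) x9885) x9957) x9867) x10083) x8949) x10893) x7005) x12837) x1173) x18669) x3361)
  (sub (add (add (add (add (add (add (sub (sub (sub (sub (sub C x9933) x9917) x9947) x9875) x10091) x8957) x10901) x7013) x12845) x1181) x18677) x16489)
  (sub (add (add (add (add (add (add (sub (sub (sub (add (add (sub C x9929) x9909) x9921) x9951) x9879) x10095) x8961) x10905) x7017) x12849) x1185) x18681) x3373)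
  (sub (add (add (add (add (add (add (sub (add (add (sub (sub (sub C x9943) x9947) x9905) x9725) x9833) x10103) x8969) x10913) x7025) x12857) x1193) x18689) x16501)
  (add (add (add (add (add (add (add (add (sub (add (add (sub (sub (sub C x9941) x9955) x9907) x9727) x9835) x10105) x8971) x10915) x7027) x12859) x1195) x18691) x3381) x16505)
  (sub (add (add (add (add (add (add (sub (add (add (sub (sub (sub C x9951) x9941) x9929) x9731) x9839) x10109) x8975) x10919) x7031) x12863) x1199) x18695) x16507)
  (sub (add (add (add (add (add (add (sub (add (add (sub (sub (sub C x9947) x9957) x9933) x9735) x9843) x10113) x8979) x10923) x7035) x12867) x1203) x18699) x3391)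
  (add (add (add (add (add (add (add (add (sub (add (add (add (add (sub (sub C x9957) x9943) x9883) x9919) x9739) x9847) x10117) x8983) x10927) x7039) x12871) x1207) x18703) x3393) x16517)
  (sub (add (add (add (add (add (add (sub (add (add (add (add (sub (sub C x9955) x9951) x9885) x9921) x9741) x9849) x10119) x8985) x10929) x7041) x12873) x1209) x18705) x3397)
  (sub (add (add (add (add (sub (sub (add (add (add (add (add (add (add (add C x9967) x9971) x9975) x9987) x9999) x10035) x10071) x10179) x9639) x10449) x7047) x12879) x1215) x18711) x3403)
  (add (add (add (add (add (add (sub (sub (add (add (add (add (sub (add (add C x9963) x9971) x9973) x10003) x10039) x10075) x10183) x9643) x10453) x7051) x12883) x1219) x18715) x3405) x16529)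
  (sub (add (add (add (add (sub (sub (add (add (add (add (sub (add (add C x9963) x9967) x9983) x10007) x10043) x10079) x10187) x9647) x10457) x7055) x12887) x1223) x18719) x16531)
  (add (add (add (add (add (add (sub (sub (add (add (sub (sub (sub C x9975) x9967) x9991) x10081) x10189) x9649) x10459) x7057) x12889) x1225) x18721) x3411) x16535)
  (sub (add (add (add (add (sub (sub (add (add (sub (add (add (sub C x9973) x9963) x9987) x9993) x10083) x10191) x9651) x10461) x7059) x12891) x1227) x18723) x3415)
  (sub (add (add (add (add (sub (sub (add (add (sub (sub (sub C x9987) x9971) x10019) x10091) x10199) x9659) x10469) x7067) x12899) x1235) x18731) x16543)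
  (sub (add (add (add (add (sub (sub (add (add (sub (add (add (sub C x9983) x9963) x9975) x10023) x10095) x10203) x9663) x10473) x7071) x12903) x1239) x18735) x3427)
  (add (add (add (add (add (add (sub (sub (sub (sub (add (add (sub C x9993) x10003) x10015) x9973) x10045) x9667) x10477) x7075) x12907) x1243) x18739) x3429) x16553)
  (sub (add (add (add (add (sub (sub (sub (sub (sub (sub C x9991) x9999) x9975) x10047) x9669) x10479) x7077) x12909) x1245) x18741) x3433)
  (sub (add (add (add (add (sub (sub (sub (add (add (sub (add (add C x10003) x10007) x9993) x9963) x10035) x10053) x9675) x10485) x7083) x12915) x1251) x18747) x3439)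
  (add (add (add (add (add (add (sub (sub (sub (add (add (add (add (add (add C x9999) x10007) x9991) x10015) x9967) x10039) x10057) x9679) x10489) x7087) x12919) x1255) x18751) x3441) x16565)
  (sub (add (add (add (add (sub (sub (sub (add (add (sub (add (add C x9999) x10003) x10013) x9971) x10043) x10061) x9683) x10493) x7091) x12923) x1259) x18755) x16567)
  (sub (add (add (add (add (sub (sub (sub (sub (sub (sub C x10015) x10007) x10031) x10067) x9689) x10499) x7097) x12929) x1265) x18761) x16573)
  (add (add (add (add (add (add (sub (sub (sub (sub (add (add (sub C x10013) x9991) x10003) x10033) x10069) x9691) x10501) x7099) x12931) x1267) x18763) x3453) x16577)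
  (sub (add (add (add (add (sub (sub (sub (sub (add (add (sub C x10023) x10031) x10043) x9983) x10127) x9695) x10505) x7103) x12935) x1271) x18767) x16579)
  (sub (add (add (add (add (sub (sub (sub (sub (sub (sub C x10019) x10035) x9987) x10131) x9699) x10509) x7107) x12939) x1275) x18771) x3463)
  (sub (add (add (add (add (sub (sub (sub (sub (add (add (sub C x10033) x10019) x10043) x10013) x10139) x9707) x10517) x7115) x12947) x1283) x18779) x16591)
  (add (add (add (add (add (add (sub (sub (sub (sub (sub (sub C x10031) x10039) x10015) x10141) x9709) x10519) x7117) x12949) x1285) x18781) x3471) x16595)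
  (sub (add (add (add (add (sub (sub (sub (add (add (sub (add (add C x10039) x10043) x10023) x9963) x9999) x10143) x9711) x10521) x7119) x12951) x1287) x18783) x3475)
  (add (add (add (add (add (add (sub (sub (sub (add (add (sub (add (add C x10035) x10043) x10033) x9967) x10003) x10147) x9715) x10525) x7123) x12955) x1291) x18787) x3477) x16601)
  (sub (add (add (add (add (sub (sub (sub (add (add (add (add (add (add C x10035) x10039) x10019) x10031) x9971) x10007) x10151) x9719) x10529) x7127) x12959) x1295) x18791) x16603)
  (add (add (add (add (add (add (sub (sub (sub (add (add (add (add (sub C x10047) x10057) x10069) x10081) x10117) x9991) x9883) x10531) x7129) x12961) x1297) x18793) x3483) x16607)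
  (sub (add (add (add (add (sub (sub (sub (add (add (sub (sub C x10045) x10053) x10083) x10119) x9993) x9885) x10533) x7131) x12963) x1299) x18795) x3487)
  (sub (add (add (add (add (sub (sub (sub (sub (sub (add (add C x10057) x10061) x10047) x10071) x9999) x9891) x10539) x7137) x12969) x1305) x18801) x3493)
  (add (add (add (add (add (add (sub (sub (sub (sub (add (add (add (add C x10053) x10061) x10045) x10069) x10075) x10003) x9895) x10543) x7141) x12973) x1309) x18805) x3495) x16619)
  (sub (add (add (add (add (sub (sub (sub (sub (sub (add (add C x10053) x10057) x10067) x10079) x10007) x9899) x10547) x7145) x12977) x1313) x18809) x16621)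
  (sub (add (add (add (add (sub (sub (sub (sub (sub (sub C x10069) x10061) x10103) x10013) x9905) x10553) x7151) x12983) x1319) x18815) x16627)
  (add (add (add (add (add (add (sub (sub (sub (sub (add (add (sub C x10067) x10045) x10057) x10105) x10015) x9907) x10555) x7153) x12985) x1321) x18817) x3507) x16631)
  (sub (add (add (add (add (sub (sub (add (add (sub (add (add (add (add C x10075) x10079) x10083) x10095) x10053) x9963) x10179) x9909) x10557) x7155) x12987) x1323) x18819) x3511)
  (add (add (add (add (add (add (sub (sub (add (add (sub (sub (add (add C x10071) x10079) x10081) x10057) x9967) x10183) x9913) x10561) x7159) x12991) x1327) x18823) x3513) x16637)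
  (sub (add (add (add (add (sub (sub (add (add (sub (sub (add (add C x10071) x10075) x10091) x10061) x9971) x10187) x9917) x10565) x7163) x12995) x1331) x18827) x16639)
  (add (add (add (add (add (add (sub (sub (add (add (add (add (sub (sub C x10083) x10075) x10045) x10117) x9973) x10189) x9919) x10567) x7165) x12997) x1333) x18829) x3519) x16643)
  (sub (add (add (add (add (sub (sub (add (add (add (add (add (add (sub C x10081) x10071) x10095) x10047) x10119) x9975) x10191) x9921) x10569) x7167) x12999) x1335) x18831) x3523)
  (sub (add (add (add (add (sub (sub (add (add (sub (sub (sub C x10095) x10079) x10109) x9983) x10199) x9929) x10577) x7175) x13007) x1343) x18839) x16651)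
  (sub (add (add (add (add (sub (sub (add (add (sub (add (add (sub C x10091) x10071) x10083) x10113) x9987) x10203) x9933) x10581) x7179) x13011) x1347) x18843) x3535)
  (sub (add (add (add (add (sub (sub (sub (sub (sub (sub C x10105) x10109) x10067) x10157) x9941) x10589) x7187) x13019) x1355) x18851) x16663)
  (add (add (add (add (add (add (sub (sub (sub (sub (sub (sub C x10103) x10117) x10069) x10159) x9943) x10591) x7189) x13021) x1357) x18853) x3543) x16667)
  (sub (add (add (add (add (sub (sub (sub (sub (sub (sub C x10113) x10103) x10091) x10163) x9947) x10595) x7193) x13025) x1361) x18857) x16669)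
  (sub (add (add (add (add (sub (sub (sub (sub (sub (sub C x10109) x10119) x10095) x10167) x9951) x10599) x7197) x13029) x1365) x18861) x3553)
  (add (add (add (add (add (add (sub (sub (sub (add (add (sub (sub C x10119) x10105) x10045) x10081) x10171) x9955) x10603) x7201) x13033) x1369) x18865) x3555) x16679)
  (sub (add (add (add (add (sub (sub (sub (add (add (sub (sub C x10117) x10113) x10047) x10083) x10173) x9957) x10605) x7203) x13035) x1371) x18867) x3559)
  (sub (add (add (add (add (sub (add (add (sub (add (add (add (add (sub C x10131) x10139) x10151) x10163) x10199) x10019) x9479) x9803) x10613) x7211) x13043) x1379) x18875) x16687)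
  (sub (add (add (add (add (sub (add (add (sub (add (add (sub (sub C x10127) x10143) x10167) x10203) x10023) x9483) x9807) x10617) x7215) x13047) x1383) x18879) x3571)
  (sub (add (add (add (add (sub (add (add (sub (sub (add (add (sub C x10141) x10127) x10151) x10157) x10031) x9491) x9815) x10625) x7223) x13055) x1391) x18887) x16699)
  (add (add (add (add (add (add (sub (add (add (sub (sub (sub (sub C x10139) x10147) x10159) x10033) x9493) x9817) x10627) x7225) x13057) x1393) x18889) x3579) x16703)
  (sub (add (add (add (add (sub (add (add (sub (sub (sub (add (add C x10147) x10151) x10131) x10179) x10035) x9495) x9819) x10629) x7227) x13059) x1395) x18891) x3583)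
  (add (add (add (add (add (add (sub (add (add (sub (sub (sub (add (add C x10143) x10151) x10141) x10183) x10039) x9499) x9823) x10633) x7231) x13063) x1399) x18895) x3585) x16709)
  (sub (add (add (add (add (sub (add (add (sub (sub (add (add (add (add C x10143) x10147) x10127) x10139) x10187) x10043) x9503) x9827) x10637) x7235) x13067) x1403) x18899) x16711)
  (sub (add (add (add (add (sub (add (add (sub (sub (sub (sub C x10159) x10163) x10139) x10103) x9509) x9833) x10643) x7241) x13073) x1409) x18905) x16717)
  (add (add (add (add (add (add (sub (add (add (sub (sub (sub (sub C x10157) x10171) x10141) x10105) x9511) x9835) x10645) x7243) x13075) x1411) x18907) x3597) x16721)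
  (sub (add (add (add (add (sub (add (add (sub (add (add (sub (sub C x10167) x10157) x10127) x10199) x10109) x9515) x9839) x10649) x7247) x13079) x1415) x18911) x16723)
  (sub (add (add (add (add (sub (add (add (sub (add (add (sub (sub C x10163) x10173) x10131) x10203) x10113) x9519) x9843) x10653) x7251) x13083) x1419) x18915) x3607)
  (add (add (add (add (add (add (sub (add (add (sub (sub (sub (sub C x10173) x10159) x10189) x10117) x9523) x9847) x10657) x7255) x13087) x1423) x18919) x3609) x16733)
  (sub (add (add (add (add (sub (add (add (sub (sub (sub (sub C x10171) x10167) x10191) x10119) x9525) x9849) x10659) x7257) x13089) x1425) x18921) x3613)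
  (sub (add (add (add (add (sub (add (add (add (add (sub (add (add (add (add C x10183) x10187) x10191) x10203) x10143) x9963) x10071) x9531) x9855) x10665) x7263) x13095) x1431) x18927) x3619)
  (add (add (add (add (add (add (sub (add (add (add (add (sub (sub (add (add C x10179) x10187) x10189) x10147) x9967) x10075) x9535) x9859) x10669) x7267) x13099) x1435) x18931) x3621) x16745)
  (sub (add (add (add (add (sub (add (add (add (add (sub (sub (add (add C x10179) x10183) x10199) x10151) x9971) x10079) x9539) x9863) x10673) x7271) x13103) x1439) x18935) x16747)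
  (add (add (add (add (add (add (sub (add (add (add (add (sub (sub (sub C x10191) x10183) x10171) x9973) x10081) x9541) x9865) x10675) x7273) x13105) x1441) x18937) x3627) x16751)
  (sub (add (add (add (add (sub (add (add (add (add (sub (add (add (sub C x10189) x10179) x10203) x10173) x9975) x10083) x9543) x9867) x10677) x7275) x13107) x1443) x18939) x3631)
  (sub (add (add (add (add (sub (add (add (add (add (add (add (sub (sub C x10203) x10187) x10127) x10163) x9983) x10091) x9551) x9875) x10685) x7283) x13115) x1451) x18947) x16759)
  (sub (add (add (add (add (sub (add (add (add (add (add (add (add (add (sub C x10199) x10179) x10191) x10131) x10167) x9987) x10095) x9555) x9879) x10689) x7287) x13119) x1455) x18951) x3643)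
  (add (add (add (add (sub (sub (add (add (add (add (add (add (add (add (sub C x10209) x10219) x10231) x10243) x10279) x10315) x10423) x10531) x10855) x9235) x11665) x1459) x18955) x3645) x16769)
  (sub (add (add (sub (sub (add (add (add (add (add (add (sub (sub C x10207) x10215) x10245) x10281) x10317) x10425) x10533) x10857) x9237) x11667) x1461) x18957) x3649)
  (sub (add (add (sub (sub (add (add (add (add (sub (sub (add (add C x10219) x10223) x10209) x10233) x10323) x10431) x10539) x10863) x9243) x11673) x1467) x18963) x3655)
  (add (add (add (add (sub (sub (add (add (add (add (sub (add (add (add (add C x10215) x10223) x10207) x10231) x10237) x10327) x10435) x10543) x10867) x9247) x11677) x1471) x18967) x3657) x16781)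
  (sub (add (add (sub (sub (add (add (add (add (sub (sub (add (add C x10215) x10219) x10229) x10241) x10331) x10439) x10547) x10871) x9251) x11681) x1475) x18971) x16783)
  (sub (add (add (sub (sub (add (add (add (add (sub (sub (sub C x10231) x10223) x10265) x10337) x10445) x10553) x10877) x9257) x11687) x1481) x18977) x16789)
  (add (add (add (add (sub (sub (add (add (add (add (sub (add (add (sub C x10229) x10207) x10219) x10267) x10339) x10447) x10555) x10879) x9259) x11689) x1483) x18979) x3669) x16793)
  (sub (add (add (sub (sub (add (add (sub (sub (add (add (add (add C x10237) x10241) x10245) x10257) x10215) x10287) x10557) x10881) x9261) x11691) x1485) x18981) x3673)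
  (add (add (add (add (sub (sub (add (add (sub (sub (sub (add (add C x10233) x10241) x10243) x10219) x10291) x10561) x10885) x9265) x11695) x1489) x18985) x3675) x16799)
  (sub (add (add (sub (sub (add (add (sub (sub (sub (add (add C x10233) x10237) x10253) x10223) x10295) x10565) x10889) x9269) x11699) x1493) x18989) x16801)
  (add (add (add (add (sub (sub (add (add (sub (add (add (sub (sub C x10245) x10237) x10207) x10279) x10297) x10567) x10891) x9271) x11701) x1495) x18991) x3681) x16805)
  (sub (add (add (sub (sub (add (add (sub (add (add (add (add (sub C x10243) x10233) x10257) x10209) x10281) x10299) x10569) x10893) x9273) x11703) x1497) x18993) x3685)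
  (sub (add (add (sub (sub (add (add (sub (sub (sub (sub C x10257) x10241) x10271) x10307) x10577) x10901) x9281) x11711) x1505) x19001) x16813)
  (sub (add (add (sub (sub (add (add (sub (sub (add (add (sub C x10253) x10233) x10245) x10275) x10311) x10581) x10905) x9285) x11715) x1509) x19005) x3697)
  (sub (add (add (sub (sub (add (add (sub (sub (sub (sub C x10267) x10271) x10229) x10373) x10589) x10913) x9293) x11723) x1517) x19013) x16825)
  (add (add (add (add (sub (sub (add (add (sub (sub (sub (sub C x10265) x10279) x10231) x10375) x10591) x10915) x9295) x11725) x1519) x19015) x3705) x16829)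
  (sub (add (add (sub (sub (add (add (sub (sub (sub (sub C x10275) x10265) x10253) x10379) x10595) x10919) x9299) x11729) x1523) x19019) x16831)
  (sub (add (add (sub (sub (add (add (sub (sub (sub (sub C x10271) x10281) x10257) x10383) x10599) x10923) x9303) x11733) x1527) x19023) x3715)
  (add (add (add (add (sub (sub (add (add (sub (add (add (sub (sub C x10281) x10267) x10207) x10243) x10387) x10603) x10927) x9307) x11737) x1531) x19027) x3717) x16841)
  (sub (add (add (sub (sub (add (add (sub (add (add (sub (sub C x10279) x10275) x10209) x10245) x10389) x10605) x10929) x9309) x11739) x1533) x19029) x3721)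
  (sub (add (add (sub (sub (sub (sub (add (add (add (add (add (add C x10291) x10295) x10299) x10311) x10323) x10359) x10233) x10449) x9315) x11745) x1539) x19035) x3727)
  (add (add (add (add (sub (sub (sub (sub (add (add (sub (add (add C x10287) x10295) x10297) x10327) x10363) x10237) x10453) x9319) x11749) x1543) x19039) x3729) x16853)
  (sub (add (add (sub (sub (sub (sub (add (add (sub (add (add C x10287) x10291) x10307) x10331) x10367) x10241) x10457) x9323) x11753) x1547) x19043) x16855)
  (add (add (add (add (sub (sub (sub (sub (sub (sub (sub C x10299) x10291) x10315) x10243) x10459) x9325) x11755) x1549) x19045) x3735) x16859)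
  (sub (add (add (sub (sub (sub (sub (sub (add (add (sub C x10297) x10287) x10311) x10317) x10245) x10461) x9327) x11757) x1551) x19047) x3739)
  (sub (add (add (sub (sub (sub (sub (sub (sub (sub C x10311) x10295) x10343) x10253) x10469) x9335) x11765) x1559) x19055) x16867)
  (sub (add (add (sub (sub (sub (sub (sub (add (add (sub C x10307) x10287) x10299) x10347) x10257) x10473) x9339) x11769) x1563) x19059) x3751)
  (add (add (add (add (sub (sub (sub (add (add (sub (add (add (sub C x10317) x10327) x10339) x10297) x10207) x10423) x10477) x9343) x11773) x1567) x19063) x3753) x16877)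
  (sub (add (add (sub (sub (sub (add (add (sub (sub (sub C x10315) x10323) x10299) x10209) x10425) x10479) x9345) x11775) x1569) x19065) x3757)
  (sub (add (add (sub (sub (sub (add (add (add (add (sub (add (add C x10327) x10331) x10317) x10287) x10359) x10215) x10431) x10485) x9351) x11781) x1575) x19071) x3763)
  (add (add (add (add (sub (sub (sub (add (add (add (add (add (add (add (add C x10323) x10331) x10315) x10339) x10291) x10363) x10219) x10435) x10489) x9355) x11785) x1579) x19075) x3765) x16889)
  (sub (add (add (sub (sub (sub (add (add (add (add (sub (add (add C x10323) x10327) x10337) x10295) x10367) x10223) x10439) x10493) x9359) x11789) x1583) x19079) x16891)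
  (sub (add (add (sub (sub (sub (add (add (sub (sub (sub C x10339) x10331) x10355) x10229) x10445) x10499) x9365) x11795) x1589) x19085) x16897)
  (add (add (add (add (sub (sub (sub (add (add (sub (add (add (sub C x10337) x10315) x10327) x10357) x10231) x10447) x10501) x9367) x11797) x1591) x19087) x3777) x16901)
  (sub (add (add (sub (sub (sub (sub (sub (add (add (sub C x10347) x10355) x10367) x10307) x10397) x10505) x9371) x11801) x1595) x19091) x16903)
  (sub (add (add (sub (sub (sub (sub (sub (sub (sub C x10343) x10359) x10311) x10401) x10509) x9375) x11805) x1599) x19095) x3787)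
  (sub (add (add (sub (sub (sub (sub (sub (add (add (sub C x10357) x10343) x10367) x10337) x10409) x10517) x9383) x11813) x1607) x19103) x16915)
  (add (add (add (add (sub (sub (sub (sub (sub (sub (sub C x10355) x10363) x10339) x10411) x10519) x9385) x11815) x1609) x19105) x3795) x16919)
  (sub (add (add (sub (sub (sub (sub (add (add (sub (add (add C x10363) x10367) x10347) x10287) x10323) x10413) x10521) x9387) x11817) x1611) x19107) x3799)
  (add (add (add (add (sub (sub (sub (sub (add (add (sub (add (add C x10359) x10367) x10357) x10291) x10327) x10417) x10525) x9391) x11821) x1615) x19111) x3801) x16925)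
  (sub (add (add (sub (sub (sub (sub (add (add (add (add (add (add C x10359) x10363) x10343) x10355) x10295) x10331) x10421) x10529) x9395) x11825) x1619) x19115) x16927)
  (sub (add (add (sub (sub (sub (sub (add (add (sub (sub C x10375) x10379) x10409) x10445) x10265) x10697) x9401) x11831) x1625) x19121) x16933)
  (add (add (add (add (sub (sub (sub (sub (add (add (sub (sub C x10373) x10387) x10411) x10447) x10267) x10699) x9403) x11833) x1627) x19123) x3813) x16937)
  (sub (add (add (sub (sub (sub (sub (sub (sub (sub C x10383) x10373) x10397) x10271) x10703) x9407) x11837) x1631) x19127) x16939)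
  (sub (add (add (sub (sub (sub (sub (sub (sub (sub C x10379) x10389) x10401) x10275) x10707) x9411) x11841) x1635) x19131) x3823)
  (add (add (add (add (sub (sub (sub (sub (sub (sub (sub C x10389) x10375) x10423) x10279) x10711) x9415) x11845) x1639) x19135) x3825) x16949)
  (sub (add (add (sub (sub (sub (sub (sub (sub (sub C x10387) x10383) x10425) x10281) x10713) x9417) x11847) x1641) x19137) x3829)
  (sub (add (add (sub (sub (sub (sub (sub (add (add (sub C x10401) x10409) x10421) x10379) x10343) x10721) x9425) x11855) x1649) x19145) x16957)
  (sub (add (add (sub (sub (sub (sub (sub (sub (sub C x10397) x10413) x10383) x10347) x10725) x9429) x11859) x1653) x19149) x3841)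
  (sub (add (add (sub (sub (sub (sub (add (add (add (add (sub C x10411) x10397) x10421) x10373) x10445) x10355) x10733) x9437) x11867) x1661) x19157) x16969)
  (add (add (add (add (sub (sub (sub (sub (add (add (sub (sub C x10409) x10417) x10375) x10447) x10357) x10735) x9439) x11869) x1663) x19159) x3849) x16973)
  (sub (add (add (sub (sub (sub (sub (sub (sub (add (add C x10417) x10421) x10401) x10431) x10359) x10737) x9441) x11871) x1665) x19161) x3853)
  (add (add (add (add (sub (sub (sub (sub (sub (sub (add (add C x10413) x10421) x10411) x10435) x10363) x10741) x9445) x11875) x1669) x19165) x3855) x16979)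
  (sub (add (add (sub (sub (sub (sub (sub (add (add (add (add C x10413) x10417) x10397) x10409) x10439) x10367) x10745) x9449) x11879) x1673) x19169) x16981)
  (add (add (add (add (sub (sub (sub (add (add (sub (add (add (sub C x10425) x10435) x10447) x10387) x10207) x10315) x10747) x9451) x11881) x1675) x19171) x3861) x16985)
  (sub (add (add (sub (sub (sub (add (add (sub (sub (sub C x10423) x10431) x10389) x10209) x10317) x10749) x9453) x11883) x1677) x19173) x3865)
  (sub (add (add (sub (sub (sub (add (add (sub (sub (add (add C x10435) x10439) x10425) x10413) x10215) x10323) x10755) x9459) x11889) x1683) x19179) x3871)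
  (add (add (add (add (sub (sub (sub (add (add (sub (add (add (add (add C x10431) x10439) x10423) x10447) x10417) x10219) x10327) x10759) x9463) x11893) x1687) x19183) x3873) x16997)
  (sub (add (add (sub (sub (sub (add (add (sub (sub (add (add C x10431) x10435) x10445) x10421) x10223) x10331) x10763) x9467) x11897) x1691) x19187) x16999)
  (sub (add (add (sub (sub (sub (add (add (add (add (sub (sub C x10447) x10439) x10373) x10409) x10229) x10337) x10769) x9473) x11903) x1697) x19193) x17005)
  (add (add (add (add (sub (sub (sub (add (add (add (add (add (add (sub C x10445) x10423) x10435) x10375) x10411) x10231) x10339) x10771) x9475) x11905) x1699) x19195) x3885) x17009)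
  (sub (add (add (sub (sub (sub (add (add (add (add (add (add (add (add C x10453) x10457) x10461) x10473) x10485) x10521) x10557) x10665) x10287) x9963) x11907) x1701) x19197) x3889)
  (add (add (add (add (sub (sub (sub (add (add (add (add (sub (add (add C x10449) x10457) x10459) x10489) x10525) x10561) x10669) x10291) x9967) x11911) x1705) x19201) x3891) x17015)
  (sub (add (add (sub (sub (sub (add (add (add (add (sub (add (add C x10449) x10453) x10469) x10493) x10529) x10565) x10673) x10295) x9971) x11915) x1709) x19205) x17017)
  (add (add (add (add (sub (sub (sub (add (add (sub (sub (sub C x10461) x10453) x10477) x10567) x10675) x10297) x9973) x11917) x1711) x19207) x3897) x17021)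
  (sub (add (add (sub (sub (sub (add (add (sub (add (add (sub C x10459) x10449) x10473) x10479) x10569) x10677) x10299) x9975) x11919) x1713) x19209) x3901)
  (sub (add (add (sub (sub (sub (add (add (sub (sub (sub C x10473) x10457) x10505) x10577) x10685) x10307) x9983) x11927) x1721) x19217) x17029)
  (sub (add (add (sub (sub (sub (add (add (sub (add (add (sub C x10469) x10449) x10461) x10509) x10581) x10689) x10311) x9987) x11931) x1725) x19221) x3913)
  (add (add (add (add (sub (sub (sub (sub (sub (add (add (sub C x10479) x10489) x10501) x10459) x10531) x10315) x9991) x11935) x1729) x19225) x3915) x17039)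
  (sub (add (add (sub (sub (sub (sub (sub (sub (sub C x10477) x10485) x10461) x10533) x10317) x9993) x11937) x1731) x19227) x3919)
  (sub (add (add (sub (sub (sub (sub (add (add (sub (add (add C x10489) x10493) x10479) x10449) x10521) x10539) x10323) x9999) x11943) x1737) x19233) x3925)
  (add (add (add (add (sub (sub (sub (sub (add (add (add (add (add (add C x10485) x10493) x10477) x10501) x10453) x10525) x10543) x10327) x10003) x11947) x1741) x19237) x3927) x17051)
  (sub (add (add (sub (sub (sub (sub (add (add (sub (add (add C x10485) x10489) x10499) x10457) x10529) x10547) x10331) x10007) x11951) x1745) x19241) x17053)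
  (sub (add (add (sub (sub (sub (sub (sub (sub (sub C x10501) x10493) x10517) x10553) x10337) x10013) x11957) x1751) x19247) x17059)
  (add (add (add (add (sub (sub (sub (sub (sub (add (add (sub C x10499) x10477) x10489) x10519) x10555) x10339) x10015) x11959) x1753) x19249) x3939) x17063)
  (sub (add (add (sub (sub (sub (sub (sub (add (add (sub C x10509) x10517) x10529) x10469) x10613) x10343) x10019) x11963) x1757) x19253) x17065)
  (sub (add (add (sub (sub (sub (sub (sub (sub (sub C x10505) x10521) x10473) x10617) x10347) x10023) x11967) x1761) x19257) x3949)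
  (sub (add (add (sub (sub (sub (sub (sub (add (add (sub C x10519) x10505) x10529) x10499) x10625) x10355) x10031) x11975) x1769) x19265) x17077)
  (add (add (add (add (sub (sub (sub (sub (sub (sub (sub C x10517) x10525) x10501) x10627) x10357) x10033) x11977) x1771) x19267) x3957) x17081)
  (sub (add (add (sub (sub (sub (sub (add (add (sub (add (add C x10525) x10529) x10509) x10449) x10485) x10629) x10359) x10035) x11979) x1773) x19269) x3961)
  (add (add (add (add (sub (sub (sub (sub (add (add (sub (add (add C x10521) x10529) x10519) x10453) x10489) x10633) x10363) x10039) x11983) x1777) x19273) x3963) x17087)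
  (sub (add (add (sub (sub (sub (sub (add (add (add (add (add (add C x10521) x10525) x10505) x10517) x10457) x10493) x10637) x10367) x10043) x11987) x1781) x19277) x17089)
  (add (add (add (add (sub (sub (add (add (sub (add (add (add (add (sub C x10533) x10543) x10555) x10567) x10603) x10477) x10207) x10855) x10045) x11989) x1783) x19279) x3969) x17093)
  (sub (add (add (sub (sub (add (add (sub (add (add (sub (sub C x10531) x10539) x10569) x10605) x10479) x10209) x10857) x10047) x11991) x1785) x19281) x3973)
  (sub (add (add (sub (sub (add (add (sub (sub (sub (add (add C x10543) x10547) x10533) x10557) x10485) x10215) x10863) x10053) x11997) x1791) x19287) x3979)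
  (add (add (add (add (sub (sub (add (add (sub (sub (add (add (add (add C x10539) x10547) x10531) x10555) x10561) x10489) x10219) x10867) x10057) x12001) x1795) x19291) x3981) x17105)
  (sub (add (add (sub (sub (add (add (sub (sub (sub (add (add C x10539) x10543) x10553) x10565) x10493) x10223) x10871) x10061) x12005) x1799) x19295) x17107)
  (sub (add (add (sub (sub (add (add (sub (sub (sub (sub C x10555) x10547) x10589) x10499) x10229) x10877) x10067) x12011) x1805) x19301) x17113)
  (add (add (add (add (sub (sub (add (add (sub (sub (add (add (sub C x10553) x10531) x10543) x10591) x10501) x10231) x10879) x10069) x12013) x1807) x19303) x3993) x17117)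
  (sub (add (add (sub (sub (add (add (add (add (sub (add (add (add (add C x10561) x10565) x10569) x10581) x10539) x10449) x10665) x10233) x10881) x10071) x12015) x1809) x19305) x3997)
  (add (add (add (add (sub (sub (add (add (add (add (sub (sub (add (add C x10557) x10565) x10567) x10543) x10453) x10669) x10237) x10885) x10075) x12019) x1813) x19309) x3999) x17123)
  (sub (add (add (sub (sub (add (add (add (add (sub (sub (add (add C x10557) x10561) x10577) x10547) x10457) x10673) x10241) x10889) x10079) x12023) x1817) x19313) x17125)
  (add (add (add (add (sub (sub (add (add (add (add (add (add (sub (sub C x10569) x10561) x10531) x10603) x10459) x10675) x10243) x10891) x10081) x12025) x1819) x19315) x4005) x17129)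
  (sub (add (add (sub (sub (add (add (add (add (add (add (add (add (sub C x10567) x10557) x10581) x10533) x10605) x10461) x10677) x10245) x10893) x10083) x12027) x1821) x19317) x4009)
  (sub (add (add (sub (sub (add (add (add (add (sub (sub (sub C x10581) x10565) x10595) x10469) x10685) x10253) x10901) x10091) x12035) x1829) x19325) x17137)
  (sub (add (add (sub (sub (add (add (add (add (sub (add (add (sub C x10577) x10557) x10569) x10599) x10473) x10689) x10257) x10905) x10095) x12039) x1833) x19329) x4021)
  (sub (add (add (sub (sub (add (add (sub (sub (sub (sub C x10591) x10595) x10553) x10643) x10265) x10913) x10103) x12047) x1841) x19337) x17149)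
  (add (add (add (add (sub (sub (add (add (sub (sub (sub (sub C x10589) x10603) x10555) x10645) x10267) x10915) x10105) x12049) x1843) x19339) x4029) x17153)
  (sub (add (add (sub (sub (add (add (sub (sub (sub (sub C x10599) x10589) x10577) x10649) x10271) x10919) x10109) x12053) x1847) x19343) x17155)
  (sub (add (add (sub (sub (add (add (sub (sub (sub (sub C x10595) x10605) x10581) x10653) x10275) x10923) x10113) x12057) x1851) x19347) x4039)
  (add (add (add (add (sub (sub (add (add (sub (add (add (sub (sub C x10605) x10591) x10531) x10567) x10657) x10279) x10927) x10117) x12061) x1855) x19351) x4041) x17165)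
  (sub (add (add (sub (sub (add (add (sub (add (add (sub (sub C x10603) x10599) x10533) x10569) x10659) x10281) x10929) x10119) x12063) x1857) x19353) x4045)
  (sub (add (add (sub (sub (sub (sub (add (add (add (add (sub C x10617) x10625) x10637) x10649) x10685) x10505) x10775) x10127) x12071) x1865) x19361) x17173)
  (sub (add (add (sub (sub (sub (sub (add (add (sub (sub C x10613) x10629) x10653) x10689) x10509) x10779) x10131) x12075) x1869) x19365) x4057)
  (sub (add (add (sub (sub (sub (sub (sub (add (add (sub C x10627) x10613) x10637) x10643) x10517) x10787) x10139) x12083) x1877) x19373) x17185)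
  (add (add (add (add (sub (sub (sub (sub (sub (sub (sub C x10625) x10633) x10645) x10519) x10789) x10141) x12085) x1879) x19375) x4065) x17189)
  (sub (add (add (sub (sub (sub (sub (sub (sub (add (add C x10633) x10637) x10617) x10665) x10521) x10791) x10143) x12087) x1881) x19377) x4069)
  (add (add (add (add (sub (sub (sub (sub (sub (sub (add (add C x10629) x10637) x10627) x10669) x10525) x10795) x10147) x12091) x1885) x19381) x4071) x17195)
  (sub (add (add (sub (sub (sub (sub (sub (add (add (add (add C x10629) x10633) x10613) x10625) x10673) x10529) x10799) x10151) x12095) x1889) x19385) x17197)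
  (sub (add (add (sub (sub (sub (sub (sub (sub (sub C x10645) x10649) x10625) x10589) x10805) x10157) x12101) x1895) x19391) x17203)
  (add (add (add (add (sub (sub (sub (sub (sub (sub (sub C x10643) x10657) x10627) x10591) x10807) x10159) x12103) x1897) x19393) x4083) x17207)
  (sub (add (add (sub (sub (sub (sub (add (add (sub (sub C x10653) x10643) x10613) x10685) x10595) x10811) x10163) x12107) x1901) x19397) x17209)
  (sub (add (add (sub (sub (sub (sub (add (add (sub (sub C x10649) x10659) x10617) x10689) x10599) x10815) x10167) x12111) x1905) x19401) x4093)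
  (add (add (add (add (sub (sub (sub (sub (sub (sub (sub C x10659) x10645) x10675) x10603) x10819) x10171) x12115) x1909) x19405) x4095) x17219)
  (sub (add (add (sub (sub (sub (sub (sub (sub (sub C x10657) x10653) x10677) x10605) x10821) x10173) x12117) x1911) x19407) x4099)
  (sub (add (add (sub (sub (sub (add (add (sub (add (add (add (add C x10669) x10673) x10677) x10689) x10629) x10449) x10557) x10827) x10179) x12123) x1917) x19413) x4105)
  (add (add (add (add (sub (sub (sub (add (add (sub (sub (add (add C x10665) x10673) x10675) x10633) x10453) x10561) x10831) x10183) x12127) x1921) x19417) x4107) x17231)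
  (sub (add (add (sub (sub (sub (add (add (sub (sub (add (add C x10665) x10669) x10685) x10637) x10457) x10565) x10835) x10187) x12131) x1925) x19421) x17233)
  (add (add (add (add (sub (sub (sub (add (add (sub (sub (sub C x10677) x10669) x10657) x10459) x10567) x10837) x10189) x12133) x1927) x19423) x4113) x17237)
  (sub (add (add (sub (sub (sub (add (add (sub (add (add (sub C x10675) x10665) x10689) x10659) x10461) x10569) x10839) x10191) x12135) x1929) x19425) x4117)
  (sub (add (add (sub (sub (sub (add (add (add (add (sub (sub C x10689) x10673) x10613) x10649) x10469) x10577) x10847) x10199) x12143) x1937) x19433) x17245)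
  (sub (add (add (sub (sub (sub (add (add (add (add (add (add (sub C x10685) x10665) x10677) x10617) x10653) x10473) x10581) x10851) x10203) x12147) x1941) x19437) x4129)
  (sub (add (add (sub (add (add (sub (add (add (add (add (sub (sub C x10699) x10703) x10733) x10769) x10805) x10913) x10373) x8753) x9725) x12155) x1949) x19445) x17257)
  (add (add (add (add (sub (add (add (sub (add (add (add (add (sub (sub C x10697) x10711) x10735) x10771) x10807) x10915) x10375) x8755) x9727) x12157) x1951) x19447) x4137) x17261)
  (sub (add (add (sub (add (add (sub (add (add (sub (sub (sub C x10707) x10697) x10721) x10811) x10919) x10379) x8759) x9731) x12161) x1955) x19451) x17263)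
  (sub (add (add (sub (add (add (sub (add (add (sub (sub (sub C x10703) x10713) x10725) x10815) x10923) x10383) x8763) x9735) x12165) x1959) x19455) x4147)
  (add (add (add (add (sub (add (add (sub (add (add (sub (sub (sub C x10713) x10699) x10747) x10819) x10927) x10387) x8767) x9739) x12169) x1963) x19459) x4149) x17273)
  (sub (add (add (sub (add (add (sub (add (add (sub (sub (sub C x10711) x10707) x10749) x10821) x10929) x10389) x8769) x9741) x12171) x1965) x19461) x4153)
  (sub (add (add (sub (add (add (sub (sub (sub (add (add (sub C x10725) x10733) x10745) x10703) x10775) x10397) x8777) x9749) x12179) x1973) x19469) x17281)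
  (sub (add (add (sub (add (add (sub (sub (sub (sub (sub C x10721) x10737) x10707) x10779) x10401) x8781) x9753) x12183) x1977) x19473) x4165)
  (sub (add (add (sub (add (add (sub (sub (add (add (add (add (sub C x10735) x10721) x10745) x10697) x10769) x10787) x10409) x8789) x9761) x12191) x1985) x19481) x17293)
  (add (add (add (add (sub (add (add (sub (sub (add (add (sub (sub C x10733) x10741) x10699) x10771) x10789) x10411) x8791) x9763) x12193) x1987) x19483) x4173) x17297)
  (sub (add (add (sub (add (add (sub (sub (sub (sub (add (add C x10741) x10745) x10725) x10755) x10791) x10413) x8793) x9765) x12195) x1989) x19485) x4177)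
  (add (add (add (add (sub (add (add (sub (sub (sub (sub (add (add C x10737) x10745) x10735) x10759) x10795) x10417) x8797) x9769) x12199) x1993) x19489) x4179) x17303)
  (sub (add (add (sub (add (add (sub (sub (sub (add (add (add (add C x10737) x10741) x10721) x10733) x10763) x10799) x10421) x8801) x9773) x12203) x1997) x19493) x17305)
  (add (add (add (add (sub (add (add (sub (sub (sub (add (add (sub C x10749) x10759) x10771) x10711) x10855) x10423) x8803) x9775) x12205) x1999) x19495) x4185) x17309)
  (sub (add (add (sub (add (add (sub (sub (sub (sub (sub C x10747) x10755) x10713) x10857) x10425) x8805) x9777) x12207) x2001) x19497) x4189)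
  (sub (add (add (sub (add (add (sub (sub (sub (sub (add (add C x10759) x10763) x10749) x10737) x10863) x10431) x8811) x9783) x12213) x2007) x19503) x4195)
  (add (add (add (add (sub (add (add (sub (sub (sub (add (add (add (add C x10755) x10763) x10747) x10771) x10741) x10867) x10435) x8815) x9787) x12217) x2011) x19507) x4197) x17321)
  (sub (add (add (sub (add (add (sub (sub (sub (sub (add (add C x10755) x10759) x10769) x10745) x10871) x10439) x8819) x9791) x12221) x2015) x19511) x17323)
  (sub (add (add (sub (add (add (sub (sub (add (add (sub (sub C x10771) x10763) x10697) x10733) x10877) x10445) x8825) x9797) x12227) x2021) x19517) x17329)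
  (add (add (add (add (sub (add (add (sub (sub (add (add (add (add (sub C x10769) x10747) x10759) x10699) x10735) x10879) x10447) x8827) x9799) x12229) x2023) x19519) x4209) x17333)
  (sub (add (add (sub (add (add (sub (sub (add (add (add (add (sub C x10779) x10787) x10799) x10811) x10847) x10721) x10613) x8831) x9803) x12233) x2027) x19523) x17335)
  (sub (add (add (sub (add (add (sub (sub (add (add (sub (sub C x10775) x10791) x10815) x10851) x10725) x10617) x8835) x9807) x12237) x2031) x19527) x4219)
  (sub (add (add (sub (add (add (sub (sub (sub (add (add (sub C x10789) x10775) x10799) x10805) x10733) x10625) x8843) x9815) x12245) x2039) x19535) x17347)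
  (add (add (add (add (sub (add (add (sub (sub (sub (sub (sub C x10787) x10795) x10807) x10735) x10627) x8845) x9817) x12247) x2041) x19537) x4227) x17351)
  (sub (add (add (sub (add (add (sub (sub (sub (sub (add (add C x10795) x10799) x10779) x10827) x10737) x10629) x8847) x9819) x12249) x2043) x19539) x4231)
  (add (add (add (add (sub (add (add (sub (sub (sub (sub (add (add C x10791) x10799) x10789) x10831) x10741) x10633) x8851) x9823) x12253) x2047) x19543) x4233) x17357)
  (sub (add (add (sub (add (add (sub (sub (sub (add (add (add (add C x10791) x10795) x10775) x10787) x10835) x10745) x10637) x8855) x9827) x12257) x2051) x19547) x17359)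
  (sub (add (add (sub (add (add (sub (add (add (sub (sub (sub C x10807) x10811) x10787) x10697) x10913) x10643) x8861) x9833) x12263) x2057) x19553) x17365)
  (add (add (add (add (sub (add (add (sub (add (add (sub (sub (sub C x10805) x10819) x10789) x10699) x10915) x10645) x8863) x9835) x12265) x2059) x19555) x4245) x17369)
  (sub (add (add (sub (add (add (sub (add (add (add (add (sub (sub C x10815) x10805) x10775) x10847) x10703) x10919) x10649) x8867) x9839) x12269) x2063) x19559) x17371)
  (sub (add (add (sub (add (add (sub (add (add (add (add (sub (sub C x10811) x10821) x10779) x10851) x10707) x10923) x10653) x8871) x9843) x12273) x2067) x19563) x4255)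
  (add (add (add (add (sub (add (add (sub (add (add (sub (sub (sub C x10821) x10807) x10837) x10711) x10927) x10657) x8875) x9847) x12277) x2071) x19567) x4257) x17381)
  (sub (add (add (sub (add (add (sub (add (add (sub (sub (sub C x10819) x10815) x10839) x10713) x10929) x10659) x8877) x9849) x12279) x2073) x19569) x4261)
  (sub (add (add (sub (add (add (sub (sub (sub (add (add (add (add C x10831) x10835) x10839) x10851) x10791) x10881) x10665) x8883) x9855) x12285) x2079) x19575) x4267)
  (add (add (add (add (sub (add (add (sub (sub (sub (sub (add (add C x10827) x10835) x10837) x10795) x10885) x10669) x8887) x9859) x12289) x2083) x19579) x4269) x17393)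
  (sub (add (add (sub (add (add (sub (sub (sub (sub (add (add C x10827) x10831) x10847) x10799) x10889) x10673) x8891) x9863) x12293) x2087) x19583) x17395)
  (add (add (add (add (sub (add (add (sub (sub (sub (sub (sub C x10839) x10831) x10819) x10891) x10675) x8893) x9865) x12295) x2089) x19585) x4275) x17399)
  (sub (add (add (sub (add (add (sub (sub (sub (add (add (sub C x10837) x10827) x10851) x10821) x10893) x10677) x8895) x9867) x12297) x2091) x19587) x4279)
  (sub (add (add (sub (add (add (sub (sub (add (add (sub (sub C x10851) x10835) x10775) x10811) x10901) x10685) x8903) x9875) x12305) x2099) x19595) x17407)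
  (sub (add (add (sub (add (add (sub (sub (add (add (add (add (sub C x10847) x10827) x10839) x10779) x10815) x10905) x10689) x8907) x9879) x12309) x2103) x19599) x4291)
  (add (add (add (add (sub (add (add (add (add (sub (add (add (add (add (sub C x10857) x10867) x10879) x10891) x10927) x10747) x10207) x10531) x8911) x9883) x12313) x2107) x19603) x4293) x17417)
  (sub (add (add (sub (add (add (add (add (sub (add (add (sub (sub C x10855) x10863) x10893) x10929) x10749) x10209) x10533) x8913) x9885) x12315) x2109) x19605) x4297)
  (sub (add (add (sub (add (add (add (add (sub (sub (sub (add (add C x10867) x10871) x10857) x10881) x10755) x10215) x10539) x8919) x9891) x12321) x2115) x19611) x4303)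
  (add (add (add (add (sub (add (add (add (add (sub (sub (add (add (add (add C x10863) x10871) x10855) x10879) x10885) x10759) x10219) x10543) x8923) x9895) x12325) x2119) x19615) x4305) x17429)
  (sub (add (add (sub (add (add (add (add (sub (sub (sub (add (add C x10863) x10867) x10877) x10889) x10763) x10223) x10547) x8927) x9899) x12329) x2123) x19619) x17431)
  (sub (add (add (sub (add (add (add (add (sub (sub (sub (sub C x10879) x10871) x10913) x10769) x10229) x10553) x8933) x9905) x12335) x2129) x19625) x17437)
  (add (add (add (add (sub (add (add (add (add (sub (sub (add (add (sub C x10877) x10855) x10867) x10915) x10771) x10231) x10555) x8935) x9907) x12337) x2131) x19627) x4317) x17441)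
  (sub (add (add (sub (add (add (add (add (sub (sub (add (add (add (add C x10885) x10889) x10893) x10905) x10863) x10827) x10233) x10557) x8937) x9909) x12339) x2133) x19629) x4321)
  (add (add (add (add (sub (add (add (add (add (sub (sub (sub (add (add C x10881) x10889) x10891) x10867) x10831) x10237) x10561) x8941) x9913) x12343) x2137) x19633) x4323) x17447)
  (sub (add (add (sub (add (add (add (add (sub (sub (sub (add (add C x10881) x10885) x10901) x10871) x10835) x10241) x10565) x8945) x9917) x12347) x2141) x19637) x17449)
  (add (add (add (add (sub (add (add (add (add (sub (add (add (sub (sub C x10893) x10885) x10855) x10927) x10837) x10243) x10567) x8947) x9919) x12349) x2143) x19639) x4329) x17453)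
  (sub (add (add (sub (add (add (add (add (sub (add (add (add (add (sub C x10891) x10881) x10905) x10857) x10929) x10839) x10245) x10569) x8949) x9921) x12351) x2145) x19641) x4333)
  (sub (add (add (sub (add (add (add (add (sub (sub (sub (sub C x10905) x10889) x10919) x10847) x10253) x10577) x8957) x9929) x12359) x2153) x19649) x17461)
  (sub (add (add (sub (add (add (add (add (sub (sub (add (add (sub C x10901) x10881) x10893) x10923) x10851) x10257) x10581) x8961) x9933) x12363) x2157) x19653) x4345)
  (sub (add (add (sub (add (add (add (add (add (add (sub (sub (sub C x10915) x10919) x10877) x10697) x10805) x10265) x10589) x8969) x9941) x12371) x2165) x19661) x17473)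
  (add (add (add (add (sub (add (add (add (add (add (add (sub (sub (sub C x10913) x10927) x10879) x10699) x10807) x10267) x10591) x8971) x9943) x12373) x2167) x19663) x4353) x17477)
  (sub (add (add (sub (add (add (add (add (add (add (sub (sub (sub C x10923) x10913) x10901) x10703) x10811) x10271) x10595) x8975) x9947) x12377) x2171) x19667) x17479)
  (sub (add (add (sub (add (add (add (add (add (add (sub (sub (sub C x10919) x10929) x10905) x10707) x10815) x10275) x10599) x8979) x9951) x12381) x2175) x19671) x4363)
  (add (add (add (add (sub (add (add (add (add (add (add (add (add (sub (sub C x10929) x10915) x10855) x10891) x10711) x10819) x10279) x10603) x8983) x9955) x12385) x2179) x19675) x4365) x17489)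
  (sub (add (add (sub (add (add (add (add (add (add (add (add (sub (sub C x10927) x10923) x10857) x10893) x10713) x10821) x10281) x10605) x8985) x9957) x12387) x2181) x19677) x4369)
  (sub (sub (sub (add (add (add (add (add (add (add (add (add (add (add (add C x10939) x10943) x10947) x10959) x10971) x11007) x11043) x11151) x11259) x11583) x11907) x12879) x8019) x15309) x4375)
  (add (add (sub (sub (add (add (add (add (add (add (add (add (sub (add (add C x10935) x10943) x10945) x10975) x11011) x11047) x11155) x11263) x11587) x11911) x12883) x8023) x15313) x4377) x17501)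
  (sub (sub (sub (add (add (add (add (add (add (add (add (sub (add (add C x10935) x10939) x10955) x10979) x11015) x11051) x11159) x11267) x11591) x11915) x12887) x8027) x15317) x17503)
  (add (add (sub (sub (add (add (add (add (add (add (sub (sub (sub C x10947) x10939) x10963) x11053) x11161) x11269) x11593) x11917) x12889) x8029) x15319) x4383) x17507)
  (sub (sub (sub (add (add (add (add (add (add (sub (add (add (sub C x10945) x10935) x10959) x10965) x11055) x11163) x11271) x11595) x11919) x12891) x8031) x15321) x4387)
  (sub (sub (sub (add (add (add (add (add (add (sub (sub (sub C x10959) x10943) x10991) x11063) x11171) x11279) x11603) x11927) x12899) x8039) x15329) x17515)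
  (sub (sub (sub (add (add (add (add (add (add (sub (add (add (sub C x10955) x10935) x10947) x10995) x11067) x11175) x11283) x11607) x11931) x12903) x8043) x15333) x4399)
  (add (add (sub (sub (add (add (add (add (sub (sub (add (add (sub C x10965) x10975) x10987) x10945) x11017) x11287) x11611) x11935) x12907) x8047) x15337) x4401) x17525)
  (sub (sub (sub (add (add (add (add (sub (sub (sub (sub C x10963) x10971) x10947) x11019) x11289) x11613) x11937) x12909) x8049) x15339) x4405)
  (sub (sub (sub (add (add (add (add (sub (add (add (sub (add (add C x10975) x10979) x10965) x10935) x11007) x11025) x11295) x11619) x11943) x12915) x8055) x15345) x4411)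
  (add (add (sub (sub (add (add (add (add (sub (add (add (add (add (add (add C x10971) x10979) x10963) x10987) x10939) x11011) x11029) x11299) x11623) x11947) x12919) x8059) x15349) x4413) x17537)
  (sub (sub (sub (add (add (add (add (sub (add (add (sub (add (add C x10971) x10975) x10985) x10943) x11015) x11033) x11303) x11627) x11951) x12923) x8063) x15353) x17539)
  (sub (sub (sub (add (add (add (add (sub (sub (sub (sub C x10987) x10979) x11003) x11039) x11309) x11633) x11957) x12929) x8069) x15359) x17545)
  (add (add (sub (sub (add (add (add (add (sub (sub (add (add (sub C x10985) x10963) x10975) x11005) x11041) x11311) x11635) x11959) x12931) x8071) x15361) x4425) x17549)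
  (sub (sub (sub (add (add (add (add (sub (sub (add (add (sub C x10995) x11003) x11015) x10955) x11099) x11315) x11639) x11963) x12935) x8075) x15365) x17551)
  (sub (sub (sub (add (add (add (add (sub (sub (sub (sub C x10991) x11007) x10959) x11103) x11319) x11643) x11967) x12939) x8079) x15369) x4435)
  (sub (sub (sub (add (add (add (add (sub (sub (add (add (sub C x11005) x10991) x11015) x10985) x11111) x11327) x11651) x11975) x12947) x8087) x15377) x17563)
  (add (add (sub (sub (add (add (add (add (sub (sub (sub (sub C x11003) x11011) x10987) x11113) x11329) x11653) x11977) x12949) x8089) x15379) x4443) x17567)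
  (sub (sub (sub (add (add (add (add (sub (add (add (sub (add (add C x11011) x11015) x10995) x10935) x10971) x11115) x11331) x11655) x11979) x12951) x8091) x15381) x4447)
  (add (add (sub (sub (add (add (add (add (sub (add (add (sub (add (add C x11007) x11015) x11005) x10939) x10975) x11119) x11335) x11659) x11983) x12955) x8095) x15385) x4449) x17573)
  (sub (sub (sub (add (add (add (add (sub (add (add (add (add (add (add C x11007) x11011) x10991) x11003) x10943) x10979) x11123) x11339) x11663) x11987) x12959) x8099) x15389) x17575)
  (add (add (sub (sub (add (add (sub (sub (add (add (add (add (sub C x11019) x11029) x11041) x11053) x11089) x10963) x11179) x11989) x12961) x8101) x15391) x4455) x17579)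
  (sub (sub (sub (add (add (sub (sub (add (add (sub (sub C x11017) x11025) x11055) x11091) x10965) x11181) x11991) x12963) x8103) x15393) x4459)
  (sub (sub (sub (add (add (sub (sub (sub (sub (add (add C x11029) x11033) x11019) x11043) x10971) x11187) x11997) x12969) x8109) x15399) x4465)
  (add (add (sub (sub (add (add (sub (sub (sub (add (add (add (add C x11025) x11033) x11017) x11041) x11047) x10975) x11191) x12001) x12973) x8113) x15403) x4467) x17591)
  (sub (sub (sub (add (add (sub (sub (sub (sub (add (add C x11025) x11029) x11039) x11051) x10979) x11195) x12005) x12977) x8117) x15407) x17593)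
  (sub (sub (sub (add (add (sub (sub (sub (sub (sub C x11041) x11033) x11075) x10985) x11201) x12011) x12983) x8123) x15413) x17599)
  (add (add (sub (sub (add (add (sub (sub (sub (add (add (sub C x11039) x11017) x11029) x11077) x10987) x11203) x12013) x12985) x8125) x15415) x4479) x17603)
  (sub (sub (sub (add (add (sub (add (add (sub (add (add (add (add C x11047) x11051) x11055) x11067) x11025) x10935) x11151) x11205) x12015) x12987) x8127) x15417) x4483)
  (add (add (sub (sub (add (add (sub (add (add (sub (sub (add (add C x11043) x11051) x11053) x11029) x10939) x11155) x11209) x12019) x12991) x8131) x15421) x4485) x17609)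
  (sub (sub (sub (add (add (sub (add (add (sub (sub (add (add C x11043) x11047) x11063) x11033) x10943) x11159) x11213) x12023) x12995) x8135) x15425) x17611)
  (add (add (sub (sub (add (add (sub (add (add (add (add (sub (sub C x11055) x11047) x11017) x11089) x10945) x11161) x11215) x12025) x12997) x8137) x15427) x4491) x17615)
  (sub (sub (sub (add (add (sub (add (add (add (add (add (add (sub C x11053) x11043) x11067) x11019) x11091) x10947) x11163) x11217) x12027) x12999) x8139) x15429) x4495)
  (sub (sub (sub (add (add (sub (add (add (sub (sub (sub C x11067) x11051) x11081) x10955) x11171) x11225) x12035) x13007) x8147) x15437) x17623)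
  (sub (sub (sub (add (add (sub (add (add (sub (add (add (sub C x11063) x11043) x11055) x11085) x10959) x11175) x11229) x12039) x13011) x8151) x15441) x4507)
  (sub (sub (sub (add (add (sub (sub (sub (sub (sub C x11077) x11081) x11039) x11129) x11237) x12047) x13019) x8159) x15449) x17635)
  (add (add (sub (sub (add (add (sub (sub (sub (sub (sub C x11075) x11089) x11041) x11131) x11239) x12049) x13021) x8161) x15451) x4515) x17639)
  (sub (sub (sub (add (add (sub (sub (sub (sub (sub C x11085) x11075) x11063) x11135) x11243) x12053) x13025) x8165) x15455) x17641)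
  (sub (sub (sub (add (add (sub (sub (sub (sub (sub C x11081) x11091) x11067) x11139) x11247) x12057) x13029) x8169) x15459) x4525)
  (add (add (sub (sub (add (add (sub (sub (add (add (sub (sub C x11091) x11077) x11017) x11053) x11143) x11251) x12061) x13033) x8173) x15463) x4527) x17651)
  (sub (sub (sub (add (add (sub (sub (add (add (sub (sub C x11089) x11085) x11019) x11055) x11145) x11253) x12063) x13035) x8175) x15465) x4531)
  (sub (sub (sub (add (add (sub (sub (add (add (add (add (sub C x11103) x11111) x11123) x11135) x11171) x10991) x11423) x12071) x13043) x8183) x15473) x17659)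
  (sub (sub (sub (add (add (sub (sub (add (add (sub (sub C x11099) x11115) x11139) x11175) x10995) x11427) x12075) x13047) x8187) x15477) x4543)
  (sub (sub (sub (add (add (sub (sub (sub (add (add (sub C x11113) x11099) x11123) x11129) x11003) x11435) x12083) x13055) x8195) x15485) x17671)
  (add (add (sub (sub (add (add (sub (sub (sub (sub (sub C x11111) x11119) x11131) x11005) x11437) x12085) x13057) x8197) x15487) x4551) x17675)
  (sub (sub (sub (add (add (sub (sub (sub (sub (add (add C x11119) x11123) x11103) x11151) x11007) x11439) x12087) x13059) x8199) x15489) x4555)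
  (add (add (sub (sub (add (add (sub (sub (sub (sub (add (add C x11115) x11123) x11113) x11155) x11011) x11443) x12091) x13063) x8203) x15493) x4557) x17681)
  (sub (sub (sub (add (add (sub (sub (sub (add (add (add (add C x11115) x11119) x11099) x11111) x11159) x11015) x11447) x12095) x13067) x8207) x15497) x17683)
  (sub (sub (sub (add (add (sub (sub (sub (sub (sub C x11131) x11135) x11111) x11075) x11453) x12101) x13073) x8213) x15503) x17689)
  (add (add (sub (sub (add (add (sub (sub (sub (sub (sub C x11129) x11143) x11113) x11077) x11455) x12103) x13075) x8215) x15505) x4569) x17693)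
  (sub (sub (sub (add (add (sub (sub (add (add (sub (sub C x11139) x11129) x11099) x11171) x11081) x11459) x12107) x13079) x8219) x15509) x17695)
  (sub (sub (sub (add (add (sub (sub (add (add (sub (sub C x11135) x11145) x11103) x11175) x11085) x11463) x12111) x13083) x8223) x15513) x4579)
  (add (add (sub (sub (add (add (sub (sub (sub (sub (sub C x11145) x11131) x11161) x11089) x11467) x12115) x13087) x8227) x15517) x4581) x17705)
  (sub (sub (sub (add (add (sub (sub (sub (sub (sub C x11143) x11139) x11163) x11091) x11469) x12117) x13089) x8229) x15519) x4585)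
  (sub (sub (sub (add (add (sub (add (add (sub (add (add (add (add C x11155) x11159) x11163) x11175) x11115) x10935) x11043) x11475) x12123) x13095) x8235) x15525) x4591)
  (add (add (sub (sub (add (add (sub (add (add (sub (sub (add (add C x11151) x11159) x11161) x11119) x10939) x11047) x11479) x12127) x13099) x8239) x15529) x4593) x17717)
  (sub (sub (sub (add (add (sub (add (add (sub (sub (add (add C x11151) x11155) x11171) x11123) x10943) x11051) x11483) x12131) x13103) x8243) x15533) x17719)
  (add (add (sub (sub (add (add (sub (add (add (sub (sub (sub C x11163) x11155) x11143) x10945) x11053) x11485) x12133) x13105) x8245) x15535) x4599) x17723)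
  (sub (sub (sub (add (add (sub (add (add (sub (add (add (sub C x11161) x11151) x11175) x11145) x10947) x11055) x11487) x12135) x13107) x8247) x15537) x4603)
  (sub (sub (sub (add (add (sub (add (add (add (add (sub (sub C x11175) x11159) x11099) x11135) x10955) x11063) x11495) x12143) x13115) x8255) x15545) x17731)
  (sub (sub (sub (add (add (sub (add (add (add (add (add (add (sub C x11171) x11151) x11163) x11103) x11139) x10959) x11067) x11499) x12147) x13119) x8259) x15549) x4615)
  (add (add (sub (sub (sub (sub (add (add (add (add (add (add (sub C x11181) x11191) x11203) x11215) x11251) x11287) x11395) x11017) x11665) x8263) x15553) x4617) x17741)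
  (sub (sub (sub (sub (sub (add (add (add (add (sub (sub C x11179) x11187) x11217) x11253) x11289) x11397) x11019) x11667) x8265) x15555) x4621)
  (sub (sub (sub (sub (sub (add (add (sub (sub (add (add C x11191) x11195) x11181) x11205) x11295) x11403) x11025) x11673) x8271) x15561) x4627)
  (add (add (sub (sub (sub (sub (add (add (sub (add (add (add (add C x11187) x11195) x11179) x11203) x11209) x11299) x11407) x11029) x11677) x8275) x15565) x4629) x17753)
  (sub (sub (sub (sub (sub (add (add (sub (sub (add (add C x11187) x11191) x11201) x11213) x11303) x11411) x11033) x11681) x8279) x15569) x17755)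
  (sub (sub (sub (sub (sub (add (add (sub (sub (sub C x11203) x11195) x11237) x11309) x11417) x11039) x11687) x8285) x15575) x17761)
  (add (add (sub (sub (sub (sub (add (add (sub (add (add (sub C x11201) x11179) x11191) x11239) x11311) x11419) x11041) x11689) x8287) x15577) x4641) x17765)
  (sub (sub (sub (sub (sub (sub (sub (add (add (add (add C x11209) x11213) x11217) x11229) x11187) x11259) x11043) x11691) x8289) x15579) x4645)
  (add (add (sub (sub (sub (sub (sub (sub (sub (add (add C x11205) x11213) x11215) x11191) x11263) x11047) x11695) x8293) x15583) x4647) x17771)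
  (sub (sub (sub (sub (sub (sub (sub (sub (add (add C x11205) x11209) x11225) x11195) x11267) x11051) x11699) x8297) x15587) x17773)
  (add (add (sub (sub (sub (sub (sub (add (add (sub (sub C x11217) x11209) x11179) x11251) x11269) x11053) x11701) x8299) x15589) x4653) x17777)
  (sub (sub (sub (sub (sub (sub (add (add (add (add (sub C x11215) x11205) x11229) x11181) x11253) x11271) x11055) x11703) x8301) x15591) x4657)
  (sub (sub (sub (sub (sub (sub (sub (sub (sub C x11229) x11213) x11243) x11279) x11063) x11711) x8309) x15599) x17785)
  (sub (sub (sub (sub (sub (sub (sub (add (add (sub C x11225) x11205) x11217) x11247) x11283) x11067) x11715) x8313) x15603) x4669)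
  (sub (sub (sub (sub (sub (sub (sub (sub (sub C x11239) x11243) x11201) x11345) x11075) x11723) x8321) x15611) x17797)
  (add (add (sub (sub (sub (sub (sub (sub (sub (sub C x11237) x11251) x11203) x11347) x11077) x11725) x8323) x15613) x4677) x17801)
  (sub (sub (sub (sub (sub (sub (sub (sub (sub C x11247) x11237) x11225) x11351) x11081) x11729) x8327) x15617) x17803)
  (sub (sub (sub (sub (sub (sub (sub (sub (sub C x11243) x11253) x11229) x11355) x11085) x11733) x8331) x15621) x4687)
  (add (add (sub (sub (sub (sub (sub (add (add (sub (sub C x11253) x11239) x11179) x11215) x11359) x11089) x11737) x8335) x15625) x4689) x17813)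
  (sub (sub (sub (sub (sub (sub (add (add (sub (sub C x11251) x11247) x11181) x11217) x11361) x11091) x11739) x8337) x15627) x4693)
  (sub (sub (sub (sub (add (add (sub (add (add (add (add (add (add C x11263) x11267) x11271) x11283) x11295) x11331) x11205) x10935) x11583) x11745) x8343) x15633) x4699)
  (add (add (sub (sub (sub (add (add (sub (add (add (sub (add (add C x11259) x11267) x11269) x11299) x11335) x11209) x10939) x11587) x11749) x8347) x15637) x4701) x17825)
  (sub (sub (sub (sub (add (add (sub (add (add (sub (add (add C x11259) x11263) x11279) x11303) x11339) x11213) x10943) x11591) x11753) x8351) x15641) x17827)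
  (add (add (sub (sub (sub (add (add (sub (sub (sub (sub C x11271) x11263) x11287) x11215) x10945) x11593) x11755) x8353) x15643) x4707) x17831)
  (sub (sub (sub (sub (add (add (sub (sub (add (add (sub C x11269) x11259) x11283) x11289) x11217) x10947) x11595) x11757) x8355) x15645) x4711)
  (sub (sub (sub (sub (add (add (sub (sub (sub (sub C x11283) x11267) x11315) x11225) x10955) x11603) x11765) x8363) x15653) x17839)
  (sub (sub (sub (sub (add (add (sub (sub (add (add (sub C x11279) x11259) x11271) x11319) x11229) x10959) x11607) x11769) x8367) x15657) x4723)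
  (add (add (sub (sub (sub (add (add (add (add (sub (add (add (sub C x11289) x11299) x11311) x11269) x11179) x11395) x10963) x11611) x11773) x8371) x15661) x4725) x17849)
  (sub (sub (sub (sub (add (add (add (add (sub (sub (sub C x11287) x11295) x11271) x11181) x11397) x10965) x11613) x11775) x8373) x15663) x4729)
  (sub (sub (sub (sub (add (add (add (add (add (add (sub (add (add C x11299) x11303) x11289) x11259) x11331) x11187) x11403) x10971) x11619) x11781) x8379) x15669) x4735)
  (add (add (sub (sub (sub (add (add (add (add (add (add (add (add (add (add C x11295) x11303) x11287) x11311) x11263) x11335) x11191) x11407) x10975) x11623) x11785) x8383) x15673) x4737) x17861)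
  (sub (sub (sub (sub (add (add (add (add (add (add (sub (add (add C x11295) x11299) x11309) x11267) x11339) x11195) x11411) x10979) x11627) x11789) x8387) x15677) x17863)
  (sub (sub (sub (sub (add (add (add (add (sub (sub (sub C x11311) x11303) x11327) x11201) x11417) x10985) x11633) x11795) x8393) x15683) x17869)
  (add (add (sub (sub (sub (add (add (add (add (sub (add (add (sub C x11309) x11287) x11299) x11329) x11203) x11419) x10987) x11635) x11797) x8395) x15685) x4749) x17873)
  (sub (sub (sub (sub (add (add (sub (sub (add (add (sub C x11319) x11327) x11339) x11279) x11369) x10991) x11639) x11801) x8399) x15689) x17875)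
  (sub (sub (sub (sub (add (add (sub (sub (sub (sub C x11315) x11331) x11283) x11373) x10995) x11643) x11805) x8403) x15693) x4759)
  (sub (sub (sub (sub (add (add (sub (sub (add (add (sub C x11329) x11315) x11339) x11309) x11381) x11003) x11651) x11813) x8411) x15701) x17887)
  (add (add (sub (sub (sub (add (add (sub (sub (sub (sub C x11327) x11335) x11311) x11383) x11005) x11653) x11815) x8413) x15703) x4767) x17891)
  (sub (sub (sub (sub (add (add (sub (add (add (sub (add (add C x11335) x11339) x11319) x11259) x11295) x11385) x11007) x11655) x11817) x8415) x15705) x4771)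
  (add (add (sub (sub (sub (add (add (sub (add (add (sub (add (add C x11331) x11339) x11329) x11263) x11299) x11389) x11011) x11659) x11821) x8419) x15709) x4773) x17897)
  (sub (sub (sub (sub (add (add (sub (add (add (add (add (add (add C x11331) x11335) x11315) x11327) x11267) x11303) x11393) x11015) x11663) x11825) x8423) x15713) x17899)
  (sub (sub (sub (sub (sub (sub (add (add (sub (sub C x11347) x11351) x11381) x11417) x11237) x11507) x11831) x8429) x15719) x17905)
  (add (add (sub (sub (sub (sub (sub (add (add (sub (sub C x11345) x11359) x11383) x11419) x11239) x11509) x11833) x8431) x15721) x4785) x17909)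
  (sub (sub (sub (sub (sub (sub (sub (sub (sub C x11355) x11345) x11369) x11243) x11513) x11837) x8435) x15725) x17911)
  (sub (sub (sub (sub (sub (sub (sub (sub (sub C x11351) x11361) x11373) x11247) x11517) x11841) x8439) x15729) x4795)
  (add (add (sub (sub (sub (sub (sub (sub (sub (sub C x11361) x11347) x11395) x11251) x11521) x11845) x8443) x15733) x4797) x17921)
  (sub (sub (sub (sub (sub (sub (sub (sub (sub C x11359) x11355) x11397) x11253) x11523) x11847) x8445) x15735) x4801)
  (sub (sub (sub (sub (sub (sub (sub (add (add (sub C x11373) x11381) x11393) x11351) x11315) x11531) x11855) x8453) x15743) x17929)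
  (sub (sub (sub (sub (sub (sub (sub (sub (sub C x11369) x11385) x11355) x11319) x11535) x11859) x8457) x15747) x4813)
  (sub (sub (sub (sub (sub (sub (add (add (add (add (sub C x11383) x11369) x11393) x11345) x11417) x11327) x11543) x11867) x8465) x15755) x17941)
  (add (add (sub (sub (sub (sub (sub (add (add (sub (sub C x11381) x11389) x11347) x11419) x11329) x11545) x11869) x8467) x15757) x4821) x17945)
  (sub (sub (sub (sub (sub (sub (sub (sub (add (add C x11389) x11393) x11373) x11403) x11331) x11547) x11871) x8469) x15759) x4825)
  (add (add (sub (sub (sub (sub (sub (sub (sub (add (add C x11385) x11393) x11383) x11407) x11335) x11551) x11875) x8473) x15763) x4827) x17951)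
  (sub (sub (sub (sub (sub (sub (sub (add (add (add (add C x11385) x11389) x11369) x11381) x11411) x11339) x11555) x11879) x8477) x15767) x17953)
  (add (add (sub (sub (sub (sub (add (add (sub (add (add (sub C x11397) x11407) x11419) x11359) x11179) x11287) x11557) x11881) x8479) x15769) x4833) x17957)
  (sub (sub (sub (sub (sub (add (add (sub (sub (sub C x11395) x11403) x11361) x11181) x11289) x11559) x11883) x8481) x15771) x4837)
  (sub (sub (sub (sub (sub (add (add (sub (sub (add (add C x11407) x11411) x11397) x11385) x11187) x11295) x11565) x11889) x8487) x15777) x4843)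
  (add (add (sub (sub (sub (sub (add (add (sub (add (add (add (add C x11403) x11411) x11395) x11419) x11389) x11191) x11299) x11569) x11893) x8491) x15781) x4845) x17969)
  (sub (sub (sub (sub (sub (add (add (sub (sub (add (add C x11403) x11407) x11417) x11393) x11195) x11303) x11573) x11897) x8495) x15785) x17971)
  (sub (sub (sub (sub (sub (add (add (add (add (sub (sub C x11419) x11411) x11345) x11381) x11201) x11309) x11579) x11903) x8501) x15791) x17977)
  (add (add (sub (sub (sub (sub (add (add (add (add (add (add (sub C x11417) x11395) x11407) x11347) x11383) x11203) x11311) x11581) x11905) x8503) x15793) x4857) x17981)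
  (sub (sub (sub (sub (sub (add (add (add (add (add (add (sub C x11427) x11435) x11447) x11459) x11495) x11531) x11639) x11099) x12395) x8507) x15797) x17983)
  (sub (sub (sub (sub (sub (add (add (add (add (sub (sub C x11423) x11439) x11463) x11499) x11535) x11643) x11103) x12399) x8511) x15801) x4867)
  (sub (sub (sub (sub (sub (add (add (sub (add (add (sub C x11437) x11423) x11447) x11453) x11543) x11651) x11111) x12407) x8519) x15809) x17995)
  (add (add (sub (sub (sub (sub (add (add (sub (sub (sub C x11435) x11443) x11455) x11545) x11653) x11113) x12409) x8521) x15811) x4875) x17999)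
  (sub (sub (sub (sub (sub (add (add (sub (sub (add (add C x11443) x11447) x11427) x11475) x11547) x11655) x11115) x12411) x8523) x15813) x4879)
  (add (add (sub (sub (sub (sub (add (add (sub (sub (add (add C x11439) x11447) x11437) x11479) x11551) x11659) x11119) x12415) x8527) x15817) x4881) x18005)
  (sub (sub (sub (sub (sub (add (add (sub (add (add (add (add C x11439) x11443) x11423) x11435) x11483) x11555) x11663) x11123) x12419) x8531) x15821) x18007)
  (sub (sub (sub (sub (sub (sub (sub (sub (sub C x11455) x11459) x11435) x11507) x11129) x12425) x8537) x15827) x18013)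
  (add (add (sub (sub (sub (sub (sub (sub (sub (sub C x11453) x11467) x11437) x11509) x11131) x12427) x8539) x15829) x4893) x18017)
  (sub (sub (sub (sub (sub (sub (add (add (sub (sub C x11463) x11453) x11423) x11495) x11513) x11135) x12431) x8543) x15833) x18019)
  (sub (sub (sub (sub (sub (sub (add (add (sub (sub C x11459) x11469) x11427) x11499) x11517) x11139) x12435) x8547) x15837) x4903)
  (add (add (sub (sub (sub (sub (sub (sub (sub (sub C x11469) x11455) x11485) x11521) x11143) x12439) x8551) x15841) x4905) x18029)
  (sub (sub (sub (sub (sub (sub (sub (sub (sub C x11467) x11463) x11487) x11523) x11145) x12441) x8553) x15843) x4909)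
  (sub (sub (sub (sub (sub (sub (sub (add (add (add (add C x11479) x11483) x11487) x11499) x11439) x11583) x11151) x12447) x8559) x15849) x4915)
  (add (add (sub (sub (sub (sub (sub (sub (sub (add (add C x11475) x11483) x11485) x11443) x11587) x11155) x12451) x8563) x15853) x4917) x18041)
  (sub (sub (sub (sub (sub (sub (sub (sub (add (add C x11475) x11479) x11495) x11447) x11591) x11159) x12455) x8567) x15857) x18043)
  (add (add (sub (sub (sub (sub (sub (sub (sub (sub C x11487) x11479) x11467) x11593) x11161) x12457) x8569) x15859) x4923) x18047)
  (sub (sub (sub (sub (sub (sub (sub (add (add (sub C x11485) x11475) x11499) x11469) x11595) x11163) x12459) x8571) x15861) x4927)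
  (sub (sub (sub (sub (sub (sub (add (add (sub (sub C x11499) x11483) x11423) x11459) x11603) x11171) x12467) x8579) x15869) x18055)
  (sub (sub (sub (sub (sub (sub (add (add (add (add (sub C x11495) x11475) x11487) x11427) x11463) x11607) x11175) x12471) x8583) x15873) x4939)
  (sub (sub (sub (sub (sub (sub (add (add (sub (sub C x11509) x11513) x11543) x11579) x11453) x11345) x12479) x8591) x15881) x18067)
  (add (add (sub (sub (sub (sub (sub (add (add (sub (sub C x11507) x11521) x11545) x11581) x11455) x11347) x12481) x8593) x15883) x4947) x18071)
  (sub (sub (sub (sub (sub (sub (sub (sub (sub C x11517) x11507) x11531) x11459) x11351) x12485) x8597) x15887) x18073)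
  (sub (sub (sub (sub (sub (sub (sub (sub (sub C x11513) x11523) x11535) x11463) x11355) x12489) x8601) x15891) x4957)
  (add (add (sub (sub (sub (sub (sub (sub (sub (sub C x11523) x11509) x11557) x11467) x11359) x12493) x8605) x15895) x4959) x18083)
  (sub (sub (sub (sub (sub (sub (sub (sub (sub C x11521) x11517) x11559) x11469) x11361) x12495) x8607) x15897) x4963)
  (sub (sub (sub (sub (sub (add (add (sub (add (add (sub C x11535) x11543) x11555) x11513) x11423) x11639) x11369) x12503) x8615) x15905) x18091)
  (sub (sub (sub (sub (sub (add (add (sub (sub (sub C x11531) x11547) x11517) x11427) x11643) x11373) x12507) x8619) x15909) x4975)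
  (sub (sub (sub (sub (sub (add (add (add (add (add (add (sub C x11545) x11531) x11555) x11507) x11579) x11435) x11651) x11381) x12515) x8627) x15917) x18103)
  (add (add (sub (sub (sub (sub (add (add (add (add (sub (sub C x11543) x11551) x11509) x11581) x11437) x11653) x11383) x12517) x8629) x15919) x4983) x18107)
  (sub (sub (sub (sub (sub (add (add (sub (sub (add (add C x11551) x11555) x11535) x11565) x11439) x11655) x11385) x12519) x8631) x15921) x4987)
  (add (add (sub (sub (sub (sub (add (add (sub (sub (add (add C x11547) x11555) x11545) x11569) x11443) x11659) x11389) x12523) x8635) x15925) x4989) x18113)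
  (sub (sub (sub (sub (sub (add (add (sub (add (add (add (add C x11547) x11551) x11531) x11543) x11573) x11447) x11663) x11393) x12527) x8639) x15929) x18115)
  (add (add (sub (sub (sub (sub (sub (sub (add (add (sub C x11559) x11569) x11581) x11521) x11611) x11395) x12529) x8641) x15931) x4995) x18119)
  (sub (sub (sub (sub (sub (sub (sub (sub (sub C x11557) x11565) x11523) x11613) x11397) x12531) x8643) x15933) x4999)
  (sub (sub (sub (sub (sub (sub (sub (sub (add (add C x11569) x11573) x11559) x11547) x11619) x11403) x12537) x8649) x15939) x5005)
  (add (add (sub (sub (sub (sub (sub (sub (add (add (add (add C x11565) x11573) x11557) x11581) x11551) x11623) x11407) x12541) x8653) x15943) x5007) x18131)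
  (sub (sub (sub (sub (sub (sub (sub (sub (add (add C x11565) x11569) x11579) x11555) x11627) x11411) x12545) x8657) x15947) x18133)
  (sub (sub (sub (sub (sub (sub (add (add (sub (sub C x11581) x11573) x11507) x11543) x11633) x11417) x12551) x8663) x15953) x18139)
  (add (add (sub (sub (sub (sub (sub (add (add (add (add (sub C x11579) x11557) x11569) x11509) x11545) x11635) x11419) x12553) x8665) x15955) x5019) x18143)
  (sub (sub (sub (sub (add (add (sub (add (add (add (add (add (add C x11587) x11591) x11595) x11607) x11619) x11655) x11475) x10935) x11259) x12555) x8667) x15957) x5023)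
  (add (add (sub (sub (sub (add (add (sub (add (add (sub (add (add C x11583) x11591) x11593) x11623) x11659) x11479) x10939) x11263) x12559) x8671) x15961) x5025) x18149)
  (sub (sub (sub (sub (add (add (sub (add (add (sub (add (add C x11583) x11587) x11603) x11627) x11663) x11483) x10943) x11267) x12563) x8675) x15965) x18151)
  (add (add (sub (sub (sub (add (add (sub (sub (sub (sub C x11595) x11587) x11611) x11485) x10945) x11269) x12565) x8677) x15967) x5031) x18155)
  (sub (sub (sub (sub (add (add (sub (sub (add (add (sub C x11593) x11583) x11607) x11613) x11487) x10947) x11271) x12567) x8679) x15969) x5035)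
  (sub (sub (sub (sub (add (add (sub (sub (sub (sub C x11607) x11591) x11639) x11495) x10955) x11279) x12575) x8687) x15977) x18163)
  (sub (sub (sub (sub (add (add (sub (sub (add (add (sub C x11603) x11583) x11595) x11643) x11499) x10959) x11283) x12579) x8691) x15981) x5047)
  (add (add (sub (sub (sub (add (add (sub (sub (add (add (sub C x11613) x11623) x11635) x11593) x11557) x10963) x11287) x12583) x8695) x15985) x5049) x18173)
  (sub (sub (sub (sub (add (add (sub (sub (sub (sub C x11611) x11619) x11595) x11559) x10965) x11289) x12585) x8697) x15987) x5053)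
  (sub (sub (sub (sub (add (add (sub (add (add (sub (add (add C x11623) x11627) x11613) x11583) x11655) x11565) x10971) x11295) x12591) x8703) x15993) x5059)
  (add (add (sub (sub (sub (add (add (sub (add (add (add (add (add (add C x11619) x11627) x11611) x11635) x11587) x11659) x11569) x10975) x11299) x12595) x8707) x15997) x5061) x18185)
  (sub (sub (sub (sub (add (add (sub (add (add (sub (add (add C x11619) x11623) x11633) x11591) x11663) x11573) x10979) x11303) x12599) x8711) x16001) x18187)
  (sub (sub (sub (sub (add (add (sub (sub (sub (sub C x11635) x11627) x11651) x11579) x10985) x11309) x12605) x8717) x16007) x18193)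
  (add (add (sub (sub (sub (add (add (sub (sub (add (add (sub C x11633) x11611) x11623) x11653) x11581) x10987) x11311) x12607) x8719) x16009) x5073) x18197)
  (sub (sub (sub (sub (add (add (add (add (sub (add (add (sub C x11643) x11651) x11663) x11603) x11423) x11531) x10991) x11315) x12611) x8723) x16013) x18199)
  (sub (sub (sub (sub (add (add (add (add (sub (sub (sub C x11639) x11655) x11607) x11427) x11535) x10995) x11319) x12615) x8727) x16017) x5083)
  (sub (sub (sub (sub (add (add (add (add (sub (add (add (sub C x11653) x11639) x11663) x11633) x11435) x11543) x11003) x11327) x12623) x8735) x16025) x18211)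
  (add (add (sub (sub (sub (add (add (add (add (sub (sub (sub C x11651) x11659) x11635) x11437) x11545) x11005) x11329) x12625) x8737) x16027) x5091) x18215)
  (sub (sub (sub (sub (add (add (add (add (add (add (sub (add (add C x11659) x11663) x11643) x11583) x11619) x11439) x11547) x11007) x11331) x12627) x8739) x16029) x5095)
  (add (add (sub (sub (sub (add (add (add (add (add (add (sub (add (add C x11655) x11663) x11653) x11587) x11623) x11443) x11551) x11011) x11335) x12631) x8743) x16033) x5097) x18221)
  (sub (sub (sub (sub (add (add (add (add (add (add (add (add (add (add C x11655) x11659) x11639) x11651) x11591) x11627) x11447) x11555) x11015) x11339) x12635) x8747) x16037) x18223)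
  (add (add (sub (sub (sub (add (add (add (add (add (add (add (add (sub C x11667) x11677) x11689) x11701) x11737) x11773) x11881) x11989) x12313) x11179) x10207) x16039) x5103) x18227)
  (sub (sub (sub (sub (add (add (add (add (add (add (sub (sub C x11665) x11673) x11703) x11739) x11775) x11883) x11991) x12315) x11181) x10209) x16041) x5107)
  (sub (sub (sub (sub (add (add (add (add (sub (sub (add (add C x11677) x11681) x11667) x11691) x11781) x11889) x11997) x12321) x11187) x10215) x16047) x5113)
  (add (add (sub (sub (sub (add (add (add (add (sub (add (add (add (add C x11673) x11681) x11665) x11689) x11695) x11785) x11893) x12001) x12325) x11191) x10219) x16051) x5115) x18239)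
  (sub (sub (sub (sub (add (add (add (add (sub (sub (add (add C x11673) x11677) x11687) x11699) x11789) x11897) x12005) x12329) x11195) x10223) x16055) x18241)
  (sub (sub (sub (sub (add (add (add (add (sub (sub (sub C x11689) x11681) x11723) x11795) x11903) x12011) x12335) x11201) x10229) x16061) x18247)
  (add (add (sub (sub (sub (add (add (add (add (sub (add (add (sub C x11687) x11665) x11677) x11725) x11797) x11905) x12013) x12337) x11203) x10231) x16063) x5127) x18251)
  (sub (sub (sub (sub (add (add (sub (sub (add (add (add (add C x11695) x11699) x11703) x11715) x11673) x11745) x12015) x12339) x11205) x10233) x16065) x5131)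
  (add (add (sub (sub (sub (add (add (sub (sub (sub (add (add C x11691) x11699) x11701) x11677) x11749) x12019) x12343) x11209) x10237) x16069) x5133) x18257)
  (sub (sub (sub (sub (add (add (sub (sub (sub (add (add C x11691) x11695) x11711) x11681) x11753) x12023) x12347) x11213) x10241) x16073) x18259)
  (add (add (sub (sub (sub (add (add (sub (add (add (sub (sub C x11703) x11695) x11665) x11737) x11755) x12025) x12349) x11215) x10243) x16075) x5139) x18263)
  (sub (sub (sub (sub (add (add (sub (add (add (add (add (sub C x11701) x11691) x11715) x11667) x11739) x11757) x12027) x12351) x11217) x10245) x16077) x5143)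
  (sub (sub (sub (sub (add (add (sub (sub (sub (sub C x11715) x11699) x11729) x11765) x12035) x12359) x11225) x10253) x16085) x18271)
  (sub (sub (sub (sub (add (add (sub (sub (add (add (sub C x11711) x11691) x11703) x11733) x11769) x12039) x12363) x11229) x10257) x16089) x5155)
  (sub (sub (sub (sub (add (add (sub (sub (sub (sub C x11725) x11729) x11687) x11831) x12047) x12371) x11237) x10265) x16097) x18283)
  (add (add (sub (sub (sub (add (add (sub (sub (sub (sub C x11723) x11737) x11689) x11833) x12049) x12373) x11239) x10267) x16099) x5163) x18287)
  (sub (sub (sub (sub (add (add (sub (sub (sub (sub C x11733) x11723) x11711) x11837) x12053) x12377) x11243) x10271) x16103) x18289)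
  (sub (sub (sub (sub (add (add (sub (sub (sub (sub C x11729) x11739) x11715) x11841) x12057) x12381) x11247) x10275) x16107) x5173)
  (add (add (sub (sub (sub (add (add (sub (add (add (sub (sub C x11739) x11725) x11665) x11701) x11845) x12061) x12385) x11251) x10279) x16111) x5175) x18299)
  (sub (sub (sub (sub (add (add (sub (add (add (sub (sub C x11737) x11733) x11667) x11703) x11847) x12063) x12387) x11253) x10281) x16113) x5179)
  (sub (sub (sub (sub (sub (sub (add (add (add (add (add (add C x11749) x11753) x11757) x11769) x11781) x11817) x11691) x11907) x11259) x10287) x16119) x5185)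
  (add (add (sub (sub (sub (sub (sub (add (add (sub (add (add C x11745) x11753) x11755) x11785) x11821) x11695) x11911) x11263) x10291) x16123) x5187) x18311)
  (sub (sub (sub (sub (sub (sub (add (add (sub (add (add C x11745) x11749) x11765) x11789) x11825) x11699) x11915) x11267) x10295) x16127) x18313)
  (add (add (sub (sub (sub (sub (sub (sub (sub (sub C x11757) x11749) x11773) x11701) x11917) x11269) x10297) x16129) x5193) x18317)
  (sub (sub (sub (sub (sub (sub (sub (add (add (sub C x11755) x11745) x11769) x11775) x11703) x11919) x11271) x10299) x16131) x5197)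
  (sub (sub (sub (sub (sub (sub (sub (sub (sub C x11769) x11753) x11801) x11711) x11927) x11279) x10307) x16139) x18325)
  (sub (sub (sub (sub (sub (sub (sub (add (add (sub C x11765) x11745) x11757) x11805) x11715) x11931) x11283) x10311) x16143) x5209)
  (add (add (sub (sub (sub (sub (add (add (sub (add (add (sub C x11775) x11785) x11797) x11755) x11665) x11881) x11935) x11287) x10315) x16147) x5211) x18335)
  (sub (sub (sub (sub (sub (add (add (sub (sub (sub C x11773) x11781) x11757) x11667) x11883) x11937) x11289) x10317) x16149) x5215)
  (sub (sub (sub (sub (sub (add (add (add (add (sub (add (add C x11785) x11789) x11775) x11745) x11817) x11673) x11889) x11943) x11295) x10323) x16155) x5221)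
  (add (add (sub (sub (sub (sub (add (add (add (add (add (add (add (add C x11781) x11789) x11773) x11797) x11749) x11821) x11677) x11893) x11947) x11299) x10327) x16159) x5223) x18347)
  (sub (sub (sub (sub (sub (add (add (add (add (sub (add (add C x11781) x11785) x11795) x11753) x11825) x11681) x11897) x11951) x11303) x10331) x16163) x18349)
  (sub (sub (sub (sub (sub (add (add (sub (sub (sub C x11797) x11789) x11813) x11687) x11903) x11957) x11309) x10337) x16169) x18355)
  (add (add (sub (sub (sub (sub (add (add (sub (add (add (sub C x11795) x11773) x11785) x11815) x11689) x11905) x11959) x11311) x10339) x16171) x5235) x18359)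
  (sub (sub (sub (sub (sub (sub (sub (add (add (sub C x11805) x11813) x11825) x11765) x11855) x11963) x11315) x10343) x16175) x18361)
  (sub (sub (sub (sub (sub (sub (sub (sub (sub C x11801) x11817) x11769) x11859) x11967) x11319) x10347) x16179) x5245)
  (sub (sub (sub (sub (sub (sub (sub (add (add (sub C x11815) x11801) x11825) x11795) x11867) x11975) x11327) x10355) x16187) x18373)
  (add (add (sub (sub (sub (sub (sub (sub (sub (sub C x11813) x11821) x11797) x11869) x11977) x11329) x10357) x16189) x5253) x18377)
  (sub (sub (sub (sub (sub (sub (add (add (sub (add (add C x11821) x11825) x11805) x11745) x11781) x11871) x11979) x11331) x10359) x16191) x5257)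
  (add (add (sub (sub (sub (sub (sub (add (add (sub (add (add C x11817) x11825) x11815) x11749) x11785) x11875) x11983) x11335) x10363) x16195) x5259) x18383)
  (sub (sub (sub (sub (sub (sub (add (add (add (add (add (add C x11817) x11821) x11801) x11813) x11753) x11789) x11879) x11987) x11339) x10367) x16199) x18385)
  (sub (sub (sub (sub (sub (sub (add (add (sub (sub C x11833) x11837) x11867) x11903) x11723) x12155) x11345) x10373) x16205) x18391)
  (add (add (sub (sub (sub (sub (sub (add (add (sub (sub C x11831) x11845) x11869) x11905) x11725) x12157) x11347) x10375) x16207) x5271) x18395)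
  (sub (sub (sub (sub (sub (sub (sub (sub (sub C x11841) x11831) x11855) x11729) x12161) x11351) x10379) x16211) x18397)
  (sub (sub (sub (sub (sub (sub (sub (sub (sub C x11837) x11847) x11859) x11733) x12165) x11355) x10383) x16215) x5281)
  (add (add (sub (sub (sub (sub (sub (sub (sub (sub C x11847) x11833) x11881) x11737) x12169) x11359) x10387) x16219) x5283) x18407)
  (sub (sub (sub (sub (sub (sub (sub (sub (sub C x11845) x11841) x11883) x11739) x12171) x11361) x10389) x16221) x5287)
  (sub (sub (sub (sub (sub (sub (sub (add (add (sub C x11859) x11867) x11879) x11837) x11801) x12179) x11369) x10397) x16229) x18415)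
  (sub (sub (sub (sub (sub (sub (sub (sub (sub C x11855) x11871) x11841) x11805) x12183) x11373) x10401) x16233) x5299)
  (sub (sub (sub (sub (sub (sub (add (add (add (add (sub C x11869) x11855) x11879) x11831) x11903) x11813) x12191) x11381) x10409) x16241) x18427)
  (add (add (sub (sub (sub (sub (sub (add (add (sub (sub C x11867) x11875) x11833) x11905) x11815) x12193) x11383) x10411) x16243) x5307) x18431)
  (sub (sub (sub (sub (sub (sub (sub (sub (add (add C x11875) x11879) x11859) x11889) x11817) x12195) x11385) x10413) x16245) x5311)
  (add (add (sub (sub (sub (sub (sub (sub (sub (add (add C x11871) x11879) x11869) x11893) x11821) x12199) x11389) x10417) x16249) x5313) x18437)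
  (sub (sub (sub (sub (sub (sub (sub (add (add (add (add C x11871) x11875) x11855) x11867) x11897) x11825) x12203) x11393) x10421) x16253) x18439)
  (add (add (sub (sub (sub (sub (add (add (sub (add (add (sub C x11883) x11893) x11905) x11845) x11665) x11773) x12205) x11395) x10423) x16255) x5319) x18443)
  (sub (sub (sub (sub (sub (add (add (sub (sub (sub C x11881) x11889) x11847) x11667) x11775) x12207) x11397) x10425) x16257) x5323)
  (sub (sub (sub (sub (sub (add (add (sub (sub (add (add C x11893) x11897) x11883) x11871) x11673) x11781) x12213) x11403) x10431) x16263) x5329)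
  (add (add (sub (sub (sub (sub (add (add (sub (add (add (add (add C x11889) x11897) x11881) x11905) x11875) x11677) x11785) x12217) x11407) x10435) x16267) x5331) x18455)
  (sub (sub (sub (sub (sub (add (add (sub (sub (add (add C x11889) x11893) x11903) x11879) x11681) x11789) x12221) x11411) x10439) x16271) x18457)
  (sub (sub (sub (sub (sub (add (add (add (add (sub (sub C x11905) x11897) x11831) x11867) x11687) x11795) x12227) x11417) x10445) x16277) x18463)
  (add (add (sub (sub (sub (sub (add (add (add (add (add (add (sub C x11903) x11881) x11893) x11833) x11869) x11689) x11797) x12229) x11419) x10447) x16279) x5343) x18467)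
  (sub (sub (sub (add (add (sub (add (add (add (add (add (add (add (add C x11911) x11915) x11919) x11931) x11943) x11979) x12015) x12123) x11745) x10935) x12879) x10449) x16281) x5347)
  (add (add (sub (sub (add (add (sub (add (add (add (add (sub (add (add C x11907) x11915) x11917) x11947) x11983) x12019) x12127) x11749) x10939) x12883) x10453) x16285) x5349) x18473)
  (sub (sub (sub (add (add (sub (add (add (add (add (sub (add (add C x11907) x11911) x11927) x11951) x11987) x12023) x12131) x11753) x10943) x12887) x10457) x16289) x18475)
  (add (add (sub (sub (add (add (sub (add (add (sub (sub (sub C x11919) x11911) x11935) x12025) x12133) x11755) x10945) x12889) x10459) x16291) x5355) x18479)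
  (sub (sub (sub (add (add (sub (add (add (sub (add (add (sub C x11917) x11907) x11931) x11937) x12027) x12135) x11757) x10947) x12891) x10461) x16293) x5359)
  (sub (sub (sub (add (add (sub (add (add (sub (sub (sub C x11931) x11915) x11963) x12035) x12143) x11765) x10955) x12899) x10469) x16301) x18487)
  (sub (sub (sub (add (add (sub (add (add (sub (add (add (sub C x11927) x11907) x11919) x11967) x12039) x12147) x11769) x10959) x12903) x10473) x16305) x5371)
  (add (add (sub (sub (add (add (sub (sub (sub (add (add (sub C x11937) x11947) x11959) x11917) x11989) x11773) x10963) x12907) x10477) x16309) x5373) x18497)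
  (sub (sub (sub (add (add (sub (sub (sub (sub (sub C x11935) x11943) x11919) x11991) x11775) x10965) x12909) x10479) x16311) x5377)
  (sub (sub (sub (add (add (sub (sub (add (add (sub (add (add C x11947) x11951) x11937) x11907) x11979) x11997) x11781) x10971) x12915) x10485) x16317) x5383)
  (add (add (sub (sub (add (add (sub (sub (add (add (add (add (add (add C x11943) x11951) x11935) x11959) x11911) x11983) x12001) x11785) x10975) x12919) x10489) x16321) x5385) x18509)
  (sub (sub (sub (add (add (sub (sub (add (add (sub (add (add C x11943) x11947) x11957) x11915) x11987) x12005) x11789) x10979) x12923) x10493) x16325) x18511)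
  (sub (sub (sub (add (add (sub (sub (sub (sub (sub C x11959) x11951) x11975) x12011) x11795) x10985) x12929) x10499) x16331) x18517)
  (add (add (sub (sub (add (add (sub (sub (sub (add (add (sub C x11957) x11935) x11947) x11977) x12013) x11797) x10987) x12931) x10501) x16333) x5397) x18521)
  (sub (sub (sub (add (add (sub (sub (sub (add (add (sub C x11967) x11975) x11987) x11927) x12071) x11801) x10991) x12935) x10505) x16337) x18523)
  (sub (sub (sub (add (add (sub (sub (sub (sub (sub C x11963) x11979) x11931) x12075) x11805) x10995) x12939) x10509) x16341) x5407)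
  (sub (sub (sub (add (add (sub (sub (sub (add (add (sub C x11977) x11963) x11987) x11957) x12083) x11813) x11003) x12947) x10517) x16349) x18535)
  (add (add (sub (sub (add (add (sub (sub (sub (sub (sub C x11975) x11983) x11959) x12085) x11815) x11005) x12949) x10519) x16351) x5415) x18539)
  (sub (sub (sub (add (add (sub (sub (add (add (sub (add (add C x11983) x11987) x11967) x11907) x11943) x12087) x11817) x11007) x12951) x10521) x16353) x5419)
  (add (add (sub (sub (add (add (sub (sub (add (add (sub (add (add C x11979) x11987) x11977) x11911) x11947) x12091) x11821) x11011) x12955) x10525) x16357) x5421) x18545)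
  (sub (sub (sub (add (add (sub (sub (add (add (add (add (add (add C x11979) x11983) x11963) x11975) x11915) x11951) x12095) x11825) x11015) x12959) x10529) x16361) x18547)
  (add (add (sub (sub (add (add (add (add (sub (add (add (add (add (sub C x11991) x12001) x12013) x12025) x12061) x11935) x11665) x12313) x11017) x12961) x10531) x16363) x5427) x18551)
  (sub (sub (sub (add (add (add (add (sub (add (add (sub (sub C x11989) x11997) x12027) x12063) x11937) x11667) x12315) x11019) x12963) x10533) x16365) x5431)
  (sub (sub (sub (add (add (add (add (sub (sub (sub (add (add C x12001) x12005) x11991) x12015) x11943) x11673) x12321) x11025) x12969) x10539) x16371) x5437)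
  (add (add (sub (sub (add (add (add (add (sub (sub (add (add (add (add C x11997) x12005) x11989) x12013) x12019) x11947) x11677) x12325) x11029) x12973) x10543) x16375) x5439) x18563)
  (sub (sub (sub (add (add (add (add (sub (sub (sub (add (add C x11997) x12001) x12011) x12023) x11951) x11681) x12329) x11033) x12977) x10547) x16379) x18565)
  (sub (sub (sub (add (add (add (add (sub (sub (sub (sub C x12013) x12005) x12047) x11957) x11687) x12335) x11039) x12983) x10553) x16385) x18571)
  (add (add (sub (sub (add (add (add (add (sub (sub (add (add (sub C x12011) x11989) x12001) x12049) x11959) x11689) x12337) x11041) x12985) x10555) x16387) x5451) x18575)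
  (sub (sub (sub (add (add (add (add (add (add (sub (add (add (add (add C x12019) x12023) x12027) x12039) x11997) x11907) x12123) x11691) x12339) x11043) x12987) x10557) x16389) x5455)
  (add (add (sub (sub (add (add (add (add (add (add (sub (sub (add (add C x12015) x12023) x12025) x12001) x11911) x12127) x11695) x12343) x11047) x12991) x10561) x16393) x5457) x18581)
  (sub (sub (sub (add (add (add (add (add (add (sub (sub (add (add C x12015) x12019) x12035) x12005) x11915) x12131) x11699) x12347) x11051) x12995) x10565) x16397) x18583)
  (add (add (sub (sub (add (add (add (add (add (add (add (add (sub (sub C x12027) x12019) x11989) x12061) x11917) x12133) x11701) x12349) x11053) x12997) x10567) x16399) x5463) x18587)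
  (sub (sub (sub (add (add (add (add (add (add (add (add (add (add (sub C x12025) x12015) x12039) x11991) x12063) x11919) x12135) x11703) x12351) x11055) x12999) x10569) x16401) x5467)
  (sub (sub (sub (add (add (add (add (add (add (sub (sub (sub C x12039) x12023) x12053) x11927) x12143) x11711) x12359) x11063) x13007) x10577) x16409) x18595)
  (sub (sub (sub (add (add (add (add (add (add (sub (add (add (sub C x12035) x12015) x12027) x12057) x11931) x12147) x11715) x12363) x11067) x13011) x10581) x16413) x5479)
  (sub (sub (sub (add (add (add (add (sub (sub (sub (sub C x12049) x12053) x12011) x12101) x11723) x12371) x11075) x13019) x10589) x16421) x18607)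
  (add (add (sub (sub (add (add (add (add (sub (sub (sub (sub C x12047) x12061) x12013) x12103) x11725) x12373) x11077) x13021) x10591) x16423) x5487) x18611)
  (sub (sub (sub (add (add (add (add (sub (sub (sub (sub C x12057) x12047) x12035) x12107) x11729) x12377) x11081) x13025) x10595) x16427) x18613)
  (sub (sub (sub (add (add (add (add (sub (sub (sub (sub C x12053) x12063) x12039) x12111) x11733) x12381) x11085) x13029) x10599) x16431) x5497)
  (add (add (sub (sub (add (add (add (add (sub (add (add (sub (sub C x12063) x12049) x11989) x12025) x12115) x11737) x12385) x11089) x13033) x10603) x16435) x5499) x18623)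
  (sub (sub (sub (add (add (add (add (sub (add (add (sub (sub C x12061) x12057) x11991) x12027) x12117) x11739) x12387) x11091) x13035) x10605) x16437) x5503)
  (sub (sub (sub (add (add (sub (sub (add (add (add (add (sub C x12075) x12083) x12095) x12107) x12143) x11963) x12233) x11099) x13043) x10613) x16445) x18631)
  (sub (sub (sub (add (add (sub (sub (add (add (sub (sub C x12071) x12087) x12111) x12147) x11967) x12237) x11103) x13047) x10617) x16449) x5515)
  (sub (sub (sub (add (add (sub (sub (sub (add (add (sub C x12085) x12071) x12095) x12101) x11975) x12245) x11111) x13055) x10625) x16457) x18643)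
  (add (add (sub (sub (add (add (sub (sub (sub (sub (sub C x12083) x12091) x12103) x11977) x12247) x11113) x13057) x10627) x16459) x5523) x18647)
  (sub (sub (sub (add (add (sub (sub (sub (sub (add (add C x12091) x12095) x12075) x12123) x11979) x12249) x11115) x13059) x10629) x16461) x5527)
  (add (add (sub (sub (add (add (sub (sub (sub (sub (add (add C x12087) x12095) x12085) x12127) x11983) x12253) x11119) x13063) x10633) x16465) x5529) x18653)
  (sub (sub (sub (add (add (sub (sub (sub (add (add (add (add C x12087) x12091) x12071) x12083) x12131) x11987) x12257) x11123) x13067) x10637) x16469) x18655)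
  (sub (sub (sub (add (add (sub (sub (sub (sub (sub C x12103) x12107) x12083) x12047) x12263) x11129) x13073) x10643) x16475) x18661)
  (add (add (sub (sub (add (add (sub (sub (sub (sub (sub C x12101) x12115) x12085) x12049) x12265) x11131) x13075) x10645) x16477) x5541) x18665)
  (sub (sub (sub (add (add (sub (sub (add (add (sub (sub C x12111) x12101) x12071) x12143) x12053) x12269) x11135) x13079) x10649) x16481) x18667)
  (sub (sub (sub (add (add (sub (sub (add (add (sub (sub C x12107) x12117) x12075) x12147) x12057) x12273) x11139) x13083) x10653) x16485) x5551)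
  (add (add (sub (sub (add (add (sub (sub (sub (sub (sub C x12117) x12103) x12133) x12061) x12277) x11143) x13087) x10657) x16489) x5553) x18677)
  (sub (sub (sub (add (add (sub (sub (sub (sub (sub C x12115) x12111) x12135) x12063) x12279) x11145) x13089) x10659) x16491) x5557)
  (sub (sub (sub (add (add (sub (add (add (sub (add (add (add (add C x12127) x12131) x12135) x12147) x12087) x11907) x12015) x12285) x11151) x13095) x10665) x16497) x5563)
  (add (add (sub (sub (add (add (sub (add (add (sub (sub (add (add C x12123) x12131) x12133) x12091) x11911) x12019) x12289) x11155) x13099) x10669) x16501) x5565) x18689)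
  (sub (sub (sub (add (add (sub (add (add (sub (sub (add (add C x12123) x12127) x12143) x12095) x11915) x12023) x12293) x11159) x13103) x10673) x16505) x18691)
  (add (add (sub (sub (add (add (sub (add (add (sub (sub (sub C x12135) x12127) x12115) x11917) x12025) x12295) x11161) x13105) x10675) x16507) x5571) x18695)
  (sub (sub (sub (add (add (sub (add (add (sub (add (add (sub C x12133) x12123) x12147) x12117) x11919) x12027) x12297) x11163) x13107) x10677) x16509) x5575)
  (sub (sub (sub (add (add (sub (add (add (add (add (sub (sub C x12147) x12131) x12071) x12107) x11927) x12035) x12305) x11171) x13115) x10685) x16517) x18703)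
  (sub (sub (sub (add (add (sub (add (add (add (add (add (add (sub C x12143) x12123) x12135) x12075) x12111) x11931) x12039) x12309) x11175) x13119) x10689) x16521) x5587)
  (sub (sub (sub (sub (sub (add (add (add (add (sub (sub C x12157) x12161) x12191) x12227) x12263) x12371) x11831) x12641) x10697) x16529) x18715)
  (add (add (sub (sub (sub (sub (add (add (add (add (sub (sub C x12155) x12169) x12193) x12229) x12265) x12373) x11833) x12643) x10699) x16531) x5595) x18719)
  (sub (sub (sub (sub (sub (add (add (sub (sub (sub C x12165) x12155) x12179) x12269) x12377) x11837) x12647) x10703) x16535) x18721)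
  (sub (sub (sub (sub (sub (add (add (sub (sub (sub C x12161) x12171) x12183) x12273) x12381) x11841) x12651) x10707) x16539) x5605)
  (add (add (sub (sub (sub (sub (add (add (sub (sub (sub C x12171) x12157) x12205) x12277) x12385) x11845) x12655) x10711) x16543) x5607) x18731)
  (sub (sub (sub (sub (sub (add (add (sub (sub (sub C x12169) x12165) x12207) x12279) x12387) x11847) x12657) x10713) x16545) x5611)
  (sub (sub (sub (sub (sub (sub (sub (add (add (sub C x12183) x12191) x12203) x12161) x12233) x11855) x12665) x10721) x16553) x18739)
  (sub (sub (sub (sub (sub (sub (sub (sub (sub C x12179) x12195) x12165) x12237) x11859) x12669) x10725) x16557) x5623)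
  (sub (sub (sub (sub (sub (sub (add (add (add (add (sub C x12193) x12179) x12203) x12155) x12227) x12245) x11867) x12677) x10733) x16565) x18751)
  (add (add (sub (sub (sub (sub (sub (add (add (sub (sub C x12191) x12199) x12157) x12229) x12247) x11869) x12679) x10735) x16567) x5631) x18755)
  (sub (sub (sub (sub (sub (sub (sub (sub (add (add C x12199) x12203) x12183) x12213) x12249) x11871) x12681) x10737) x16569) x5635)
  (add (add (sub (sub (sub (sub (sub (sub (sub (add (add C x12195) x12203) x12193) x12217) x12253) x11875) x12685) x10741) x16573) x5637) x18761)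
  (sub (sub (sub (sub (sub (sub (sub (add (add (add (add C x12195) x12199) x12179) x12191) x12221) x12257) x11879) x12689) x10745) x16577) x18763)
  (add (add (sub (sub (sub (sub (sub (sub (add (add (sub C x12207) x12217) x12229) x12169) x12313) x11881) x12691) x10747) x16579) x5643) x18767)
  (sub (sub (sub (sub (sub (sub (sub (sub (sub C x12205) x12213) x12171) x12315) x11883) x12693) x10749) x16581) x5647)
  (sub (sub (sub (sub (sub (sub (sub (sub (add (add C x12217) x12221) x12207) x12195) x12321) x11889) x12699) x10755) x16587) x5653)
  (add (add (sub (sub (sub (sub (sub (sub (add (add (add (add C x12213) x12221) x12205) x12229) x12199) x12325) x11893) x12703) x10759) x16591) x5655) x18779)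
  (sub (sub (sub (sub (sub (sub (sub (sub (add (add C x12213) x12217) x12227) x12203) x12329) x11897) x12707) x10763) x16595) x18781)
  (sub (sub (sub (sub (sub (sub (add (add (sub (sub C x12229) x12221) x12155) x12191) x12335) x11903) x12713) x10769) x16601) x18787)
  (add (add (sub (sub (sub (sub (sub (add (add (add (add (sub C x12227) x12205) x12217) x12157) x12193) x12337) x11905) x12715) x10771) x16603) x5667) x18791)
  (sub (sub (sub (sub (sub (sub (add (add (add (add (sub C x12237) x12245) x12257) x12269) x12305) x12179) x12071) x12719) x10775) x16607) x18793)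
  (sub (sub (sub (sub (sub (sub (add (add (sub (sub C x12233) x12249) x12273) x12309) x12183) x12075) x12723) x10779) x16611) x5677)
  (sub (sub (sub (sub (sub (sub (sub (add (add (sub C x12247) x12233) x12257) x12263) x12191) x12083) x12731) x10787) x16619) x18805)
  (add (add (sub (sub (sub (sub (sub (sub (sub (sub C x12245) x12253) x12265) x12193) x12085) x12733) x10789) x16621) x5685) x18809)
  (sub (sub (sub (sub (sub (sub (sub (sub (add (add C x12253) x12257) x12237) x12285) x12195) x12087) x12735) x10791) x16623) x5689)
  (add (add (sub (sub (sub (sub (sub (sub (sub (add (add C x12249) x12257) x12247) x12289) x12199) x12091) x12739) x10795) x16627) x5691) x18815)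
  (sub (sub (sub (sub (sub (sub (sub (add (add (add (add C x12249) x12253) x12233) x12245) x12293) x12203) x12095) x12743) x10799) x16631) x18817)
  (sub (sub (sub (sub (sub (add (add (sub (sub (sub C x12265) x12269) x12245) x12155) x12371) x12101) x12749) x10805) x16637) x18823)
  (add (add (sub (sub (sub (sub (add (add (sub (sub (sub C x12263) x12277) x12247) x12157) x12373) x12103) x12751) x10807) x16639) x5703) x18827)
  (sub (sub (sub (sub (sub (add (add (add (add (sub (sub C x12273) x12263) x12233) x12305) x12161) x12377) x12107) x12755) x10811) x16643) x18829)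
  (sub (sub (sub (sub (sub (add (add (add (add (sub (sub C x12269) x12279) x12237) x12309) x12165) x12381) x12111) x12759) x10815) x16647) x5713)
  (add (add (sub (sub (sub (sub (add (add (sub (sub (sub C x12279) x12265) x12295) x12169) x12385) x12115) x12763) x10819) x16651) x5715) x18839)
  (sub (sub (sub (sub (sub (add (add (sub (sub (sub C x12277) x12273) x12297) x12171) x12387) x12117) x12765) x10821) x16653) x5719)
  (sub (sub (sub (sub (sub (sub (sub (add (add (add (add C x12289) x12293) x12297) x12309) x12249) x12339) x12123) x12771) x10827) x16659) x5725)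
  (add (add (sub (sub (sub (sub (sub (sub (sub (add (add C x12285) x12293) x12295) x12253) x12343) x12127) x12775) x10831) x16663) x5727) x18851)
  (sub (sub (sub (sub (sub (sub (sub (sub (add (add C x12285) x12289) x12305) x12257) x12347) x12131) x12779) x10835) x16667) x18853)
  (add (add (sub (sub (sub (sub (sub (sub (sub (sub C x12297) x12289) x12277) x12349) x12133) x12781) x10837) x16669) x5733) x18857)
  (sub (sub (sub (sub (sub (sub (sub (add (add (sub C x12295) x12285) x12309) x12279) x12351) x12135) x12783) x10839) x16671) x5737)
  (sub (sub (sub (sub (sub (sub (add (add (sub (sub C x12309) x12293) x12233) x12269) x12359) x12143) x12791) x10847) x16679) x18865)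
  (sub (sub (sub (sub (sub (sub (add (add (add (add (sub C x12305) x12285) x12297) x12237) x12273) x12363) x12147) x12795) x10851) x16683) x5749)
  (add (add (sub (sub (sub (add (add (sub (add (add (add (add (sub C x12315) x12325) x12337) x12349) x12385) x12205) x11665) x11989) x12799) x10855) x16687) x5751) x18875)
  (sub (sub (sub (sub (add (add (sub (add (add (sub (sub C x12313) x12321) x12351) x12387) x12207) x11667) x11991) x12801) x10857) x16689) x5755)
  (sub (sub (sub (sub (add (add (sub (sub (sub (add (add C x12325) x12329) x12315) x12339) x12213) x11673) x11997) x12807) x10863) x16695) x5761)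
  (add (add (sub (sub (sub (add (add (sub (sub (add (add (add (add C x12321) x12329) x12313) x12337) x12343) x12217) x11677) x12001) x12811) x10867) x16699) x5763) x18887)
  (sub (sub (sub (sub (add (add (sub (sub (sub (add (add C x12321) x12325) x12335) x12347) x12221) x11681) x12005) x12815) x10871) x16703) x18889)
  (sub (sub (sub (sub (add (add (sub (sub (sub (sub C x12337) x12329) x12371) x12227) x11687) x12011) x12821) x10877) x16709) x18895)
  (add (add (sub (sub (sub (add (add (sub (sub (add (add (sub C x12335) x12313) x12325) x12373) x12229) x11689) x12013) x12823) x10879) x16711) x5775) x18899)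
  (sub (sub (sub (sub (add (add (sub (sub (add (add (add (add C x12343) x12347) x12351) x12363) x12321) x12285) x11691) x12015) x12825) x10881) x16713) x5779)
  (add (add (sub (sub (sub (add (add (sub (sub (sub (add (add C x12339) x12347) x12349) x12325) x12289) x11695) x12019) x12829) x10885) x16717) x5781) x18905)
  (sub (sub (sub (sub (add (add (sub (sub (sub (add (add C x12339) x12343) x12359) x12329) x12293) x11699) x12023) x12833) x10889) x16721) x18907)
  (add (add (sub (sub (sub (add (add (sub (add (add (sub (sub C x12351) x12343) x12313) x12385) x12295) x11701) x12025) x12835) x10891) x16723) x5787) x18911)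
  (sub (sub (sub (sub (add (add (sub (add (add (add (add (sub C x12349) x12339) x12363) x12315) x12387) x12297) x11703) x12027) x12837) x10893) x16725) x5791)
  (sub (sub (sub (sub (add (add (sub (sub (sub (sub C x12363) x12347) x12377) x12305) x11711) x12035) x12845) x10901) x16733) x18919)
  (sub (sub (sub (sub (add (add (sub (sub (add (add (sub C x12359) x12339) x12351) x12381) x12309) x11715) x12039) x12849) x10905) x16737) x5803)
  (sub (sub (sub (sub (add (add (add (add (sub (sub (sub C x12373) x12377) x12335) x12155) x12263) x11723) x12047) x12857) x10913) x16745) x18931)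
  (add (add (sub (sub (sub (add (add (add (add (sub (sub (sub C x12371) x12385) x12337) x12157) x12265) x11725) x12049) x12859) x10915) x16747) x5811) x18935)
  (sub (sub (sub (sub (add (add (add (add (sub (sub (sub C x12381) x12371) x12359) x12161) x12269) x11729) x12053) x12863) x10919) x16751) x18937)
  (sub (sub (sub (sub (add (add (add (add (sub (sub (sub C x12377) x12387) x12363) x12165) x12273) x11733) x12057) x12867) x10923) x16755) x5821)
  (add (add (sub (sub (sub (add (add (add (add (add (add (sub (sub C x12387) x12373) x12313) x12349) x12169) x12277) x11737) x12061) x12871) x10927) x16759) x5823) x18947)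
  (sub (sub (sub (sub (add (add (add (add (add (add (sub (sub C x12385) x12381) x12315) x12351) x12171) x12279) x11739) x12063) x12873) x10929) x16761) x5827)
  (sub (sub (add (add (sub (add (add (add (add (add (add (add (add (sub C x12399) x12407) x12419) x12431) x12467) x12503) x12611) x12719) x13043) x11423) x6563) x9479) x16769) x18955)
  (sub (sub (add (add (sub (add (add (add (add (add (add (sub (sub C x12395) x12411) x12435) x12471) x12507) x12615) x12723) x13047) x11427) x6567) x9483) x16773) x5839)
  (sub (sub (add (add (sub (add (add (add (add (sub (add (add (sub C x12409) x12395) x12419) x12425) x12515) x12623) x12731) x13055) x11435) x6575) x9491) x16781) x18967)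
  (add (add (sub (add (add (sub (add (add (add (add (sub (sub (sub C x12407) x12415) x12427) x12517) x12625) x12733) x13057) x11437) x6577) x9493) x16783) x5847) x18971)
  (sub (sub (add (add (sub (add (add (add (add (sub (sub (add (add C x12415) x12419) x12399) x12447) x12519) x12627) x12735) x13059) x11439) x6579) x9495) x16785) x5851)
  (add (add (sub (add (add (sub (add (add (add (add (sub (sub (add (add C x12411) x12419) x12409) x12451) x12523) x12631) x12739) x13063) x11443) x6583) x9499) x16789) x5853) x18977)
  (sub (sub (add (add (sub (add (add (add (add (sub (add (add (add (add C x12411) x12415) x12395) x12407) x12455) x12527) x12635) x12743) x13067) x11447) x6587) x9503) x16793) x18979)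
  (sub (sub (add (add (sub (add (add (sub (sub (sub (sub C x12427) x12431) x12407) x12479) x12749) x13073) x11453) x6593) x9509) x16799) x18985)
  (add (add (sub (add (add (sub (add (add (sub (sub (sub (sub C x12425) x12439) x12409) x12481) x12751) x13075) x11455) x6595) x9511) x16801) x5865) x18989)
  (sub (sub (add (add (sub (add (add (sub (add (add (sub (sub C x12435) x12425) x12395) x12467) x12485) x12755) x13079) x11459) x6599) x9515) x16805) x18991)
  (sub (sub (add (add (sub (add (add (sub (add (add (sub (sub C x12431) x12441) x12399) x12471) x12489) x12759) x13083) x11463) x6603) x9519) x16809) x5875)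
  (add (add (sub (add (add (sub (add (add (sub (sub (sub (sub C x12441) x12427) x12457) x12493) x12763) x13087) x11467) x6607) x9523) x16813) x5877) x19001)
  (sub (sub (add (add (sub (add (add (sub (sub (sub (sub C x12439) x12435) x12459) x12495) x12765) x13089) x11469) x6609) x9525) x16815) x5881)
  (sub (sub (add (add (sub (add (add (sub (sub (add (add (add (add C x12451) x12455) x12459) x12471) x12411) x12555) x12771) x13095) x11475) x6615) x9531) x16821) x5887)
  (add (add (sub (add (add (sub (add (add (sub (sub (sub (add (add C x12447) x12455) x12457) x12415) x12559) x12775) x13099) x11479) x6619) x9535) x16825) x5889) x19013)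
  (sub (sub (add (add (sub (add (add (sub (sub (sub (add (add C x12447) x12451) x12467) x12419) x12563) x12779) x13103) x11483) x6623) x9539) x16829) x19015)
  (add (add (sub (add (add (sub (add (add (sub (sub (sub (sub C x12459) x12451) x12439) x12565) x12781) x13105) x11485) x6625) x9541) x16831) x5895) x19019)
  (sub (sub (add (add (sub (add (add (sub (sub (add (add (sub C x12457) x12447) x12471) x12441) x12567) x12783) x13107) x11487) x6627) x9543) x16833) x5899)
  (sub (sub (add (add (sub (add (add (sub (add (add (sub (sub C x12471) x12455) x12395) x12431) x12575) x12791) x13115) x11495) x6635) x9551) x16841) x19027)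
  (sub (sub (add (add (sub (add (add (sub (add (add (add (add (sub C x12467) x12447) x12459) x12399) x12435) x12579) x12795) x13119) x11499) x6639) x9555) x16845) x5911)
  (sub (sub (add (add (sub (sub (sub (add (add (sub (sub C x12481) x12485) x12515) x12551) x12425) x12641) x11507) x6647) x9563) x16853) x19039)
  (add (add (sub (add (add (sub (sub (sub (add (add (sub (sub C x12479) x12493) x12517) x12553) x12427) x12643) x11509) x6649) x9565) x16855) x5919) x19043)
  (sub (sub (add (add (sub (sub (sub (sub (sub (sub C x12489) x12479) x12503) x12431) x12647) x11513) x6653) x9569) x16859) x19045)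
  (sub (sub (add (add (sub (sub (sub (sub (sub (sub C x12485) x12495) x12507) x12435) x12651) x11517) x6657) x9573) x16863) x5929)
  (add (add (sub (add (add (sub (sub (sub (sub (sub (sub C x12495) x12481) x12529) x12439) x12655) x11521) x6661) x9577) x16867) x5931) x19055)
  (sub (sub (add (add (sub (sub (sub (sub (sub (sub C x12493) x12489) x12531) x12441) x12657) x11523) x6663) x9579) x16869) x5935)
  (sub (sub (add (add (sub (sub (add (add (sub (add (add (sub C x12507) x12515) x12527) x12485) x12395) x12611) x12665) x11531) x6671) x9587) x16877) x19063)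
  (sub (sub (add (add (sub (sub (add (add (sub (sub (sub C x12503) x12519) x12489) x12399) x12615) x12669) x11535) x6675) x9591) x16881) x5947)
  (sub (sub (add (add (sub (sub (add (add (add (add (add (add (sub C x12517) x12503) x12527) x12479) x12551) x12407) x12623) x12677) x11543) x6683) x9599) x16889) x19075)
  (add (add (sub (add (add (sub (sub (add (add (add (add (sub (sub C x12515) x12523) x12481) x12553) x12409) x12625) x12679) x11545) x6685) x9601) x16891) x5955) x19079)
  (sub (sub (add (add (sub (sub (add (add (sub (sub (add (add C x12523) x12527) x12507) x12537) x12411) x12627) x12681) x11547) x6687) x9603) x16893) x5959)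
  (add (add (sub (add (add (sub (sub (add (add (sub (sub (add (add C x12519) x12527) x12517) x12541) x12415) x12631) x12685) x11551) x6691) x9607) x16897) x5961) x19085)
  (sub (sub (add (add (sub (sub (add (add (sub (add (add (add (add C x12519) x12523) x12503) x12515) x12545) x12419) x12635) x12689) x11555) x6695) x9611) x16901) x19087)
  (add (add (sub (add (add (sub (sub (sub (sub (add (add (sub C x12531) x12541) x12553) x12493) x12583) x12691) x11557) x6697) x9613) x16903) x5967) x19091)
  (sub (sub (add (add (sub (sub (sub (sub (sub (sub C x12529) x12537) x12495) x12585) x12693) x11559) x6699) x9615) x16905) x5971)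
  (sub (sub (add (add (sub (sub (sub (sub (sub (add (add C x12541) x12545) x12531) x12519) x12591) x12699) x11565) x6705) x9621) x16911) x5977)
  (add (add (sub (add (add (sub (sub (sub (sub (add (add (add (add C x12537) x12545) x12529) x12553) x12523) x12595) x12703) x11569) x6709) x9625) x16915) x5979) x19103)
  (sub (sub (add (add (sub (sub (sub (sub (sub (add (add C x12537) x12541) x12551) x12527) x12599) x12707) x11573) x6713) x9629) x16919) x19105)
  (sub (sub (add (add (sub (sub (sub (add (add (sub (sub C x12553) x12545) x12479) x12515) x12605) x12713) x11579) x6719) x9635) x16925) x19111)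
  (add (add (sub (add (add (sub (sub (sub (add (add (add (add (sub C x12551) x12529) x12541) x12481) x12517) x12607) x12715) x11581) x6721) x9637) x16927) x5991) x19115)
  (sub (sub (add (add (sub (sub (sub (add (add (add (add (add (add C x12559) x12563) x12567) x12579) x12591) x12627) x12447) x12879) x11583) x6723) x9639) x16929) x5995)
  (add (add (sub (add (add (sub (sub (sub (add (add (sub (add (add C x12555) x12563) x12565) x12595) x12631) x12451) x12883) x11587) x6727) x9643) x16933) x5997) x19121)
  (sub (sub (add (add (sub (sub (sub (add (add (sub (add (add C x12555) x12559) x12575) x12599) x12635) x12455) x12887) x11591) x6731) x9647) x16937) x19123)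
  (add (add (sub (add (add (sub (sub (sub (sub (sub (sub C x12567) x12559) x12583) x12457) x12889) x11593) x6733) x9649) x16939) x6003) x19127)
  (sub (sub (add (add (sub (sub (sub (sub (add (add (sub C x12565) x12555) x12579) x12585) x12459) x12891) x11595) x6735) x9651) x16941) x6007)
  (sub (sub (add (add (sub (sub (sub (sub (sub (sub C x12579) x12563) x12611) x12467) x12899) x11603) x6743) x9659) x16949) x19135)
  (sub (sub (add (add (sub (sub (sub (sub (add (add (sub C x12575) x12555) x12567) x12615) x12471) x12903) x11607) x6747) x9663) x16953) x6019)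
  (add (add (sub (add (add (sub (sub (sub (sub (add (add (sub C x12585) x12595) x12607) x12565) x12529) x12907) x11611) x6751) x9667) x16957) x6021) x19145)
  (sub (sub (add (add (sub (sub (sub (sub (sub (sub C x12583) x12591) x12567) x12531) x12909) x11613) x6753) x9669) x16959) x6025)
  (sub (sub (add (add (sub (sub (sub (add (add (sub (add (add C x12595) x12599) x12585) x12555) x12627) x12537) x12915) x11619) x6759) x9675) x16965) x6031)
  (add (add (sub (add (add (sub (sub (sub (add (add (add (add (add (add C x12591) x12599) x12583) x12607) x12559) x12631) x12541) x12919) x11623) x6763) x9679) x16969) x6033) x19157)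
  (sub (sub (add (add (sub (sub (sub (add (add (sub (add (add C x12591) x12595) x12605) x12563) x12635) x12545) x12923) x11627) x6767) x9683) x16973) x19159)
  (sub (sub (add (add (sub (sub (sub (sub (sub (sub C x12607) x12599) x12623) x12551) x12929) x11633) x6773) x9689) x16979) x19165)
  (add (add (sub (add (add (sub (sub (sub (sub (add (add (sub C x12605) x12583) x12595) x12625) x12553) x12931) x11635) x6775) x9691) x16981) x6045) x19169)
  (sub (sub (add (add (sub (sub (add (add (sub (add (add (sub C x12615) x12623) x12635) x12575) x12395) x12503) x12935) x11639) x6779) x9695) x16985) x19171)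
  (sub (sub (add (add (sub (sub (add (add (sub (sub (sub C x12611) x12627) x12579) x12399) x12507) x12939) x11643) x6783) x9699) x16989) x6055)
  (sub (sub (add (add (sub (sub (add (add (sub (add (add (sub C x12625) x12611) x12635) x12605) x12407) x12515) x12947) x11651) x6791) x9707) x16997) x19183)
  (add (add (sub (add (add (sub (sub (add (add (sub (sub (sub C x12623) x12631) x12607) x12409) x12517) x12949) x11653) x6793) x9709) x16999) x6063) x19187)
  (sub (sub (add (add (sub (sub (add (add (add (add (sub (add (add C x12631) x12635) x12615) x12555) x12591) x12411) x12519) x12951) x11655) x6795) x9711) x17001) x6067)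
  (add (add (sub (add (add (sub (sub (add (add (add (add (sub (add (add C x12627) x12635) x12625) x12559) x12595) x12415) x12523) x12955) x11659) x6799) x9715) x17005) x6069) x19193)
  (sub (sub (add (add (sub (sub (add (add (add (add (add (add (add (add C x12627) x12631) x12611) x12623) x12563) x12599) x12419) x12527) x12959) x11663) x6803) x9719) x17009) x19195)
  (sub (sub (add (add (sub (sub (add (add (add (add (sub (sub C x12643) x12647) x12677) x12713) x12749) x12857) x12479) x12155) x6809) x9725) x17015) x19201)
  (add (add (sub (add (add (sub (sub (add (add (add (add (sub (sub C x12641) x12655) x12679) x12715) x12751) x12859) x12481) x12157) x6811) x9727) x17017) x6081) x19205)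
  (sub (sub (add (add (sub (sub (add (add (sub (sub (sub C x12651) x12641) x12665) x12755) x12863) x12485) x12161) x6815) x9731) x17021) x19207)
  (sub (sub (add (add (sub (sub (add (add (sub (sub (sub C x12647) x12657) x12669) x12759) x12867) x12489) x12165) x6819) x9735) x17025) x6091)
  (add (add (sub (add (add (sub (sub (add (add (sub (sub (sub C x12657) x12643) x12691) x12763) x12871) x12493) x12169) x6823) x9739) x17029) x6093) x19217)
  (sub (sub (add (add (sub (sub (add (add (sub (sub (sub C x12655) x12651) x12693) x12765) x12873) x12495) x12171) x6825) x9741) x17031) x6097)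
  (sub (sub (add (add (sub (sub (sub (sub (add (add (sub C x12669) x12677) x12689) x12647) x12719) x12503) x12179) x6833) x9749) x17039) x19225)
  (sub (sub (add (add (sub (sub (sub (sub (sub (sub C x12665) x12681) x12651) x12723) x12507) x12183) x6837) x9753) x17043) x6109)
  (sub (sub (add (add (sub (sub (sub (add (add (add (add (sub C x12679) x12665) x12689) x12641) x12713) x12731) x12515) x12191) x6845) x9761) x17051) x19237)
  (add (add (sub (add (add (sub (sub (sub (add (add (sub (sub C x12677) x12685) x12643) x12715) x12733) x12517) x12193) x6847) x9763) x17053) x6117) x19241)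
  (sub (sub (add (add (sub (sub (sub (sub (sub (add (add C x12685) x12689) x12669) x12699) x12735) x12519) x12195) x6849) x9765) x17055) x6121)
  (add (add (sub (add (add (sub (sub (sub (sub (sub (add (add C x12681) x12689) x12679) x12703) x12739) x12523) x12199) x6853) x9769) x17059) x6123) x19247)
  (sub (sub (add (add (sub (sub (sub (sub (add (add (add (add C x12681) x12685) x12665) x12677) x12707) x12743) x12527) x12203) x6857) x9773) x17063) x19249)
  (add (add (sub (add (add (sub (sub (sub (sub (add (add (sub C x12693) x12703) x12715) x12655) x12799) x12529) x12205) x6859) x9775) x17065) x6129) x19253)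
  (sub (sub (add (add (sub (sub (sub (sub (sub (sub C x12691) x12699) x12657) x12801) x12531) x12207) x6861) x9777) x17067) x6133)
  (sub (sub (add (add (sub (sub (sub (sub (sub (add (add C x12703) x12707) x12693) x12681) x12807) x12537) x12213) x6867) x9783) x17073) x6139)
  (add (add (sub (add (add (sub (sub (sub (sub (add (add (add (add C x12699) x12707) x12691) x12715) x12685) x12811) x12541) x12217) x6871) x9787) x17077) x6141) x19265)
  (sub (sub (add (add (sub (sub (sub (sub (sub (add (add C x12699) x12703) x12713) x12689) x12815) x12545) x12221) x6875) x9791) x17081) x19267)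
  (sub (sub (add (add (sub (sub (sub (add (add (sub (sub C x12715) x12707) x12641) x12677) x12821) x12551) x12227) x6881) x9797) x17087) x19273)
  (add (add (sub (add (add (sub (sub (sub (add (add (add (add (sub C x12713) x12691) x12703) x12643) x12679) x12823) x12553) x12229) x6883) x9799) x17089) x6153) x19277)
  (sub (sub (add (add (sub (add (add (sub (add (add (add (add (sub C x12723) x12731) x12743) x12755) x12791) x12665) x12395) x13043) x12233) x6887) x9803) x17093) x19279)
  (sub (sub (add (add (sub (add (add (sub (add (add (sub (sub C x12719) x12735) x12759) x12795) x12669) x12399) x13047) x12237) x6891) x9807) x17097) x6163)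
  (sub (sub (add (add (sub (add (add (sub (sub (add (add (sub C x12733) x12719) x12743) x12749) x12677) x12407) x13055) x12245) x6899) x9815) x17105) x19291)
  (add (add (sub (add (add (sub (add (add (sub (sub (sub (sub C x12731) x12739) x12751) x12679) x12409) x13057) x12247) x6901) x9817) x17107) x6171) x19295)
  (sub (sub (add (add (sub (add (add (sub (sub (sub (add (add C x12739) x12743) x12723) x12771) x12681) x12411) x13059) x12249) x6903) x9819) x17109) x6175)
  (add (add (sub (add (add (sub (add (add (sub (sub (sub (add (add C x12735) x12743) x12733) x12775) x12685) x12415) x13063) x12253) x6907) x9823) x17113) x6177) x19301)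
  (sub (sub (add (add (sub (add (add (sub (sub (add (add (add (add C x12735) x12739) x12719) x12731) x12779) x12689) x12419) x13067) x12257) x6911) x9827) x17117) x19303)
  (sub (sub (add (add (sub (add (add (add (add (sub (sub (sub C x12751) x12755) x12731) x12641) x12857) x12425) x13073) x12263) x6917) x9833) x17123) x19309)
  (add (add (sub (add (add (sub (add (add (add (add (sub (sub (sub C x12749) x12763) x12733) x12643) x12859) x12427) x13075) x12265) x6919) x9835) x17125) x6189) x19313)
  (sub (sub (add (add (sub (add (add (add (add (add (add (sub (sub C x12759) x12749) x12719) x12791) x12647) x12863) x12431) x13079) x12269) x6923) x9839) x17129) x19315)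
  (sub (sub (add (add (sub (add (add (add (add (add (add (sub (sub C x12755) x12765) x12723) x12795) x12651) x12867) x12435) x13083) x12273) x6927) x9843) x17133) x6199)
  (add (add (sub (add (add (sub (add (add (add (add (sub (sub (sub C x12765) x12751) x12781) x12655) x12871) x12439) x13087) x12277) x6931) x9847) x17137) x6201) x19325)
  (sub (sub (add (add (sub (add (add (add (add (sub (sub (sub C x12763) x12759) x12783) x12657) x12873) x12441) x13089) x12279) x6933) x9849) x17139) x6205)
  (sub (sub (add (add (sub (add (add (sub (sub (add (add (add (add C x12775) x12779) x12783) x12795) x12735) x12825) x12447) x13095) x12285) x6939) x9855) x17145) x6211)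
  (add (add (sub (add (add (sub (add (add (sub (sub (sub (add (add C x12771) x12779) x12781) x12739) x12829) x12451) x13099) x12289) x6943) x9859) x17149) x6213) x19337)
  (sub (sub (add (add (sub (add (add (sub (sub (sub (add (add C x12771) x12775) x12791) x12743) x12833) x12455) x13103) x12293) x6947) x9863) x17153) x19339)
  (add (add (sub (add (add (sub (add (add (sub (sub (sub (sub C x12783) x12775) x12763) x12835) x12457) x13105) x12295) x6949) x9865) x17155) x6219) x19343)
  (sub (sub (add (add (sub (add (add (sub (sub (add (add (sub C x12781) x12771) x12795) x12765) x12837) x12459) x13107) x12297) x6951) x9867) x17157) x6223)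
  (sub (sub (add (add (sub (add (add (sub (add (add (sub (sub C x12795) x12779) x12719) x12755) x12845) x12467) x13115) x12305) x6959) x9875) x17165) x19351)
  (sub (sub (add (add (sub (add (add (sub (add (add (add (add (sub C x12791) x12771) x12783) x12723) x12759) x12849) x12471) x13119) x12309) x6963) x9879) x17169) x6235)
  (add (add (sub (add (add (sub (sub (sub (add (add (add (add (sub C x12801) x12811) x12823) x12835) x12871) x12691) x12961) x12313) x6967) x9883) x17173) x6237) x19361)
  (sub (sub (add (add (sub (sub (sub (add (add (sub (sub C x12799) x12807) x12837) x12873) x12693) x12963) x12315) x6969) x9885) x17175) x6241)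
  (sub (sub (add (add (sub (sub (sub (sub (sub (add (add C x12811) x12815) x12801) x12825) x12699) x12969) x12321) x6975) x9891) x17181) x6247)
  (add (add (sub (add (add (sub (sub (sub (sub (add (add (add (add C x12807) x12815) x12799) x12823) x12829) x12703) x12973) x12325) x6979) x9895) x17185) x6249) x19373)
  (sub (sub (add (add (sub (sub (sub (sub (sub (add (add C x12807) x12811) x12821) x12833) x12707) x12977) x12329) x6983) x9899) x17189) x19375)
  (sub (sub (add (add (sub (sub (sub (sub (sub (sub C x12823) x12815) x12857) x12713) x12983) x12335) x6989) x9905) x17195) x19381)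
  (add (add (sub (add (add (sub (sub (sub (sub (add (add (sub C x12821) x12799) x12811) x12859) x12715) x12985) x12337) x6991) x9907) x17197) x6261) x19385)
  (sub (sub (add (add (sub (sub (sub (sub (add (add (add (add C x12829) x12833) x12837) x12849) x12807) x12771) x12987) x12339) x6993) x9909) x17199) x6265)
  (add (add (sub (add (add (sub (sub (sub (sub (sub (add (add C x12825) x12833) x12835) x12811) x12775) x12991) x12343) x6997) x9913) x17203) x6267) x19391)
  (sub (sub (add (add (sub (sub (sub (sub (sub (add (add C x12825) x12829) x12845) x12815) x12779) x12995) x12347) x7001) x9917) x17207) x19393)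
  (add (add (sub (add (add (sub (sub (sub (add (add (sub (sub C x12837) x12829) x12799) x12871) x12781) x12997) x12349) x7003) x9919) x17209) x6273) x19397)
  (sub (sub (add (add (sub (sub (sub (add (add (add (add (sub C x12835) x12825) x12849) x12801) x12873) x12783) x12999) x12351) x7005) x9921) x17211) x6277)
  (sub (sub (add (add (sub (sub (sub (sub (sub (sub C x12849) x12833) x12863) x12791) x13007) x12359) x7013) x9929) x17219) x19405)
  (sub (sub (add (add (sub (sub (sub (sub (add (add (sub C x12845) x12825) x12837) x12867) x12795) x13011) x12363) x7017) x9933) x17223) x6289)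
  (sub (sub (add (add (sub (sub (add (add (sub (sub (sub C x12859) x12863) x12821) x12641) x12749) x13019) x12371) x7025) x9941) x17231) x19417)
  (add (add (sub (add (add (sub (sub (add (add (sub (sub (sub C x12857) x12871) x12823) x12643) x12751) x13021) x12373) x7027) x9943) x17233) x6297) x19421)
  (sub (sub (add (add (sub (sub (add (add (sub (sub (sub C x12867) x12857) x12845) x12647) x12755) x13025) x12377) x7031) x9947) x17237) x19423)
  (sub (sub (add (add (sub (sub (add (add (sub (sub (sub C x12863) x12873) x12849) x12651) x12759) x13029) x12381) x7035) x9951) x17241) x6307)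
  (add (add (sub (add (add (sub (sub (add (add (add (add (sub (sub C x12873) x12859) x12799) x12835) x12655) x12763) x13033) x12385) x7039) x9955) x17245) x6309) x19433)
  (sub (sub (add (add (sub (sub (add (add (add (add (sub (sub C x12871) x12867) x12801) x12837) x12657) x12765) x13035) x12387) x7041) x9957) x17247) x6313)
  (sub (sub (add (add (add (add (sub (add (add (add (add (add (add (add (add C x12883) x12887) x12891) x12903) x12915) x12951) x12987) x13095) x12555) x10935) x11907) x7047) x9963) x17253) x6319)
  (add (add (sub (add (add (add (add (sub (add (add (add (add (sub (add (add C x12879) x12887) x12889) x12919) x12955) x12991) x13099) x12559) x10939) x11911) x7051) x9967) x17257) x6321) x19445)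
  (sub (sub (add (add (add (add (sub (add (add (add (add (sub (add (add C x12879) x12883) x12899) x12923) x12959) x12995) x13103) x12563) x10943) x11915) x7055) x9971) x17261) x19447)
  (add (add (sub (add (add (add (add (sub (add (add (sub (sub (sub C x12891) x12883) x12907) x12997) x13105) x12565) x10945) x11917) x7057) x9973) x17263) x6327) x19451)
  (sub (sub (add (add (add (add (sub (add (add (sub (add (add (sub C x12889) x12879) x12903) x12909) x12999) x13107) x12567) x10947) x11919) x7059) x9975) x17265) x6331)
  (sub (sub (add (add (add (add (sub (add (add (sub (sub (sub C x12903) x12887) x12935) x13007) x13115) x12575) x10955) x11927) x7067) x9983) x17273) x19459)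
  (sub (sub (add (add (add (add (sub (add (add (sub (add (add (sub C x12899) x12879) x12891) x12939) x13011) x13119) x12579) x10959) x11931) x7071) x9987) x17277) x6343)
  (add (add (sub (add (add (add (add (sub (sub (sub (add (add (sub C x12909) x12919) x12931) x12889) x12961) x12583) x10963) x11935) x7075) x9991) x17281) x6345) x19469)
  (sub (sub (add (add (add (add (sub (sub (sub (sub (sub C x12907) x12915) x12891) x12963) x12585) x10965) x11937) x7077) x9993) x17283) x6349)
  (sub (sub (add (add (add (add (sub (sub (add (add (sub (add (add C x12919) x12923) x12909) x12879) x12951) x12969) x12591) x10971) x11943) x7083) x9999) x17289) x6355)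
  (add (add (sub (add (add (add (add (sub (sub (add (add (add (add (add (add C x12915) x12923) x12907) x12931) x12883) x12955) x12973) x12595) x10975) x11947) x7087) x10003) x17293) x6357) x19481)
  (sub (sub (add (add (add (add (sub (sub (add (add (sub (add (add C x12915) x12919) x12929) x12887) x12959) x12977) x12599) x10979) x11951) x7091) x10007) x17297) x19483)
  (sub (sub (add (add (add (add (sub (sub (sub (sub (sub C x12931) x12923) x12947) x12983) x12605) x10985) x11957) x7097) x10013) x17303) x19489)
  (add (add (sub (add (add (add (add (sub (sub (sub (add (add (sub C x12929) x12907) x12919) x12949) x12985) x12607) x10987) x11959) x7099) x10015) x17305) x6369) x19493)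
  (sub (sub (add (add (add (add (sub (sub (sub (add (add (sub C x12939) x12947) x12959) x12899) x13043) x12611) x10991) x11963) x7103) x10019) x17309) x19495)
  (sub (sub (add (add (add (add (sub (sub (sub (sub (sub C x12935) x12951) x12903) x13047) x12615) x10995) x11967) x7107) x10023) x17313) x6379)
  (sub (sub (add (add (add (add (sub (sub (sub (add (add (sub C x12949) x12935) x12959) x12929) x13055) x12623) x11003) x11975) x7115) x10031) x17321) x19507)
  (add (add (sub (add (add (add (add (sub (sub (sub (sub (sub C x12947) x12955) x12931) x13057) x12625) x11005) x11977) x7117) x10033) x17323) x6387) x19511)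
  (sub (sub (add (add (add (add (sub (sub (add (add (sub (add (add C x12955) x12959) x12939) x12879) x12915) x13059) x12627) x11007) x11979) x7119) x10035) x17325) x6391)
  (add (add (sub (add (add (add (add (sub (sub (add (add (sub (add (add C x12951) x12959) x12949) x12883) x12919) x13063) x12631) x11011) x11983) x7123) x10039) x17329) x6393) x19517)
  (sub (sub (add (add (add (add (sub (sub (add (add (add (add (add (add C x12951) x12955) x12935) x12947) x12887) x12923) x13067) x12635) x11015) x11987) x7127) x10043) x17333) x19519)
  (add (add (sub (add (add (add (add (sub (sub (add (add (add (add (sub C x12963) x12973) x12985) x12997) x13033) x12907) x12799) x11017) x11989) x7129) x10045) x17335) x6399) x19523)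
  (sub (sub (add (add (add (add (sub (sub (add (add (sub (sub C x12961) x12969) x12999) x13035) x12909) x12801) x11019) x11991) x7131) x10047) x17337) x6403)
  (sub (sub (add (add (add (add (sub (sub (sub (sub (add (add C x12973) x12977) x12963) x12987) x12915) x12807) x11025) x11997) x7137) x10053) x17343) x6409)
  (add (add (sub (add (add (add (add (sub (sub (sub (add (add (add (add C x12969) x12977) x12961) x12985) x12991) x12919) x12811) x11029) x12001) x7141) x10057) x17347) x6411) x19535)
  (sub (sub (add (add (add (add (sub (sub (sub (sub (add (add C x12969) x12973) x12983) x12995) x12923) x12815) x11033) x12005) x7145) x10061) x17351) x19537)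
  (sub (sub (add (add (add (add (sub (sub (sub (sub (sub C x12985) x12977) x13019) x12929) x12821) x11039) x12011) x7151) x10067) x17357) x19543)
  (add (add (sub (add (add (add (add (sub (sub (sub (add (add (sub C x12983) x12961) x12973) x13021) x12931) x12823) x11041) x12013) x7153) x10069) x17359) x6423) x19547)
  (sub (sub (add (add (add (add (sub (add (add (sub (add (add (add (add C x12991) x12995) x12999) x13011) x12969) x12879) x13095) x12825) x11043) x12015) x7155) x10071) x17361) x6427)
  (add (add (sub (add (add (add (add (sub (add (add (sub (sub (add (add C x12987) x12995) x12997) x12973) x12883) x13099) x12829) x11047) x12019) x7159) x10075) x17365) x6429) x19553)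
  (sub (sub (add (add (add (add (sub (add (add (sub (sub (add (add C x12987) x12991) x13007) x12977) x12887) x13103) x12833) x11051) x12023) x7163) x10079) x17369) x19555)
  (add (add (sub (add (add (add (add (sub (add (add (add (add (sub (sub C x12999) x12991) x12961) x13033) x12889) x13105) x12835) x11053) x12025) x7165) x10081) x17371) x6435) x19559)
  (sub (sub (add (add (add (add (sub (add (add (add (add (add (add (sub C x12997) x12987) x13011) x12963) x13035) x12891) x13107) x12837) x11055) x12027) x7167) x10083) x17373) x6439)
  (sub (sub (add (add (add (add (sub (add (add (sub (sub (sub C x13011) x12995) x13025) x12899) x13115) x12845) x11063) x12035) x7175) x10091) x17381) x19567)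
  (sub (sub (add (add (add (add (sub (add (add (sub (add (add (sub C x13007) x12987) x12999) x13029) x12903) x13119) x12849) x11067) x12039) x7179) x10095) x17385) x6451)
  (sub (sub (add (add (add (add (sub (sub (sub (sub (sub C x13021) x13025) x12983) x13073) x12857) x11075) x12047) x7187) x10103) x17393) x19579)
  (add (add (sub (add (add (add (add (sub (sub (sub (sub (sub C x13019) x13033) x12985) x13075) x12859) x11077) x12049) x7189) x10105) x17395) x6459) x19583)
  (sub (sub (add (add (add (add (sub (sub (sub (sub (sub C x13029) x13019) x13007) x13079) x12863) x11081) x12053) x7193) x10109) x17399) x19585)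
  (sub (sub (add (add (add (add (sub (sub (sub (sub (sub C x13025) x13035) x13011) x13083) x12867) x11085) x12057) x7197) x10113) x17403) x6469)
  (add (add (sub (add (add (add (add (sub (sub (add (add (sub (sub C x13035) x13021) x12961) x12997) x13087) x12871) x11089) x12061) x7201) x10117) x17407) x6471) x19595)
  (sub (sub (add (add (add (add (sub (sub (add (add (sub (sub C x13033) x13029) x12963) x12999) x13089) x12873) x11091) x12063) x7203) x10119) x17409) x6475)
  (sub (sub (add (add (add (add (add (add (sub (add (add (add (add (sub C x13047) x13055) x13067) x13079) x13115) x12935) x12395) x12719) x11099) x12071) x7211) x10127) x17417) x19603)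
  (sub (sub (add (add (add (add (add (add (sub (add (add (sub (sub C x13043) x13059) x13083) x13119) x12939) x12399) x12723) x11103) x12075) x7215) x10131) x17421) x6487)
  (sub (sub (add (add (add (add (add (add (sub (sub (add (add (sub C x13057) x13043) x13067) x13073) x12947) x12407) x12731) x11111) x12083) x7223) x10139) x17429) x19615)
  (add (add (sub (add (add (add (add (add (add (sub (sub (sub (sub C x13055) x13063) x13075) x12949) x12409) x12733) x11113) x12085) x7225) x10141) x17431) x6495) x19619)
  (sub (sub (add (add (add (add (add (add (sub (sub (sub (add (add C x13063) x13067) x13047) x13095) x12951) x12411) x12735) x11115) x12087) x7227) x10143) x17433) x6499)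
  (add (add (sub (add (add (add (add (add (add (sub (sub (sub (add (add C x13059) x13067) x13057) x13099) x12955) x12415) x12739) x11119) x12091) x7231) x10147) x17437) x6501) x19625)
  (sub (sub (add (add (add (add (add (add (sub (sub (add (add (add (add C x13059) x13063) x13043) x13055) x13103) x12959) x12419) x12743) x11123) x12095) x7235) x10151) x17441) x19627)
  (sub (sub (add (add (add (add (add (add (sub (sub (sub (sub C x13075) x13079) x13055) x13019) x12425) x12749) x11129) x12101) x7241) x10157) x17447) x19633)
  (add (add (sub (add (add (add (add (add (add (sub (sub (sub (sub C x13073) x13087) x13057) x13021) x12427) x12751) x11131) x12103) x7243) x10159) x17449) x6513) x19637)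
  (sub (sub (add (add (add (add (add (add (sub (add (add (sub (sub C x13083) x13073) x13043) x13115) x13025) x12431) x12755) x11135) x12107) x7247) x10163) x17453) x19639)
  (sub (sub (add (add (add (add (add (add (sub (add (add (sub (sub C x13079) x13089) x13047) x13119) x13029) x12435) x12759) x11139) x12111) x7251) x10167) x17457) x6523)
  (add (add (sub (add (add (add (add (add (add (sub (sub (sub (sub C x13089) x13075) x13105) x13033) x12439) x12763) x11143) x12115) x7255) x10171) x17461) x6525) x19649)
  (sub (sub (add (add (add (add (add (add (sub (sub (sub (sub C x13087) x13083) x13107) x13035) x12441) x12765) x11145) x12117) x7257) x10173) x17463) x6529)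
  (sub (sub (add (add (add (add (add (add (add (add (sub (add (add (add (add C x13099) x13103) x13107) x13119) x13059) x12879) x12987) x12447) x12771) x11151) x12123) x7263) x10179) x17469) x6535)
  (add (add (sub (add (add (add (add (add (add (add (add (sub (sub (add (add C x13095) x13103) x13105) x13063) x12883) x12991) x12451) x12775) x11155) x12127) x7267) x10183) x17473) x6537) x19661)
  (sub (sub (add (add (add (add (add (add (add (add (sub (sub (add (add C x13095) x13099) x13115) x13067) x12887) x12995) x12455) x12779) x11159) x12131) x7271) x10187) x17477) x19663)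
  (add (add (sub (add (add (add (add (add (add (add (add (sub (sub (sub C x13107) x13099) x13087) x12889) x12997) x12457) x12781) x11161) x12133) x7273) x10189) x17479) x6543) x19667)
  (sub (sub (add (add (add (add (add (add (add (add (sub (add (add (sub C x13105) x13095) x13119) x13089) x12891) x12999) x12459) x12783) x11163) x12135) x7275) x10191) x17481) x6547)
  (sub (sub (add (add (add (add (add (add (add (add (add (add (sub (sub C x13119) x13103) x13043) x13079) x12899) x13007) x12467) x12791) x11171) x12143) x7283) x10199) x17489) x19675)
  (sub (sub (add (add (add (add (add (add (add (add (add (add (add (add (sub C x13115) x13095) x13107) x13047) x13083) x12903) x13011) x12471) x12795) x11175) x12147) x7287) x10203) x17493) x6559)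
  (sub (sub (add (add (add (add (add (add (add (add (add (add (add (add (sub C x13125) x13135) x13147) x13159) x13195) x13231) x13339) x13447) x13771) x14095) x15067) x16039) x18955) x4375) x6563)
  (sub (sub (add (add (add (add (add (add (add (add (add (add (sub (sub C x13123) x13131) x13161) x13197) x13233) x13341) x13449) x13773) x14097) x15069) x16041) x18957) x4377) x5)
  (sub (sub (add (add (add (add (add (add (add (add (sub (sub (add (add C x13135) x13139) x13125) x13149) x13239) x13347) x13455) x13779) x14103) x15075) x16047) x18963) x4383) x11)
  (sub (sub (add (add (add (add (add (add (add (add (sub (add (add (add (add C x13131) x13139) x13123) x13147) x13153) x13243) x13351) x13459) x13783) x14107) x15079) x16051) x18967) x4387) x6575)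
  (add (add (sub (add (add (add (add (add (add (add (add (sub (sub (add (add C x13131) x13135) x13145) x13157) x13247) x13355) x13463) x13787) x14111) x15083) x16055) x18971) x4391) x15) x6577)
  (add (add (sub (add (add (add (add (add (add (add (add (sub (sub (sub C x13147) x13139) x13181) x13253) x13361) x13469) x13793) x14117) x15089) x16061) x18977) x4397) x21) x6583)
  (sub (sub (add (add (add (add (add (add (add (add (sub (add (add (sub C x13145) x13123) x13135) x13183) x13255) x13363) x13471) x13795) x14119) x15091) x16063) x18979) x4399) x6587)
  (sub (sub (add (add (add (add (add (add (sub (sub (add (add (add (add C x13153) x13157) x13161) x13173) x13131) x13203) x13473) x13797) x14121) x15093) x16065) x18981) x4401) x29)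
  (sub (sub (add (add (add (add (add (add (sub (sub (sub (add (add C x13149) x13157) x13159) x13135) x13207) x13477) x13801) x14125) x15097) x16069) x18985) x4405) x6593)
  (add (add (sub (add (add (add (add (add (add (sub (sub (sub (add (add C x13149) x13153) x13169) x13139) x13211) x13481) x13805) x14129) x15101) x16073) x18989) x4409) x33) x6595)
  (sub (sub (add (add (add (add (add (add (sub (add (add (sub (sub C x13161) x13153) x13123) x13195) x13213) x13483) x13807) x14131) x15103) x16075) x18991) x4411) x6599)
  (sub (sub (add (add (add (add (add (add (sub (add (add (add (add (sub C x13159) x13149) x13173) x13125) x13197) x13215) x13485) x13809) x14133) x15105) x16077) x18993) x4413) x41)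
  (add (add (sub (add (add (add (add (add (add (sub (sub (sub (sub C x13173) x13157) x13187) x13223) x13493) x13817) x14141) x15113) x16085) x19001) x4421) x45) x6607)
  (sub (sub (add (add (add (add (add (add (sub (sub (add (add (sub C x13169) x13149) x13161) x13191) x13227) x13497) x13821) x14145) x15117) x16089) x19005) x4425) x53)
  (add (add (sub (add (add (add (add (add (add (sub (sub (sub (sub C x13183) x13187) x13145) x13289) x13505) x13829) x14153) x15125) x16097) x19013) x4433) x57) x6619)
  (sub (sub (add (add (add (add (add (add (sub (sub (sub (sub C x13181) x13195) x13147) x13291) x13507) x13831) x14155) x15127) x16099) x19015) x4435) x6623)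
  (add (add (sub (add (add (add (add (add (add (sub (sub (sub (sub C x13191) x13181) x13169) x13295) x13511) x13835) x14159) x15131) x16103) x19019) x4439) x63) x6625)
  (sub (sub (add (add (add (add (add (add (sub (sub (sub (sub C x13187) x13197) x13173) x13299) x13515) x13839) x14163) x15135) x16107) x19023) x4443) x71)
  (sub (sub (add (add (add (add (add (add (sub (add (add (sub (sub C x13197) x13183) x13123) x13159) x13303) x13519) x13843) x14167) x15139) x16111) x19027) x4447) x6635)
  (sub (sub (add (add (add (add (add (add (sub (add (add (sub (sub C x13195) x13191) x13125) x13161) x13305) x13521) x13845) x14169) x15141) x16113) x19029) x4449) x77)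
  (sub (sub (add (add (add (add (sub (sub (add (add (add (add (add (add C x13207) x13211) x13215) x13227) x13239) x13275) x13149) x13365) x14175) x15147) x16119) x19035) x4455) x83)
  (sub (sub (add (add (add (add (sub (sub (add (add (sub (add (add C x13203) x13211) x13213) x13243) x13279) x13153) x13369) x14179) x15151) x16123) x19039) x4459) x6647)
  (add (add (sub (add (add (add (add (sub (sub (add (add (sub (add (add C x13203) x13207) x13223) x13247) x13283) x13157) x13373) x14183) x15155) x16127) x19043) x4463) x87) x6649)
  (sub (sub (add (add (add (add (sub (sub (sub (sub (sub C x13215) x13207) x13231) x13159) x13375) x14185) x15157) x16129) x19045) x4465) x6653)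
  (sub (sub (add (add (add (add (sub (sub (sub (add (add (sub C x13213) x13203) x13227) x13233) x13161) x13377) x14187) x15159) x16131) x19047) x4467) x95)
  (add (add (sub (add (add (add (add (sub (sub (sub (sub (sub C x13227) x13211) x13259) x13169) x13385) x14195) x15167) x16139) x19055) x4475) x99) x6661)
  (sub (sub (add (add (add (add (sub (sub (sub (add (add (sub C x13223) x13203) x13215) x13263) x13173) x13389) x14199) x15171) x16143) x19059) x4479) x107)
  (sub (sub (add (add (add (add (sub (add (add (sub (add (add (sub C x13233) x13243) x13255) x13213) x13123) x13339) x13393) x14203) x15175) x16147) x19063) x4483) x6671)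
  (sub (sub (add (add (add (add (sub (add (add (sub (sub (sub C x13231) x13239) x13215) x13125) x13341) x13395) x14205) x15177) x16149) x19065) x4485) x113)
  (sub (sub (add (add (add (add (sub (add (add (add (add (sub (add (add C x13243) x13247) x13233) x13203) x13275) x13131) x13347) x13401) x14211) x15183) x16155) x19071) x4491) x119)
  (sub (sub (add (add (add (add (sub (add (add (add (add (add (add (add (add C x13239) x13247) x13231) x13255) x13207) x13279) x13135) x13351) x13405) x14215) x15187) x16159) x19075) x4495) x6683)
  (add (add (sub (add (add (add (add (sub (add (add (add (add (sub (add (add C x13239) x13243) x13253) x13211) x13283) x13139) x13355) x13409) x14219) x15191) x16163) x19079) x4499) x123) x6685)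
  (add (add (sub (add (add (add (add (sub (add (add (sub (sub (sub C x13255) x13247) x13271) x13145) x13361) x13415) x14225) x15197) x16169) x19085) x4505) x129) x6691)
  (sub (sub (add (add (add (add (sub (add (add (sub (add (add (sub C x13253) x13231) x13243) x13273) x13147) x13363) x13417) x14227) x15199) x16171) x19087) x4507) x6695)
  (add (add (sub (add (add (add (add (sub (sub (sub (add (add (sub C x13263) x13271) x13283) x13223) x13313) x13421) x14231) x15203) x16175) x19091) x4511) x135) x6697)
  (sub (sub (add (add (add (add (sub (sub (sub (sub (sub C x13259) x13275) x13227) x13317) x13425) x14235) x15207) x16179) x19095) x4515) x143)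
  (add (add (sub (add (add (add (add (sub (sub (sub (add (add (sub C x13273) x13259) x13283) x13253) x13325) x13433) x14243) x15215) x16187) x19103) x4523) x147) x6709)
  (sub (sub (add (add (add (add (sub (sub (sub (sub (sub C x13271) x13279) x13255) x13327) x13435) x14245) x15217) x16189) x19105) x4525) x6713)
  (sub (sub (add (add (add (add (sub (sub (add (add (sub (add (add C x13279) x13283) x13263) x13203) x13239) x13329) x13437) x14247) x15219) x16191) x19107) x4527) x155)
  (sub (sub (add (add (add (add (sub (sub (add (add (sub (add (add C x13275) x13283) x13273) x13207) x13243) x13333) x13441) x14251) x15223) x16195) x19111) x4531) x6719)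
  (add (add (sub (add (add (add (add (sub (sub (add (add (add (add (add (add C x13275) x13279) x13259) x13271) x13211) x13247) x13337) x13445) x14255) x15227) x16199) x19115) x4535) x159) x6721)
  (add (add (sub (add (add (add (add (sub (sub (add (add (sub (sub C x13291) x13295) x13325) x13361) x13181) x13613) x14261) x15233) x16205) x19121) x4541) x165) x6727)
  (sub (sub (add (add (add (add (sub (sub (add (add (sub (sub C x13289) x13303) x13327) x13363) x13183) x13615) x14263) x15235) x16207) x19123) x4543) x6731)
  (add (add (sub (add (add (add (add (sub (sub (sub (sub (sub C x13299) x13289) x13313) x13187) x13619) x14267) x15239) x16211) x19127) x4547) x171) x6733)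
  (sub (sub (add (add (add (add (sub (sub (sub (sub (sub C x13295) x13305) x13317) x13191) x13623) x14271) x15243) x16215) x19131) x4551) x179)
  (sub (sub (add (add (add (add (sub (sub (sub (sub (sub C x13305) x13291) x13339) x13195) x13627) x14275) x15247) x16219) x19135) x4555) x6743)
  (sub (sub (add (add (add (add (sub (sub (sub (sub (sub C x13303) x13299) x13341) x13197) x13629) x14277) x15249) x16221) x19137) x4557) x185)
  (add (add (sub (add (add (add (add (sub (sub (sub (add (add (sub C x13317) x13325) x13337) x13295) x13259) x13637) x14285) x15257) x16229) x19145) x4565) x189) x6751)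
  (sub (sub (add (add (add (add (sub (sub (sub (sub (sub C x13313) x13329) x13299) x13263) x13641) x14289) x15261) x16233) x19149) x4569) x197)
  (add (add (sub (add (add (add (add (sub (sub (add (add (add (add (sub C x13327) x13313) x13337) x13289) x13361) x13271) x13649) x14297) x15269) x16241) x19157) x4577) x201) x6763)
  (sub (sub (add (add (add (add (sub (sub (add (add (sub (sub C x13325) x13333) x13291) x13363) x13273) x13651) x14299) x15271) x16243) x19159) x4579) x6767)
  (sub (sub (add (add (add (add (sub (sub (sub (sub (add (add C x13333) x13337) x13317) x13347) x13275) x13653) x14301) x15273) x16245) x19161) x4581) x209)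
  (sub (sub (add (add (add (add (sub (sub (sub (sub (add (add C x13329) x13337) x13327) x13351) x13279) x13657) x14305) x15277) x16249) x19165) x4585) x6773)
  (add (add (sub (add (add (add (add (sub (sub (sub (add (add (add (add C x13329) x13333) x13313) x13325) x13355) x13283) x13661) x14309) x15281) x16253) x19169) x4589) x213) x6775)
  (sub (sub (add (add (add (add (sub (add (add (sub (add (add (sub C x13341) x13351) x13363) x13303) x13123) x13231) x13663) x14311) x15283) x16255) x19171) x4591) x6779)
  (sub (sub (add (add (add (add (sub (add (add (sub (sub (sub C x13339) x13347) x13305) x13125) x13233) x13665) x14313) x15285) x16257) x19173) x4593) x221)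
  (sub (sub (add (add (add (add (sub (add (add (sub (sub (add (add C x13351) x13355) x13341) x13329) x13131) x13239) x13671) x14319) x15291) x16263) x19179) x4599) x227)
  (sub (sub (add (add (add (add (sub (add (add (sub (add (add (add (add C x13347) x13355) x13339) x13363) x13333) x13135) x13243) x13675) x14323) x15295) x16267) x19183) x4603) x6791)
  (add (add (sub (add (add (add (add (sub (add (add (sub (sub (add (add C x13347) x13351) x13361) x13337) x13139) x13247) x13679) x14327) x15299) x16271) x19187) x4607) x231) x6793)
  (add (add (sub (add (add (add (add (sub (add (add (add (add (sub (sub C x13363) x13355) x13289) x13325) x13145) x13253) x13685) x14333) x15305) x16277) x19193) x4613) x237) x6799)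
  (sub (sub (add (add (add (add (sub (add (add (add (add (add (add (sub C x13361) x13339) x13351) x13291) x13327) x13147) x13255) x13687) x14335) x15307) x16279) x19195) x4615) x6803)
  (sub (sub (add (add (sub (sub (add (add (add (add (add (add (add (add C x13369) x13373) x13377) x13389) x13401) x13437) x13473) x13581) x13203) x13851) x16281) x19197) x4617) x245)
  (sub (sub (add (add (sub (sub (add (add (add (add (sub (add (add C x13365) x13373) x13375) x13405) x13441) x13477) x13585) x13207) x13855) x16285) x19201) x4621) x6809)
  (add (add (sub (add (add (sub (sub (add (add (add (add (sub (add (add C x13365) x13369) x13385) x13409) x13445) x13481) x13589) x13211) x13859) x16289) x19205) x4625) x249) x6811)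
  (sub (sub (add (add (sub (sub (add (add (sub (sub (sub C x13377) x13369) x13393) x13483) x13591) x13213) x13861) x16291) x19207) x4627) x6815)
  (sub (sub (add (add (sub (sub (add (add (sub (add (add (sub C x13375) x13365) x13389) x13395) x13485) x13593) x13215) x13863) x16293) x19209) x4629) x257)
  (add (add (sub (add (add (sub (sub (add (add (sub (sub (sub C x13389) x13373) x13421) x13493) x13601) x13223) x13871) x16301) x19217) x4637) x261) x6823)
  (sub (sub (add (add (sub (sub (add (add (sub (add (add (sub C x13385) x13365) x13377) x13425) x13497) x13605) x13227) x13875) x16305) x19221) x4641) x269)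
  (sub (sub (add (add (sub (sub (sub (sub (add (add (sub C x13395) x13405) x13417) x13375) x13447) x13231) x13879) x16309) x19225) x4645) x6833)
  (sub (sub (add (add (sub (sub (sub (sub (sub (sub C x13393) x13401) x13377) x13449) x13233) x13881) x16311) x19227) x4647) x275)
  (sub (sub (add (add (sub (sub (sub (add (add (sub (add (add C x13405) x13409) x13395) x13365) x13437) x13455) x13239) x13887) x16317) x19233) x4653) x281)
  (sub (sub (add (add (sub (sub (sub (add (add (add (add (add (add C x13401) x13409) x13393) x13417) x13369) x13441) x13459) x13243) x13891) x16321) x19237) x4657) x6845)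
  (add (add (sub (add (add (sub (sub (sub (add (add (sub (add (add C x13401) x13405) x13415) x13373) x13445) x13463) x13247) x13895) x16325) x19241) x4661) x285) x6847)
  (add (add (sub (add (add (sub (sub (sub (sub (sub (sub C x13417) x13409) x13433) x13469) x13253) x13901) x16331) x19247) x4667) x291) x6853)
  (sub (sub (add (add (sub (sub (sub (sub (add (add (sub C x13415) x13393) x13405) x13435) x13471) x13255) x13903) x16333) x19249) x4669) x6857)
  (add (add (sub (add (add (sub (sub (sub (sub (add (add (sub C x13425) x13433) x13445) x13385) x13529) x13259) x13907) x16337) x19253) x4673) x297) x6859)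
  (sub (sub (add (add (sub (sub (sub (sub (sub (sub C x13421) x13437) x13389) x13533) x13263) x13911) x16341) x19257) x4677) x305)
  (add (add (sub (add (add (sub (sub (sub (sub (add (add (sub C x13435) x13421) x13445) x13415) x13541) x13271) x13919) x16349) x19265) x4685) x309) x6871)
  (sub (sub (add (add (sub (sub (sub (sub (sub (sub C x13433) x13441) x13417) x13543) x13273) x13921) x16351) x19267) x4687) x6875)
  (sub (sub (add (add (sub (sub (sub (add (add (sub (add (add C x13441) x13445) x13425) x13365) x13401) x13545) x13275) x13923) x16353) x19269) x4689) x317)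
  (sub (sub (add (add (sub (sub (sub (add (add (sub (add (add C x13437) x13445) x13435) x13369) x13405) x13549) x13279) x13927) x16357) x19273) x4693) x6881)
  (add (add (sub (add (add (sub (sub (sub (add (add (add (add (add (add C x13437) x13441) x13421) x13433) x13373) x13409) x13553) x13283) x13931) x16361) x19277) x4697) x321) x6883)
  (sub (sub (add (add (sub (add (add (sub (add (add (add (add (sub C x13449) x13459) x13471) x13483) x13519) x13393) x13123) x13771) x13933) x16363) x19279) x4699) x6887)
  (sub (sub (add (add (sub (add (add (sub (add (add (sub (sub C x13447) x13455) x13485) x13521) x13395) x13125) x13773) x13935) x16365) x19281) x4701) x329)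
  (sub (sub (add (add (sub (add (add (sub (sub (sub (add (add C x13459) x13463) x13449) x13473) x13401) x13131) x13779) x13941) x16371) x19287) x4707) x335)
  (sub (sub (add (add (sub (add (add (sub (sub (add (add (add (add C x13455) x13463) x13447) x13471) x13477) x13405) x13135) x13783) x13945) x16375) x19291) x4711) x6899)
  (add (add (sub (add (add (sub (add (add (sub (sub (sub (add (add C x13455) x13459) x13469) x13481) x13409) x13139) x13787) x13949) x16379) x19295) x4715) x339) x6901)
  (add (add (sub (add (add (sub (add (add (sub (sub (sub (sub C x13471) x13463) x13505) x13415) x13145) x13793) x13955) x16385) x19301) x4721) x345) x6907)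
  (sub (sub (add (add (sub (add (add (sub (sub (add (add (sub C x13469) x13447) x13459) x13507) x13417) x13147) x13795) x13957) x16387) x19303) x4723) x6911)
  (sub (sub (add (add (sub (add (add (add (add (sub (add (add (add (add C x13477) x13481) x13485) x13497) x13455) x13365) x13581) x13149) x13797) x13959) x16389) x19305) x4725) x353)
  (sub (sub (add (add (sub (add (add (add (add (sub (sub (add (add C x13473) x13481) x13483) x13459) x13369) x13585) x13153) x13801) x13963) x16393) x19309) x4729) x6917)
  (add (add (sub (add (add (sub (add (add (add (add (sub (sub (add (add C x13473) x13477) x13493) x13463) x13373) x13589) x13157) x13805) x13967) x16397) x19313) x4733) x357) x6919)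
  (sub (sub (add (add (sub (add (add (add (add (add (add (sub (sub C x13485) x13477) x13447) x13519) x13375) x13591) x13159) x13807) x13969) x16399) x19315) x4735) x6923)
  (sub (sub (add (add (sub (add (add (add (add (add (add (add (add (sub C x13483) x13473) x13497) x13449) x13521) x13377) x13593) x13161) x13809) x13971) x16401) x19317) x4737) x365)
  (add (add (sub (add (add (sub (add (add (add (add (sub (sub (sub C x13497) x13481) x13511) x13385) x13601) x13169) x13817) x13979) x16409) x19325) x4745) x369) x6931)
  (sub (sub (add (add (sub (add (add (add (add (sub (add (add (sub C x13493) x13473) x13485) x13515) x13389) x13605) x13173) x13821) x13983) x16413) x19329) x4749) x377)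
  (add (add (sub (add (add (sub (add (add (sub (sub (sub (sub C x13507) x13511) x13469) x13559) x13181) x13829) x13991) x16421) x19337) x4757) x381) x6943)
  (sub (sub (add (add (sub (add (add (sub (sub (sub (sub C x13505) x13519) x13471) x13561) x13183) x13831) x13993) x16423) x19339) x4759) x6947)
  (add (add (sub (add (add (sub (add (add (sub (sub (sub (sub C x13515) x13505) x13493) x13565) x13187) x13835) x13997) x16427) x19343) x4763) x387) x6949)
  (sub (sub (add (add (sub (add (add (sub (sub (sub (sub C x13511) x13521) x13497) x13569) x13191) x13839) x14001) x16431) x19347) x4767) x395)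
  (sub (sub (add (add (sub (add (add (sub (add (add (sub (sub C x13521) x13507) x13447) x13483) x13573) x13195) x13843) x14005) x16435) x19351) x4771) x6959)
  (sub (sub (add (add (sub (add (add (sub (add (add (sub (sub C x13519) x13515) x13449) x13485) x13575) x13197) x13845) x14007) x16437) x19353) x4773) x401)
  (add (add (sub (add (add (sub (sub (sub (add (add (add (add (sub C x13533) x13541) x13553) x13565) x13601) x13421) x13691) x14015) x16445) x19361) x4781) x405) x6967)
  (sub (sub (add (add (sub (sub (sub (add (add (sub (sub C x13529) x13545) x13569) x13605) x13425) x13695) x14019) x16449) x19365) x4785) x413)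
  (add (add (sub (add (add (sub (sub (sub (sub (add (add (sub C x13543) x13529) x13553) x13559) x13433) x13703) x14027) x16457) x19373) x4793) x417) x6979)
  (sub (sub (add (add (sub (sub (sub (sub (sub (sub C x13541) x13549) x13561) x13435) x13705) x14029) x16459) x19375) x4795) x6983)
  (sub (sub (add (add (sub (sub (sub (sub (sub (add (add C x13549) x13553) x13533) x13581) x13437) x13707) x14031) x16461) x19377) x4797) x425)
  (sub (sub (add (add (sub (sub (sub (sub (sub (add (add C x13545) x13553) x13543) x13585) x13441) x13711) x14035) x16465) x19381) x4801) x6989)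
  (add (add (sub (add (add (sub (sub (sub (sub (add (add (add (add C x13545) x13549) x13529) x13541) x13589) x13445) x13715) x14039) x16469) x19385) x4805) x429) x6991)
  (add (add (sub (add (add (sub (sub (sub (sub (sub (sub C x13561) x13565) x13541) x13505) x13721) x14045) x16475) x19391) x4811) x435) x6997)
  (sub (sub (add (add (sub (sub (sub (sub (sub (sub C x13559) x13573) x13543) x13507) x13723) x14047) x16477) x19393) x4813) x7001)
  (add (add (sub (add (add (sub (sub (sub (add (add (sub (sub C x13569) x13559) x13529) x13601) x13511) x13727) x14051) x16481) x19397) x4817) x441) x7003)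
  (sub (sub (add (add (sub (sub (sub (add (add (sub (sub C x13565) x13575) x13533) x13605) x13515) x13731) x14055) x16485) x19401) x4821) x449)
  (sub (sub (add (add (sub (sub (sub (sub (sub (sub C x13575) x13561) x13591) x13519) x13735) x14059) x16489) x19405) x4825) x7013)
  (sub (sub (add (add (sub (sub (sub (sub (sub (sub C x13573) x13569) x13593) x13521) x13737) x14061) x16491) x19407) x4827) x455)
  (sub (sub (add (add (sub (sub (add (add (sub (add (add (add (add C x13585) x13589) x13593) x13605) x13545) x13365) x13473) x13743) x14067) x16497) x19413) x4833) x461)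
  (sub (sub (add (add (sub (sub (add (add (sub (sub (add (add C x13581) x13589) x13591) x13549) x13369) x13477) x13747) x14071) x16501) x19417) x4837) x7025)
  (add (add (sub (add (add (sub (sub (add (add (sub (sub (add (add C x13581) x13585) x13601) x13553) x13373) x13481) x13751) x14075) x16505) x19421) x4841) x465) x7027)
  (sub (sub (add (add (sub (sub (add (add (sub (sub (sub C x13593) x13585) x13573) x13375) x13483) x13753) x14077) x16507) x19423) x4843) x7031)
  (sub (sub (add (add (sub (sub (add (add (sub (add (add (sub C x13591) x13581) x13605) x13575) x13377) x13485) x13755) x14079) x16509) x19425) x4845) x473)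
  (add (add (sub (add (add (sub (sub (add (add (add (add (sub (sub C x13605) x13589) x13529) x13565) x13385) x13493) x13763) x14087) x16517) x19433) x4853) x477) x7039)
  (sub (sub (add (add (sub (sub (add (add (add (add (add (add (sub C x13601) x13581) x13593) x13533) x13569) x13389) x13497) x13767) x14091) x16521) x19437) x4857) x485)
  (add (add (sub (add (add (sub (sub (add (add (add (add (sub (sub C x13615) x13619) x13649) x13685) x13721) x13829) x13289) x14585) x16529) x19445) x4865) x489) x7051)
  (sub (sub (add (add (sub (sub (add (add (add (add (sub (sub C x13613) x13627) x13651) x13687) x13723) x13831) x13291) x14587) x16531) x19447) x4867) x7055)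
  (add (add (sub (add (add (sub (sub (add (add (sub (sub (sub C x13623) x13613) x13637) x13727) x13835) x13295) x14591) x16535) x19451) x4871) x495) x7057)
  (sub (sub (add (add (sub (sub (add (add (sub (sub (sub C x13619) x13629) x13641) x13731) x13839) x13299) x14595) x16539) x19455) x4875) x503)
  (sub (sub (add (add (sub (sub (add (add (sub (sub (sub C x13629) x13615) x13663) x13735) x13843) x13303) x14599) x16543) x19459) x4879) x7067)
  (sub (sub (add (add (sub (sub (add (add (sub (sub (sub C x13627) x13623) x13665) x13737) x13845) x13305) x14601) x16545) x19461) x4881) x509)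
  (add (add (sub (add (add (sub (sub (sub (sub (add (add (sub C x13641) x13649) x13661) x13619) x13691) x13313) x14609) x16553) x19469) x4889) x513) x7075)
  (sub (sub (add (add (sub (sub (sub (sub (sub (sub C x13637) x13653) x13623) x13695) x13317) x14613) x16557) x19473) x4893) x521)
  (add (add (sub (add (add (sub (sub (sub (add (add (add (add (sub C x13651) x13637) x13661) x13613) x13685) x13703) x13325) x14621) x16565) x19481) x4901) x525) x7087)
  (sub (sub (add (add (sub (sub (sub (add (add (sub (sub C x13649) x13657) x13615) x13687) x13705) x13327) x14623) x16567) x19483) x4903) x7091)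
  (sub (sub (add (add (sub (sub (sub (sub (sub (add (add C x13657) x13661) x13641) x13671) x13707) x13329) x14625) x16569) x19485) x4905) x533)
  (sub (sub (add (add (sub (sub (sub (sub (sub (add (add C x13653) x13661) x13651) x13675) x13711) x13333) x14629) x16573) x19489) x4909) x7097)
  (add (add (sub (add (add (sub (sub (sub (sub (add (add (add (add C x13653) x13657) x13637) x13649) x13679) x13715) x13337) x14633) x16577) x19493) x4913) x537) x7099)
  (sub (sub (add (add (sub (sub (sub (sub (add (add (sub C x13665) x13675) x13687) x13627) x13771) x13339) x14635) x16579) x19495) x4915) x7103)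
  (sub (sub (add (add (sub (sub (sub (sub (sub (sub C x13663) x13671) x13629) x13773) x13341) x14637) x16581) x19497) x4917) x545)
  (sub (sub (add (add (sub (sub (sub (sub (sub (add (add C x13675) x13679) x13665) x13653) x13779) x13347) x14643) x16587) x19503) x4923) x551)
  (sub (sub (add (add (sub (sub (sub (sub (add (add (add (add C x13671) x13679) x13663) x13687) x13657) x13783) x13351) x14647) x16591) x19507) x4927) x7115)
  (add (add (sub (add (add (sub (sub (sub (sub (sub (add (add C x13671) x13675) x13685) x13661) x13787) x13355) x14651) x16595) x19511) x4931) x555) x7117)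
  (add (add (sub (add (add (sub (sub (sub (add (add (sub (sub C x13687) x13679) x13613) x13649) x13793) x13361) x14657) x16601) x19517) x4937) x561) x7123)
  (sub (sub (add (add (sub (sub (sub (add (add (add (add (sub C x13685) x13663) x13675) x13615) x13651) x13795) x13363) x14659) x16603) x19519) x4939) x7127)
  (add (add (sub (add (add (sub (sub (sub (add (add (add (add (sub C x13695) x13703) x13715) x13727) x13763) x13637) x13529) x14663) x16607) x19523) x4943) x567) x7129)
  (sub (sub (add (add (sub (sub (sub (add (add (sub (sub C x13691) x13707) x13731) x13767) x13641) x13533) x14667) x16611) x19527) x4947) x575)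
  (add (add (sub (add (add (sub (sub (sub (sub (add (add (sub C x13705) x13691) x13715) x13721) x13649) x13541) x14675) x16619) x19535) x4955) x579) x7141)
  (sub (sub (add (add (sub (sub (sub (sub (sub (sub C x13703) x13711) x13723) x13651) x13543) x14677) x16621) x19537) x4957) x7145)
  (sub (sub (add (add (sub (sub (sub (sub (sub (add (add C x13711) x13715) x13695) x13743) x13653) x13545) x14679) x16623) x19539) x4959) x587)
  (sub (sub (add (add (sub (sub (sub (sub (sub (add (add C x13707) x13715) x13705) x13747) x13657) x13549) x14683) x16627) x19543) x4963) x7151)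
  (add (add (sub (add (add (sub (sub (sub (sub (add (add (add (add C x13707) x13711) x13691) x13703) x13751) x13661) x13553) x14687) x16631) x19547) x4967) x591) x7153)
  (add (add (sub (add (add (sub (sub (add (add (sub (sub (sub C x13723) x13727) x13703) x13613) x13829) x13559) x14693) x16637) x19553) x4973) x597) x7159)
  (sub (sub (add (add (sub (sub (add (add (sub (sub (sub C x13721) x13735) x13705) x13615) x13831) x13561) x14695) x16639) x19555) x4975) x7163)
  (add (add (sub (add (add (sub (sub (add (add (add (add (sub (sub C x13731) x13721) x13691) x13763) x13619) x13835) x13565) x14699) x16643) x19559) x4979) x603) x7165)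
  (sub (sub (add (add (sub (sub (add (add (add (add (sub (sub C x13727) x13737) x13695) x13767) x13623) x13839) x13569) x14703) x16647) x19563) x4983) x611)
  (sub (sub (add (add (sub (sub (add (add (sub (sub (sub C x13737) x13723) x13753) x13627) x13843) x13573) x14707) x16651) x19567) x4987) x7175)
  (sub (sub (add (add (sub (sub (add (add (sub (sub (sub C x13735) x13731) x13755) x13629) x13845) x13575) x14709) x16653) x19569) x4989) x617)
  (sub (sub (add (add (sub (sub (sub (sub (add (add (add (add C x13747) x13751) x13755) x13767) x13707) x13797) x13581) x14715) x16659) x19575) x4995) x623)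
  (sub (sub (add (add (sub (sub (sub (sub (sub (add (add C x13743) x13751) x13753) x13711) x13801) x13585) x14719) x16663) x19579) x4999) x7187)
  (add (add (sub (add (add (sub (sub (sub (sub (sub (add (add C x13743) x13747) x13763) x13715) x13805) x13589) x14723) x16667) x19583) x5003) x627) x7189)
  (sub (sub (add (add (sub (sub (sub (sub (sub (sub C x13755) x13747) x13735) x13807) x13591) x14725) x16669) x19585) x5005) x7193)
  (sub (sub (add (add (sub (sub (sub (sub (add (add (sub C x13753) x13743) x13767) x13737) x13809) x13593) x14727) x16671) x19587) x5007) x635)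
  (add (add (sub (add (add (sub (sub (sub (add (add (sub (sub C x13767) x13751) x13691) x13727) x13817) x13601) x14735) x16679) x19595) x5015) x639) x7201)
  (sub (sub (add (add (sub (sub (sub (add (add (add (add (sub C x13763) x13743) x13755) x13695) x13731) x13821) x13605) x14739) x16683) x19599) x5019) x647)
  (sub (sub (add (add (sub (add (add (sub (add (add (add (add (sub C x13773) x13783) x13795) x13807) x13843) x13663) x13123) x13447) x14743) x16687) x19603) x5023) x7211)
  (sub (sub (add (add (sub (add (add (sub (add (add (sub (sub C x13771) x13779) x13809) x13845) x13665) x13125) x13449) x14745) x16689) x19605) x5025) x653)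
  (sub (sub (add (add (sub (add (add (sub (sub (sub (add (add C x13783) x13787) x13773) x13797) x13671) x13131) x13455) x14751) x16695) x19611) x5031) x659)
  (sub (sub (add (add (sub (add (add (sub (sub (add (add (add (add C x13779) x13787) x13771) x13795) x13801) x13675) x13135) x13459) x14755) x16699) x19615) x5035) x7223)
  (add (add (sub (add (add (sub (add (add (sub (sub (sub (add (add C x13779) x13783) x13793) x13805) x13679) x13139) x13463) x14759) x16703) x19619) x5039) x663) x7225)
  (add (add (sub (add (add (sub (add (add (sub (sub (sub (sub C x13795) x13787) x13829) x13685) x13145) x13469) x14765) x16709) x19625) x5045) x669) x7231)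
  (sub (sub (add (add (sub (add (add (sub (sub (add (add (sub C x13793) x13771) x13783) x13831) x13687) x13147) x13471) x14767) x16711) x19627) x5047) x7235)
  (sub (sub (add (add (sub (add (add (sub (sub (add (add (add (add C x13801) x13805) x13809) x13821) x13779) x13743) x13149) x13473) x14769) x16713) x19629) x5049) x677)
  (sub (sub (add (add (sub (add (add (sub (sub (sub (add (add C x13797) x13805) x13807) x13783) x13747) x13153) x13477) x14773) x16717) x19633) x5053) x7241)
  (add (add (sub (add (add (sub (add (add (sub (sub (sub (add (add C x13797) x13801) x13817) x13787) x13751) x13157) x13481) x14777) x16721) x19637) x5057) x681) x7243)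
  (sub (sub (add (add (sub (add (add (sub (add (add (sub (sub C x13809) x13801) x13771) x13843) x13753) x13159) x13483) x14779) x16723) x19639) x5059) x7247)
  (sub (sub (add (add (sub (add (add (sub (add (add (add (add (sub C x13807) x13797) x13821) x13773) x13845) x13755) x13161) x13485) x14781) x16725) x19641) x5061) x689)
  (add (add (sub (add (add (sub (add (add (sub (sub (sub (sub C x13821) x13805) x13835) x13763) x13169) x13493) x14789) x16733) x19649) x5069) x693) x7255)
  (sub (sub (add (add (sub (add (add (sub (sub (add (add (sub C x13817) x13797) x13809) x13839) x13767) x13173) x13497) x14793) x16737) x19653) x5073) x701)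
  (add (add (sub (add (add (sub (add (add (add (add (sub (sub (sub C x13831) x13835) x13793) x13613) x13721) x13181) x13505) x14801) x16745) x19661) x5081) x705) x7267)
  (sub (sub (add (add (sub (add (add (add (add (sub (sub (sub C x13829) x13843) x13795) x13615) x13723) x13183) x13507) x14803) x16747) x19663) x5083) x7271)
  (add (add (sub (add (add (sub (add (add (add (add (sub (sub (sub C x13839) x13829) x13817) x13619) x13727) x13187) x13511) x14807) x16751) x19667) x5087) x711) x7273)
  (sub (sub (add (add (sub (add (add (add (add (sub (sub (sub C x13835) x13845) x13821) x13623) x13731) x13191) x13515) x14811) x16755) x19671) x5091) x719)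
  (sub (sub (add (add (sub (add (add (add (add (add (add (sub (sub C x13845) x13831) x13771) x13807) x13627) x13735) x13195) x13519) x14815) x16759) x19675) x5095) x7283)
  (sub (sub (add (add (sub (add (add (add (add (add (add (sub (sub C x13843) x13839) x13773) x13809) x13629) x13737) x13197) x13521) x14817) x16761) x19677) x5097) x725)
  (sub (sub (sub (sub (add (add (add (add (add (add (add (add (add (add C x13855) x13859) x13863) x13875) x13887) x13923) x13959) x14067) x14175) x14499) x13365) x15309) x5103) x731)
  (sub (sub (sub (sub (add (add (add (add (add (add (sub (add (add C x13851) x13859) x13861) x13891) x13927) x13963) x14071) x14179) x14503) x13369) x15313) x5107) x7295)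
  (add (add (sub (sub (sub (add (add (add (add (add (add (sub (add (add C x13851) x13855) x13871) x13895) x13931) x13967) x14075) x14183) x14507) x13373) x15317) x5111) x735) x7297)
  (sub (sub (sub (sub (add (add (add (add (sub (sub (sub C x13863) x13855) x13879) x13969) x14077) x14185) x14509) x13375) x15319) x5113) x7301)
  (sub (sub (sub (sub (add (add (add (add (sub (add (add (sub C x13861) x13851) x13875) x13881) x13971) x14079) x14187) x14511) x13377) x15321) x5115) x743)
  (add (add (sub (sub (sub (add (add (add (add (sub (sub (sub C x13875) x13859) x13907) x13979) x14087) x14195) x14519) x13385) x15329) x5123) x747) x7309)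
  (sub (sub (sub (sub (add (add (add (add (sub (add (add (sub C x13871) x13851) x13863) x13911) x13983) x14091) x14199) x14523) x13389) x15333) x5127) x755)
  (sub (sub (sub (sub (add (add (sub (sub (add (add (sub C x13881) x13891) x13903) x13861) x13933) x14203) x14527) x13393) x15337) x5131) x7319)
  (sub (sub (sub (sub (add (add (sub (sub (sub (sub C x13879) x13887) x13863) x13935) x14205) x14529) x13395) x15339) x5133) x761)
  (sub (sub (sub (sub (add (add (sub (add (add (sub (add (add C x13891) x13895) x13881) x13851) x13923) x13941) x14211) x14535) x13401) x15345) x5139) x767)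
  (sub (sub (sub (sub (add (add (sub (add (add (add (add (add (add C x13887) x13895) x13879) x13903) x13855) x13927) x13945) x14215) x14539) x13405) x15349) x5143) x7331)
  (add (add (sub (sub (sub (add (add (sub (add (add (sub (add (add C x13887) x13891) x13901) x13859) x13931) x13949) x14219) x14543) x13409) x15353) x5147) x771) x7333)
  (add (add (sub (sub (sub (add (add (sub (sub (sub (sub C x13903) x13895) x13919) x13955) x14225) x14549) x13415) x15359) x5153) x777) x7339)
  (sub (sub (sub (sub (add (add (sub (sub (add (add (sub C x13901) x13879) x13891) x13921) x13957) x14227) x14551) x13417) x15361) x5155) x7343)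
  (add (add (sub (sub (sub (add (add (sub (sub (add (add (sub C x13911) x13919) x13931) x13871) x14015) x14231) x14555) x13421) x15365) x5159) x783) x7345)
  (sub (sub (sub (sub (add (add (sub (sub (sub (sub C x13907) x13923) x13875) x14019) x14235) x14559) x13425) x15369) x5163) x791)
  (add (add (sub (sub (sub (add (add (sub (sub (add (add (sub C x13921) x13907) x13931) x13901) x14027) x14243) x14567) x13433) x15377) x5171) x795) x7357)
  (sub (sub (sub (sub (add (add (sub (sub (sub (sub C x13919) x13927) x13903) x14029) x14245) x14569) x13435) x15379) x5173) x7361)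
  (sub (sub (sub (sub (add (add (sub (add (add (sub (add (add C x13927) x13931) x13911) x13851) x13887) x14031) x14247) x14571) x13437) x15381) x5175) x803)
  (sub (sub (sub (sub (add (add (sub (add (add (sub (add (add C x13923) x13931) x13921) x13855) x13891) x14035) x14251) x14575) x13441) x15385) x5179) x7367)
  (add (add (sub (sub (sub (add (add (sub (add (add (add (add (add (add C x13923) x13927) x13907) x13919) x13859) x13895) x14039) x14255) x14579) x13445) x15389) x5183) x807) x7369)
  (sub (sub (sub (sub (sub (sub (add (add (add (add (sub C x13935) x13945) x13957) x13969) x14005) x13879) x14095) x13447) x15391) x5185) x7373)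
  (sub (sub (sub (sub (sub (sub (add (add (sub (sub C x13933) x13941) x13971) x14007) x13881) x14097) x13449) x15393) x5187) x815)
  (sub (sub (sub (sub (sub (sub (sub (sub (add (add C x13945) x13949) x13935) x13959) x13887) x14103) x13455) x15399) x5193) x821)
  (sub (sub (sub (sub (sub (sub (sub (add (add (add (add C x13941) x13949) x13933) x13957) x13963) x13891) x14107) x13459) x15403) x5197) x7385)
  (add (add (sub (sub (sub (sub (sub (sub (sub (add (add C x13941) x13945) x13955) x13967) x13895) x14111) x13463) x15407) x5201) x825) x7387)
  (add (add (sub (sub (sub (sub (sub (sub (sub (sub C x13957) x13949) x13991) x13901) x14117) x13469) x15413) x5207) x831) x7393)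
  (sub (sub (sub (sub (sub (sub (sub (add (add (sub C x13955) x13933) x13945) x13993) x13903) x14119) x13471) x15415) x5209) x7397)
  (sub (sub (sub (sub (sub (add (add (sub (add (add (add (add C x13963) x13967) x13971) x13983) x13941) x13851) x14067) x14121) x13473) x15417) x5211) x839)
  (sub (sub (sub (sub (sub (add (add (sub (sub (add (add C x13959) x13967) x13969) x13945) x13855) x14071) x14125) x13477) x15421) x5215) x7403)
  (add (add (sub (sub (sub (sub (add (add (sub (sub (add (add C x13959) x13963) x13979) x13949) x13859) x14075) x14129) x13481) x15425) x5219) x843) x7405)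
  (sub (sub (sub (sub (sub (add (add (add (add (sub (sub C x13971) x13963) x13933) x14005) x13861) x14077) x14131) x13483) x15427) x5221) x7409)
  (sub (sub (sub (sub (sub (add (add (add (add (add (add (sub C x13969) x13959) x13983) x13935) x14007) x13863) x14079) x14133) x13485) x15429) x5223) x851)
  (add (add (sub (sub (sub (sub (add (add (sub (sub (sub C x13983) x13967) x13997) x13871) x14087) x14141) x13493) x15437) x5231) x855) x7417)
  (sub (sub (sub (sub (sub (add (add (sub (add (add (sub C x13979) x13959) x13971) x14001) x13875) x14091) x14145) x13497) x15441) x5235) x863)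
  (add (add (sub (sub (sub (sub (sub (sub (sub (sub C x13993) x13997) x13955) x14045) x14153) x13505) x15449) x5243) x867) x7429)
  (sub (sub (sub (sub (sub (sub (sub (sub (sub C x13991) x14005) x13957) x14047) x14155) x13507) x15451) x5245) x7433)
  (add (add (sub (sub (sub (sub (sub (sub (sub (sub C x14001) x13991) x13979) x14051) x14159) x13511) x15455) x5249) x873) x7435)
  (sub (sub (sub (sub (sub (sub (sub (sub (sub C x13997) x14007) x13983) x14055) x14163) x13515) x15459) x5253) x881)
  (sub (sub (sub (sub (sub (sub (add (add (sub (sub C x14007) x13993) x13933) x13969) x14059) x14167) x13519) x15463) x5257) x7445)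
  (sub (sub (sub (sub (sub (sub (add (add (sub (sub C x14005) x14001) x13935) x13971) x14061) x14169) x13521) x15465) x5259) x887)
  (add (add (sub (sub (sub (sub (sub (add (add (add (add (sub C x14019) x14027) x14039) x14051) x14087) x13907) x14339) x13529) x15473) x5267) x891) x7453)
  (sub (sub (sub (sub (sub (sub (add (add (sub (sub C x14015) x14031) x14055) x14091) x13911) x14343) x13533) x15477) x5271) x899)
  (add (add (sub (sub (sub (sub (sub (sub (add (add (sub C x14029) x14015) x14039) x14045) x13919) x14351) x13541) x15485) x5279) x903) x7465)
  (sub (sub (sub (sub (sub (sub (sub (sub (sub C x14027) x14035) x14047) x13921) x14353) x13543) x15487) x5281) x7469)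
  (sub (sub (sub (sub (sub (sub (sub (sub (add (add C x14035) x14039) x14019) x14067) x13923) x14355) x13545) x15489) x5283) x911)
  (sub (sub (sub (sub (sub (sub (sub (sub (add (add C x14031) x14039) x14029) x14071) x13927) x14359) x13549) x15493) x5287) x7475)
  (add (add (sub (sub (sub (sub (sub (sub (add (add (add (add C x14031) x14035) x14015) x14027) x14075) x13931) x14363) x13553) x15497) x5291) x915) x7477)
  (add (add (sub (sub (sub (sub (sub (sub (sub (sub C x14047) x14051) x14027) x13991) x14369) x13559) x15503) x5297) x921) x7483)
  (sub (sub (sub (sub (sub (sub (sub (sub (sub C x14045) x14059) x14029) x13993) x14371) x13561) x15505) x5299) x7487)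
  (add (add (sub (sub (sub (sub (sub (add (add (sub (sub C x14055) x14045) x14015) x14087) x13997) x14375) x13565) x15509) x5303) x927) x7489)
  (sub (sub (sub (sub (sub (sub (add (add (sub (sub C x14051) x14061) x14019) x14091) x14001) x14379) x13569) x15513) x5307) x935)
  (sub (sub (sub (sub (sub (sub (sub (sub (sub C x14061) x14047) x14077) x14005) x14383) x13573) x15517) x5311) x7499)
  (sub (sub (sub (sub (sub (sub (sub (sub (sub C x14059) x14055) x14079) x14007) x14385) x13575) x15519) x5313) x941)
  (sub (sub (sub (sub (sub (add (add (sub (add (add (add (add C x14071) x14075) x14079) x14091) x14031) x13851) x13959) x14391) x13581) x15525) x5319) x947)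
  (sub (sub (sub (sub (sub (add (add (sub (sub (add (add C x14067) x14075) x14077) x14035) x13855) x13963) x14395) x13585) x15529) x5323) x7511)
  (add (add (sub (sub (sub (sub (add (add (sub (sub (add (add C x14067) x14071) x14087) x14039) x13859) x13967) x14399) x13589) x15533) x5327) x951) x7513)
  (sub (sub (sub (sub (sub (add (add (sub (sub (sub C x14079) x14071) x14059) x13861) x13969) x14401) x13591) x15535) x5329) x7517)
  (sub (sub (sub (sub (sub (add (add (sub (add (add (sub C x14077) x14067) x14091) x14061) x13863) x13971) x14403) x13593) x15537) x5331) x959)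
  (add (add (sub (sub (sub (sub (add (add (add (add (sub (sub C x14091) x14075) x14015) x14051) x13871) x13979) x14411) x13601) x15545) x5339) x963) x7525)
  (sub (sub (sub (sub (sub (add (add (add (add (add (add (sub C x14087) x14067) x14079) x14019) x14055) x13875) x13983) x14415) x13605) x15549) x5343) x971)
  (sub (sub (sub (add (add (sub (add (add (add (add (add (add (sub C x14097) x14107) x14119) x14131) x14167) x14203) x14311) x13933) x13123) x15067) x15553) x5347) x7535)
  (sub (sub (sub (add (add (sub (add (add (add (add (sub (sub C x14095) x14103) x14133) x14169) x14205) x14313) x13935) x13125) x15069) x15555) x5349) x977)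
  (sub (sub (sub (add (add (sub (add (add (sub (sub (add (add C x14107) x14111) x14097) x14121) x14211) x14319) x13941) x13131) x15075) x15561) x5355) x983)
  (sub (sub (sub (add (add (sub (add (add (sub (add (add (add (add C x14103) x14111) x14095) x14119) x14125) x14215) x14323) x13945) x13135) x15079) x15565) x5359) x7547)
  (add (add (sub (sub (add (add (sub (add (add (sub (sub (add (add C x14103) x14107) x14117) x14129) x14219) x14327) x13949) x13139) x15083) x15569) x5363) x987) x7549)
  (add (add (sub (sub (add (add (sub (add (add (sub (sub (sub C x14119) x14111) x14153) x14225) x14333) x13955) x13145) x15089) x15575) x5369) x993) x7555)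
  (sub (sub (sub (add (add (sub (add (add (sub (add (add (sub C x14117) x14095) x14107) x14155) x14227) x14335) x13957) x13147) x15091) x15577) x5371) x7559)
  (sub (sub (sub (add (add (sub (sub (sub (add (add (add (add C x14125) x14129) x14133) x14145) x14103) x14175) x13959) x13149) x15093) x15579) x5373) x1001)
  (sub (sub (sub (add (add (sub (sub (sub (sub (add (add C x14121) x14129) x14131) x14107) x14179) x13963) x13153) x15097) x15583) x5377) x7565)
  (add (add (sub (sub (add (add (sub (sub (sub (sub (add (add C x14121) x14125) x14141) x14111) x14183) x13967) x13157) x15101) x15587) x5381) x1005) x7567)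
  (sub (sub (sub (add (add (sub (sub (add (add (sub (sub C x14133) x14125) x14095) x14167) x14185) x13969) x13159) x15103) x15589) x5383) x7571)
  (sub (sub (sub (add (add (sub (sub (add (add (add (add (sub C x14131) x14121) x14145) x14097) x14169) x14187) x13971) x13161) x15105) x15591) x5385) x1013)
  (add (add (sub (sub (add (add (sub (sub (sub (sub (sub C x14145) x14129) x14159) x14195) x13979) x13169) x15113) x15599) x5393) x1017) x7579)
  (sub (sub (sub (add (add (sub (sub (sub (add (add (sub C x14141) x14121) x14133) x14163) x14199) x13983) x13173) x15117) x15603) x5397) x1025)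
  (add (add (sub (sub (add (add (sub (sub (sub (sub (sub C x14155) x14159) x14117) x14261) x13991) x13181) x15125) x15611) x5405) x1029) x7591)
  (sub (sub (sub (add (add (sub (sub (sub (sub (sub C x14153) x14167) x14119) x14263) x13993) x13183) x15127) x15613) x5407) x7595)
  (add (add (sub (sub (add (add (sub (sub (sub (sub (sub C x14163) x14153) x14141) x14267) x13997) x13187) x15131) x15617) x5411) x1035) x7597)
  (sub (sub (sub (add (add (sub (sub (sub (sub (sub C x14159) x14169) x14145) x14271) x14001) x13191) x15135) x15621) x5415) x1043)
  (sub (sub (sub (add (add (sub (sub (add (add (sub (sub C x14169) x14155) x14095) x14131) x14275) x14005) x13195) x15139) x15625) x5419) x7607)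
  (sub (sub (sub (add (add (sub (sub (add (add (sub (sub C x14167) x14163) x14097) x14133) x14277) x14007) x13197) x15141) x15627) x5421) x1049)
  (sub (sub (sub (add (add (add (add (sub (add (add (add (add (add (add C x14179) x14183) x14187) x14199) x14211) x14247) x14121) x13851) x14499) x13203) x15147) x15633) x5427) x1055)
  (sub (sub (sub (add (add (add (add (sub (add (add (sub (add (add C x14175) x14183) x14185) x14215) x14251) x14125) x13855) x14503) x13207) x15151) x15637) x5431) x7619)
  (add (add (sub (sub (add (add (add (add (sub (add (add (sub (add (add C x14175) x14179) x14195) x14219) x14255) x14129) x13859) x14507) x13211) x15155) x15641) x5435) x1059) x7621)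
  (sub (sub (sub (add (add (add (add (sub (sub (sub (sub C x14187) x14179) x14203) x14131) x13861) x14509) x13213) x15157) x15643) x5437) x7625)
  (sub (sub (sub (add (add (add (add (sub (sub (add (add (sub C x14185) x14175) x14199) x14205) x14133) x13863) x14511) x13215) x15159) x15645) x5439) x1067)
  (add (add (sub (sub (add (add (add (add (sub (sub (sub (sub C x14199) x14183) x14231) x14141) x13871) x14519) x13223) x15167) x15653) x5447) x1071) x7633)
  (sub (sub (sub (add (add (add (add (sub (sub (add (add (sub C x14195) x14175) x14187) x14235) x14145) x13875) x14523) x13227) x15171) x15657) x5451) x1079)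
  (sub (sub (sub (add (add (add (add (add (add (sub (add (add (sub C x14205) x14215) x14227) x14185) x14095) x14311) x13879) x14527) x13231) x15175) x15661) x5455) x7643)
  (sub (sub (sub (add (add (add (add (add (add (sub (sub (sub C x14203) x14211) x14187) x14097) x14313) x13881) x14529) x13233) x15177) x15663) x5457) x1085)
  (sub (sub (sub (add (add (add (add (add (add (add (add (sub (add (add C x14215) x14219) x14205) x14175) x14247) x14103) x14319) x13887) x14535) x13239) x15183) x15669) x5463) x1091)
  (sub (sub (sub (add (add (add (add (add (add (add (add (add (add (add (add C x14211) x14219) x14203) x14227) x14179) x14251) x14107) x14323) x13891) x14539) x13243) x15187) x15673) x5467) x7655)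
  (add (add (sub (sub (add (add (add (add (add (add (add (add (sub (add (add C x14211) x14215) x14225) x14183) x14255) x14111) x14327) x13895) x14543) x13247) x15191) x15677) x5471) x1095) x7657)
  (add (add (sub (sub (add (add (add (add (add (add (sub (sub (sub C x14227) x14219) x14243) x14117) x14333) x13901) x14549) x13253) x15197) x15683) x5477) x1101) x7663)
  (sub (sub (sub (add (add (add (add (add (add (sub (add (add (sub C x14225) x14203) x14215) x14245) x14119) x14335) x13903) x14551) x13255) x15199) x15685) x5479) x7667)
  (add (add (sub (sub (add (add (add (add (sub (sub (add (add (sub C x14235) x14243) x14255) x14195) x14285) x13907) x14555) x13259) x15203) x15689) x5483) x1107) x7669)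
  (sub (sub (sub (add (add (add (add (sub (sub (sub (sub C x14231) x14247) x14199) x14289) x13911) x14559) x13263) x15207) x15693) x5487) x1115)
  (add (add (sub (sub (add (add (add (add (sub (sub (add (add (sub C x14245) x14231) x14255) x14225) x14297) x13919) x14567) x13271) x15215) x15701) x5495) x1119) x7681)
  (sub (sub (sub (add (add (add (add (sub (sub (sub (sub C x14243) x14251) x14227) x14299) x13921) x14569) x13273) x15217) x15703) x5497) x7685)
  (sub (sub (sub (add (add (add (add (sub (add (add (sub (add (add C x14251) x14255) x14235) x14175) x14211) x14301) x13923) x14571) x13275) x15219) x15705) x5499) x1127)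
  (sub (sub (sub (add (add (add (add (sub (add (add (sub (add (add C x14247) x14255) x14245) x14179) x14215) x14305) x13927) x14575) x13279) x15223) x15709) x5503) x7691)
  (add (add (sub (sub (add (add (add (add (sub (add (add (add (add (add (add C x14247) x14251) x14231) x14243) x14183) x14219) x14309) x13931) x14579) x13283) x15227) x15713) x5507) x1131) x7693)
  (add (add (sub (sub (add (add (sub (sub (add (add (sub (sub C x14263) x14267) x14297) x14333) x14153) x14423) x13289) x15233) x15719) x5513) x1137) x7699)
  (sub (sub (sub (add (add (sub (sub (add (add (sub (sub C x14261) x14275) x14299) x14335) x14155) x14425) x13291) x15235) x15721) x5515) x7703)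
  (add (add (sub (sub (add (add (sub (sub (sub (sub (sub C x14271) x14261) x14285) x14159) x14429) x13295) x15239) x15725) x5519) x1143) x7705)
  (sub (sub (sub (add (add (sub (sub (sub (sub (sub C x14267) x14277) x14289) x14163) x14433) x13299) x15243) x15729) x5523) x1151)
  (sub (sub (sub (add (add (sub (sub (sub (sub (sub C x14277) x14263) x14311) x14167) x14437) x13303) x15247) x15733) x5527) x7715)
  (sub (sub (sub (add (add (sub (sub (sub (sub (sub C x14275) x14271) x14313) x14169) x14439) x13305) x15249) x15735) x5529) x1157)
  (add (add (sub (sub (add (add (sub (sub (sub (add (add (sub C x14289) x14297) x14309) x14267) x14231) x14447) x13313) x15257) x15743) x5537) x1161) x7723)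
  (sub (sub (sub (add (add (sub (sub (sub (sub (sub C x14285) x14301) x14271) x14235) x14451) x13317) x15261) x15747) x5541) x1169)
  (add (add (sub (sub (add (add (sub (sub (add (add (add (add (sub C x14299) x14285) x14309) x14261) x14333) x14243) x14459) x13325) x15269) x15755) x5549) x1173) x7735)
  (sub (sub (sub (add (add (sub (sub (add (add (sub (sub C x14297) x14305) x14263) x14335) x14245) x14461) x13327) x15271) x15757) x5551) x7739)
  (sub (sub (sub (add (add (sub (sub (sub (sub (add (add C x14305) x14309) x14289) x14319) x14247) x14463) x13329) x15273) x15759) x5553) x1181)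
  (sub (sub (sub (add (add (sub (sub (sub (sub (add (add C x14301) x14309) x14299) x14323) x14251) x14467) x13333) x15277) x15763) x5557) x7745)
  (add (add (sub (sub (add (add (sub (sub (sub (add (add (add (add C x14301) x14305) x14285) x14297) x14327) x14255) x14471) x13337) x15281) x15767) x5561) x1185) x7747)
  (sub (sub (sub (add (add (sub (add (add (sub (add (add (sub C x14313) x14323) x14335) x14275) x14095) x14203) x14473) x13339) x15283) x15769) x5563) x7751)
  (sub (sub (sub (add (add (sub (add (add (sub (sub (sub C x14311) x14319) x14277) x14097) x14205) x14475) x13341) x15285) x15771) x5565) x1193)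
  (sub (sub (sub (add (add (sub (add (add (sub (sub (add (add C x14323) x14327) x14313) x14301) x14103) x14211) x14481) x13347) x15291) x15777) x5571) x1199)
  (sub (sub (sub (add (add (sub (add (add (sub (add (add (add (add C x14319) x14327) x14311) x14335) x14305) x14107) x14215) x14485) x13351) x15295) x15781) x5575) x7763)
  (add (add (sub (sub (add (add (sub (add (add (sub (sub (add (add C x14319) x14323) x14333) x14309) x14111) x14219) x14489) x13355) x15299) x15785) x5579) x1203) x7765)
  (add (add (sub (sub (add (add (sub (add (add (add (add (sub (sub C x14335) x14327) x14261) x14297) x14117) x14225) x14495) x13361) x15305) x15791) x5585) x1209) x7771)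
  (sub (sub (sub (add (add (sub (add (add (add (add (add (add (sub C x14333) x14311) x14323) x14263) x14299) x14119) x14227) x14497) x13363) x15307) x15793) x5587) x7775)
  (add (add (sub (sub (sub (sub (add (add (add (add (add (add (sub C x14343) x14351) x14363) x14375) x14411) x14447) x14555) x14015) x14825) x15797) x5591) x1215) x7777)
  (sub (sub (sub (sub (sub (add (add (add (add (sub (sub C x14339) x14355) x14379) x14415) x14451) x14559) x14019) x14829) x15801) x5595) x1223)
  (add (add (sub (sub (sub (sub (add (add (sub (add (add (sub C x14353) x14339) x14363) x14369) x14459) x14567) x14027) x14837) x15809) x5603) x1227) x7789)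
  (sub (sub (sub (sub (sub (add (add (sub (sub (sub C x14351) x14359) x14371) x14461) x14569) x14029) x14839) x15811) x5605) x7793)
  (sub (sub (sub (sub (sub (add (add (sub (sub (add (add C x14359) x14363) x14343) x14391) x14463) x14571) x14031) x14841) x15813) x5607) x1235)
  (sub (sub (sub (sub (sub (add (add (sub (sub (add (add C x14355) x14363) x14353) x14395) x14467) x14575) x14035) x14845) x15817) x5611) x7799)
  (add (add (sub (sub (sub (sub (add (add (sub (add (add (add (add C x14355) x14359) x14339) x14351) x14399) x14471) x14579) x14039) x14849) x15821) x5615) x1239) x7801)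
  (add (add (sub (sub (sub (sub (sub (sub (sub (sub C x14371) x14375) x14351) x14423) x14045) x14855) x15827) x5621) x1245) x7807)
  (sub (sub (sub (sub (sub (sub (sub (sub (sub C x14369) x14383) x14353) x14425) x14047) x14857) x15829) x5623) x7811)
  (add (add (sub (sub (sub (sub (sub (add (add (sub (sub C x14379) x14369) x14339) x14411) x14429) x14051) x14861) x15833) x5627) x1251) x7813)
  (sub (sub (sub (sub (sub (sub (add (add (sub (sub C x14375) x14385) x14343) x14415) x14433) x14055) x14865) x15837) x5631) x1259)
  (sub (sub (sub (sub (sub (sub (sub (sub (sub C x14385) x14371) x14401) x14437) x14059) x14869) x15841) x5635) x7823)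
  (sub (sub (sub (sub (sub (sub (sub (sub (sub C x14383) x14379) x14403) x14439) x14061) x14871) x15843) x5637) x1265)
  (sub (sub (sub (sub (sub (sub (sub (add (add (add (add C x14395) x14399) x14403) x14415) x14355) x14499) x14067) x14877) x15849) x5643) x1271)
  (sub (sub (sub (sub (sub (sub (sub (sub (add (add C x14391) x14399) x14401) x14359) x14503) x14071) x14881) x15853) x5647) x7835)
  (add (add (sub (sub (sub (sub (sub (sub (sub (add (add C x14391) x14395) x14411) x14363) x14507) x14075) x14885) x15857) x5651) x1275) x7837)
  (sub (sub (sub (sub (sub (sub (sub (sub (sub C x14403) x14395) x14383) x14509) x14077) x14887) x15859) x5653) x7841)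
  (sub (sub (sub (sub (sub (sub (sub (add (add (sub C x14401) x14391) x14415) x14385) x14511) x14079) x14889) x15861) x5655) x1283)
  (add (add (sub (sub (sub (sub (sub (add (add (sub (sub C x14415) x14399) x14339) x14375) x14519) x14087) x14897) x15869) x5663) x1287) x7849)
  (sub (sub (sub (sub (sub (sub (add (add (add (add (sub C x14411) x14391) x14403) x14343) x14379) x14523) x14091) x14901) x15873) x5667) x1295)
  (add (add (sub (sub (sub (sub (sub (add (add (sub (sub C x14425) x14429) x14459) x14495) x14369) x14261) x14909) x15881) x5675) x1299) x7861)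
  (sub (sub (sub (sub (sub (sub (add (add (sub (sub C x14423) x14437) x14461) x14497) x14371) x14263) x14911) x15883) x5677) x7865)
  (add (add (sub (sub (sub (sub (sub (sub (sub (sub C x14433) x14423) x14447) x14375) x14267) x14915) x15887) x5681) x1305) x7867)
  (sub (sub (sub (sub (sub (sub (sub (sub (sub C x14429) x14439) x14451) x14379) x14271) x14919) x15891) x5685) x1313)
  (sub (sub (sub (sub (sub (sub (sub (sub (sub C x14439) x14425) x14473) x14383) x14275) x14923) x15895) x5689) x7877)
  (sub (sub (sub (sub (sub (sub (sub (sub (sub C x14437) x14433) x14475) x14385) x14277) x14925) x15897) x5691) x1319)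
  (add (add (sub (sub (sub (sub (add (add (sub (add (add (sub C x14451) x14459) x14471) x14429) x14339) x14555) x14285) x14933) x15905) x5699) x1323) x7885)
  (sub (sub (sub (sub (sub (add (add (sub (sub (sub C x14447) x14463) x14433) x14343) x14559) x14289) x14937) x15909) x5703) x1331)
  (add (add (sub (sub (sub (sub (add (add (add (add (add (add (sub C x14461) x14447) x14471) x14423) x14495) x14351) x14567) x14297) x14945) x15917) x5711) x1335) x7897)
  (sub (sub (sub (sub (sub (add (add (add (add (sub (sub C x14459) x14467) x14425) x14497) x14353) x14569) x14299) x14947) x15919) x5713) x7901)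
  (sub (sub (sub (sub (sub (add (add (sub (sub (add (add C x14467) x14471) x14451) x14481) x14355) x14571) x14301) x14949) x15921) x5715) x1343)
  (sub (sub (sub (sub (sub (add (add (sub (sub (add (add C x14463) x14471) x14461) x14485) x14359) x14575) x14305) x14953) x15925) x5719) x7907)
  (add (add (sub (sub (sub (sub (add (add (sub (add (add (add (add C x14463) x14467) x14447) x14459) x14489) x14363) x14579) x14309) x14957) x15929) x5723) x1347) x7909)
  (sub (sub (sub (sub (sub (sub (sub (add (add (sub C x14475) x14485) x14497) x14437) x14527) x14311) x14959) x15931) x5725) x7913)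
  (sub (sub (sub (sub (sub (sub (sub (sub (sub C x14473) x14481) x14439) x14529) x14313) x14961) x15933) x5727) x1355)
  (sub (sub (sub (sub (sub (sub (sub (sub (add (add C x14485) x14489) x14475) x14463) x14535) x14319) x14967) x15939) x5733) x1361)
  (sub (sub (sub (sub (sub (sub (sub (add (add (add (add C x14481) x14489) x14473) x14497) x14467) x14539) x14323) x14971) x15943) x5737) x7925)
  (add (add (sub (sub (sub (sub (sub (sub (sub (add (add C x14481) x14485) x14495) x14471) x14543) x14327) x14975) x15947) x5741) x1365) x7927)
  (add (add (sub (sub (sub (sub (sub (add (add (sub (sub C x14497) x14489) x14423) x14459) x14549) x14333) x14981) x15953) x5747) x1371) x7933)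
  (sub (sub (sub (sub (sub (sub (add (add (add (add (sub C x14495) x14473) x14485) x14425) x14461) x14551) x14335) x14983) x15955) x5749) x7937)
  (sub (sub (sub (sub (add (add (sub (add (add (add (add (add (add C x14503) x14507) x14511) x14523) x14535) x14571) x14391) x13851) x14175) x14985) x15957) x5751) x1379)
  (sub (sub (sub (sub (add (add (sub (add (add (sub (add (add C x14499) x14507) x14509) x14539) x14575) x14395) x13855) x14179) x14989) x15961) x5755) x7943)
  (add (add (sub (sub (sub (add (add (sub (add (add (sub (add (add C x14499) x14503) x14519) x14543) x14579) x14399) x13859) x14183) x14993) x15965) x5759) x1383) x7945)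
  (sub (sub (sub (sub (add (add (sub (sub (sub (sub C x14511) x14503) x14527) x14401) x13861) x14185) x14995) x15967) x5761) x7949)
  (sub (sub (sub (sub (add (add (sub (sub (add (add (sub C x14509) x14499) x14523) x14529) x14403) x13863) x14187) x14997) x15969) x5763) x1391)
  (add (add (sub (sub (sub (add (add (sub (sub (sub (sub C x14523) x14507) x14555) x14411) x13871) x14195) x15005) x15977) x5771) x1395) x7957)
  (sub (sub (sub (sub (add (add (sub (sub (add (add (sub C x14519) x14499) x14511) x14559) x14415) x13875) x14199) x15009) x15981) x5775) x1403)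
  (sub (sub (sub (sub (add (add (sub (sub (add (add (sub C x14529) x14539) x14551) x14509) x14473) x13879) x14203) x15013) x15985) x5779) x7967)
  (sub (sub (sub (sub (add (add (sub (sub (sub (sub C x14527) x14535) x14511) x14475) x13881) x14205) x15015) x15987) x5781) x1409)
  (sub (sub (sub (sub (add (add (sub (add (add (sub (add (add C x14539) x14543) x14529) x14499) x14571) x14481) x13887) x14211) x15021) x15993) x5787) x1415)
  (sub (sub (sub (sub (add (add (sub (add (add (add (add (add (add C x14535) x14543) x14527) x14551) x14503) x14575) x14485) x13891) x14215) x15025) x15997) x5791) x7979)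
  (add (add (sub (sub (sub (add (add (sub (add (add (sub (add (add C x14535) x14539) x14549) x14507) x14579) x14489) x13895) x14219) x15029) x16001) x5795) x1419) x7981)
  (add (add (sub (sub (sub (add (add (sub (sub (sub (sub C x14551) x14543) x14567) x14495) x13901) x14225) x15035) x16007) x5801) x1425) x7987)
  (sub (sub (sub (sub (add (add (sub (sub (add (add (sub C x14549) x14527) x14539) x14569) x14497) x13903) x14227) x15037) x16009) x5803) x7991)
  (add (add (sub (sub (sub (add (add (add (add (sub (add (add (sub C x14559) x14567) x14579) x14519) x14339) x14447) x13907) x14231) x15041) x16013) x5807) x1431) x7993)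
  (sub (sub (sub (sub (add (add (add (add (sub (sub (sub C x14555) x14571) x14523) x14343) x14451) x13911) x14235) x15045) x16017) x5811) x1439)
  (add (add (sub (sub (sub (add (add (add (add (sub (add (add (sub C x14569) x14555) x14579) x14549) x14351) x14459) x13919) x14243) x15053) x16025) x5819) x1443) x8005)
  (sub (sub (sub (sub (add (add (add (add (sub (sub (sub C x14567) x14575) x14551) x14353) x14461) x13921) x14245) x15055) x16027) x5821) x8009)
  (sub (sub (sub (sub (add (add (add (add (add (add (sub (add (add C x14575) x14579) x14559) x14499) x14535) x14355) x14463) x13923) x14247) x15057) x16029) x5823) x1451)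
  (sub (sub (sub (sub (add (add (add (add (add (add (sub (add (add C x14571) x14579) x14569) x14503) x14539) x14359) x14467) x13927) x14251) x15061) x16033) x5827) x8015)
  (add (add (sub (sub (sub (add (add (add (add (add (add (add (add (add (add C x14571) x14575) x14555) x14567) x14507) x14543) x14363) x14471) x13931) x14255) x15065) x16037) x5831) x1455) x8017)
  (add (add (sub (sub (sub (add (add (add (add (add (add (sub (sub C x14587) x14591) x14621) x14657) x14693) x14801) x14909) x15233) x13613) x17501) x5837) x1461) x8023)
  (sub (sub (sub (sub (add (add (add (add (add (add (sub (sub C x14585) x14599) x14623) x14659) x14695) x14803) x14911) x15235) x13615) x17503) x5839) x8027)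
  (add (add (sub (sub (sub (add (add (add (add (sub (sub (sub C x14595) x14585) x14609) x14699) x14807) x14915) x15239) x13619) x17507) x5843) x1467) x8029)
  (sub (sub (sub (sub (add (add (add (add (sub (sub (sub C x14591) x14601) x14613) x14703) x14811) x14919) x15243) x13623) x17511) x5847) x1475)
  (sub (sub (sub (sub (add (add (add (add (sub (sub (sub C x14601) x14587) x14635) x14707) x14815) x14923) x15247) x13627) x17515) x5851) x8039)
  (sub (sub (sub (sub (add (add (add (add (sub (sub (sub C x14599) x14595) x14637) x14709) x14817) x14925) x15249) x13629) x17517) x5853) x1481)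
  (add (add (sub (sub (sub (add (add (sub (sub (add (add (sub C x14613) x14621) x14633) x14591) x14663) x14933) x15257) x13637) x17525) x5861) x1485) x8047)
  (sub (sub (sub (sub (add (add (sub (sub (sub (sub C x14609) x14625) x14595) x14667) x14937) x15261) x13641) x17529) x5865) x1493)
  (add (add (sub (sub (sub (add (add (sub (add (add (add (add (sub C x14623) x14609) x14633) x14585) x14657) x14675) x14945) x15269) x13649) x17537) x5873) x1497) x8059)
  (sub (sub (sub (sub (add (add (sub (add (add (sub (sub C x14621) x14629) x14587) x14659) x14677) x14947) x15271) x13651) x17539) x5875) x8063)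
  (sub (sub (sub (sub (add (add (sub (sub (sub (add (add C x14629) x14633) x14613) x14643) x14679) x14949) x15273) x13653) x17541) x5877) x1505)
  (sub (sub (sub (sub (add (add (sub (sub (sub (add (add C x14625) x14633) x14623) x14647) x14683) x14953) x15277) x13657) x17545) x5881) x8069)
  (add (add (sub (sub (sub (add (add (sub (sub (add (add (add (add C x14625) x14629) x14609) x14621) x14651) x14687) x14957) x15281) x13661) x17549) x5885) x1509) x8071)
  (sub (sub (sub (sub (add (add (sub (sub (add (add (sub C x14637) x14647) x14659) x14599) x14743) x14959) x15283) x13663) x17551) x5887) x8075)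
  (sub (sub (sub (sub (add (add (sub (sub (sub (sub C x14635) x14643) x14601) x14745) x14961) x15285) x13665) x17553) x5889) x1517)
  (sub (sub (sub (sub (add (add (sub (sub (sub (add (add C x14647) x14651) x14637) x14625) x14751) x14967) x15291) x13671) x17559) x5895) x1523)
  (sub (sub (sub (sub (add (add (sub (sub (add (add (add (add C x14643) x14651) x14635) x14659) x14629) x14755) x14971) x15295) x13675) x17563) x5899) x8087)
  (add (add (sub (sub (sub (add (add (sub (sub (sub (add (add C x14643) x14647) x14657) x14633) x14759) x14975) x15299) x13679) x17567) x5903) x1527) x8089)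
  (add (add (sub (sub (sub (add (add (sub (add (add (sub (sub C x14659) x14651) x14585) x14621) x14765) x14981) x15305) x13685) x17573) x5909) x1533) x8095)
  (sub (sub (sub (sub (add (add (sub (add (add (add (add (sub C x14657) x14635) x14647) x14587) x14623) x14767) x14983) x15307) x13687) x17575) x5911) x8099)
  (add (add (sub (sub (sub (sub (sub (add (add (add (add (sub C x14667) x14675) x14687) x14699) x14735) x14609) x14825) x13691) x17579) x5915) x1539) x8101)
  (sub (sub (sub (sub (sub (sub (add (add (sub (sub C x14663) x14679) x14703) x14739) x14613) x14829) x13695) x17583) x5919) x1547)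
  (add (add (sub (sub (sub (sub (sub (sub (add (add (sub C x14677) x14663) x14687) x14693) x14621) x14837) x13703) x17591) x5927) x1551) x8113)
  (sub (sub (sub (sub (sub (sub (sub (sub (sub C x14675) x14683) x14695) x14623) x14839) x13705) x17593) x5929) x8117)
  (sub (sub (sub (sub (sub (sub (sub (sub (add (add C x14683) x14687) x14667) x14715) x14625) x14841) x13707) x17595) x5931) x1559)
  (sub (sub (sub (sub (sub (sub (sub (sub (add (add C x14679) x14687) x14677) x14719) x14629) x14845) x13711) x17599) x5935) x8123)
  (add (add (sub (sub (sub (sub (sub (sub (add (add (add (add C x14679) x14683) x14663) x14675) x14723) x14633) x14849) x13715) x17603) x5939) x1563) x8125)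
  (add (add (sub (sub (sub (sub (add (add (sub (sub (sub C x14695) x14699) x14675) x14585) x14801) x14855) x13721) x17609) x5945) x1569) x8131)
  (sub (sub (sub (sub (sub (add (add (sub (sub (sub C x14693) x14707) x14677) x14587) x14803) x14857) x13723) x17611) x5947) x8135)
  (add (add (sub (sub (sub (sub (add (add (add (add (sub (sub C x14703) x14693) x14663) x14735) x14591) x14807) x14861) x13727) x17615) x5951) x1575) x8137)
  (sub (sub (sub (sub (sub (add (add (add (add (sub (sub C x14699) x14709) x14667) x14739) x14595) x14811) x14865) x13731) x17619) x5955) x1583)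
  (sub (sub (sub (sub (sub (add (add (sub (sub (sub C x14709) x14695) x14725) x14599) x14815) x14869) x13735) x17623) x5959) x8147)
  (sub (sub (sub (sub (sub (add (add (sub (sub (sub C x14707) x14703) x14727) x14601) x14817) x14871) x13737) x17625) x5961) x1589)
  (sub (sub (sub (sub (sub (sub (sub (add (add (add (add C x14719) x14723) x14727) x14739) x14679) x14769) x14877) x13743) x17631) x5967) x1595)
  (sub (sub (sub (sub (sub (sub (sub (sub (add (add C x14715) x14723) x14725) x14683) x14773) x14881) x13747) x17635) x5971) x8159)
  (add (add (sub (sub (sub (sub (sub (sub (sub (add (add C x14715) x14719) x14735) x14687) x14777) x14885) x13751) x17639) x5975) x1599) x8161)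
  (sub (sub (sub (sub (sub (sub (sub (sub (sub C x14727) x14719) x14707) x14779) x14887) x13753) x17641) x5977) x8165)
  (sub (sub (sub (sub (sub (sub (sub (add (add (sub C x14725) x14715) x14739) x14709) x14781) x14889) x13755) x17643) x5979) x1607)
  (add (add (sub (sub (sub (sub (sub (add (add (sub (sub C x14739) x14723) x14663) x14699) x14789) x14897) x13763) x17651) x5987) x1611) x8173)
  (sub (sub (sub (sub (sub (sub (add (add (add (add (sub C x14735) x14715) x14727) x14667) x14703) x14793) x14901) x13767) x17655) x5991) x1619)
  (sub (sub (sub (sub (sub (sub (add (add (add (add (sub C x14745) x14755) x14767) x14779) x14815) x14635) x15067) x13771) x17659) x5995) x8183)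
  (sub (sub (sub (sub (sub (sub (add (add (sub (sub C x14743) x14751) x14781) x14817) x14637) x15069) x13773) x17661) x5997) x1625)
  (sub (sub (sub (sub (sub (sub (sub (sub (add (add C x14755) x14759) x14745) x14769) x14643) x15075) x13779) x17667) x6003) x1631)
  (sub (sub (sub (sub (sub (sub (sub (add (add (add (add C x14751) x14759) x14743) x14767) x14773) x14647) x15079) x13783) x17671) x6007) x8195)
  (add (add (sub (sub (sub (sub (sub (sub (sub (add (add C x14751) x14755) x14765) x14777) x14651) x15083) x13787) x17675) x6011) x1635) x8197)
  (add (add (sub (sub (sub (sub (sub (sub (sub (sub C x14767) x14759) x14801) x14657) x15089) x13793) x17681) x6017) x1641) x8203)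
  (sub (sub (sub (sub (sub (sub (sub (add (add (sub C x14765) x14743) x14755) x14803) x14659) x15091) x13795) x17683) x6019) x8207)
  (sub (sub (sub (sub (sub (sub (sub (add (add (add (add C x14773) x14777) x14781) x14793) x14751) x14715) x15093) x13797) x17685) x6021) x1649)
  (sub (sub (sub (sub (sub (sub (sub (sub (add (add C x14769) x14777) x14779) x14755) x14719) x15097) x13801) x17689) x6025) x8213)
  (add (add (sub (sub (sub (sub (sub (sub (sub (add (add C x14769) x14773) x14789) x14759) x14723) x15101) x13805) x17693) x6029) x1653) x8215)
  (sub (sub (sub (sub (sub (sub (add (add (sub (sub C x14781) x14773) x14743) x14815) x14725) x15103) x13807) x17695) x6031) x8219)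
  (sub (sub (sub (sub (sub (sub (add (add (add (add (sub C x14779) x14769) x14793) x14745) x14817) x14727) x15105) x13809) x17697) x6033) x1661)
  (add (add (sub (sub (sub (sub (sub (sub (sub (sub C x14793) x14777) x14807) x14735) x15113) x13817) x17705) x6041) x1665) x8227)
  (sub (sub (sub (sub (sub (sub (sub (add (add (sub C x14789) x14769) x14781) x14811) x14739) x15117) x13821) x17709) x6045) x1673)
  (add (add (sub (sub (sub (sub (add (add (sub (sub (sub C x14803) x14807) x14765) x14585) x14693) x15125) x13829) x17717) x6053) x1677) x8239)
  (sub (sub (sub (sub (sub (add (add (sub (sub (sub C x14801) x14815) x14767) x14587) x14695) x15127) x13831) x17719) x6055) x8243)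
  (add (add (sub (sub (sub (sub (add (add (sub (sub (sub C x14811) x14801) x14789) x14591) x14699) x15131) x13835) x17723) x6059) x1683) x8245)
  (sub (sub (sub (sub (sub (add (add (sub (sub (sub C x14807) x14817) x14793) x14595) x14703) x15135) x13839) x17727) x6063) x1691)
  (sub (sub (sub (sub (sub (add (add (add (add (sub (sub C x14817) x14803) x14743) x14779) x14599) x14707) x15139) x13843) x17731) x6067) x8255)
  (sub (sub (sub (sub (sub (add (add (add (add (sub (sub C x14815) x14811) x14745) x14781) x14601) x14709) x15141) x13845) x17733) x6069) x1697)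
  (add (add (sub (sub (sub (sub (add (add (add (add (add (add (sub C x14829) x14837) x14849) x14861) x14897) x14933) x15041) x14663) x14339) x17741) x6077) x1701) x8263)
  (sub (sub (sub (sub (sub (add (add (add (add (sub (sub C x14825) x14841) x14865) x14901) x14937) x15045) x14667) x14343) x17745) x6081) x1709)
  (add (add (sub (sub (sub (sub (add (add (sub (add (add (sub C x14839) x14825) x14849) x14855) x14945) x15053) x14675) x14351) x17753) x6089) x1713) x8275)
  (sub (sub (sub (sub (sub (add (add (sub (sub (sub C x14837) x14845) x14857) x14947) x15055) x14677) x14353) x17755) x6091) x8279)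
  (sub (sub (sub (sub (sub (add (add (sub (sub (add (add C x14845) x14849) x14829) x14877) x14949) x15057) x14679) x14355) x17757) x6093) x1721)
  (sub (sub (sub (sub (sub (add (add (sub (sub (add (add C x14841) x14849) x14839) x14881) x14953) x15061) x14683) x14359) x17761) x6097) x8285)
  (add (add (sub (sub (sub (sub (add (add (sub (add (add (add (add C x14841) x14845) x14825) x14837) x14885) x14957) x15065) x14687) x14363) x17765) x6101) x1725) x8287)
  (add (add (sub (sub (sub (sub (sub (sub (sub (sub C x14857) x14861) x14837) x14909) x14693) x14369) x17771) x6107) x1731) x8293)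
  (sub (sub (sub (sub (sub (sub (sub (sub (sub C x14855) x14869) x14839) x14911) x14695) x14371) x17773) x6109) x8297)
  (add (add (sub (sub (sub (sub (sub (add (add (sub (sub C x14865) x14855) x14825) x14897) x14915) x14699) x14375) x17777) x6113) x1737) x8299)
  (sub (sub (sub (sub (sub (sub (add (add (sub (sub C x14861) x14871) x14829) x14901) x14919) x14703) x14379) x17781) x6117) x1745)
  (sub (sub (sub (sub (sub (sub (sub (sub (sub C x14871) x14857) x14887) x14923) x14707) x14383) x17785) x6121) x8309)
  (sub (sub (sub (sub (sub (sub (sub (sub (sub C x14869) x14865) x14889) x14925) x14709) x14385) x17787) x6123) x1751)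
  (sub (sub (sub (sub (sub (sub (sub (add (add (add (add C x14881) x14885) x14889) x14901) x14841) x14985) x14715) x14391) x17793) x6129) x1757)
  (sub (sub (sub (sub (sub (sub (sub (sub (add (add C x14877) x14885) x14887) x14845) x14989) x14719) x14395) x17797) x6133) x8321)
  (add (add (sub (sub (sub (sub (sub (sub (sub (add (add C x14877) x14881) x14897) x14849) x14993) x14723) x14399) x17801) x6137) x1761) x8323)
  (sub (sub (sub (sub (sub (sub (sub (sub (sub C x14889) x14881) x14869) x14995) x14725) x14401) x17803) x6139) x8327)
  (sub (sub (sub (sub (sub (sub (sub (add (add (sub C x14887) x14877) x14901) x14871) x14997) x14727) x14403) x17805) x6141) x1769)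
  (add (add (sub (sub (sub (sub (sub (add (add (sub (sub C x14901) x14885) x14825) x14861) x15005) x14735) x14411) x17813) x6149) x1773) x8335)
  (sub (sub (sub (sub (sub (sub (add (add (add (add (sub C x14897) x14877) x14889) x14829) x14865) x15009) x14739) x14415) x17817) x6153) x1781)
  (add (add (sub (sub (sub (add (add (sub (add (add (sub (sub C x14911) x14915) x14945) x14981) x14855) x14585) x15233) x14423) x17825) x6161) x1785) x8347)
  (sub (sub (sub (sub (add (add (sub (add (add (sub (sub C x14909) x14923) x14947) x14983) x14857) x14587) x15235) x14425) x17827) x6163) x8351)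
  (add (add (sub (sub (sub (add (add (sub (sub (sub (sub C x14919) x14909) x14933) x14861) x14591) x15239) x14429) x17831) x6167) x1791) x8353)
  (sub (sub (sub (sub (add (add (sub (sub (sub (sub C x14915) x14925) x14937) x14865) x14595) x15243) x14433) x17835) x6171) x1799)
  (sub (sub (sub (sub (add (add (sub (sub (sub (sub C x14925) x14911) x14959) x14869) x14599) x15247) x14437) x17839) x6175) x8363)
  (sub (sub (sub (sub (add (add (sub (sub (sub (sub C x14923) x14919) x14961) x14871) x14601) x15249) x14439) x17841) x6177) x1805)
  (add (add (sub (sub (sub (add (add (add (add (sub (add (add (sub C x14937) x14945) x14957) x14915) x14825) x15041) x14609) x15257) x14447) x17849) x6185) x1809) x8371)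
  (sub (sub (sub (sub (add (add (add (add (sub (sub (sub C x14933) x14949) x14919) x14829) x15045) x14613) x15261) x14451) x17853) x6189) x1817)
  (add (add (sub (sub (sub (add (add (add (add (add (add (add (add (sub C x14947) x14933) x14957) x14909) x14981) x14837) x15053) x14621) x15269) x14459) x17861) x6197) x1821) x8383)
  (sub (sub (sub (sub (add (add (add (add (add (add (sub (sub C x14945) x14953) x14911) x14983) x14839) x15055) x14623) x15271) x14461) x17863) x6199) x8387)
  (sub (sub (sub (sub (add (add (add (add (sub (sub (add (add C x14953) x14957) x14937) x14967) x14841) x15057) x14625) x15273) x14463) x17865) x6201) x1829)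
  (sub (sub (sub (sub (add (add (add (add (sub (sub (add (add C x14949) x14957) x14947) x14971) x14845) x15061) x14629) x15277) x14467) x17869) x6205) x8393)
  (add (add (sub (sub (sub (add (add (add (add (sub (add (add (add (add C x14949) x14953) x14933) x14945) x14975) x14849) x15065) x14633) x15281) x14471) x17873) x6209) x1833) x8395)
  (sub (sub (sub (sub (add (add (sub (sub (add (add (sub C x14961) x14971) x14983) x14923) x15013) x14635) x15283) x14473) x17875) x6211) x8399)
  (sub (sub (sub (sub (add (add (sub (sub (sub (sub C x14959) x14967) x14925) x15015) x14637) x15285) x14475) x17877) x6213) x1841)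
  (sub (sub (sub (sub (add (add (sub (sub (sub (add (add C x14971) x14975) x14961) x14949) x15021) x14643) x15291) x14481) x17883) x6219) x1847)
  (sub (sub (sub (sub (add (add (sub (sub (add (add (add (add C x14967) x14975) x14959) x14983) x14953) x15025) x14647) x15295) x14485) x17887) x6223) x8411)
  (add (add (sub (sub (sub (add (add (sub (sub (sub (add (add C x14967) x14971) x14981) x14957) x15029) x14651) x15299) x14489) x17891) x6227) x1851) x8413)
  (add (add (sub (sub (sub (add (add (sub (add (add (sub (sub C x14983) x14975) x14909) x14945) x15035) x14657) x15305) x14495) x17897) x6233) x1857) x8419)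
  (sub (sub (sub (sub (add (add (sub (add (add (add (add (sub C x14981) x14959) x14971) x14911) x14947) x15037) x14659) x15307) x14497) x17899) x6235) x8423)
  (sub (sub (sub (sub (sub (sub (add (add (add (add (add (add C x14989) x14993) x14997) x15009) x15021) x15057) x14877) x15147) x14499) x17901) x6237) x1865)
  (sub (sub (sub (sub (sub (sub (add (add (sub (add (add C x14985) x14993) x14995) x15025) x15061) x14881) x15151) x14503) x17905) x6241) x8429)
  (add (add (sub (sub (sub (sub (sub (add (add (sub (add (add C x14985) x14989) x15005) x15029) x15065) x14885) x15155) x14507) x17909) x6245) x1869) x8431)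
  (sub (sub (sub (sub (sub (sub (sub (sub (sub C x14997) x14989) x15013) x14887) x15157) x14509) x17911) x6247) x8435)
  (sub (sub (sub (sub (sub (sub (sub (add (add (sub C x14995) x14985) x15009) x15015) x14889) x15159) x14511) x17913) x6249) x1877)
  (add (add (sub (sub (sub (sub (sub (sub (sub (sub C x15009) x14993) x15041) x14897) x15167) x14519) x17921) x6257) x1881) x8443)
  (sub (sub (sub (sub (sub (sub (sub (add (add (sub C x15005) x14985) x14997) x15045) x14901) x15171) x14523) x17925) x6261) x1889)
  (sub (sub (sub (sub (sub (sub (sub (add (add (sub C x15015) x15025) x15037) x14995) x14959) x15175) x14527) x17929) x6265) x8453)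
  (sub (sub (sub (sub (sub (sub (sub (sub (sub C x15013) x15021) x14997) x14961) x15177) x14529) x17931) x6267) x1895)
  (sub (sub (sub (sub (sub (sub (add (add (sub (add (add C x15025) x15029) x15015) x14985) x15057) x14967) x15183) x14535) x17937) x6273) x1901)
  (sub (sub (sub (sub (sub (sub (add (add (add (add (add (add C x15021) x15029) x15013) x15037) x14989) x15061) x14971) x15187) x14539) x17941) x6277) x8465)
  (add (add (sub (sub (sub (sub (sub (add (add (sub (add (add C x15021) x15025) x15035) x14993) x15065) x14975) x15191) x14543) x17945) x6281) x1905) x8467)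
  (add (add (sub (sub (sub (sub (sub (sub (sub (sub C x15037) x15029) x15053) x14981) x15197) x14549) x17951) x6287) x1911) x8473)
  (sub (sub (sub (sub (sub (sub (sub (add (add (sub C x15035) x15013) x15025) x15055) x14983) x15199) x14551) x17953) x6289) x8477)
  (add (add (sub (sub (sub (sub (add (add (sub (add (add (sub C x15045) x15053) x15065) x15005) x14825) x14933) x15203) x14555) x17957) x6293) x1917) x8479)
  (sub (sub (sub (sub (sub (add (add (sub (sub (sub C x15041) x15057) x15009) x14829) x14937) x15207) x14559) x17961) x6297) x1925)
  (add (add (sub (sub (sub (sub (add (add (sub (add (add (sub C x15055) x15041) x15065) x15035) x14837) x14945) x15215) x14567) x17969) x6305) x1929) x8491)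
  (sub (sub (sub (sub (sub (add (add (sub (sub (sub C x15053) x15061) x15037) x14839) x14947) x15217) x14569) x17971) x6307) x8495)
  (sub (sub (sub (sub (sub (add (add (add (add (sub (add (add C x15061) x15065) x15045) x14985) x15021) x14841) x14949) x15219) x14571) x17973) x6309) x1937)
  (sub (sub (sub (sub (sub (add (add (add (add (sub (add (add C x15057) x15065) x15055) x14989) x15025) x14845) x14953) x15223) x14575) x17977) x6313) x8501)
  (add (add (sub (sub (sub (sub (add (add (add (add (add (add (add (add C x15057) x15061) x15041) x15053) x14993) x15029) x14849) x14957) x15227) x14579) x17981) x6317) x1941) x8503)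
  (sub (sub (sub (add (add (sub (add (add (add (add (add (add (sub C x15069) x15079) x15091) x15103) x15139) x15175) x15283) x14743) x13123) x14095) x17983) x6319) x8507)
  (sub (sub (sub (add (add (sub (add (add (add (add (sub (sub C x15067) x15075) x15105) x15141) x15177) x15285) x14745) x13125) x14097) x17985) x6321) x1949)
  (sub (sub (sub (add (add (sub (add (add (sub (sub (add (add C x15079) x15083) x15069) x15093) x15183) x15291) x14751) x13131) x14103) x17991) x6327) x1955)
  (sub (sub (sub (add (add (sub (add (add (sub (add (add (add (add C x15075) x15083) x15067) x15091) x15097) x15187) x15295) x14755) x13135) x14107) x17995) x6331) x8519)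
  (add (add (sub (sub (add (add (sub (add (add (sub (sub (add (add C x15075) x15079) x15089) x15101) x15191) x15299) x14759) x13139) x14111) x17999) x6335) x1959) x8521)
  (add (add (sub (sub (add (add (sub (add (add (sub (sub (sub C x15091) x15083) x15125) x15197) x15305) x14765) x13145) x14117) x18005) x6341) x1965) x8527)
  (sub (sub (sub (add (add (sub (add (add (sub (add (add (sub C x15089) x15067) x15079) x15127) x15199) x15307) x14767) x13147) x14119) x18007) x6343) x8531)
  (sub (sub (sub (add (add (sub (sub (sub (add (add (add (add C x15097) x15101) x15105) x15117) x15075) x15147) x14769) x13149) x14121) x18009) x6345) x1973)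
  (sub (sub (sub (add (add (sub (sub (sub (sub (add (add C x15093) x15101) x15103) x15079) x15151) x14773) x13153) x14125) x18013) x6349) x8537)
  (add (add (sub (sub (add (add (sub (sub (sub (sub (add (add C x15093) x15097) x15113) x15083) x15155) x14777) x13157) x14129) x18017) x6353) x1977) x8539)
  (sub (sub (sub (add (add (sub (sub (add (add (sub (sub C x15105) x15097) x15067) x15139) x15157) x14779) x13159) x14131) x18019) x6355) x8543)
  (sub (sub (sub (add (add (sub (sub (add (add (add (add (sub C x15103) x15093) x15117) x15069) x15141) x15159) x14781) x13161) x14133) x18021) x6357) x1985)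
  (add (add (sub (sub (add (add (sub (sub (sub (sub (sub C x15117) x15101) x15131) x15167) x14789) x13169) x14141) x18029) x6365) x1989) x8551)
  (sub (sub (sub (add (add (sub (sub (sub (add (add (sub C x15113) x15093) x15105) x15135) x15171) x14793) x13173) x14145) x18033) x6369) x1997)
  (add (add (sub (sub (add (add (sub (sub (sub (sub (sub C x15127) x15131) x15089) x15233) x14801) x13181) x14153) x18041) x6377) x2001) x8563)
  (sub (sub (sub (add (add (sub (sub (sub (sub (sub C x15125) x15139) x15091) x15235) x14803) x13183) x14155) x18043) x6379) x8567)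
  (add (add (sub (sub (add (add (sub (sub (sub (sub (sub C x15135) x15125) x15113) x15239) x14807) x13187) x14159) x18047) x6383) x2007) x8569)
  (sub (sub (sub (add (add (sub (sub (sub (sub (sub C x15131) x15141) x15117) x15243) x14811) x13191) x14163) x18051) x6387) x2015)
  (sub (sub (sub (add (add (sub (sub (add (add (sub (sub C x15141) x15127) x15067) x15103) x15247) x14815) x13195) x14167) x18055) x6391) x8579)
  (sub (sub (sub (add (add (sub (sub (add (add (sub (sub C x15139) x15135) x15069) x15105) x15249) x14817) x13197) x14169) x18057) x6393) x2021)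
  (sub (sub (sub (add (add (sub (sub (add (add (add (add (add (add C x15151) x15155) x15159) x15171) x15183) x15219) x15093) x14985) x13203) x14175) x18063) x6399) x2027)
  (sub (sub (sub (add (add (sub (sub (add (add (sub (add (add C x15147) x15155) x15157) x15187) x15223) x15097) x14989) x13207) x14179) x18067) x6403) x8591)
  (add (add (sub (sub (add (add (sub (sub (add (add (sub (add (add C x15147) x15151) x15167) x15191) x15227) x15101) x14993) x13211) x14183) x18071) x6407) x2031) x8593)
  (sub (sub (sub (add (add (sub (sub (sub (sub (sub C x15159) x15151) x15175) x15103) x14995) x13213) x14185) x18073) x6409) x8597)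
  (sub (sub (sub (add (add (sub (sub (sub (add (add (sub C x15157) x15147) x15171) x15177) x15105) x14997) x13215) x14187) x18075) x6411) x2039)
  (add (add (sub (sub (add (add (sub (sub (sub (sub (sub C x15171) x15155) x15203) x15113) x15005) x13223) x14195) x18083) x6419) x2043) x8605)
  (sub (sub (sub (add (add (sub (sub (sub (add (add (sub C x15167) x15147) x15159) x15207) x15117) x15009) x13227) x14199) x18087) x6423) x2051)
  (sub (sub (sub (add (add (sub (add (add (sub (add (add (sub C x15177) x15187) x15199) x15157) x15067) x15283) x15013) x13231) x14203) x18091) x6427) x8615)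
  (sub (sub (sub (add (add (sub (add (add (sub (sub (sub C x15175) x15183) x15159) x15069) x15285) x15015) x13233) x14205) x18093) x6429) x2057)
  (sub (sub (sub (add (add (sub (add (add (add (add (sub (add (add C x15187) x15191) x15177) x15147) x15219) x15075) x15291) x15021) x13239) x14211) x18099) x6435) x2063)
  (sub (sub (sub (add (add (sub (add (add (add (add (add (add (add (add C x15183) x15191) x15175) x15199) x15151) x15223) x15079) x15295) x15025) x13243) x14215) x18103) x6439) x8627)
  (add (add (sub (sub (add (add (sub (add (add (add (add (sub (add (add C x15183) x15187) x15197) x15155) x15227) x15083) x15299) x15029) x13247) x14219) x18107) x6443) x2067) x8629)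
  (add (add (sub (sub (add (add (sub (add (add (sub (sub (sub C x15199) x15191) x15215) x15089) x15305) x15035) x13253) x14225) x18113) x6449) x2073) x8635)
  (sub (sub (sub (add (add (sub (add (add (sub (add (add (sub C x15197) x15175) x15187) x15217) x15091) x15307) x15037) x13255) x14227) x18115) x6451) x8639)
  (add (add (sub (sub (add (add (sub (sub (sub (add (add (sub C x15207) x15215) x15227) x15167) x15257) x15041) x13259) x14231) x18119) x6455) x2079) x8641)
  (sub (sub (sub (add (add (sub (sub (sub (sub (sub C x15203) x15219) x15171) x15261) x15045) x13263) x14235) x18123) x6459) x2087)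
  (add (add (sub (sub (add (add (sub (sub (sub (add (add (sub C x15217) x15203) x15227) x15197) x15269) x15053) x13271) x14243) x18131) x6467) x2091) x8653)
  (sub (sub (sub (add (add (sub (sub (sub (sub (sub C x15215) x15223) x15199) x15271) x15055) x13273) x14245) x18133) x6469) x8657)
  (sub (sub (sub (add (add (sub (sub (add (add (sub (add (add C x15223) x15227) x15207) x15147) x15183) x15273) x15057) x13275) x14247) x18135) x6471) x2099)
  (sub (sub (sub (add (add (sub (sub (add (add (sub (add (add C x15219) x15227) x15217) x15151) x15187) x15277) x15061) x13279) x14251) x18139) x6475) x8663)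
  (add (add (sub (sub (add (add (sub (sub (add (add (add (add (add (add C x15219) x15223) x15203) x15215) x15155) x15191) x15281) x15065) x13283) x14255) x18143) x6479) x2103) x8665)
  (add (add (sub (sub (add (add (add (add (sub (add (add (sub (sub C x15235) x15239) x15269) x15305) x15125) x14585) x14909) x13289) x14261) x18149) x6485) x2109) x8671)
  (sub (sub (sub (add (add (add (add (sub (add (add (sub (sub C x15233) x15247) x15271) x15307) x15127) x14587) x14911) x13291) x14263) x18151) x6487) x8675)
  (add (add (sub (sub (add (add (add (add (sub (sub (sub (sub C x15243) x15233) x15257) x15131) x14591) x14915) x13295) x14267) x18155) x6491) x2115) x8677)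
  (sub (sub (sub (add (add (add (add (sub (sub (sub (sub C x15239) x15249) x15261) x15135) x14595) x14919) x13299) x14271) x18159) x6495) x2123)
  (sub (sub (sub (add (add (add (add (sub (sub (sub (sub C x15249) x15235) x15283) x15139) x14599) x14923) x13303) x14275) x18163) x6499) x8687)
  (sub (sub (sub (add (add (add (add (sub (sub (sub (sub C x15247) x15243) x15285) x15141) x14601) x14925) x13305) x14277) x18165) x6501) x2129)
  (add (add (sub (sub (add (add (add (add (sub (sub (add (add (sub C x15261) x15269) x15281) x15239) x15203) x14609) x14933) x13313) x14285) x18173) x6509) x2133) x8695)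
  (sub (sub (sub (add (add (add (add (sub (sub (sub (sub C x15257) x15273) x15243) x15207) x14613) x14937) x13317) x14289) x18177) x6513) x2141)
  (add (add (sub (sub (add (add (add (add (sub (add (add (add (add (sub C x15271) x15257) x15281) x15233) x15305) x15215) x14621) x14945) x13325) x14297) x18185) x6521) x2145) x8707)
  (sub (sub (sub (add (add (add (add (sub (add (add (sub (sub C x15269) x15277) x15235) x15307) x15217) x14623) x14947) x13327) x14299) x18187) x6523) x8711)
  (sub (sub (sub (add (add (add (add (sub (sub (sub (add (add C x15277) x15281) x15261) x15291) x15219) x14625) x14949) x13329) x14301) x18189) x6525) x2153)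
  (sub (sub (sub (add (add (add (add (sub (sub (sub (add (add C x15273) x15281) x15271) x15295) x15223) x14629) x14953) x13333) x14305) x18193) x6529) x8717)
  (add (add (sub (sub (add (add (add (add (sub (sub (add (add (add (add C x15273) x15277) x15257) x15269) x15299) x15227) x14633) x14957) x13337) x14309) x18197) x6533) x2157) x8719)
  (sub (sub (sub (add (add (add (add (add (add (sub (add (add (sub C x15285) x15295) x15307) x15247) x15067) x15175) x14635) x14959) x13339) x14311) x18199) x6535) x8723)
  (sub (sub (sub (add (add (add (add (add (add (sub (sub (sub C x15283) x15291) x15249) x15069) x15177) x14637) x14961) x13341) x14313) x18201) x6537) x2165)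
  (sub (sub (sub (add (add (add (add (add (add (sub (sub (add (add C x15295) x15299) x15285) x15273) x15075) x15183) x14643) x14967) x13347) x14319) x18207) x6543) x2171)
  (sub (sub (sub (add (add (add (add (add (add (sub (add (add (add (add C x15291) x15299) x15283) x15307) x15277) x15079) x15187) x14647) x14971) x13351) x14323) x18211) x6547) x8735)
  (add (add (sub (sub (add (add (add (add (add (add (sub (sub (add (add C x15291) x15295) x15305) x15281) x15083) x15191) x14651) x14975) x13355) x14327) x18215) x6551) x2175) x8737)
  (add (add (sub (sub (add (add (add (add (add (add (add (add (sub (sub C x15307) x15299) x15233) x15269) x15089) x15197) x14657) x14981) x13361) x14333) x18221) x6557) x2181) x8743)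
  (sub (sub (sub (add (add (add (add (add (add (add (add (add (add (sub C x15305) x15283) x15295) x15235) x15271) x15091) x15199) x14659) x14983) x13363) x14335) x18223) x6559) x8747)
  (sub (sub (sub (add (add (add (add (add (add (add (add (add (add (add (add C x15313) x15317) x15321) x15333) x15345) x15381) x15417) x15525) x15633) x15957) x16281) x17253) x13851) x10935) x2189)
  (sub (sub (sub (add (add (add (add (add (add (add (add (sub (add (add C x15309) x15317) x15319) x15349) x15385) x15421) x15529) x15637) x15961) x16285) x17257) x13855) x10939) x8753)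
  (add (add (sub (sub (add (add (add (add (add (add (add (add (sub (add (add C x15309) x15313) x15329) x15353) x15389) x15425) x15533) x15641) x15965) x16289) x17261) x13859) x10943) x2193) x8755)
  (sub (sub (sub (add (add (add (add (add (add (sub (sub (sub C x15321) x15313) x15337) x15427) x15535) x15643) x15967) x16291) x17263) x13861) x10945) x8759)
  (sub (sub (sub (add (add (add (add (add (add (sub (add (add (sub C x15319) x15309) x15333) x15339) x15429) x15537) x15645) x15969) x16293) x17265) x13863) x10947) x2201)
  (add (add (sub (sub (add (add (add (add (add (add (sub (sub (sub C x15333) x15317) x15365) x15437) x15545) x15653) x15977) x16301) x17273) x13871) x10955) x2205) x8767)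
  (sub (sub (sub (add (add (add (add (add (add (sub (add (add (sub C x15329) x15309) x15321) x15369) x15441) x15549) x15657) x15981) x16305) x17277) x13875) x10959) x2213)
  (sub (sub (sub (add (add (add (add (sub (sub (add (add (sub C x15339) x15349) x15361) x15319) x15391) x15661) x15985) x16309) x17281) x13879) x10963) x8777)
  (sub (sub (sub (add (add (add (add (sub (sub (sub (sub C x15337) x15345) x15321) x15393) x15663) x15987) x16311) x17283) x13881) x10965) x2219)
  (sub (sub (sub (add (add (add (add (sub (add (add (sub (add (add C x15349) x15353) x15339) x15309) x15381) x15399) x15669) x15993) x16317) x17289) x13887) x10971) x2225)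
  (sub (sub (sub (add (add (add (add (sub (add (add (add (add (add (add C x15345) x15353) x15337) x15361) x15313) x15385) x15403) x15673) x15997) x16321) x17293) x13891) x10975) x8789)
  (add (add (sub (sub (add (add (add (add (sub (add (add (sub (add (add C x15345) x15349) x15359) x15317) x15389) x15407) x15677) x16001) x16325) x17297) x13895) x10979) x2229) x8791)
  (add (add (sub (sub (add (add (add (add (sub (sub (sub (sub C x15361) x15353) x15377) x15413) x15683) x16007) x16331) x17303) x13901) x10985) x2235) x8797)
  (sub (sub (sub (add (add (add (add (sub (sub (add (add (sub C x15359) x15337) x15349) x15379) x15415) x15685) x16009) x16333) x17305) x13903) x10987) x8801)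
  (add (add (sub (sub (add (add (add (add (sub (sub (add (add (sub C x15369) x15377) x15389) x15329) x15473) x15689) x16013) x16337) x17309) x13907) x10991) x2241) x8803)
  (sub (sub (sub (add (add (add (add (sub (sub (sub (sub C x15365) x15381) x15333) x15477) x15693) x16017) x16341) x17313) x13911) x10995) x2249)
  (add (add (sub (sub (add (add (add (add (sub (sub (add (add (sub C x15379) x15365) x15389) x15359) x15485) x15701) x16025) x16349) x17321) x13919) x11003) x2253) x8815)
  (sub (sub (sub (add (add (add (add (sub (sub (sub (sub C x15377) x15385) x15361) x15487) x15703) x16027) x16351) x17323) x13921) x11005) x8819)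
  (sub (sub (sub (add (add (add (add (sub (add (add (sub (add (add C x15385) x15389) x15369) x15309) x15345) x15489) x15705) x16029) x16353) x17325) x13923) x11007) x2261)
  (sub (sub (sub (add (add (add (add (sub (add (add (sub (add (add C x15381) x15389) x15379) x15313) x15349) x15493) x15709) x16033) x16357) x17329) x13927) x11011) x8825)
  (add (add (sub (sub (add (add (add (add (sub (add (add (add (add (add (add C x15381) x15385) x15365) x15377) x15317) x15353) x15497) x15713) x16037) x16361) x17333) x13931) x11015) x2265) x8827)
  (sub (sub (sub (add (add (sub (sub (add (add (add (add (sub C x15393) x15403) x15415) x15427) x15463) x15337) x15553) x16363) x17335) x13933) x11017) x8831)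
  (sub (sub (sub (add (add (sub (sub (add (add (sub (sub C x15391) x15399) x15429) x15465) x15339) x15555) x16365) x17337) x13935) x11019) x2273)
  (sub (sub (sub (add (add (sub (sub (sub (sub (add (add C x15403) x15407) x15393) x15417) x15345) x15561) x16371) x17343) x13941) x11025) x2279)
  (sub (sub (sub (add (add (sub (sub (sub (add (add (add (add C x15399) x15407) x15391) x15415) x15421) x15349) x15565) x16375) x17347) x13945) x11029) x8843)
  (add (add (sub (sub (add (add (sub (sub (sub (sub (add (add C x15399) x15403) x15413) x15425) x15353) x15569) x16379) x17351) x13949) x11033) x2283) x8845)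
  (add (add (sub (sub (add (add (sub (sub (sub (sub (sub C x15415) x15407) x15449) x15359) x15575) x16385) x17357) x13955) x11039) x2289) x8851)
  (sub (sub (sub (add (add (sub (sub (sub (add (add (sub C x15413) x15391) x15403) x15451) x15361) x15577) x16387) x17359) x13957) x11041) x8855)
  (sub (sub (sub (add (add (sub (add (add (sub (add (add (add (add C x15421) x15425) x15429) x15441) x15399) x15309) x15525) x15579) x16389) x17361) x13959) x11043) x2297)
  (sub (sub (sub (add (add (sub (add (add (sub (sub (add (add C x15417) x15425) x15427) x15403) x15313) x15529) x15583) x16393) x17365) x13963) x11047) x8861)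
  (add (add (sub (sub (add (add (sub (add (add (sub (sub (add (add C x15417) x15421) x15437) x15407) x15317) x15533) x15587) x16397) x17369) x13967) x11051) x2301) x8863)
  (sub (sub (sub (add (add (sub (add (add (add (add (sub (sub C x15429) x15421) x15391) x15463) x15319) x15535) x15589) x16399) x17371) x13969) x11053) x8867)
  (sub (sub (sub (add (add (sub (add (add (add (add (add (add (sub C x15427) x15417) x15441) x15393) x15465) x15321) x15537) x15591) x16401) x17373) x13971) x11055) x2309)
  (add (add (sub (sub (add (add (sub (add (add (sub (sub (sub C x15441) x15425) x15455) x15329) x15545) x15599) x16409) x17381) x13979) x11063) x2313) x8875)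
  (sub (sub (sub (add (add (sub (add (add (sub (add (add (sub C x15437) x15417) x15429) x15459) x15333) x15549) x15603) x16413) x17385) x13983) x11067) x2321)
  (add (add (sub (sub (add (add (sub (sub (sub (sub (sub C x15451) x15455) x15413) x15503) x15611) x16421) x17393) x13991) x11075) x2325) x8887)
  (sub (sub (sub (add (add (sub (sub (sub (sub (sub C x15449) x15463) x15415) x15505) x15613) x16423) x17395) x13993) x11077) x8891)
  (add (add (sub (sub (add (add (sub (sub (sub (sub (sub C x15459) x15449) x15437) x15509) x15617) x16427) x17399) x13997) x11081) x2331) x8893)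
  (sub (sub (sub (add (add (sub (sub (sub (sub (sub C x15455) x15465) x15441) x15513) x15621) x16431) x17403) x14001) x11085) x2339)
  (sub (sub (sub (add (add (sub (sub (add (add (sub (sub C x15465) x15451) x15391) x15427) x15517) x15625) x16435) x17407) x14005) x11089) x8903)
  (sub (sub (sub (add (add (sub (sub (add (add (sub (sub C x15463) x15459) x15393) x15429) x15519) x15627) x16437) x17409) x14007) x11091) x2345)
  (add (add (sub (sub (add (add (sub (sub (add (add (add (add (sub C x15477) x15485) x15497) x15509) x15545) x15365) x15797) x16445) x17417) x14015) x11099) x2349) x8911)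
  (sub (sub (sub (add (add (sub (sub (add (add (sub (sub C x15473) x15489) x15513) x15549) x15369) x15801) x16449) x17421) x14019) x11103) x2357)
  (add (add (sub (sub (add (add (sub (sub (sub (add (add (sub C x15487) x15473) x15497) x15503) x15377) x15809) x16457) x17429) x14027) x11111) x2361) x8923)
  (sub (sub (sub (add (add (sub (sub (sub (sub (sub C x15485) x15493) x15505) x15379) x15811) x16459) x17431) x14029) x11113) x8927)
  (sub (sub (sub (add (add (sub (sub (sub (sub (add (add C x15493) x15497) x15477) x15525) x15381) x15813) x16461) x17433) x14031) x11115) x2369)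
  (sub (sub (sub (add (add (sub (sub (sub (sub (add (add C x15489) x15497) x15487) x15529) x15385) x15817) x16465) x17437) x14035) x11119) x8933)
  (add (add (sub (sub (add (add (sub (sub (sub (add (add (add (add C x15489) x15493) x15473) x15485) x15533) x15389) x15821) x16469) x17441) x14039) x11123) x2373) x8935)
  (add (add (sub (sub (add (add (sub (sub (sub (sub (sub C x15505) x15509) x15485) x15449) x15827) x16475) x17447) x14045) x11129) x2379) x8941)
  (sub (sub (sub (add (add (sub (sub (sub (sub (sub C x15503) x15517) x15487) x15451) x15829) x16477) x17449) x14047) x11131) x8945)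
  (add (add (sub (sub (add (add (sub (sub (add (add (sub (sub C x15513) x15503) x15473) x15545) x15455) x15833) x16481) x17453) x14051) x11135) x2385) x8947)
  (sub (sub (sub (add (add (sub (sub (add (add (sub (sub C x15509) x15519) x15477) x15549) x15459) x15837) x16485) x17457) x14055) x11139) x2393)
  (sub (sub (sub (add (add (sub (sub (sub (sub (sub C x15519) x15505) x15535) x15463) x15841) x16489) x17461) x14059) x11143) x8957)
  (sub (sub (sub (add (add (sub (sub (sub (sub (sub C x15517) x15513) x15537) x15465) x15843) x16491) x17463) x14061) x11145) x2399)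
  (sub (sub (sub (add (add (sub (add (add (sub (add (add (add (add C x15529) x15533) x15537) x15549) x15489) x15309) x15417) x15849) x16497) x17469) x14067) x11151) x2405)
  (sub (sub (sub (add (add (sub (add (add (sub (sub (add (add C x15525) x15533) x15535) x15493) x15313) x15421) x15853) x16501) x17473) x14071) x11155) x8969)
  (add (add (sub (sub (add (add (sub (add (add (sub (sub (add (add C x15525) x15529) x15545) x15497) x15317) x15425) x15857) x16505) x17477) x14075) x11159) x2409) x8971)
  (sub (sub (sub (add (add (sub (add (add (sub (sub (sub C x15537) x15529) x15517) x15319) x15427) x15859) x16507) x17479) x14077) x11161) x8975)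
  (sub (sub (sub (add (add (sub (add (add (sub (add (add (sub C x15535) x15525) x15549) x15519) x15321) x15429) x15861) x16509) x17481) x14079) x11163) x2417)
  (add (add (sub (sub (add (add (sub (add (add (add (add (sub (sub C x15549) x15533) x15473) x15509) x15329) x15437) x15869) x16517) x17489) x14087) x11171) x2421) x8983)
  (sub (sub (sub (add (add (sub (add (add (add (add (add (add (sub C x15545) x15525) x15537) x15477) x15513) x15333) x15441) x15873) x16521) x17493) x14091) x11175) x2429)
  (sub (sub (sub (sub (sub (add (add (add (add (add (add (sub C x15555) x15565) x15577) x15589) x15625) x15661) x15769) x15391) x16039) x14095) x11179) x8993)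
  (sub (sub (sub (sub (sub (add (add (add (add (sub (sub C x15553) x15561) x15591) x15627) x15663) x15771) x15393) x16041) x14097) x11181) x2435)
  (sub (sub (sub (sub (sub (add (add (sub (sub (add (add C x15565) x15569) x15555) x15579) x15669) x15777) x15399) x16047) x14103) x11187) x2441)
  (sub (sub (sub (sub (sub (add (add (sub (add (add (add (add C x15561) x15569) x15553) x15577) x15583) x15673) x15781) x15403) x16051) x14107) x11191) x9005)
  (add (add (sub (sub (sub (sub (add (add (sub (sub (add (add C x15561) x15565) x15575) x15587) x15677) x15785) x15407) x16055) x14111) x11195) x2445) x9007)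
  (add (add (sub (sub (sub (sub (add (add (sub (sub (sub C x15577) x15569) x15611) x15683) x15791) x15413) x16061) x14117) x11201) x2451) x9013)
  (sub (sub (sub (sub (sub (add (add (sub (add (add (sub C x15575) x15553) x15565) x15613) x15685) x15793) x15415) x16063) x14119) x11203) x9017)
  (sub (sub (sub (sub (sub (sub (sub (add (add (add (add C x15583) x15587) x15591) x15603) x15561) x15633) x15417) x16065) x14121) x11205) x2459)
  (sub (sub (sub (sub (sub (sub (sub (sub (add (add C x15579) x15587) x15589) x15565) x15637) x15421) x16069) x14125) x11209) x9023)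
  (add (add (sub (sub (sub (sub (sub (sub (sub (add (add C x15579) x15583) x15599) x15569) x15641) x15425) x16073) x14129) x11213) x2463) x9025)
  (sub (sub (sub (sub (sub (sub (add (add (sub (sub C x15591) x15583) x15553) x15625) x15643) x15427) x16075) x14131) x11215) x9029)
  (sub (sub (sub (sub (sub (sub (add (add (add (add (sub C x15589) x15579) x15603) x15555) x15627) x15645) x15429) x16077) x14133) x11217) x2471)
  (add (add (sub (sub (sub (sub (sub (sub (sub (sub C x15603) x15587) x15617) x15653) x15437) x16085) x14141) x11225) x2475) x9037)
  (sub (sub (sub (sub (sub (sub (sub (add (add (sub C x15599) x15579) x15591) x15621) x15657) x15441) x16089) x14145) x11229) x2483)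
  (add (add (sub (sub (sub (sub (sub (sub (sub (sub C x15613) x15617) x15575) x15719) x15449) x16097) x14153) x11237) x2487) x9049)
  (sub (sub (sub (sub (sub (sub (sub (sub (sub C x15611) x15625) x15577) x15721) x15451) x16099) x14155) x11239) x9053)
  (add (add (sub (sub (sub (sub (sub (sub (sub (sub C x15621) x15611) x15599) x15725) x15455) x16103) x14159) x11243) x2493) x9055)
  (sub (sub (sub (sub (sub (sub (sub (sub (sub C x15617) x15627) x15603) x15729) x15459) x16107) x14163) x11247) x2501)
  (sub (sub (sub (sub (sub (sub (add (add (sub (sub C x15627) x15613) x15553) x15589) x15733) x15463) x16111) x14167) x11251) x9065)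
  (sub (sub (sub (sub (sub (sub (add (add (sub (sub C x15625) x15621) x15555) x15591) x15735) x15465) x16113) x14169) x11253) x2507)
  (sub (sub (sub (sub (add (add (sub (add (add (add (add (add (add C x15637) x15641) x15645) x15657) x15669) x15705) x15579) x15309) x15957) x16119) x14175) x11259) x2513)
  (sub (sub (sub (sub (add (add (sub (add (add (sub (add (add C x15633) x15641) x15643) x15673) x15709) x15583) x15313) x15961) x16123) x14179) x11263) x9077)
  (add (add (sub (sub (sub (add (add (sub (add (add (sub (add (add C x15633) x15637) x15653) x15677) x15713) x15587) x15317) x15965) x16127) x14183) x11267) x2517) x9079)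
  (sub (sub (sub (sub (add (add (sub (sub (sub (sub C x15645) x15637) x15661) x15589) x15319) x15967) x16129) x14185) x11269) x9083)
  (sub (sub (sub (sub (add (add (sub (sub (add (add (sub C x15643) x15633) x15657) x15663) x15591) x15321) x15969) x16131) x14187) x11271) x2525)
  (add (add (sub (sub (sub (add (add (sub (sub (sub (sub C x15657) x15641) x15689) x15599) x15329) x15977) x16139) x14195) x11279) x2529) x9091)
  (sub (sub (sub (sub (add (add (sub (sub (add (add (sub C x15653) x15633) x15645) x15693) x15603) x15333) x15981) x16143) x14199) x11283) x2537)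
  (sub (sub (sub (sub (add (add (add (add (sub (add (add (sub C x15663) x15673) x15685) x15643) x15553) x15769) x15337) x15985) x16147) x14203) x11287) x9101)
  (sub (sub (sub (sub (add (add (add (add (sub (sub (sub C x15661) x15669) x15645) x15555) x15771) x15339) x15987) x16149) x14205) x11289) x2543)
  (sub (sub (sub (sub (add (add (add (add (add (add (sub (add (add C x15673) x15677) x15663) x15633) x15705) x15561) x15777) x15345) x15993) x16155) x14211) x11295) x2549)
  (sub (sub (sub (sub (add (add (add (add (add (add (add (add (add (add C x15669) x15677) x15661) x15685) x15637) x15709) x15565) x15781) x15349) x15997) x16159) x14215) x11299) x9113)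
  (add (add (sub (sub (sub (add (add (add (add (add (add (sub (add (add C x15669) x15673) x15683) x15641) x15713) x15569) x15785) x15353) x16001) x16163) x14219) x11303) x2553) x9115)
  (add (add (sub (sub (sub (add (add (add (add (sub (sub (sub C x15685) x15677) x15701) x15575) x15791) x15359) x16007) x16169) x14225) x11309) x2559) x9121)
  (sub (sub (sub (sub (add (add (add (add (sub (add (add (sub C x15683) x15661) x15673) x15703) x15577) x15793) x15361) x16009) x16171) x14227) x11311) x9125)
  (add (add (sub (sub (sub (add (add (sub (sub (add (add (sub C x15693) x15701) x15713) x15653) x15743) x15365) x16013) x16175) x14231) x11315) x2565) x9127)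
  (sub (sub (sub (sub (add (add (sub (sub (sub (sub C x15689) x15705) x15657) x15747) x15369) x16017) x16179) x14235) x11319) x2573)
  (add (add (sub (sub (sub (add (add (sub (sub (add (add (sub C x15703) x15689) x15713) x15683) x15755) x15377) x16025) x16187) x14243) x11327) x2577) x9139)
  (sub (sub (sub (sub (add (add (sub (sub (sub (sub C x15701) x15709) x15685) x15757) x15379) x16027) x16189) x14245) x11329) x9143)
  (sub (sub (sub (sub (add (add (sub (add (add (sub (add (add C x15709) x15713) x15693) x15633) x15669) x15759) x15381) x16029) x16191) x14247) x11331) x2585)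
  (sub (sub (sub (sub (add (add (sub (add (add (sub (add (add C x15705) x15713) x15703) x15637) x15673) x15763) x15385) x16033) x16195) x14251) x11335) x9149)
  (add (add (sub (sub (sub (add (add (sub (add (add (add (add (add (add C x15705) x15709) x15689) x15701) x15641) x15677) x15767) x15389) x16037) x16199) x14255) x11339) x2589) x9151)
  (add (add (sub (sub (sub (sub (sub (add (add (sub (sub C x15721) x15725) x15755) x15791) x15611) x15881) x16205) x14261) x11345) x2595) x9157)
  (sub (sub (sub (sub (sub (sub (add (add (sub (sub C x15719) x15733) x15757) x15793) x15613) x15883) x16207) x14263) x11347) x9161)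
  (add (add (sub (sub (sub (sub (sub (sub (sub (sub C x15729) x15719) x15743) x15617) x15887) x16211) x14267) x11351) x2601) x9163)
  (sub (sub (sub (sub (sub (sub (sub (sub (sub C x15725) x15735) x15747) x15621) x15891) x16215) x14271) x11355) x2609)
  (sub (sub (sub (sub (sub (sub (sub (sub (sub C x15735) x15721) x15769) x15625) x15895) x16219) x14275) x11359) x9173)
  (sub (sub (sub (sub (sub (sub (sub (sub (sub C x15733) x15729) x15771) x15627) x15897) x16221) x14277) x11361) x2615)
  (add (add (sub (sub (sub (sub (sub (sub (add (add (sub C x15747) x15755) x15767) x15725) x15689) x15905) x16229) x14285) x11369) x2619) x9181)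
  (sub (sub (sub (sub (sub (sub (sub (sub (sub C x15743) x15759) x15729) x15693) x15909) x16233) x14289) x11373) x2627)
  (add (add (sub (sub (sub (sub (sub (add (add (add (add (sub C x15757) x15743) x15767) x15719) x15791) x15701) x15917) x16241) x14297) x11381) x2631) x9193)
  (sub (sub (sub (sub (sub (sub (add (add (sub (sub C x15755) x15763) x15721) x15793) x15703) x15919) x16243) x14299) x11383) x9197)
  (sub (sub (sub (sub (sub (sub (sub (sub (add (add C x15763) x15767) x15747) x15777) x15705) x15921) x16245) x14301) x11385) x2639)
  (sub (sub (sub (sub (sub (sub (sub (sub (add (add C x15759) x15767) x15757) x15781) x15709) x15925) x16249) x14305) x11389) x9203)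
  (add (add (sub (sub (sub (sub (sub (sub (add (add (add (add C x15759) x15763) x15743) x15755) x15785) x15713) x15929) x16253) x14309) x11393) x2643) x9205)
  (sub (sub (sub (sub (sub (add (add (sub (add (add (sub C x15771) x15781) x15793) x15733) x15553) x15661) x15931) x16255) x14311) x11395) x9209)
  (sub (sub (sub (sub (sub (add (add (sub (sub (sub C x15769) x15777) x15735) x15555) x15663) x15933) x16257) x14313) x11397) x2651)
  (sub (sub (sub (sub (sub (add (add (sub (sub (add (add C x15781) x15785) x15771) x15759) x15561) x15669) x15939) x16263) x14319) x11403) x2657)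
  (sub (sub (sub (sub (sub (add (add (sub (add (add (add (add C x15777) x15785) x15769) x15793) x15763) x15565) x15673) x15943) x16267) x14323) x11407) x9221)
  (add (add (sub (sub (sub (sub (add (add (sub (sub (add (add C x15777) x15781) x15791) x15767) x15569) x15677) x15947) x16271) x14327) x11411) x2661) x9223)
  (add (add (sub (sub (sub (sub (add (add (add (add (sub (sub C x15793) x15785) x15719) x15755) x15575) x15683) x15953) x16277) x14333) x11417) x2667) x9229)
  (sub (sub (sub (sub (sub (add (add (add (add (add (add (sub C x15791) x15769) x15781) x15721) x15757) x15577) x15685) x15955) x16279) x14335) x11419) x9233)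
  (add (add (sub (sub (sub (sub (add (add (add (add (add (add (sub C x15801) x15809) x15821) x15833) x15869) x15905) x16013) x15473) x16769) x14339) x11423) x2673) x9235)
  (sub (sub (sub (sub (sub (add (add (add (add (sub (sub C x15797) x15813) x15837) x15873) x15909) x16017) x15477) x16773) x14343) x11427) x2681)
  (add (add (sub (sub (sub (sub (add (add (sub (add (add (sub C x15811) x15797) x15821) x15827) x15917) x16025) x15485) x16781) x14351) x11435) x2685) x9247)
  (sub (sub (sub (sub (sub (add (add (sub (sub (sub C x15809) x15817) x15829) x15919) x16027) x15487) x16783) x14353) x11437) x9251)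
  (sub (sub (sub (sub (sub (add (add (sub (sub (add (add C x15817) x15821) x15801) x15849) x15921) x16029) x15489) x16785) x14355) x11439) x2693)
  (sub (sub (sub (sub (sub (add (add (sub (sub (add (add C x15813) x15821) x15811) x15853) x15925) x16033) x15493) x16789) x14359) x11443) x9257)
  (add (add (sub (sub (sub (sub (add (add (sub (add (add (add (add C x15813) x15817) x15797) x15809) x15857) x15929) x16037) x15497) x16793) x14363) x11447) x2697) x9259)
  (add (add (sub (sub (sub (sub (sub (sub (sub (sub C x15829) x15833) x15809) x15881) x15503) x16799) x14369) x11453) x2703) x9265)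
  (sub (sub (sub (sub (sub (sub (sub (sub (sub C x15827) x15841) x15811) x15883) x15505) x16801) x14371) x11455) x9269)
  (add (add (sub (sub (sub (sub (sub (add (add (sub (sub C x15837) x15827) x15797) x15869) x15887) x15509) x16805) x14375) x11459) x2709) x9271)
  (sub (sub (sub (sub (sub (sub (add (add (sub (sub C x15833) x15843) x15801) x15873) x15891) x15513) x16809) x14379) x11463) x2717)
  (sub (sub (sub (sub (sub (sub (sub (sub (sub C x15843) x15829) x15859) x15895) x15517) x16813) x14383) x11467) x9281)
  (sub (sub (sub (sub (sub (sub (sub (sub (sub C x15841) x15837) x15861) x15897) x15519) x16815) x14385) x11469) x2723)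
  (sub (sub (sub (sub (sub (sub (sub (add (add (add (add C x15853) x15857) x15861) x15873) x15813) x15957) x15525) x16821) x14391) x11475) x2729)
  (sub (sub (sub (sub (sub (sub (sub (sub (add (add C x15849) x15857) x15859) x15817) x15961) x15529) x16825) x14395) x11479) x9293)
  (add (add (sub (sub (sub (sub (sub (sub (sub (add (add C x15849) x15853) x15869) x15821) x15965) x15533) x16829) x14399) x11483) x2733) x9295)
  (sub (sub (sub (sub (sub (sub (sub (sub (sub C x15861) x15853) x15841) x15967) x15535) x16831) x14401) x11485) x9299)
  (sub (sub (sub (sub (sub (sub (sub (add (add (sub C x15859) x15849) x15873) x15843) x15969) x15537) x16833) x14403) x11487) x2741)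
  (add (add (sub (sub (sub (sub (sub (add (add (sub (sub C x15873) x15857) x15797) x15833) x15977) x15545) x16841) x14411) x11495) x2745) x9307)
  (sub (sub (sub (sub (sub (sub (add (add (add (add (sub C x15869) x15849) x15861) x15801) x15837) x15981) x15549) x16845) x14415) x11499) x2753)
  (add (add (sub (sub (sub (sub (sub (add (add (sub (sub C x15883) x15887) x15917) x15953) x15827) x15719) x16853) x14423) x11507) x2757) x9319)
  (sub (sub (sub (sub (sub (sub (add (add (sub (sub C x15881) x15895) x15919) x15955) x15829) x15721) x16855) x14425) x11509) x9323)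
  (add (add (sub (sub (sub (sub (sub (sub (sub (sub C x15891) x15881) x15905) x15833) x15725) x16859) x14429) x11513) x2763) x9325)
  (sub (sub (sub (sub (sub (sub (sub (sub (sub C x15887) x15897) x15909) x15837) x15729) x16863) x14433) x11517) x2771)
  (sub (sub (sub (sub (sub (sub (sub (sub (sub C x15897) x15883) x15931) x15841) x15733) x16867) x14437) x11521) x9335)
  (sub (sub (sub (sub (sub (sub (sub (sub (sub C x15895) x15891) x15933) x15843) x15735) x16869) x14439) x11523) x2777)
  (add (add (sub (sub (sub (sub (add (add (sub (add (add (sub C x15909) x15917) x15929) x15887) x15797) x16013) x15743) x16877) x14447) x11531) x2781) x9343)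
  (sub (sub (sub (sub (sub (add (add (sub (sub (sub C x15905) x15921) x15891) x15801) x16017) x15747) x16881) x14451) x11535) x2789)
  (add (add (sub (sub (sub (sub (add (add (add (add (add (add (sub C x15919) x15905) x15929) x15881) x15953) x15809) x16025) x15755) x16889) x14459) x11543) x2793) x9355)
  (sub (sub (sub (sub (sub (add (add (add (add (sub (sub C x15917) x15925) x15883) x15955) x15811) x16027) x15757) x16891) x14461) x11545) x9359)
  (sub (sub (sub (sub (sub (add (add (sub (sub (add (add C x15925) x15929) x15909) x15939) x15813) x16029) x15759) x16893) x14463) x11547) x2801)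
  (sub (sub (sub (sub (sub (add (add (sub (sub (add (add C x15921) x15929) x15919) x15943) x15817) x16033) x15763) x16897) x14467) x11551) x9365)
  (add (add (sub (sub (sub (sub (add (add (sub (add (add (add (add C x15921) x15925) x15905) x15917) x15947) x15821) x16037) x15767) x16901) x14471) x11555) x2805) x9367)
  (sub (sub (sub (sub (sub (sub (sub (add (add (sub C x15933) x15943) x15955) x15895) x15985) x15769) x16903) x14473) x11557) x9371)
  (sub (sub (sub (sub (sub (sub (sub (sub (sub C x15931) x15939) x15897) x15987) x15771) x16905) x14475) x11559) x2813)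
  (sub (sub (sub (sub (sub (sub (sub (sub (add (add C x15943) x15947) x15933) x15921) x15993) x15777) x16911) x14481) x11565) x2819)
  (sub (sub (sub (sub (sub (sub (sub (add (add (add (add C x15939) x15947) x15931) x15955) x15925) x15997) x15781) x16915) x14485) x11569) x9383)
  (add (add (sub (sub (sub (sub (sub (sub (sub (add (add C x15939) x15943) x15953) x15929) x16001) x15785) x16919) x14489) x11573) x2823) x9385)
  (add (add (sub (sub (sub (sub (sub (add (add (sub (sub C x15955) x15947) x15881) x15917) x16007) x15791) x16925) x14495) x11579) x2829) x9391)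
  (sub (sub (sub (sub (sub (sub (add (add (add (add (sub C x15953) x15931) x15943) x15883) x15919) x16009) x15793) x16927) x14497) x11581) x9395)
  (sub (sub (sub (sub (add (add (sub (add (add (add (add (add (add C x15961) x15965) x15969) x15981) x15993) x16029) x15849) x15309) x15633) x16929) x14499) x11583) x2837)
  (sub (sub (sub (sub (add (add (sub (add (add (sub (add (add C x15957) x15965) x15967) x15997) x16033) x15853) x15313) x15637) x16933) x14503) x11587) x9401)
  (add (add (sub (sub (sub (add (add (sub (add (add (sub (add (add C x15957) x15961) x15977) x16001) x16037) x15857) x15317) x15641) x16937) x14507) x11591) x2841) x9403)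
  (sub (sub (sub (sub (add (add (sub (sub (sub (sub C x15969) x15961) x15985) x15859) x15319) x15643) x16939) x14509) x11593) x9407)
  (sub (sub (sub (sub (add (add (sub (sub (add (add (sub C x15967) x15957) x15981) x15987) x15861) x15321) x15645) x16941) x14511) x11595) x2849)
  (add (add (sub (sub (sub (add (add (sub (sub (sub (sub C x15981) x15965) x16013) x15869) x15329) x15653) x16949) x14519) x11603) x2853) x9415)
  (sub (sub (sub (sub (add (add (sub (sub (add (add (sub C x15977) x15957) x15969) x16017) x15873) x15333) x15657) x16953) x14523) x11607) x2861)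
  (sub (sub (sub (sub (add (add (sub (sub (add (add (sub C x15987) x15997) x16009) x15967) x15931) x15337) x15661) x16957) x14527) x11611) x9425)
  (sub (sub (sub (sub (add (add (sub (sub (sub (sub C x15985) x15993) x15969) x15933) x15339) x15663) x16959) x14529) x11613) x2867)
  (sub (sub (sub (sub (add (add (sub (add (add (sub (add (add C x15997) x16001) x15987) x15957) x16029) x15939) x15345) x15669) x16965) x14535) x11619) x2873)
  (sub (sub (sub (sub (add (add (sub (add (add (add (add (add (add C x15993) x16001) x15985) x16009) x15961) x16033) x15943) x15349) x15673) x16969) x14539) x11623) x9437)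
  (add (add (sub (sub (sub (add (add (sub (add (add (sub (add (add C x15993) x15997) x16007) x15965) x16037) x15947) x15353) x15677) x16973) x14543) x11627) x2877) x9439)
  (add (add (sub (sub (sub (add (add (sub (sub (sub (sub C x16009) x16001) x16025) x15953) x15359) x15683) x16979) x14549) x11633) x2883) x9445)
  (sub (sub (sub (sub (add (add (sub (sub (add (add (sub C x16007) x15985) x15997) x16027) x15955) x15361) x15685) x16981) x14551) x11635) x9449)
  (add (add (sub (sub (sub (add (add (add (add (sub (add (add (sub C x16017) x16025) x16037) x15977) x15797) x15905) x15365) x15689) x16985) x14555) x11639) x2889) x9451)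
  (sub (sub (sub (sub (add (add (add (add (sub (sub (sub C x16013) x16029) x15981) x15801) x15909) x15369) x15693) x16989) x14559) x11643) x2897)
  (add (add (sub (sub (sub (add (add (add (add (sub (add (add (sub C x16027) x16013) x16037) x16007) x15809) x15917) x15377) x15701) x16997) x14567) x11651) x2901) x9463)
  (sub (sub (sub (sub (add (add (add (add (sub (sub (sub C x16025) x16033) x16009) x15811) x15919) x15379) x15703) x16999) x14569) x11653) x9467)
  (sub (sub (sub (sub (add (add (add (add (add (add (sub (add (add C x16033) x16037) x16017) x15957) x15993) x15813) x15921) x15381) x15705) x17001) x14571) x11655) x2909)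
  (sub (sub (sub (sub (add (add (add (add (add (add (sub (add (add C x16029) x16037) x16027) x15961) x15997) x15817) x15925) x15385) x15709) x17005) x14575) x11659) x9473)
  (add (add (sub (sub (sub (add (add (add (add (add (add (add (add (add (add C x16029) x16033) x16013) x16025) x15965) x16001) x15821) x15929) x15389) x15713) x17009) x14579) x11663) x2913) x9475)
  (sub (sub (add (add (sub (add (add (add (add (add (add (add (add (sub C x16041) x16051) x16063) x16075) x16111) x16147) x16255) x16363) x16687) x15553) x13123) x18955) x11665) x9479)
  (sub (sub (add (add (sub (add (add (add (add (add (add (sub (sub C x16039) x16047) x16077) x16113) x16149) x16257) x16365) x16689) x15555) x13125) x18957) x11667) x2921)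
  (sub (sub (add (add (sub (add (add (add (add (sub (sub (add (add C x16051) x16055) x16041) x16065) x16155) x16263) x16371) x16695) x15561) x13131) x18963) x11673) x2927)
  (sub (sub (add (add (sub (add (add (add (add (sub (add (add (add (add C x16047) x16055) x16039) x16063) x16069) x16159) x16267) x16375) x16699) x15565) x13135) x18967) x11677) x9491)
  (add (add (sub (add (add (sub (add (add (add (add (sub (sub (add (add C x16047) x16051) x16061) x16073) x16163) x16271) x16379) x16703) x15569) x13139) x18971) x11681) x2931) x9493)
  (add (add (sub (add (add (sub (add (add (add (add (sub (sub (sub C x16063) x16055) x16097) x16169) x16277) x16385) x16709) x15575) x13145) x18977) x11687) x2937) x9499)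
  (sub (sub (add (add (sub (add (add (add (add (sub (add (add (sub C x16061) x16039) x16051) x16099) x16171) x16279) x16387) x16711) x15577) x13147) x18979) x11689) x9503)
  (sub (sub (add (add (sub (add (add (sub (sub (add (add (add (add C x16069) x16073) x16077) x16089) x16047) x16119) x16389) x16713) x15579) x13149) x18981) x11691) x2945)
  (sub (sub (add (add (sub (add (add (sub (sub (sub (add (add C x16065) x16073) x16075) x16051) x16123) x16393) x16717) x15583) x13153) x18985) x11695) x9509)
  (add (add (sub (add (add (sub (add (add (sub (sub (sub (add (add C x16065) x16069) x16085) x16055) x16127) x16397) x16721) x15587) x13157) x18989) x11699) x2949) x9511)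
  (sub (sub (add (add (sub (add (add (sub (add (add (sub (sub C x16077) x16069) x16039) x16111) x16129) x16399) x16723) x15589) x13159) x18991) x11701) x9515)
  (sub (sub (add (add (sub (add (add (sub (add (add (add (add (sub C x16075) x16065) x16089) x16041) x16113) x16131) x16401) x16725) x15591) x13161) x18993) x11703) x2957)
  (add (add (sub (add (add (sub (add (add (sub (sub (sub (sub C x16089) x16073) x16103) x16139) x16409) x16733) x15599) x13169) x19001) x11711) x2961) x9523)
  (sub (sub (add (add (sub (add (add (sub (sub (add (add (sub C x16085) x16065) x16077) x16107) x16143) x16413) x16737) x15603) x13173) x19005) x11715) x2969)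
  (add (add (sub (add (add (sub (add (add (sub (sub (sub (sub C x16099) x16103) x16061) x16205) x16421) x16745) x15611) x13181) x19013) x11723) x2973) x9535)
  (sub (sub (add (add (sub (add (add (sub (sub (sub (sub C x16097) x16111) x16063) x16207) x16423) x16747) x15613) x13183) x19015) x11725) x9539)
  (add (add (sub (add (add (sub (add (add (sub (sub (sub (sub C x16107) x16097) x16085) x16211) x16427) x16751) x15617) x13187) x19019) x11729) x2979) x9541)
  (sub (sub (add (add (sub (add (add (sub (sub (sub (sub C x16103) x16113) x16089) x16215) x16431) x16755) x15621) x13191) x19023) x11733) x2987)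
  (sub (sub (add (add (sub (add (add (sub (add (add (sub (sub C x16113) x16099) x16039) x16075) x16219) x16435) x16759) x15625) x13195) x19027) x11737) x9551)
  (sub (sub (add (add (sub (add (add (sub (add (add (sub (sub C x16111) x16107) x16041) x16077) x16221) x16437) x16761) x15627) x13197) x19029) x11739) x2993)
  (sub (sub (add (add (sub (sub (sub (add (add (add (add (add (add C x16123) x16127) x16131) x16143) x16155) x16191) x16065) x16281) x15633) x13203) x19035) x11745) x2999)
  (sub (sub (add (add (sub (sub (sub (add (add (sub (add (add C x16119) x16127) x16129) x16159) x16195) x16069) x16285) x15637) x13207) x19039) x11749) x9563)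
  (add (add (sub (add (add (sub (sub (sub (add (add (sub (add (add C x16119) x16123) x16139) x16163) x16199) x16073) x16289) x15641) x13211) x19043) x11753) x3003) x9565)
  (sub (sub (add (add (sub (sub (sub (sub (sub (sub C x16131) x16123) x16147) x16075) x16291) x15643) x13213) x19045) x11755) x9569)
  (sub (sub (add (add (sub (sub (sub (sub (add (add (sub C x16129) x16119) x16143) x16149) x16077) x16293) x15645) x13215) x19047) x11757) x3011)
  (add (add (sub (add (add (sub (sub (sub (sub (sub (sub C x16143) x16127) x16175) x16085) x16301) x15653) x13223) x19055) x11765) x3015) x9577)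
  (sub (sub (add (add (sub (sub (sub (sub (add (add (sub C x16139) x16119) x16131) x16179) x16089) x16305) x15657) x13227) x19059) x11769) x3023)
  (sub (sub (add (add (sub (sub (add (add (sub (add (add (sub C x16149) x16159) x16171) x16129) x16039) x16255) x16309) x15661) x13231) x19063) x11773) x9587)
  (sub (sub (add (add (sub (sub (add (add (sub (sub (sub C x16147) x16155) x16131) x16041) x16257) x16311) x15663) x13233) x19065) x11775) x3029)
  (sub (sub (add (add (sub (sub (add (add (add (add (sub (add (add C x16159) x16163) x16149) x16119) x16191) x16047) x16263) x16317) x15669) x13239) x19071) x11781) x3035)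
  (sub (sub (add (add (sub (sub (add (add (add (add (add (add (add (add C x16155) x16163) x16147) x16171) x16123) x16195) x16051) x16267) x16321) x15673) x13243) x19075) x11785) x9599)
  (add (add (sub (add (add (sub (sub (add (add (add (add (sub (add (add C x16155) x16159) x16169) x16127) x16199) x16055) x16271) x16325) x15677) x13247) x19079) x11789) x3039) x9601)
  (add (add (sub (add (add (sub (sub (add (add (sub (sub (sub C x16171) x16163) x16187) x16061) x16277) x16331) x15683) x13253) x19085) x11795) x3045) x9607)
  (sub (sub (add (add (sub (sub (add (add (sub (add (add (sub C x16169) x16147) x16159) x16189) x16063) x16279) x16333) x15685) x13255) x19087) x11797) x9611)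
  (add (add (sub (add (add (sub (sub (sub (sub (add (add (sub C x16179) x16187) x16199) x16139) x16229) x16337) x15689) x13259) x19091) x11801) x3051) x9613)
  (sub (sub (add (add (sub (sub (sub (sub (sub (sub C x16175) x16191) x16143) x16233) x16341) x15693) x13263) x19095) x11805) x3059)
  (add (add (sub (add (add (sub (sub (sub (sub (add (add (sub C x16189) x16175) x16199) x16169) x16241) x16349) x15701) x13271) x19103) x11813) x3063) x9625)
  (sub (sub (add (add (sub (sub (sub (sub (sub (sub C x16187) x16195) x16171) x16243) x16351) x15703) x13273) x19105) x11815) x9629)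
  (sub (sub (add (add (sub (sub (sub (add (add (sub (add (add C x16195) x16199) x16179) x16119) x16155) x16245) x16353) x15705) x13275) x19107) x11817) x3071)
  (sub (sub (add (add (sub (sub (sub (add (add (sub (add (add C x16191) x16199) x16189) x16123) x16159) x16249) x16357) x15709) x13279) x19111) x11821) x9635)
  (add (add (sub (add (add (sub (sub (sub (add (add (add (add (add (add C x16191) x16195) x16175) x16187) x16127) x16163) x16253) x16361) x15713) x13283) x19115) x11825) x3075) x9637)
  (add (add (sub (add (add (sub (sub (sub (add (add (sub (sub C x16207) x16211) x16241) x16277) x16097) x16529) x15719) x13289) x19121) x11831) x3081) x9643)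
  (sub (sub (add (add (sub (sub (sub (add (add (sub (sub C x16205) x16219) x16243) x16279) x16099) x16531) x15721) x13291) x19123) x11833) x9647)
  (add (add (sub (add (add (sub (sub (sub (sub (sub (sub C x16215) x16205) x16229) x16103) x16535) x15725) x13295) x19127) x11837) x3087) x9649)
  (sub (sub (add (add (sub (sub (sub (sub (sub (sub C x16211) x16221) x16233) x16107) x16539) x15729) x13299) x19131) x11841) x3095)
  (sub (sub (add (add (sub (sub (sub (sub (sub (sub C x16221) x16207) x16255) x16111) x16543) x15733) x13303) x19135) x11845) x9659)
  (sub (sub (add (add (sub (sub (sub (sub (sub (sub C x16219) x16215) x16257) x16113) x16545) x15735) x13305) x19137) x11847) x3101)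
  (add (add (sub (add (add (sub (sub (sub (sub (add (add (sub C x16233) x16241) x16253) x16211) x16175) x16553) x15743) x13313) x19145) x11855) x3105) x9667)
  (sub (sub (add (add (sub (sub (sub (sub (sub (sub C x16229) x16245) x16215) x16179) x16557) x15747) x13317) x19149) x11859) x3113)
  (add (add (sub (add (add (sub (sub (sub (add (add (add (add (sub C x16243) x16229) x16253) x16205) x16277) x16187) x16565) x15755) x13325) x19157) x11867) x3117) x9679)
  (sub (sub (add (add (sub (sub (sub (add (add (sub (sub C x16241) x16249) x16207) x16279) x16189) x16567) x15757) x13327) x19159) x11869) x9683)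
  (sub (sub (add (add (sub (sub (sub (sub (sub (add (add C x16249) x16253) x16233) x16263) x16191) x16569) x15759) x13329) x19161) x11871) x3125)
  (sub (sub (add (add (sub (sub (sub (sub (sub (add (add C x16245) x16253) x16243) x16267) x16195) x16573) x15763) x13333) x19165) x11875) x9689)
  (add (add (sub (add (add (sub (sub (sub (sub (add (add (add (add C x16245) x16249) x16229) x16241) x16271) x16199) x16577) x15767) x13337) x19169) x11879) x3129) x9691)
  (sub (sub (add (add (sub (sub (add (add (sub (add (add (sub C x16257) x16267) x16279) x16219) x16039) x16147) x16579) x15769) x13339) x19171) x11881) x9695)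
  (sub (sub (add (add (sub (sub (add (add (sub (sub (sub C x16255) x16263) x16221) x16041) x16149) x16581) x15771) x13341) x19173) x11883) x3137)
  (sub (sub (add (add (sub (sub (add (add (sub (sub (add (add C x16267) x16271) x16257) x16245) x16047) x16155) x16587) x15777) x13347) x19179) x11889) x3143)
  (sub (sub (add (add (sub (sub (add (add (sub (add (add (add (add C x16263) x16271) x16255) x16279) x16249) x16051) x16159) x16591) x15781) x13351) x19183) x11893) x9707)
  (add (add (sub (add (add (sub (sub (add (add (sub (sub (add (add C x16263) x16267) x16277) x16253) x16055) x16163) x16595) x15785) x13355) x19187) x11897) x3147) x9709)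
  (add (add (sub (add (add (sub (sub (add (add (add (add (sub (sub C x16279) x16271) x16205) x16241) x16061) x16169) x16601) x15791) x13361) x19193) x11903) x3153) x9715)
  (sub (sub (add (add (sub (sub (add (add (add (add (add (add (sub C x16277) x16255) x16267) x16207) x16243) x16063) x16171) x16603) x15793) x13363) x19195) x11905) x9719)
  (sub (sub (add (add (add (add (sub (add (add (add (add (add (add (add (add C x16285) x16289) x16293) x16305) x16317) x16353) x16389) x16497) x16119) x15309) x17253) x13365) x19197) x11907) x3161)
  (sub (sub (add (add (add (add (sub (add (add (add (add (sub (add (add C x16281) x16289) x16291) x16321) x16357) x16393) x16501) x16123) x15313) x17257) x13369) x19201) x11911) x9725)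
  (add (add (sub (add (add (add (add (sub (add (add (add (add (sub (add (add C x16281) x16285) x16301) x16325) x16361) x16397) x16505) x16127) x15317) x17261) x13373) x19205) x11915) x3165) x9727)
  (sub (sub (add (add (add (add (sub (add (add (sub (sub (sub C x16293) x16285) x16309) x16399) x16507) x16129) x15319) x17263) x13375) x19207) x11917) x9731)
  (sub (sub (add (add (add (add (sub (add (add (sub (add (add (sub C x16291) x16281) x16305) x16311) x16401) x16509) x16131) x15321) x17265) x13377) x19209) x11919) x3173)
  (add (add (sub (add (add (add (add (sub (add (add (sub (sub (sub C x16305) x16289) x16337) x16409) x16517) x16139) x15329) x17273) x13385) x19217) x11927) x3177) x9739)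
  (sub (sub (add (add (add (add (sub (add (add (sub (add (add (sub C x16301) x16281) x16293) x16341) x16413) x16521) x16143) x15333) x17277) x13389) x19221) x11931) x3185)
  (sub (sub (add (add (add (add (sub (sub (sub (add (add (sub C x16311) x16321) x16333) x16291) x16363) x16147) x15337) x17281) x13393) x19225) x11935) x9749)
  (sub (sub (add (add (add (add (sub (sub (sub (sub (sub C x16309) x16317) x16293) x16365) x16149) x15339) x17283) x13395) x19227) x11937) x3191)
  (sub (sub (add (add (add (add (sub (sub (add (add (sub (add (add C x16321) x16325) x16311) x16281) x16353) x16371) x16155) x15345) x17289) x13401) x19233) x11943) x3197)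
  (sub (sub (add (add (add (add (sub (sub (add (add (add (add (add (add C x16317) x16325) x16309) x16333) x16285) x16357) x16375) x16159) x15349) x17293) x13405) x19237) x11947) x9761)
  (add (add (sub (add (add (add (add (sub (sub (add (add (sub (add (add C x16317) x16321) x16331) x16289) x16361) x16379) x16163) x15353) x17297) x13409) x19241) x11951) x3201) x9763)
  (add (add (sub (add (add (add (add (sub (sub (sub (sub (sub C x16333) x16325) x16349) x16385) x16169) x15359) x17303) x13415) x19247) x11957) x3207) x9769)
  (sub (sub (add (add (add (add (sub (sub (sub (add (add (sub C x16331) x16309) x16321) x16351) x16387) x16171) x15361) x17305) x13417) x19249) x11959) x9773)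
  (add (add (sub (add (add (add (add (sub (sub (sub (add (add (sub C x16341) x16349) x16361) x16301) x16445) x16175) x15365) x17309) x13421) x19253) x11963) x3213) x9775)
  (sub (sub (add (add (add (add (sub (sub (sub (sub (sub C x16337) x16353) x16305) x16449) x16179) x15369) x17313) x13425) x19257) x11967) x3221)
  (add (add (sub (add (add (add (add (sub (sub (sub (add (add (sub C x16351) x16337) x16361) x16331) x16457) x16187) x15377) x17321) x13433) x19265) x11975) x3225) x9787)
  (sub (sub (add (add (add (add (sub (sub (sub (sub (sub C x16349) x16357) x16333) x16459) x16189) x15379) x17323) x13435) x19267) x11977) x9791)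
  (sub (sub (add (add (add (add (sub (sub (add (add (sub (add (add C x16357) x16361) x16341) x16281) x16317) x16461) x16191) x15381) x17325) x13437) x19269) x11979) x3233)
  (sub (sub (add (add (add (add (sub (sub (add (add (sub (add (add C x16353) x16361) x16351) x16285) x16321) x16465) x16195) x15385) x17329) x13441) x19273) x11983) x9797)
  (add (add (sub (add (add (add (add (sub (sub (add (add (add (add (add (add C x16353) x16357) x16337) x16349) x16289) x16325) x16469) x16199) x15389) x17333) x13445) x19277) x11987) x3237) x9799)
  (sub (sub (add (add (add (add (add (add (sub (add (add (add (add (sub C x16365) x16375) x16387) x16399) x16435) x16309) x16039) x16687) x15391) x17335) x13447) x19279) x11989) x9803)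
  (sub (sub (add (add (add (add (add (add (sub (add (add (sub (sub C x16363) x16371) x16401) x16437) x16311) x16041) x16689) x15393) x17337) x13449) x19281) x11991) x3245)
  (sub (sub (add (add (add (add (add (add (sub (sub (sub (add (add C x16375) x16379) x16365) x16389) x16317) x16047) x16695) x15399) x17343) x13455) x19287) x11997) x3251)
  (sub (sub (add (add (add (add (add (add (sub (sub (add (add (add (add C x16371) x16379) x16363) x16387) x16393) x16321) x16051) x16699) x15403) x17347) x13459) x19291) x12001) x9815)
  (add (add (sub (add (add (add (add (add (add (sub (sub (sub (add (add C x16371) x16375) x16385) x16397) x16325) x16055) x16703) x15407) x17351) x13463) x19295) x12005) x3255) x9817)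
  (add (add (sub (add (add (add (add (add (add (sub (sub (sub (sub C x16387) x16379) x16421) x16331) x16061) x16709) x15413) x17357) x13469) x19301) x12011) x3261) x9823)
  (sub (sub (add (add (add (add (add (add (sub (sub (add (add (sub C x16385) x16363) x16375) x16423) x16333) x16063) x16711) x15415) x17359) x13471) x19303) x12013) x9827)
  (sub (sub (add (add (add (add (add (add (add (add (sub (add (add (add (add C x16393) x16397) x16401) x16413) x16371) x16281) x16497) x16065) x16713) x15417) x17361) x13473) x19305) x12015) x3269)
  (sub (sub (add (add (add (add (add (add (add (add (sub (sub (add (add C x16389) x16397) x16399) x16375) x16285) x16501) x16069) x16717) x15421) x17365) x13477) x19309) x12019) x9833)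
  (add (add (sub (add (add (add (add (add (add (add (add (sub (sub (add (add C x16389) x16393) x16409) x16379) x16289) x16505) x16073) x16721) x15425) x17369) x13481) x19313) x12023) x3273) x9835)
  (sub (sub (add (add (add (add (add (add (add (add (add (add (sub (sub C x16401) x16393) x16363) x16435) x16291) x16507) x16075) x16723) x15427) x17371) x13483) x19315) x12025) x9839)
  (sub (sub (add (add (add (add (add (add (add (add (add (add (add (add (sub C x16399) x16389) x16413) x16365) x16437) x16293) x16509) x16077) x16725) x15429) x17373) x13485) x19317) x12027) x3281)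
  (add (add (sub (add (add (add (add (add (add (add (add (sub (sub (sub C x16413) x16397) x16427) x16301) x16517) x16085) x16733) x15437) x17381) x13493) x19325) x12035) x3285) x9847)
  (sub (sub (add (add (add (add (add (add (add (add (sub (add (add (sub C x16409) x16389) x16401) x16431) x16305) x16521) x16089) x16737) x15441) x17385) x13497) x19329) x12039) x3293)
  (add (add (sub (add (add (add (add (add (add (sub (sub (sub (sub C x16423) x16427) x16385) x16475) x16097) x16745) x15449) x17393) x13505) x19337) x12047) x3297) x9859)
  (sub (sub (add (add (add (add (add (add (sub (sub (sub (sub C x16421) x16435) x16387) x16477) x16099) x16747) x15451) x17395) x13507) x19339) x12049) x9863)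
  (add (add (sub (add (add (add (add (add (add (sub (sub (sub (sub C x16431) x16421) x16409) x16481) x16103) x16751) x15455) x17399) x13511) x19343) x12053) x3303) x9865)
  (sub (sub (add (add (add (add (add (add (sub (sub (sub (sub C x16427) x16437) x16413) x16485) x16107) x16755) x15459) x17403) x13515) x19347) x12057) x3311)
  (sub (sub (add (add (add (add (add (add (sub (add (add (sub (sub C x16437) x16423) x16363) x16399) x16489) x16111) x16759) x15463) x17407) x13519) x19351) x12061) x9875)
  (sub (sub (add (add (add (add (add (add (sub (add (add (sub (sub C x16435) x16431) x16365) x16401) x16491) x16113) x16761) x15465) x17409) x13521) x19353) x12063) x3317)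
  (add (add (sub (add (add (add (add (sub (sub (add (add (add (add (sub C x16449) x16457) x16469) x16481) x16517) x16337) x16607) x15473) x17417) x13529) x19361) x12071) x3321) x9883)
  (sub (sub (add (add (add (add (sub (sub (add (add (sub (sub C x16445) x16461) x16485) x16521) x16341) x16611) x15477) x17421) x13533) x19365) x12075) x3329)
  (add (add (sub (add (add (add (add (sub (sub (sub (add (add (sub C x16459) x16445) x16469) x16475) x16349) x16619) x15485) x17429) x13541) x19373) x12083) x3333) x9895)
  (sub (sub (add (add (add (add (sub (sub (sub (sub (sub C x16457) x16465) x16477) x16351) x16621) x15487) x17431) x13543) x19375) x12085) x9899)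
  (sub (sub (add (add (add (add (sub (sub (sub (sub (add (add C x16465) x16469) x16449) x16497) x16353) x16623) x15489) x17433) x13545) x19377) x12087) x3341)
  (sub (sub (add (add (add (add (sub (sub (sub (sub (add (add C x16461) x16469) x16459) x16501) x16357) x16627) x15493) x17437) x13549) x19381) x12091) x9905)
  (add (add (sub (add (add (add (add (sub (sub (sub (add (add (add (add C x16461) x16465) x16445) x16457) x16505) x16361) x16631) x15497) x17441) x13553) x19385) x12095) x3345) x9907)
  (add (add (sub (add (add (add (add (sub (sub (sub (sub (sub C x16477) x16481) x16457) x16421) x16637) x15503) x17447) x13559) x19391) x12101) x3351) x9913)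
  (sub (sub (add (add (add (add (sub (sub (sub (sub (sub C x16475) x16489) x16459) x16423) x16639) x15505) x17449) x13561) x19393) x12103) x9917)
  (add (add (sub (add (add (add (add (sub (sub (add (add (sub (sub C x16485) x16475) x16445) x16517) x16427) x16643) x15509) x17453) x13565) x19397) x12107) x3357) x9919)
  (sub (sub (add (add (add (add (sub (sub (add (add (sub (sub C x16481) x16491) x16449) x16521) x16431) x16647) x15513) x17457) x13569) x19401) x12111) x3365)
  (sub (sub (add (add (add (add (sub (sub (sub (sub (sub C x16491) x16477) x16507) x16435) x16651) x15517) x17461) x13573) x19405) x12115) x9929)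
  (sub (sub (add (add (add (add (sub (sub (sub (sub (sub C x16489) x16485) x16509) x16437) x16653) x15519) x17463) x13575) x19407) x12117) x3371)
  (sub (sub (add (add (add (add (sub (add (add (sub (add (add (add (add C x16501) x16505) x16509) x16521) x16461) x16281) x16389) x16659) x15525) x17469) x13581) x19413) x12123) x3377)
  (sub (sub (add (add (add (add (sub (add (add (sub (sub (add (add C x16497) x16505) x16507) x16465) x16285) x16393) x16663) x15529) x17473) x13585) x19417) x12127) x9941)
  (add (add (sub (add (add (add (add (sub (add (add (sub (sub (add (add C x16497) x16501) x16517) x16469) x16289) x16397) x16667) x15533) x17477) x13589) x19421) x12131) x3381) x9943)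
  (sub (sub (add (add (add (add (sub (add (add (sub (sub (sub C x16509) x16501) x16489) x16291) x16399) x16669) x15535) x17479) x13591) x19423) x12133) x9947)
  (sub (sub (add (add (add (add (sub (add (add (sub (add (add (sub C x16507) x16497) x16521) x16491) x16293) x16401) x16671) x15537) x17481) x13593) x19425) x12135) x3389)
  (add (add (sub (add (add (add (add (sub (add (add (add (add (sub (sub C x16521) x16505) x16445) x16481) x16301) x16409) x16679) x15545) x17489) x13601) x19433) x12143) x3393) x9955)
  (sub (sub (add (add (add (add (sub (add (add (add (add (add (add (sub C x16517) x16497) x16509) x16449) x16485) x16305) x16413) x16683) x15549) x17493) x13605) x19437) x12147) x3401)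
  (add (add (sub (add (add (sub (sub (add (add (add (add (sub (sub C x16531) x16535) x16565) x16601) x16637) x16745) x16205) x17015) x13613) x19445) x12155) x3405) x9967)
  (sub (sub (add (add (sub (sub (add (add (add (add (sub (sub C x16529) x16543) x16567) x16603) x16639) x16747) x16207) x17017) x13615) x19447) x12157) x9971)
  (add (add (sub (add (add (sub (sub (add (add (sub (sub (sub C x16539) x16529) x16553) x16643) x16751) x16211) x17021) x13619) x19451) x12161) x3411) x9973)
  (sub (sub (add (add (sub (sub (add (add (sub (sub (sub C x16535) x16545) x16557) x16647) x16755) x16215) x17025) x13623) x19455) x12165) x3419)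
  (sub (sub (add (add (sub (sub (add (add (sub (sub (sub C x16545) x16531) x16579) x16651) x16759) x16219) x17029) x13627) x19459) x12169) x9983)
  (sub (sub (add (add (sub (sub (add (add (sub (sub (sub C x16543) x16539) x16581) x16653) x16761) x16221) x17031) x13629) x19461) x12171) x3425)
  (add (add (sub (add (add (sub (sub (sub (sub (add (add (sub C x16557) x16565) x16577) x16535) x16607) x16229) x17039) x13637) x19469) x12179) x3429) x9991)
  (sub (sub (add (add (sub (sub (sub (sub (sub (sub C x16553) x16569) x16539) x16611) x16233) x17043) x13641) x19473) x12183) x3437)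
  (add (add (sub (add (add (sub (sub (sub (add (add (add (add (sub C x16567) x16553) x16577) x16529) x16601) x16619) x16241) x17051) x13649) x19481) x12191) x3441) x10003)
  (sub (sub (add (add (sub (sub (sub (add (add (sub (sub C x16565) x16573) x16531) x16603) x16621) x16243) x17053) x13651) x19483) x12193) x10007)
  (sub (sub (add (add (sub (sub (sub (sub (sub (add (add C x16573) x16577) x16557) x16587) x16623) x16245) x17055) x13653) x19485) x12195) x3449)
  (sub (sub (add (add (sub (sub (sub (sub (sub (add (add C x16569) x16577) x16567) x16591) x16627) x16249) x17059) x13657) x19489) x12199) x10013)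
  (add (add (sub (add (add (sub (sub (sub (sub (add (add (add (add C x16569) x16573) x16553) x16565) x16595) x16631) x16253) x17063) x13661) x19493) x12203) x3453) x10015)
  (sub (sub (add (add (sub (sub (sub (sub (add (add (sub C x16581) x16591) x16603) x16543) x16687) x16255) x17065) x13663) x19495) x12205) x10019)
  (sub (sub (add (add (sub (sub (sub (sub (sub (sub C x16579) x16587) x16545) x16689) x16257) x17067) x13665) x19497) x12207) x3461)
  (sub (sub (add (add (sub (sub (sub (sub (sub (add (add C x16591) x16595) x16581) x16569) x16695) x16263) x17073) x13671) x19503) x12213) x3467)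
  (sub (sub (add (add (sub (sub (sub (sub (add (add (add (add C x16587) x16595) x16579) x16603) x16573) x16699) x16267) x17077) x13675) x19507) x12217) x10031)
  (add (add (sub (add (add (sub (sub (sub (sub (sub (add (add C x16587) x16591) x16601) x16577) x16703) x16271) x17081) x13679) x19511) x12221) x3471) x10033)
  (add (add (sub (add (add (sub (sub (sub (add (add (sub (sub C x16603) x16595) x16529) x16565) x16709) x16277) x17087) x13685) x19517) x12227) x3477) x10039)
  (sub (sub (add (add (sub (sub (sub (add (add (add (add (sub C x16601) x16579) x16591) x16531) x16567) x16711) x16279) x17089) x13687) x19519) x12229) x10043)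
  (add (add (sub (add (add (sub (sub (sub (add (add (add (add (sub C x16611) x16619) x16631) x16643) x16679) x16553) x16445) x17093) x13691) x19523) x12233) x3483) x10045)
  (sub (sub (add (add (sub (sub (sub (add (add (sub (sub C x16607) x16623) x16647) x16683) x16557) x16449) x17097) x13695) x19527) x12237) x3491)
  (add (add (sub (add (add (sub (sub (sub (sub (add (add (sub C x16621) x16607) x16631) x16637) x16565) x16457) x17105) x13703) x19535) x12245) x3495) x10057)
  (sub (sub (add (add (sub (sub (sub (sub (sub (sub C x16619) x16627) x16639) x16567) x16459) x17107) x13705) x19537) x12247) x10061)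
  (sub (sub (add (add (sub (sub (sub (sub (sub (add (add C x16627) x16631) x16611) x16659) x16569) x16461) x17109) x13707) x19539) x12249) x3503)
  (sub (sub (add (add (sub (sub (sub (sub (sub (add (add C x16623) x16631) x16621) x16663) x16573) x16465) x17113) x13711) x19543) x12253) x10067)
  (add (add (sub (add (add (sub (sub (sub (sub (add (add (add (add C x16623) x16627) x16607) x16619) x16667) x16577) x16469) x17117) x13715) x19547) x12257) x3507) x10069)
  (add (add (sub (add (add (sub (sub (add (add (sub (sub (sub C x16639) x16643) x16619) x16529) x16745) x16475) x17123) x13721) x19553) x12263) x3513) x10075)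
  (sub (sub (add (add (sub (sub (add (add (sub (sub (sub C x16637) x16651) x16621) x16531) x16747) x16477) x17125) x13723) x19555) x12265) x10079)
  (add (add (sub (add (add (sub (sub (add (add (add (add (sub (sub C x16647) x16637) x16607) x16679) x16535) x16751) x16481) x17129) x13727) x19559) x12269) x3519) x10081)
  (sub (sub (add (add (sub (sub (add (add (add (add (sub (sub C x16643) x16653) x16611) x16683) x16539) x16755) x16485) x17133) x13731) x19563) x12273) x3527)
  (sub (sub (add (add (sub (sub (add (add (sub (sub (sub C x16653) x16639) x16669) x16543) x16759) x16489) x17137) x13735) x19567) x12277) x10091)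
  (sub (sub (add (add (sub (sub (add (add (sub (sub (sub C x16651) x16647) x16671) x16545) x16761) x16491) x17139) x13737) x19569) x12279) x3533)
  (sub (sub (add (add (sub (sub (sub (sub (add (add (add (add C x16663) x16667) x16671) x16683) x16623) x16713) x16497) x17145) x13743) x19575) x12285) x3539)
  (sub (sub (add (add (sub (sub (sub (sub (sub (add (add C x16659) x16667) x16669) x16627) x16717) x16501) x17149) x13747) x19579) x12289) x10103)
  (add (add (sub (add (add (sub (sub (sub (sub (sub (add (add C x16659) x16663) x16679) x16631) x16721) x16505) x17153) x13751) x19583) x12293) x3543) x10105)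
  (sub (sub (add (add (sub (sub (sub (sub (sub (sub C x16671) x16663) x16651) x16723) x16507) x17155) x13753) x19585) x12295) x10109)
  (sub (sub (add (add (sub (sub (sub (sub (add (add (sub C x16669) x16659) x16683) x16653) x16725) x16509) x17157) x13755) x19587) x12297) x3551)
  (add (add (sub (add (add (sub (sub (sub (add (add (sub (sub C x16683) x16667) x16607) x16643) x16733) x16517) x17165) x13763) x19595) x12305) x3555) x10117)
  (sub (sub (add (add (sub (sub (sub (add (add (add (add (sub C x16679) x16659) x16671) x16611) x16647) x16737) x16521) x17169) x13767) x19599) x12309) x3563)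
  (sub (sub (add (add (sub (add (add (sub (add (add (add (add (sub C x16689) x16699) x16711) x16723) x16759) x16579) x16039) x16363) x17173) x13771) x19603) x12313) x10127)
  (sub (sub (add (add (sub (add (add (sub (add (add (sub (sub C x16687) x16695) x16725) x16761) x16581) x16041) x16365) x17175) x13773) x19605) x12315) x3569)
  (sub (sub (add (add (sub (add (add (sub (sub (sub (add (add C x16699) x16703) x16689) x16713) x16587) x16047) x16371) x17181) x13779) x19611) x12321) x3575)
  (sub (sub (add (add (sub (add (add (sub (sub (add (add (add (add C x16695) x16703) x16687) x16711) x16717) x16591) x16051) x16375) x17185) x13783) x19615) x12325) x10139)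
  (add (add (sub (add (add (sub (add (add (sub (sub (sub (add (add C x16695) x16699) x16709) x16721) x16595) x16055) x16379) x17189) x13787) x19619) x12329) x3579) x10141)
  (add (add (sub (add (add (sub (add (add (sub (sub (sub (sub C x16711) x16703) x16745) x16601) x16061) x16385) x17195) x13793) x19625) x12335) x3585) x10147)
  (sub (sub (add (add (sub (add (add (sub (sub (add (add (sub C x16709) x16687) x16699) x16747) x16603) x16063) x16387) x17197) x13795) x19627) x12337) x10151)
  (sub (sub (add (add (sub (add (add (sub (sub (add (add (add (add C x16717) x16721) x16725) x16737) x16695) x16659) x16065) x16389) x17199) x13797) x19629) x12339) x3593)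
  (sub (sub (add (add (sub (add (add (sub (sub (sub (add (add C x16713) x16721) x16723) x16699) x16663) x16069) x16393) x17203) x13801) x19633) x12343) x10157)
  (add (add (sub (add (add (sub (add (add (sub (sub (sub (add (add C x16713) x16717) x16733) x16703) x16667) x16073) x16397) x17207) x13805) x19637) x12347) x3597) x10159)
  (sub (sub (add (add (sub (add (add (sub (add (add (sub (sub C x16725) x16717) x16687) x16759) x16669) x16075) x16399) x17209) x13807) x19639) x12349) x10163)
  (sub (sub (add (add (sub (add (add (sub (add (add (add (add (sub C x16723) x16713) x16737) x16689) x16761) x16671) x16077) x16401) x17211) x13809) x19641) x12351) x3605)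
  (add (add (sub (add (add (sub (add (add (sub (sub (sub (sub C x16737) x16721) x16751) x16679) x16085) x16409) x17219) x13817) x19649) x12359) x3609) x10171)
  (sub (sub (add (add (sub (add (add (sub (sub (add (add (sub C x16733) x16713) x16725) x16755) x16683) x16089) x16413) x17223) x13821) x19653) x12363) x3617)
  (add (add (sub (add (add (sub (add (add (add (add (sub (sub (sub C x16747) x16751) x16709) x16529) x16637) x16097) x16421) x17231) x13829) x19661) x12371) x3621) x10183)
  (sub (sub (add (add (sub (add (add (add (add (sub (sub (sub C x16745) x16759) x16711) x16531) x16639) x16099) x16423) x17233) x13831) x19663) x12373) x10187)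
  (add (add (sub (add (add (sub (add (add (add (add (sub (sub (sub C x16755) x16745) x16733) x16535) x16643) x16103) x16427) x17237) x13835) x19667) x12377) x3627) x10189)
  (sub (sub (add (add (sub (add (add (add (add (sub (sub (sub C x16751) x16761) x16737) x16539) x16647) x16107) x16431) x17241) x13839) x19671) x12381) x3635)
  (sub (sub (add (add (sub (add (add (add (add (add (add (sub (sub C x16761) x16747) x16687) x16723) x16543) x16651) x16111) x16435) x17245) x13843) x19675) x12385) x10199)
  (sub (sub (add (add (sub (add (add (add (add (add (add (sub (sub C x16759) x16755) x16689) x16725) x16545) x16653) x16113) x16437) x17247) x13845) x19677) x12387) x3641)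
  (add (add (sub (sub (sub (add (add (add (add (add (add (add (add (sub C x16773) x16781) x16793) x16805) x16841) x16877) x16985) x17093) x17417) x15797) x18227) x12395) x3645) x10207)
  (sub (sub (sub (sub (add (add (add (add (add (add (sub (sub C x16769) x16785) x16809) x16845) x16881) x16989) x17097) x17421) x15801) x18231) x12399) x3653)
  (add (add (sub (sub (sub (add (add (add (add (sub (add (add (sub C x16783) x16769) x16793) x16799) x16889) x16997) x17105) x17429) x15809) x18239) x12407) x3657) x10219)
  (sub (sub (sub (sub (add (add (add (add (sub (sub (sub C x16781) x16789) x16801) x16891) x16999) x17107) x17431) x15811) x18241) x12409) x10223)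
  (sub (sub (sub (sub (add (add (add (add (sub (sub (add (add C x16789) x16793) x16773) x16821) x16893) x17001) x17109) x17433) x15813) x18243) x12411) x3665)
  (sub (sub (sub (sub (add (add (add (add (sub (sub (add (add C x16785) x16793) x16783) x16825) x16897) x17005) x17113) x17437) x15817) x18247) x12415) x10229)
  (add (add (sub (sub (sub (add (add (add (add (sub (add (add (add (add C x16785) x16789) x16769) x16781) x16829) x16901) x17009) x17117) x17441) x15821) x18251) x12419) x3669) x10231)
  (add (add (sub (sub (sub (add (add (sub (sub (sub (sub C x16801) x16805) x16781) x16853) x17123) x17447) x15827) x18257) x12425) x3675) x10237)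
  (sub (sub (sub (sub (add (add (sub (sub (sub (sub C x16799) x16813) x16783) x16855) x17125) x17449) x15829) x18259) x12427) x10241)
  (add (add (sub (sub (sub (add (add (sub (add (add (sub (sub C x16809) x16799) x16769) x16841) x16859) x17129) x17453) x15833) x18263) x12431) x3681) x10243)
  (sub (sub (sub (sub (add (add (sub (add (add (sub (sub C x16805) x16815) x16773) x16845) x16863) x17133) x17457) x15837) x18267) x12435) x3689)
  (sub (sub (sub (sub (add (add (sub (sub (sub (sub C x16815) x16801) x16831) x16867) x17137) x17461) x15841) x18271) x12439) x10253)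
  (sub (sub (sub (sub (add (add (sub (sub (sub (sub C x16813) x16809) x16833) x16869) x17139) x17463) x15843) x18273) x12441) x3695)
  (sub (sub (sub (sub (add (add (sub (sub (add (add (add (add C x16825) x16829) x16833) x16845) x16785) x16929) x17145) x17469) x15849) x18279) x12447) x3701)
  (sub (sub (sub (sub (add (add (sub (sub (sub (add (add C x16821) x16829) x16831) x16789) x16933) x17149) x17473) x15853) x18283) x12451) x10265)
  (add (add (sub (sub (sub (add (add (sub (sub (sub (add (add C x16821) x16825) x16841) x16793) x16937) x17153) x17477) x15857) x18287) x12455) x3705) x10267)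
  (sub (sub (sub (sub (add (add (sub (sub (sub (sub C x16833) x16825) x16813) x16939) x17155) x17479) x15859) x18289) x12457) x10271)
  (sub (sub (sub (sub (add (add (sub (sub (add (add (sub C x16831) x16821) x16845) x16815) x16941) x17157) x17481) x15861) x18291) x12459) x3713)
  (add (add (sub (sub (sub (add (add (sub (add (add (sub (sub C x16845) x16829) x16769) x16805) x16949) x17165) x17489) x15869) x18299) x12467) x3717) x10279)
  (sub (sub (sub (sub (add (add (sub (add (add (add (add (sub C x16841) x16821) x16833) x16773) x16809) x16953) x17169) x17493) x15873) x18303) x12471) x3725)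
  (add (add (sub (sub (sub (sub (sub (add (add (sub (sub C x16855) x16859) x16889) x16925) x16799) x17015) x15881) x18311) x12479) x3729) x10291)
  (sub (sub (sub (sub (sub (sub (add (add (sub (sub C x16853) x16867) x16891) x16927) x16801) x17017) x15883) x18313) x12481) x10295)
  (add (add (sub (sub (sub (sub (sub (sub (sub (sub C x16863) x16853) x16877) x16805) x17021) x15887) x18317) x12485) x3735) x10297)
  (sub (sub (sub (sub (sub (sub (sub (sub (sub C x16859) x16869) x16881) x16809) x17025) x15891) x18321) x12489) x3743)
  (sub (sub (sub (sub (sub (sub (sub (sub (sub C x16869) x16855) x16903) x16813) x17029) x15895) x18325) x12493) x10307)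
  (sub (sub (sub (sub (sub (sub (sub (sub (sub C x16867) x16863) x16905) x16815) x17031) x15897) x18327) x12495) x3749)
  (add (add (sub (sub (sub (sub (add (add (sub (add (add (sub C x16881) x16889) x16901) x16859) x16769) x16985) x17039) x15905) x18335) x12503) x3753) x10315)
  (sub (sub (sub (sub (sub (add (add (sub (sub (sub C x16877) x16893) x16863) x16773) x16989) x17043) x15909) x18339) x12507) x3761)
  (add (add (sub (sub (sub (sub (add (add (add (add (add (add (sub C x16891) x16877) x16901) x16853) x16925) x16781) x16997) x17051) x15917) x18347) x12515) x3765) x10327)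
  (sub (sub (sub (sub (sub (add (add (add (add (sub (sub C x16889) x16897) x16855) x16927) x16783) x16999) x17053) x15919) x18349) x12517) x10331)
  (sub (sub (sub (sub (sub (add (add (sub (sub (add (add C x16897) x16901) x16881) x16911) x16785) x17001) x17055) x15921) x18351) x12519) x3773)
  (sub (sub (sub (sub (sub (add (add (sub (sub (add (add C x16893) x16901) x16891) x16915) x16789) x17005) x17059) x15925) x18355) x12523) x10337)
  (add (add (sub (sub (sub (sub (add (add (sub (add (add (add (add C x16893) x16897) x16877) x16889) x16919) x16793) x17009) x17063) x15929) x18359) x12527) x3777) x10339)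
  (sub (sub (sub (sub (sub (sub (sub (add (add (sub C x16905) x16915) x16927) x16867) x16957) x17065) x15931) x18361) x12529) x10343)
  (sub (sub (sub (sub (sub (sub (sub (sub (sub C x16903) x16911) x16869) x16959) x17067) x15933) x18363) x12531) x3785)
  (sub (sub (sub (sub (sub (sub (sub (sub (add (add C x16915) x16919) x16905) x16893) x16965) x17073) x15939) x18369) x12537) x3791)
  (sub (sub (sub (sub (sub (sub (sub (add (add (add (add C x16911) x16919) x16903) x16927) x16897) x16969) x17077) x15943) x18373) x12541) x10355)
  (add (add (sub (sub (sub (sub (sub (sub (sub (add (add C x16911) x16915) x16925) x16901) x16973) x17081) x15947) x18377) x12545) x3795) x10357)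
  (add (add (sub (sub (sub (sub (sub (add (add (sub (sub C x16927) x16919) x16853) x16889) x16979) x17087) x15953) x18383) x12551) x3801) x10363)
  (sub (sub (sub (sub (sub (sub (add (add (add (add (sub C x16925) x16903) x16915) x16855) x16891) x16981) x17089) x15955) x18385) x12553) x10367)
  (sub (sub (sub (sub (sub (sub (add (add (add (add (add (add C x16933) x16937) x16941) x16953) x16965) x17001) x16821) x17253) x15957) x18387) x12555) x3809)
  (sub (sub (sub (sub (sub (sub (add (add (sub (add (add C x16929) x16937) x16939) x16969) x17005) x16825) x17257) x15961) x18391) x12559) x10373)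
  (add (add (sub (sub (sub (sub (sub (add (add (sub (add (add C x16929) x16933) x16949) x16973) x17009) x16829) x17261) x15965) x18395) x12563) x3813) x10375)
  (sub (sub (sub (sub (sub (sub (sub (sub (sub C x16941) x16933) x16957) x16831) x17263) x15967) x18397) x12565) x10379)
  (sub (sub (sub (sub (sub (sub (sub (add (add (sub C x16939) x16929) x16953) x16959) x16833) x17265) x15969) x18399) x12567) x3821)
  (add (add (sub (sub (sub (sub (sub (sub (sub (sub C x16953) x16937) x16985) x16841) x17273) x15977) x18407) x12575) x3825) x10387)
  (sub (sub (sub (sub (sub (sub (sub (add (add (sub C x16949) x16929) x16941) x16989) x16845) x17277) x15981) x18411) x12579) x3833)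
  (sub (sub (sub (sub (sub (sub (sub (add (add (sub C x16959) x16969) x16981) x16939) x16903) x17281) x15985) x18415) x12583) x10397)
  (sub (sub (sub (sub (sub (sub (sub (sub (sub C x16957) x16965) x16941) x16905) x17283) x15987) x18417) x12585) x3839)
  (sub (sub (sub (sub (sub (sub (add (add (sub (add (add C x16969) x16973) x16959) x16929) x17001) x16911) x17289) x15993) x18423) x12591) x3845)
  (sub (sub (sub (sub (sub (sub (add (add (add (add (add (add C x16965) x16973) x16957) x16981) x16933) x17005) x16915) x17293) x15997) x18427) x12595) x10409)
  (add (add (sub (sub (sub (sub (sub (add (add (sub (add (add C x16965) x16969) x16979) x16937) x17009) x16919) x17297) x16001) x18431) x12599) x3849) x10411)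
  (add (add (sub (sub (sub (sub (sub (sub (sub (sub C x16981) x16973) x16997) x16925) x17303) x16007) x18437) x12605) x3855) x10417)
  (sub (sub (sub (sub (sub (sub (sub (add (add (sub C x16979) x16957) x16969) x16999) x16927) x17305) x16009) x18439) x12607) x10421)
  (add (add (sub (sub (sub (sub (add (add (sub (add (add (sub C x16989) x16997) x17009) x16949) x16769) x16877) x17309) x16013) x18443) x12611) x3861) x10423)
  (sub (sub (sub (sub (sub (add (add (sub (sub (sub C x16985) x17001) x16953) x16773) x16881) x17313) x16017) x18447) x12615) x3869)
  (add (add (sub (sub (sub (sub (add (add (sub (add (add (sub C x16999) x16985) x17009) x16979) x16781) x16889) x17321) x16025) x18455) x12623) x3873) x10435)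
  (sub (sub (sub (sub (sub (add (add (sub (sub (sub C x16997) x17005) x16981) x16783) x16891) x17323) x16027) x18457) x12625) x10439)
  (sub (sub (sub (sub (sub (add (add (add (add (sub (add (add C x17005) x17009) x16989) x16929) x16965) x16785) x16893) x17325) x16029) x18459) x12627) x3881)
  (sub (sub (sub (sub (sub (add (add (add (add (sub (add (add C x17001) x17009) x16999) x16933) x16969) x16789) x16897) x17329) x16033) x18463) x12631) x10445)
  (add (add (sub (sub (sub (sub (add (add (add (add (add (add (add (add C x17001) x17005) x16985) x16997) x16937) x16973) x16793) x16901) x17333) x16037) x18467) x12635) x3885) x10447)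
  (add (add (sub (sub (sub (sub (add (add (add (add (sub (sub C x17017) x17021) x17051) x17087) x17123) x17231) x16853) x16529) x18473) x12641) x3891) x10453)
  (sub (sub (sub (sub (sub (add (add (add (add (sub (sub C x17015) x17029) x17053) x17089) x17125) x17233) x16855) x16531) x18475) x12643) x10457)
  (add (add (sub (sub (sub (sub (add (add (sub (sub (sub C x17025) x17015) x17039) x17129) x17237) x16859) x16535) x18479) x12647) x3897) x10459)
  (sub (sub (sub (sub (sub (add (add (sub (sub (sub C x17021) x17031) x17043) x17133) x17241) x16863) x16539) x18483) x12651) x3905)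
  (sub (sub (sub (sub (sub (add (add (sub (sub (sub C x17031) x17017) x17065) x17137) x17245) x16867) x16543) x18487) x12655) x10469)
  (sub (sub (sub (sub (sub (add (add (sub (sub (sub C x17029) x17025) x17067) x17139) x17247) x16869) x16545) x18489) x12657) x3911)
  (add (add (sub (sub (sub (sub (sub (sub (add (add (sub C x17043) x17051) x17063) x17021) x17093) x16877) x16553) x18497) x12665) x3915) x10477)
  (sub (sub (sub (sub (sub (sub (sub (sub (sub C x17039) x17055) x17025) x17097) x16881) x16557) x18501) x12669) x3923)
  (add (add (sub (sub (sub (sub (sub (add (add (add (add (sub C x17053) x17039) x17063) x17015) x17087) x17105) x16889) x16565) x18509) x12677) x3927) x10489)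
  (sub (sub (sub (sub (sub (sub (add (add (sub (sub C x17051) x17059) x17017) x17089) x17107) x16891) x16567) x18511) x12679) x10493)
  (sub (sub (sub (sub (sub (sub (sub (sub (add (add C x17059) x17063) x17043) x17073) x17109) x16893) x16569) x18513) x12681) x3935)
  (sub (sub (sub (sub (sub (sub (sub (sub (add (add C x17055) x17063) x17053) x17077) x17113) x16897) x16573) x18517) x12685) x10499)
  (add (add (sub (sub (sub (sub (sub (sub (add (add (add (add C x17055) x17059) x17039) x17051) x17081) x17117) x16901) x16577) x18521) x12689) x3939) x10501)
  (sub (sub (sub (sub (sub (sub (sub (add (add (sub C x17067) x17077) x17089) x17029) x17173) x16903) x16579) x18523) x12691) x10505)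
  (sub (sub (sub (sub (sub (sub (sub (sub (sub C x17065) x17073) x17031) x17175) x16905) x16581) x18525) x12693) x3947)
  (sub (sub (sub (sub (sub (sub (sub (sub (add (add C x17077) x17081) x17067) x17055) x17181) x16911) x16587) x18531) x12699) x3953)
  (sub (sub (sub (sub (sub (sub (sub (add (add (add (add C x17073) x17081) x17065) x17089) x17059) x17185) x16915) x16591) x18535) x12703) x10517)
  (add (add (sub (sub (sub (sub (sub (sub (sub (add (add C x17073) x17077) x17087) x17063) x17189) x16919) x16595) x18539) x12707) x3957) x10519)
  (add (add (sub (sub (sub (sub (sub (add (add (sub (sub C x17089) x17081) x17015) x17051) x17195) x16925) x16601) x18545) x12713) x3963) x10525)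
  (sub (sub (sub (sub (sub (sub (add (add (add (add (sub C x17087) x17065) x17077) x17017) x17053) x17197) x16927) x16603) x18547) x12715) x10529)
  (add (add (sub (sub (sub (add (add (sub (add (add (add (add (sub C x17097) x17105) x17117) x17129) x17165) x17039) x16769) x17417) x16607) x18551) x12719) x3969) x10531)
  (sub (sub (sub (sub (add (add (sub (add (add (sub (sub C x17093) x17109) x17133) x17169) x17043) x16773) x17421) x16611) x18555) x12723) x3977)
  (add (add (sub (sub (sub (add (add (sub (sub (add (add (sub C x17107) x17093) x17117) x17123) x17051) x16781) x17429) x16619) x18563) x12731) x3981) x10543)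
  (sub (sub (sub (sub (add (add (sub (sub (sub (sub C x17105) x17113) x17125) x17053) x16783) x17431) x16621) x18565) x12733) x10547)
  (sub (sub (sub (sub (add (add (sub (sub (sub (add (add C x17113) x17117) x17097) x17145) x17055) x16785) x17433) x16623) x18567) x12735) x3989)
  (sub (sub (sub (sub (add (add (sub (sub (sub (add (add C x17109) x17117) x17107) x17149) x17059) x16789) x17437) x16627) x18571) x12739) x10553)
  (add (add (sub (sub (sub (add (add (sub (sub (add (add (add (add C x17109) x17113) x17093) x17105) x17153) x17063) x16793) x17441) x16631) x18575) x12743) x3993) x10555)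
  (add (add (sub (sub (sub (add (add (add (add (sub (sub (sub C x17125) x17129) x17105) x17015) x17231) x16799) x17447) x16637) x18581) x12749) x3999) x10561)
  (sub (sub (sub (sub (add (add (add (add (sub (sub (sub C x17123) x17137) x17107) x17017) x17233) x16801) x17449) x16639) x18583) x12751) x10565)
  (add (add (sub (sub (sub (add (add (add (add (add (add (sub (sub C x17133) x17123) x17093) x17165) x17021) x17237) x16805) x17453) x16643) x18587) x12755) x4005) x10567)
  (sub (sub (sub (sub (add (add (add (add (add (add (sub (sub C x17129) x17139) x17097) x17169) x17025) x17241) x16809) x17457) x16647) x18591) x12759) x4013)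
  (sub (sub (sub (sub (add (add (add (add (sub (sub (sub C x17139) x17125) x17155) x17029) x17245) x16813) x17461) x16651) x18595) x12763) x10577)
  (sub (sub (sub (sub (add (add (add (add (sub (sub (sub C x17137) x17133) x17157) x17031) x17247) x16815) x17463) x16653) x18597) x12765) x4019)
  (sub (sub (sub (sub (add (add (sub (sub (add (add (add (add C x17149) x17153) x17157) x17169) x17109) x17199) x16821) x17469) x16659) x18603) x12771) x4025)
  (sub (sub (sub (sub (add (add (sub (sub (sub (add (add C x17145) x17153) x17155) x17113) x17203) x16825) x17473) x16663) x18607) x12775) x10589)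
  (add (add (sub (sub (sub (add (add (sub (sub (sub (add (add C x17145) x17149) x17165) x17117) x17207) x16829) x17477) x16667) x18611) x12779) x4029) x10591)
  (sub (sub (sub (sub (add (add (sub (sub (sub (sub C x17157) x17149) x17137) x17209) x16831) x17479) x16669) x18613) x12781) x10595)
  (sub (sub (sub (sub (add (add (sub (sub (add (add (sub C x17155) x17145) x17169) x17139) x17211) x16833) x17481) x16671) x18615) x12783) x4037)
  (add (add (sub (sub (sub (add (add (sub (add (add (sub (sub C x17169) x17153) x17093) x17129) x17219) x16841) x17489) x16679) x18623) x12791) x4041) x10603)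
  (sub (sub (sub (sub (add (add (sub (add (add (add (add (sub C x17165) x17145) x17157) x17097) x17133) x17223) x16845) x17493) x16683) x18627) x12795) x4049)
  (sub (sub (sub (sub (sub (sub (add (add (add (add (sub C x17175) x17185) x17197) x17209) x17245) x17065) x17335) x16687) x18631) x12799) x10613)
  (sub (sub (sub (sub (sub (sub (add (add (sub (sub C x17173) x17181) x17211) x17247) x17067) x17337) x16689) x18633) x12801) x4055)
  (sub (sub (sub (sub (sub (sub (sub (sub (add (add C x17185) x17189) x17175) x17199) x17073) x17343) x16695) x18639) x12807) x4061)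
  (sub (sub (sub (sub (sub (sub (sub (add (add (add (add C x17181) x17189) x17173) x17197) x17203) x17077) x17347) x16699) x18643) x12811) x10625)
  (add (add (sub (sub (sub (sub (sub (sub (sub (add (add C x17181) x17185) x17195) x17207) x17081) x17351) x16703) x18647) x12815) x4065) x10627)
  (add (add (sub (sub (sub (sub (sub (sub (sub (sub C x17197) x17189) x17231) x17087) x17357) x16709) x18653) x12821) x4071) x10633)
  (sub (sub (sub (sub (sub (sub (sub (add (add (sub C x17195) x17173) x17185) x17233) x17089) x17359) x16711) x18655) x12823) x10637)
  (sub (sub (sub (sub (sub (sub (sub (add (add (add (add C x17203) x17207) x17211) x17223) x17181) x17145) x17361) x16713) x18657) x12825) x4079)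
  (sub (sub (sub (sub (sub (sub (sub (sub (add (add C x17199) x17207) x17209) x17185) x17149) x17365) x16717) x18661) x12829) x10643)
  (add (add (sub (sub (sub (sub (sub (sub (sub (add (add C x17199) x17203) x17219) x17189) x17153) x17369) x16721) x18665) x12833) x4083) x10645)
  (sub (sub (sub (sub (sub (sub (add (add (sub (sub C x17211) x17203) x17173) x17245) x17155) x17371) x16723) x18667) x12835) x10649)
  (sub (sub (sub (sub (sub (sub (add (add (add (add (sub C x17209) x17199) x17223) x17175) x17247) x17157) x17373) x16725) x18669) x12837) x4091)
  (add (add (sub (sub (sub (sub (sub (sub (sub (sub C x17223) x17207) x17237) x17165) x17381) x16733) x18677) x12845) x4095) x10657)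
  (sub (sub (sub (sub (sub (sub (sub (add (add (sub C x17219) x17199) x17211) x17241) x17169) x17385) x16737) x18681) x12849) x4103)
  (add (add (sub (sub (sub (sub (add (add (sub (sub (sub C x17233) x17237) x17195) x17015) x17123) x17393) x16745) x18689) x12857) x4107) x10669)
  (sub (sub (sub (sub (sub (add (add (sub (sub (sub C x17231) x17245) x17197) x17017) x17125) x17395) x16747) x18691) x12859) x10673)
  (add (add (sub (sub (sub (sub (add (add (sub (sub (sub C x17241) x17231) x17219) x17021) x17129) x17399) x16751) x18695) x12863) x4113) x10675)
  (sub (sub (sub (sub (sub (add (add (sub (sub (sub C x17237) x17247) x17223) x17025) x17133) x17403) x16755) x18699) x12867) x4121)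
  (sub (sub (sub (sub (sub (add (add (add (add (sub (sub C x17247) x17233) x17173) x17209) x17029) x17137) x17407) x16759) x18703) x12871) x10685)
  (sub (sub (sub (sub (sub (add (add (add (add (sub (sub C x17245) x17241) x17175) x17211) x17031) x17139) x17409) x16761) x18705) x12873) x4127)
  (sub (sub (sub (add (add (sub (add (add (add (add (add (add (add (add C x17257) x17261) x17265) x17277) x17289) x17325) x17361) x17469) x16929) x15309) x16281) x18711) x12879) x4133)
  (sub (sub (sub (add (add (sub (add (add (add (add (sub (add (add C x17253) x17261) x17263) x17293) x17329) x17365) x17473) x16933) x15313) x16285) x18715) x12883) x10697)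
  (add (add (sub (sub (add (add (sub (add (add (add (add (sub (add (add C x17253) x17257) x17273) x17297) x17333) x17369) x17477) x16937) x15317) x16289) x18719) x12887) x4137) x10699)
  (sub (sub (sub (add (add (sub (add (add (sub (sub (sub C x17265) x17257) x17281) x17371) x17479) x16939) x15319) x16291) x18721) x12889) x10703)
  (sub (sub (sub (add (add (sub (add (add (sub (add (add (sub C x17263) x17253) x17277) x17283) x17373) x17481) x16941) x15321) x16293) x18723) x12891) x4145)
  (add (add (sub (sub (add (add (sub (add (add (sub (sub (sub C x17277) x17261) x17309) x17381) x17489) x16949) x15329) x16301) x18731) x12899) x4149) x10711)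
  (sub (sub (sub (add (add (sub (add (add (sub (add (add (sub C x17273) x17253) x17265) x17313) x17385) x17493) x16953) x15333) x16305) x18735) x12903) x4157)
  (sub (sub (sub (add (add (sub (sub (sub (add (add (sub C x17283) x17293) x17305) x17263) x17335) x16957) x15337) x16309) x18739) x12907) x10721)
  (sub (sub (sub (add (add (sub (sub (sub (sub (sub C x17281) x17289) x17265) x17337) x16959) x15339) x16311) x18741) x12909) x4163)
  (sub (sub (sub (add (add (sub (sub (add (add (sub (add (add C x17293) x17297) x17283) x17253) x17325) x17343) x16965) x15345) x16317) x18747) x12915) x4169)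
  (sub (sub (sub (add (add (sub (sub (add (add (add (add (add (add C x17289) x17297) x17281) x17305) x17257) x17329) x17347) x16969) x15349) x16321) x18751) x12919) x10733)
  (add (add (sub (sub (add (add (sub (sub (add (add (sub (add (add C x17289) x17293) x17303) x17261) x17333) x17351) x16973) x15353) x16325) x18755) x12923) x4173) x10735)
  (add (add (sub (sub (add (add (sub (sub (sub (sub (sub C x17305) x17297) x17321) x17357) x16979) x15359) x16331) x18761) x12929) x4179) x10741)
  (sub (sub (sub (add (add (sub (sub (sub (add (add (sub C x17303) x17281) x17293) x17323) x17359) x16981) x15361) x16333) x18763) x12931) x10745)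
  (add (add (sub (sub (add (add (sub (sub (sub (add (add (sub C x17313) x17321) x17333) x17273) x17417) x16985) x15365) x16337) x18767) x12935) x4185) x10747)
  (sub (sub (sub (add (add (sub (sub (sub (sub (sub C x17309) x17325) x17277) x17421) x16989) x15369) x16341) x18771) x12939) x4193)
  (add (add (sub (sub (add (add (sub (sub (sub (add (add (sub C x17323) x17309) x17333) x17303) x17429) x16997) x15377) x16349) x18779) x12947) x4197) x10759)
  (sub (sub (sub (add (add (sub (sub (sub (sub (sub C x17321) x17329) x17305) x17431) x16999) x15379) x16351) x18781) x12949) x10763)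
  (sub (sub (sub (add (add (sub (sub (add (add (sub (add (add C x17329) x17333) x17313) x17253) x17289) x17433) x17001) x15381) x16353) x18783) x12951) x4205)
  (sub (sub (sub (add (add (sub (sub (add (add (sub (add (add C x17325) x17333) x17323) x17257) x17293) x17437) x17005) x15385) x16357) x18787) x12955) x10769)
  (add (add (sub (sub (add (add (sub (sub (add (add (add (add (add (add C x17325) x17329) x17309) x17321) x17261) x17297) x17441) x17009) x15389) x16361) x18791) x12959) x4209) x10771)
  (sub (sub (sub (add (add (sub (sub (add (add (add (add (sub C x17337) x17347) x17359) x17371) x17407) x17281) x17173) x15391) x16363) x18793) x12961) x10775)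
  (sub (sub (sub (add (add (sub (sub (add (add (sub (sub C x17335) x17343) x17373) x17409) x17283) x17175) x15393) x16365) x18795) x12963) x4217)
  (sub (sub (sub (add (add (sub (sub (sub (sub (add (add C x17347) x17351) x17337) x17361) x17289) x17181) x15399) x16371) x18801) x12969) x4223)
  (sub (sub (sub (add (add (sub (sub (sub (add (add (add (add C x17343) x17351) x17335) x17359) x17365) x17293) x17185) x15403) x16375) x18805) x12973) x10787)
  (add (add (sub (sub (add (add (sub (sub (sub (sub (add (add C x17343) x17347) x17357) x17369) x17297) x17189) x15407) x16379) x18809) x12977) x4227) x10789)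
  (add (add (sub (sub (add (add (sub (sub (sub (sub (sub C x17359) x17351) x17393) x17303) x17195) x15413) x16385) x18815) x12983) x4233) x10795)
  (sub (sub (sub (add (add (sub (sub (sub (add (add (sub C x17357) x17335) x17347) x17395) x17305) x17197) x15415) x16387) x18817) x12985) x10799)
  (sub (sub (sub (add (add (sub (add (add (sub (add (add (add (add C x17365) x17369) x17373) x17385) x17343) x17253) x17469) x17199) x15417) x16389) x18819) x12987) x4241)
  (sub (sub (sub (add (add (sub (add (add (sub (sub (add (add C x17361) x17369) x17371) x17347) x17257) x17473) x17203) x15421) x16393) x18823) x12991) x10805)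
  (add (add (sub (sub (add (add (sub (add (add (sub (sub (add (add C x17361) x17365) x17381) x17351) x17261) x17477) x17207) x15425) x16397) x18827) x12995) x4245) x10807)
  (sub (sub (sub (add (add (sub (add (add (add (add (sub (sub C x17373) x17365) x17335) x17407) x17263) x17479) x17209) x15427) x16399) x18829) x12997) x10811)
  (sub (sub (sub (add (add (sub (add (add (add (add (add (add (sub C x17371) x17361) x17385) x17337) x17409) x17265) x17481) x17211) x15429) x16401) x18831) x12999) x4253)
  (add (add (sub (sub (add (add (sub (add (add (sub (sub (sub C x17385) x17369) x17399) x17273) x17489) x17219) x15437) x16409) x18839) x13007) x4257) x10819)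
  (sub (sub (sub (add (add (sub (add (add (sub (add (add (sub C x17381) x17361) x17373) x17403) x17277) x17493) x17223) x15441) x16413) x18843) x13011) x4265)
  (add (add (sub (sub (add (add (sub (sub (sub (sub (sub C x17395) x17399) x17357) x17447) x17231) x15449) x16421) x18851) x13019) x4269) x10831)
  (sub (sub (sub (add (add (sub (sub (sub (sub (sub C x17393) x17407) x17359) x17449) x17233) x15451) x16423) x18853) x13021) x10835)
  (add (add (sub (sub (add (add (sub (sub (sub (sub (sub C x17403) x17393) x17381) x17453) x17237) x15455) x16427) x18857) x13025) x4275) x10837)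
  (sub (sub (sub (add (add (sub (sub (sub (sub (sub C x17399) x17409) x17385) x17457) x17241) x15459) x16431) x18861) x13029) x4283)
  (sub (sub (sub (add (add (sub (sub (add (add (sub (sub C x17409) x17395) x17335) x17371) x17461) x17245) x15463) x16435) x18865) x13033) x10847)
  (sub (sub (sub (add (add (sub (sub (add (add (sub (sub C x17407) x17403) x17337) x17373) x17463) x17247) x15465) x16437) x18867) x13035) x4289)
  (add (add (sub (sub (add (add (add (add (sub (add (add (add (add (sub C x17421) x17429) x17441) x17453) x17489) x17309) x16769) x17093) x15473) x16445) x18875) x13043) x4293) x10855)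
  (sub (sub (sub (add (add (add (add (sub (add (add (sub (sub C x17417) x17433) x17457) x17493) x17313) x16773) x17097) x15477) x16449) x18879) x13047) x4301)
  (add (add (sub (sub (add (add (add (add (sub (sub (add (add (sub C x17431) x17417) x17441) x17447) x17321) x16781) x17105) x15485) x16457) x18887) x13055) x4305) x10867)
  (sub (sub (sub (add (add (add (add (sub (sub (sub (sub C x17429) x17437) x17449) x17323) x16783) x17107) x15487) x16459) x18889) x13057) x10871)
  (sub (sub (sub (add (add (add (add (sub (sub (sub (add (add C x17437) x17441) x17421) x17469) x17325) x16785) x17109) x15489) x16461) x18891) x13059) x4313)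
  (sub (sub (sub (add (add (add (add (sub (sub (sub (add (add C x17433) x17441) x17431) x17473) x17329) x16789) x17113) x15493) x16465) x18895) x13063) x10877)
  (add (add (sub (sub (add (add (add (add (sub (sub (add (add (add (add C x17433) x17437) x17417) x17429) x17477) x17333) x16793) x17117) x15497) x16469) x18899) x13067) x4317) x10879)
  (add (add (sub (sub (add (add (add (add (sub (sub (sub (sub C x17449) x17453) x17429) x17393) x16799) x17123) x15503) x16475) x18905) x13073) x4323) x10885)
  (sub (sub (sub (add (add (add (add (sub (sub (sub (sub C x17447) x17461) x17431) x17395) x16801) x17125) x15505) x16477) x18907) x13075) x10889)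
  (add (add (sub (sub (add (add (add (add (sub (add (add (sub (sub C x17457) x17447) x17417) x17489) x17399) x16805) x17129) x15509) x16481) x18911) x13079) x4329) x10891)
  (sub (sub (sub (add (add (add (add (sub (add (add (sub (sub C x17453) x17463) x17421) x17493) x17403) x16809) x17133) x15513) x16485) x18915) x13083) x4337)
  (sub (sub (sub (add (add (add (add (sub (sub (sub (sub C x17463) x17449) x17479) x17407) x16813) x17137) x15517) x16489) x18919) x13087) x10901)
  (sub (sub (sub (add (add (add (add (sub (sub (sub (sub C x17461) x17457) x17481) x17409) x16815) x17139) x15519) x16491) x18921) x13089) x4343)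
  (sub (sub (sub (add (add (add (add (add (add (sub (add (add (add (add C x17473) x17477) x17481) x17493) x17433) x17253) x17361) x16821) x17145) x15525) x16497) x18927) x13095) x4349)
  (sub (sub (sub (add (add (add (add (add (add (sub (sub (add (add C x17469) x17477) x17479) x17437) x17257) x17365) x16825) x17149) x15529) x16501) x18931) x13099) x10913)
  (add (add (sub (sub (add (add (add (add (add (add (sub (sub (add (add C x17469) x17473) x17489) x17441) x17261) x17369) x16829) x17153) x15533) x16505) x18935) x13103) x4353) x10915)
  (sub (sub (sub (add (add (add (add (add (add (sub (sub (sub C x17481) x17473) x17461) x17263) x17371) x16831) x17155) x15535) x16507) x18937) x13105) x10919)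
  (sub (sub (sub (add (add (add (add (add (add (sub (add (add (sub C x17479) x17469) x17493) x17463) x17265) x17373) x16833) x17157) x15537) x16509) x18939) x13107) x4361)
  (add (add (sub (sub (add (add (add (add (add (add (add (add (sub (sub C x17493) x17477) x17417) x17453) x17273) x17381) x16841) x17165) x15545) x16517) x18947) x13115) x4365) x10927)
  (sub (sub (sub (add (add (add (add (add (add (add (add (add (add (sub C x17489) x17469) x17481) x17421) x17457) x17277) x17385) x16845) x17169) x15549) x16521) x18951) x13119) x4373)
  (add (add (add (add (sub (add (add (add (add (add (add (add (add (sub (sub C x17503) x17507) x17537) x17573) x17609) x17717) x17825) x18149) x18473) x19445) x14585) x5) x8753) x4377) x10939)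
  (sub (add (add (sub (add (add (add (add (add (add (add (add (sub (sub C x17501) x17515) x17539) x17575) x17611) x17719) x17827) x18151) x18475) x19447) x14587) x7) x8755) x10943)
  (add (add (add (add (sub (add (add (add (add (add (add (sub (sub (sub C x17511) x17501) x17525) x17615) x17723) x17831) x18155) x18479) x19451) x14591) x11) x8759) x4383) x10945)
  (sub (add (add (sub (add (add (add (add (add (add (sub (sub (sub C x17507) x17517) x17529) x17619) x17727) x17835) x18159) x18483) x19455) x14595) x15) x8763) x4391)
  (sub (add (add (sub (add (add (add (add (add (add (sub (sub (sub C x17517) x17503) x17551) x17623) x17731) x17839) x18163) x18487) x19459) x14599) x19) x8767) x10955)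
  (sub (add (add (sub (add (add (add (add (add (add (sub (sub (sub C x17515) x17511) x17553) x17625) x17733) x17841) x18165) x18489) x19461) x14601) x21) x8769) x4397)
  (add (add (add (add (sub (add (add (add (add (sub (sub (add (add (sub C x17529) x17537) x17549) x17507) x17579) x17849) x18173) x18497) x19469) x14609) x29) x8777) x4401) x10963)
  (sub (add (add (sub (add (add (add (add (sub (sub (sub (sub C x17525) x17541) x17511) x17583) x17853) x18177) x18501) x19473) x14613) x33) x8781) x4409)
  (add (add (add (add (sub (add (add (add (add (sub (add (add (add (add (sub C x17539) x17525) x17549) x17501) x17573) x17591) x17861) x18185) x18509) x19481) x14621) x41) x8789) x4413) x10975)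
  (sub (add (add (sub (add (add (add (add (sub (add (add (sub (sub C x17537) x17545) x17503) x17575) x17593) x17863) x18187) x18511) x19483) x14623) x43) x8791) x10979)
  (sub (add (add (sub (add (add (add (add (sub (sub (sub (add (add C x17545) x17549) x17529) x17559) x17595) x17865) x18189) x18513) x19485) x14625) x45) x8793) x4421)
  (sub (add (add (sub (add (add (add (add (sub (sub (sub (add (add C x17541) x17549) x17539) x17563) x17599) x17869) x18193) x18517) x19489) x14629) x49) x8797) x10985)
  (add (add (add (add (sub (add (add (add (add (sub (sub (add (add (add (add C x17541) x17545) x17525) x17537) x17567) x17603) x17873) x18197) x18521) x19493) x14633) x53) x8801) x4425) x10987)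
  (sub (add (add (sub (add (add (add (add (sub (sub (add (add (sub C x17553) x17563) x17575) x17515) x17659) x17875) x18199) x18523) x19495) x14635) x55) x8803) x10991)
  (sub (add (add (sub (add (add (add (add (sub (sub (sub (sub C x17551) x17559) x17517) x17661) x17877) x18201) x18525) x19497) x14637) x57) x8805) x4433)
  (sub (add (add (sub (add (add (add (add (sub (sub (sub (add (add C x17563) x17567) x17553) x17541) x17667) x17883) x18207) x18531) x19503) x14643) x63) x8811) x4439)
  (sub (add (add (sub (add (add (add (add (sub (sub (add (add (add (add C x17559) x17567) x17551) x17575) x17545) x17671) x17887) x18211) x18535) x19507) x14647) x67) x8815) x11003)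
  (add (add (add (add (sub (add (add (add (add (sub (sub (sub (add (add C x17559) x17563) x17573) x17549) x17675) x17891) x18215) x18539) x19511) x14651) x71) x8819) x4443) x11005)
  (add (add (add (add (sub (add (add (add (add (sub (add (add (sub (sub C x17575) x17567) x17501) x17537) x17681) x17897) x18221) x18545) x19517) x14657) x77) x8825) x4449) x11011)
  (sub (add (add (sub (add (add (add (add (sub (add (add (add (add (sub C x17573) x17551) x17563) x17503) x17539) x17683) x17899) x18223) x18547) x19519) x14659) x79) x8827) x11015)
  (add (add (add (add (sub (add (add (sub (sub (add (add (add (add (sub C x17583) x17591) x17603) x17615) x17651) x17525) x17741) x18551) x19523) x14663) x83) x8831) x4455) x11017)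
  (sub (add (add (sub (add (add (sub (sub (add (add (sub (sub C x17579) x17595) x17619) x17655) x17529) x17745) x18555) x19527) x14667) x87) x8835) x4463)
  (add (add (add (add (sub (add (add (sub (sub (sub (add (add (sub C x17593) x17579) x17603) x17609) x17537) x17753) x18563) x19535) x14675) x95) x8843) x4467) x11029)
  (sub (add (add (sub (add (add (sub (sub (sub (sub (sub C x17591) x17599) x17611) x17539) x17755) x18565) x19537) x14677) x97) x8845) x11033)
  (sub (add (add (sub (add (add (sub (sub (sub (sub (add (add C x17599) x17603) x17583) x17631) x17541) x17757) x18567) x19539) x14679) x99) x8847) x4475)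
  (sub (add (add (sub (add (add (sub (sub (sub (sub (add (add C x17595) x17603) x17593) x17635) x17545) x17761) x18571) x19543) x14683) x103) x8851) x11039)
  (add (add (add (add (sub (add (add (sub (sub (sub (add (add (add (add C x17595) x17599) x17579) x17591) x17639) x17549) x17765) x18575) x19547) x14687) x107) x8855) x4479) x11041)
  (add (add (add (add (sub (add (add (sub (add (add (sub (sub (sub C x17611) x17615) x17591) x17501) x17717) x17771) x18581) x19553) x14693) x113) x8861) x4485) x11047)
  (sub (add (add (sub (add (add (sub (add (add (sub (sub (sub C x17609) x17623) x17593) x17503) x17719) x17773) x18583) x19555) x14695) x115) x8863) x11051)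
  (add (add (add (add (sub (add (add (sub (add (add (add (add (sub (sub C x17619) x17609) x17579) x17651) x17507) x17723) x17777) x18587) x19559) x14699) x119) x8867) x4491) x11053)
  (sub (add (add (sub (add (add (sub (add (add (add (add (sub (sub C x17615) x17625) x17583) x17655) x17511) x17727) x17781) x18591) x19563) x14703) x123) x8871) x4499)
  (sub (add (add (sub (add (add (sub (add (add (sub (sub (sub C x17625) x17611) x17641) x17515) x17731) x17785) x18595) x19567) x14707) x127) x8875) x11063)
  (sub (add (add (sub (add (add (sub (add (add (sub (sub (sub C x17623) x17619) x17643) x17517) x17733) x17787) x18597) x19569) x14709) x129) x8877) x4505)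
  (sub (add (add (sub (add (add (sub (sub (sub (add (add (add (add C x17635) x17639) x17643) x17655) x17595) x17685) x17793) x18603) x19575) x14715) x135) x8883) x4511)
  (sub (add (add (sub (add (add (sub (sub (sub (sub (add (add C x17631) x17639) x17641) x17599) x17689) x17797) x18607) x19579) x14719) x139) x8887) x11075)
  (add (add (add (add (sub (add (add (sub (sub (sub (sub (add (add C x17631) x17635) x17651) x17603) x17693) x17801) x18611) x19583) x14723) x143) x8891) x4515) x11077)
  (sub (add (add (sub (add (add (sub (sub (sub (sub (sub C x17643) x17635) x17623) x17695) x17803) x18613) x19585) x14725) x145) x8893) x11081)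
  (sub (add (add (sub (add (add (sub (sub (sub (add (add (sub C x17641) x17631) x17655) x17625) x17697) x17805) x18615) x19587) x14727) x147) x8895) x4523)
  (add (add (add (add (sub (add (add (sub (sub (add (add (sub (sub C x17655) x17639) x17579) x17615) x17705) x17813) x18623) x19595) x14735) x155) x8903) x4527) x11089)
  (sub (add (add (sub (add (add (sub (sub (add (add (add (add (sub C x17651) x17631) x17643) x17583) x17619) x17709) x17817) x18627) x19599) x14739) x159) x8907) x4535)
  (sub (add (add (sub (add (add (sub (sub (add (add (add (add (sub C x17661) x17671) x17683) x17695) x17731) x17551) x17983) x18631) x19603) x14743) x163) x8911) x11099)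
  (sub (add (add (sub (add (add (sub (sub (add (add (sub (sub C x17659) x17667) x17697) x17733) x17553) x17985) x18633) x19605) x14745) x165) x8913) x4541)
  (sub (add (add (sub (add (add (sub (sub (sub (sub (add (add C x17671) x17675) x17661) x17685) x17559) x17991) x18639) x19611) x14751) x171) x8919) x4547)
  (sub (add (add (sub (add (add (sub (sub (sub (add (add (add (add C x17667) x17675) x17659) x17683) x17689) x17563) x17995) x18643) x19615) x14755) x175) x8923) x11111)
  (add (add (add (add (sub (add (add (sub (sub (sub (sub (add (add C x17667) x17671) x17681) x17693) x17567) x17999) x18647) x19619) x14759) x179) x8927) x4551) x11113)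
  (add (add (add (add (sub (add (add (sub (sub (sub (sub (sub C x17683) x17675) x17717) x17573) x18005) x18653) x19625) x14765) x185) x8933) x4557) x11119)
  (sub (add (add (sub (add (add (sub (sub (sub (add (add (sub C x17681) x17659) x17671) x17719) x17575) x18007) x18655) x19627) x14767) x187) x8935) x11123)
  (sub (add (add (sub (add (add (sub (sub (sub (add (add (add (add C x17689) x17693) x17697) x17709) x17667) x17631) x18009) x18657) x19629) x14769) x189) x8937) x4565)
  (sub (add (add (sub (add (add (sub (sub (sub (sub (add (add C x17685) x17693) x17695) x17671) x17635) x18013) x18661) x19633) x14773) x193) x8941) x11129)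
  (add (add (add (add (sub (add (add (sub (sub (sub (sub (add (add C x17685) x17689) x17705) x17675) x17639) x18017) x18665) x19637) x14777) x197) x8945) x4569) x11131)
  (sub (add (add (sub (add (add (sub (sub (add (add (sub (sub C x17697) x17689) x17659) x17731) x17641) x18019) x18667) x19639) x14779) x199) x8947) x11135)
  (sub (add (add (sub (add (add (sub (sub (add (add (add (add (sub C x17695) x17685) x17709) x17661) x17733) x17643) x18021) x18669) x19641) x14781) x201) x8949) x4577)
  (add (add (add (add (sub (add (add (sub (sub (sub (sub (sub C x17709) x17693) x17723) x17651) x18029) x18677) x19649) x14789) x209) x8957) x4581) x11143)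
  (sub (add (add (sub (add (add (sub (sub (sub (add (add (sub C x17705) x17685) x17697) x17727) x17655) x18033) x18681) x19653) x14793) x213) x8961) x4589)
  (add (add (add (add (sub (add (add (sub (add (add (sub (sub (sub C x17719) x17723) x17681) x17501) x17609) x18041) x18689) x19661) x14801) x221) x8969) x4593) x11155)
  (sub (add (add (sub (add (add (sub (add (add (sub (sub (sub C x17717) x17731) x17683) x17503) x17611) x18043) x18691) x19663) x14803) x223) x8971) x11159)
  (add (add (add (add (sub (add (add (sub (add (add (sub (sub (sub C x17727) x17717) x17705) x17507) x17615) x18047) x18695) x19667) x14807) x227) x8975) x4599) x11161)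
  (sub (add (add (sub (add (add (sub (add (add (sub (sub (sub C x17723) x17733) x17709) x17511) x17619) x18051) x18699) x19671) x14811) x231) x8979) x4607)
  (sub (add (add (sub (add (add (sub (add (add (add (add (sub (sub C x17733) x17719) x17659) x17695) x17515) x17623) x18055) x18703) x19675) x14815) x235) x8983) x11171)
  (sub (add (add (sub (add (add (sub (add (add (add (add (sub (sub C x17731) x17727) x17661) x17697) x17517) x17625) x18057) x18705) x19677) x14817) x237) x8985) x4613)
  (add (add (add (add (sub (sub (sub (add (add (add (add (add (add (sub C x17745) x17753) x17765) x17777) x17813) x17849) x17957) x17579) x18227) x14825) x245) x8993) x4617) x11179)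
  (sub (add (add (sub (sub (sub (add (add (add (add (sub (sub C x17741) x17757) x17781) x17817) x17853) x17961) x17583) x18231) x14829) x249) x8997) x4625)
  (add (add (add (add (sub (sub (sub (add (add (sub (add (add (sub C x17755) x17741) x17765) x17771) x17861) x17969) x17591) x18239) x14837) x257) x9005) x4629) x11191)
  (sub (add (add (sub (sub (sub (add (add (sub (sub (sub C x17753) x17761) x17773) x17863) x17971) x17593) x18241) x14839) x259) x9007) x11195)
  (sub (add (add (sub (sub (sub (add (add (sub (sub (add (add C x17761) x17765) x17745) x17793) x17865) x17973) x17595) x18243) x14841) x261) x9009) x4637)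
  (sub (add (add (sub (sub (sub (add (add (sub (sub (add (add C x17757) x17765) x17755) x17797) x17869) x17977) x17599) x18247) x14845) x265) x9013) x11201)
  (add (add (add (add (sub (sub (sub (add (add (sub (add (add (add (add C x17757) x17761) x17741) x17753) x17801) x17873) x17981) x17603) x18251) x14849) x269) x9017) x4641) x11203)
  (add (add (add (add (sub (sub (sub (sub (sub (sub (sub C x17773) x17777) x17753) x17825) x17609) x18257) x14855) x275) x9023) x4647) x11209)
  (sub (add (add (sub (sub (sub (sub (sub (sub (sub C x17771) x17785) x17755) x17827) x17611) x18259) x14857) x277) x9025) x11213)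
  (add (add (add (add (sub (sub (sub (sub (add (add (sub (sub C x17781) x17771) x17741) x17813) x17831) x17615) x18263) x14861) x281) x9029) x4653) x11215)
  (sub (add (add (sub (sub (sub (sub (add (add (sub (sub C x17777) x17787) x17745) x17817) x17835) x17619) x18267) x14865) x285) x9033) x4661)
  (sub (add (add (sub (sub (sub (sub (sub (sub (sub C x17787) x17773) x17803) x17839) x17623) x18271) x14869) x289) x9037) x11225)
  (sub (add (add (sub (sub (sub (sub (sub (sub (sub C x17785) x17781) x17805) x17841) x17625) x18273) x14871) x291) x9039) x4667)
  (sub (add (add (sub (sub (sub (sub (sub (add (add (add (add C x17797) x17801) x17805) x17817) x17757) x17901) x17631) x18279) x14877) x297) x9045) x4673)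
  (sub (add (add (sub (sub (sub (sub (sub (sub (add (add C x17793) x17801) x17803) x17761) x17905) x17635) x18283) x14881) x301) x9049) x11237)
  (add (add (add (add (sub (sub (sub (sub (sub (sub (add (add C x17793) x17797) x17813) x17765) x17909) x17639) x18287) x14885) x305) x9053) x4677) x11239)
  (sub (add (add (sub (sub (sub (sub (sub (sub (sub C x17805) x17797) x17785) x17911) x17641) x18289) x14887) x307) x9055) x11243)
  (sub (add (add (sub (sub (sub (sub (sub (add (add (sub C x17803) x17793) x17817) x17787) x17913) x17643) x18291) x14889) x309) x9057) x4685)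
  (add (add (add (add (sub (sub (sub (sub (add (add (sub (sub C x17817) x17801) x17741) x17777) x17921) x17651) x18299) x14897) x317) x9065) x4689) x11251)
  (sub (add (add (sub (sub (sub (sub (add (add (add (add (sub C x17813) x17793) x17805) x17745) x17781) x17925) x17655) x18303) x14901) x321) x9069) x4697)
  (add (add (add (add (sub (sub (add (add (sub (add (add (sub (sub C x17827) x17831) x17861) x17897) x17771) x17501) x18149) x18311) x14909) x329) x9077) x4701) x11263)
  (sub (add (add (sub (sub (add (add (sub (add (add (sub (sub C x17825) x17839) x17863) x17899) x17773) x17503) x18151) x18313) x14911) x331) x9079) x11267)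
  (add (add (add (add (sub (sub (add (add (sub (sub (sub (sub C x17835) x17825) x17849) x17777) x17507) x18155) x18317) x14915) x335) x9083) x4707) x11269)
  (sub (add (add (sub (sub (add (add (sub (sub (sub (sub C x17831) x17841) x17853) x17781) x17511) x18159) x18321) x14919) x339) x9087) x4715)
  (sub (add (add (sub (sub (add (add (sub (sub (sub (sub C x17841) x17827) x17875) x17785) x17515) x18163) x18325) x14923) x343) x9091) x11279)
  (sub (add (add (sub (sub (add (add (sub (sub (sub (sub C x17839) x17835) x17877) x17787) x17517) x18165) x18327) x14925) x345) x9093) x4721)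
  (add (add (add (add (sub (sub (add (add (add (add (sub (add (add (sub C x17853) x17861) x17873) x17831) x17741) x17957) x17525) x18173) x18335) x14933) x353) x9101) x4725) x11287)
  (sub (add (add (sub (sub (add (add (add (add (sub (sub (sub C x17849) x17865) x17835) x17745) x17961) x17529) x18177) x18339) x14937) x357) x9105) x4733)
  (add (add (add (add (sub (sub (add (add (add (add (add (add (add (add (sub C x17863) x17849) x17873) x17825) x17897) x17753) x17969) x17537) x18185) x18347) x14945) x365) x9113) x4737) x11299)
  (sub (add (add (sub (sub (add (add (add (add (add (add (sub (sub C x17861) x17869) x17827) x17899) x17755) x17971) x17539) x18187) x18349) x14947) x367) x9115) x11303)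
  (sub (add (add (sub (sub (add (add (add (add (sub (sub (add (add C x17869) x17873) x17853) x17883) x17757) x17973) x17541) x18189) x18351) x14949) x369) x9117) x4745)
  (sub (add (add (sub (sub (add (add (add (add (sub (sub (add (add C x17865) x17873) x17863) x17887) x17761) x17977) x17545) x18193) x18355) x14953) x373) x9121) x11309)
  (add (add (add (add (sub (sub (add (add (add (add (sub (add (add (add (add C x17865) x17869) x17849) x17861) x17891) x17765) x17981) x17549) x18197) x18359) x14957) x377) x9125) x4749) x11311)
  (sub (add (add (sub (sub (add (add (sub (sub (add (add (sub C x17877) x17887) x17899) x17839) x17929) x17551) x18199) x18361) x14959) x379) x9127) x11315)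
  (sub (add (add (sub (sub (add (add (sub (sub (sub (sub C x17875) x17883) x17841) x17931) x17553) x18201) x18363) x14961) x381) x9129) x4757)
  (sub (add (add (sub (sub (add (add (sub (sub (sub (add (add C x17887) x17891) x17877) x17865) x17937) x17559) x18207) x18369) x14967) x387) x9135) x4763)
  (sub (add (add (sub (sub (add (add (sub (sub (add (add (add (add C x17883) x17891) x17875) x17899) x17869) x17941) x17563) x18211) x18373) x14971) x391) x9139) x11327)
  (add (add (add (add (sub (sub (add (add (sub (sub (sub (add (add C x17883) x17887) x17897) x17873) x17945) x17567) x18215) x18377) x14975) x395) x9143) x4767) x11329)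
  (add (add (add (add (sub (sub (add (add (sub (add (add (sub (sub C x17899) x17891) x17825) x17861) x17951) x17573) x18221) x18383) x14981) x401) x9149) x4773) x11335)
  (sub (add (add (sub (sub (add (add (sub (add (add (add (add (sub C x17897) x17875) x17887) x17827) x17863) x17953) x17575) x18223) x18385) x14983) x403) x9151) x11339)
  (sub (add (add (sub (sub (sub (sub (add (add (add (add (add (add C x17905) x17909) x17913) x17925) x17937) x17973) x17793) x18063) x18387) x14985) x405) x9153) x4781)
  (sub (add (add (sub (sub (sub (sub (add (add (sub (add (add C x17901) x17909) x17911) x17941) x17977) x17797) x18067) x18391) x14989) x409) x9157) x11345)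
  (add (add (add (add (sub (sub (sub (sub (add (add (sub (add (add C x17901) x17905) x17921) x17945) x17981) x17801) x18071) x18395) x14993) x413) x9161) x4785) x11347)
  (sub (add (add (sub (sub (sub (sub (sub (sub (sub C x17913) x17905) x17929) x17803) x18073) x18397) x14995) x415) x9163) x11351)
  (sub (add (add (sub (sub (sub (sub (sub (add (add (sub C x17911) x17901) x17925) x17931) x17805) x18075) x18399) x14997) x417) x9165) x4793)
  (add (add (add (add (sub (sub (sub (sub (sub (sub (sub C x17925) x17909) x17957) x17813) x18083) x18407) x15005) x425) x9173) x4797) x11359)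
  (sub (add (add (sub (sub (sub (sub (sub (add (add (sub C x17921) x17901) x17913) x17961) x17817) x18087) x18411) x15009) x429) x9177) x4805)
  (sub (add (add (sub (sub (sub (sub (sub (add (add (sub C x17931) x17941) x17953) x17911) x17875) x18091) x18415) x15013) x433) x9181) x11369)
  (sub (add (add (sub (sub (sub (sub (sub (sub (sub C x17929) x17937) x17913) x17877) x18093) x18417) x15015) x435) x9183) x4811)
  (sub (add (add (sub (sub (sub (sub (add (add (sub (add (add C x17941) x17945) x17931) x17901) x17973) x17883) x18099) x18423) x15021) x441) x9189) x4817)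
  (sub (add (add (sub (sub (sub (sub (add (add (add (add (add (add C x17937) x17945) x17929) x17953) x17905) x17977) x17887) x18103) x18427) x15025) x445) x9193) x11381)
  (add (add (add (add (sub (sub (sub (sub (add (add (sub (add (add C x17937) x17941) x17951) x17909) x17981) x17891) x18107) x18431) x15029) x449) x9197) x4821) x11383)
  (add (add (add (add (sub (sub (sub (sub (sub (sub (sub C x17953) x17945) x17969) x17897) x18113) x18437) x15035) x455) x9203) x4827) x11389)
  (sub (add (add (sub (sub (sub (sub (sub (add (add (sub C x17951) x17929) x17941) x17971) x17899) x18115) x18439) x15037) x457) x9205) x11393)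
  (add (add (add (add (sub (sub (sub (add (add (sub (add (add (sub C x17961) x17969) x17981) x17921) x17741) x17849) x18119) x18443) x15041) x461) x9209) x4833) x11395)
  (sub (add (add (sub (sub (sub (add (add (sub (sub (sub C x17957) x17973) x17925) x17745) x17853) x18123) x18447) x15045) x465) x9213) x4841)
  (add (add (add (add (sub (sub (sub (add (add (sub (add (add (sub C x17971) x17957) x17981) x17951) x17753) x17861) x18131) x18455) x15053) x473) x9221) x4845) x11407)
  (sub (add (add (sub (sub (sub (add (add (sub (sub (sub C x17969) x17977) x17953) x17755) x17863) x18133) x18457) x15055) x475) x9223) x11411)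
  (sub (add (add (sub (sub (sub (add (add (add (add (sub (add (add C x17977) x17981) x17961) x17901) x17937) x17757) x17865) x18135) x18459) x15057) x477) x9225) x4853)
  (sub (add (add (sub (sub (sub (add (add (add (add (sub (add (add C x17973) x17981) x17971) x17905) x17941) x17761) x17869) x18139) x18463) x15061) x481) x9229) x11417)
  (add (add (add (add (sub (sub (sub (add (add (add (add (add (add (add (add C x17973) x17977) x17957) x17969) x17909) x17945) x17765) x17873) x18143) x18467) x15065) x485) x9233) x4857) x11419)
  (sub (add (add (sub (sub (sub (add (add (add (add (add (add (sub C x17985) x17995) x18007) x18019) x18055) x18091) x18199) x17659) x18955) x15067) x487) x9235) x11423)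
  (sub (add (add (sub (sub (sub (add (add (add (add (sub (sub C x17983) x17991) x18021) x18057) x18093) x18201) x17661) x18957) x15069) x489) x9237) x4865)
  (sub (add (add (sub (sub (sub (add (add (sub (sub (add (add C x17995) x17999) x17985) x18009) x18099) x18207) x17667) x18963) x15075) x495) x9243) x4871)
  (sub (add (add (sub (sub (sub (add (add (sub (add (add (add (add C x17991) x17999) x17983) x18007) x18013) x18103) x18211) x17671) x18967) x15079) x499) x9247) x11435)
  (add (add (add (add (sub (sub (sub (add (add (sub (sub (add (add C x17991) x17995) x18005) x18017) x18107) x18215) x17675) x18971) x15083) x503) x9251) x4875) x11437)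
  (add (add (add (add (sub (sub (sub (add (add (sub (sub (sub C x18007) x17999) x18041) x18113) x18221) x17681) x18977) x15089) x509) x9257) x4881) x11443)
  (sub (add (add (sub (sub (sub (add (add (sub (add (add (sub C x18005) x17983) x17995) x18043) x18115) x18223) x17683) x18979) x15091) x511) x9259) x11447)
  (sub (add (add (sub (sub (sub (sub (sub (add (add (add (add C x18013) x18017) x18021) x18033) x17991) x18063) x17685) x18981) x15093) x513) x9261) x4889)
  (sub (add (add (sub (sub (sub (sub (sub (sub (add (add C x18009) x18017) x18019) x17995) x18067) x17689) x18985) x15097) x517) x9265) x11453)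
  (add (add (add (add (sub (sub (sub (sub (sub (sub (add (add C x18009) x18013) x18029) x17999) x18071) x17693) x18989) x15101) x521) x9269) x4893) x11455)
  (sub (add (add (sub (sub (sub (sub (add (add (sub (sub C x18021) x18013) x17983) x18055) x18073) x17695) x18991) x15103) x523) x9271) x11459)
  (sub (add (add (sub (sub (sub (sub (add (add (add (add (sub C x18019) x18009) x18033) x17985) x18057) x18075) x17697) x18993) x15105) x525) x9273) x4901)
  (add (add (add (add (sub (sub (sub (sub (sub (sub (sub C x18033) x18017) x18047) x18083) x17705) x19001) x15113) x533) x9281) x4905) x11467)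
  (sub (add (add (sub (sub (sub (sub (sub (add (add (sub C x18029) x18009) x18021) x18051) x18087) x17709) x19005) x15117) x537) x9285) x4913)
  (add (add (add (add (sub (sub (sub (sub (sub (sub (sub C x18043) x18047) x18005) x18149) x17717) x19013) x15125) x545) x9293) x4917) x11479)
  (sub (add (add (sub (sub (sub (sub (sub (sub (sub C x18041) x18055) x18007) x18151) x17719) x19015) x15127) x547) x9295) x11483)
  (add (add (add (add (sub (sub (sub (sub (sub (sub (sub C x18051) x18041) x18029) x18155) x17723) x19019) x15131) x551) x9299) x4923) x11485)
  (sub (add (add (sub (sub (sub (sub (sub (sub (sub C x18047) x18057) x18033) x18159) x17727) x19023) x15135) x555) x9303) x4931)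
  (sub (add (add (sub (sub (sub (sub (add (add (sub (sub C x18057) x18043) x17983) x18019) x18163) x17731) x19027) x15139) x559) x9307) x11495)
  (sub (add (add (sub (sub (sub (sub (add (add (sub (sub C x18055) x18051) x17985) x18021) x18165) x17733) x19029) x15141) x561) x9309) x4937)
  (sub (add (add (sub (sub (sub (sub (add (add (add (add (add (add C x18067) x18071) x18075) x18087) x18099) x18135) x18009) x17901) x19035) x15147) x567) x9315) x4943)
  (sub (add (add (sub (sub (sub (sub (add (add (sub (add (add C x18063) x18071) x18073) x18103) x18139) x18013) x17905) x19039) x15151) x571) x9319) x11507)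
  (add (add (add (add (sub (sub (sub (sub (add (add (sub (add (add C x18063) x18067) x18083) x18107) x18143) x18017) x17909) x19043) x15155) x575) x9323) x4947) x11509)
  (sub (add (add (sub (sub (sub (sub (sub (sub (sub C x18075) x18067) x18091) x18019) x17911) x19045) x15157) x577) x9325) x11513)
  (sub (add (add (sub (sub (sub (sub (sub (add (add (sub C x18073) x18063) x18087) x18093) x18021) x17913) x19047) x15159) x579) x9327) x4955)
  (add (add (add (add (sub (sub (sub (sub (sub (sub (sub C x18087) x18071) x18119) x18029) x17921) x19055) x15167) x587) x9335) x4959) x11521)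
  (sub (add (add (sub (sub (sub (sub (sub (add (add (sub C x18083) x18063) x18075) x18123) x18033) x17925) x19059) x15171) x591) x9339) x4967)
  (sub (add (add (sub (sub (sub (add (add (sub (add (add (sub C x18093) x18103) x18115) x18073) x17983) x18199) x17929) x19063) x15175) x595) x9343) x11531)
  (sub (add (add (sub (sub (sub (add (add (sub (sub (sub C x18091) x18099) x18075) x17985) x18201) x17931) x19065) x15177) x597) x9345) x4973)
  (sub (add (add (sub (sub (sub (add (add (add (add (sub (add (add C x18103) x18107) x18093) x18063) x18135) x17991) x18207) x17937) x19071) x15183) x603) x9351) x4979)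
  (sub (add (add (sub (sub (sub (add (add (add (add (add (add (add (add C x18099) x18107) x18091) x18115) x18067) x18139) x17995) x18211) x17941) x19075) x15187) x607) x9355) x11543)
  (add (add (add (add (sub (sub (sub (add (add (add (add (sub (add (add C x18099) x18103) x18113) x18071) x18143) x17999) x18215) x17945) x19079) x15191) x611) x9359) x4983) x11545)
  (add (add (add (add (sub (sub (sub (add (add (sub (sub (sub C x18115) x18107) x18131) x18005) x18221) x17951) x19085) x15197) x617) x9365) x4989) x11551)
  (sub (add (add (sub (sub (sub (add (add (sub (add (add (sub C x18113) x18091) x18103) x18133) x18007) x18223) x17953) x19087) x15199) x619) x9367) x11555)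
  (add (add (add (add (sub (sub (sub (sub (sub (add (add (sub C x18123) x18131) x18143) x18083) x18173) x17957) x19091) x15203) x623) x9371) x4995) x11557)
  (sub (add (add (sub (sub (sub (sub (sub (sub (sub C x18119) x18135) x18087) x18177) x17961) x19095) x15207) x627) x9375) x5003)
  (add (add (add (add (sub (sub (sub (sub (sub (add (add (sub C x18133) x18119) x18143) x18113) x18185) x17969) x19103) x15215) x635) x9383) x5007) x11569)
  (sub (add (add (sub (sub (sub (sub (sub (sub (sub C x18131) x18139) x18115) x18187) x17971) x19105) x15217) x637) x9385) x11573)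
  (sub (add (add (sub (sub (sub (sub (add (add (sub (add (add C x18139) x18143) x18123) x18063) x18099) x18189) x17973) x19107) x15219) x639) x9387) x5015)
  (sub (add (add (sub (sub (sub (sub (add (add (sub (add (add C x18135) x18143) x18133) x18067) x18103) x18193) x17977) x19111) x15223) x643) x9391) x11579)
  (add (add (add (add (sub (sub (sub (sub (add (add (add (add (add (add C x18135) x18139) x18119) x18131) x18071) x18107) x18197) x17981) x19115) x15227) x647) x9395) x5019) x11581)
  (add (add (add (add (sub (sub (add (add (sub (add (add (sub (sub C x18151) x18155) x18185) x18221) x18041) x17501) x17825) x19121) x15233) x653) x9401) x5025) x11587)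
  (sub (add (add (sub (sub (add (add (sub (add (add (sub (sub C x18149) x18163) x18187) x18223) x18043) x17503) x17827) x19123) x15235) x655) x9403) x11591)
  (add (add (add (add (sub (sub (add (add (sub (sub (sub (sub C x18159) x18149) x18173) x18047) x17507) x17831) x19127) x15239) x659) x9407) x5031) x11593)
  (sub (add (add (sub (sub (add (add (sub (sub (sub (sub C x18155) x18165) x18177) x18051) x17511) x17835) x19131) x15243) x663) x9411) x5039)
  (sub (add (add (sub (sub (add (add (sub (sub (sub (sub C x18165) x18151) x18199) x18055) x17515) x17839) x19135) x15247) x667) x9415) x11603)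
  (sub (add (add (sub (sub (add (add (sub (sub (sub (sub C x18163) x18159) x18201) x18057) x17517) x17841) x19137) x15249) x669) x9417) x5045)
  (add (add (add (add (sub (sub (add (add (sub (sub (add (add (sub C x18177) x18185) x18197) x18155) x18119) x17525) x17849) x19145) x15257) x677) x9425) x5049) x11611)
  (sub (add (add (sub (sub (add (add (sub (sub (sub (sub C x18173) x18189) x18159) x18123) x17529) x17853) x19149) x15261) x681) x9429) x5057)
  (add (add (add (add (sub (sub (add (add (sub (add (add (add (add (sub C x18187) x18173) x18197) x18149) x18221) x18131) x17537) x17861) x19157) x15269) x689) x9437) x5061) x11623)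
  (sub (add (add (sub (sub (add (add (sub (add (add (sub (sub C x18185) x18193) x18151) x18223) x18133) x17539) x17863) x19159) x15271) x691) x9439) x11627)
  (sub (add (add (sub (sub (add (add (sub (sub (sub (add (add C x18193) x18197) x18177) x18207) x18135) x17541) x17865) x19161) x15273) x693) x9441) x5069)
  (sub (add (add (sub (sub (add (add (sub (sub (sub (add (add C x18189) x18197) x18187) x18211) x18139) x17545) x17869) x19165) x15277) x697) x9445) x11633)
  (add (add (add (add (sub (sub (add (add (sub (sub (add (add (add (add C x18189) x18193) x18173) x18185) x18215) x18143) x17549) x17873) x19169) x15281) x701) x9449) x5073) x11635)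
  (sub (add (add (sub (sub (add (add (add (add (sub (add (add (sub C x18201) x18211) x18223) x18163) x17983) x18091) x17551) x17875) x19171) x15283) x703) x9451) x11639)
  (sub (add (add (sub (sub (add (add (add (add (sub (sub (sub C x18199) x18207) x18165) x17985) x18093) x17553) x17877) x19173) x15285) x705) x9453) x5081)
  (sub (add (add (sub (sub (add (add (add (add (sub (sub (add (add C x18211) x18215) x18201) x18189) x17991) x18099) x17559) x17883) x19179) x15291) x711) x9459) x5087)
  (sub (add (add (sub (sub (add (add (add (add (sub (add (add (add (add C x18207) x18215) x18199) x18223) x18193) x17995) x18103) x17563) x17887) x19183) x15295) x715) x9463) x11651)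
  (add (add (add (add (sub (sub (add (add (add (add (sub (sub (add (add C x18207) x18211) x18221) x18197) x17999) x18107) x17567) x17891) x19187) x15299) x719) x9467) x5091) x11653)
  (add (add (add (add (sub (sub (add (add (add (add (add (add (sub (sub C x18223) x18215) x18149) x18185) x18005) x18113) x17573) x17897) x19193) x15305) x725) x9473) x5097) x11659)
  (sub (add (add (sub (sub (add (add (add (add (add (add (add (add (sub C x18221) x18199) x18211) x18151) x18187) x18007) x18115) x17575) x17899) x19195) x15307) x727) x9475) x11663)
  (add (add (add (add (sub (sub (add (add (add (add (add (add (add (add (sub C x18231) x18239) x18251) x18263) x18299) x18335) x18443) x18551) x18875) x17741) x16769) x731) x9479) x5103) x11665)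
  (sub (add (add (sub (sub (add (add (add (add (add (add (sub (sub C x18227) x18243) x18267) x18303) x18339) x18447) x18555) x18879) x17745) x16773) x735) x9483) x5111)
  (add (add (add (add (sub (sub (add (add (add (add (sub (add (add (sub C x18241) x18227) x18251) x18257) x18347) x18455) x18563) x18887) x17753) x16781) x743) x9491) x5115) x11677)
  (sub (add (add (sub (sub (add (add (add (add (sub (sub (sub C x18239) x18247) x18259) x18349) x18457) x18565) x18889) x17755) x16783) x745) x9493) x11681)
  (sub (add (add (sub (sub (add (add (add (add (sub (sub (add (add C x18247) x18251) x18231) x18279) x18351) x18459) x18567) x18891) x17757) x16785) x747) x9495) x5123)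
  (sub (add (add (sub (sub (add (add (add (add (sub (sub (add (add C x18243) x18251) x18241) x18283) x18355) x18463) x18571) x18895) x17761) x16789) x751) x9499) x11687)
  (add (add (add (add (sub (sub (add (add (add (add (sub (add (add (add (add C x18243) x18247) x18227) x18239) x18287) x18359) x18467) x18575) x18899) x17765) x16793) x755) x9503) x5127) x11689)
  (add (add (add (add (sub (sub (add (add (sub (sub (sub (sub C x18259) x18263) x18239) x18311) x18581) x18905) x17771) x16799) x761) x9509) x5133) x11695)
  (sub (add (add (sub (sub (add (add (sub (sub (sub (sub C x18257) x18271) x18241) x18313) x18583) x18907) x17773) x16801) x763) x9511) x11699)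
  (add (add (add (add (sub (sub (add (add (sub (add (add (sub (sub C x18267) x18257) x18227) x18299) x18317) x18587) x18911) x17777) x16805) x767) x9515) x5139) x11701)
  (sub (add (add (sub (sub (add (add (sub (add (add (sub (sub C x18263) x18273) x18231) x18303) x18321) x18591) x18915) x17781) x16809) x771) x9519) x5147)
  (sub (add (add (sub (sub (add (add (sub (sub (sub (sub C x18273) x18259) x18289) x18325) x18595) x18919) x17785) x16813) x775) x9523) x11711)
  (sub (add (add (sub (sub (add (add (sub (sub (sub (sub C x18271) x18267) x18291) x18327) x18597) x18921) x17787) x16815) x777) x9525) x5153)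
  (sub (add (add (sub (sub (add (add (sub (sub (add (add (add (add C x18283) x18287) x18291) x18303) x18243) x18387) x18603) x18927) x17793) x16821) x783) x9531) x5159)
  (sub (add (add (sub (sub (add (add (sub (sub (sub (add (add C x18279) x18287) x18289) x18247) x18391) x18607) x18931) x17797) x16825) x787) x9535) x11723)
  (add (add (add (add (sub (sub (add (add (sub (sub (sub (add (add C x18279) x18283) x18299) x18251) x18395) x18611) x18935) x17801) x16829) x791) x9539) x5163) x11725)
  (sub (add (add (sub (sub (add (add (sub (sub (sub (sub C x18291) x18283) x18271) x18397) x18613) x18937) x17803) x16831) x793) x9541) x11729)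
  (sub (add (add (sub (sub (add (add (sub (sub (add (add (sub C x18289) x18279) x18303) x18273) x18399) x18615) x18939) x17805) x16833) x795) x9543) x5171)
  (add (add (add (add (sub (sub (add (add (sub (add (add (sub (sub C x18303) x18287) x18227) x18263) x18407) x18623) x18947) x17813) x16841) x803) x9551) x5175) x11737)
  (sub (add (add (sub (sub (add (add (sub (add (add (add (add (sub C x18299) x18279) x18291) x18231) x18267) x18411) x18627) x18951) x17817) x16845) x807) x9555) x5183)
  (add (add (add (add (sub (sub (sub (sub (add (add (sub (sub C x18313) x18317) x18347) x18383) x18257) x18473) x17825) x16853) x815) x9563) x5187) x11749)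
  (sub (add (add (sub (sub (sub (sub (add (add (sub (sub C x18311) x18325) x18349) x18385) x18259) x18475) x17827) x16855) x817) x9565) x11753)
  (add (add (add (add (sub (sub (sub (sub (sub (sub (sub C x18321) x18311) x18335) x18263) x18479) x17831) x16859) x821) x9569) x5193) x11755)
  (sub (add (add (sub (sub (sub (sub (sub (sub (sub C x18317) x18327) x18339) x18267) x18483) x17835) x16863) x825) x9573) x5201)
  (sub (add (add (sub (sub (sub (sub (sub (sub (sub C x18327) x18313) x18361) x18271) x18487) x17839) x16867) x829) x9577) x11765)
  (sub (add (add (sub (sub (sub (sub (sub (sub (sub C x18325) x18321) x18363) x18273) x18489) x17841) x16869) x831) x9579) x5207)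
  (add (add (add (add (sub (sub (sub (add (add (sub (add (add (sub C x18339) x18347) x18359) x18317) x18227) x18443) x18497) x17849) x16877) x839) x9587) x5211) x11773)
  (sub (add (add (sub (sub (sub (add (add (sub (sub (sub C x18335) x18351) x18321) x18231) x18447) x18501) x17853) x16881) x843) x9591) x5219)
  (add (add (add (add (sub (sub (sub (add (add (add (add (add (add (sub C x18349) x18335) x18359) x18311) x18383) x18239) x18455) x18509) x17861) x16889) x851) x9599) x5223) x11785)
  (sub (add (add (sub (sub (sub (add (add (add (add (sub (sub C x18347) x18355) x18313) x18385) x18241) x18457) x18511) x17863) x16891) x853) x9601) x11789)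
  (sub (add (add (sub (sub (sub (add (add (sub (sub (add (add C x18355) x18359) x18339) x18369) x18243) x18459) x18513) x17865) x16893) x855) x9603) x5231)
  (sub (add (add (sub (sub (sub (add (add (sub (sub (add (add C x18351) x18359) x18349) x18373) x18247) x18463) x18517) x17869) x16897) x859) x9607) x11795)
  (add (add (add (add (sub (sub (sub (add (add (sub (add (add (add (add C x18351) x18355) x18335) x18347) x18377) x18251) x18467) x18521) x17873) x16901) x863) x9611) x5235) x11797)
  (sub (add (add (sub (sub (sub (sub (sub (add (add (sub C x18363) x18373) x18385) x18325) x18415) x18523) x17875) x16903) x865) x9613) x11801)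
  (sub (add (add (sub (sub (sub (sub (sub (sub (sub C x18361) x18369) x18327) x18417) x18525) x17877) x16905) x867) x9615) x5243)
  (sub (add (add (sub (sub (sub (sub (sub (sub (add (add C x18373) x18377) x18363) x18351) x18423) x18531) x17883) x16911) x873) x9621) x5249)
  (sub (add (add (sub (sub (sub (sub (sub (add (add (add (add C x18369) x18377) x18361) x18385) x18355) x18427) x18535) x17887) x16915) x877) x9625) x11813)
  (add (add (add (add (sub (sub (sub (sub (sub (sub (add (add C x18369) x18373) x18383) x18359) x18431) x18539) x17891) x16919) x881) x9629) x5253) x11815)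
  (add (add (add (add (sub (sub (sub (sub (add (add (sub (sub C x18385) x18377) x18311) x18347) x18437) x18545) x17897) x16925) x887) x9635) x5259) x11821)
  (sub (add (add (sub (sub (sub (sub (add (add (add (add (sub C x18383) x18361) x18373) x18313) x18349) x18439) x18547) x17899) x16927) x889) x9637) x11825)
  (sub (add (add (sub (sub (sub (sub (add (add (add (add (add (add C x18391) x18395) x18399) x18411) x18423) x18459) x18279) x18711) x17901) x16929) x891) x9639) x5267)
  (sub (add (add (sub (sub (sub (sub (add (add (sub (add (add C x18387) x18395) x18397) x18427) x18463) x18283) x18715) x17905) x16933) x895) x9643) x11831)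
  (add (add (add (add (sub (sub (sub (sub (add (add (sub (add (add C x18387) x18391) x18407) x18431) x18467) x18287) x18719) x17909) x16937) x899) x9647) x5271) x11833)
  (sub (add (add (sub (sub (sub (sub (sub (sub (sub C x18399) x18391) x18415) x18289) x18721) x17911) x16939) x901) x9649) x11837)
  (sub (add (add (sub (sub (sub (sub (sub (add (add (sub C x18397) x18387) x18411) x18417) x18291) x18723) x17913) x16941) x903) x9651) x5279)
  (add (add (add (add (sub (sub (sub (sub (sub (sub (sub C x18411) x18395) x18443) x18299) x18731) x17921) x16949) x911) x9659) x5283) x11845)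
  (sub (add (add (sub (sub (sub (sub (sub (add (add (sub C x18407) x18387) x18399) x18447) x18303) x18735) x17925) x16953) x915) x9663) x5291)
  (sub (add (add (sub (sub (sub (sub (sub (add (add (sub C x18417) x18427) x18439) x18397) x18361) x18739) x17929) x16957) x919) x9667) x11855)
  (sub (add (add (sub (sub (sub (sub (sub (sub (sub C x18415) x18423) x18399) x18363) x18741) x17931) x16959) x921) x9669) x5297)
  (sub (add (add (sub (sub (sub (sub (add (add (sub (add (add C x18427) x18431) x18417) x18387) x18459) x18369) x18747) x17937) x16965) x927) x9675) x5303)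
  (sub (add (add (sub (sub (sub (sub (add (add (add (add (add (add C x18423) x18431) x18415) x18439) x18391) x18463) x18373) x18751) x17941) x16969) x931) x9679) x11867)
  (add (add (add (add (sub (sub (sub (sub (add (add (sub (add (add C x18423) x18427) x18437) x18395) x18467) x18377) x18755) x17945) x16973) x935) x9683) x5307) x11869)
  (add (add (add (add (sub (sub (sub (sub (sub (sub (sub C x18439) x18431) x18455) x18383) x18761) x17951) x16979) x941) x9689) x5313) x11875)
  (sub (add (add (sub (sub (sub (sub (sub (add (add (sub C x18437) x18415) x18427) x18457) x18385) x18763) x17953) x16981) x943) x9691) x11879)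
  (add (add (add (add (sub (sub (sub (add (add (sub (add (add (sub C x18447) x18455) x18467) x18407) x18227) x18335) x18767) x17957) x16985) x947) x9695) x5319) x11881)
  (sub (add (add (sub (sub (sub (add (add (sub (sub (sub C x18443) x18459) x18411) x18231) x18339) x18771) x17961) x16989) x951) x9699) x5327)
  (add (add (add (add (sub (sub (sub (add (add (sub (add (add (sub C x18457) x18443) x18467) x18437) x18239) x18347) x18779) x17969) x16997) x959) x9707) x5331) x11893)
  (sub (add (add (sub (sub (sub (add (add (sub (sub (sub C x18455) x18463) x18439) x18241) x18349) x18781) x17971) x16999) x961) x9709) x11897)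
  (sub (add (add (sub (sub (sub (add (add (add (add (sub (add (add C x18463) x18467) x18447) x18387) x18423) x18243) x18351) x18783) x17973) x17001) x963) x9711) x5339)
  (sub (add (add (sub (sub (sub (add (add (add (add (sub (add (add C x18459) x18467) x18457) x18391) x18427) x18247) x18355) x18787) x17977) x17005) x967) x9715) x11903)
  (add (add (add (add (sub (sub (sub (add (add (add (add (add (add (add (add C x18459) x18463) x18443) x18455) x18395) x18431) x18251) x18359) x18791) x17981) x17009) x971) x9719) x5343) x11905)
  (add (add (add (add (sub (add (add (sub (add (add (add (add (sub (sub C x18475) x18479) x18509) x18545) x18581) x18689) x18311) x17501) x19445) x17015) x977) x9725) x5349) x11911)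
  (sub (add (add (sub (add (add (sub (add (add (add (add (sub (sub C x18473) x18487) x18511) x18547) x18583) x18691) x18313) x17503) x19447) x17017) x979) x9727) x11915)
  (add (add (add (add (sub (add (add (sub (add (add (sub (sub (sub C x18483) x18473) x18497) x18587) x18695) x18317) x17507) x19451) x17021) x983) x9731) x5355) x11917)
  (sub (add (add (sub (add (add (sub (add (add (sub (sub (sub C x18479) x18489) x18501) x18591) x18699) x18321) x17511) x19455) x17025) x987) x9735) x5363)
  (sub (add (add (sub (add (add (sub (add (add (sub (sub (sub C x18489) x18475) x18523) x18595) x18703) x18325) x17515) x19459) x17029) x991) x9739) x11927)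
  (sub (add (add (sub (add (add (sub (add (add (sub (sub (sub C x18487) x18483) x18525) x18597) x18705) x18327) x17517) x19461) x17031) x993) x9741) x5369)
  (add (add (add (add (sub (add (add (sub (sub (sub (add (add (sub C x18501) x18509) x18521) x18479) x18551) x18335) x17525) x19469) x17039) x1001) x9749) x5373) x11935)
  (sub (add (add (sub (add (add (sub (sub (sub (sub (sub C x18497) x18513) x18483) x18555) x18339) x17529) x19473) x17043) x1005) x9753) x5381)
  (add (add (add (add (sub (add (add (sub (sub (add (add (add (add (sub C x18511) x18497) x18521) x18473) x18545) x18563) x18347) x17537) x19481) x17051) x1013) x9761) x5385) x11947)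
  (sub (add (add (sub (add (add (sub (sub (add (add (sub (sub C x18509) x18517) x18475) x18547) x18565) x18349) x17539) x19483) x17053) x1015) x9763) x11951)
  (sub (add (add (sub (add (add (sub (sub (sub (sub (add (add C x18517) x18521) x18501) x18531) x18567) x18351) x17541) x19485) x17055) x1017) x9765) x5393)
  (sub (add (add (sub (add (add (sub (sub (sub (sub (add (add C x18513) x18521) x18511) x18535) x18571) x18355) x17545) x19489) x17059) x1021) x9769) x11957)
  (add (add (add (add (sub (add (add (sub (sub (sub (add (add (add (add C x18513) x18517) x18497) x18509) x18539) x18575) x18359) x17549) x19493) x17063) x1025) x9773) x5397) x11959)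
  (sub (add (add (sub (add (add (sub (sub (sub (add (add (sub C x18525) x18535) x18547) x18487) x18631) x18361) x17551) x19495) x17065) x1027) x9775) x11963)
  (sub (add (add (sub (add (add (sub (sub (sub (sub (sub C x18523) x18531) x18489) x18633) x18363) x17553) x19497) x17067) x1029) x9777) x5405)
  (sub (add (add (sub (add (add (sub (sub (sub (sub (add (add C x18535) x18539) x18525) x18513) x18639) x18369) x17559) x19503) x17073) x1035) x9783) x5411)
  (sub (add (add (sub (add (add (sub (sub (sub (add (add (add (add C x18531) x18539) x18523) x18547) x18517) x18643) x18373) x17563) x19507) x17077) x1039) x9787) x11975)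
  (add (add (add (add (sub (add (add (sub (sub (sub (sub (add (add C x18531) x18535) x18545) x18521) x18647) x18377) x17567) x19511) x17081) x1043) x9791) x5415) x11977)
  (add (add (add (add (sub (add (add (sub (sub (add (add (sub (sub C x18547) x18539) x18473) x18509) x18653) x18383) x17573) x19517) x17087) x1049) x9797) x5421) x11983)
  (sub (add (add (sub (add (add (sub (sub (add (add (add (add (sub C x18545) x18523) x18535) x18475) x18511) x18655) x18385) x17575) x19519) x17089) x1051) x9799) x11987)
  (add (add (add (add (sub (add (add (add (add (sub (add (add (add (add (sub C x18555) x18563) x18575) x18587) x18623) x18497) x18227) x18875) x17579) x19523) x17093) x1055) x9803) x5427) x11989)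
  (sub (add (add (sub (add (add (add (add (sub (add (add (sub (sub C x18551) x18567) x18591) x18627) x18501) x18231) x18879) x17583) x19527) x17097) x1059) x9807) x5435)
  (add (add (add (add (sub (add (add (add (add (sub (sub (add (add (sub C x18565) x18551) x18575) x18581) x18509) x18239) x18887) x17591) x19535) x17105) x1067) x9815) x5439) x12001)
  (sub (add (add (sub (add (add (add (add (sub (sub (sub (sub C x18563) x18571) x18583) x18511) x18241) x18889) x17593) x19537) x17107) x1069) x9817) x12005)
  (sub (add (add (sub (add (add (add (add (sub (sub (sub (add (add C x18571) x18575) x18555) x18603) x18513) x18243) x18891) x17595) x19539) x17109) x1071) x9819) x5447)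
  (sub (add (add (sub (add (add (add (add (sub (sub (sub (add (add C x18567) x18575) x18565) x18607) x18517) x18247) x18895) x17599) x19543) x17113) x1075) x9823) x12011)
  (add (add (add (add (sub (add (add (add (add (sub (sub (add (add (add (add C x18567) x18571) x18551) x18563) x18611) x18521) x18251) x18899) x17603) x19547) x17117) x1079) x9827) x5451) x12013)
  (add (add (add (add (sub (add (add (add (add (add (add (sub (sub (sub C x18583) x18587) x18563) x18473) x18689) x18257) x18905) x17609) x19553) x17123) x1085) x9833) x5457) x12019)
  (sub (add (add (sub (add (add (add (add (add (add (sub (sub (sub C x18581) x18595) x18565) x18475) x18691) x18259) x18907) x17611) x19555) x17125) x1087) x9835) x12023)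
  (add (add (add (add (sub (add (add (add (add (add (add (add (add (sub (sub C x18591) x18581) x18551) x18623) x18479) x18695) x18263) x18911) x17615) x19559) x17129) x1091) x9839) x5463) x12025)
  (sub (add (add (sub (add (add (add (add (add (add (add (add (sub (sub C x18587) x18597) x18555) x18627) x18483) x18699) x18267) x18915) x17619) x19563) x17133) x1095) x9843) x5471)
  (sub (add (add (sub (add (add (add (add (add (add (sub (sub (sub C x18597) x18583) x18613) x18487) x18703) x18271) x18919) x17623) x19567) x17137) x1099) x9847) x12035)
  (sub (add (add (sub (add (add (add (add (add (add (sub (sub (sub C x18595) x18591) x18615) x18489) x18705) x18273) x18921) x17625) x19569) x17139) x1101) x9849) x5477)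
  (sub (add (add (sub (add (add (add (add (sub (sub (add (add (add (add C x18607) x18611) x18615) x18627) x18567) x18657) x18279) x18927) x17631) x19575) x17145) x1107) x9855) x5483)
  (sub (add (add (sub (add (add (add (add (sub (sub (sub (add (add C x18603) x18611) x18613) x18571) x18661) x18283) x18931) x17635) x19579) x17149) x1111) x9859) x12047)
  (add (add (add (add (sub (add (add (add (add (sub (sub (sub (add (add C x18603) x18607) x18623) x18575) x18665) x18287) x18935) x17639) x19583) x17153) x1115) x9863) x5487) x12049)
  (sub (add (add (sub (add (add (add (add (sub (sub (sub (sub C x18615) x18607) x18595) x18667) x18289) x18937) x17641) x19585) x17155) x1117) x9865) x12053)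
  (sub (add (add (sub (add (add (add (add (sub (sub (add (add (sub C x18613) x18603) x18627) x18597) x18669) x18291) x18939) x17643) x19587) x17157) x1119) x9867) x5495)
  (add (add (add (add (sub (add (add (add (add (sub (add (add (sub (sub C x18627) x18611) x18551) x18587) x18677) x18299) x18947) x17651) x19595) x17165) x1127) x9875) x5499) x12061)
  (sub (add (add (sub (add (add (add (add (sub (add (add (add (add (sub C x18623) x18603) x18615) x18555) x18591) x18681) x18303) x18951) x17655) x19599) x17169) x1131) x9879) x5507)
  (sub (add (add (sub (add (add (sub (sub (add (add (add (add (sub C x18633) x18643) x18655) x18667) x18703) x18523) x18793) x17659) x19603) x17173) x1135) x9883) x12071)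
  (sub (add (add (sub (add (add (sub (sub (add (add (sub (sub C x18631) x18639) x18669) x18705) x18525) x18795) x17661) x19605) x17175) x1137) x9885) x5513)
  (sub (add (add (sub (add (add (sub (sub (sub (sub (add (add C x18643) x18647) x18633) x18657) x18531) x18801) x17667) x19611) x17181) x1143) x9891) x5519)
  (sub (add (add (sub (add (add (sub (sub (sub (add (add (add (add C x18639) x18647) x18631) x18655) x18661) x18535) x18805) x17671) x19615) x17185) x1147) x9895) x12083)
  (add (add (add (add (sub (add (add (sub (sub (sub (sub (add (add C x18639) x18643) x18653) x18665) x18539) x18809) x17675) x19619) x17189) x1151) x9899) x5523) x12085)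
  (add (add (add (add (sub (add (add (sub (sub (sub (sub (sub C x18655) x18647) x18689) x18545) x18815) x17681) x19625) x17195) x1157) x9905) x5529) x12091)
  (sub (add (add (sub (add (add (sub (sub (sub (add (add (sub C x18653) x18631) x18643) x18691) x18547) x18817) x17683) x19627) x17197) x1159) x9907) x12095)
  (sub (add (add (sub (add (add (sub (sub (sub (add (add (add (add C x18661) x18665) x18669) x18681) x18639) x18603) x18819) x17685) x19629) x17199) x1161) x9909) x5537)
  (sub (add (add (sub (add (add (sub (sub (sub (sub (add (add C x18657) x18665) x18667) x18643) x18607) x18823) x17689) x19633) x17203) x1165) x9913) x12101)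
  (add (add (add (add (sub (add (add (sub (sub (sub (sub (add (add C x18657) x18661) x18677) x18647) x18611) x18827) x17693) x19637) x17207) x1169) x9917) x5541) x12103)
  (sub (add (add (sub (add (add (sub (sub (add (add (sub (sub C x18669) x18661) x18631) x18703) x18613) x18829) x17695) x19639) x17209) x1171) x9919) x12107)
  (sub (add (add (sub (add (add (sub (sub (add (add (add (add (sub C x18667) x18657) x18681) x18633) x18705) x18615) x18831) x17697) x19641) x17211) x1173) x9921) x5549)
  (add (add (add (add (sub (add (add (sub (sub (sub (sub (sub C x18681) x18665) x18695) x18623) x18839) x17705) x19649) x17219) x1181) x9929) x5553) x12115)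
  (sub (add (add (sub (add (add (sub (sub (sub (add (add (sub C x18677) x18657) x18669) x18699) x18627) x18843) x17709) x19653) x17223) x1185) x9933) x5561)
  (add (add (add (add (sub (add (add (sub (add (add (sub (sub (sub C x18691) x18695) x18653) x18473) x18581) x18851) x17717) x19661) x17231) x1193) x9941) x5565) x12127)
  (sub (add (add (sub (add (add (sub (add (add (sub (sub (sub C x18689) x18703) x18655) x18475) x18583) x18853) x17719) x19663) x17233) x1195) x9943) x12131)
  (add (add (add (add (sub (add (add (sub (add (add (sub (sub (sub C x18699) x18689) x18677) x18479) x18587) x18857) x17723) x19667) x17237) x1199) x9947) x5571) x12133)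
  (sub (add (add (sub (add (add (sub (add (add (sub (sub (sub C x18695) x18705) x18681) x18483) x18591) x18861) x17727) x19671) x17241) x1203) x9951) x5579)
  (sub (add (add (sub (add (add (sub (add (add (add (add (sub (sub C x18705) x18691) x18631) x18667) x18487) x18595) x18865) x17731) x19675) x17245) x1207) x9955) x12143)
  (sub (add (add (sub (add (add (sub (add (add (add (add (sub (sub C x18703) x18699) x18633) x18669) x18489) x18597) x18867) x17733) x19677) x17247) x1209) x9957) x5585)
  (sub (add (add (sub (sub (sub (add (add (add (add (add (add (add (add C x18715) x18719) x18723) x18735) x18747) x18783) x18819) x18927) x18387) x19197) x17253) x1215) x9963) x5591)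
  (sub (add (add (sub (sub (sub (add (add (add (add (sub (add (add C x18711) x18719) x18721) x18751) x18787) x18823) x18931) x18391) x19201) x17257) x1219) x9967) x12155)
  (add (add (add (add (sub (sub (sub (add (add (add (add (sub (add (add C x18711) x18715) x18731) x18755) x18791) x18827) x18935) x18395) x19205) x17261) x1223) x9971) x5595) x12157)
  (sub (add (add (sub (sub (sub (add (add (sub (sub (sub C x18723) x18715) x18739) x18829) x18937) x18397) x19207) x17263) x1225) x9973) x12161)
  (sub (add (add (sub (sub (sub (add (add (sub (add (add (sub C x18721) x18711) x18735) x18741) x18831) x18939) x18399) x19209) x17265) x1227) x9975) x5603)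
  (add (add (add (add (sub (sub (sub (add (add (sub (sub (sub C x18735) x18719) x18767) x18839) x18947) x18407) x19217) x17273) x1235) x9983) x5607) x12169)
  (sub (add (add (sub (sub (sub (add (add (sub (add (add (sub C x18731) x18711) x18723) x18771) x18843) x18951) x18411) x19221) x17277) x1239) x9987) x5615)
  (sub (add (add (sub (sub (sub (sub (sub (add (add (sub C x18741) x18751) x18763) x18721) x18793) x18415) x19225) x17281) x1243) x9991) x12179)
  (sub (add (add (sub (sub (sub (sub (sub (sub (sub C x18739) x18747) x18723) x18795) x18417) x19227) x17283) x1245) x9993) x5621)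
  (sub (add (add (sub (sub (sub (sub (add (add (sub (add (add C x18751) x18755) x18741) x18711) x18783) x18801) x18423) x19233) x17289) x1251) x9999) x5627)
  (sub (add (add (sub (sub (sub (sub (add (add (add (add (add (add C x18747) x18755) x18739) x18763) x18715) x18787) x18805) x18427) x19237) x17293) x1255) x10003) x12191)
  (add (add (add (add (sub (sub (sub (sub (add (add (sub (add (add C x18747) x18751) x18761) x18719) x18791) x18809) x18431) x19241) x17297) x1259) x10007) x5631) x12193)
  (add (add (add (add (sub (sub (sub (sub (sub (sub (sub C x18763) x18755) x18779) x18815) x18437) x19247) x17303) x1265) x10013) x5637) x12199)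
  (sub (add (add (sub (sub (sub (sub (sub (add (add (sub C x18761) x18739) x18751) x18781) x18817) x18439) x19249) x17305) x1267) x10015) x12203)
  (add (add (add (add (sub (sub (sub (sub (sub (add (add (sub C x18771) x18779) x18791) x18731) x18875) x18443) x19253) x17309) x1271) x10019) x5643) x12205)
  (sub (add (add (sub (sub (sub (sub (sub (sub (sub C x18767) x18783) x18735) x18879) x18447) x19257) x17313) x1275) x10023) x5651)
  (add (add (add (add (sub (sub (sub (sub (sub (add (add (sub C x18781) x18767) x18791) x18761) x18887) x18455) x19265) x17321) x1283) x10031) x5655) x12217)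
  (sub (add (add (sub (sub (sub (sub (sub (sub (sub C x18779) x18787) x18763) x18889) x18457) x19267) x17323) x1285) x10033) x12221)
  (sub (add (add (sub (sub (sub (sub (add (add (sub (add (add C x18787) x18791) x18771) x18711) x18747) x18891) x18459) x19269) x17325) x1287) x10035) x5663)
  (sub (add (add (sub (sub (sub (sub (add (add (sub (add (add C x18783) x18791) x18781) x18715) x18751) x18895) x18463) x19273) x17329) x1291) x10039) x12227)
  (add (add (add (add (sub (sub (sub (sub (add (add (add (add (add (add C x18783) x18787) x18767) x18779) x18719) x18755) x18899) x18467) x19277) x17333) x1295) x10043) x5667) x12229)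
  (sub (add (add (sub (sub (sub (sub (add (add (add (add (sub C x18795) x18805) x18817) x18829) x18865) x18739) x18631) x19279) x17335) x1297) x10045) x12233)
  (sub (add (add (sub (sub (sub (sub (add (add (sub (sub C x18793) x18801) x18831) x18867) x18741) x18633) x19281) x17337) x1299) x10047) x5675)
  (sub (add (add (sub (sub (sub (sub (sub (sub (add (add C x18805) x18809) x18795) x18819) x18747) x18639) x19287) x17343) x1305) x10053) x5681)
  (sub (add (add (sub (sub (sub (sub (sub (add (add (add (add C x18801) x18809) x18793) x18817) x18823) x18751) x18643) x19291) x17347) x1309) x10057) x12245)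
  (add (add (add (add (sub (sub (sub (sub (sub (sub (add (add C x18801) x18805) x18815) x18827) x18755) x18647) x19295) x17351) x1313) x10061) x5685) x12247)
  (add (add (add (add (sub (sub (sub (sub (sub (sub (sub C x18817) x18809) x18851) x18761) x18653) x19301) x17357) x1319) x10067) x5691) x12253)
  (sub (add (add (sub (sub (sub (sub (sub (add (add (sub C x18815) x18793) x18805) x18853) x18763) x18655) x19303) x17359) x1321) x10069) x12257)
  (sub (add (add (sub (sub (sub (add (add (sub (add (add (add (add C x18823) x18827) x18831) x18843) x18801) x18711) x18927) x18657) x19305) x17361) x1323) x10071) x5699)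
  (sub (add (add (sub (sub (sub (add (add (sub (sub (add (add C x18819) x18827) x18829) x18805) x18715) x18931) x18661) x19309) x17365) x1327) x10075) x12263)
  (add (add (add (add (sub (sub (sub (add (add (sub (sub (add (add C x18819) x18823) x18839) x18809) x18719) x18935) x18665) x19313) x17369) x1331) x10079) x5703) x12265)
  (sub (add (add (sub (sub (sub (add (add (add (add (sub (sub C x18831) x18823) x18793) x18865) x18721) x18937) x18667) x19315) x17371) x1333) x10081) x12269)
  (sub (add (add (sub (sub (sub (add (add (add (add (add (add (sub C x18829) x18819) x18843) x18795) x18867) x18723) x18939) x18669) x19317) x17373) x1335) x10083) x5711)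
  (add (add (add (add (sub (sub (sub (add (add (sub (sub (sub C x18843) x18827) x18857) x18731) x18947) x18677) x19325) x17381) x1343) x10091) x5715) x12277)
  (sub (add (add (sub (sub (sub (add (add (sub (add (add (sub C x18839) x18819) x18831) x18861) x18735) x18951) x18681) x19329) x17385) x1347) x10095) x5723)
  (add (add (add (add (sub (sub (sub (sub (sub (sub (sub C x18853) x18857) x18815) x18905) x18689) x19337) x17393) x1355) x10103) x5727) x12289)
  (sub (add (add (sub (sub (sub (sub (sub (sub (sub C x18851) x18865) x18817) x18907) x18691) x19339) x17395) x1357) x10105) x12293)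
  (add (add (add (add (sub (sub (sub (sub (sub (sub (sub C x18861) x18851) x18839) x18911) x18695) x19343) x17399) x1361) x10109) x5733) x12295)
  (sub (add (add (sub (sub (sub (sub (sub (sub (sub C x18857) x18867) x18843) x18915) x18699) x19347) x17403) x1365) x10113) x5741)
  (sub (add (add (sub (sub (sub (sub (add (add (sub (sub C x18867) x18853) x18793) x18829) x18919) x18703) x19351) x17407) x1369) x10117) x12305)
  (sub (add (add (sub (sub (sub (sub (add (add (sub (sub C x18865) x18861) x18795) x18831) x18921) x18705) x19353) x17409) x1371) x10119) x5747)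
  (add (add (add (add (sub (sub (add (add (sub (add (add (add (add (sub C x18879) x18887) x18899) x18911) x18947) x18767) x18227) x18551) x19361) x17417) x1379) x10127) x5751) x12313)
  (sub (add (add (sub (sub (add (add (sub (add (add (sub (sub C x18875) x18891) x18915) x18951) x18771) x18231) x18555) x19365) x17421) x1383) x10131) x5759)
  (add (add (add (add (sub (sub (add (add (sub (sub (add (add (sub C x18889) x18875) x18899) x18905) x18779) x18239) x18563) x19373) x17429) x1391) x10139) x5763) x12325)
  (sub (add (add (sub (sub (add (add (sub (sub (sub (sub C x18887) x18895) x18907) x18781) x18241) x18565) x19375) x17431) x1393) x10141) x12329)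
  (sub (add (add (sub (sub (add (add (sub (sub (sub (add (add C x18895) x18899) x18879) x18927) x18783) x18243) x18567) x19377) x17433) x1395) x10143) x5771)
  (sub (add (add (sub (sub (add (add (sub (sub (sub (add (add C x18891) x18899) x18889) x18931) x18787) x18247) x18571) x19381) x17437) x1399) x10147) x12335)
  (add (add (add (add (sub (sub (add (add (sub (sub (add (add (add (add C x18891) x18895) x18875) x18887) x18935) x18791) x18251) x18575) x19385) x17441) x1403) x10151) x5775) x12337)
  (add (add (add (add (sub (sub (add (add (sub (sub (sub (sub C x18907) x18911) x18887) x18851) x18257) x18581) x19391) x17447) x1409) x10157) x5781) x12343)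
  (sub (add (add (sub (sub (add (add (sub (sub (sub (sub C x18905) x18919) x18889) x18853) x18259) x18583) x19393) x17449) x1411) x10159) x12347)
  (add (add (add (add (sub (sub (add (add (sub (add (add (sub (sub C x18915) x18905) x18875) x18947) x18857) x18263) x18587) x19397) x17453) x1415) x10163) x5787) x12349)
  (sub (add (add (sub (sub (add (add (sub (add (add (sub (sub C x18911) x18921) x18879) x18951) x18861) x18267) x18591) x19401) x17457) x1419) x10167) x5795)
  (sub (add (add (sub (sub (add (add (sub (sub (sub (sub C x18921) x18907) x18937) x18865) x18271) x18595) x19405) x17461) x1423) x10171) x12359)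
  (sub (add (add (sub (sub (add (add (sub (sub (sub (sub C x18919) x18915) x18939) x18867) x18273) x18597) x19407) x17463) x1425) x10173) x5801)
  (sub (add (add (sub (sub (add (add (add (add (sub (add (add (add (add C x18931) x18935) x18939) x18951) x18891) x18711) x18819) x18279) x18603) x19413) x17469) x1431) x10179) x5807)
  (sub (add (add (sub (sub (add (add (add (add (sub (sub (add (add C x18927) x18935) x18937) x18895) x18715) x18823) x18283) x18607) x19417) x17473) x1435) x10183) x12371)
  (add (add (add (add (sub (sub (add (add (add (add (sub (sub (add (add C x18927) x18931) x18947) x18899) x18719) x18827) x18287) x18611) x19421) x17477) x1439) x10187) x5811) x12373)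
  (sub (add (add (sub (sub (add (add (add (add (sub (sub (sub C x18939) x18931) x18919) x18721) x18829) x18289) x18613) x19423) x17479) x1441) x10189) x12377)
  (sub (add (add (sub (sub (add (add (add (add (sub (add (add (sub C x18937) x18927) x18951) x18921) x18723) x18831) x18291) x18615) x19425) x17481) x1443) x10191) x5819)
  (add (add (add (add (sub (sub (add (add (add (add (add (add (sub (sub C x18951) x18935) x18875) x18911) x18731) x18839) x18299) x18623) x19433) x17489) x1451) x10199) x5823) x12385)
  (sub (add (add (sub (sub (add (add (add (add (add (add (add (add (sub C x18947) x18927) x18939) x18879) x18915) x18735) x18843) x18303) x18627) x19437) x17493) x1455) x10203) x5831)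
  (sub (add (add (add (add (sub (add (add (add (add (add (add (add (add (sub C x18957) x18967) x18979) x18991) x19027) x19063) x19171) x19279) x19603) x17983) x13123) x16039) x1459) x10207) x12395)
  (sub (add (add (add (add (sub (add (add (add (add (add (add (sub (sub C x18955) x18963) x18993) x19029) x19065) x19173) x19281) x19605) x17985) x13125) x16041) x1461) x10209) x5837)
  (sub (add (add (add (add (sub (add (add (add (add (sub (sub (add (add C x18967) x18971) x18957) x18981) x19071) x19179) x19287) x19611) x17991) x13131) x16047) x1467) x10215) x5843)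
  (sub (add (add (add (add (sub (add (add (add (add (sub (add (add (add (add C x18963) x18971) x18955) x18979) x18985) x19075) x19183) x19291) x19615) x17995) x13135) x16051) x1471) x10219) x12407)
  (add (add (add (add (add (add (sub (add (add (add (add (sub (sub (add (add C x18963) x18967) x18977) x18989) x19079) x19187) x19295) x19619) x17999) x13139) x16055) x1475) x10223) x5847) x12409)
  (add (add (add (add (add (add (sub (add (add (add (add (sub (sub (sub C x18979) x18971) x19013) x19085) x19193) x19301) x19625) x18005) x13145) x16061) x1481) x10229) x5853) x12415)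
  (sub (add (add (add (add (sub (add (add (add (add (sub (add (add (sub C x18977) x18955) x18967) x19015) x19087) x19195) x19303) x19627) x18007) x13147) x16063) x1483) x10231) x12419)
  (sub (add (add (add (add (sub (add (add (sub (sub (add (add (add (add C x18985) x18989) x18993) x19005) x18963) x19035) x19305) x19629) x18009) x13149) x16065) x1485) x10233) x5861)
  (sub (add (add (add (add (sub (add (add (sub (sub (sub (add (add C x18981) x18989) x18991) x18967) x19039) x19309) x19633) x18013) x13153) x16069) x1489) x10237) x12425)
  (add (add (add (add (add (add (sub (add (add (sub (sub (sub (add (add C x18981) x18985) x19001) x18971) x19043) x19313) x19637) x18017) x13157) x16073) x1493) x10241) x5865) x12427)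
  (sub (add (add (add (add (sub (add (add (sub (add (add (sub (sub C x18993) x18985) x18955) x19027) x19045) x19315) x19639) x18019) x13159) x16075) x1495) x10243) x12431)
  (sub (add (add (add (add (sub (add (add (sub (add (add (add (add (sub C x18991) x18981) x19005) x18957) x19029) x19047) x19317) x19641) x18021) x13161) x16077) x1497) x10245) x5873)
  (add (add (add (add (add (add (sub (add (add (sub (sub (sub (sub C x19005) x18989) x19019) x19055) x19325) x19649) x18029) x13169) x16085) x1505) x10253) x5877) x12439)
  (sub (add (add (add (add (sub (add (add (sub (sub (add (add (sub C x19001) x18981) x18993) x19023) x19059) x19329) x19653) x18033) x13173) x16089) x1509) x10257) x5885)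
  (add (add (add (add (add (add (sub (add (add (sub (sub (sub (sub C x19015) x19019) x18977) x19121) x19337) x19661) x18041) x13181) x16097) x1517) x10265) x5889) x12451)
  (sub (add (add (add (add (sub (add (add (sub (sub (sub (sub C x19013) x19027) x18979) x19123) x19339) x19663) x18043) x13183) x16099) x1519) x10267) x12455)
  (add (add (add (add (add (add (sub (add (add (sub (sub (sub (sub C x19023) x19013) x19001) x19127) x19343) x19667) x18047) x13187) x16103) x1523) x10271) x5895) x12457)
  (sub (add (add (add (add (sub (add (add (sub (sub (sub (sub C x19019) x19029) x19005) x19131) x19347) x19671) x18051) x13191) x16107) x1527) x10275) x5903)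
  (sub (add (add (add (add (sub (add (add (sub (add (add (sub (sub C x19029) x19015) x18955) x18991) x19135) x19351) x19675) x18055) x13195) x16111) x1531) x10279) x12467)
  (sub (add (add (add (add (sub (add (add (sub (add (add (sub (sub C x19027) x19023) x18957) x18993) x19137) x19353) x19677) x18057) x13197) x16113) x1533) x10281) x5909)
  (sub (add (add (add (add (sub (sub (sub (add (add (add (add (add (add C x19039) x19043) x19047) x19059) x19071) x19107) x18981) x19197) x18063) x13203) x16119) x1539) x10287) x5915)
  (sub (add (add (add (add (sub (sub (sub (add (add (sub (add (add C x19035) x19043) x19045) x19075) x19111) x18985) x19201) x18067) x13207) x16123) x1543) x10291) x12479)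
  (add (add (add (add (add (add (sub (sub (sub (add (add (sub (add (add C x19035) x19039) x19055) x19079) x19115) x18989) x19205) x18071) x13211) x16127) x1547) x10295) x5919) x12481)
  (sub (add (add (add (add (sub (sub (sub (sub (sub (sub C x19047) x19039) x19063) x18991) x19207) x18073) x13213) x16129) x1549) x10297) x12485)
  (sub (add (add (add (add (sub (sub (sub (sub (add (add (sub C x19045) x19035) x19059) x19065) x18993) x19209) x18075) x13215) x16131) x1551) x10299) x5927)
  (add (add (add (add (add (add (sub (sub (sub (sub (sub (sub C x19059) x19043) x19091) x19001) x19217) x18083) x13223) x16139) x1559) x10307) x5931) x12493)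
  (sub (add (add (add (add (sub (sub (sub (sub (add (add (sub C x19055) x19035) x19047) x19095) x19005) x19221) x18087) x13227) x16143) x1563) x10311) x5939)
  (sub (add (add (add (add (sub (sub (add (add (sub (add (add (sub C x19065) x19075) x19087) x19045) x18955) x19171) x19225) x18091) x13231) x16147) x1567) x10315) x12503)
  (sub (add (add (add (add (sub (sub (add (add (sub (sub (sub C x19063) x19071) x19047) x18957) x19173) x19227) x18093) x13233) x16149) x1569) x10317) x5945)
  (sub (add (add (add (add (sub (sub (add (add (add (add (sub (add (add C x19075) x19079) x19065) x19035) x19107) x18963) x19179) x19233) x18099) x13239) x16155) x1575) x10323) x5951)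
  (sub (add (add (add (add (sub (sub (add (add (add (add (add (add (add (add C x19071) x19079) x19063) x19087) x19039) x19111) x18967) x19183) x19237) x18103) x13243) x16159) x1579) x10327) x12515)
  (add (add (add (add (add (add (sub (sub (add (add (add (add (sub (add (add C x19071) x19075) x19085) x19043) x19115) x18971) x19187) x19241) x18107) x13247) x16163) x1583) x10331) x5955) x12517)
  (add (add (add (add (add (add (sub (sub (add (add (sub (sub (sub C x19087) x19079) x19103) x18977) x19193) x19247) x18113) x13253) x16169) x1589) x10337) x5961) x12523)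
  (sub (add (add (add (add (sub (sub (add (add (sub (add (add (sub C x19085) x19063) x19075) x19105) x18979) x19195) x19249) x18115) x13255) x16171) x1591) x10339) x12527)
  (add (add (add (add (add (add (sub (sub (sub (sub (add (add (sub C x19095) x19103) x19115) x19055) x19145) x19253) x18119) x13259) x16175) x1595) x10343) x5967) x12529)
  (sub (add (add (add (add (sub (sub (sub (sub (sub (sub C x19091) x19107) x19059) x19149) x19257) x18123) x13263) x16179) x1599) x10347) x5975)
  (add (add (add (add (add (add (sub (sub (sub (sub (add (add (sub C x19105) x19091) x19115) x19085) x19157) x19265) x18131) x13271) x16187) x1607) x10355) x5979) x12541)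
  (sub (add (add (add (add (sub (sub (sub (sub (sub (sub C x19103) x19111) x19087) x19159) x19267) x18133) x13273) x16189) x1609) x10357) x12545)
  (sub (add (add (add (add (sub (sub (sub (add (add (sub (add (add C x19111) x19115) x19095) x19035) x19071) x19161) x19269) x18135) x13275) x16191) x1611) x10359) x5987)
  (sub (add (add (add (add (sub (sub (sub (add (add (sub (add (add C x19107) x19115) x19105) x19039) x19075) x19165) x19273) x18139) x13279) x16195) x1615) x10363) x12551)
  (add (add (add (add (add (add (sub (sub (sub (add (add (add (add (add (add C x19107) x19111) x19091) x19103) x19043) x19079) x19169) x19277) x18143) x13283) x16199) x1619) x10367) x5991) x12553)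
  (add (add (add (add (add (add (sub (sub (sub (add (add (sub (sub C x19123) x19127) x19157) x19193) x19013) x19445) x18149) x13289) x16205) x1625) x10373) x5997) x12559)
  (sub (add (add (add (add (sub (sub (sub (add (add (sub (sub C x19121) x19135) x19159) x19195) x19015) x19447) x18151) x13291) x16207) x1627) x10375) x12563)
  (add (add (add (add (add (add (sub (sub (sub (sub (sub (sub C x19131) x19121) x19145) x19019) x19451) x18155) x13295) x16211) x1631) x10379) x6003) x12565)
  (sub (add (add (add (add (sub (sub (sub (sub (sub (sub C x19127) x19137) x19149) x19023) x19455) x18159) x13299) x16215) x1635) x10383) x6011)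
  (sub (add (add (add (add (sub (sub (sub (sub (sub (sub C x19137) x19123) x19171) x19027) x19459) x18163) x13303) x16219) x1639) x10387) x12575)
  (sub (add (add (add (add (sub (sub (sub (sub (sub (sub C x19135) x19131) x19173) x19029) x19461) x18165) x13305) x16221) x1641) x10389) x6017)
  (add (add (add (add (add (add (sub (sub (sub (sub (add (add (sub C x19149) x19157) x19169) x19127) x19091) x19469) x18173) x13313) x16229) x1649) x10397) x6021) x12583)
  (sub (add (add (add (add (sub (sub (sub (sub (sub (sub C x19145) x19161) x19131) x19095) x19473) x18177) x13317) x16233) x1653) x10401) x6029)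
  (add (add (add (add (add (add (sub (sub (sub (add (add (add (add (sub C x19159) x19145) x19169) x19121) x19193) x19103) x19481) x18185) x13325) x16241) x1661) x10409) x6033) x12595)
  (sub (add (add (add (add (sub (sub (sub (add (add (sub (sub C x19157) x19165) x19123) x19195) x19105) x19483) x18187) x13327) x16243) x1663) x10411) x12599)
  (sub (add (add (add (add (sub (sub (sub (sub (sub (add (add C x19165) x19169) x19149) x19179) x19107) x19485) x18189) x13329) x16245) x1665) x10413) x6041)
  (sub (add (add (add (add (sub (sub (sub (sub (sub (add (add C x19161) x19169) x19159) x19183) x19111) x19489) x18193) x13333) x16249) x1669) x10417) x12605)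
  (add (add (add (add (add (add (sub (sub (sub (sub (add (add (add (add C x19161) x19165) x19145) x19157) x19187) x19115) x19493) x18197) x13337) x16253) x1673) x10421) x6045) x12607)
  (sub (add (add (add (add (sub (sub (add (add (sub (add (add (sub C x19173) x19183) x19195) x19135) x18955) x19063) x19495) x18199) x13339) x16255) x1675) x10423) x12611)
  (sub (add (add (add (add (sub (sub (add (add (sub (sub (sub C x19171) x19179) x19137) x18957) x19065) x19497) x18201) x13341) x16257) x1677) x10425) x6053)
  (sub (add (add (add (add (sub (sub (add (add (sub (sub (add (add C x19183) x19187) x19173) x19161) x18963) x19071) x19503) x18207) x13347) x16263) x1683) x10431) x6059)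
  (sub (add (add (add (add (sub (sub (add (add (sub (add (add (add (add C x19179) x19187) x19171) x19195) x19165) x18967) x19075) x19507) x18211) x13351) x16267) x1687) x10435) x12623)
  (add (add (add (add (add (add (sub (sub (add (add (sub (sub (add (add C x19179) x19183) x19193) x19169) x18971) x19079) x19511) x18215) x13355) x16271) x1691) x10439) x6063) x12625)
  (add (add (add (add (add (add (sub (sub (add (add (add (add (sub (sub C x19195) x19187) x19121) x19157) x18977) x19085) x19517) x18221) x13361) x16277) x1697) x10445) x6069) x12631)
  (sub (add (add (add (add (sub (sub (add (add (add (add (add (add (sub C x19193) x19171) x19183) x19123) x19159) x18979) x19087) x19519) x18223) x13363) x16279) x1699) x10447) x12635)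
  (sub (add (add (add (add (sub (sub (add (add (add (add (add (add (add (add C x19201) x19205) x19209) x19221) x19233) x19269) x19305) x19413) x19035) x18711) x13365) x16281) x1701) x10449) x6077)
  (sub (add (add (add (add (sub (sub (add (add (add (add (sub (add (add C x19197) x19205) x19207) x19237) x19273) x19309) x19417) x19039) x18715) x13369) x16285) x1705) x10453) x12641)
  (add (add (add (add (add (add (sub (sub (add (add (add (add (sub (add (add C x19197) x19201) x19217) x19241) x19277) x19313) x19421) x19043) x18719) x13373) x16289) x1709) x10457) x6081) x12643)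
  (sub (add (add (add (add (sub (sub (add (add (sub (sub (sub C x19209) x19201) x19225) x19315) x19423) x19045) x18721) x13375) x16291) x1711) x10459) x12647)
  (sub (add (add (add (add (sub (sub (add (add (sub (add (add (sub C x19207) x19197) x19221) x19227) x19317) x19425) x19047) x18723) x13377) x16293) x1713) x10461) x6089)
  (add (add (add (add (add (add (sub (sub (add (add (sub (sub (sub C x19221) x19205) x19253) x19325) x19433) x19055) x18731) x13385) x16301) x1721) x10469) x6093) x12655)
  (sub (add (add (add (add (sub (sub (add (add (sub (add (add (sub C x19217) x19197) x19209) x19257) x19329) x19437) x19059) x18735) x13389) x16305) x1725) x10473) x6101)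
  (sub (add (add (add (add (sub (sub (sub (sub (add (add (sub C x19227) x19237) x19249) x19207) x19279) x19063) x18739) x13393) x16309) x1729) x10477) x12665)
  (sub (add (add (add (add (sub (sub (sub (sub (sub (sub C x19225) x19233) x19209) x19281) x19065) x18741) x13395) x16311) x1731) x10479) x6107)
  (sub (add (add (add (add (sub (sub (sub (add (add (sub (add (add C x19237) x19241) x19227) x19197) x19269) x19287) x19071) x18747) x13401) x16317) x1737) x10485) x6113)
  (sub (add (add (add (add (sub (sub (sub (add (add (add (add (add (add C x19233) x19241) x19225) x19249) x19201) x19273) x19291) x19075) x18751) x13405) x16321) x1741) x10489) x12677)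
  (add (add (add (add (add (add (sub (sub (sub (add (add (sub (add (add C x19233) x19237) x19247) x19205) x19277) x19295) x19079) x18755) x13409) x16325) x1745) x10493) x6117) x12679)
  (add (add (add (add (add (add (sub (sub (sub (sub (sub (sub C x19249) x19241) x19265) x19301) x19085) x18761) x13415) x16331) x1751) x10499) x6123) x12685)
  (sub (add (add (add (add (sub (sub (sub (sub (add (add (sub C x19247) x19225) x19237) x19267) x19303) x19087) x18763) x13417) x16333) x1753) x10501) x12689)
  (add (add (add (add (add (add (sub (sub (sub (sub (add (add (sub C x19257) x19265) x19277) x19217) x19361) x19091) x18767) x13421) x16337) x1757) x10505) x6129) x12691)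
  (sub (add (add (add (add (sub (sub (sub (sub (sub (sub C x19253) x19269) x19221) x19365) x19095) x18771) x13425) x16341) x1761) x10509) x6137)
  (add (add (add (add (add (add (sub (sub (sub (sub (add (add (sub C x19267) x19253) x19277) x19247) x19373) x19103) x18779) x13433) x16349) x1769) x10517) x6141) x12703)
  (sub (add (add (add (add (sub (sub (sub (sub (sub (sub C x19265) x19273) x19249) x19375) x19105) x18781) x13435) x16351) x1771) x10519) x12707)
  (sub (add (add (add (add (sub (sub (sub (add (add (sub (add (add C x19273) x19277) x19257) x19197) x19233) x19377) x19107) x18783) x13437) x16353) x1773) x10521) x6149)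
  (sub (add (add (add (add (sub (sub (sub (add (add (sub (add (add C x19269) x19277) x19267) x19201) x19237) x19381) x19111) x18787) x13441) x16357) x1777) x10525) x12713)
  (add (add (add (add (add (add (sub (sub (sub (add (add (add (add (add (add C x19269) x19273) x19253) x19265) x19205) x19241) x19385) x19115) x18791) x13445) x16361) x1781) x10529) x6153) x12715)
  (sub (add (add (add (add (sub (add (add (sub (add (add (add (add (sub C x19281) x19291) x19303) x19315) x19351) x19225) x18955) x19603) x18793) x13447) x16363) x1783) x10531) x12719)
  (sub (add (add (add (add (sub (add (add (sub (add (add (sub (sub C x19279) x19287) x19317) x19353) x19227) x18957) x19605) x18795) x13449) x16365) x1785) x10533) x6161)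
  (sub (add (add (add (add (sub (add (add (sub (sub (sub (add (add C x19291) x19295) x19281) x19305) x19233) x18963) x19611) x18801) x13455) x16371) x1791) x10539) x6167)
  (sub (add (add (add (add (sub (add (add (sub (sub (add (add (add (add C x19287) x19295) x19279) x19303) x19309) x19237) x18967) x19615) x18805) x13459) x16375) x1795) x10543) x12731)
  (add (add (add (add (add (add (sub (add (add (sub (sub (sub (add (add C x19287) x19291) x19301) x19313) x19241) x18971) x19619) x18809) x13463) x16379) x1799) x10547) x6171) x12733)
  (add (add (add (add (add (add (sub (add (add (sub (sub (sub (sub C x19303) x19295) x19337) x19247) x18977) x19625) x18815) x13469) x16385) x1805) x10553) x6177) x12739)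
  (sub (add (add (add (add (sub (add (add (sub (sub (add (add (sub C x19301) x19279) x19291) x19339) x19249) x18979) x19627) x18817) x13471) x16387) x1807) x10555) x12743)
  (sub (add (add (add (add (sub (add (add (add (add (sub (add (add (add (add C x19309) x19313) x19317) x19329) x19287) x19197) x19413) x18981) x19629) x18819) x13473) x16389) x1809) x10557) x6185)
  (sub (add (add (add (add (sub (add (add (add (add (sub (sub (add (add C x19305) x19313) x19315) x19291) x19201) x19417) x18985) x19633) x18823) x13477) x16393) x1813) x10561) x12749)
  (add (add (add (add (add (add (sub (add (add (add (add (sub (sub (add (add C x19305) x19309) x19325) x19295) x19205) x19421) x18989) x19637) x18827) x13481) x16397) x1817) x10565) x6189) x12751)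
  (sub (add (add (add (add (sub (add (add (add (add (add (add (sub (sub C x19317) x19309) x19279) x19351) x19207) x19423) x18991) x19639) x18829) x13483) x16399) x1819) x10567) x12755)
  (sub (add (add (add (add (sub (add (add (add (add (add (add (add (add (sub C x19315) x19305) x19329) x19281) x19353) x19209) x19425) x18993) x19641) x18831) x13485) x16401) x1821) x10569) x6197)
  (add (add (add (add (add (add (sub (add (add (add (add (sub (sub (sub C x19329) x19313) x19343) x19217) x19433) x19001) x19649) x18839) x13493) x16409) x1829) x10577) x6201) x12763)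
  (sub (add (add (add (add (sub (add (add (add (add (sub (add (add (sub C x19325) x19305) x19317) x19347) x19221) x19437) x19005) x19653) x18843) x13497) x16413) x1833) x10581) x6209)
  (add (add (add (add (add (add (sub (add (add (sub (sub (sub (sub C x19339) x19343) x19301) x19391) x19013) x19661) x18851) x13505) x16421) x1841) x10589) x6213) x12775)
  (sub (add (add (add (add (sub (add (add (sub (sub (sub (sub C x19337) x19351) x19303) x19393) x19015) x19663) x18853) x13507) x16423) x1843) x10591) x12779)
  (add (add (add (add (add (add (sub (add (add (sub (sub (sub (sub C x19347) x19337) x19325) x19397) x19019) x19667) x18857) x13511) x16427) x1847) x10595) x6219) x12781)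
  (sub (add (add (add (add (sub (add (add (sub (sub (sub (sub C x19343) x19353) x19329) x19401) x19023) x19671) x18861) x13515) x16431) x1851) x10599) x6227)
  (sub (add (add (add (add (sub (add (add (sub (add (add (sub (sub C x19353) x19339) x19279) x19315) x19405) x19027) x19675) x18865) x13519) x16435) x1855) x10603) x12791)
  (sub (add (add (add (add (sub (add (add (sub (add (add (sub (sub C x19351) x19347) x19281) x19317) x19407) x19029) x19677) x18867) x13521) x16437) x1857) x10605) x6233)
  (add (add (add (add (add (add (sub (sub (sub (add (add (add (add (sub C x19365) x19373) x19385) x19397) x19433) x19253) x19523) x18875) x13529) x16445) x1865) x10613) x6237) x12799)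
  (sub (add (add (add (add (sub (sub (sub (add (add (sub (sub C x19361) x19377) x19401) x19437) x19257) x19527) x18879) x13533) x16449) x1869) x10617) x6245)
  (add (add (add (add (add (add (sub (sub (sub (sub (add (add (sub C x19375) x19361) x19385) x19391) x19265) x19535) x18887) x13541) x16457) x1877) x10625) x6249) x12811)
  (sub (add (add (add (add (sub (sub (sub (sub (sub (sub C x19373) x19381) x19393) x19267) x19537) x18889) x13543) x16459) x1879) x10627) x12815)
  (sub (add (add (add (add (sub (sub (sub (sub (sub (add (add C x19381) x19385) x19365) x19413) x19269) x19539) x18891) x13545) x16461) x1881) x10629) x6257)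
  (sub (add (add (add (add (sub (sub (sub (sub (sub (add (add C x19377) x19385) x19375) x19417) x19273) x19543) x18895) x13549) x16465) x1885) x10633) x12821)
  (add (add (add (add (add (add (sub (sub (sub (sub (add (add (add (add C x19377) x19381) x19361) x19373) x19421) x19277) x19547) x18899) x13553) x16469) x1889) x10637) x6261) x12823)
  (add (add (add (add (add (add (sub (sub (sub (sub (sub (sub C x19393) x19397) x19373) x19337) x19553) x18905) x13559) x16475) x1895) x10643) x6267) x12829)
  (sub (add (add (add (add (sub (sub (sub (sub (sub (sub C x19391) x19405) x19375) x19339) x19555) x18907) x13561) x16477) x1897) x10645) x12833)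
  (add (add (add (add (add (add (sub (sub (sub (add (add (sub (sub C x19401) x19391) x19361) x19433) x19343) x19559) x18911) x13565) x16481) x1901) x10649) x6273) x12835)
  (sub (add (add (add (add (sub (sub (sub (add (add (sub (sub C x19397) x19407) x19365) x19437) x19347) x19563) x18915) x13569) x16485) x1905) x10653) x6281)
  (sub (add (add (add (add (sub (sub (sub (sub (sub (sub C x19407) x19393) x19423) x19351) x19567) x18919) x13573) x16489) x1909) x10657) x12845)
  (sub (add (add (add (add (sub (sub (sub (sub (sub (sub C x19405) x19401) x19425) x19353) x19569) x18921) x13575) x16491) x1911) x10659) x6287)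
  (sub (add (add (add (add (sub (sub (add (add (sub (add (add (add (add C x19417) x19421) x19425) x19437) x19377) x19197) x19305) x19575) x18927) x13581) x16497) x1917) x10665) x6293)
  (sub (add (add (add (add (sub (sub (add (add (sub (sub (add (add C x19413) x19421) x19423) x19381) x19201) x19309) x19579) x18931) x13585) x16501) x1921) x10669) x12857)
  (add (add (add (add (add (add (sub (sub (add (add (sub (sub (add (add C x19413) x19417) x19433) x19385) x19205) x19313) x19583) x18935) x13589) x16505) x1925) x10673) x6297) x12859)
  (sub (add (add (add (add (sub (sub (add (add (sub (sub (sub C x19425) x19417) x19405) x19207) x19315) x19585) x18937) x13591) x16507) x1927) x10675) x12863)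
  (sub (add (add (add (add (sub (sub (add (add (sub (add (add (sub C x19423) x19413) x19437) x19407) x19209) x19317) x19587) x18939) x13593) x16509) x1929) x10677) x6305)
  (add (add (add (add (add (add (sub (sub (add (add (add (add (sub (sub C x19437) x19421) x19361) x19397) x19217) x19325) x19595) x18947) x13601) x16517) x1937) x10685) x6309) x12871)
  (sub (add (add (add (add (sub (sub (add (add (add (add (add (add (sub C x19433) x19413) x19425) x19365) x19401) x19221) x19329) x19599) x18951) x13605) x16521) x1941) x10689) x6317)
  (add (add (add (add (add (add (add (add (sub (add (add (add (add (sub (sub C x19447) x19451) x19481) x19517) x19553) x19661) x19121) x17501) x18473) x13613) x16529) x1949) x10697) x6321) x12883)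
  (sub (add (add (add (add (add (add (sub (add (add (add (add (sub (sub C x19445) x19459) x19483) x19519) x19555) x19663) x19123) x17503) x18475) x13615) x16531) x1951) x10699) x12887)
  (add (add (add (add (add (add (add (add (sub (add (add (sub (sub (sub C x19455) x19445) x19469) x19559) x19667) x19127) x17507) x18479) x13619) x16535) x1955) x10703) x6327) x12889)
  (sub (add (add (add (add (add (add (sub (add (add (sub (sub (sub C x19451) x19461) x19473) x19563) x19671) x19131) x17511) x18483) x13623) x16539) x1959) x10707) x6335)
  (sub (add (add (add (add (add (add (sub (add (add (sub (sub (sub C x19461) x19447) x19495) x19567) x19675) x19135) x17515) x18487) x13627) x16543) x1963) x10711) x12899)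
  (sub (add (add (add (add (add (add (sub (add (add (sub (sub (sub C x19459) x19455) x19497) x19569) x19677) x19137) x17517) x18489) x13629) x16545) x1965) x10713) x6341)
  (add (add (add (add (add (add (add (add (sub (sub (sub (add (add (sub C x19473) x19481) x19493) x19451) x19523) x19145) x17525) x18497) x13637) x16553) x1973) x10721) x6345) x12907)
  (sub (add (add (add (add (add (add (sub (sub (sub (sub (sub C x19469) x19485) x19455) x19527) x19149) x17529) x18501) x13641) x16557) x1977) x10725) x6353)
  (add (add (add (add (add (add (add (add (sub (sub (add (add (add (add (sub C x19483) x19469) x19493) x19445) x19517) x19535) x19157) x17537) x18509) x13649) x16565) x1985) x10733) x6357) x12919)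
  (sub (add (add (add (add (add (add (sub (sub (add (add (sub (sub C x19481) x19489) x19447) x19519) x19537) x19159) x17539) x18511) x13651) x16567) x1987) x10735) x12923)
  (sub (add (add (add (add (add (add (sub (sub (sub (sub (add (add C x19489) x19493) x19473) x19503) x19539) x19161) x17541) x18513) x13653) x16569) x1989) x10737) x6365)
  (sub (add (add (add (add (add (add (sub (sub (sub (sub (add (add C x19485) x19493) x19483) x19507) x19543) x19165) x17545) x18517) x13657) x16573) x1993) x10741) x12929)
  (add (add (add (add (add (add (add (add (sub (sub (sub (add (add (add (add C x19485) x19489) x19469) x19481) x19511) x19547) x19169) x17549) x18521) x13661) x16577) x1997) x10745) x6369) x12931)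
  (sub (add (add (add (add (add (add (sub (sub (sub (add (add (sub C x19497) x19507) x19519) x19459) x19603) x19171) x17551) x18523) x13663) x16579) x1999) x10747) x12935)
  (sub (add (add (add (add (add (add (sub (sub (sub (sub (sub C x19495) x19503) x19461) x19605) x19173) x17553) x18525) x13665) x16581) x2001) x10749) x6377)
  (sub (add (add (add (add (add (add (sub (sub (sub (sub (add (add C x19507) x19511) x19497) x19485) x19611) x19179) x17559) x18531) x13671) x16587) x2007) x10755) x6383)
  (sub (add (add (add (add (add (add (sub (sub (sub (add (add (add (add C x19503) x19511) x19495) x19519) x19489) x19615) x19183) x17563) x18535) x13675) x16591) x2011) x10759) x12947)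
  (add (add (add (add (add (add (add (add (sub (sub (sub (sub (add (add C x19503) x19507) x19517) x19493) x19619) x19187) x17567) x18539) x13679) x16595) x2015) x10763) x6387) x12949)
  (add (add (add (add (add (add (add (add (sub (sub (add (add (sub (sub C x19519) x19511) x19445) x19481) x19625) x19193) x17573) x18545) x13685) x16601) x2021) x10769) x6393) x12955)
  (sub (add (add (add (add (add (add (sub (sub (add (add (add (add (sub C x19517) x19495) x19507) x19447) x19483) x19627) x19195) x17575) x18547) x13687) x16603) x2023) x10771) x12959)
  (add (add (add (add (add (add (add (add (sub (sub (add (add (add (add (sub C x19527) x19535) x19547) x19559) x19595) x19469) x19361) x17579) x18551) x13691) x16607) x2027) x10775) x6399) x12961)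
  (sub (add (add (add (add (add (add (sub (sub (add (add (sub (sub C x19523) x19539) x19563) x19599) x19473) x19365) x17583) x18555) x13695) x16611) x2031) x10779) x6407)
  (add (add (add (add (add (add (add (add (sub (sub (sub (add (add (sub C x19537) x19523) x19547) x19553) x19481) x19373) x17591) x18563) x13703) x16619) x2039) x10787) x6411) x12973)
  (sub (add (add (add (add (add (add (sub (sub (sub (sub (sub C x19535) x19543) x19555) x19483) x19375) x17593) x18565) x13705) x16621) x2041) x10789) x12977)
  (sub (add (add (add (add (add (add (sub (sub (sub (sub (add (add C x19543) x19547) x19527) x19575) x19485) x19377) x17595) x18567) x13707) x16623) x2043) x10791) x6419)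
  (sub (add (add (add (add (add (add (sub (sub (sub (sub (add (add C x19539) x19547) x19537) x19579) x19489) x19381) x17599) x18571) x13711) x16627) x2047) x10795) x12983)
  (add (add (add (add (add (add (add (add (sub (sub (sub (add (add (add (add C x19539) x19543) x19523) x19535) x19583) x19493) x19385) x17603) x18575) x13715) x16631) x2051) x10799) x6423) x12985)
  (add (add (add (add (add (add (add (add (sub (add (add (sub (sub (sub C x19555) x19559) x19535) x19445) x19661) x19391) x17609) x18581) x13721) x16637) x2057) x10805) x6429) x12991)
  (sub (add (add (add (add (add (add (sub (add (add (sub (sub (sub C x19553) x19567) x19537) x19447) x19663) x19393) x17611) x18583) x13723) x16639) x2059) x10807) x12995)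
  (add (add (add (add (add (add (add (add (sub (add (add (add (add (sub (sub C x19563) x19553) x19523) x19595) x19451) x19667) x19397) x17615) x18587) x13727) x16643) x2063) x10811) x6435) x12997)
  (sub (add (add (add (add (add (add (sub (add (add (add (add (sub (sub C x19559) x19569) x19527) x19599) x19455) x19671) x19401) x17619) x18591) x13731) x16647) x2067) x10815) x6443)
  (sub (add (add (add (add (add (add (sub (add (add (sub (sub (sub C x19569) x19555) x19585) x19459) x19675) x19405) x17623) x18595) x13735) x16651) x2071) x10819) x13007)
  (sub (add (add (add (add (add (add (sub (add (add (sub (sub (sub C x19567) x19563) x19587) x19461) x19677) x19407) x17625) x18597) x13737) x16653) x2073) x10821) x6449)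
  (sub (add (add (add (add (add (add (sub (sub (sub (add (add (add (add C x19579) x19583) x19587) x19599) x19539) x19629) x19413) x17631) x18603) x13743) x16659) x2079) x10827) x6455)
  (sub (add (add (add (add (add (add (sub (sub (sub (sub (add (add C x19575) x19583) x19585) x19543) x19633) x19417) x17635) x18607) x13747) x16663) x2083) x10831) x13019)
  (add (add (add (add (add (add (add (add (sub (sub (sub (sub (add (add C x19575) x19579) x19595) x19547) x19637) x19421) x17639) x18611) x13751) x16667) x2087) x10835) x6459) x13021)
  (sub (add (add (add (add (add (add (sub (sub (sub (sub (sub C x19587) x19579) x19567) x19639) x19423) x17641) x18613) x13753) x16669) x2089) x10837) x13025)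
  (sub (add (add (add (add (add (add (sub (sub (sub (add (add (sub C x19585) x19575) x19599) x19569) x19641) x19425) x17643) x18615) x13755) x16671) x2091) x10839) x6467)
  (add (add (add (add (add (add (add (add (sub (sub (add (add (sub (sub C x19599) x19583) x19523) x19559) x19649) x19433) x17651) x18623) x13763) x16679) x2099) x10847) x6471) x13033)
  (sub (add (add (add (add (add (add (sub (sub (add (add (add (add (sub C x19595) x19575) x19587) x19527) x19563) x19653) x19437) x17655) x18627) x13767) x16683) x2103) x10851) x6479)
  (sub (add (add (add (add (add (add (add (add (sub (add (add (add (add (sub C x19605) x19615) x19627) x19639) x19675) x19495) x18955) x19279) x17659) x18631) x13771) x16687) x2107) x10855) x13043)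
  (sub (add (add (add (add (add (add (add (add (sub (add (add (sub (sub C x19603) x19611) x19641) x19677) x19497) x18957) x19281) x17661) x18633) x13773) x16689) x2109) x10857) x6485)
  (sub (add (add (add (add (add (add (add (add (sub (sub (sub (add (add C x19615) x19619) x19605) x19629) x19503) x18963) x19287) x17667) x18639) x13779) x16695) x2115) x10863) x6491)
  (sub (add (add (add (add (add (add (add (add (sub (sub (add (add (add (add C x19611) x19619) x19603) x19627) x19633) x19507) x18967) x19291) x17671) x18643) x13783) x16699) x2119) x10867) x13055)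
  (add (add (add (add (add (add (add (add (add (add (sub (sub (sub (add (add C x19611) x19615) x19625) x19637) x19511) x18971) x19295) x17675) x18647) x13787) x16703) x2123) x10871) x6495) x13057)
  (add (add (add (add (add (add (add (add (add (add (sub (sub (sub (sub C x19627) x19619) x19661) x19517) x18977) x19301) x17681) x18653) x13793) x16709) x2129) x10877) x6501) x13063)
  (sub (add (add (add (add (add (add (add (add (sub (sub (add (add (sub C x19625) x19603) x19615) x19663) x19519) x18979) x19303) x17683) x18655) x13795) x16711) x2131) x10879) x13067)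
  (sub (add (add (add (add (add (add (add (add (sub (sub (add (add (add (add C x19633) x19637) x19641) x19653) x19611) x19575) x18981) x19305) x17685) x18657) x13797) x16713) x2133) x10881) x6509)
  (sub (add (add (add (add (add (add (add (add (sub (sub (sub (add (add C x19629) x19637) x19639) x19615) x19579) x18985) x19309) x17689) x18661) x13801) x16717) x2137) x10885) x13073)
  (add (add (add (add (add (add (add (add (add (add (sub (sub (sub (add (add C x19629) x19633) x19649) x19619) x19583) x18989) x19313) x17693) x18665) x13805) x16721) x2141) x10889) x6513) x13075)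
  (sub (add (add (add (add (add (add (add (add (sub (add (add (sub (sub C x19641) x19633) x19603) x19675) x19585) x18991) x19315) x17695) x18667) x13807) x16723) x2143) x10891) x13079)
  (sub (add (add (add (add (add (add (add (add (sub (add (add (add (add (sub C x19639) x19629) x19653) x19605) x19677) x19587) x18993) x19317) x17697) x18669) x13809) x16725) x2145) x10893) x6521)
  (add (add (add (add (add (add (add (add (add (add (sub (sub (sub (sub C x19653) x19637) x19667) x19595) x19001) x19325) x17705) x18677) x13817) x16733) x2153) x10901) x6525) x13087)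
  (sub (add (add (add (add (add (add (add (add (sub (sub (add (add (sub C x19649) x19629) x19641) x19671) x19599) x19005) x19329) x17709) x18681) x13821) x16737) x2157) x10905) x6533)
  (add (add (add (add (add (add (add (add (add (add (add (add (sub (sub (sub C x19663) x19667) x19625) x19445) x19553) x19013) x19337) x17717) x18689) x13829) x16745) x2165) x10913) x6537) x13099)
  (sub (add (add (add (add (add (add (add (add (add (add (sub (sub (sub C x19661) x19675) x19627) x19447) x19555) x19015) x19339) x17719) x18691) x13831) x16747) x2167) x10915) x13103)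
  (add (add (add (add (add (add (add (add (add (add (add (add (sub (sub (sub C x19671) x19661) x19649) x19451) x19559) x19019) x19343) x17723) x18695) x13835) x16751) x2171) x10919) x6543) x13105)
  (sub (add (add (add (add (add (add (add (add (add (add (sub (sub (sub C x19667) x19677) x19653) x19455) x19563) x19023) x19347) x17727) x18699) x13839) x16755) x2175) x10923) x6551)
  (sub (add (add (add (add (add (add (add (add (add (add (add (add (sub (sub C x19677) x19663) x19603) x19639) x19459) x19567) x19027) x19351) x17731) x18703) x13843) x16759) x2179) x10927) x13115)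
  (sub (add (add (add (add (add (add (add (add (add (add (add (add (sub (sub C x19675) x19671) x19605) x19641) x19461) x19569) x19029) x19353) x17733) x18705) x13845) x16761) x2181) x10929) x6557))
  (chk [x5, x11, x29, x41, x43, x83, x95, x97, x103, x107, x113, x115,
  x257, x259, x265, x269, x275, x277, x281, x289, x301, x305, x329, x331,
  x377, x395, x401, x403, x455, x457, x473, x761, x763, x767, x791, x815,
  x821, x829, x881, x887, x895, x935, x941, x943, x959, x1151, x1157, x1265,
  x1267, x1283, x1285, x1319, x1391, x2615, x2639, x2777, x3785])

noncomputable def RK : Nat := nat_lit 0xec90ad90a4f0a37056f05270505050304f304f10485047f03bf03af03ad03a7037f03770371033d0335032f031702ff02fb02f901d901c901c701930191018b0179014b01490131012d0121011901150113010d01090103010100730071006b00670061005f0053002b0029001d000b0005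

noncomputable def CK : Nat := nat_lit 0x600360012003600120036006c006c0036006c00360036006c0036006c006c006c006c0036006c006c006c006c006c006c006c0036006c00360036006c00360012006c006c006c006c006c006c006c006c006c006c006c006c006c006c006c006c006c006c0036006c006c003600360036

noncomputable def H : Nat := nat_lit 0x200000004000000000000006e000000000000000e000000000000007000000010000000000000000000000000000000da000000000000007a00000000000000000000000000000146000001b20000001a00000000000001f4000000000000018a000000dc0000007c00000000000000000000001c000000000000018800000000000001f60000000000000000000001b400000148000000000000021e00000000000000e60000000000000000000000000000028a000002f600000086000000000000036200000000000003ce00000000000000000000043a000004a6000000000000040600000000000001520000000000000398000001be00000000000000000000002600000000000004dc00000000000004720000032c000001e8000000000000000000000000000002c2000000000000017e0000000000000220000000e800000000000000000000008800000000000003d000000000000003640000000000000000000002f80000028c00000028000000000000047000000000000004de000002c00000017c0000000000000000000000000000032e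00000000000001ea000000000000000000000000000004a80000043c000000000000039a00000000000001c00000000000000404000001540000000000000000000000000000025c000000000000022a000000000000000000000000000005120000057e000000f200000000000005ea00000000000006560000000000000000000006c20000072e000000000000079a0000000000000296000000000000080600000302000000000000000000000092000000000000087200000000000008de000008300000036e000000000000000000000000000007c600000000000003da0000000000000000000000000000094a000009b6000000000000090a0000000000000446000000000000089c000004b20000000000000000000000000000068200000000000003fa000000000000000000000000000001af000004150000015e000000000000069d0000000000000a22000006140000038c0000000000000000000001ca000000000000065b0000000000000a8e000000000000000000000afa00000b660000002e00000000000009e0000000000000097600000758000004d0000000000000000000000000000006ee000000000000046600000000000005a8000003200000000000000000000001dc00000000000003d30000000000000b26000000000000000000000bd200000c3e000000000000053e00000000000002b600000000000000000000000000000caa00000c68000001720000000000000b9000000000000001830000025a0000022c00000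00000000000000000f4000000000000065800000000000005ec000000000000000000000580000005140000009400000000000008e00000000000000874000007c4000003dc00000000000000000000000000000832000000000000037000000000000000000000000000000730000006c400000000000008080000000000000304000000000000079c0000029800000000000000000000002c000000000000097400000000000009e2000006ec000004640000000000000000000000000000075a00000000000004d2000000000000053c000002b400000000000000000000017000000000000001850000000000000b92000000000000000000000c6a00000cac00000000000005aa000000000000032200000000000000000000000000000c4000000bd4000001de0000000000000b2400000000000003d20000000000000000000009b80000094c000000000000089e00000000000004b400000000000009080000044800000000000000000000000000000616000000000000038e00000000000000000000000000000b6800000afc000001cc0000000000000a90000000000000065a00000680000003f80000000000000000000001600000000000000a24000000000000069c000000000000000000000414000001ad0000000000000124000000000000026800000000000000000000000000000638000005cc00000236000000000000056000000000000006a4000000000000000000000d1600000d820000000000000dee000000000000051e00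00000000000dc40000058a0000000000000000000000fa0000000000000e300000000000000e5a00000d58000005f600000000000000000000000000000e9c000000000000066200000000000000000000000000000ec600000f200000000000000f3200000000000006ce0000000000000f9e0000073a00000000000000000000000000000e8000000000000007a6000000000000000000000000000002f3000007f7000002a20000000000000e5f0000000000000a9200000d3a0000081200000000000000000000030e00000000000008e3000000000000100a00000000000000000000107600000ca20000008e00000000000010e2000000000000113e00000fbc0000087e00000000000000000000000000000f5200000000000008ea0000000000000da60000082400000000000000000000037a000000000000046d000000000000114e0000000000000000000011ba000012260000000000000e0e00000000000007ba00000000000000000000000000001292000010b0000003e60000000000000b3400000000000001ef000000000000000000000a10000009a4000000000000111e00000000000009560000000000001100000009c200000000000000000000000000000e7a00000000000008fe0000000000000000000000000000057b00000e4b0000045200000000000011390000000000000b1f00000e12000008900000000000000000000004be000000000000097100000000000011520000000000000000000012c000000cd80000000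000000688000000000000067600000000000000000000000000000641000008c9000003ee00000000000009fb0000000000000b8b0000000000000000000003b9000004f7000000000000020f00000000000001a3000000000000048b0000042100000000000000000000016a000000000000098f0000000000000b3f00000931000006a900000000000000000000000000000ad30000000000000a2e00000000000005420000060800000000000000000000038000000000000009dd00000000000012fe00000000000000000000136a000012f9000001d600000000000010eb00000000000011a100000ead000006bb0000000000000000000000000000102a0000000000000a9a000000000000000000000000000013370000118b000000000000116e0000000000000b060000000000000b5200000b72000000000000000000000022000000000000098600000000000009f400000f02000009d400000000000000000000000000000ee6000000000000096a0000000000000da00000074c0000000000000000000004c400000000000004d900000000000013020000000000000000000013d6000014420000000000000d3600000000000006e2000000000000000000000000000014ae0000151a0000045a00000000000011a90000000000000369000005ae0000059c000000000000000000000314000000000000087b000000000000138300000000000000000000158600001515000001d00000000000000e2d00000000000012df000007d90000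0433000000000000000000000000000010960000000000000b1a000000000000000000000000000013f60000153800000000000011da0000000000000bde00000000000010ce00000c4a0000000000000000000000000000061c0000000000000532000000000000000000000000000015f2000014f7000002aa00000000000012db00000000000005f10000000000000000000014ce0000146000000000000012b20000000000000cb6000000000000124400000c5c0000000000000000000001660000000000000cf3000000000000055b00000c8400000b84000000000000000000000000000002d3000000000000018f00000000000001220000026600000000000000000000023800000000000006a600000000000005620000000000000000000005ce0000063a000000f80000000000000e5c0000000000000e3200000e9e0000066400000000000000000000000000000d5a00000000000005f800000000000000000000000000000d8400000d180000000000000dc6000000000000058c0000000000000df00000052000000000000000000000008c000000000000113c00000000000010e400000f50000008ec00000000000000000000000000000fbe00000000000008800000000000000e0c000007b80000000000000000000003e800000000000001f10000000000000b350000000000000000000010b1000012940000000000000da8000000000000082600000000000000000000000000001228000011bc0000037c00000000000011500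00000000000046b000000000000000000000f2200000ec80000000000000fa0000000000000073c0000000000000f34000006d000000000000000000000000000000d3c000000000000081400000000000000000000000000000ca30000107800000310000000000000100c00000000000008e200000e7e000007a80000000000000000000002a40000000000000a930000000000000e5e0000000000000000000007f5000002f10000002000000000000009f2000000000000098800000ee40000096800000000000000000000000000000f0400000000000009d60000000000000d34000006e0000000000000000000000458000000000000036b00000000000011ab00000000000000000000151c000014b00000000000000da2000000000000074e00000000000000000000000000001444000013d8000004c6000000000000130300000000000004d70000061a000005300000000000000000000002a800000000000005f300000000000012dd0000000000000000000014f9000015f400000164000000000000055d0000000000000cf5000002d50000019100000000000000000000000000000c850000000000000b8600000000000000000000000000001462000014cc00000000000012460000000000000c5e00000000000012b000000cb8000000000000000000000000000005b0000000000000059e0000000000000000000000000000151700001588000003160000000000001385000000000000087900000000000000000000153a000013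f400000000000010cf0000000000000c4c00000000000011d800000be00000000000000000000001d200000000000012de0000000000000e2b0000109400000b18000000000000000000000000000007d70000000000000432000000000000000000000000000009a600000a12000000000000110200000000000009c400000000000011200000095800000000000000000000000000000e14000000000000089200000000000000000000000000000cd9000012c1000004c00000000000001153000000000000096f00000e78000008fc0000000000000000000004540000000000000b210000000000001137000000000000000000000e49000005790000000000000544000000000000060a000000000000000000000000000012fb0000136c00000382000000000000130000000000000009db00000000000000000000118d000013350000000000000b530000000000000b74000000000000116c00000b080000000000000000000001d800000000000011a000000000000010e90000102800000a9c00000000000000000000000000000eac00000000000006ba0000000000000686000006740000000000000000000003ec0000000000000b8d00000000000009f90000000000000000000008c70000063f0000016c0000000000000b3d000000000000098d00000ad100000a300000000000000000000000000000093000000000000006a8000000000000000000000000000004f5000003b70000000000000489000000000000042000000000000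0020d000001a1000000000000000000000000000000c40000000000000130000000000000000000000000000003b0000003440000026c00000000000002d8000000000000041c00000000000000000000085a0000084800000000000008b4000000000000062c0000000000000770000005c000000000000000000000023200000000000007dc00000000000007f0000007040000055400000000000000000000000000000920000000000000069800000000000000000000000000000ddc00000d700000000000000ff20000000000000d220000000000000fd400000d8e000000000000000000000000000011180000000000000dfa000000000000000000000000000004a3000009190000052a0000000000000e950000000000000afe00000eea00000db800000000000000000000059600000000000007c1000000000000107a00000000000000000000125400000c6c000000ee0000000000000eb60000000000000e4400000f6800000e2400000000000000000000000000000f880000000000000e660000000000000efc00000d4c00000000000000000000060200000000000002bd00000000000012c80000000000000000000011f0000010ac00000000000011080000000000000e9000000000000000000000000000001184000010400000066e0000000000000ac800000000000001b90000000000000000000007880000071c0000000000000fec0000000000000ed20000000000000f8000000f1400000000000000000000000000000f98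0000000000000f3e0000000000000000000000000000072b00000f8f000006da0000000000000f4d0000000000000bd600000f5600000faa00000000000000000000074600000000000006e900000000000011be0000000000000000000011e800000c0000000000000009100000000000000e8c00000000000000000000000000000d7f00000fe3000007b20000000000000ee10000000000000c630000000000000000000008570000077f000000000000035300000000000002e70000000000000713000007eb0000000000000000000002ae0000000000000f0b00000000000010bb00000f7700000ebf0000000000000000000000000000103b0000000000000abf00000000000006f200000d4600000000000000000000081e000000000000075500000000000013da00000000000000000000165e000012210000031a0000000000000fb9000000000000152100000f6500000943000000000000000000000000000016ca000000000000101600000000000000000000000000001413000011f7000000000000155400000000000010820000000000000c0f00000c96000000000000000000000082000000000000093a00000000000008ce00000f6e000010ee00000000000000000000000000000fdc00000000000011320000000000000fc200000fb000000000000000000000088a0000000000000329000000000000136e0000000000000000000016620000157e00000000000010060000000000000f4600000000000000000000000000001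53d000016cf000008f6000000000000102500000000000002fd0000075e00000db2000000000000000000000818000000000000082d000000000000158a0000000000000000000017360000143d000003860000000000000d5500000000000014fb000007010000047900000000000000000000000000001567000000000000115a000000000000000000000000000017600000166d00000000000016a400000000000011c6000000000000121200001232000000000000000000000000000008a40000000000000e02000000000000000000000000000014d100001563000007ae000000000000109100000000000005850000000000000000000015c90000141c00000000000013b0000000000000129e0000000000001200000010bc0000000000000000000003f20000000000000c8d00000000000005c700000c1800000b400000000000000000000000000000033f00000000000001fb000000000000000000000000000005000000049400000000000008ba0000000000000a0400000000000009280000099800000000000000000000000000000e54000000000000112a000000000000000000000000000009b30000110f000009620000000000000e090000000000000cae00000ea4000010f40000000000000000000009ce0000000000000539000000000000129600000000000000000000117c00000b6100000000000008000000000000000e6e00000000000000000000000000000f2f00001001000008f20000000000000d310000000000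000c45000000000000000000000de500000dd300000000000005db000000000000056f0000000000000d6700000e3f00000000000000000000045e0000000000000d9d000000000000122d00000fcb00001145000000000000000000000000000010a70000000000000b2b00000000000007ca00000e1e00000000000000000000088400000000000005a500000000000014b2000000000000000000001547000010dd000004ca0000000000000daf000000000000144900000ef90000097d0000000000000000000000000000157d00000000000011b20000000000000000000000000000146f0000125300000000000014e800000000000012cc0000000000000c7b00000ce40000000000000000000000000000040c000000000000069400000000000000000000000000000a19000008ab0000066a00000000000006230000000000000b6d0000000000000000000007910000086900000000000005e1000000000000064d000000000000083f000008d50000000000000000000003e200000000000005b70000000000000ca100000767000009ef00000000000000000000000000000c770000000000000b9700000000000000000000000000000509000003a7000000000000035900000000000003c5000000000000033b000004eb00000000000000000000000000000215000000000000020300000000000000000000000000000061000000cb00000197000000000000012b00000000000001a5000002cf0000047f00000000000000000000042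d000000000000026300000000000002e90000000000000000000004990000041300000176000000000000054b0000000000000ce3000006fb0000098300000000000000000000000000000c0b0000000000000b3300000000000007d30000093d0000000000000000000006b500000000000002230000000000000571000000000000000000000721000007f90000000000000b590000000000000ac7000000000000000000000000000009a90000091700000a36000000000000068f000000000000014a000002c60000054e0000000000000000000005fc000000000000061100000000000015f60000000000000000000014db000012bf000003740000000000000d43000000000000150d00000ef3000009e900000000000000000000000000001435000000000000130a00000000000000000000000000001403000011e700000000000015b3000000000000137600000000000010a3000012ed0000000000000000000001e20000000000000e1b00000000000012f100000f5f0000114b0000000000000000000000000000121900000000000011ad0000000000000ea700000eb90000000000000000000006af00000000000000df0000000000000643000000000000000000000d7500000e4d00000000000010d5000000000000101e00000000000000000000000000000f2500000f9100000aa20000000000000e75000000000000028e00000000000000000000133e0000117b00000000000013aa000000000000132b00000000000010370000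1197000000000000000000000000000012b8000000000000116200000000000000000000000000000a1b0000111100000b120000000000000e87000000000000051600000ad700000b46000000000000000000000b7e000000000000067d00000000000006300000000000000000000003a80000021600000016000000000000048200000000000004f00000070a00000992000000000000000000000000000007780000000000000a000000000000000d5e00000f0e0000000000000000000009c80000000000000395000000000000132d00000000000000000000141a000014f20000000000000dcc0000000000000eda000000000000000000000000000014650000155e0000095e000000000000116900000000000004ad0000083600000d94000000000000000000000740000000000000080f00000000000013ef000000000000000000001758000015a8000004b80000000000000dc1000000000000145b0000076d000004e5000000000000000000000000000014270000000000001323000000000000000000000000000017a200001745000000000000175000000000000013e2000000000000142e0000144e0000000000000000000000000000086e0000000000000d2a000000000000000000000000000013f9000016ae000006d600000000000011d500000000000007350000000000000000000017690000175700000000000015b900000000000014ba00000000000016760000152600000000000000000000044e00000000000012410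000000000000d89000012090000119d0000000000000000000000000000084300000000000003c90000000000000332000005ba000000000000000000000590000000000000089900000000000014c70000000000000000000015c4000013a8000003080000000000000fa7000000000000153300000fd1000008db00000000000000000000000000001672000000000000137e0000000000000000000000000000176b0000169c000000000000174a00000000000015920000000000001575000015090000000000000000000001c400000000000010fd000000000000118f00000f7d00000e39000000000000000000000000000011fb00000000000012d3000000000000092b000007e5000000000000000000000427000000000000007300000000000003bb00000000000000000000084d000008bf000000000000124c000000000000108a00000000000000000000000000000de700000fe500000b0e0000000000001123000000000000043e0000000000000000000014060000154c000000000000169e00000000000013ea00000000000016e20000152c000000000000000000000000000011e000000000000011ce0000000000000000000000000000079300000ff700000be60000000000000f3700000000000006c60000102e000010c2000000000000000000000c5600000000000009050000000000000d1a00000000000000000000085e0000035a00000000000003a000000000000006280000000000000000000000000000133a000013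ba0000052600000000000012ad00000000000009bd00000000000000000000140a000015ba00000000000014e200000000000015fe000000000000142b0000150300000000000000000000029e00000000000010cb0000000000000f1b0000120f000012e700000000000000000000000000000d6b000000000000065100000000000000000000000000001472000014e0000000000000154e00000000000014c2000000000000156c000014540000000000000000000000000000117400000000000012a60000000000000000000000000000050b000008ad00000cbe0000000000000df3000000000000094e0000109a00001238000000000000000000000c50000000000000079f0000000000000eca000000000000000000000dd4000005e20000015a0000000000000b4f000000000000099f00000c1200000cea0000000000000000000000000000071700000000000005670000000000000c7e00000c90000000000000000000000b7800000000000004010000000000000a08000000000000000000000780000005d0000000000000048f00000000000002df000000000000000000000000000004f8000003480000019b00000000000002040000000000000006000000c20000012e00000000000000000000026e000000000000041e00000000000002da000000000000000000000346000003b20000023000000000000007ee00000000000007de000009220000069a00000000000000000000000000000706000000000000055600000000000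00000000000000000084a0000085c000000000000077200000000000005c200000000000008b60000062e0000000000000000000000ec0000000000000e420000000000000eb400000f8600000e6800000000000000000000000000000f6a0000000000000e26000000000000110600000e9200000000000000000000067000000000000001bb0000000000000ac9000000000000000000001042000011860000000000000efe0000000000000d4e000000000000000000000000000010ae000011f20000060400000000000012ca00000000000002bb000000000000000000000d7200000dde0000000000000fd60000000000000d900000000000000ff400000d2400000000000000000000000000000eec0000000000000dba00000000000000000000000000000c6d0000125500000598000000000000107b00000000000007bf0000111a00000dfc00000000000000000000052c0000000000000aff0000000000000e94000000000000000000000918000004a10000008000000000000008cc000000000000093800000fda0000113000000000000000000000000000000f7000000000000010f0000000000000100400000f440000000000000000000008f800000000000002ff00000000000010230000000000000000000016ce0000153c0000000000000fc40000000000000fb20000000000000000000000000000157f000016630000088c000000000000136f0000000000000327000008a200000e000000000000000000000007ac00000000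00000587000000000000108f000000000000000000001565000014d0000003f400000000000005c90000000000000c8f00000341000001fd00000000000000000000000000000c190000000000000b410000000000000000000000000000141d000015cb000000000000120100000000000010bd00000000000013b1000012a0000000000000000000000000000007600000000000000db40000000000000000000000000000143f000017380000081a000000000000158b000000000000082b00000000000000000000166b000017620000000000001213000000000000123400000000000016a5000011c800000000000000000000038800000000000014fa0000000000000d53000015660000115c000000000000000000000000000006ff00000000000004770000000000000000000000000000071e0000078a0000000000000f820000000000000f160000000000000fee00000ed400000000000000000000000000000f580000000000000fac00000000000000000000000000000c01000011e90000074800000000000011bf00000000000006e700000f9a00000f400000000000000000000006dc0000000000000bd70000000000000f4b000000000000000000000f8d0000072900000000000006f40000000000000d4800000000000000000000000000001223000016600000082000000000000013db00000000000007530000000000000000000011f9000014150000000000000c110000000000000c9700000000000015550000108400000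000000000000000031c00000000000015230000000000000fb7000016cc0000101800000000000000000000000000000f630000000000000942000000000000090e00000e8a0000000000000000000007b40000000000000c650000000000000edf000000000000000000000fe100000d7d000002b000000000000010b90000000000000f090000103d00000ac100000000000000000000000000000f750000000000000ebe0000000000000000000000000000077d00000855000000000000071100000000000007e90000000000000351000002e500000000000000000000001400000000000004ee000000000000048400000776000009fe0000000000000000000000000000070c00000000000009940000000000000dca00000ed800000000000000000000095c00000000000004af000000000000116700000000000000000000155c000014640000000000000d600000000000000f10000000000000000000000000000014f000001418000009ca000000000000132c00000000000003930000086c00000d280000000000000000000006d4000000000000073700000000000011d30000000000000000000016ac000013f80000044c0000000000000d8b000000000000123f00000845000003cb0000000000000000000000000000120b000000000000119f00000000000000000000000000001755000017670000000000001678000000000000152800000000000015b7000014bc000000000000000000000000000008380000000000000d9600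0000000000000000000000000015a9000017590000074200000000000013f1000000000000080d000000000000000000001743000017a4000000000000142f0000000000001450000000000000174e000013e40000000000000000000004ba000000000000145d0000000000000dbf00001425000013250000000000000000000000000000076b00000000000004e3000000000000039e0000062600000000000000000000052400000000000009bf00000000000012ab0000000000000000000013b80000133c0000029c0000000000000f1d00000000000010cd00000d6d000006530000000000000000000000000000121100000000000012e9000000000000000000000000000015bb0000140b000000000000142d000000000000150500000000000014e30000160000000000000000000000015800000000000009a10000000000000b51000007190000056900000000000000000000000000000c130000000000000ceb0000000000000491000002e100000000000000000000019d00000000000000070000000000000205000000000000000000000349000004f90000000000000c7f0000000000000c91000000000000000000000000000005d10000078100000b7a0000000000000a0900000000000003ff0000000000000000000014de00001474000000000000156d0000000000001456000000000000154f000014c00000000000000000000000000000109c000000000000123a000000000000000000000000000005e300000dd500000c5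20000000000000ecb000000000000079e00001172000012a4000000000000000000000cbc000000000000094f0000000000000df20000000000000000000008ac0000050a000000000000033400000000000005bc000000000000000000000000000013a6000015c20000059200000000000014c9000000000000089700000000000000000000169a0000176a0000000000001577000000000000150b00000000000017480000159400000000000000000000030a00000000000015350000000000000fa5000016700000137c00000000000000000000000000000fcf00000000000008d90000000000000000000000000000154a0000140800000000000016e4000000000000152e000000000000169f000013e80000000000000000000000000000103000000000000010c30000000000000000000000000000035b0000085f00000c580000000000000d1b0000000000000903000011de000011cc000000000000000000000be400000000000006c70000000000000f36000000000000000000000ff600000792000001c6000000000000118e00000000000010fb000011fa000012d200000000000000000000000000000f7b0000000000000e37000000000000124a00001088000000000000000000000b0c000000000000043f0000000000001122000000000000000000000fe400000de6000000000000092a00000000000007e3000000000000000000000000000008be0000084c0000042600000000000003ba0000000000000072000000000000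000000000496000005020000000000000926000000000000099a00000000000008bc00000a0600000000000000000000000000000ea200000000000010f600000000000000000000000000000b630000117d000009d00000000000001297000000000000053700000e560000112c0000000000000000000009640000000000000caf0000000000000e0700000000000000000000110d000009b100000000000007cc0000000000000e20000000000000000000000000000010df000015450000088600000000000014b300000000000005a30000000000000000000012510000146d0000000000000c7d0000000000000ce500000000000014e9000012cd0000000000000000000004cc000000000000144b0000000000000dad0000157b000011b300000000000000000000000000000ef7000000000000097b000000000000080200000e6c0000000000000000000008f00000000000000c470000000000000d2f000000000000000000000fff00000f2d00000460000000000000122f0000000000000d9b000010a900000b2d00000000000000000000000000000fc9000000000000114300000000000000000000000000000dd100000de30000000000000d650000000000000e3d00000000000005d90000056d000000000000000000000000000002c80000000000000550000000000000000000000000000012bd000014d9000005fe00000000000015f7000000000000060f0000000000000000000011e50000140100000000000010a1000000000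00012ef00000000000015b100001378000000000000000000000376000000000000150c0000000000000d41000014340000130c00000000000000000000000000000ef100000000000009e7000000000000000000000000000011790000133f0000000000001035000000000000119900000000000013ab0000132900000000000000000000000000000ad90000000000000b4700000000000000000000000000000217000003a900000b800000000000000631000000000000067b000012b600001160000000000000000000000b1400000000000005170000000000000e8500000000000000000000111000000a1a000001e400000000000012f00000000000000e1900001218000011ac00000000000000000000000000000f5d000000000000114900000000000010d40000101c000000000000000000000aa0000000000000028f0000000000000e73000000000000000000000f9000000f240000000000000ea60000000000000eb800000000000000000000000000000e4c00000d74000006ae000000000000064200000000000000de0000040a000006920000000000000000000006680000000000000b6f00000000000006210000000000000000000008a900000a17000003e00000000000000c9f00000000000005b500000c7500000b990000000000000000000000000000076500000000000009ed000000000000000000000000000008670000078f000000000000083d00000000000008d300000000000005df0000064b00000000000000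00000001780000000000000ce1000000000000054900000c0900000b31000000000000000000000000000006f900000000000009810000000000000b5800000ac5000000000000000000000a34000000000000014b000000000000068d000000000000000000000915000009a800000000000007d1000000000000093c000000000000000000000000000007f800000720000006b4000000000000057000000000000002220000000000000000000003a500000507000000000000033900000000000004e90000000000000357000003c3000000000000000000000000000002cd000000000000047d00000000000000000000000000000411000004980000042c00000000000002e80000000000000261000002130000020100000000000000000000019500000000000001a400000000000001290000000000000000000000c900000060000000000000006400000000000000c8000000000000000000000000000002120000020000000128000000000000019400000000000001a8000000000000000000000356000003c2000000000000050600000000000003a400000000000004e800000338000000000000000000000260000000000000043000000000000002ec0000047c000002cc0000000000000000000000000000049c0000000000000410000000000000000000000000000005de0000064a000000000000078e000000000000086600000000000008d20000083c00000000000000000000000000000a1600000000000008a800000000000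000000000000000000409000006910000062000000000000006670000000000000b6a000009ec000007640000000000000000000005b400000000000003df0000000000000c9e000000000000000000000c7400000b940000022600000000000006b8000000000000057400000940000007d00000000000000000000000000000072400000000000007fc0000000000000980000006f800000000000000000000054800000000000001790000000000000ce0000000000000000000000c0800000b3000000000000009ac000000000000091400000000000000000000000000000b5c00000ac40000068c0000000000000a33000000000000014d0000000000000000000005d80000056c0000000000000de20000000000000dd00000000000000e3c00000d6400000000000000000000000000000f2c0000000000000ffe0000000000000000000000000000080300000e6b00000d2e00000000000008ef0000000000000c420000114200000fc8000000000000000000000d9a0000000000000461000000000000122a0000000000000000000010a400000b2800000000000009b0000000000000110c00000000000000000000000000000e570000112d00000e0600000000000009650000000000000cb10000000000000000000008bd00000a0700000000000005030000000000000497000000000000099b0000092500000000000000000000053600000000000009d10000000000001299000010f700000ea10000000000000000000000000000117f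0000000000000b5e000000000000097a00000ef6000000000000000000000dac00000000000004cd000000000000144600000000000000000000157a000011b5000005a2000000000000088700000000000014b500000e21000007cd0000000000000000000000000000154400000000000010da000000000000000000000000000014eb000012cf000000000000146c00000000000012500000000000000ce700000c780000000000000000000000e200000000000006b2000000000000064600000ebc00000eaa00000000000000000000000000000d780000000000000e50000000000000114800000f5c000000000000000000000e1800000000000001e500000000000012f400000000000000000000121c000011b00000000000000f280000000000000f94000000000000000000000000000010d80000101b00000e720000000000000a9f0000000000000291000009e600000ef0000000000000000000000d40000000000000037700000000000015100000000000000000000014380000130d0000060e00000000000005ff00000000000015f900000551000002c9000000000000000000000000000014d800000000000012bc000000000000000000000000000015b000001379000000000000140000000000000011e400000000000012ea000010a000000000000000000000000000000a1e0000000000001114000000000000000000000000000012b50000115f00000e840000000000000b150000000000000519000000000000000000001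3ad000013280000000000001341000000000000117800000000000011940000103400000000000000000000067a0000000000000b81000000000000063300000b4900000ad4000000000000000000000000000003ab000000000000021900000000000000000000000000000350000002e40000000000000854000000000000077c00000000000007e80000071000000000000000000000000000000d7c0000000000000fe00000000000000000000000000000090d00000e8900000ede00000000000007b50000000000000c6000000ec200000f74000000000000000000000f0800000000000002b100000000000010b800000000000000000000103800000abc00000000000007280000000000000f8c00000000000000000000000000000f9b00000f4100000f4a00000000000006dd0000000000000bd9000000000000000000000fef00000ed5000000000000078b000000000000071f0000000000000f1700000f830000000000000000000006e6000000000000074900000000000011c100000fad00000f59000000000000000000000000000011eb0000000000000c03000000000000094600000f62000000000000000000000fb6000000000000031d000000000000151e0000000000000000000016cd0000101900000752000000000000082100000000000013dd00000d49000006f500000000000000000000000000001661000000000000121e0000000000000000000000000000155700001085000000000000141000000000000011f400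00000000000c9900000c0c000000000000000000000000000004a0000000000000091c0000000000000000000000000000111b00000dfd00000e98000000000000052d0000000000000b01000000000000000000000ff500000d250000000000000ddf0000000000000d730000000000000d9100000fd70000000000000000000007be0000000000000599000000000000107d00000dbb00000eed000000000000000000000000000012570000000000000c6f000000000000000000000000000008b70000062f000000000000085d000000000000084b00000000000005c300000773000000000000000000000000000003b30000000000000347000000000000000000000000000000c10000012d000002db000000000000026f000000000000041f00000557000007070000000000000000000007df000000000000022f00000000000007ed0000000000000000000009230000069b000002ba000000000000060500000000000012cb00000d4f00000eff000000000000000000000000000011f300000000000010af0000000000000e2700000f6b000000000000000000000eb300000000000000eb0000000000000e41000000000000000000000f8500000e69000000000000118700000000000010430000000000000000000000000000110500000e9300000acb000000000000067100000000000001b600000476000006fe000000000000000000000d52000000000000038900000000000014fe00000000000000000000156a0000115d0000082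a000000000000081b000000000000158d00000db50000076100000000000000000000000000001739000000000000143a000000000000000000000000000016a7000011c90000000000001763000000000000166a000000000000123500001215000000000000000000000326000000000000088d000000000000137100000fb300000fc500000000000000000000000000001665000000000000158100000000000010f100000f71000000000000000000000937000000000000007f00000000000008cb000000000000000000000fd90000112f000000000000154000000000000016d20000000000000000000000000000100300000f430000102200000000000008f900000000000002fa0000000000000000000013b3000012a100000000000015c6000000000000141f00000000000010bf00001203000000000000000000000000000014d40000000000001560000000000000000000000000000008a100000dff0000108e00000000000007ab000000000000058200000b4300000c1b000000000000000000000c8a00000000000003f500000000000005c400000000000000000000033c000001f800000076000000000000042a00000000000003be000007e20000092e0000000000000000000000000000085000000000000008c20000000000000e3600000f7a0000000000000000000010fa00000000000001c700000000000011920000000000000000000011fe000012d60000000000000dea0000000000000fe800000000000000000000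00000000124900001087000011260000000000000b0b0000000000000441000008d800000fce000000000000000000000fa4000000000000030b000000000000153000000000000000000000166f0000137b00000896000000000000059300000000000014c4000005bd00000335000000000000000000000000000015c100000000000013a50000000000000000000000000000174700001595000000000000176e0000000000001699000000000000150600001572000000000000000000000000000007960000000000000ffa000000000000000000000000000011dd000011cb00000f3a0000000000000be300000000000006c90000000000000000000016a1000013e700000000000014090000000000001549000000000000152f000016e50000000000000000000009020000000000000c590000000000000d1d000010c50000103100000000000000000000000000000861000000000000035d00000000000004e20000076a000000000000000000000dbe00000000000004bb0000000000001458000000000000000000001424000013200000080c000000000000074300000000000013ec00000d97000008390000000000000000000000000000175b00000000000015ab0000000000000000000000000000174d000013e500000000000017a5000000000000174200000000000014510000143100000000000000000000039200000000000009cb000000000000133000000f1100000d6100000000000000000000000000001417000000000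00014ef00000000000009950000070d000000000000000000000485000000000000001300000000000004ed000000000000000000000775000009fd0000000000001468000000000000155b00000000000000000000000000000dc900000ed700001166000000000000095b00000000000004aa0000000000000000000015b6000014bd00000000000017660000000000001754000000000000152900001679000000000000000000000000000013fc00000000000016ab0000000000000000000000000000086b00000d27000011d200000000000006d300000000000007320000119a0000120600000000000000000000123e000000000000044b0000000000000d86000000000000000000000840000003c6000000000000050e00000000000008b000000000000000000000000000001171000012a300000df60000000000000cbb0000000000000951000000000000000000001551000014bf000000000000147500000000000014dd00000000000014570000156f0000000000000000000007a20000000000000c530000000000000ecd0000123b0000109d00000000000000000000000000000dd700000000000005e5000000000000000000000000000014e500001601000000000000140d00000000000015bd0000000000001500000014280000000000000000000000000000133d00000000000013b70000000000000000000000000000039d00000625000012aa000000000000052300000000000009ba000012e40000120c00000000000000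00000010c8000000000000029b0000000000000f18000000000000000000000d680000064e000003fe0000000000000b7b0000000000000a0b00000c9300000c810000000000000000000000000000078300000000000005d30000000000000ced00000c15000000000000000000000b4c0000000000000157000000000000099c0000000000000000000007140000056400000000000004fb000000000000034b0000000000000000000000000000048c000002dc000002070000000000000198000000000000000900000000000000000000020c000001a000000000000003b600000000000004f40000000000000424000004880000000000000000000000000000063e00000000000008c60000000000000000000000000000068500000673000009f800000000000003eb0000000000000b88000006ac0000093400000000000000000000098c000000000000016d0000000000000b3c000000000000000000000ad000000a3100000000000005780000000000000e4800000000000000000000000000000e77000008fb0000113600000000000004550000000000000b1c000000000000000000001121000009590000000000000a1300000000000009a700000000000009c50000110300000000000000000000096e00000000000004c100000000000011550000089300000e15000000000000000000000000000012c30000000000000cdb00000000000006be00000eb00000000000000000000010e800000000000001d900000000000011a4000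00000000000000000102700000a9d000009da000000000000038300000000000013010000060b000005450000000000000000000000000000136d00000000000012f60000000000000000000000000000116b00000b09000000000000133400000000000011880000000000000b7500000b55000000000000000000000000000002f000000000000007f400000000000000000000000000000e7d000007a900000e6200000000000002a50000000000000a95000000000000000000000f35000006d10000000000000ec90000000000000f23000000000000073d00000fa10000000000000000000008e60000000000000311000000000000100d0000081500000d3d000000000000000000000000000010790000000000000ca500000000000000000000000000000df1000005210000000000000d190000000000000d85000000000000058d00000dc70000000000000000000000000000063b00000000000005cf000000000000000000000000000001210000026500000563000000000000023900000000000006a7000005f900000d5b000000000000000000000e3300000000000000f70000000000000e5d000000000000000000000e9f000006650000046a000000000000037d00000000000011510000082700000da9000000000000000000000000000011bd0000000000001229000000000000088100000fbf0000000000000000000010e5000000000000008b000000000000113b000000000000000000000f4f000008ed0000000000001295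00000000000010b300000000000000000000000000000e0b000007b700000b3700000000000003e900000000000001ec00000436000007d6000000000000000000000e2a00000000000001d300000000000012e200000000000000000000109300000b1700000878000000000000031700000000000013800000059f000005b1000000000000000000000000000015890000000000001512000000000000000000000000000011d700000be100000000000013f3000000000000153b0000000000000c4d000010d10000000000000000000004d600000000000004c700000000000013050000074f00000da3000000000000000000000000000013d9000000000000144500000000000009d700000f05000000000000000000000989000000000000001f00000000000009f1000000000000000000000ee30000096700000000000014b1000000000000151d00000000000000000000000000000d33000006df000011a6000000000000045700000000000003660000000000000000000012af00000cb900000000000014cb00000000000014630000000000000c5f00001247000000000000000000000000000015f500000000000014f4000000000000000000000000000006190000052f000012d800000000000002a700000000000005ee00000b8700000c87000000000000000000000cf0000000000000016300000000000005580000000000000000000002d00000018c00000000000001ac000000000000041800000000000000000000000000000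67f000003f7000006a000000000000001610000000000000a2500000000000000000000090700000449000000000000094d00000000000009b900000000000004b50000089f00000000000000000000065e00000000000001cd0000000000000a910000038f0000061700000000000000000000000000000afd0000000000000b690000000000000000000000000000079d0000029900000000000006c50000000000000731000000000000030500000809000000000000000000000000000005150000000000000581000000000000000000000000000002590000022d000005ed00000000000000f500000000000006590000037100000833000000000000000000000875000000000000009500000000000008e10000000000000000000007c3000003dd000003d600000000000001df0000000000000b2300000323000005ab00000000000000000000000000000bd50000000000000c4100000000000004d30000075b0000000000000000000009e3000000000000002b00000000000009730000000000000000000006eb000004630000000000000cad0000000000000c6b0000000000000000000000000000053b000002b300000b93000000000000016f000000000000018000000000000000000000040300000155000000000000043d00000000000004a900000000000001c10000039b0000000000000000000000000000028d00000000000002f900000000000000000000000000000221000000e90000036500000000000000890000000000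0003d1000001eb0000032f0000000000000000000004df0000000000000029000000000000046f0000000000000000000002bf0000017b000000000000014900000000000001b5000000000000000000000000000000dd0000007d000001f7000000000000001d00000000000001870000000000000000000000710000001100000000000000050000000000000001000000000000000d0000006d00000000000000000000018b000000000000001900000000000001f300000079000000d9000000000000000000000000000001b10000000000000145000000000000017f000002c3000000000000000000000473000000000000002500000000000004db00000000000000000000032b000001e7000003cd00000000000000850000000000000361000000e50000021d000000000000000000000000000002f5000000000000028900000000000000000000000000000397000001bd00000000000004a5000000000000043900000000000001510000040700000000000000000000018200000000000001730000000000000b8f000002b70000053f00000000000000000000000000000c670000000000000ca90000000000000467000006ef000000000000000000000977000000000000002f00000000000009df000000000000000000000757000004cf0000000000000c3d0000000000000bd1000000000000000000000000000005a70000031f00000b2700000000000001db00000000000003d5000003d9000007c70000000000000000000008d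d0000000000000091000000000000087100000000000000000000082f0000036d0000065500000000000000f100000000000005e9000002290000025d0000000000000000000000000000057d00000000000005110000000000000000000000000000080500000301000000000000072d00000000000006c100000000000002950000079900000000000000000000000000000b650000000000000af9000000000000000000000000000006130000038b00000a8d00000000000001c9000000000000065d00000000000000000000089b000004b100000000000009b5000000000000094900000000000004450000090b000000000000000000000a21000000000000015d000000000000069f000003fb000006830000000000000000000000000000041700000000000001aa000000000000018e000002d200000000000000000000055a00000000000001670000000000000cf2000000000000000000000c8800000b83000005f000000000000002ab00000000000012da000005330000061d000000000000000000000000000014f600000000000015f10000000000000000000000000000124300000c5b000000000000145f00000000000014cf0000000000000cb5000012b3000000000000000000000368000000000000045b00000000000011a8000006e300000d370000000000000000000000000000151900000000000014ad000000000000096b00000ee70000000000000000000009f500000000000000230000000000000985000000000000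000000000f01000009d3000000000000144100000000000013d500000000000000000000000000000d9f0000074b0000130600000000000004c300000000000004d40000000000000000000010d200000c49000000000000153700000000000013f70000000000000bdd000011db000000000000000000000000000015140000000000001585000000000000000000000000000005ad0000059b000013820000000000000313000000000000087600000b1b000010970000000000000000000012e100000000000001cf0000000000000e280000000000000000000007d400000435000001ee00000000000003e50000000000000b38000007bb00000e0f000000000000000000000000000010b4000000000000129100000000000008e900000f5300000000000000000000113f000000000000008f00000000000010e1000000000000000000000fbb0000087d000000000000122500000000000011b900000000000000000000000000000da5000008230000114d000000000000037900000000000004680000066100000e9b000000000000000000000e5900000000000000fb0000000000000e2f000000000000000000000d57000005f5000006a30000000000000235000000000000055f0000026900000125000000000000000000000000000005cb000000000000063700000000000000000000000000000dc3000005890000000000000d810000000000000d15000000000000051d00000ded00000000000000000000000000000ca6000000000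000107500000000000000000000000000000d390000081100001009000000000000030d00000000000008e5000000000000000000000f9d000007390000000000000f1f0000000000000ec500000000000006cd00000f31000000000000000000000a9600000000000002a10000000000000e61000007a500000e81000000000000000000000000000007f200000000000002ee00000000000000000000000000000b5600000b71000000000000118a00000000000013320000000000000b050000116f000000000000000000000000000012f800000000000013690000000000000000000000000000054100000607000012fd000000000000037f00000000000009d800000a990000102b0000000000000000000011a300000000000001d500000000000010e6000000000000000000000eaf000006bd0000000000000cdc00000000000012c400000000000000000000000000000e110000088f0000115600000000000004bd000000000000096c0000000000000000000010ff000009c100000000000009a30000000000000a0f00000000000009550000111d000000000000000000000b1e00000000000004510000000000001134000008ff00000e7b00000000000000000000000000000e4600000000000005760000000000000a2d00000ace000000000000000000000b3a0000000000000169000000000000098a000000000000000000000933000006ab00000b8a00000000000003ef00000000000009f6000006770000068900000000000000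0000000000000008c4000000000000063c000000000000000000000000000004860000042300000000000004f200000000000003b4000000000000019e0000020a00000000000000000000000a000000000000019a0000000000000208000002de0000048e0000000000000000000000000000034c00000000000004fc00000000000005660000071600000000000000000000099e000000000000015b0000000000000b4e000000000000000000000c1600000cee00000000000005d4000000000000078400000000000000000000000000000c8200000c9400000a0c0000000000000b7700000000000003fc0000065000000d6a000000000000000000000f1a000000000000029f00000000000010ca00000000000000000000120e000012e6000009bc000000000000052700000000000012a800000629000003a1000000000000000000000000000013bb00000000000013390000000000000000000000000000142a0000150200000000000015be000000000000140e00000000000015fd000014e6000000000000000000000000000005e60000000000000dd8000000000000000000000000000010990000123700000ece0000000000000c4f00000000000007a10000000000000000000015700000145300000000000014e1000000000000147100000000000014c3000015520000000000000000000009520000000000000cbf0000000000000df5000012a700001175000000000000000000000000000008af000000000000050d00000000000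003c800000842000000000000000000000d88000000000000044f000000000000123c0000000000000000000012080000119c0000073400000000000006d700000000000011d000000d2b0000086f000000000000000000000000000016af00000000000013fb00000000000000000000000000001675000015250000000000001752000000000000176400000000000014b9000015b40000000000000000000004ac000000000000095f000000000000116400000edb00000dcd0000000000000000000000000000155f00000000000014670000000000000a01000007790000000000000000000004f1000000000000001700000000000004810000000000000000000007090000099100000000000014f3000000000000141b00000000000000000000000000000d5d00000f0d0000132f00000000000009c700000000000003900000000000000000000014320000144d000000000000174000000000000017a100000000000013e100001751000000000000000000000000000015ac000000000000175c0000000000000000000000000000083500000d93000013ee000000000000073f000000000000080a000013220000142200000000000000000000145a00000000000004b70000000000000dbc000000000000000000000768000004e0000000000000035e00000000000008620000000000000000000000000000102d000010c600000d1e0000000000000c5500000000000009000000000000000000000016e10000152b000000000000154d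000000000000140500000000000013eb000016a20000000000000000000006ca0000000000000be70000000000000f39000011cf000011e100000000000000000000000000000ff900000000000007950000000000000000000000000000157400001508000000000000169d000000000000176d00000000000015910000174b000000000000000000000000000013a900000000000015c500000000000000000000000000000331000005b9000014c6000000000000058f00000000000008940000137f0000167300000000000000000000153200000000000003070000000000000fa2000000000000000000000fcc000008d6000004420000000000000b0f00000000000011250000108b0000124d00000000000000000000000000000fe70000000000000de900000000000012d5000011fd00000000000000000000119100000000000001c300000000000010f8000000000000000000000f7800000e3400000000000008c1000000000000084f0000000000000000000000000000092d000007e0000003bd00000000000004290000000000000075000001fa0000033e0000000000000000000005c600000000000003f10000000000000c8c000000000000000000000c1c00000b440000058400000000000007af000000000000108c00000e03000008a50000000000000000000000000000156200000000000014d300000000000000000000000000001204000010c0000000000000142000000000000015c8000000000000129d000013b400000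00000000000000002fc00000000000008f5000000000000102000000f4700001007000000000000000000000000000016d1000000000000153f000000000000113300000fdd0000000000000000000008cf0000000000000083000000000000093b000000000000000000000f6d000010ed0000000000001582000000000000166600000000000000000000000000000fc100000faf0000137200000000000008890000000000000324000000000000000000001216000012310000000000001668000000000000175f00000000000011c5000016a80000000000000000000000000000143c00000000000017350000000000000000000000000000075d00000db10000158e0000000000000817000000000000082800001159000015690000000000000000000014fd00000000000003850000000000000d500000000000000000000006fc00000474000001b8000000000000066d0000000000000acc00000e8f000011090000000000000000000000000000103f00000000000011830000000000000e6500000f89000000000000000000000e4500000000000000ef0000000000000eb7000000000000000000000f6700000e2300000000000010ab00000000000011ef00000000000000000000000000000efb00000d4b000012c7000000000000060100000000000002b8000006970000091f0000000000000000000007f1000000000000023300000000000007db000000000000000000000703000005530000041b000000000000026b0000000000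0002d700000131000000c50000000000000000000000000000034300000000000003af0000000000000000000000000000076f000005bf00000000000008470000000000000859000000000000062b000008b300000000000000000000000000000c70000000000000125800000000000000000000000000000ee900000db70000107e000000000000059500000000000007bc000000000000000000000fd300000d8d0000000000000d6f0000000000000ddb0000000000000d2100000ff1000000000000000000000b0200000000000005290000000000000e9700000df9000011170000000000000000000000000000091b000000000000049e00000000000000000000000000000c0e00000c9a00000000000011f6000000000000141200000000000010810000155800000000000000000000000000001220000000000000165d000000000000000000000000000006f100000d45000013de000000000000081d000000000000075000001015000016c900000000000000000000152000000000000003190000000000000fb4000000000000000000000f60000009450000000000000c0400000000000011ec00000000000000000000000000000f5500000fa9000011c2000000000000074500000000000006e4000000000000000000000f7f00000f13000000000000071b00000000000007870000000000000ed100000feb000000000000000000000bda00000000000006d90000000000000f4800000f3d00000f9700000000000000000000000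000000f8a00000000000007260000000000000abe0000103a0000000000000000000010b600000000000002ad0000000000000f06000000000000000000000f7200000ec100000c6200000000000007b10000000000000edc00000e8d0000091100000000000000000000000000000fde0000000000000d7a0000000000000000000000000000070e000007e6000000000000077a000000000000085200000000000002e20000034e0000000000000000000000000000021a00000000000003ac00000000000000000000000000000ad600000b4a000006340000000000000b7d000000000000067800000000000000000000103200001196000000000000117600000000000013420000000000001326000013ae00000000000000000000051a0000000000000b110000000000000e8200001163000012b9000000000000000000000000000011130000000000000a1d0000000000000000000000000000109e000012ec00000000000011e200000000000013fe0000000000001375000015ae000000000000000000000000000012ba00000000000014d6000000000000000000000000000002c50000054d000015fa00000000000005fb000000000000060c000013090000143700000000000000000000150f00000000000003730000000000000d3e000000000000000000000eee000009e4000002920000000000000aa30000000000000e700000101f000010d700000000000000000000000000000f930000000000000f2700000000000011af0000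121b0000000000000000000012f300000000000001e10000000000000e16000000000000000000000f5a000011460000000000000e4f0000000000000d7700000000000000000000000000000ea900000ebb0000064500000000000006b100000000000000e1000000000000000000000c7a00000ce8000000000000124e000000000000146a00000000000012d0000014ec000000000000000000000000000010dc0000000000001542000000000000000000000000000007c900000e1d000014b6000000000000088300000000000005a0000011b60000157800000000000000000000144800000000000004c90000000000000daa000000000000000000000ef4000009780000000000000b60000000000000118000000000000000000000000000000ea5000010f30000129a00000000000009cd000000000000053400000000000000000000092900000997000000000000049300000000000004ff0000000000000a03000008b9000000000000000000000cb200000000000009610000000000000e040000112900000e530000000000000000000000000000110a00000000000009ae0000000000000b2a000010a600000000000000000000122c000000000000045d0000000000000d98000000000000000000000fc60000114000000c4400000000000008f30000000000000d2c00000e6f000007ff00000000000000000000000000000ffc0000000000000f2a00000000000000000000000000000d6200000e3a0000000000000dce000000000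0000de0000000000000056a000005d600000000000000000000014e0000000000000a37000000000000068a00000ac200000b5b0000000000000000000000000000091200000000000009ab0000000000000b2e00000c06000000000000000000000cde000000000000017500000000000005460000000000000000000006f60000097e00000000000007fb0000000000000723000000000000000000000000000007ce0000093f0000057300000000000006b7000000000000022500000b9600000c72000000000000000000000c9c00000000000003e300000000000005b2000000000000000000000762000009ea00000b6c000000000000066b000000000000061e000006950000040d000000000000000000000000000008a60000000000000a140000000000000000000000000000083a000008d00000000000000864000000000000078c0000000000000648000005dc0000000000000000000000000000040e000000000000049b000000000000000000000000000002ca0000047a000002eb000000000000042f000000000000025e000000000000000000000336000004e600000000000003a2000000000000050400000000000003c0000003540000000000000000000001a700000000000001920000000000000126000001fe00000210000000000000000000000000000000c600000000000000630000000000000062000000ca00000000000000000000012a00000000000001a60000000000000196000000000000000000000202000002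140000026200000000000002ea000000000000042e0000049a000004120000000000000000000000000000047e00000000000002ce000000000000000000000000000003c40000035800000000000004ea000000000000033a0000000000000508000003a6000000000000000000000224000000000000057200000000000006b600000722000007fa0000000000000000000000000000093e00000000000007d200000000000009aa0000091600000000000000000000068e000000000000014f0000000000000a32000000000000000000000ac600000b5a000000000000098200000000000006fa00000000000000000000000000000b3200000c0a0000054a0000000000000ce2000000000000017700000000000000000000064c000005e000000000000008d4000000000000083e000000000000079000000868000000000000000000000000000009ee000000000000076600000000000000000000000000000b9500000c76000005b60000000000000ca000000000000003de00000a18000008aa0000000000000000000006220000000000000b6b000000000000066600000000000000000000069000000408000000e0000000000000064400000000000006b000000d7600000e4e00000000000000000000000000000eba0000000000000ea80000000000000f2600000f92000000000000000000000e7400000000000002930000000000000a9e00000000000000000000101a000010d6000000000000114a0000000000000f5e00000000000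0000000000000000011ae0000121a00000e1a00000000000012f200000000000001e300000a1c00001112000000000000000000000e86000000000000051b0000000000000b1300000000000000000000115e000012b40000067c00000000000006350000000000000b7f000003ad0000021b00000000000000000000000000000b4b0000000000000ad50000000000000000000000000000132a000013af0000000000001195000000000000103600000000000013430000117a000000000000000000000000000009e80000000000000ef20000000000000000000000000000130b0000143600000d42000000000000150e0000000000000375000000000000000000001377000015b200000000000012eb00000000000010a20000000000001402000011e600000000000000000000061000000000000015fb00000000000005fd000014da000012be0000000000000000000000000000054f00000000000002c70000000000000000000000000000056e000005da0000000000000e3e0000000000000d660000000000000de400000dd2000000000000000000000000000011440000000000000fca00000000000000000000000000000b29000010a500000d9c000000000000122b000000000000045f00000f2e00001000000000000000000000000d300000000000000c4300000000000008ee000000000000000000000e6a00000801000000000000097c0000000000000ef8000000000000000000000000000011b70000157c00000dae00000000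0000144700000000000004cb0000000000000000000012d1000014ed0000000000000ce90000000000000c79000000000000146e000012520000000000000000000005a400000000000014b7000000000000088500001546000010db00000000000000000000000000000e1f00000000000007cb00000000000009b20000110e000000000000000000000e080000000000000cb3000000000000096300000000000000000000112b00000e5500000538000000000000129b00000000000009cf0000118100000b5f000000000000000000000000000010f50000000000000ea000000000000000000000000000000a05000008bb0000000000000999000000000000092400000000000005010000049500000000000000000000007400000000000003bc00000000000004280000084e000008c0000000000000000000000000000007e4000000000000092c0000000000000de800000fe600000000000000000000112400000000000004430000000000000b0a000000000000000000001086000012480000000000000e380000000000000f7c000000000000000000000000000012d4000011fc000010fc000000000000119000000000000001c50000079400000ff8000000000000000000000f3800000000000006cb0000000000000be20000000000000000000011ca000011dc000009040000000000000d1f0000000000000c57000008630000035f000000000000000000000000000010c7000000000000102f00000000000000000000000000001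3e6000016a3000000000000152d00000000000016e3000000000000140700001548000000000000000000000000000008da0000000000000fd00000000000000000000000000000137a0000166e00000fa6000000000000153100000000000003090000000000000000000015930000174600000000000015070000000000001573000000000000176c0000169800000000000000000000089800000000000014c50000000000000591000015c0000013a4000000000000000000000000000005bb0000000000000333000000000000050c000008ae000000000000000000000df400000000000009530000000000000cba0000000000000000000012a200001170000007a00000000000000ecf0000000000000c5100000dd9000005e700000000000000000000000000001239000000000000109b000000000000000000000000000014be00001553000000000000145500000000000015710000000000001473000014dc0000000000000000000004000000000000000a0d0000000000000b7900000785000005d500000000000000000000000000000c950000000000000c8300000000000004fd0000034d000000000000000000000209000000000000000b00000000000001990000000000000000000002dd0000048d0000000000000cef0000000000000c17000000000000000000000000000005650000071500000b4d000000000000099d00000000000001560000000000000000000015ff000014e70000000000001501000000000000142900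0000000000140f000015bf000000000000000000000000000012e5000000000000120d0000000000000000000000000000064f00000d69000010c90000000000000f19000000000000029a0000133b000013b60000000000000000000012ac00000000000009bb00000000000005220000000000000000000006240000039c00000000000004e4000000000000076c000000000000000000000000000013210000142600000dc0000000000000145900000000000004b90000000000000000000013e30000174c000000000000144f000000000000143300000000000017a30000174400000000000000000000080e00000000000013ed00000000000007410000175d000015ad00000000000000000000000000000d950000000000000837000000000000000000000000000014bb000015b8000000000000152700000000000016770000000000001768000017560000000000000000000000000000119b0000000000001207000000000000000000000000000003c700000841000012400000000000000d87000000000000044a000013fa000016aa0000000000000000000011d4000000000000073300000000000006d2000000000000000000000d260000086a00000394000000000000132e00000000000009c900001416000014ee00000000000000000000000000000f0f0000000000000d5f00000000000014660000155a00000000000000000000116800000000000004ab000000000000095a000000000000000000000ed600000dc80000000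000000993000000000000070b000000000000000000000000000009fc000007740000048300000000000004ec00000000000000120000000000000000000002e60000035200000000000007ea000000000000071200000000000008560000077e00000000000000000000000000000ec00000000000000f7600000000000000000000000000000abd0000103900000f0a00000000000010ba00000000000002af00000d7e00000fe2000000000000000000000ee00000000000000c6100000000000007b3000000000000000000000e880000090c00000000000009440000000000000f6400000000000000000000000000001017000016cb00000fb8000000000000151f000000000000031b000000000000000000001083000015590000000000000c9b0000000000000c0d0000000000001411000011f500000000000000000000075400000000000013df000000000000081f0000165f0000121f00000000000000000000000000000d4700000000000006f3000000000000072a00000f8e000000000000000000000f4c0000000000000bdb00000000000006db000000000000000000000f3f00000f99000006e800000000000011c30000000000000747000011ed00000c0500000000000000000000000000000fab0000000000000f5700000000000000000000000000000ed300000fed0000000000000f150000000000000f8100000000000007890000071d00000000000000000000000000000478000000000000070000000000000000000000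00000000115b0000156800000d5400000000000014fc00000000000003870000000000000000000011c7000016a90000000000001233000000000000121700000000000017610000166c00000000000000000000082c000000000000158f0000000000000819000017370000143b00000000000000000000000000000db3000000000000075f0000000000000000000000000000129f000013b500000000000010c1000000000000120500000000000015c70000142100000000000000000000000000000b450000000000000c1d000000000000000000000000000001f90000033d00000c8b00000000000005c500000000000003f3000014d200001561000000000000000000001090000000000000058300000000000007aa000000000000000000000dfe000008a0000003280000000000001373000000000000088b000016670000158300000000000000000000000000000fb10000000000000fc3000000000000153e000016d000000000000000000000102400000000000002fb00000000000008f7000000000000000000000f420000100200000000000010ef0000000000000f6f0000000000000000000000000000112e00000fd80000093600000000000008ca000000000000007e000004a20000091a000000000000000000000e960000000000000b03000000000000052b000000000000000000000dfb00001119000007c0000000000000107f00000000000005970000125900000c7100000000000000000000000000000db9000000000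0000eeb00000000000000000000000000000d2300000ff30000000000000d8f0000000000000fd50000000000000ddd00000d710000000000000000000002bc00000000000012c90000000000000603000011f1000010ad00000000000000000000000000000d4d0000000000000efd000000000000118500001041000000000000000000000acd00000000000001b7000000000000066f000000000000000000000e91000011040000000000000e250000000000000f6900000000000000000000000000000e6700000f8400000eb20000000000000e4000000000000000ea00000000000000000000062d000008b500000000000005c10000000000000771000000000000085b000008490000000000000000000000000000055500000000000007050000000000000000000000000000069900000921000007dd00000000000007ec000000000000022e000003b1000003450000000000000000000002d9000000000000041d000000000000026d00000000000000000000012c000000c0000000080000000000000206000000000000019c0000034a000004fa000000000000000000000000000002e0000000000000049000000000000005d200000782000000000000000000000a0a00000000000003fd0000000000000b76000000000000000000000c9200000c800000000000000568000000000000071800000000000000000000000000000cec00000c14000009a00000000000000b500000000000000159000005e400000dd600000000000000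0000000ecc00000000000007a30000000000000c4e00000000000000000000123600001098000009500000000000000df70000000000000cbd000008b10000050f000000000000000000000000000012a50000000000001173000000000000000000000000000014520000156e00000000000014c1000000000000155000000000000014df00001470000000000000000000000000000006520000000000000d6c000000000000000000000000000012e80000121000000f1c00000000000010cc000000000000029d0000000000000000000015040000142c00000000000015fc00000000000014e400000000000015bc0000140c0000000000000000000009be00000000000012a90000000000000525000013b90000133800000000000000000000000000000627000000000000039f000000000000035c00000860000000000000000000000d1c00000000000009010000000000000c540000000000000000000010c40000102c000006c80000000000000f3b0000000000000be500000ffb00000797000000000000000000000000000011cd00000000000011df0000000000000000000000000000152a000016e000000000000013e900000000000016a0000000000000154b0000140400000000000000000000044000000000000011270000000000000b0d00000fe900000deb00000000000000000000000000001089000000000000124b00000000000008c3000008510000000000000000000003bf0000000000000077000000000000042b000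0000000000000000007e10000092f00000000000012d700000000000011ff00000000000000000000000000000e3500000f790000119300000000000010f900000000000001c200000000000000000000150a0000157600000000000015900000000000001749000000000000169b0000176f0000000000000000000000000000137d0000000000001671000000000000000000000000000008d700000fcd000015340000000000000fa30000000000000306000013a7000015c30000000000000000000014c80000000000000895000000000000058e0000000000000000000005b80000033000000000000003ca00000000000008440000000000000000000000000000119e0000120a00000d8a000000000000123d000000000000044d0000000000000000000015240000167400000000000014b800000000000015b500000000000017530000176500000000000000000000073600000000000011d100000000000006d5000016ad000013fd00000000000000000000000000000d29000000000000086d0000000000000000000000000000144c0000143000000000000013e0000000000000174f0000000000001741000017a0000000000000000000000000000013240000000000001423000000000000000000000000000004e1000007690000145c0000000000000dbd00000000000004b6000015aa0000175a0000000000000000000013f0000000000000080b000000000000073e000000000000000000000d9200000834000004ae00000000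00001165000000000000095d0000155d0000146900000000000000000000000000000ed90000000000000dcb00000000000014f100001419000000000000000000001331000000000000039100000000000009c6000000000000000000000f0c00000d5c00000000000009ff00000000000007770000000000000000000000000000099000000708000004ef0000000000000480000000000000001500000218000003aa00000000000000000000063200000000000006790000000000000b7c000000000000000000000b4800000ad8000005180000000000000e830000000000000b100000111500000a1f0000000000000000000000000000116100000000000012b70000000000000000000000000000119800001033000000000000132700000000000013ac0000000000001177000013400000000000000000000002900000000000000e710000000000000aa100000f9500000f290000000000000000000000000000101d00000000000010d90000000000000e5100000d7900000000000000000000064700000000000000e300000000000006b3000000000000000000000ebd00000eab00000000000011b1000000000000121d0000000000000000000000000000114700000f5b000012f50000000000000e1700000000000001e00000000000000000000012ee0000109f000000000000137400000000000015af00000000000011e3000013ff00000000000000000000000000001308000000000000143900000000000000000000000000000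9e500000eef000015110000000000000d3f0000000000000372000012bb000014d70000000000000000000015f8000000000000060d00000000000005fa00000000000000000000054c000002c40000014c000000000000068b0000000000000a3500000913000009ad00000000000000000000000000000ac30000000000000b5d00000000000007fd00000725000000000000000000000575000000000000022700000000000006b9000000000000000000000941000007cf0000000000000b2f0000000000000c070000000000000000000000000000097f000006f700000cdf000000000000054700000000000001740000040f0000049d0000000000000000000002ed000000000000025f000000000000043100000000000000000000047b000002cb000001a900000000000001270000000000000193000000c700000065000000000000000000000000000001ff0000000000000211000000000000000000000000000004e70000033700000000000003c1000000000000035500000000000003a30000050500000000000000000000000000000b980000000000000c73000000000000000000000000000009eb0000076300000c9d00000000000005b300000000000003e10000000000000000000008d10000083b000000000000064900000000000005dd00000000000008650000078d000000000000000000000b6e000000000000061f0000000000000669000008a700000a1500000000000000000000000000000693000000000000040b00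000000000000000000000000000ce600000c7c00000000000012ce00000000000014ea000000000000124f0000146b000000000000000000000000000011b400000000000015790000000000000000000000000000097900000ef50000144a0000000000000dab00000000000004c8000010de000015430000000000000000000014b400000000000005a10000000000000882000000000000000000000e1c000007c80000000000000b2c00000000000010a80000000000000000000000000000114100000fc70000122e0000000000000d99000000000000045c000000000000000000000e3b00000d63000000000000056b00000000000005d70000000000000dcf00000de1000000000000000000000c460000000000000d2d00000000000008f100000ffd00000f2b00000000000000000000000000000e6d00000000000007fe0000000000000b620000117e000000000000000000001298000000000000053500000000000009cc0000000000000000000010f200000ea300000cb00000000000000e0500000000000009600000110b000009af000000000000000000000000000011280000000000000e5200000000000000000000000000000996000009270000000000000a0200000000000008b80000000000000492000004fe000000000000000000000000000001fc000000000000034000000000000000000000000000000b4200000c1a000005c80000000000000c8e00000000000003f00000000000000000000010be000012020000000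00000129c00000000000013b2000000000000141e000015ca000000000000000000000586000000000000108d00000000000007ad00001564000014d500000000000000000000000000000e0100000000000008a3000000000000000000000000000012300000121400000000000011c400000000000016a600000000000016690000175e00000000000000000000000000001158000000000000156b00000000000000000000000000000475000006fd000014ff0000000000000d5100000000000003840000143e0000173400000000000000000000158c00000000000008290000000000000816000000000000000000000db00000075c000002fe000000000000102100000000000008f4000016d30000154100000000000000000000000000000f45000000000000100500000000000015800000166400000000000000000000137000000000000003250000000000000888000000000000000000000fae00000fc000000000000011310000000000000fdb000000000000000000000000000010ec00000f6c000008cd00000000000009390000000000000081000000000000000000000c9800000c100000000000001080000000000000155600000000000011f8000014140000000000000000000000000000101400000000000016c80000000000000000000000000000094700000f61000015220000000000000fb50000000000000318000012220000165c0000000000000000000013dc0000000000000751000000000000081c000000000000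000000000d44000006f00000000000000ac0000000000000103c00000000000000000000000000000ec300000f73000010b70000000000000f0700000000000002ac0000000000000000000007e70000070f00000000000002e3000000000000034f000000000000077b00000853000000000000000000000c640000000000000edd00000000000007b000000fdf00000d7b00000000000000000000000000000e8b000000000000090f0000000000000c02000011ea0000000000000000000011c000000000000006e50000000000000744000000000000000000000fa800000f5400000bd80000000000000f4900000000000006d800000f8b0000072700000000000000000000000000000f3c0000000000000f9600000000000000000000000000000f1200000f7e0000000000000ed00000000000000fea000000000000071a000007860000000000000000000001ba0000000000000aca000000000000066c0000103e0000118200000000000000000000000000000e8e000000000000110700000000000010aa000011ee0000000000000000000012c600000000000002b90000000000000600000000000000000000000d4a00000efa0000000000000e640000000000000f8700000000000000000000000000000e2200000f6600000e430000000000000eb500000000000000ed00000c6e0000125600000000000000000000107c00000000000007bd0000000000000594000000000000000000000db600000ee800000b000000000000000e990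0000000000005280000091d0000049f00000000000000000000000000000df8000000000000111600000000000000000000000000000d8c00000fd20000000000000d200000000000000ff00000000000000d6e00000dda00000000000000000000000000000696000000000000091e0000000000000000000000000000055200000702000007ef00000000000007da00000000000002310000000000000000000005be0000076e000000000000062a00000000000008b200000000000008460000085800000000000000000000041a00000000000002d6000000000000026a00000342000003ae0000000000000000000000000000012f00000000000000c3000000000000000000000000000001a20000020e0000000000000422000000000000048a00000000000003b8000004f6000000000000000000000000000006aa000000000000093200000000000000000000000000000a2f00000ad20000098e0000000000000b3e000000000000016b00000640000008c80000000000000000000009fa0000000000000b8900000000000003ea0000000000000000000006720000068400000000000006bc0000000000000eae00000000000000000000000000000a9b00001026000010ea00000000000011a200000000000001d7000000000000000000000b070000116a0000000000000b730000000000000b570000000000001336000011890000000000000000000009dc00000000000012ff00000000000003810000136b000012f700000000000000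0000000000000006090000000000000543000000000000057a00000e4a0000000000000000000011380000000000000b1d00000000000004530000000000000000000008fa00000e7600000970000000000000115700000000000004bf000012c500000cdd000000000000000000000000000008910000000000000e13000000000000000000000000000009570000111f00000000000009c300000000000011010000000000000a11000009a50000000000000000000000000000043400000000000007d800000000000000000000000000000b160000109200000e2c00000000000012e000000000000001d1000000000000000000000bdf000011d60000000000000c4b00000000000010d300000000000013f20000153900000000000000000000087a0000000000001381000000000000031500001587000015130000000000000000000000000000059d00000000000005af00000000000000000000000000000cb7000012ae0000000000000c5d000000000000124500000000000014ca0000146100000000000000000000000000000b850000000000000c890000000000000000000000000000018d000002d100000cf100000000000005590000000000000162000015f3000014f50000000000000000000012d900000000000005ef00000000000002a600000000000000000000052e00000618000004d8000000000000130700000000000004c5000013d7000014430000000000000000000000000000074d0000000000000da100000000000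014af0000151b0000000000000000000011a7000000000000036700000000000004560000000000000000000006de00000d3200000000000009d50000000000000f030000000000000000000000000000096600000ee20000098700000000000009f0000000000000001e000002f2000007f6000000000000000000000e600000000000000a9700000000000002a30000000000000000000007a700000e7c000008e4000000000000100b000000000000030f0000107700000ca7000000000000000000000000000008130000000000000d3b000000000000000000000000000006cf00000f33000000000000073b0000000000000f9f0000000000000ec700000f2100000000000000000000046c000000000000114f000000000000037b000011bb00001227000000000000000000000000000008250000000000000da70000000000001293000010b5000000000000000000000b3900000000000001ed00000000000003e70000000000000000000007b600000e0a000000000000087f0000000000000fbd000000000000000000000000000008eb00000f4e000010e3000000000000113a000000000000008a00000000000000000000051f00000def000000000000058b0000000000000dc50000000000000d1700000d83000000000000000000000000000005f70000000000000d590000000000000000000000000000066300000e9d00000e310000000000000e5b00000000000000f600000639000005cd00000000000000000000056100000000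000006a5000000000000023700000000000000000000026400000120000000000000019000000000000002d400000000000000000000000000000b8200000c860000055c0000000000000cf40000000000000165000000000000000000000c5a000012420000000000000cb400000000000012b1000000000000145e000014cd0000000000000000000005f200000000000012dc00000000000002a9000014f8000015f000000000000000000000000000000531000000000000061b00000000000000000000000000000c48000010d00000000000000bdc00000000000011d90000000000001536000013f500000000000000000000000000000b19000000000000109500000000000000000000000000000437000007d5000012e30000000000000e2900000000000001ce00001516000015840000000000000000000013840000000000000877000000000000031200000000000000000000059a000005ac0000036a00000000000011aa000000000000045900001518000014ac000000000000000000000000000006e10000000000000d350000000000001440000013d400000000000000000000130400000000000004d500000000000004c200000000000000000000074a00000d9e00000000000009690000000000000ee5000000000000000000000000000009d200000f00000009f300000000000009840000000000000021000000000000000000000b7000000b540000000000000b04000000000000116d000000000000118c0000133300000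000000000000000000000000a980000000000001029000000000000000000000000000006bf00000eb1000011a500000000000010e700000000000001d4000012fa000013680000000000000000000012fc00000000000009d9000000000000037e000000000000000000000606000005400000000000000a2c0000000000000acf000000000000000000000000000006ad0000093500000b3b000000000000098b000000000000016800000000000000000000042500000487000000000000019f000000000000020b00000000000004f3000003b5000000000000000000000b8c00000000000009f700000000000003ed000008c50000063d0000000000000000000000000000067500000000000006870000000000000cda000012c2000000000000000000001154000000000000096d00000000000004bc00000000000000000000088e00000e1000000b200000000000001135000000000000045000000e4700000577000000000000000000000000000008fd0000000000000e79000000000000000000000000000009c0000010fe0000000000000954000000000000111c00000000000009a200000a0e0000000000000000000001f00000000000000b3600000000000003e4000010b200001290000000000000000000000000000007b90000000000000e0d0000000000001224000011b800000000000000000000114c0000000000000469000000000000037800000000000000000000082200000da400000000000008e80000000000000f5100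00000000000000000000000000087c00000fba0000113d00000000000010e0000000000000008d00000ca40000107400000000000000000000100800000000000008e7000000000000030c00000000000000000000081000000d3800000a940000000000000e6300000000000002a0000007f3000002ef000000000000000000000000000007a40000000000000e7f0000000000000000000000000000073800000f9c00000000000006cc0000000000000f300000000000000f1e00000ec4000000000000000000000000000006600000000000000e9a000000000000000000000000000005f400000d5600000e580000000000000e2e00000000000000f900000000000000000000058800000dc2000000000000051c0000000000000dec0000000000000d8000000d140000000000000000000006a2000000000000055e0000000000000234000005ca0000063600000000000000000000000000000267000000000000012300000000000001ae0000041600000000000000000000069e0000000000000a23000000000000015f0000000000000000000003f60000067e0000065c0000000000000a8f00000000000001cb00000afb00000b670000000000000000000000000000038d0000000000000615000000000000000000000000000004470000090600000000000004b3000000000000089d000000000000094b000009b70000000000000000000003d40000000000000b2200000000000001dd00000bd300000c3f00000000000000000000000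00000032100000000000005a90000000000000cab00000c69000000000000000000000b910000000000000181000000000000016e0000000000000000000002b20000053a00000000000004d1000000000000075900000000000000000000000000000462000006ea000009e10000000000000972000000000000002a0000000000000000000002970000079b0000000000000303000000000000080700000000000006c30000072f0000000000000000000000000000036f0000000000000831000000000000000000000000000003db000007c20000087300000000000008df0000000000000093000005130000057f0000000000000000000005eb000000000000065700000000000000f300000000000000000000022b00000258000001840000000000000b8e000000000000017100000c6600000ca8000000000000000000000000000002b5000000000000053d0000000000000c3c00000bd0000000000000000000000b2500000000000003d700000000000001da00000000000000000000031e000005a6000000000000046500000000000006ed000000000000000000000000000004ce000007560000097500000000000009de000000000000002d00000b6400000af8000000000000000000000a8c000000000000065f00000000000001c800000000000000000000038a0000061200000a2000000000000006a1000000000000015c00000419000001ab000000000000000000000000000003f9000000000000068100000000000000000000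0000000004b00000089a0000000000000444000000000000090900000000000009b400000948000000000000000000000000000003d800000000000007c50000000000000000000000000000036c0000082e000008dc000000000000087000000000000000900000000000000000000003000000080400000000000002940000000000000798000000000000072c000006c000000000000000000000065400000000000005e800000000000000f00000057c0000051000000000000000000000000000000228000000000000025b000000000000000000000000000001530000040200000000000001bf0000000000000399000000000000043b000004a7000000000000000000000000000001e9000000000000032d0000000000000000000000000000017a000002be000004dd000000000000046e00000000000000270000028b000002f700000000000000000000036300000000000003cf00000000000000870000000000000000000000e70000021f000000000000017d00000000000002c1000000000000000000000000000001e60000032a0000047100000000000004da00000000000000240000000000000000000001bc000003960000000000000150000000000000040500000000000004a4000004380000000000000000000003cc00000000000003600000000000000084000002f400000288000000000000000000000000000000e4000000000000021c0000000000000147000001b30000000000000000000001f50000000000000186000000000000001b00000000000000000000007b000000db0000018900000000000001f20000000000000018000001b0000001440000000000000000000000000000007800000000000000d80000000000000000000000000000000f0000006f000000000000000c000000000000006c00000000000000030000000000000000000000000000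

theorem spec : Spec 8 false idx RK 57 G := fun _ _ _ _ => by eq_refl

theorem cover : cov 9 false H RK CK 57 0 = true := by decide +kernel

end S9x0

end Vale.Agent.P348.MomK
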