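import Vale.Agent.P348.MomK

/-! Generated kernel computation of sector moments. -/

open Nat (add sub)

set_option maxRecDepth 1000000
set_option maxHeartbeats 0
set_option linter.unusedVariables false

namespace Vale.Agent.P348.MomK

namespace S9x1

noncomputable def idx : List Nat :=
  [nat_lit 2, nat_lit 6, nat_lit 14, nat_lit 16, nat_lit 18, nat_lit 22, nat_lit 26, nat_lit 32,
  nat_lit 34, nat_lit 38, nat_lit 42, nat_lit 46, nat_lit 48, nat_lit 54, nat_lit 58, nat_lit 62,
  nat_lit 64, nat_lit 66, nat_lit 74, nat_lit 78, nat_lit 86, nat_lit 88, nat_lit 92, nat_lit 96,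
  nat_lit 100, nat_lit 102, nat_lit 110, nat_lit 114, nat_lit 122, nat_lit 124, nat_lit 126, nat_lit 130,
  nat_lit 134, nat_lit 136, nat_lit 138, nat_lit 144, nat_lit 148, nat_lit 152, nat_lit 158, nat_lit 160,
  nat_lit 162, nat_lit 166, nat_lit 170, nat_lit 172, nat_lit 174, nat_lit 182, nat_lit 186, nat_lit 190,
  nat_lit 192, nat_lit 198, nat_lit 202, nat_lit 206, nat_lit 212, nat_lit 214, nat_lit 218, nat_lit 222,
  nat_lit 230, nat_lit 232, nat_lit 234, nat_lit 238, nat_lit 242, nat_lit 248, nat_lit 250, nat_lit 254,
  nat_lit 258, nat_lit 262, nat_lit 264, nat_lit 272, nat_lit 276, nat_lit 284, nat_lit 286, nat_lit 288,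
  nat_lit 292, nat_lit 296, nat_lit 298, nat_lit 300, nat_lit 306, nat_lit 310, nat_lit 314, nat_lit 320,
  nat_lit 322, nat_lit 326, nat_lit 330, nat_lit 338, nat_lit 340, nat_lit 342, nat_lit 346, nat_lit 350,
  nat_lit 356, nat_lit 358, nat_lit 362, nat_lit 366, nat_lit 370, nat_lit 372, nat_lit 378, nat_lit 382,
  nat_lit 386, nat_lit 388, nat_lit 390, nat_lit 398, nat_lit 402, nat_lit 406, nat_lit 408, nat_lit 414,
  nat_lit 418, nat_lit 422, nat_lit 428, nat_lit 430, nat_lit 432, nat_lit 436, nat_lit 440, nat_lit 442,
  nat_lit 444, nat_lit 452, nat_lit 456, nat_lit 464, nat_lit 466, nat_lit 470, nat_lit 474, nat_lit 478,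
  nat_lit 480, nat_lit 486, nat_lit 490, nat_lit 494, nat_lit 496, nat_lit 498, nat_lit 506, nat_lit 510,
  nat_lit 514, nat_lit 516, nat_lit 522, nat_lit 526, nat_lit 530, nat_lit 536, nat_lit 538, nat_lit 542,
  nat_lit 546, nat_lit 554, nat_lit 556, nat_lit 558, nat_lit 562, nat_lit 566, nat_lit 568, nat_lit 570,
  nat_lit 576, nat_lit 580, nat_lit 584, nat_lit 590, nat_lit 592, nat_lit 594, nat_lit 598, nat_lit 602,
  nat_lit 604, nat_lit 606, nat_lit 614, nat_lit 618, nat_lit 626, nat_lit 628, nat_lit 632, nat_lit 636,
  nat_lit 640, nat_lit 642, nat_lit 650, nat_lit 654, nat_lit 662, nat_lit 664, nat_lit 666, nat_lit 670,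
  nat_lit 674, nat_lit 680, nat_lit 682, nat_lit 686, nat_lit 690, nat_lit 694, nat_lit 696, nat_lit 702,
  nat_lit 706, nat_lit 710, nat_lit 712, nat_lit 714, nat_lit 722, nat_lit 726, nat_lit 734, nat_lit 736,
  nat_lit 740, nat_lit 744, nat_lit 748, nat_lit 750, nat_lit 758, nat_lit 762, nat_lit 770, nat_lit 772,
  nat_lit 774, nat_lit 778, nat_lit 782, nat_lit 784, nat_lit 786, nat_lit 792, nat_lit 796, nat_lit 800,
  nat_lit 806, nat_lit 808, nat_lit 812, nat_lit 816, nat_lit 824, nat_lit 826, nat_lit 828, nat_lit 832,
  nat_lit 836, nat_lit 842, nat_lit 844, nat_lit 848, nat_lit 852, nat_lit 856, nat_lit 858, nat_lit 864,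
  nat_lit 868, nat_lit 872, nat_lit 874, nat_lit 876, nat_lit 884, nat_lit 888, nat_lit 892, nat_lit 894,
  nat_lit 900, nat_lit 904, nat_lit 908, nat_lit 914, nat_lit 916, nat_lit 918, nat_lit 922, nat_lit 926,
  nat_lit 928, nat_lit 930, nat_lit 938, nat_lit 942, nat_lit 950, nat_lit 952, nat_lit 956, nat_lit 960,
  nat_lit 964, nat_lit 966, nat_lit 974, nat_lit 978, nat_lit 986, nat_lit 988, nat_lit 990, nat_lit 994,
  nat_lit 998, nat_lit 1004, nat_lit 1006, nat_lit 1010, nat_lit 1014, nat_lit 1018, nat_lit 1020, nat_lit 1026,
  nat_lit 1030, nat_lit 1034, nat_lit 1036, nat_lit 1038, nat_lit 1046, nat_lit 1050, nat_lit 1058, nat_lit 1060,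
  nat_lit 1064, nat_lit 1068, nat_lit 1072, nat_lit 1074, nat_lit 1082, nat_lit 1086, nat_lit 1094, nat_lit 1096,
  nat_lit 1098, nat_lit 1102, nat_lit 1106, nat_lit 1108, nat_lit 1110, nat_lit 1116, nat_lit 1120, nat_lit 1124,
  nat_lit 1130, nat_lit 1132, nat_lit 1134, nat_lit 1138, nat_lit 1142, nat_lit 1144, nat_lit 1146, nat_lit 1154,
  nat_lit 1158, nat_lit 1162, nat_lit 1164, nat_lit 1170, nat_lit 1174, nat_lit 1178, nat_lit 1184, nat_lit 1186,
  nat_lit 1190, nat_lit 1194, nat_lit 1202, nat_lit 1204, nat_lit 1206, nat_lit 1210, nat_lit 1214, nat_lit 1216,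
  nat_lit 1218, nat_lit 1224, nat_lit 1228, nat_lit 1232, nat_lit 1238, nat_lit 1240, nat_lit 1242, nat_lit 1246,
  nat_lit 1250, nat_lit 1252, nat_lit 1254, nat_lit 1262, nat_lit 1266, nat_lit 1274, nat_lit 1276, nat_lit 1280,
  nat_lit 1284, nat_lit 1288, nat_lit 1290, nat_lit 1296, nat_lit 1300, nat_lit 1304, nat_lit 1306, nat_lit 1308,
  nat_lit 1316, nat_lit 1320, nat_lit 1324, nat_lit 1326, nat_lit 1332, nat_lit 1336, nat_lit 1340, nat_lit 1346,
  nat_lit 1348, nat_lit 1352, nat_lit 1356, nat_lit 1364, nat_lit 1366, nat_lit 1368, nat_lit 1372, nat_lit 1376,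
  nat_lit 1382, nat_lit 1384, nat_lit 1388, nat_lit 1392, nat_lit 1396, nat_lit 1398, nat_lit 1406, nat_lit 1410,
  nat_lit 1418, nat_lit 1420, nat_lit 1422, nat_lit 1426, nat_lit 1430, nat_lit 1432, nat_lit 1434, nat_lit 1440,
  nat_lit 1444, nat_lit 1448, nat_lit 1454, nat_lit 1456, nat_lit 1458, nat_lit 1462, nat_lit 1466, nat_lit 1468,
  nat_lit 1470, nat_lit 1478, nat_lit 1482, nat_lit 1486, nat_lit 1488, nat_lit 1494, nat_lit 1498, nat_lit 1502,
  nat_lit 1508, nat_lit 1510, nat_lit 1514, nat_lit 1518, nat_lit 1526, nat_lit 1528, nat_lit 1530, nat_lit 1534,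
  nat_lit 1538, nat_lit 1540, nat_lit 1542, nat_lit 1548, nat_lit 1552, nat_lit 1556, nat_lit 1562, nat_lit 1564,
  nat_lit 1566, nat_lit 1570, nat_lit 1574, nat_lit 1576, nat_lit 1578, nat_lit 1586, nat_lit 1590, nat_lit 1598,
  nat_lit 1600, nat_lit 1604, nat_lit 1608, nat_lit 1612, nat_lit 1614, nat_lit 1622, nat_lit 1626, nat_lit 1634,
  nat_lit 1636, nat_lit 1638, nat_lit 1642, nat_lit 1646, nat_lit 1652, nat_lit 1654, nat_lit 1658, nat_lit 1662,
  nat_lit 1666, nat_lit 1668, nat_lit 1674, nat_lit 1678, nat_lit 1682, nat_lit 1684, nat_lit 1686, nat_lit 1694,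
  nat_lit 1698, nat_lit 1702, nat_lit 1704, nat_lit 1710, nat_lit 1714, nat_lit 1718, nat_lit 1724, nat_lit 1726,
  nat_lit 1728, nat_lit 1732, nat_lit 1736, nat_lit 1738, nat_lit 1740, nat_lit 1748, nat_lit 1752, nat_lit 1760,
  nat_lit 1762, nat_lit 1766, nat_lit 1770, nat_lit 1774, nat_lit 1776, nat_lit 1782, nat_lit 1786, nat_lit 1790,
  nat_lit 1792, nat_lit 1794, nat_lit 1802, nat_lit 1806, nat_lit 1810, nat_lit 1812, nat_lit 1818, nat_lit 1822,
  nat_lit 1826, nat_lit 1832, nat_lit 1834, nat_lit 1838, nat_lit 1842, nat_lit 1850, nat_lit 1852, nat_lit 1854,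
  nat_lit 1858, nat_lit 1862, nat_lit 1868, nat_lit 1870, nat_lit 1874, nat_lit 1878, nat_lit 1882, nat_lit 1884,
  nat_lit 1892, nat_lit 1896, nat_lit 1904, nat_lit 1906, nat_lit 1908, nat_lit 1912, nat_lit 1916, nat_lit 1918,
  nat_lit 1920, nat_lit 1926, nat_lit 1930, nat_lit 1934, nat_lit 1940, nat_lit 1942, nat_lit 1946, nat_lit 1950,
  nat_lit 1958, nat_lit 1960, nat_lit 1962, nat_lit 1966, nat_lit 1970, nat_lit 1976, nat_lit 1978, nat_lit 1982,
  nat_lit 1986, nat_lit 1990, nat_lit 1992, nat_lit 1998, nat_lit 2002, nat_lit 2006, nat_lit 2008, nat_lit 2010,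
  nat_lit 2018, nat_lit 2022, nat_lit 2030, nat_lit 2032, nat_lit 2036, nat_lit 2040, nat_lit 2044, nat_lit 2046,
  nat_lit 2054, nat_lit 2058, nat_lit 2066, nat_lit 2068, nat_lit 2070, nat_lit 2074, nat_lit 2078, nat_lit 2080,
  nat_lit 2082, nat_lit 2088, nat_lit 2092, nat_lit 2096, nat_lit 2102, nat_lit 2104, nat_lit 2106, nat_lit 2110,
  nat_lit 2114, nat_lit 2116, nat_lit 2118, nat_lit 2126, nat_lit 2130, nat_lit 2134, nat_lit 2136, nat_lit 2142,
  nat_lit 2146, nat_lit 2150, nat_lit 2156, nat_lit 2158, nat_lit 2162, nat_lit 2166, nat_lit 2174, nat_lit 2176,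
  nat_lit 2178, nat_lit 2182, nat_lit 2186, nat_lit 2192, nat_lit 2194, nat_lit 2198, nat_lit 2202, nat_lit 2206,
  nat_lit 2208, nat_lit 2216, nat_lit 2220, nat_lit 2228, nat_lit 2230, nat_lit 2232, nat_lit 2236, nat_lit 2240,
  nat_lit 2242, nat_lit 2244, nat_lit 2250, nat_lit 2254, nat_lit 2258, nat_lit 2264, nat_lit 2266, nat_lit 2270,
  nat_lit 2274, nat_lit 2282, nat_lit 2284, nat_lit 2286, nat_lit 2290, nat_lit 2294, nat_lit 2300, nat_lit 2302,
  nat_lit 2306, nat_lit 2310, nat_lit 2314, nat_lit 2316, nat_lit 2322, nat_lit 2326, nat_lit 2330, nat_lit 2332,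
  nat_lit 2334, nat_lit 2342, nat_lit 2346, nat_lit 2350, nat_lit 2352, nat_lit 2358, nat_lit 2362, nat_lit 2366,
  nat_lit 2372, nat_lit 2374, nat_lit 2376, nat_lit 2380, nat_lit 2384, nat_lit 2386, nat_lit 2388, nat_lit 2396,
  nat_lit 2400, nat_lit 2408, nat_lit 2410, nat_lit 2414, nat_lit 2418, nat_lit 2422, nat_lit 2424, nat_lit 2432,
  nat_lit 2436, nat_lit 2444, nat_lit 2446, nat_lit 2448, nat_lit 2452, nat_lit 2456, nat_lit 2462, nat_lit 2464,
  nat_lit 2468, nat_lit 2472, nat_lit 2476, nat_lit 2478, nat_lit 2484, nat_lit 2488, nat_lit 2492, nat_lit 2494,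
  nat_lit 2496, nat_lit 2504, nat_lit 2508, nat_lit 2516, nat_lit 2518, nat_lit 2522, nat_lit 2526, nat_lit 2530,
  nat_lit 2532, nat_lit 2540, nat_lit 2544, nat_lit 2552, nat_lit 2554, nat_lit 2556, nat_lit 2560, nat_lit 2564,
  nat_lit 2566, nat_lit 2568, nat_lit 2574, nat_lit 2578, nat_lit 2582, nat_lit 2588, nat_lit 2590, nat_lit 2592,
  nat_lit 2596, nat_lit 2600, nat_lit 2602, nat_lit 2604, nat_lit 2612, nat_lit 2616, nat_lit 2620, nat_lit 2622,
  nat_lit 2628, nat_lit 2632, nat_lit 2636, nat_lit 2642, nat_lit 2644, nat_lit 2648, nat_lit 2652, nat_lit 2660,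
  nat_lit 2662, nat_lit 2664, nat_lit 2668, nat_lit 2672, nat_lit 2674, nat_lit 2676, nat_lit 2682, nat_lit 2686,
  nat_lit 2690, nat_lit 2696, nat_lit 2698, nat_lit 2700, nat_lit 2704, nat_lit 2708, nat_lit 2710, nat_lit 2712,
  nat_lit 2720, nat_lit 2724, nat_lit 2732, nat_lit 2734, nat_lit 2738, nat_lit 2742, nat_lit 2746, nat_lit 2748,
  nat_lit 2754, nat_lit 2758, nat_lit 2762, nat_lit 2764, nat_lit 2766, nat_lit 2774, nat_lit 2778, nat_lit 2782,
  nat_lit 2784, nat_lit 2790, nat_lit 2794, nat_lit 2798, nat_lit 2804, nat_lit 2806, nat_lit 2810, nat_lit 2814,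
  nat_lit 2822, nat_lit 2824, nat_lit 2826, nat_lit 2830, nat_lit 2834, nat_lit 2840, nat_lit 2842, nat_lit 2846,
  nat_lit 2850, nat_lit 2854, nat_lit 2856, nat_lit 2864, nat_lit 2868, nat_lit 2876, nat_lit 2878, nat_lit 2880,
  nat_lit 2884, nat_lit 2888, nat_lit 2890, nat_lit 2892, nat_lit 2898, nat_lit 2902, nat_lit 2906, nat_lit 2912,
  nat_lit 2914, nat_lit 2918, nat_lit 2922, nat_lit 2930, nat_lit 2932, nat_lit 2934, nat_lit 2938, nat_lit 2942,
  nat_lit 2948, nat_lit 2950, nat_lit 2954, nat_lit 2958, nat_lit 2962, nat_lit 2964, nat_lit 2970, nat_lit 2974,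
  nat_lit 2978, nat_lit 2980, nat_lit 2982, nat_lit 2990, nat_lit 2994, nat_lit 3002, nat_lit 3004, nat_lit 3008,
  nat_lit 3012, nat_lit 3016, nat_lit 3018, nat_lit 3026, nat_lit 3030, nat_lit 3038, nat_lit 3040, nat_lit 3042,
  nat_lit 3046, nat_lit 3050, nat_lit 3052, nat_lit 3054, nat_lit 3060, nat_lit 3064, nat_lit 3068, nat_lit 3074,
  nat_lit 3076, nat_lit 3078, nat_lit 3082, nat_lit 3086, nat_lit 3088, nat_lit 3090, nat_lit 3098, nat_lit 3102,
  nat_lit 3106, nat_lit 3108, nat_lit 3114, nat_lit 3118, nat_lit 3122, nat_lit 3128, nat_lit 3130, nat_lit 3134,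
  nat_lit 3138, nat_lit 3146, nat_lit 3148, nat_lit 3150, nat_lit 3154, nat_lit 3158, nat_lit 3164, nat_lit 3166,
  nat_lit 3170, nat_lit 3174, nat_lit 3178, nat_lit 3180, nat_lit 3188, nat_lit 3192, nat_lit 3200, nat_lit 3202,
  nat_lit 3204, nat_lit 3208, nat_lit 3212, nat_lit 3214, nat_lit 3216, nat_lit 3222, nat_lit 3226, nat_lit 3230,
  nat_lit 3236, nat_lit 3238, nat_lit 3242, nat_lit 3246, nat_lit 3254, nat_lit 3256, nat_lit 3258, nat_lit 3262,
  nat_lit 3266, nat_lit 3272, nat_lit 3274, nat_lit 3278, nat_lit 3282, nat_lit 3286, nat_lit 3288, nat_lit 3294,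
  nat_lit 3298, nat_lit 3302, nat_lit 3304, nat_lit 3306, nat_lit 3314, nat_lit 3318, nat_lit 3322, nat_lit 3324,
  nat_lit 3330, nat_lit 3334, nat_lit 3338, nat_lit 3344, nat_lit 3346, nat_lit 3348, nat_lit 3352, nat_lit 3356,
  nat_lit 3358, nat_lit 3360, nat_lit 3368, nat_lit 3372, nat_lit 3380, nat_lit 3382, nat_lit 3386, nat_lit 3390,
  nat_lit 3394, nat_lit 3396, nat_lit 3402, nat_lit 3406, nat_lit 3410, nat_lit 3412, nat_lit 3414, nat_lit 3422,
  nat_lit 3426, nat_lit 3430, nat_lit 3432, nat_lit 3438, nat_lit 3442, nat_lit 3446, nat_lit 3452, nat_lit 3454,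
  nat_lit 3458, nat_lit 3462, nat_lit 3470, nat_lit 3472, nat_lit 3474, nat_lit 3478, nat_lit 3482, nat_lit 3484,
  nat_lit 3486, nat_lit 3492, nat_lit 3496, nat_lit 3500, nat_lit 3506, nat_lit 3508, nat_lit 3510, nat_lit 3514,
  nat_lit 3518, nat_lit 3520, nat_lit 3522, nat_lit 3530, nat_lit 3534, nat_lit 3542, nat_lit 3544, nat_lit 3548,
  nat_lit 3552, nat_lit 3556, nat_lit 3558, nat_lit 3566, nat_lit 3570, nat_lit 3578, nat_lit 3580, nat_lit 3582,
  nat_lit 3586, nat_lit 3590, nat_lit 3596, nat_lit 3598, nat_lit 3602, nat_lit 3606, nat_lit 3610, nat_lit 3612,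
  nat_lit 3618, nat_lit 3622, nat_lit 3626, nat_lit 3628, nat_lit 3630, nat_lit 3638, nat_lit 3642, nat_lit 3646,
  nat_lit 3648, nat_lit 3654, nat_lit 3658, nat_lit 3662, nat_lit 3668, nat_lit 3670, nat_lit 3672, nat_lit 3676,
  nat_lit 3680, nat_lit 3682, nat_lit 3684, nat_lit 3692, nat_lit 3696, nat_lit 3704, nat_lit 3706, nat_lit 3710,
  nat_lit 3714, nat_lit 3718, nat_lit 3720, nat_lit 3726, nat_lit 3730, nat_lit 3734, nat_lit 3736, nat_lit 3738,
  nat_lit 3746, nat_lit 3750, nat_lit 3754, nat_lit 3756, nat_lit 3762, nat_lit 3766, nat_lit 3770, nat_lit 3776,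
  nat_lit 3778, nat_lit 3782, nat_lit 3786, nat_lit 3794, nat_lit 3796, nat_lit 3798, nat_lit 3802, nat_lit 3806,
  nat_lit 3812, nat_lit 3814, nat_lit 3818, nat_lit 3822, nat_lit 3826, nat_lit 3828, nat_lit 3836, nat_lit 3840,
  nat_lit 3848, nat_lit 3850, nat_lit 3852, nat_lit 3856, nat_lit 3860, nat_lit 3862, nat_lit 3864, nat_lit 3870,
  nat_lit 3874, nat_lit 3878, nat_lit 3884, nat_lit 3886, nat_lit 3888, nat_lit 3892, nat_lit 3896, nat_lit 3898,
  nat_lit 3900, nat_lit 3908, nat_lit 3912, nat_lit 3916, nat_lit 3918, nat_lit 3924, nat_lit 3928, nat_lit 3932,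
  nat_lit 3938, nat_lit 3940, nat_lit 3944, nat_lit 3948, nat_lit 3956, nat_lit 3958, nat_lit 3960, nat_lit 3964,
  nat_lit 3968, nat_lit 3970, nat_lit 3972, nat_lit 3978, nat_lit 3982, nat_lit 3986, nat_lit 3992, nat_lit 3994,
  nat_lit 3996, nat_lit 4000, nat_lit 4004, nat_lit 4006, nat_lit 4008, nat_lit 4016, nat_lit 4020, nat_lit 4028,
  nat_lit 4030, nat_lit 4034, nat_lit 4038, nat_lit 4042, nat_lit 4044, nat_lit 4052, nat_lit 4056, nat_lit 4064,
  nat_lit 4066, nat_lit 4068, nat_lit 4072, nat_lit 4076, nat_lit 4082, nat_lit 4084, nat_lit 4088, nat_lit 4092,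
  nat_lit 4096, nat_lit 4098, nat_lit 4104, nat_lit 4108, nat_lit 4112, nat_lit 4114, nat_lit 4116, nat_lit 4124,
  nat_lit 4128, nat_lit 4136, nat_lit 4138, nat_lit 4142, nat_lit 4146, nat_lit 4150, nat_lit 4152, nat_lit 4160,
  nat_lit 4164, nat_lit 4172, nat_lit 4174, nat_lit 4176, nat_lit 4180, nat_lit 4184, nat_lit 4186, nat_lit 4188,
  nat_lit 4194, nat_lit 4198, nat_lit 4202, nat_lit 4208, nat_lit 4210, nat_lit 4214, nat_lit 4218, nat_lit 4226,
  nat_lit 4228, nat_lit 4230, nat_lit 4234, nat_lit 4238, nat_lit 4244, nat_lit 4246, nat_lit 4250, nat_lit 4254,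
  nat_lit 4258, nat_lit 4260, nat_lit 4266, nat_lit 4270, nat_lit 4274, nat_lit 4276, nat_lit 4278, nat_lit 4286,
  nat_lit 4290, nat_lit 4294, nat_lit 4296, nat_lit 4302, nat_lit 4306, nat_lit 4310, nat_lit 4316, nat_lit 4318,
  nat_lit 4320, nat_lit 4324, nat_lit 4328, nat_lit 4330, nat_lit 4332, nat_lit 4340, nat_lit 4344, nat_lit 4352,
  nat_lit 4354, nat_lit 4358, nat_lit 4362, nat_lit 4366, nat_lit 4368, nat_lit 4374, nat_lit 4378, nat_lit 4382,
  nat_lit 4384, nat_lit 4386, nat_lit 4394, nat_lit 4398, nat_lit 4402, nat_lit 4404, nat_lit 4410, nat_lit 4414,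
  nat_lit 4418, nat_lit 4424, nat_lit 4426, nat_lit 4430, nat_lit 4434, nat_lit 4442, nat_lit 4444, nat_lit 4446,
  nat_lit 4450, nat_lit 4454, nat_lit 4456, nat_lit 4458, nat_lit 4464, nat_lit 4468, nat_lit 4472, nat_lit 4478,
  nat_lit 4480, nat_lit 4482, nat_lit 4486, nat_lit 4490, nat_lit 4492, nat_lit 4494, nat_lit 4502, nat_lit 4506,
  nat_lit 4514, nat_lit 4516, nat_lit 4520, nat_lit 4524, nat_lit 4528, nat_lit 4530, nat_lit 4538, nat_lit 4542,
  nat_lit 4550, nat_lit 4552, nat_lit 4554, nat_lit 4558, nat_lit 4562, nat_lit 4568, nat_lit 4570, nat_lit 4574,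
  nat_lit 4578, nat_lit 4582, nat_lit 4584, nat_lit 4590, nat_lit 4594, nat_lit 4598, nat_lit 4600, nat_lit 4602,
  nat_lit 4610, nat_lit 4614, nat_lit 4618, nat_lit 4620, nat_lit 4626, nat_lit 4630, nat_lit 4634, nat_lit 4640,
  nat_lit 4642, nat_lit 4644, nat_lit 4648, nat_lit 4652, nat_lit 4654, nat_lit 4656, nat_lit 4664, nat_lit 4668,
  nat_lit 4676, nat_lit 4678, nat_lit 4682, nat_lit 4686, nat_lit 4690, nat_lit 4692, nat_lit 4698, nat_lit 4702,
  nat_lit 4706, nat_lit 4708, nat_lit 4710, nat_lit 4718, nat_lit 4722, nat_lit 4726, nat_lit 4728, nat_lit 4734,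
  nat_lit 4738, nat_lit 4742, nat_lit 4748, nat_lit 4750, nat_lit 4754, nat_lit 4758, nat_lit 4766, nat_lit 4768,
  nat_lit 4770, nat_lit 4774, nat_lit 4778, nat_lit 4784, nat_lit 4786, nat_lit 4790, nat_lit 4794, nat_lit 4798,
  nat_lit 4800, nat_lit 4808, nat_lit 4812, nat_lit 4820, nat_lit 4822, nat_lit 4824, nat_lit 4828, nat_lit 4832,
  nat_lit 4834, nat_lit 4836, nat_lit 4842, nat_lit 4846, nat_lit 4850, nat_lit 4856, nat_lit 4858, nat_lit 4862,
  nat_lit 4866, nat_lit 4874, nat_lit 4876, nat_lit 4878, nat_lit 4882, nat_lit 4886, nat_lit 4892, nat_lit 4894,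
  nat_lit 4898, nat_lit 4902, nat_lit 4906, nat_lit 4908, nat_lit 4914, nat_lit 4918, nat_lit 4922, nat_lit 4924,
  nat_lit 4926, nat_lit 4934, nat_lit 4938, nat_lit 4946, nat_lit 4948, nat_lit 4952, nat_lit 4956, nat_lit 4960,
  nat_lit 4962, nat_lit 4970, nat_lit 4974, nat_lit 4982, nat_lit 4984, nat_lit 4986, nat_lit 4990, nat_lit 4994,
  nat_lit 4996, nat_lit 4998, nat_lit 5004, nat_lit 5008, nat_lit 5012, nat_lit 5018, nat_lit 5020, nat_lit 5022,
  nat_lit 5026, nat_lit 5030, nat_lit 5032, nat_lit 5034, nat_lit 5042, nat_lit 5046, nat_lit 5050, nat_lit 5052,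
  nat_lit 5058, nat_lit 5062, nat_lit 5066, nat_lit 5072, nat_lit 5074, nat_lit 5078, nat_lit 5082, nat_lit 5090,
  nat_lit 5092, nat_lit 5094, nat_lit 5098, nat_lit 5102, nat_lit 5104, nat_lit 5106, nat_lit 5112, nat_lit 5116,
  nat_lit 5120, nat_lit 5126, nat_lit 5128, nat_lit 5130, nat_lit 5134, nat_lit 5138, nat_lit 5140, nat_lit 5142,
  nat_lit 5150, nat_lit 5154, nat_lit 5162, nat_lit 5164, nat_lit 5168, nat_lit 5172, nat_lit 5176, nat_lit 5178,
  nat_lit 5184, nat_lit 5188, nat_lit 5192, nat_lit 5194, nat_lit 5196, nat_lit 5204, nat_lit 5208, nat_lit 5212,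
  nat_lit 5214, nat_lit 5220, nat_lit 5224, nat_lit 5228, nat_lit 5234, nat_lit 5236, nat_lit 5240, nat_lit 5244,
  nat_lit 5252, nat_lit 5254, nat_lit 5256, nat_lit 5260, nat_lit 5264, nat_lit 5270, nat_lit 5272, nat_lit 5276,
  nat_lit 5280, nat_lit 5284, nat_lit 5286, nat_lit 5294, nat_lit 5298, nat_lit 5306, nat_lit 5308, nat_lit 5310,
  nat_lit 5314, nat_lit 5318, nat_lit 5320, nat_lit 5322, nat_lit 5328, nat_lit 5332, nat_lit 5336, nat_lit 5342,
  nat_lit 5344, nat_lit 5346, nat_lit 5350, nat_lit 5354, nat_lit 5356, nat_lit 5358, nat_lit 5366, nat_lit 5370,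
  nat_lit 5374, nat_lit 5376, nat_lit 5382, nat_lit 5386, nat_lit 5390, nat_lit 5396, nat_lit 5398, nat_lit 5402,
  nat_lit 5406, nat_lit 5414, nat_lit 5416, nat_lit 5418, nat_lit 5422, nat_lit 5426, nat_lit 5428, nat_lit 5430,
  nat_lit 5436, nat_lit 5440, nat_lit 5444, nat_lit 5450, nat_lit 5452, nat_lit 5454, nat_lit 5458, nat_lit 5462,
  nat_lit 5464, nat_lit 5466, nat_lit 5474, nat_lit 5478, nat_lit 5486, nat_lit 5488, nat_lit 5492, nat_lit 5496,
  nat_lit 5500, nat_lit 5502, nat_lit 5510, nat_lit 5514, nat_lit 5522, nat_lit 5524, nat_lit 5526, nat_lit 5530,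
  nat_lit 5534, nat_lit 5540, nat_lit 5542, nat_lit 5546, nat_lit 5550, nat_lit 5554, nat_lit 5556, nat_lit 5562,
  nat_lit 5566, nat_lit 5570, nat_lit 5572, nat_lit 5574, nat_lit 5582, nat_lit 5586, nat_lit 5594, nat_lit 5596,
  nat_lit 5600, nat_lit 5604, nat_lit 5608, nat_lit 5610, nat_lit 5618, nat_lit 5622, nat_lit 5630, nat_lit 5632,
  nat_lit 5634, nat_lit 5638, nat_lit 5642, nat_lit 5644, nat_lit 5646, nat_lit 5652, nat_lit 5656, nat_lit 5660,
  nat_lit 5666, nat_lit 5668, nat_lit 5672, nat_lit 5676, nat_lit 5684, nat_lit 5686, nat_lit 5688, nat_lit 5692,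
  nat_lit 5696, nat_lit 5702, nat_lit 5704, nat_lit 5708, nat_lit 5712, nat_lit 5716, nat_lit 5718, nat_lit 5724,
  nat_lit 5728, nat_lit 5732, nat_lit 5734, nat_lit 5736, nat_lit 5744, nat_lit 5748, nat_lit 5752, nat_lit 5754,
  nat_lit 5760, nat_lit 5764, nat_lit 5768, nat_lit 5774, nat_lit 5776, nat_lit 5778, nat_lit 5782, nat_lit 5786,
  nat_lit 5788, nat_lit 5790, nat_lit 5798, nat_lit 5802, nat_lit 5810, nat_lit 5812, nat_lit 5816, nat_lit 5820,
  nat_lit 5824, nat_lit 5826, nat_lit 5834, nat_lit 5838, nat_lit 5846, nat_lit 5848, nat_lit 5850, nat_lit 5854,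
  nat_lit 5858, nat_lit 5864, nat_lit 5866, nat_lit 5870, nat_lit 5874, nat_lit 5878, nat_lit 5880, nat_lit 5886,
  nat_lit 5890, nat_lit 5894, nat_lit 5896, nat_lit 5898, nat_lit 5906, nat_lit 5910, nat_lit 5918, nat_lit 5920,
  nat_lit 5924, nat_lit 5928, nat_lit 5932, nat_lit 5934, nat_lit 5942, nat_lit 5946, nat_lit 5954, nat_lit 5956,
  nat_lit 5958, nat_lit 5962, nat_lit 5966, nat_lit 5968, nat_lit 5970, nat_lit 5976, nat_lit 5980, nat_lit 5984,
  nat_lit 5990, nat_lit 5992, nat_lit 5994, nat_lit 5998, nat_lit 6002, nat_lit 6004, nat_lit 6006, nat_lit 6014,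
  nat_lit 6018, nat_lit 6022, nat_lit 6024, nat_lit 6030, nat_lit 6034, nat_lit 6038, nat_lit 6044, nat_lit 6046,
  nat_lit 6050, nat_lit 6054, nat_lit 6062, nat_lit 6064, nat_lit 6066, nat_lit 6070, nat_lit 6074, nat_lit 6080,
  nat_lit 6082, nat_lit 6086, nat_lit 6090, nat_lit 6094, nat_lit 6096, nat_lit 6104, nat_lit 6108, nat_lit 6116,
  nat_lit 6118, nat_lit 6120, nat_lit 6124, nat_lit 6128, nat_lit 6130, nat_lit 6132, nat_lit 6138, nat_lit 6142,
  nat_lit 6146, nat_lit 6152, nat_lit 6154, nat_lit 6158, nat_lit 6162, nat_lit 6170, nat_lit 6172, nat_lit 6174,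
  nat_lit 6178, nat_lit 6182, nat_lit 6188, nat_lit 6190, nat_lit 6194, nat_lit 6198, nat_lit 6202, nat_lit 6204,
  nat_lit 6210, nat_lit 6214, nat_lit 6218, nat_lit 6220, nat_lit 6222, nat_lit 6230, nat_lit 6234, nat_lit 6238,
  nat_lit 6240, nat_lit 6246, nat_lit 6250, nat_lit 6254, nat_lit 6260, nat_lit 6262, nat_lit 6264, nat_lit 6268,
  nat_lit 6272, nat_lit 6274, nat_lit 6276, nat_lit 6284, nat_lit 6288, nat_lit 6296, nat_lit 6298, nat_lit 6302,
  nat_lit 6306, nat_lit 6310, nat_lit 6312, nat_lit 6318, nat_lit 6322, nat_lit 6326, nat_lit 6328, nat_lit 6330,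
  nat_lit 6338, nat_lit 6342, nat_lit 6346, nat_lit 6348, nat_lit 6354, nat_lit 6358, nat_lit 6362, nat_lit 6368,
  nat_lit 6370, nat_lit 6374, nat_lit 6378, nat_lit 6386, nat_lit 6388, nat_lit 6390, nat_lit 6394, nat_lit 6398,
  nat_lit 6400, nat_lit 6402, nat_lit 6408, nat_lit 6412, nat_lit 6416, nat_lit 6422, nat_lit 6424, nat_lit 6426,
  nat_lit 6430, nat_lit 6434, nat_lit 6436, nat_lit 6438, nat_lit 6446, nat_lit 6450, nat_lit 6458, nat_lit 6460,
  nat_lit 6464, nat_lit 6468, nat_lit 6472, nat_lit 6474, nat_lit 6482, nat_lit 6486, nat_lit 6494, nat_lit 6496,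
  nat_lit 6498, nat_lit 6502, nat_lit 6506, nat_lit 6512, nat_lit 6514, nat_lit 6518, nat_lit 6522, nat_lit 6526,
  nat_lit 6528, nat_lit 6534, nat_lit 6538, nat_lit 6542, nat_lit 6544, nat_lit 6546, nat_lit 6554, nat_lit 6558,
  nat_lit 6566, nat_lit 6568, nat_lit 6572, nat_lit 6576, nat_lit 6580, nat_lit 6582, nat_lit 6590, nat_lit 6594,
  nat_lit 6602, nat_lit 6604, nat_lit 6606, nat_lit 6610, nat_lit 6614, nat_lit 6616, nat_lit 6618, nat_lit 6624,
  nat_lit 6628, nat_lit 6632, nat_lit 6638, nat_lit 6640, nat_lit 6644, nat_lit 6648, nat_lit 6656, nat_lit 6658,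
  nat_lit 6660, nat_lit 6664, nat_lit 6668, nat_lit 6674, nat_lit 6676, nat_lit 6680, nat_lit 6684, nat_lit 6688,
  nat_lit 6690, nat_lit 6696, nat_lit 6700, nat_lit 6704, nat_lit 6706, nat_lit 6708, nat_lit 6716, nat_lit 6720,
  nat_lit 6724, nat_lit 6726, nat_lit 6732, nat_lit 6736, nat_lit 6740, nat_lit 6746, nat_lit 6748, nat_lit 6750,
  nat_lit 6754, nat_lit 6758, nat_lit 6760, nat_lit 6762, nat_lit 6770, nat_lit 6774, nat_lit 6782, nat_lit 6784,
  nat_lit 6788, nat_lit 6792, nat_lit 6796, nat_lit 6798, nat_lit 6806, nat_lit 6810, nat_lit 6818, nat_lit 6820,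
  nat_lit 6822, nat_lit 6826, nat_lit 6830, nat_lit 6836, nat_lit 6838, nat_lit 6842, nat_lit 6846, nat_lit 6850,
  nat_lit 6852, nat_lit 6858, nat_lit 6862, nat_lit 6866, nat_lit 6868, nat_lit 6870, nat_lit 6878, nat_lit 6882,
  nat_lit 6890, nat_lit 6892, nat_lit 6896, nat_lit 6900, nat_lit 6904, nat_lit 6906, nat_lit 6914, nat_lit 6918,
  nat_lit 6926, nat_lit 6928, nat_lit 6930, nat_lit 6934, nat_lit 6938, nat_lit 6940, nat_lit 6942, nat_lit 6948,
  nat_lit 6952, nat_lit 6956, nat_lit 6962, nat_lit 6964, nat_lit 6966, nat_lit 6970, nat_lit 6974, nat_lit 6976,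
  nat_lit 6978, nat_lit 6986, nat_lit 6990, nat_lit 6994, nat_lit 6996, nat_lit 7002, nat_lit 7006, nat_lit 7010,
  nat_lit 7016, nat_lit 7018, nat_lit 7022, nat_lit 7026, nat_lit 7034, nat_lit 7036, nat_lit 7038, nat_lit 7042,
  nat_lit 7046, nat_lit 7048, nat_lit 7050, nat_lit 7056, nat_lit 7060, nat_lit 7064, nat_lit 7070, nat_lit 7072,
  nat_lit 7074, nat_lit 7078, nat_lit 7082, nat_lit 7084, nat_lit 7086, nat_lit 7094, nat_lit 7098, nat_lit 7106,
  nat_lit 7108, nat_lit 7112, nat_lit 7116, nat_lit 7120, nat_lit 7122, nat_lit 7128, nat_lit 7132, nat_lit 7136,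
  nat_lit 7138, nat_lit 7140, nat_lit 7148, nat_lit 7152, nat_lit 7156, nat_lit 7158, nat_lit 7164, nat_lit 7168,
  nat_lit 7172, nat_lit 7178, nat_lit 7180, nat_lit 7184, nat_lit 7188, nat_lit 7196, nat_lit 7198, nat_lit 7200,
  nat_lit 7204, nat_lit 7208, nat_lit 7214, nat_lit 7216, nat_lit 7220, nat_lit 7224, nat_lit 7228, nat_lit 7230,
  nat_lit 7238, nat_lit 7242, nat_lit 7250, nat_lit 7252, nat_lit 7254, nat_lit 7258, nat_lit 7262, nat_lit 7264,
  nat_lit 7266, nat_lit 7272, nat_lit 7276, nat_lit 7280, nat_lit 7286, nat_lit 7288, nat_lit 7292, nat_lit 7296,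
  nat_lit 7304, nat_lit 7306, nat_lit 7308, nat_lit 7312, nat_lit 7316, nat_lit 7322, nat_lit 7324, nat_lit 7328,
  nat_lit 7332, nat_lit 7336, nat_lit 7338, nat_lit 7344, nat_lit 7348, nat_lit 7352, nat_lit 7354, nat_lit 7356,
  nat_lit 7364, nat_lit 7368, nat_lit 7376, nat_lit 7378, nat_lit 7382, nat_lit 7386, nat_lit 7390, nat_lit 7392,
  nat_lit 7400, nat_lit 7404, nat_lit 7412, nat_lit 7414, nat_lit 7416, nat_lit 7420, nat_lit 7424, nat_lit 7426,
  nat_lit 7428, nat_lit 7434, nat_lit 7438, nat_lit 7442, nat_lit 7448, nat_lit 7450, nat_lit 7452, nat_lit 7456,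
  nat_lit 7460, nat_lit 7462, nat_lit 7464, nat_lit 7472, nat_lit 7476, nat_lit 7480, nat_lit 7482, nat_lit 7488,
  nat_lit 7492, nat_lit 7496, nat_lit 7502, nat_lit 7504, nat_lit 7508, nat_lit 7512, nat_lit 7520, nat_lit 7522,
  nat_lit 7524, nat_lit 7528, nat_lit 7532, nat_lit 7538, nat_lit 7540, nat_lit 7544, nat_lit 7548, nat_lit 7552,
  nat_lit 7554, nat_lit 7562, nat_lit 7566, nat_lit 7574, nat_lit 7576, nat_lit 7578, nat_lit 7582, nat_lit 7586,
  nat_lit 7588, nat_lit 7590, nat_lit 7596, nat_lit 7600, nat_lit 7604, nat_lit 7610, nat_lit 7612, nat_lit 7616,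
  nat_lit 7620, nat_lit 7628, nat_lit 7630, nat_lit 7632, nat_lit 7636, nat_lit 7640, nat_lit 7646, nat_lit 7648,
  nat_lit 7652, nat_lit 7656, nat_lit 7660, nat_lit 7662, nat_lit 7668, nat_lit 7672, nat_lit 7676, nat_lit 7678,
  nat_lit 7680, nat_lit 7688, nat_lit 7692, nat_lit 7696, nat_lit 7698, nat_lit 7704, nat_lit 7708, nat_lit 7712,
  nat_lit 7718, nat_lit 7720, nat_lit 7722, nat_lit 7726, nat_lit 7730, nat_lit 7732, nat_lit 7734, nat_lit 7742,
  nat_lit 7746, nat_lit 7754, nat_lit 7756, nat_lit 7760, nat_lit 7764, nat_lit 7768, nat_lit 7770, nat_lit 7776,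
  nat_lit 7780, nat_lit 7784, nat_lit 7786, nat_lit 7788, nat_lit 7796, nat_lit 7800, nat_lit 7804, nat_lit 7806,
  nat_lit 7812, nat_lit 7816, nat_lit 7820, nat_lit 7826, nat_lit 7828, nat_lit 7832, nat_lit 7836, nat_lit 7844,
  nat_lit 7846, nat_lit 7848, nat_lit 7852, nat_lit 7856, nat_lit 7858, nat_lit 7860, nat_lit 7866, nat_lit 7870,
  nat_lit 7874, nat_lit 7880, nat_lit 7882, nat_lit 7884, nat_lit 7888, nat_lit 7892, nat_lit 7894, nat_lit 7896,
  nat_lit 7904, nat_lit 7908, nat_lit 7916, nat_lit 7918, nat_lit 7922, nat_lit 7926, nat_lit 7930, nat_lit 7932,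
  nat_lit 7940, nat_lit 7944, nat_lit 7952, nat_lit 7954, nat_lit 7956, nat_lit 7960, nat_lit 7964, nat_lit 7970,
  nat_lit 7972, nat_lit 7976, nat_lit 7980, nat_lit 7984, nat_lit 7986, nat_lit 7992, nat_lit 7996, nat_lit 8000,
  nat_lit 8002, nat_lit 8004, nat_lit 8012, nat_lit 8016, nat_lit 8020, nat_lit 8022, nat_lit 8028, nat_lit 8032,
  nat_lit 8036, nat_lit 8042, nat_lit 8044, nat_lit 8046, nat_lit 8050, nat_lit 8054, nat_lit 8056, nat_lit 8058,
  nat_lit 8066, nat_lit 8070, nat_lit 8078, nat_lit 8080, nat_lit 8084, nat_lit 8088, nat_lit 8092, nat_lit 8094,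
  nat_lit 8100, nat_lit 8104, nat_lit 8108, nat_lit 8110, nat_lit 8112, nat_lit 8120, nat_lit 8124, nat_lit 8128,
  nat_lit 8130, nat_lit 8136, nat_lit 8140, nat_lit 8144, nat_lit 8150, nat_lit 8152, nat_lit 8156, nat_lit 8160,
  nat_lit 8168, nat_lit 8170, nat_lit 8172, nat_lit 8176, nat_lit 8180, nat_lit 8186, nat_lit 8188, nat_lit 8192,
  nat_lit 8196, nat_lit 8200, nat_lit 8202, nat_lit 8210, nat_lit 8214, nat_lit 8222, nat_lit 8224, nat_lit 8226,
  nat_lit 8230, nat_lit 8234, nat_lit 8236, nat_lit 8238, nat_lit 8244, nat_lit 8248, nat_lit 8252, nat_lit 8258,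
  nat_lit 8260, nat_lit 8262, nat_lit 8266, nat_lit 8270, nat_lit 8272, nat_lit 8274, nat_lit 8282, nat_lit 8286,
  nat_lit 8290, nat_lit 8292, nat_lit 8298, nat_lit 8302, nat_lit 8306, nat_lit 8312, nat_lit 8314, nat_lit 8318,
  nat_lit 8322, nat_lit 8330, nat_lit 8332, nat_lit 8334, nat_lit 8338, nat_lit 8342, nat_lit 8344, nat_lit 8346,
  nat_lit 8352, nat_lit 8356, nat_lit 8360, nat_lit 8366, nat_lit 8368, nat_lit 8370, nat_lit 8374, nat_lit 8378,
  nat_lit 8380, nat_lit 8382, nat_lit 8390, nat_lit 8394, nat_lit 8402, nat_lit 8404, nat_lit 8408, nat_lit 8412,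
  nat_lit 8416, nat_lit 8418, nat_lit 8426, nat_lit 8430, nat_lit 8438, nat_lit 8440, nat_lit 8442, nat_lit 8446,
  nat_lit 8450, nat_lit 8456, nat_lit 8458, nat_lit 8462, nat_lit 8466, nat_lit 8470, nat_lit 8472, nat_lit 8478,
  nat_lit 8482, nat_lit 8486, nat_lit 8488, nat_lit 8490, nat_lit 8498, nat_lit 8502, nat_lit 8510, nat_lit 8512,
  nat_lit 8516, nat_lit 8520, nat_lit 8524, nat_lit 8526, nat_lit 8534, nat_lit 8538, nat_lit 8546, nat_lit 8548,
  nat_lit 8550, nat_lit 8554, nat_lit 8558, nat_lit 8560, nat_lit 8562, nat_lit 8568, nat_lit 8572, nat_lit 8576,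
  nat_lit 8582, nat_lit 8584, nat_lit 8588, nat_lit 8592, nat_lit 8600, nat_lit 8602, nat_lit 8604, nat_lit 8608,
  nat_lit 8612, nat_lit 8618, nat_lit 8620, nat_lit 8624, nat_lit 8628, nat_lit 8632, nat_lit 8634, nat_lit 8640,
  nat_lit 8644, nat_lit 8648, nat_lit 8650, nat_lit 8652, nat_lit 8660, nat_lit 8664, nat_lit 8668, nat_lit 8670,
  nat_lit 8676, nat_lit 8680, nat_lit 8684, nat_lit 8690, nat_lit 8692, nat_lit 8694, nat_lit 8698, nat_lit 8702,
  nat_lit 8704, nat_lit 8706, nat_lit 8714, nat_lit 8718, nat_lit 8726, nat_lit 8728, nat_lit 8732, nat_lit 8736,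
  nat_lit 8740, nat_lit 8742, nat_lit 8750, nat_lit 8754, nat_lit 8762, nat_lit 8764, nat_lit 8766, nat_lit 8770,
  nat_lit 8774, nat_lit 8780, nat_lit 8782, nat_lit 8786, nat_lit 8790, nat_lit 8794, nat_lit 8796, nat_lit 8802,
  nat_lit 8806, nat_lit 8810, nat_lit 8812, nat_lit 8814, nat_lit 8822, nat_lit 8826, nat_lit 8834, nat_lit 8836,
  nat_lit 8840, nat_lit 8844, nat_lit 8848, nat_lit 8850, nat_lit 8858, nat_lit 8862, nat_lit 8870, nat_lit 8872,
  nat_lit 8874, nat_lit 8878, nat_lit 8882, nat_lit 8884, nat_lit 8886, nat_lit 8892, nat_lit 8896, nat_lit 8900,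
  nat_lit 8906, nat_lit 8908, nat_lit 8910, nat_lit 8914, nat_lit 8918, nat_lit 8920, nat_lit 8922, nat_lit 8930,
  nat_lit 8934, nat_lit 8938, nat_lit 8940, nat_lit 8946, nat_lit 8950, nat_lit 8954, nat_lit 8960, nat_lit 8962,
  nat_lit 8966, nat_lit 8970, nat_lit 8978, nat_lit 8980, nat_lit 8982, nat_lit 8986, nat_lit 8990, nat_lit 8996,
  nat_lit 8998, nat_lit 9002, nat_lit 9006, nat_lit 9010, nat_lit 9012, nat_lit 9020, nat_lit 9024, nat_lit 9032,
  nat_lit 9034, nat_lit 9036, nat_lit 9040, nat_lit 9044, nat_lit 9046, nat_lit 9048, nat_lit 9054, nat_lit 9058,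
  nat_lit 9062, nat_lit 9068, nat_lit 9070, nat_lit 9074, nat_lit 9078, nat_lit 9086, nat_lit 9088, nat_lit 9090,
  nat_lit 9094, nat_lit 9098, nat_lit 9104, nat_lit 9106, nat_lit 9110, nat_lit 9114, nat_lit 9118, nat_lit 9120,
  nat_lit 9126, nat_lit 9130, nat_lit 9134, nat_lit 9136, nat_lit 9138, nat_lit 9146, nat_lit 9150, nat_lit 9154,
  nat_lit 9156, nat_lit 9162, nat_lit 9166, nat_lit 9170, nat_lit 9176, nat_lit 9178, nat_lit 9180, nat_lit 9184,
  nat_lit 9188, nat_lit 9190, nat_lit 9192, nat_lit 9200, nat_lit 9204, nat_lit 9212, nat_lit 9214, nat_lit 9218,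
  nat_lit 9222, nat_lit 9226, nat_lit 9228, nat_lit 9234, nat_lit 9238, nat_lit 9242, nat_lit 9244, nat_lit 9246,
  nat_lit 9254, nat_lit 9258, nat_lit 9262, nat_lit 9264, nat_lit 9270, nat_lit 9274, nat_lit 9278, nat_lit 9284,
  nat_lit 9286, nat_lit 9290, nat_lit 9294, nat_lit 9302, nat_lit 9304, nat_lit 9306, nat_lit 9310, nat_lit 9314,
  nat_lit 9316, nat_lit 9318, nat_lit 9324, nat_lit 9328, nat_lit 9332, nat_lit 9338, nat_lit 9340, nat_lit 9342,
  nat_lit 9346, nat_lit 9350, nat_lit 9352, nat_lit 9354, nat_lit 9362, nat_lit 9366, nat_lit 9374, nat_lit 9376,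
  nat_lit 9380, nat_lit 9384, nat_lit 9388, nat_lit 9390, nat_lit 9398, nat_lit 9402, nat_lit 9410, nat_lit 9412,
  nat_lit 9414, nat_lit 9418, nat_lit 9422, nat_lit 9428, nat_lit 9430, nat_lit 9434, nat_lit 9438, nat_lit 9442,
  nat_lit 9444, nat_lit 9450, nat_lit 9454, nat_lit 9458, nat_lit 9460, nat_lit 9462, nat_lit 9470, nat_lit 9474,
  nat_lit 9482, nat_lit 9484, nat_lit 9488, nat_lit 9492, nat_lit 9496, nat_lit 9498, nat_lit 9506, nat_lit 9510,
  nat_lit 9518, nat_lit 9520, nat_lit 9522, nat_lit 9526, nat_lit 9530, nat_lit 9532, nat_lit 9534, nat_lit 9540,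
  nat_lit 9544, nat_lit 9548, nat_lit 9554, nat_lit 9556, nat_lit 9560, nat_lit 9564, nat_lit 9572, nat_lit 9574,
  nat_lit 9576, nat_lit 9580, nat_lit 9584, nat_lit 9590, nat_lit 9592, nat_lit 9596, nat_lit 9600, nat_lit 9604,
  nat_lit 9606, nat_lit 9612, nat_lit 9616, nat_lit 9620, nat_lit 9622, nat_lit 9624, nat_lit 9632, nat_lit 9636,
  nat_lit 9640, nat_lit 9642, nat_lit 9648, nat_lit 9652, nat_lit 9656, nat_lit 9662, nat_lit 9664, nat_lit 9666,
  nat_lit 9670, nat_lit 9674, nat_lit 9676, nat_lit 9678, nat_lit 9686, nat_lit 9690, nat_lit 9698, nat_lit 9700,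
  nat_lit 9704, nat_lit 9708, nat_lit 9712, nat_lit 9714, nat_lit 9722, nat_lit 9726, nat_lit 9734, nat_lit 9736,
  nat_lit 9738, nat_lit 9742, nat_lit 9746, nat_lit 9752, nat_lit 9754, nat_lit 9758, nat_lit 9762, nat_lit 9766,
  nat_lit 9768, nat_lit 9774, nat_lit 9778, nat_lit 9782, nat_lit 9784, nat_lit 9786, nat_lit 9794, nat_lit 9798,
  nat_lit 9806, nat_lit 9808, nat_lit 9812, nat_lit 9816, nat_lit 9820, nat_lit 9822, nat_lit 9830, nat_lit 9834,
  nat_lit 9842, nat_lit 9844, nat_lit 9846, nat_lit 9850, nat_lit 9854, nat_lit 9856, nat_lit 9858, nat_lit 9864,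
  nat_lit 9868, nat_lit 9872, nat_lit 9878, nat_lit 9880, nat_lit 9882, nat_lit 9886, nat_lit 9890, nat_lit 9892,
  nat_lit 9894, nat_lit 9902, nat_lit 9906, nat_lit 9910, nat_lit 9912, nat_lit 9918, nat_lit 9922, nat_lit 9926,
  nat_lit 9932, nat_lit 9934, nat_lit 9938, nat_lit 9942, nat_lit 9950, nat_lit 9952, nat_lit 9954, nat_lit 9958,
  nat_lit 9962, nat_lit 9964, nat_lit 9966, nat_lit 9972, nat_lit 9976, nat_lit 9980, nat_lit 9986, nat_lit 9988,
  nat_lit 9990, nat_lit 9994, nat_lit 9998, nat_lit 10000, nat_lit 10002, nat_lit 10010, nat_lit 10014, nat_lit 10022,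
  nat_lit 10024, nat_lit 10028, nat_lit 10032, nat_lit 10036, nat_lit 10038, nat_lit 10044, nat_lit 10048, nat_lit 10052,
  nat_lit 10054, nat_lit 10056, nat_lit 10064, nat_lit 10068, nat_lit 10072, nat_lit 10074, nat_lit 10080, nat_lit 10084,
  nat_lit 10088, nat_lit 10094, nat_lit 10096, nat_lit 10100, nat_lit 10104, nat_lit 10112, nat_lit 10114, nat_lit 10116,
  nat_lit 10120, nat_lit 10124, nat_lit 10130, nat_lit 10132, nat_lit 10136, nat_lit 10140, nat_lit 10144, nat_lit 10146,
  nat_lit 10154, nat_lit 10158, nat_lit 10166, nat_lit 10168, nat_lit 10170, nat_lit 10174, nat_lit 10178, nat_lit 10180,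
  nat_lit 10182, nat_lit 10188, nat_lit 10192, nat_lit 10196, nat_lit 10202, nat_lit 10204, nat_lit 10206, nat_lit 10210,
  nat_lit 10214, nat_lit 10216, nat_lit 10218, nat_lit 10226, nat_lit 10230, nat_lit 10234, nat_lit 10236, nat_lit 10242,
  nat_lit 10246, nat_lit 10250, nat_lit 10256, nat_lit 10258, nat_lit 10262, nat_lit 10266, nat_lit 10274, nat_lit 10276,
  nat_lit 10278, nat_lit 10282, nat_lit 10286, nat_lit 10288, nat_lit 10290, nat_lit 10296, nat_lit 10300, nat_lit 10304,
  nat_lit 10310, nat_lit 10312, nat_lit 10314, nat_lit 10318, nat_lit 10322, nat_lit 10324, nat_lit 10326, nat_lit 10334,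
  nat_lit 10338, nat_lit 10346, nat_lit 10348, nat_lit 10352, nat_lit 10356, nat_lit 10360, nat_lit 10362, nat_lit 10370,
  nat_lit 10374, nat_lit 10382, nat_lit 10384, nat_lit 10386, nat_lit 10390, nat_lit 10394, nat_lit 10400, nat_lit 10402,
  nat_lit 10406, nat_lit 10410, nat_lit 10414, nat_lit 10416, nat_lit 10422, nat_lit 10426, nat_lit 10430, nat_lit 10432,
  nat_lit 10434, nat_lit 10442, nat_lit 10446, nat_lit 10450, nat_lit 10452, nat_lit 10458, nat_lit 10462, nat_lit 10466,
  nat_lit 10472, nat_lit 10474, nat_lit 10476, nat_lit 10480, nat_lit 10484, nat_lit 10486, nat_lit 10488, nat_lit 10496,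
  nat_lit 10500, nat_lit 10508, nat_lit 10510, nat_lit 10514, nat_lit 10518, nat_lit 10522, nat_lit 10524, nat_lit 10530,
  nat_lit 10534, nat_lit 10538, nat_lit 10540, nat_lit 10542, nat_lit 10550, nat_lit 10554, nat_lit 10558, nat_lit 10560,
  nat_lit 10566, nat_lit 10570, nat_lit 10574, nat_lit 10580, nat_lit 10582, nat_lit 10586, nat_lit 10590, nat_lit 10598,
  nat_lit 10600, nat_lit 10602, nat_lit 10606, nat_lit 10610, nat_lit 10616, nat_lit 10618, nat_lit 10622, nat_lit 10626,
  nat_lit 10630, nat_lit 10632, nat_lit 10640, nat_lit 10644, nat_lit 10652, nat_lit 10654, nat_lit 10656, nat_lit 10660,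
  nat_lit 10664, nat_lit 10666, nat_lit 10668, nat_lit 10674, nat_lit 10678, nat_lit 10682, nat_lit 10688, nat_lit 10690,
  nat_lit 10694, nat_lit 10698, nat_lit 10706, nat_lit 10708, nat_lit 10710, nat_lit 10714, nat_lit 10718, nat_lit 10724,
  nat_lit 10726, nat_lit 10730, nat_lit 10734, nat_lit 10738, nat_lit 10740, nat_lit 10746, nat_lit 10750, nat_lit 10754,
  nat_lit 10756, nat_lit 10758, nat_lit 10766, nat_lit 10770, nat_lit 10778, nat_lit 10780, nat_lit 10784, nat_lit 10788,
  nat_lit 10792, nat_lit 10794, nat_lit 10802, nat_lit 10806, nat_lit 10814, nat_lit 10816, nat_lit 10818, nat_lit 10822,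
  nat_lit 10826, nat_lit 10828, nat_lit 10830, nat_lit 10836, nat_lit 10840, nat_lit 10844, nat_lit 10850, nat_lit 10852,
  nat_lit 10854, nat_lit 10858, nat_lit 10862, nat_lit 10864, nat_lit 10866, nat_lit 10874, nat_lit 10878, nat_lit 10882,
  nat_lit 10884, nat_lit 10890, nat_lit 10894, nat_lit 10898, nat_lit 10904, nat_lit 10906, nat_lit 10910, nat_lit 10914,
  nat_lit 10922, nat_lit 10924, nat_lit 10926, nat_lit 10930, nat_lit 10934, nat_lit 10936, nat_lit 10938, nat_lit 10944,
  nat_lit 10948, nat_lit 10952, nat_lit 10958, nat_lit 10960, nat_lit 10962, nat_lit 10966, nat_lit 10970, nat_lit 10972,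
  nat_lit 10974, nat_lit 10982, nat_lit 10986, nat_lit 10994, nat_lit 10996, nat_lit 11000, nat_lit 11004, nat_lit 11008,
  nat_lit 11010, nat_lit 11016, nat_lit 11020, nat_lit 11024, nat_lit 11026, nat_lit 11028, nat_lit 11036, nat_lit 11040,
  nat_lit 11044, nat_lit 11046, nat_lit 11052, nat_lit 11056, nat_lit 11060, nat_lit 11066, nat_lit 11068, nat_lit 11072,
  nat_lit 11076, nat_lit 11084, nat_lit 11086, nat_lit 11088, nat_lit 11092, nat_lit 11096, nat_lit 11102, nat_lit 11104,
  nat_lit 11108, nat_lit 11112, nat_lit 11116, nat_lit 11118, nat_lit 11126, nat_lit 11130, nat_lit 11138, nat_lit 11140,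
  nat_lit 11142, nat_lit 11146, nat_lit 11150, nat_lit 11152, nat_lit 11154, nat_lit 11160, nat_lit 11164, nat_lit 11168,
  nat_lit 11174, nat_lit 11176, nat_lit 11178, nat_lit 11182, nat_lit 11186, nat_lit 11188, nat_lit 11190, nat_lit 11198,
  nat_lit 11202, nat_lit 11206, nat_lit 11208, nat_lit 11214, nat_lit 11218, nat_lit 11222, nat_lit 11228, nat_lit 11230,
  nat_lit 11234, nat_lit 11238, nat_lit 11246, nat_lit 11248, nat_lit 11250, nat_lit 11254, nat_lit 11258, nat_lit 11260,
  nat_lit 11262, nat_lit 11268, nat_lit 11272, nat_lit 11276, nat_lit 11282, nat_lit 11284, nat_lit 11286, nat_lit 11290,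
  nat_lit 11294, nat_lit 11296, nat_lit 11298, nat_lit 11306, nat_lit 11310, nat_lit 11318, nat_lit 11320, nat_lit 11324,
  nat_lit 11328, nat_lit 11332, nat_lit 11334, nat_lit 11342, nat_lit 11346, nat_lit 11354, nat_lit 11356, nat_lit 11358,
  nat_lit 11362, nat_lit 11366, nat_lit 11372, nat_lit 11374, nat_lit 11378, nat_lit 11382, nat_lit 11386, nat_lit 11388,
  nat_lit 11394, nat_lit 11398, nat_lit 11402, nat_lit 11404, nat_lit 11406, nat_lit 11414, nat_lit 11418, nat_lit 11426,
  nat_lit 11428, nat_lit 11432, nat_lit 11436, nat_lit 11440, nat_lit 11442, nat_lit 11450, nat_lit 11454, nat_lit 11462,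
  nat_lit 11464, nat_lit 11466, nat_lit 11470, nat_lit 11474, nat_lit 11476, nat_lit 11478, nat_lit 11484, nat_lit 11488,
  nat_lit 11492, nat_lit 11498, nat_lit 11500, nat_lit 11504, nat_lit 11508, nat_lit 11516, nat_lit 11518, nat_lit 11520,
  nat_lit 11524, nat_lit 11528, nat_lit 11534, nat_lit 11536, nat_lit 11540, nat_lit 11544, nat_lit 11548, nat_lit 11550,
  nat_lit 11556, nat_lit 11560, nat_lit 11564, nat_lit 11566, nat_lit 11568, nat_lit 11576, nat_lit 11580, nat_lit 11584,
  nat_lit 11586, nat_lit 11592, nat_lit 11596, nat_lit 11600, nat_lit 11606, nat_lit 11608, nat_lit 11610, nat_lit 11614,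
  nat_lit 11618, nat_lit 11620, nat_lit 11622, nat_lit 11630, nat_lit 11634, nat_lit 11642, nat_lit 11644, nat_lit 11648,
  nat_lit 11652, nat_lit 11656, nat_lit 11658, nat_lit 11664, nat_lit 11668, nat_lit 11672, nat_lit 11674, nat_lit 11676,
  nat_lit 11684, nat_lit 11688, nat_lit 11692, nat_lit 11694, nat_lit 11700, nat_lit 11704, nat_lit 11708, nat_lit 11714,
  nat_lit 11716, nat_lit 11720, nat_lit 11724, nat_lit 11732, nat_lit 11734, nat_lit 11736, nat_lit 11740, nat_lit 11744,
  nat_lit 11746, nat_lit 11748, nat_lit 11754, nat_lit 11758, nat_lit 11762, nat_lit 11768, nat_lit 11770, nat_lit 11772,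
  nat_lit 11776, nat_lit 11780, nat_lit 11782, nat_lit 11784, nat_lit 11792, nat_lit 11796, nat_lit 11804, nat_lit 11806,
  nat_lit 11810, nat_lit 11814, nat_lit 11818, nat_lit 11820, nat_lit 11828, nat_lit 11832, nat_lit 11840, nat_lit 11842,
  nat_lit 11844, nat_lit 11848, nat_lit 11852, nat_lit 11858, nat_lit 11860, nat_lit 11864, nat_lit 11868, nat_lit 11872,
  nat_lit 11874, nat_lit 11880, nat_lit 11884, nat_lit 11888, nat_lit 11890, nat_lit 11892, nat_lit 11900, nat_lit 11904,
  nat_lit 11908, nat_lit 11910, nat_lit 11916, nat_lit 11920, nat_lit 11924, nat_lit 11930, nat_lit 11932, nat_lit 11934,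
  nat_lit 11938, nat_lit 11942, nat_lit 11944, nat_lit 11946, nat_lit 11954, nat_lit 11958, nat_lit 11966, nat_lit 11968,
  nat_lit 11972, nat_lit 11976, nat_lit 11980, nat_lit 11982, nat_lit 11988, nat_lit 11992, nat_lit 11996, nat_lit 11998,
  nat_lit 12000, nat_lit 12008, nat_lit 12012, nat_lit 12016, nat_lit 12018, nat_lit 12024, nat_lit 12028, nat_lit 12032,
  nat_lit 12038, nat_lit 12040, nat_lit 12044, nat_lit 12048, nat_lit 12056, nat_lit 12058, nat_lit 12060, nat_lit 12064,
  nat_lit 12068, nat_lit 12074, nat_lit 12076, nat_lit 12080, nat_lit 12084, nat_lit 12088, nat_lit 12090, nat_lit 12098,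
  nat_lit 12102, nat_lit 12110, nat_lit 12112, nat_lit 12114, nat_lit 12118, nat_lit 12122, nat_lit 12124, nat_lit 12126,
  nat_lit 12132, nat_lit 12136, nat_lit 12140, nat_lit 12146, nat_lit 12148, nat_lit 12152, nat_lit 12156, nat_lit 12164,
  nat_lit 12166, nat_lit 12168, nat_lit 12172, nat_lit 12176, nat_lit 12182, nat_lit 12184, nat_lit 12188, nat_lit 12192,
  nat_lit 12196, nat_lit 12198, nat_lit 12204, nat_lit 12208, nat_lit 12212, nat_lit 12214, nat_lit 12216, nat_lit 12224,
  nat_lit 12228, nat_lit 12236, nat_lit 12238, nat_lit 12242, nat_lit 12246, nat_lit 12250, nat_lit 12252, nat_lit 12260,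
  nat_lit 12264, nat_lit 12272, nat_lit 12274, nat_lit 12276, nat_lit 12280, nat_lit 12284, nat_lit 12286, nat_lit 12288,
  nat_lit 12294, nat_lit 12298, nat_lit 12302, nat_lit 12308, nat_lit 12310, nat_lit 12312, nat_lit 12316, nat_lit 12320,
  nat_lit 12322, nat_lit 12324, nat_lit 12332, nat_lit 12336, nat_lit 12340, nat_lit 12342, nat_lit 12348, nat_lit 12352,
  nat_lit 12356, nat_lit 12362, nat_lit 12364, nat_lit 12368, nat_lit 12372, nat_lit 12380, nat_lit 12382, nat_lit 12384,
  nat_lit 12388, nat_lit 12392, nat_lit 12398, nat_lit 12400, nat_lit 12404, nat_lit 12408, nat_lit 12412, nat_lit 12414,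
  nat_lit 12422, nat_lit 12426, nat_lit 12434, nat_lit 12436, nat_lit 12438, nat_lit 12442, nat_lit 12446, nat_lit 12448,
  nat_lit 12450, nat_lit 12456, nat_lit 12460, nat_lit 12464, nat_lit 12470, nat_lit 12472, nat_lit 12476, nat_lit 12480,
  nat_lit 12488, nat_lit 12490, nat_lit 12492, nat_lit 12496, nat_lit 12500, nat_lit 12506, nat_lit 12508, nat_lit 12512,
  nat_lit 12516, nat_lit 12520, nat_lit 12522, nat_lit 12528, nat_lit 12532, nat_lit 12536, nat_lit 12538, nat_lit 12540,
  nat_lit 12548, nat_lit 12552, nat_lit 12556, nat_lit 12558, nat_lit 12564, nat_lit 12568, nat_lit 12572, nat_lit 12578,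
  nat_lit 12580, nat_lit 12582, nat_lit 12586, nat_lit 12590, nat_lit 12592, nat_lit 12594, nat_lit 12602, nat_lit 12606,
  nat_lit 12614, nat_lit 12616, nat_lit 12620, nat_lit 12624, nat_lit 12628, nat_lit 12630, nat_lit 12638, nat_lit 12642,
  nat_lit 12650, nat_lit 12652, nat_lit 12654, nat_lit 12658, nat_lit 12662, nat_lit 12668, nat_lit 12670, nat_lit 12674,
  nat_lit 12678, nat_lit 12682, nat_lit 12684, nat_lit 12690, nat_lit 12694, nat_lit 12698, nat_lit 12700, nat_lit 12702,
  nat_lit 12710, nat_lit 12714, nat_lit 12722, nat_lit 12724, nat_lit 12728, nat_lit 12732, nat_lit 12736, nat_lit 12738,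
  nat_lit 12746, nat_lit 12750, nat_lit 12758, nat_lit 12760, nat_lit 12762, nat_lit 12766, nat_lit 12770, nat_lit 12772,
  nat_lit 12774, nat_lit 12780, nat_lit 12784, nat_lit 12788, nat_lit 12794, nat_lit 12796, nat_lit 12798, nat_lit 12802,
  nat_lit 12806, nat_lit 12808, nat_lit 12810, nat_lit 12818, nat_lit 12822, nat_lit 12826, nat_lit 12828, nat_lit 12834,
  nat_lit 12838, nat_lit 12842, nat_lit 12848, nat_lit 12850, nat_lit 12854, nat_lit 12858, nat_lit 12866, nat_lit 12868,
  nat_lit 12870, nat_lit 12874, nat_lit 12878, nat_lit 12880, nat_lit 12882, nat_lit 12888, nat_lit 12892, nat_lit 12896,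
  nat_lit 12902, nat_lit 12904, nat_lit 12906, nat_lit 12910, nat_lit 12914, nat_lit 12916, nat_lit 12918, nat_lit 12926,
  nat_lit 12930, nat_lit 12938, nat_lit 12940, nat_lit 12944, nat_lit 12948, nat_lit 12952, nat_lit 12954, nat_lit 12960,
  nat_lit 12964, nat_lit 12968, nat_lit 12970, nat_lit 12972, nat_lit 12980, nat_lit 12984, nat_lit 12988, nat_lit 12990,
  nat_lit 12996, nat_lit 13000, nat_lit 13004, nat_lit 13010, nat_lit 13012, nat_lit 13016, nat_lit 13020, nat_lit 13028,
  nat_lit 13030, nat_lit 13032, nat_lit 13036, nat_lit 13040, nat_lit 13046, nat_lit 13048, nat_lit 13052, nat_lit 13056,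
  nat_lit 13060, nat_lit 13062, nat_lit 13070, nat_lit 13074, nat_lit 13082, nat_lit 13084, nat_lit 13086, nat_lit 13090,
  nat_lit 13094, nat_lit 13096, nat_lit 13098, nat_lit 13104, nat_lit 13108, nat_lit 13112, nat_lit 13118, nat_lit 13120,
  nat_lit 13122, nat_lit 13126, nat_lit 13130, nat_lit 13132, nat_lit 13134, nat_lit 13142, nat_lit 13146, nat_lit 13150,
  nat_lit 13152, nat_lit 13158, nat_lit 13162, nat_lit 13166, nat_lit 13172, nat_lit 13174, nat_lit 13178, nat_lit 13182,
  nat_lit 13190, nat_lit 13192, nat_lit 13194, nat_lit 13198, nat_lit 13202, nat_lit 13204, nat_lit 13206, nat_lit 13212,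
  nat_lit 13216, nat_lit 13220, nat_lit 13226, nat_lit 13228, nat_lit 13230, nat_lit 13234, nat_lit 13238, nat_lit 13240,
  nat_lit 13242, nat_lit 13250, nat_lit 13254, nat_lit 13262, nat_lit 13264, nat_lit 13268, nat_lit 13272, nat_lit 13276,
  nat_lit 13278, nat_lit 13286, nat_lit 13290, nat_lit 13298, nat_lit 13300, nat_lit 13302, nat_lit 13306, nat_lit 13310,
  nat_lit 13316, nat_lit 13318, nat_lit 13322, nat_lit 13326, nat_lit 13330, nat_lit 13332, nat_lit 13338, nat_lit 13342,
  nat_lit 13346, nat_lit 13348, nat_lit 13350, nat_lit 13358, nat_lit 13362, nat_lit 13366, nat_lit 13368, nat_lit 13374,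
  nat_lit 13378, nat_lit 13382, nat_lit 13388, nat_lit 13390, nat_lit 13392, nat_lit 13396, nat_lit 13400, nat_lit 13402,
  nat_lit 13404, nat_lit 13412, nat_lit 13416, nat_lit 13424, nat_lit 13426, nat_lit 13430, nat_lit 13434, nat_lit 13438,
  nat_lit 13440, nat_lit 13446, nat_lit 13450, nat_lit 13454, nat_lit 13456, nat_lit 13458, nat_lit 13466, nat_lit 13470,
  nat_lit 13474, nat_lit 13476, nat_lit 13482, nat_lit 13486, nat_lit 13490, nat_lit 13496, nat_lit 13498, nat_lit 13502,
  nat_lit 13506, nat_lit 13514, nat_lit 13516, nat_lit 13518, nat_lit 13522, nat_lit 13526, nat_lit 13532, nat_lit 13534,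
  nat_lit 13538, nat_lit 13542, nat_lit 13546, nat_lit 13548, nat_lit 13556, nat_lit 13560, nat_lit 13568, nat_lit 13570,
  nat_lit 13572, nat_lit 13576, nat_lit 13580, nat_lit 13582, nat_lit 13584, nat_lit 13590, nat_lit 13594, nat_lit 13598,
  nat_lit 13604, nat_lit 13606, nat_lit 13610, nat_lit 13614, nat_lit 13622, nat_lit 13624, nat_lit 13626, nat_lit 13630,
  nat_lit 13634, nat_lit 13640, nat_lit 13642, nat_lit 13646, nat_lit 13650, nat_lit 13654, nat_lit 13656, nat_lit 13662,
  nat_lit 13666, nat_lit 13670, nat_lit 13672, nat_lit 13674, nat_lit 13682, nat_lit 13686, nat_lit 13694, nat_lit 13696,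
  nat_lit 13700, nat_lit 13704, nat_lit 13708, nat_lit 13710, nat_lit 13718, nat_lit 13722, nat_lit 13730, nat_lit 13732,
  nat_lit 13734, nat_lit 13738, nat_lit 13742, nat_lit 13744, nat_lit 13746, nat_lit 13752, nat_lit 13756, nat_lit 13760,
  nat_lit 13766, nat_lit 13768, nat_lit 13770, nat_lit 13774, nat_lit 13778, nat_lit 13780, nat_lit 13782, nat_lit 13790,
  nat_lit 13794, nat_lit 13798, nat_lit 13800, nat_lit 13806, nat_lit 13810, nat_lit 13814, nat_lit 13820, nat_lit 13822,
  nat_lit 13826, nat_lit 13830, nat_lit 13838, nat_lit 13840, nat_lit 13842, nat_lit 13846, nat_lit 13850, nat_lit 13852,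
  nat_lit 13854, nat_lit 13860, nat_lit 13864, nat_lit 13868, nat_lit 13874, nat_lit 13876, nat_lit 13878, nat_lit 13882,
  nat_lit 13886, nat_lit 13888, nat_lit 13890, nat_lit 13898, nat_lit 13902, nat_lit 13910, nat_lit 13912, nat_lit 13916,
  nat_lit 13920, nat_lit 13924, nat_lit 13926, nat_lit 13932, nat_lit 13936, nat_lit 13940, nat_lit 13942, nat_lit 13944,
  nat_lit 13952, nat_lit 13956, nat_lit 13960, nat_lit 13962, nat_lit 13968, nat_lit 13972, nat_lit 13976, nat_lit 13982,
  nat_lit 13984, nat_lit 13988, nat_lit 13992, nat_lit 14000, nat_lit 14002, nat_lit 14004, nat_lit 14008, nat_lit 14012,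
  nat_lit 14018, nat_lit 14020, nat_lit 14024, nat_lit 14028, nat_lit 14032, nat_lit 14034, nat_lit 14042, nat_lit 14046,
  nat_lit 14054, nat_lit 14056, nat_lit 14058, nat_lit 14062, nat_lit 14066, nat_lit 14068, nat_lit 14070, nat_lit 14076,
  nat_lit 14080, nat_lit 14084, nat_lit 14090, nat_lit 14092, nat_lit 14094, nat_lit 14098, nat_lit 14102, nat_lit 14104,
  nat_lit 14106, nat_lit 14114, nat_lit 14118, nat_lit 14122, nat_lit 14124, nat_lit 14130, nat_lit 14134, nat_lit 14138,
  nat_lit 14144, nat_lit 14146, nat_lit 14150, nat_lit 14154, nat_lit 14162, nat_lit 14164, nat_lit 14166, nat_lit 14170,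
  nat_lit 14174, nat_lit 14176, nat_lit 14178, nat_lit 14184, nat_lit 14188, nat_lit 14192, nat_lit 14198, nat_lit 14200,
  nat_lit 14202, nat_lit 14206, nat_lit 14210, nat_lit 14212, nat_lit 14214, nat_lit 14222, nat_lit 14226, nat_lit 14234,
  nat_lit 14236, nat_lit 14240, nat_lit 14244, nat_lit 14248, nat_lit 14250, nat_lit 14258, nat_lit 14262, nat_lit 14270,
  nat_lit 14272, nat_lit 14274, nat_lit 14278, nat_lit 14282, nat_lit 14288, nat_lit 14290, nat_lit 14294, nat_lit 14298,
  nat_lit 14302, nat_lit 14304, nat_lit 14310, nat_lit 14314, nat_lit 14318, nat_lit 14320, nat_lit 14322, nat_lit 14330,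
  nat_lit 14334, nat_lit 14342, nat_lit 14344, nat_lit 14348, nat_lit 14352, nat_lit 14356, nat_lit 14358, nat_lit 14366,
  nat_lit 14370, nat_lit 14378, nat_lit 14380, nat_lit 14382, nat_lit 14386, nat_lit 14390, nat_lit 14392, nat_lit 14394,
  nat_lit 14400, nat_lit 14404, nat_lit 14408, nat_lit 14414, nat_lit 14416, nat_lit 14420, nat_lit 14424, nat_lit 14432,
  nat_lit 14434, nat_lit 14436, nat_lit 14440, nat_lit 14444, nat_lit 14450, nat_lit 14452, nat_lit 14456, nat_lit 14460,
  nat_lit 14464, nat_lit 14466, nat_lit 14472, nat_lit 14476, nat_lit 14480, nat_lit 14482, nat_lit 14484, nat_lit 14492,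
  nat_lit 14496, nat_lit 14500, nat_lit 14502, nat_lit 14508, nat_lit 14512, nat_lit 14516, nat_lit 14522, nat_lit 14524,
  nat_lit 14526, nat_lit 14530, nat_lit 14534, nat_lit 14536, nat_lit 14538, nat_lit 14546, nat_lit 14550, nat_lit 14558,
  nat_lit 14560, nat_lit 14564, nat_lit 14568, nat_lit 14572, nat_lit 14574, nat_lit 14582, nat_lit 14586, nat_lit 14594,
  nat_lit 14596, nat_lit 14598, nat_lit 14602, nat_lit 14606, nat_lit 14612, nat_lit 14614, nat_lit 14618, nat_lit 14622,
  nat_lit 14626, nat_lit 14628, nat_lit 14634, nat_lit 14638, nat_lit 14642, nat_lit 14644, nat_lit 14646, nat_lit 14654,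
  nat_lit 14658, nat_lit 14666, nat_lit 14668, nat_lit 14672, nat_lit 14676, nat_lit 14680, nat_lit 14682, nat_lit 14690,
  nat_lit 14694, nat_lit 14702, nat_lit 14704, nat_lit 14706, nat_lit 14710, nat_lit 14714, nat_lit 14716, nat_lit 14718,
  nat_lit 14724, nat_lit 14728, nat_lit 14732, nat_lit 14738, nat_lit 14740, nat_lit 14742, nat_lit 14746, nat_lit 14750,
  nat_lit 14752, nat_lit 14754, nat_lit 14762, nat_lit 14766, nat_lit 14770, nat_lit 14772, nat_lit 14778, nat_lit 14782,
  nat_lit 14786, nat_lit 14792, nat_lit 14794, nat_lit 14798, nat_lit 14802, nat_lit 14810, nat_lit 14812, nat_lit 14814,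
  nat_lit 14818, nat_lit 14822, nat_lit 14828, nat_lit 14830, nat_lit 14834, nat_lit 14838, nat_lit 14842, nat_lit 14844,
  nat_lit 14852, nat_lit 14856, nat_lit 14864, nat_lit 14866, nat_lit 14868, nat_lit 14872, nat_lit 14876, nat_lit 14878,
  nat_lit 14880, nat_lit 14886, nat_lit 14890, nat_lit 14894, nat_lit 14900, nat_lit 14902, nat_lit 14906, nat_lit 14910,
  nat_lit 14918, nat_lit 14920, nat_lit 14922, nat_lit 14926, nat_lit 14930, nat_lit 14936, nat_lit 14938, nat_lit 14942,
  nat_lit 14946, nat_lit 14950, nat_lit 14952, nat_lit 14958, nat_lit 14962, nat_lit 14966, nat_lit 14968, nat_lit 14970,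
  nat_lit 14978, nat_lit 14982, nat_lit 14986, nat_lit 14988, nat_lit 14994, nat_lit 14998, nat_lit 15002, nat_lit 15008,
  nat_lit 15010, nat_lit 15012, nat_lit 15016, nat_lit 15020, nat_lit 15022, nat_lit 15024, nat_lit 15032, nat_lit 15036,
  nat_lit 15044, nat_lit 15046, nat_lit 15050, nat_lit 15054, nat_lit 15058, nat_lit 15060, nat_lit 15066, nat_lit 15070,
  nat_lit 15074, nat_lit 15076, nat_lit 15078, nat_lit 15086, nat_lit 15090, nat_lit 15094, nat_lit 15096, nat_lit 15102,
  nat_lit 15106, nat_lit 15110, nat_lit 15116, nat_lit 15118, nat_lit 15122, nat_lit 15126, nat_lit 15134, nat_lit 15136,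
  nat_lit 15138, nat_lit 15142, nat_lit 15146, nat_lit 15148, nat_lit 15150, nat_lit 15156, nat_lit 15160, nat_lit 15164,
  nat_lit 15170, nat_lit 15172, nat_lit 15174, nat_lit 15178, nat_lit 15182, nat_lit 15184, nat_lit 15186, nat_lit 15194,
  nat_lit 15198, nat_lit 15206, nat_lit 15208, nat_lit 15212, nat_lit 15216, nat_lit 15220, nat_lit 15222, nat_lit 15230,
  nat_lit 15234, nat_lit 15242, nat_lit 15244, nat_lit 15246, nat_lit 15250, nat_lit 15254, nat_lit 15260, nat_lit 15262,
  nat_lit 15266, nat_lit 15270, nat_lit 15274, nat_lit 15276, nat_lit 15282, nat_lit 15286, nat_lit 15290, nat_lit 15292,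
  nat_lit 15294, nat_lit 15302, nat_lit 15306, nat_lit 15310, nat_lit 15312, nat_lit 15318, nat_lit 15322, nat_lit 15326,
  nat_lit 15332, nat_lit 15334, nat_lit 15336, nat_lit 15340, nat_lit 15344, nat_lit 15346, nat_lit 15348, nat_lit 15356,
  nat_lit 15360, nat_lit 15368, nat_lit 15370, nat_lit 15374, nat_lit 15378, nat_lit 15382, nat_lit 15384, nat_lit 15390,
  nat_lit 15394, nat_lit 15398, nat_lit 15400, nat_lit 15402, nat_lit 15410, nat_lit 15414, nat_lit 15418, nat_lit 15420,
  nat_lit 15426, nat_lit 15430, nat_lit 15434, nat_lit 15440, nat_lit 15442, nat_lit 15446, nat_lit 15450, nat_lit 15458,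
  nat_lit 15460, nat_lit 15462, nat_lit 15466, nat_lit 15470, nat_lit 15476, nat_lit 15478, nat_lit 15482, nat_lit 15486,
  nat_lit 15490, nat_lit 15492, nat_lit 15500, nat_lit 15504, nat_lit 15512, nat_lit 15514, nat_lit 15516, nat_lit 15520,
  nat_lit 15524, nat_lit 15526, nat_lit 15528, nat_lit 15534, nat_lit 15538, nat_lit 15542, nat_lit 15548, nat_lit 15550,
  nat_lit 15552, nat_lit 15556, nat_lit 15560, nat_lit 15562, nat_lit 15564, nat_lit 15572, nat_lit 15576, nat_lit 15580,
  nat_lit 15582, nat_lit 15588, nat_lit 15592, nat_lit 15596, nat_lit 15602, nat_lit 15604, nat_lit 15608, nat_lit 15612,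
  nat_lit 15620, nat_lit 15622, nat_lit 15624, nat_lit 15628, nat_lit 15632, nat_lit 15634, nat_lit 15636, nat_lit 15642,
  nat_lit 15646, nat_lit 15650, nat_lit 15656, nat_lit 15658, nat_lit 15660, nat_lit 15664, nat_lit 15668, nat_lit 15670,
  nat_lit 15672, nat_lit 15680, nat_lit 15684, nat_lit 15692, nat_lit 15694, nat_lit 15698, nat_lit 15702, nat_lit 15706,
  nat_lit 15708, nat_lit 15716, nat_lit 15720, nat_lit 15728, nat_lit 15730, nat_lit 15732, nat_lit 15736, nat_lit 15740,
  nat_lit 15746, nat_lit 15748, nat_lit 15752, nat_lit 15756, nat_lit 15760, nat_lit 15762, nat_lit 15768, nat_lit 15772,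
  nat_lit 15776, nat_lit 15778, nat_lit 15780, nat_lit 15788, nat_lit 15792, nat_lit 15800, nat_lit 15802, nat_lit 15806,
  nat_lit 15810, nat_lit 15814, nat_lit 15816, nat_lit 15824, nat_lit 15828, nat_lit 15836, nat_lit 15838, nat_lit 15840,
  nat_lit 15844, nat_lit 15848, nat_lit 15850, nat_lit 15852, nat_lit 15858, nat_lit 15862, nat_lit 15866, nat_lit 15872,
  nat_lit 15874, nat_lit 15878, nat_lit 15882, nat_lit 15890, nat_lit 15892, nat_lit 15894, nat_lit 15898, nat_lit 15902,
  nat_lit 15908, nat_lit 15910, nat_lit 15914, nat_lit 15918, nat_lit 15922, nat_lit 15924, nat_lit 15930, nat_lit 15934,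
  nat_lit 15938, nat_lit 15940, nat_lit 15942, nat_lit 15950, nat_lit 15954, nat_lit 15958, nat_lit 15960, nat_lit 15966,
  nat_lit 15970, nat_lit 15974, nat_lit 15980, nat_lit 15982, nat_lit 15984, nat_lit 15988, nat_lit 15992, nat_lit 15994,
  nat_lit 15996, nat_lit 16004, nat_lit 16008, nat_lit 16016, nat_lit 16018, nat_lit 16022, nat_lit 16026, nat_lit 16030,
  nat_lit 16032, nat_lit 16038, nat_lit 16042, nat_lit 16046, nat_lit 16048, nat_lit 16050, nat_lit 16058, nat_lit 16062,
  nat_lit 16066, nat_lit 16068, nat_lit 16074, nat_lit 16078, nat_lit 16082, nat_lit 16088, nat_lit 16090, nat_lit 16094,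
  nat_lit 16098, nat_lit 16106, nat_lit 16108, nat_lit 16110, nat_lit 16114, nat_lit 16118, nat_lit 16120, nat_lit 16122,
  nat_lit 16128, nat_lit 16132, nat_lit 16136, nat_lit 16142, nat_lit 16144, nat_lit 16146, nat_lit 16150, nat_lit 16154,
  nat_lit 16156, nat_lit 16158, nat_lit 16166, nat_lit 16170, nat_lit 16178, nat_lit 16180, nat_lit 16184, nat_lit 16188,
  nat_lit 16192, nat_lit 16194, nat_lit 16202, nat_lit 16206, nat_lit 16214, nat_lit 16216, nat_lit 16218, nat_lit 16222,
  nat_lit 16226, nat_lit 16232, nat_lit 16234, nat_lit 16238, nat_lit 16242, nat_lit 16246, nat_lit 16248, nat_lit 16254,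
  nat_lit 16258, nat_lit 16262, nat_lit 16264, nat_lit 16266, nat_lit 16274, nat_lit 16278, nat_lit 16282, nat_lit 16284,
  nat_lit 16290, nat_lit 16294, nat_lit 16298, nat_lit 16304, nat_lit 16306, nat_lit 16308, nat_lit 16312, nat_lit 16316,
  nat_lit 16318, nat_lit 16320, nat_lit 16328, nat_lit 16332, nat_lit 16340, nat_lit 16342, nat_lit 16346, nat_lit 16350,
  nat_lit 16354, nat_lit 16356, nat_lit 16362, nat_lit 16366, nat_lit 16370, nat_lit 16372, nat_lit 16374, nat_lit 16382,
  nat_lit 16386, nat_lit 16390, nat_lit 16392, nat_lit 16398, nat_lit 16402, nat_lit 16406, nat_lit 16412, nat_lit 16414,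
  nat_lit 16418, nat_lit 16422, nat_lit 16430, nat_lit 16432, nat_lit 16434, nat_lit 16438, nat_lit 16442, nat_lit 16448,
  nat_lit 16450, nat_lit 16454, nat_lit 16458, nat_lit 16462, nat_lit 16464, nat_lit 16472, nat_lit 16476, nat_lit 16484,
  nat_lit 16486, nat_lit 16488, nat_lit 16492, nat_lit 16496, nat_lit 16498, nat_lit 16500, nat_lit 16506, nat_lit 16510,
  nat_lit 16514, nat_lit 16520, nat_lit 16522, nat_lit 16526, nat_lit 16530, nat_lit 16538, nat_lit 16540, nat_lit 16542,
  nat_lit 16546, nat_lit 16550, nat_lit 16556, nat_lit 16558, nat_lit 16562, nat_lit 16566, nat_lit 16570, nat_lit 16572,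
  nat_lit 16578, nat_lit 16582, nat_lit 16586, nat_lit 16588, nat_lit 16590, nat_lit 16598, nat_lit 16602, nat_lit 16610,
  nat_lit 16612, nat_lit 16616, nat_lit 16620, nat_lit 16624, nat_lit 16626, nat_lit 16634, nat_lit 16638, nat_lit 16646,
  nat_lit 16648, nat_lit 16650, nat_lit 16654, nat_lit 16658, nat_lit 16660, nat_lit 16662, nat_lit 16668, nat_lit 16672,
  nat_lit 16676, nat_lit 16682, nat_lit 16684, nat_lit 16686, nat_lit 16690, nat_lit 16694, nat_lit 16696, nat_lit 16698,
  nat_lit 16706, nat_lit 16710, nat_lit 16714, nat_lit 16716, nat_lit 16722, nat_lit 16726, nat_lit 16730, nat_lit 16736,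
  nat_lit 16738, nat_lit 16742, nat_lit 16746, nat_lit 16754, nat_lit 16756, nat_lit 16758, nat_lit 16762, nat_lit 16766,
  nat_lit 16772, nat_lit 16774, nat_lit 16778, nat_lit 16782, nat_lit 16786, nat_lit 16788, nat_lit 16796, nat_lit 16800,
  nat_lit 16808, nat_lit 16810, nat_lit 16812, nat_lit 16816, nat_lit 16820, nat_lit 16822, nat_lit 16824, nat_lit 16830,
  nat_lit 16834, nat_lit 16838, nat_lit 16844, nat_lit 16846, nat_lit 16850, nat_lit 16854, nat_lit 16862, nat_lit 16864,
  nat_lit 16866, nat_lit 16870, nat_lit 16874, nat_lit 16880, nat_lit 16882, nat_lit 16886, nat_lit 16890, nat_lit 16894,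
  nat_lit 16896, nat_lit 16902, nat_lit 16906, nat_lit 16910, nat_lit 16912, nat_lit 16914, nat_lit 16922, nat_lit 16926,
  nat_lit 16930, nat_lit 16932, nat_lit 16938, nat_lit 16942, nat_lit 16946, nat_lit 16952, nat_lit 16954, nat_lit 16956,
  nat_lit 16960, nat_lit 16964, nat_lit 16966, nat_lit 16968, nat_lit 16976, nat_lit 16980, nat_lit 16988, nat_lit 16990,
  nat_lit 16994, nat_lit 16998, nat_lit 17002, nat_lit 17004, nat_lit 17012, nat_lit 17016, nat_lit 17024, nat_lit 17026,
  nat_lit 17028, nat_lit 17032, nat_lit 17036, nat_lit 17042, nat_lit 17044, nat_lit 17048, nat_lit 17052, nat_lit 17056,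
  nat_lit 17058, nat_lit 17064, nat_lit 17068, nat_lit 17072, nat_lit 17074, nat_lit 17076, nat_lit 17084, nat_lit 17088,
  nat_lit 17096, nat_lit 17098, nat_lit 17102, nat_lit 17106, nat_lit 17110, nat_lit 17112, nat_lit 17120, nat_lit 17124,
  nat_lit 17132, nat_lit 17134, nat_lit 17136, nat_lit 17140, nat_lit 17144, nat_lit 17146, nat_lit 17148, nat_lit 17154,
  nat_lit 17158, nat_lit 17162, nat_lit 17168, nat_lit 17170, nat_lit 17172, nat_lit 17176, nat_lit 17180, nat_lit 17182,
  nat_lit 17184, nat_lit 17192, nat_lit 17196, nat_lit 17200, nat_lit 17202, nat_lit 17208, nat_lit 17212, nat_lit 17216,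
  nat_lit 17222, nat_lit 17224, nat_lit 17228, nat_lit 17232, nat_lit 17240, nat_lit 17242, nat_lit 17244, nat_lit 17248,
  nat_lit 17252, nat_lit 17254, nat_lit 17256, nat_lit 17262, nat_lit 17266, nat_lit 17270, nat_lit 17276, nat_lit 17278,
  nat_lit 17280, nat_lit 17284, nat_lit 17288, nat_lit 17290, nat_lit 17292, nat_lit 17300, nat_lit 17304, nat_lit 17312,
  nat_lit 17314, nat_lit 17318, nat_lit 17322, nat_lit 17326, nat_lit 17328, nat_lit 17334, nat_lit 17338, nat_lit 17342,
  nat_lit 17344, nat_lit 17346, nat_lit 17354, nat_lit 17358, nat_lit 17362, nat_lit 17364, nat_lit 17370, nat_lit 17374,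
  nat_lit 17378, nat_lit 17384, nat_lit 17386, nat_lit 17390, nat_lit 17394, nat_lit 17402, nat_lit 17404, nat_lit 17406,
  nat_lit 17410, nat_lit 17414, nat_lit 17420, nat_lit 17422, nat_lit 17426, nat_lit 17430, nat_lit 17434, nat_lit 17436,
  nat_lit 17444, nat_lit 17448, nat_lit 17456, nat_lit 17458, nat_lit 17460, nat_lit 17464, nat_lit 17468, nat_lit 17470,
  nat_lit 17472, nat_lit 17478, nat_lit 17482, nat_lit 17486, nat_lit 17492, nat_lit 17494, nat_lit 17498, nat_lit 17502,
  nat_lit 17510, nat_lit 17512, nat_lit 17514, nat_lit 17518, nat_lit 17522, nat_lit 17528, nat_lit 17530, nat_lit 17534,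
  nat_lit 17538, nat_lit 17542, nat_lit 17544, nat_lit 17550, nat_lit 17554, nat_lit 17558, nat_lit 17560, nat_lit 17562,
  nat_lit 17570, nat_lit 17574, nat_lit 17582, nat_lit 17584, nat_lit 17588, nat_lit 17592, nat_lit 17596, nat_lit 17598,
  nat_lit 17606, nat_lit 17610, nat_lit 17618, nat_lit 17620, nat_lit 17622, nat_lit 17626, nat_lit 17630, nat_lit 17632,
  nat_lit 17634, nat_lit 17640, nat_lit 17644, nat_lit 17648, nat_lit 17654, nat_lit 17656, nat_lit 17658, nat_lit 17662,
  nat_lit 17666, nat_lit 17668, nat_lit 17670, nat_lit 17678, nat_lit 17682, nat_lit 17686, nat_lit 17688, nat_lit 17694,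
  nat_lit 17698, nat_lit 17702, nat_lit 17708, nat_lit 17710, nat_lit 17714, nat_lit 17718, nat_lit 17726, nat_lit 17728,
  nat_lit 17730, nat_lit 17734, nat_lit 17738, nat_lit 17744, nat_lit 17746, nat_lit 17750, nat_lit 17754, nat_lit 17758,
  nat_lit 17760, nat_lit 17768, nat_lit 17772, nat_lit 17780, nat_lit 17782, nat_lit 17784, nat_lit 17788, nat_lit 17792,
  nat_lit 17794, nat_lit 17796, nat_lit 17802, nat_lit 17806, nat_lit 17810, nat_lit 17816, nat_lit 17818, nat_lit 17822,
  nat_lit 17826, nat_lit 17834, nat_lit 17836, nat_lit 17838, nat_lit 17842, nat_lit 17846, nat_lit 17852, nat_lit 17854,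
  nat_lit 17858, nat_lit 17862, nat_lit 17866, nat_lit 17868, nat_lit 17874, nat_lit 17878, nat_lit 17882, nat_lit 17884,
  nat_lit 17886, nat_lit 17894, nat_lit 17898, nat_lit 17902, nat_lit 17904, nat_lit 17910, nat_lit 17914, nat_lit 17918,
  nat_lit 17924, nat_lit 17926, nat_lit 17928, nat_lit 17932, nat_lit 17936, nat_lit 17938, nat_lit 17940, nat_lit 17948,
  nat_lit 17952, nat_lit 17960, nat_lit 17962, nat_lit 17966, nat_lit 17970, nat_lit 17974, nat_lit 17976, nat_lit 17982,
  nat_lit 17986, nat_lit 17990, nat_lit 17992, nat_lit 17994, nat_lit 18002, nat_lit 18006, nat_lit 18010, nat_lit 18012,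
  nat_lit 18018, nat_lit 18022, nat_lit 18026, nat_lit 18032, nat_lit 18034, nat_lit 18038, nat_lit 18042, nat_lit 18050,
  nat_lit 18052, nat_lit 18054, nat_lit 18058, nat_lit 18062, nat_lit 18064, nat_lit 18066, nat_lit 18072, nat_lit 18076,
  nat_lit 18080, nat_lit 18086, nat_lit 18088, nat_lit 18090, nat_lit 18094, nat_lit 18098, nat_lit 18100, nat_lit 18102,
  nat_lit 18110, nat_lit 18114, nat_lit 18122, nat_lit 18124, nat_lit 18128, nat_lit 18132, nat_lit 18136, nat_lit 18138,
  nat_lit 18146, nat_lit 18150, nat_lit 18158, nat_lit 18160, nat_lit 18162, nat_lit 18166, nat_lit 18170, nat_lit 18176,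
  nat_lit 18178, nat_lit 18182, nat_lit 18186, nat_lit 18190, nat_lit 18192, nat_lit 18198, nat_lit 18202, nat_lit 18206,
  nat_lit 18208, nat_lit 18210, nat_lit 18218, nat_lit 18222, nat_lit 18230, nat_lit 18232, nat_lit 18236, nat_lit 18240,
  nat_lit 18244, nat_lit 18246, nat_lit 18254, nat_lit 18258, nat_lit 18266, nat_lit 18268, nat_lit 18270, nat_lit 18274,
  nat_lit 18278, nat_lit 18280, nat_lit 18282, nat_lit 18288, nat_lit 18292, nat_lit 18296, nat_lit 18302, nat_lit 18304,
  nat_lit 18308, nat_lit 18312, nat_lit 18320, nat_lit 18322, nat_lit 18324, nat_lit 18328, nat_lit 18332, nat_lit 18338,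
  nat_lit 18340, nat_lit 18344, nat_lit 18348, nat_lit 18352, nat_lit 18354, nat_lit 18360, nat_lit 18364, nat_lit 18368,
  nat_lit 18370, nat_lit 18372, nat_lit 18380, nat_lit 18384, nat_lit 18388, nat_lit 18390, nat_lit 18396, nat_lit 18400,
  nat_lit 18404, nat_lit 18410, nat_lit 18412, nat_lit 18414, nat_lit 18418, nat_lit 18422, nat_lit 18424, nat_lit 18426,
  nat_lit 18434, nat_lit 18438, nat_lit 18446, nat_lit 18448, nat_lit 18452, nat_lit 18456, nat_lit 18460, nat_lit 18462,
  nat_lit 18470, nat_lit 18474, nat_lit 18482, nat_lit 18484, nat_lit 18486, nat_lit 18490, nat_lit 18494, nat_lit 18500,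
  nat_lit 18502, nat_lit 18506, nat_lit 18510, nat_lit 18514, nat_lit 18516, nat_lit 18522, nat_lit 18526, nat_lit 18530,
  nat_lit 18532, nat_lit 18534, nat_lit 18542, nat_lit 18546, nat_lit 18554, nat_lit 18556, nat_lit 18560, nat_lit 18564,
  nat_lit 18568, nat_lit 18570, nat_lit 18578, nat_lit 18582, nat_lit 18590, nat_lit 18592, nat_lit 18594, nat_lit 18598,
  nat_lit 18602, nat_lit 18604, nat_lit 18606, nat_lit 18612, nat_lit 18616, nat_lit 18620, nat_lit 18626, nat_lit 18628,
  nat_lit 18630, nat_lit 18634, nat_lit 18638, nat_lit 18640, nat_lit 18642, nat_lit 18650, nat_lit 18654, nat_lit 18658,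
  nat_lit 18660, nat_lit 18666, nat_lit 18670, nat_lit 18674, nat_lit 18680, nat_lit 18682, nat_lit 18686, nat_lit 18690,
  nat_lit 18698, nat_lit 18700, nat_lit 18702, nat_lit 18706, nat_lit 18710, nat_lit 18712, nat_lit 18714, nat_lit 18720,
  nat_lit 18724, nat_lit 18728, nat_lit 18734, nat_lit 18736, nat_lit 18738, nat_lit 18742, nat_lit 18746, nat_lit 18748,
  nat_lit 18750, nat_lit 18758, nat_lit 18762, nat_lit 18770, nat_lit 18772, nat_lit 18776, nat_lit 18780, nat_lit 18784,
  nat_lit 18786, nat_lit 18792, nat_lit 18796, nat_lit 18800, nat_lit 18802, nat_lit 18804, nat_lit 18812, nat_lit 18816,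
  nat_lit 18820, nat_lit 18822, nat_lit 18828, nat_lit 18832, nat_lit 18836, nat_lit 18842, nat_lit 18844, nat_lit 18848,
  nat_lit 18852, nat_lit 18860, nat_lit 18862, nat_lit 18864, nat_lit 18868, nat_lit 18872, nat_lit 18878, nat_lit 18880,
  nat_lit 18884, nat_lit 18888, nat_lit 18892, nat_lit 18894, nat_lit 18902, nat_lit 18906, nat_lit 18914, nat_lit 18916,
  nat_lit 18918, nat_lit 18922, nat_lit 18926, nat_lit 18928, nat_lit 18930, nat_lit 18936, nat_lit 18940, nat_lit 18944,
  nat_lit 18950, nat_lit 18952, nat_lit 18954, nat_lit 18958, nat_lit 18962, nat_lit 18964, nat_lit 18966, nat_lit 18974,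
  nat_lit 18978, nat_lit 18982, nat_lit 18984, nat_lit 18990, nat_lit 18994, nat_lit 18998, nat_lit 19004, nat_lit 19006,
  nat_lit 19010, nat_lit 19014, nat_lit 19022, nat_lit 19024, nat_lit 19026, nat_lit 19030, nat_lit 19034, nat_lit 19036,
  nat_lit 19038, nat_lit 19044, nat_lit 19048, nat_lit 19052, nat_lit 19058, nat_lit 19060, nat_lit 19062, nat_lit 19066,
  nat_lit 19070, nat_lit 19072, nat_lit 19074, nat_lit 19082, nat_lit 19086, nat_lit 19094, nat_lit 19096, nat_lit 19100,
  nat_lit 19104, nat_lit 19108, nat_lit 19110, nat_lit 19118, nat_lit 19122, nat_lit 19130, nat_lit 19132, nat_lit 19134,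
  nat_lit 19138, nat_lit 19142, nat_lit 19148, nat_lit 19150, nat_lit 19154, nat_lit 19158, nat_lit 19162, nat_lit 19164,
  nat_lit 19170, nat_lit 19174, nat_lit 19178, nat_lit 19180, nat_lit 19182, nat_lit 19190, nat_lit 19194, nat_lit 19198,
  nat_lit 19200, nat_lit 19206, nat_lit 19210, nat_lit 19214, nat_lit 19220, nat_lit 19222, nat_lit 19224, nat_lit 19228,
  nat_lit 19232, nat_lit 19234, nat_lit 19236, nat_lit 19244, nat_lit 19248, nat_lit 19256, nat_lit 19258, nat_lit 19262,
  nat_lit 19266, nat_lit 19270, nat_lit 19272, nat_lit 19278, nat_lit 19282, nat_lit 19286, nat_lit 19288, nat_lit 19290,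
  nat_lit 19298, nat_lit 19302, nat_lit 19306, nat_lit 19308, nat_lit 19314, nat_lit 19318, nat_lit 19322, nat_lit 19328,
  nat_lit 19330, nat_lit 19334, nat_lit 19338, nat_lit 19346, nat_lit 19348, nat_lit 19350, nat_lit 19354, nat_lit 19358,
  nat_lit 19364, nat_lit 19366, nat_lit 19370, nat_lit 19374, nat_lit 19378, nat_lit 19380, nat_lit 19388, nat_lit 19392,
  nat_lit 19400, nat_lit 19402, nat_lit 19404, nat_lit 19408, nat_lit 19412, nat_lit 19414, nat_lit 19416, nat_lit 19422,
  nat_lit 19426, nat_lit 19430, nat_lit 19436, nat_lit 19438, nat_lit 19442, nat_lit 19446, nat_lit 19454, nat_lit 19456,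
  nat_lit 19458, nat_lit 19462, nat_lit 19466, nat_lit 19472, nat_lit 19474, nat_lit 19478, nat_lit 19482, nat_lit 19486,
  nat_lit 19488, nat_lit 19494, nat_lit 19498, nat_lit 19502, nat_lit 19504, nat_lit 19506, nat_lit 19514, nat_lit 19518,
  nat_lit 19526, nat_lit 19528, nat_lit 19532, nat_lit 19536, nat_lit 19540, nat_lit 19542, nat_lit 19550, nat_lit 19554,
  nat_lit 19562, nat_lit 19564, nat_lit 19566, nat_lit 19570, nat_lit 19574, nat_lit 19576, nat_lit 19578, nat_lit 19584,
  nat_lit 19588, nat_lit 19592, nat_lit 19598, nat_lit 19600, nat_lit 19602, nat_lit 19606, nat_lit 19610, nat_lit 19612,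
  nat_lit 19614, nat_lit 19622, nat_lit 19626, nat_lit 19630, nat_lit 19632, nat_lit 19638, nat_lit 19642, nat_lit 19646,
  nat_lit 19652, nat_lit 19654, nat_lit 19658, nat_lit 19662, nat_lit 19670, nat_lit 19672, nat_lit 19674, nat_lit 19678,
  nat_lit 19682]

def TT : Type :=
  Nat → Nat → Nat → Nat → Nat → Nat → Nat → Nat → Nat → Nat → Nat → Nat → Nat → Nat → Nat → Nat →
  Nat → Nat → Nat → Nat → Nat → Nat → Nat → Nat → Nat → Nat → Nat → Nat → Nat → Nat → Nat → Nat →
  Nat → Nat → Nat → Nat → Nat → Nat → Nat → Nat → Nat → Nat → Nat → Nat → Nat → Nat → Nat → Nat →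
  Nat → Nat → Nat → Nat → Nat → Nat → Nat → Nat → Nat → Nat → Nat → Nat → Nat → Nat → Nat → Nat →
  Nat → Nat → Nat → Nat → Nat → Nat → Nat → Nat → Nat → Nat → Nat → Nat → Nat → Nat → Nat → Nat →
  Nat → Nat → Nat → Nat → Nat → Nat → Nat → Nat → Nat → Nat → Nat → Nat → Nat → Nat → Nat → Nat →
  Nat → Nat → Nat → Nat → Nat → Nat → Nat → Nat → Nat → Nat → Nat → Nat → Nat → Nat → Nat → Nat →
  Nat → Nat → Nat → Nat → Nat → Nat → Nat → Nat → Nat → Nat → Nat → Nat → Nat → Nat → Nat → Nat →
  Nat → Nat → Nat → Nat → Nat → Nat → Nat → Nat → Nat → Nat → Nat → Nat → Nat → Nat → Nat → Nat →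
  Nat → Nat → Nat → Nat → Nat → Nat → Nat → Nat → Nat → Nat → Nat → Nat → Nat → Nat → Nat → Nat →
  Nat → Nat → Nat → Nat → Nat → Nat → Nat → Nat → Nat → Nat → Nat → Nat → Nat → Nat → Nat → Nat →
  Nat → Nat → Nat → Nat → Nat → Nat → Nat → Nat → Nat → Nat → Nat → Nat → Nat → Nat → Nat → Nat →
  Nat → Nat → Nat → Nat → Nat → Nat → Nat → Nat → Nat → Nat → Nat → Nat → Nat → Nat → Nat → Nat →
  Nat → Nat → Nat → Nat → Nat → Nat → Nat → Nat → Nat → Nat → Nat → Nat → Nat → Nat → Nat → Nat →
  Nat → Nat → Nat → Nat → Nat → Nat → Nat → Nat → Nat → Nat → Nat → Nat → Nat → Nat → Nat → Nat →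
  Nat → Nat → Nat → Nat → Nat → Nat → Nat → Nat → Nat → Nat → Nat → Nat → Nat → Nat → Nat → Nat →
  Nat → Nat → Nat → Nat → Nat → Nat → Nat → Nat → Nat → Nat → Nat → Nat → Nat → Nat → Nat → Nat →
  Nat → Nat → Nat → Nat → Nat → Nat → Nat → Nat → Nat → Nat → Nat → Nat → Nat → Nat → Nat → Nat →
  Nat → Nat → Nat → Nat → Nat → Nat → Nat → Nat → Nat → Nat → Nat → Nat → Nat → Nat → Nat → Nat →
  Nat → Nat → Nat → Nat → Nat → Nat → Nat → Nat → Nat → Nat → Nat → Nat → Nat → Nat → Nat → Nat →
  Nat → Nat → Nat → Nat → Nat → Nat → Nat → Nat → Nat → Nat → Nat → Nat → Nat → Nat → Nat → Nat →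
  Nat → Nat → Nat → Nat → Nat → Nat → Nat → Nat → Nat → Nat → Nat → Nat → Nat → Nat → Nat → Nat →
  Nat → Nat → Nat → Nat → Nat → Nat → Nat → Nat → Nat → Nat → Nat → Nat → Nat → Nat → Nat → Nat →
  Nat → Nat → Nat → Nat → Nat → Nat → Nat → Nat → Nat → Nat → Nat → Nat → Nat → Nat → Nat → Nat →
  Nat → Nat → Nat → Nat → Nat → Nat → Nat → Nat → Nat → Nat → Nat → Nat → Nat → Nat → Nat → Nat →
  Nat → Nat → Nat → Nat → Nat → Nat → Nat → Nat → Nat → Nat → Nat → Nat → Nat → Nat → Nat → Nat →
  Nat → Nat → Nat → Nat → Nat → Nat → Nat → Nat → Nat → Nat → Nat → Nat → Nat → Nat → Nat → Nat →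
  Nat → Nat → Nat → Nat → Nat → Nat → Nat → Nat → Nat → Nat → Nat → Nat → Nat → Nat → Nat → Nat →
  Nat → Nat → Nat → Nat → Nat → Nat → Nat → Nat → Nat → Nat → Nat → Nat → Nat → Nat → Nat → Nat →
  Nat → Nat → Nat → Nat → Nat → Nat → Nat → Nat → Nat → Nat → Nat → Nat → Nat → Nat → Nat → Nat →
  Nat → Nat → Nat → Nat → Nat → Nat → Nat → Nat → Nat → Nat → Nat → Nat → Nat → Nat → Nat → Nat →
  Nat → Nat → Nat → Nat → Nat → Nat → Nat → Nat → Nat → Nat → Nat → Nat → Nat → Nat → Nat → Nat →
  Nat → Nat → Nat → Nat → Nat → Nat → Nat → Nat → Nat → Nat → Nat → Nat → Nat → Nat → Nat → Nat →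
  Nat → Nat → Nat → Nat → Nat → Nat → Nat → Nat → Nat → Nat → Nat → Nat → Nat → Nat → Nat → Nat →
  Nat → Nat → Nat → Nat → Nat → Nat → Nat → Nat → Nat → Nat → Nat → Nat → Nat → Nat → Nat → Nat →
  Nat → Nat → Nat → Nat → Nat → Nat → Nat → Nat → Nat → Nat → Nat → Nat → Nat → Nat → Nat → Nat →
  Nat → Nat → Nat → Nat → Nat → Nat → Nat → Nat → Nat → Nat → Nat → Nat → Nat → Nat → Nat → Nat →
  Nat → Nat → Nat → Nat → Nat → Nat → Nat → Nat → Nat → Nat → Nat → Nat → Nat → Nat → Nat → Nat →
  Nat → Nat → Nat → Nat → Nat → Nat → Nat → Nat → Nat → Nat → Nat → Nat → Nat → Nat → Nat → Nat →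
  Nat → Nat → Nat → Nat → Nat → Nat → Nat → Nat → Nat → Nat → Nat → Nat → Nat → Nat → Nat → Nat →
  Nat → Nat → Nat → Nat → Nat → Nat → Nat → Nat → Nat → Nat → Nat → Nat → Nat → Nat → Nat → Nat →
  Nat → Nat → Nat → Nat → Nat → Nat → Nat → Nat → Nat → Nat → Nat → Nat → Nat → Nat → Nat → Nat →
  Nat → Nat → Nat → Nat → Nat → Nat → Nat → Nat → Nat → Nat → Nat → Nat → Nat → Nat → Nat → Nat →
  Nat → Nat → Nat → Nat → Nat → Nat → Nat → Nat → Nat → Nat → Nat → Nat → Nat → Nat → Nat → Nat →
  Nat → Nat → Nat → Nat → Nat → Nat → Nat → Nat → Nat → Nat → Nat → Nat → Nat → Nat → Nat → Nat →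
  Nat → Nat → Nat → Nat → Nat → Nat → Nat → Nat → Nat → Nat → Nat → Nat → Nat → Nat → Nat → Nat →
  Nat → Nat → Nat → Nat → Nat → Nat → Nat → Nat → Nat → Nat → Nat → Nat → Nat → Nat → Nat → Nat →
  Nat → Nat → Nat → Nat → Nat → Nat → Nat → Nat → Nat → Nat → Nat → Nat → Nat → Nat → Nat → Nat →
  Nat → Nat → Nat → Nat → Nat → Nat → Nat → Nat → Nat → Nat → Nat → Nat → Nat → Nat → Nat → Nat →
  Nat → Nat → Nat → Nat → Nat → Nat → Nat → Nat → Nat → Nat → Nat → Nat → Nat → Nat → Nat → Nat →
  Nat → Nat → Nat → Nat → Nat → Nat → Nat → Nat → Nat → Nat → Nat → Nat → Nat → Nat → Nat → Nat →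
  Nat → Nat → Nat → Nat → Nat → Nat → Nat → Nat → Nat → Nat → Nat → Nat → Nat → Nat → Nat → Nat →
  Nat → Nat → Nat → Nat → Nat → Nat → Nat → Nat → Nat → Nat → Nat → Nat → Nat → Nat → Nat → Nat →
  Nat → Nat → Nat → Nat → Nat → Nat → Nat → Nat → Nat → Nat → Nat → Nat → Nat → Nat → Nat → Nat →
  Nat → Nat → Nat → Nat → Nat → Nat → Nat → Nat → Nat → Nat → Nat → Nat → Nat → Nat → Nat → Nat →
  Nat → Nat → Nat → Nat → Nat → Nat → Nat → Nat → Nat → Nat → Nat → Nat → Nat → Nat → Nat → Nat →
  Nat → Nat → Nat → Nat → Nat → Nat → Nat → Nat → Nat → Nat → Nat → Nat → Nat → Nat → Nat → Nat →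
  Nat → Nat → Nat → Nat → Nat → Nat → Nat → Nat → Nat → Nat → Nat → Nat → Nat → Nat → Nat → Nat →
  Nat → Nat → Nat → Nat → Nat → Nat → Nat → Nat → Nat → Nat → Nat → Nat → Nat → Nat → Nat → Nat →
  Nat → Nat → Nat → Nat → Nat → Nat → Nat → Nat → Nat → Nat → Nat → Nat → Nat → Nat → Nat → Nat →
  Nat → Nat → Nat → Nat → Nat → Nat → Nat → Nat → Nat → Nat → Nat → Nat → Nat → Nat → Nat → Nat →
  Nat → Nat → Nat → Nat → Nat → Nat → Nat → Nat → Nat → Nat → Nat → Nat → Nat → Nat → Nat → Nat →
  Nat → Nat → Nat → Nat → Nat → Nat → Nat → Nat → Nat → Nat → Nat → Nat → Nat → Nat → Nat → Nat →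
  Nat → Nat → Nat → Nat → Nat → Nat → Nat → Nat → Nat → Nat → Nat → Nat → Nat → Nat → Nat → Nat →
  Nat → Nat → Nat → Nat → Nat → Nat → Nat → Nat → Nat → Nat → Nat → Nat → Nat → Nat → Nat → Nat →
  Nat → Nat → Nat → Nat → Nat → Nat → Nat → Nat → Nat → Nat → Nat → Nat → Nat → Nat → Nat → Nat →
  Nat → Nat → Nat → Nat → Nat → Nat → Nat → Nat → Nat → Nat → Nat → Nat → Nat → Nat → Nat → Nat →
  Nat → Nat → Nat → Nat → Nat → Nat → Nat → Nat → Nat → Nat → Nat → Nat → Nat → Nat → Nat → Nat →
  Nat → Nat → Nat → Nat → Nat → Nat → Nat → Nat → Nat → Nat → Nat → Nat → Nat → Nat → Nat → Nat →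
  Nat → Nat → Nat → Nat → Nat → Nat → Nat → Nat → Nat → Nat → Nat → Nat → Nat → Nat → Nat → Nat →
  Nat → Nat → Nat → Nat → Nat → Nat → Nat → Nat → Nat → Nat → Nat → Nat → Nat → Nat → Nat → Nat →
  Nat → Nat → Nat → Nat → Nat → Nat → Nat → Nat → Nat → Nat → Nat → Nat → Nat → Nat → Nat → Nat →
  Nat → Nat → Nat → Nat → Nat → Nat → Nat → Nat → Nat → Nat → Nat → Nat → Nat → Nat → Nat → Nat →
  Nat → Nat → Nat → Nat → Nat → Nat → Nat → Nat → Nat → Nat → Nat → Nat → Nat → Nat → Nat → Nat →
  Nat → Nat → Nat → Nat → Nat → Nat → Nat → Nat → Nat → Nat → Nat → Nat → Nat → Nat → Nat → Nat →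
  Nat → Nat → Nat → Nat → Nat → Nat → Nat → Nat → Nat → Nat → Nat → Nat → Nat → Nat → Nat → Nat →
  Nat → Nat → Nat → Nat → Nat → Nat → Nat → Nat → Nat → Nat → Nat → Nat → Nat → Nat → Nat → Nat →
  Nat → Nat → Nat → Nat → Nat → Nat → Nat → Nat → Nat → Nat → Nat → Nat → Nat → Nat → Nat → Nat →
  Nat → Nat → Nat → Nat → Nat → Nat → Nat → Nat → Nat → Nat → Nat → Nat → Nat → Nat → Nat → Nat →
  Nat → Nat → Nat → Nat → Nat → Nat → Nat → Nat → Nat → Nat → Nat → Nat → Nat → Nat → Nat → Nat →
  Nat → Nat → Nat → Nat → Nat → Nat → Nat → Nat → Nat → Nat → Nat → Nat → Nat → Nat → Nat → Nat →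
  Nat → Nat → Nat → Nat → Nat → Nat → Nat → Nat → Nat → Nat → Nat → Nat → Nat → Nat → Nat → Nat →
  Nat → Nat → Nat → Nat → Nat → Nat → Nat → Nat → Nat → Nat → Nat → Nat → Nat → Nat → Nat → Nat →
  Nat → Nat → Nat → Nat → Nat → Nat → Nat → Nat → Nat → Nat → Nat → Nat → Nat → Nat → Nat → Nat →
  Nat → Nat → Nat → Nat → Nat → Nat → Nat → Nat → Nat → Nat → Nat → Nat → Nat → Nat → Nat → Nat →
  Nat → Nat → Nat → Nat → Nat → Nat → Nat → Nat → Nat → Nat → Nat → Nat → Nat → Nat → Nat → Nat →
  Nat → Nat → Nat → Nat → Nat → Nat → Nat → Nat → Nat → Nat → Nat → Nat → Nat → Nat → Nat → Nat →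
  Nat → Nat → Nat → Nat → Nat → Nat → Nat → Nat → Nat → Nat → Nat → Nat → Nat → Nat → Nat → Nat →
  Nat → Nat → Nat → Nat → Nat → Nat → Nat → Nat → Nat → Nat → Nat → Nat → Nat → Nat → Nat → Nat →
  Nat → Nat → Nat → Nat → Nat → Nat → Nat → Nat → Nat → Nat → Nat → Nat → Nat → Nat → Nat → Nat →
  Nat → Nat → Nat → Nat → Nat → Nat → Nat → Nat → Nat → Nat → Nat → Nat → Nat → Nat → Nat → Nat →
  Nat → Nat → Nat → Nat → Nat → Nat → Nat → Nat → Nat → Nat → Nat → Nat → Nat → Nat → Nat → Nat →
  Nat → Nat → Nat → Nat → Nat → Nat → Nat → Nat → Nat → Nat → Nat → Nat → Nat → Nat → Nat → Nat →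
  Nat → Nat → Nat → Nat → Nat → Nat → Nat → Nat → Nat → Nat → Nat → Nat → Nat → Nat → Nat → Nat →
  Nat → Nat → Nat → Nat → Nat → Nat → Nat → Nat → Nat → Nat → Nat → Nat → Nat → Nat → Nat → Nat →
  Nat → Nat → Nat → Nat → Nat → Nat → Nat → Nat → Nat → Nat → Nat → Nat → Nat → Nat → Nat → Nat →
  Nat → Nat → Nat → Nat → Nat → Nat → Nat → Nat → Nat → Nat → Nat → Nat → Nat → Nat → Nat → Nat →
  Nat → Nat → Nat → Nat → Nat → Nat → Nat → Nat → Nat → Nat → Nat → Nat → Nat → Nat → Nat → Nat →
  Nat → Nat → Nat → Nat → Nat → Nat → Nat → Nat → Nat → Nat → Nat → Nat → Nat → Nat → Nat → Nat →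
  Nat → Nat → Nat → Nat → Nat → Nat → Nat → Nat → Nat → Nat → Nat → Nat → Nat → Nat → Nat → Nat →
  Nat → Nat → Nat → Nat → Nat → Nat → Nat → Nat → Nat → Nat → Nat → Nat → Nat → Nat → Nat → Nat →
  Nat → Nat → Nat → Nat → Nat → Nat → Nat → Nat → Nat → Nat → Nat → Nat → Nat → Nat → Nat → Nat →
  Nat → Nat → Nat → Nat → Nat → Nat → Nat → Nat → Nat → Nat → Nat → Nat → Nat → Nat → Nat → Nat →
  Nat → Nat → Nat → Nat → Nat → Nat → Nat → Nat → Nat → Nat → Nat → Nat → Nat → Nat → Nat → Nat →
  Nat → Nat → Nat → Nat → Nat → Nat → Nat → Nat → Nat → Nat → Nat → Nat → Nat → Nat → Nat → Nat →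
  Nat → Nat → Nat → Nat → Nat → Nat → Nat → Nat → Nat → Nat → Nat → Nat → Nat → Nat → Nat → Nat →
  Nat → Nat → Nat → Nat → Nat → Nat → Nat → Nat → Nat → Nat → Nat → Nat → Nat → Nat → Nat → Nat →
  Nat → Nat → Nat → Nat → Nat → Nat → Nat → Nat → Nat → Nat → Nat → Nat → Nat → Nat → Nat → Nat →
  Nat → Nat → Nat → Nat → Nat → Nat → Nat → Nat → Nat → Nat → Nat → Nat → Nat → Nat → Nat → Nat →
  Nat → Nat → Nat → Nat → Nat → Nat → Nat → Nat → Nat → Nat → Nat → Nat → Nat → Nat → Nat → Nat →
  Nat → Nat → Nat → Nat → Nat → Nat → Nat → Nat → Nat → Nat → Nat → Nat → Nat → Nat → Nat → Nat →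
  Nat → Nat → Nat → Nat → Nat → Nat → Nat → Nat → Nat → Nat → Nat → Nat → Nat → Nat → Nat → Nat →
  Nat → Nat → Nat → Nat → Nat → Nat → Nat → Nat → Nat → Nat → Nat → Nat → Nat → Nat → Nat → Nat →
  Nat → Nat → Nat → Nat → Nat → Nat → Nat → Nat → Nat → Nat → Nat → Nat → Nat → Nat → Nat → Nat →
  Nat → Nat → Nat → Nat → Nat → Nat → Nat → Nat → Nat → Nat → Nat → Nat → Nat → Nat → Nat → Nat →
  Nat → Nat → Nat → Nat → Nat → Nat → Nat → Nat → Nat → Nat → Nat → Nat → Nat → Nat → Nat → Nat →
  Nat → Nat → Nat → Nat → Nat → Nat → Nat → Nat → Nat → Nat → Nat → Nat → Nat → Nat → Nat → Nat →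
  Nat → Nat → Nat → Nat → Nat → Nat → Nat → Nat → Nat → Nat → Nat → Nat → Nat → Nat → Nat → Nat →
  Nat → Nat → Nat → Nat → Nat → Nat → Nat → Nat → Nat → Nat → Nat → Nat → Nat → Nat → Nat → Nat →
  Nat → Nat → Nat → Nat → Nat → Nat → Nat → Nat → Nat → Nat → Nat → Nat → Nat → Nat → Nat → Nat →
  Nat → Nat → Nat → Nat → Nat → Nat → Nat → Nat → Nat → Nat → Nat → Nat → Nat → Nat → Nat → Nat →
  Nat → Nat → Nat → Nat → Nat → Nat → Nat → Nat → Nat → Nat → Nat → Nat → Nat → Nat → Nat → Nat →
  Nat → Nat → Nat → Nat → Nat → Nat → Nat → Nat → Nat → Nat → Nat → Nat → Nat → Nat → Nat → Nat →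
  Nat → Nat → Nat → Nat → Nat → Nat → Nat → Nat → Nat → Nat → Nat → Nat → Nat → Nat → Nat → Nat →
  Nat → Nat → Nat → Nat → Nat → Nat → Nat → Nat → Nat → Nat → Nat → Nat → Nat → Nat → Nat → Nat →
  Nat → Nat → Nat → Nat → Nat → Nat → Nat → Nat → Nat → Nat → Nat → Nat → Nat → Nat → Nat → Nat →
  Nat → Nat → Nat → Nat → Nat → Nat → Nat → Nat → Nat → Nat → Nat → Nat → Nat → Nat → Nat → Nat →
  Nat → Nat → Nat → Nat → Nat → Nat → Nat → Nat → Nat → Nat → Nat → Nat → Nat → Nat → Nat → Nat →
  Nat → Nat → Nat → Nat → Nat → Nat → Nat → Nat → Nat → Nat → Nat → Nat → Nat → Nat → Nat → Nat →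
  Nat → Nat → Nat → Nat → Nat → Nat → Nat → Nat → Nat → Nat → Nat → Nat → Nat → Nat → Nat → Nat →
  Nat → Nat → Nat → Nat → Nat → Nat → Nat → Nat → Nat → Nat → Nat → Nat → Nat → Nat → Nat → Nat →
  Nat → Nat → Nat → Nat → Nat → Nat → Nat → Nat → Nat → Nat → Nat → Nat → Nat → Nat → Nat → Nat →
  Nat → Nat → Nat → Nat → Nat → Nat → Nat → Nat → Nat → Nat → Nat → Nat → Nat → Nat → Nat → Nat →
  Nat → Nat → Nat → Nat → Nat → Nat → Nat → Nat → Nat → Nat → Nat → Nat → Nat → Nat → Nat → Nat →
  Nat → Nat → Nat → Nat → Nat → Nat → Nat → Nat → Nat → Nat → Nat → Nat → Nat → Nat → Nat → Nat →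
  Nat → Nat → Nat → Nat → Nat → Nat → Nat → Nat → Nat → Nat → Nat → Nat → Nat → Nat → Nat → Nat →
  Nat → Nat → Nat → Nat → Nat → Nat → Nat → Nat → Nat → Nat → Nat → Nat → Nat → Nat → Nat → Nat →
  Nat → Nat → Nat → Nat → Nat → Nat → Nat → Nat → Nat → Nat → Nat → Nat → Nat → Nat → Nat → Nat →
  Nat → Nat → Nat → Nat → Nat → Nat → Nat → Nat → Nat → Nat → Nat → Nat → Nat → Nat → Nat → Nat →
  Nat → Nat → Nat → Nat → Nat → Nat → Nat → Nat → Nat → Nat → Nat → Nat → Nat → Nat → Nat → Nat →
  Nat → Nat → Nat → Nat → Nat → Nat → Nat → Nat → Nat → Nat → Nat → Nat → Nat → Nat → Nat → Nat →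
  Nat → Nat → Nat → Nat → Nat → Nat → Nat → Nat → Nat → Nat → Nat → Nat → Nat → Nat → Nat → Nat →
  Nat → Nat → Nat → Nat → Nat → Nat → Nat → Nat → Nat → Nat → Nat → Nat → Nat → Nat → Nat → Nat →
  Nat → Nat → Nat → Nat → Nat → Nat → Nat → Nat → Nat → Nat → Nat → Nat → Nat → Nat → Nat → Nat →
  Nat → Nat → Nat → Nat → Nat → Nat → Nat → Nat → Nat → Nat → Nat → Nat → Nat → Nat → Nat → Nat →
  Nat → Nat → Nat → Nat → Nat → Nat → Nat → Nat → Nat → Nat → Nat → Nat → Nat → Nat → Nat → Nat →
  Nat → Nat → Nat → Nat → Nat → Nat → Nat → Nat → Nat → Nat → Nat → Nat → Nat → Nat → Nat → Nat →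
  Nat → Nat → Nat → Nat → Nat → Nat → Nat → Nat → Nat → Nat → Nat → Nat → Nat → Nat → Nat → Nat →
  Nat → Nat → Nat → Nat → Nat → Nat → Nat → Nat → Nat → Nat → Nat → Nat → Nat → Nat → Nat → Nat →
  Nat → Nat → Nat → Nat → Nat → Nat → Nat → Nat → Nat → Nat → Nat → Nat → Nat → Nat → Nat → Nat →
  Nat → Nat → Nat → Nat → Nat → Nat → Nat → Nat → Nat → Nat → Nat → Nat → Nat → Nat → Nat → Nat →
  Nat → Nat → Nat → Nat → Nat → Nat → Nat → Nat → Nat → Nat → Nat → Nat → Nat → Nat → Nat → Nat →
  Nat → Nat → Nat → Nat → Nat → Nat → Nat → Nat → Nat → Nat → Nat → Nat → Nat → Nat → Nat → Nat →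
  Nat → Nat → Nat → Nat → Nat → Nat → Nat → Nat → Nat → Nat → Nat → Nat → Nat → Nat → Nat → Nat →
  Nat → Nat → Nat → Nat → Nat → Nat → Nat → Nat → Nat → Nat → Nat → Nat → Nat → Nat → Nat → Nat →
  Nat → Nat → Nat → Nat → Nat → Nat → Nat → Nat → Nat → Nat → Nat → Nat → Nat → Nat → Nat → Nat →
  Nat → Nat → Nat → Nat → Nat → Nat → Nat → Nat → Nat → Nat → Nat → Nat → Nat → Nat → Nat → Nat →
  Nat → Nat → Nat → Nat → Nat → Nat → Nat → Nat → Nat → Nat → Nat → Nat → Nat → Nat → Nat → Nat →
  Nat → Nat → Nat → Nat → Nat → Nat → Nat → Nat → Nat → Nat → Nat → Nat → Nat → Nat → Nat → Nat →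
  Nat → Nat → Nat → Nat → Nat → Nat → Nat → Nat → Nat → Nat → Nat → Nat → Nat → Nat → Nat → Nat →
  Nat → Nat → Nat → Nat → Nat → Nat → Nat → Nat → Nat → Nat → Nat → Nat → Nat → Nat → Nat → Nat →
  Nat → Nat → Nat → Nat → Nat → Nat → Nat → Nat → Nat → Nat → Nat → Nat → Nat → Nat → Nat → Nat →
  Nat → Nat → Nat → Nat → Nat → Nat → Nat → Nat → Nat → Nat → Nat → Nat → Nat → Nat → Nat → Nat →
  Nat → Nat → Nat → Nat → Nat → Nat → Nat → Nat → Nat → Nat → Nat → Nat → Nat → Nat → Nat → Nat →
  Nat → Nat → Nat → Nat → Nat → Nat → Nat → Nat → Nat → Nat → Nat → Nat → Nat → Nat → Nat → Nat →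
  Nat → Nat → Nat → Nat → Nat → Nat → Nat → Nat → Nat → Nat → Nat → Nat → Nat → Nat → Nat → Nat →
  Nat → Nat → Nat → Nat → Nat → Nat → Nat → Nat → Nat → Nat → Nat → Nat → Nat → Nat → Nat → Nat →
  Nat → Nat → Nat → Nat → Nat → Nat → Nat → Nat → Nat → Nat → Nat → Nat → Nat → Nat → Nat → Nat →
  Nat → Nat → Nat → Nat → Nat → Nat → Nat → Nat → Nat → Nat → Nat → Nat → Nat → Nat → Nat → Nat →
  Nat → Nat → Nat → Nat → Nat → Nat → Nat → Nat → Nat → Nat → Nat → Nat → Nat → Nat → Nat → Nat →
  Nat → Nat → Nat → Nat → Nat → Nat → Nat → Nat → Nat → Nat → Nat → Nat → Nat → Nat → Nat → Nat →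
  Nat → Nat → Nat → Nat → Nat → Nat → Nat → Nat → Nat → Nat → Nat → Nat → Nat → Nat → Nat → Nat →
  Nat → Nat → Nat → Nat → Nat → Nat → Nat → Nat → Nat → Nat → Nat → Nat → Nat → Nat → Nat → Nat →
  Nat → Nat → Nat → Nat → Nat → Nat → Nat → Nat → Nat → Nat → Nat → Nat → Nat → Nat → Nat → Nat →
  Nat → Nat → Nat → Nat → Nat → Nat → Nat → Nat → Nat → Nat → Nat → Nat → Nat → Nat → Nat → Nat →
  Nat → Nat → Nat → Nat → Nat → Nat → Nat → Nat → Nat → Nat → Nat → Nat → Nat → Nat → Nat → Nat →
  Nat → Nat → Nat → Nat → Nat → Nat → Nat → Nat → Nat → Nat → Nat → Nat → Nat → Nat → Nat → Nat →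
  Nat → Nat → Nat → Nat → Nat → Nat → Nat → Nat → Nat → Nat → Nat → Nat → Nat → Nat → Nat → Nat →
  Nat → Nat → Nat → Nat → Nat → Nat → Nat → Nat → Nat → Nat → Nat → Nat → Nat → Nat → Nat → Nat →
  Nat → Nat → Nat → Nat → Nat → Nat → Nat → Nat → Nat → Nat → Nat → Nat → Nat → Nat → Nat → Nat →
  Nat → Nat → Nat → Nat → Nat → Nat → Nat → Nat → Nat → Nat → Nat → Nat → Nat → Nat → Nat → Nat →
  Nat → Nat → Nat → Nat → Nat → Nat → Nat → Nat → Nat → Nat → Nat → Nat → Nat → Nat → Nat → Nat →
  Nat → Nat → Nat → Nat → Nat → Nat → Nat → Nat → Nat → Nat → Nat → Nat → Nat → Nat → Nat → Nat →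
  Nat → Nat → Nat → Nat → Nat → Nat → Nat → Nat → Nat → Nat → Nat → Nat → Nat → Nat → Nat → Nat →
  Nat → Nat → Nat → Nat → Nat → Nat → Nat → Nat → Nat → Nat → Nat → Nat → Nat → Nat → Nat → Nat →
  Nat → Nat → Nat → Nat → Nat → Nat → Nat → Nat → Nat → Nat → Nat → Nat → Nat → Nat → Nat → Nat →
  Nat → Nat → Nat → Nat → Nat → Nat → Nat → Nat → Nat → Nat → Nat → Nat → Nat → Nat → Nat → Nat →
  Nat → Nat → Nat → Nat → Nat → Nat → Nat → Nat → Nat → Nat → Nat → Nat → Nat → Nat → Nat → Nat →
  Nat → Nat → Nat → Nat → Nat → Nat → Nat → Nat → Nat → Nat → Nat → Nat → Nat → Nat → Nat → Nat →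
  Nat → Nat → Nat → Nat → Nat → Nat → Nat → Nat → Nat → Nat → Nat → Nat → Nat → Nat → Nat → Nat →
  Nat → Nat → Nat → Nat → Nat → Nat → Nat → Nat → Nat → Nat → Nat → Nat → Nat → Nat → Nat → Nat →
  Nat → Nat → Nat → Nat → Nat → Nat → Nat → Nat → Nat → Nat → Nat → Nat → Nat → Nat → Nat → Nat →
  Nat → Nat → Nat → Nat → Nat → Nat → Nat → Nat → Nat → Nat → Nat → Nat → Nat → Nat → Nat → Nat →
  Nat → Nat → Nat → Nat → Nat → Nat → Nat → Nat → Nat → Nat → Nat → Nat → Nat → Nat → Nat → Nat →
  Nat → Nat → Nat → Nat → Nat → Nat → Nat → Nat → Nat → Nat → Nat → Nat → Nat → Nat → Nat → Nat →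
  Nat → Nat → Nat → Nat → Nat → Nat → Nat → Nat → Nat → Nat → Nat → Nat → Nat → Nat → Nat → Nat →
  Nat → Nat → Nat → Nat → Nat → Nat → Nat → Nat → Nat → Nat → Nat → Nat → Nat → Nat → Nat → Nat →
  Nat → Nat → Nat → Nat → Nat → Nat → Nat → Nat → Nat → Nat → Nat → Nat → Nat → Nat → Nat → Nat →
  Nat → Nat → Nat → Nat → Nat → Nat → Nat → Nat → Nat → Nat → Nat → Nat → Nat → Nat → Nat → Nat →
  Nat → Nat → Nat → Nat → Nat → Nat → Nat → Nat → Nat → Nat → Nat → Nat → Nat → Nat → Nat → Nat →
  Nat → Nat → Nat → Nat → Nat → Nat → Nat → Nat → Nat → Nat → Nat → Nat → Nat → Nat → Nat → Nat →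
  Nat → Nat → Nat → Nat → Nat → Nat → Nat → Nat → Nat → Nat → Nat → Nat → Nat → Nat → Nat → Nat →
  Nat → Nat → Nat → Nat → Nat → Nat → Nat → Nat → Nat → Nat → Nat → Nat → Nat → Nat → Nat → Nat →
  Nat → Nat → Nat → Nat → Nat → Nat → Nat → Nat → Nat → Nat → Nat → Nat → Nat → Nat → Nat → Nat →
  Nat → Nat → Nat → Nat → Nat → Nat → Nat → Nat → Nat → Nat → Nat → Nat → Nat → Nat → Nat → Nat →
  Nat → Nat → Nat → Nat → Nat → Nat → Nat → Nat → Nat → Nat → Nat → Nat → Nat → Nat → Nat → Nat →
  Nat → Nat → Nat → Nat → Nat → Nat → Nat → Nat → Nat → Nat → Nat → Nat → Nat → Nat → Nat → Nat →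
  Nat → Nat → Nat → Nat → Nat → Nat → Nat → Nat → Nat → Nat → Nat → Nat → Nat → Nat → Nat → Nat →
  Nat → Nat → Nat → Nat → Nat → Nat → Nat → Nat → Nat → Nat → Nat → Nat → Nat → Nat → Nat → Nat →
  Nat → Nat → Nat → Nat → Nat → Nat → Nat → Nat → Nat → Nat → Nat → Nat → Nat → Nat → Nat → Nat →
  Nat → Nat → Nat → Nat → Nat → Nat → Nat → Nat → Nat → Nat → Nat → Nat → Nat → Nat → Nat → Nat →
  Nat → Nat → Nat → Nat → Nat → Nat → Nat → Nat → Nat → Nat → Nat → Nat → Nat → Nat → Nat → Nat →
  Nat → Nat → Nat → Nat → Nat → Nat → Nat → Nat → Nat → Nat → Nat → Nat → Nat → Nat → Nat → Nat →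
  Nat → Nat → Nat → Nat → Nat → Nat → Nat → Nat → Nat → Nat → Nat → Nat → Nat → Nat → Nat → Nat →
  Nat → Nat → Nat → Nat → Nat → Nat → Nat → Nat → Nat → Nat → Nat → Nat → Nat → Nat → Nat → Nat →
  Nat → Nat → Nat → Nat → Nat → Nat → Nat → Nat → Nat → Nat → Nat → Nat → Nat → Nat → Nat → Nat →
  Nat → Nat → Nat → Nat → Nat → Nat → Nat → Nat → Nat → Nat → Nat → Nat → Nat → Nat → Nat → Nat →
  Nat → Nat → Nat → Nat → Nat → Nat → Nat → Nat → Nat → Nat → Nat → Nat → Nat → Nat → Nat → Nat →
  Nat → Nat → Nat → Nat → Nat → Nat → Nat → Nat → Nat → Nat → Nat → Nat → Nat → Nat → Nat → Nat →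
  Nat → Nat → Nat → Nat → Nat → Nat → Nat → Nat → Nat → Nat → Nat → Nat → Nat → Nat → Nat → Nat →
  Nat → Nat → Nat → Nat → Nat → Nat → Nat → Nat → Nat → Nat → Nat → Nat → Nat → Nat → Nat → Nat →
  Nat → Nat → Nat → Nat → Nat → Nat → Nat → Nat → Nat → Nat → Nat → Nat → Nat → Nat → Nat → Nat →
  Nat → Nat → Nat → Nat → Nat → Nat → Nat → Nat → Nat → Nat → Nat → Nat → Nat → Nat → Nat → Nat →
  Nat → Nat → Nat → Nat → Nat → Nat → Nat → Nat → Nat → Nat → Nat → Nat → Nat → Nat → Nat → Nat →
  Nat → Nat → Nat → Nat → Nat → Nat → Nat → Nat → Nat → Nat → Nat → Nat → Nat → Nat → Nat → Nat →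
  Nat → Nat → Nat → Nat → Nat → Nat → Nat → Nat → Nat → Nat → Nat → Nat → Nat → Nat → Nat → Nat →
  Nat → Nat → Nat → Nat → Nat → Nat → Nat → Nat → Nat → Nat → Nat → Nat → Nat → Nat → Nat → Nat →
  Nat → Nat → Nat → Nat → Nat → Nat → Nat → Nat → Nat → Nat → Nat → Nat → Nat → Nat → Nat → Nat →
  Nat → Nat → Nat → Nat → Nat → Nat → Nat → Nat → Nat → Nat → Nat → Nat → Nat → Nat → Nat → Nat →
  Nat → Nat → Nat → Nat → Nat → Nat → Nat → Nat → Nat → Nat → Nat → Nat → Nat → Nat → Nat → Nat →
  Nat → Nat → Nat → Nat → Nat → Nat → Nat → Nat → Nat → Nat → Nat → Nat → Nat → Nat → Nat → Nat →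
  Nat → Nat → Nat → Nat → Nat → Nat → Nat → Nat → Nat → Nat → Nat → Nat → Nat → Nat → Nat → Nat →
  Nat → Nat → Nat → Nat → Nat → Nat → Nat → Nat → Nat → Nat → Nat → Nat → Nat → Nat → Nat → Nat →
  Nat → Nat → Nat → Nat → Nat → Nat → Nat → Nat → Nat → Nat → Nat → Nat → Nat → Nat → Nat → Nat →
  Nat → Nat → Nat → Nat → Nat → Nat → Nat → Nat → Nat → Nat → Nat → Nat → Nat → Nat → Nat → Nat →
  Nat → Nat → Nat → Nat → Nat → Nat → Nat → Nat → Nat → Nat → Nat → Nat → Nat → Nat → Nat → Nat →
  Nat → Nat → Nat → Nat → Nat → Nat → Nat → Nat → Nat → Nat → Nat → Nat → Nat → Nat → Nat → Nat →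
  Nat → Nat → Nat → Nat → Nat → Nat → Nat → Nat → Nat → Nat → Nat → Nat → Nat → Nat → Nat → Nat →
  Nat → Nat → Nat → Nat → Nat → Nat → Nat → Nat → Nat → Nat → Nat → Nat → Nat → Nat → Nat → Nat →
  Nat → Nat → Nat → Nat → Nat → Nat → Nat → Nat → Nat → Nat → Nat → Nat → Nat → Nat → Nat → Nat →
  Nat → Nat → Nat → Nat → Nat → Nat → Nat → Nat → Nat → Nat → Nat → Nat → Nat → Nat → Nat → Nat →
  Nat → Nat → Nat → Nat → Nat → Nat → Nat → Nat → Nat → Nat → Nat → Nat → Nat → Nat → Nat → Nat →
  Nat → Nat → Nat → Nat → Nat → Nat → Nat → Nat → Nat → Nat → Nat → Nat → Nat → Nat → Nat → Nat →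
  Nat → Nat → Nat → Nat → Nat → Nat → Nat → Nat → Nat → Nat → Nat → Nat → Nat → Nat → Nat → Nat →
  Nat → Nat → Nat → Nat → Nat → Nat → Nat → Nat → Nat → Nat → Nat → Nat → Nat → Nat → Nat → Nat →
  Nat → Nat → Nat → Nat → Nat → Nat → Nat → Nat → Nat → Nat → Nat → Nat → Nat → Nat → Nat → Nat →
  Nat → Nat → Nat → Nat → Nat → Nat → Nat → Nat → Nat → Nat → Nat → Nat → Nat → Nat → Nat → Nat →
  Nat → Nat → Nat → Nat → Nat → Nat → Nat → Nat → Nat → Nat → Nat → Nat → Nat → Nat → Nat → Nat →
  Nat → Nat → Nat → Nat → Nat → Nat → Nat → Nat → Nat → Nat → Nat → Nat → Nat → Nat → Nat → Nat →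
  Nat → Nat → Nat → Nat → Nat → Nat → Nat → Nat → Nat → Nat → Nat → Nat → Nat → Nat → Nat → Nat →
  Nat → Nat → Nat → Nat → Nat → Nat → Nat → Nat → Nat → Nat → Nat → Nat → Nat → Nat → Nat → Nat →
  Nat → Nat → Nat → Nat → Nat → Nat → Nat → Nat → Nat → Nat → Nat → Nat → Nat → Nat → Nat → Nat →
  Nat → Nat → Nat → Nat → Nat → Nat → Nat → Nat → Nat → Nat → Nat → Nat → Nat → Nat → Nat → Nat →
  Nat → Nat → Nat → Nat → Nat → Nat → Nat → Nat → Nat → Nat → Nat → Nat → Nat → Nat → Nat → Nat →
  Nat → Nat → Nat → Nat → Nat → Nat → Nat → Nat → Nat → Nat → Nat → Nat → Nat → Nat → Nat → Nat →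
  Nat → Nat → Nat → Nat → Nat → Nat → Nat → Nat → Nat → Nat → Nat → Nat → Nat → Nat → Nat → Nat →
  Nat → Nat → Nat → Nat → Nat → Nat → Nat → Nat → Nat → Nat → Nat → Nat → Nat → Nat → Nat → Nat →
  Nat → Nat → Nat → Nat → Nat → Nat → Nat → Nat → Nat → Nat → Nat → Nat → Nat → Nat → Nat → Nat →
  Nat → Nat → Nat → Nat → Nat → Nat → Nat → Nat → Nat → Nat → Nat → Nat → Nat → Nat → Nat → Nat →
  Nat → Nat → Nat → Nat → Nat → Nat → Nat → Nat → Nat → Nat → Nat → Nat → Nat → Nat → Nat → Nat →
  Nat → Nat → Nat → Nat → Nat → Nat → Nat → Nat → Nat → Nat → Nat → Nat → Nat → Nat → Nat → Nat →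
  Nat → Nat → Nat → Nat → Nat → Nat → Nat → Nat → Nat → Nat → Nat → Nat → Nat → Nat → Nat → Nat →
  Nat → Nat → Nat → Nat → Nat → Nat → Nat → Nat → Nat → Nat → Nat → Nat → Nat → Nat → Nat → Nat →
  Nat → Nat → Nat → Nat → Nat → Nat → Nat → Nat → Nat → Nat → Nat → Nat → Nat → Nat → Nat → Nat →
  Nat → Nat → Nat → Nat → Nat → Nat → Nat → Nat → Nat → Nat → Nat → Nat → Nat → Nat → Nat → Nat →
  Nat → Nat → Nat → Nat → Nat → Nat → Nat → Nat → Nat → Nat → Nat → Nat → Nat → Nat → Nat → Nat →
  Nat → Nat → Nat → Nat → Nat → Nat → Nat → Nat → Nat → Nat → Nat → Nat → Nat → Nat → Nat → Nat →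
  Nat → Nat → Nat → Nat → Nat → Nat → Nat → Nat → Nat → Nat → Nat → Nat → Nat → Nat → Nat → Nat →
  Nat → Nat → Nat → Nat → Nat → Nat → Nat → Nat → Nat → Nat → Nat → Nat → Nat → Nat → Nat → Nat →
  Nat → Nat → Nat → Nat → Nat → Nat → Nat → Nat → Nat → Nat → Nat → Nat → Nat → Nat → Nat → Nat →
  Nat → Nat → Nat → Nat → Nat → Nat → Nat → Nat → Nat → Nat → Nat → Nat → Nat → Nat → Nat → Nat →
  Nat → Nat → Nat → Nat → Nat → Nat → Nat → Nat → Nat → Nat → Nat → Nat → Nat → Nat → Nat → Nat →
  Nat → Nat → Nat → Nat → Nat → Nat → Nat → Nat → Nat → Nat → Nat → Nat → Nat → Nat → Nat → Nat →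
  Nat → Nat → Nat → Nat → Nat → Nat → Nat → Nat → Nat → Nat → Nat → Nat → Nat → Nat → Nat → Nat →
  Nat → Nat → Nat → Nat → Nat → Nat → Nat → Nat → Nat → Nat → Nat → Nat → Nat → Nat → Nat → Nat →
  Nat → Nat → Nat → Nat → Nat → Nat → Nat → Nat → Nat → Nat → Nat → Nat → Nat → Nat → Nat → Nat →
  Nat → Nat → Nat → Nat → Nat → Nat → Nat → Nat → Nat → Nat → Nat → Nat → Nat → Nat → Nat → Nat →
  Nat → Nat → Nat → Nat → Nat → Nat → Nat → Nat → Nat → Nat → Nat → Nat → Nat → Nat → Nat → Nat →
  Nat → Nat → Nat → Nat → Nat → Nat → Nat → Nat → Nat → Nat → Nat → Nat → Nat → Nat → Nat → Nat →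
  Nat → Nat → Nat → Nat → Nat → Nat → Nat → Nat → Nat → Nat → Nat → Nat → Nat → Nat → Nat → Nat →
  Nat → Nat → Nat → Nat → Nat → Nat → Nat → Nat → Nat → Nat → Nat → Nat → Nat → Nat → Nat → Nat →
  Nat → Nat → Nat → Nat → Nat → Nat → Nat → Nat → Nat → Nat → Nat → Nat → Nat → Nat → Nat → Nat →
  Nat → Nat → Nat → Nat → Nat → Nat → Nat → Nat → Nat → Nat → Nat → Nat → Nat → Nat → Nat → Nat →
  Nat → Nat → Nat → Nat → Nat → Nat → Nat → Nat → Nat → Nat → Nat → Nat → Nat → Nat → Nat → Nat →
  Nat → Nat → Nat → Nat → Nat → Nat → Nat → Nat → Nat → Nat → Nat → Nat → Nat → Nat → Nat → Nat →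
  Nat → Nat → Nat → Nat → Nat → Nat → Nat → Nat → Nat → Nat → Nat → Nat → Nat → Nat → Nat → Nat →
  Nat → Nat → Nat → Nat → Nat → Nat → Nat → Nat → Nat → Nat → Nat → Nat → Nat → Nat → Nat → Nat →
  Nat → Nat → Nat → Nat → Nat → Nat → Nat → Nat → Nat → Nat → Nat → Nat → Nat → Nat → Nat → Nat →
  Nat → Nat → Nat → Nat → Nat → Nat → Nat → Nat → Nat → Nat → Nat → Nat → Nat → Nat → Nat → Nat →
  Nat → Nat → Nat → Nat → Nat → Nat → Nat → Nat → Nat → Nat → Nat → Nat → Nat → Nat → Nat → Nat →
  Nat → Nat → Nat → Nat → Nat → Nat → Nat → Nat → Nat → Nat → Nat → Nat → Nat → Nat → Nat → Nat →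
  Nat → Nat → Nat → Nat → Nat → Nat → Nat → Nat → Nat → Nat → Nat → Nat → Nat → Nat → Nat → Nat →
  Nat → Nat → Nat → Nat → Nat → Nat → Nat → Nat → Nat → Nat → Nat → Nat → Nat → Nat → Nat → Nat →
  Nat → Nat → Nat → Nat → Nat → Nat → Nat → Nat → Nat → Nat → Nat → Nat → Nat → Nat → Nat → Nat →
  Nat → Nat → Nat → Nat → Nat → Nat → Nat → Nat → Nat → Nat → Nat → Nat → Nat → Nat → Nat → Nat →
  Nat → Nat → Nat → Nat → Nat → Nat → Nat → Nat → Nat → Nat → Nat → Nat → Nat → Nat → Nat → Nat →
  Nat → Nat → Nat → Nat → Nat → Nat → Nat → Nat → Nat → Nat → Nat → Nat → Nat → Nat → Nat → Nat →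
  Nat → Nat → Nat → Nat → Nat → Nat → Nat → Nat → Nat → Nat → Nat → Nat → Nat → Nat → Nat → Nat →
  Nat → Nat → Nat → Nat → Nat → Nat → Nat → Nat → Nat → Nat → Nat → Nat → Nat → Nat → Nat → Nat →
  Nat → Nat → Nat → Nat → Nat → Nat → Nat → Nat → Nat → Nat → Nat → Nat → Nat → Nat → Nat → Nat →
  Nat → Nat → Nat → Nat → Nat → Nat → Nat → Nat → Nat → Nat → Nat → Nat → Nat → Nat → Nat → Nat →
  Nat → Nat → Nat → Nat → Nat → Nat → Nat → Nat → Nat → Nat → Nat → Nat → Nat → Nat → Nat → Nat →
  Nat → Nat → Nat → Nat → Nat → Nat → Nat → Nat → Nat → Nat → Nat → Nat → Nat → Nat → Nat → Nat →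
  Nat → Nat → Nat → Nat → Nat → Nat → Nat → Nat → Nat → Nat → Nat → Nat → Nat → Nat → Nat → Nat →
  Nat → Nat → Nat → Nat → Nat → Nat → Nat → Nat → Nat → Nat → Nat → Nat → Nat → Nat → Nat → Nat →
  Nat → Nat → Nat → Nat → Nat → Nat → Nat → Nat → Nat → Nat → Nat → Nat → Nat → Nat → Nat → Nat →
  Nat → Nat → Nat → Nat → Nat → Nat → Nat → Nat → Nat → Nat → Nat → Nat → Nat → Nat → Nat → Nat →
  Nat → Nat → Nat → Nat → Nat → Nat → Nat → Nat → Nat → Bool

noncomputable def base : TT :=
  fun _ _ _ _ _ _ _ _ _ _ _ _ _ _ _ _ _ _ _ _ _ _ _ _ _ _ _ _ _ _ _ _ _ _ _ _ _ _ _ _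
  _ _ _ _ _ _ _ _ _ _ _ _ _ _ _ _ _ _ _ _ _ _ _ _ _ _ _ _ _ _ _ _ _ _ _ _ _ _ _ _
  _ _ _ _ _ _ _ _ _ _ _ _ _ _ _ _ _ _ _ _ _ _ _ _ _ _ _ _ _ _ _ _ _ _ _ _ _ _ _ _
  _ _ _ _ _ _ _ _ _ _ _ _ _ _ _ _ _ _ _ _ _ _ _ _ _ _ _ _ _ _ _ _ _ _ _ _ _ _ _ _
  _ _ _ _ _ _ _ _ _ _ _ _ _ _ _ _ _ _ _ _ _ _ _ _ _ _ _ _ _ _ _ _ _ _ _ _ _ _ _ _
  _ _ _ _ _ _ _ _ _ _ _ _ _ _ _ _ _ _ _ _ _ _ _ _ _ _ _ _ _ _ _ _ _ _ _ _ _ _ _ _
  _ _ _ _ _ _ _ _ _ _ _ _ _ _ _ _ _ _ _ _ _ _ _ _ _ _ _ _ _ _ _ _ _ _ _ _ _ _ _ _
  _ _ _ _ _ _ _ _ _ _ _ _ _ _ _ _ _ _ _ _ _ _ _ _ _ _ _ _ _ _ _ _ _ _ _ _ _ _ _ _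
  _ _ _ _ _ _ _ _ _ _ _ _ _ _ _ _ _ _ _ _ _ _ _ _ _ _ _ _ _ _ _ _ _ _ _ _ _ _ _ _
  _ _ _ _ _ _ _ _ _ _ _ _ _ _ _ _ _ _ _ _ _ _ _ _ _ _ _ _ _ _ _ _ _ _ _ _ _ _ _ _
  _ _ _ _ _ _ _ _ _ _ _ _ _ _ _ _ _ _ _ _ _ _ _ _ _ _ _ _ _ _ _ _ _ _ _ _ _ _ _ _
  _ _ _ _ _ _ _ _ _ _ _ _ _ _ _ _ _ _ _ _ _ _ _ _ _ _ _ _ _ _ _ _ _ _ _ _ _ _ _ _
  _ _ _ _ _ _ _ _ _ _ _ _ _ _ _ _ _ _ _ _ _ _ _ _ _ _ _ _ _ _ _ _ _ _ _ _ _ _ _ _
  _ _ _ _ _ _ _ _ _ _ _ _ _ _ _ _ _ _ _ _ _ _ _ _ _ _ _ _ _ _ _ _ _ _ _ _ _ _ _ _
  _ _ _ _ _ _ _ _ _ _ _ _ _ _ _ _ _ _ _ _ _ _ _ _ _ _ _ _ _ _ _ _ _ _ _ _ _ _ _ _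
  _ _ _ _ _ _ _ _ _ _ _ _ _ _ _ _ _ _ _ _ _ _ _ _ _ _ _ _ _ _ _ _ _ _ _ _ _ _ _ _
  _ _ _ _ _ _ _ _ _ _ _ _ _ _ _ _ _ _ _ _ _ _ _ _ _ _ _ _ _ _ _ _ _ _ _ _ _ _ _ _
  _ _ _ _ _ _ _ _ _ _ _ _ _ _ _ _ _ _ _ _ _ _ _ _ _ _ _ _ _ _ _ _ _ _ _ _ _ _ _ _
  _ _ _ _ _ _ _ _ _ _ _ _ _ _ _ _ _ _ _ _ _ _ _ _ _ _ _ _ _ _ _ _ _ _ _ _ _ _ _ _
  _ _ _ _ _ _ _ _ _ _ _ _ _ _ _ _ _ _ _ _ _ _ _ _ _ _ _ _ _ _ _ _ _ _ _ _ _ _ _ _
  _ _ _ _ _ _ _ _ _ _ _ _ _ _ _ _ _ _ _ _ _ _ _ _ _ _ _ _ _ _ _ _ _ _ _ _ _ _ _ _
  _ _ _ _ _ _ _ _ _ _ _ _ _ _ _ _ _ _ _ _ _ _ _ _ _ _ _ _ _ _ _ _ _ _ _ _ _ _ _ _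
  _ _ _ _ _ _ _ _ _ _ _ _ _ _ _ _ _ _ _ _ _ _ _ _ _ _ _ _ _ _ _ _ _ _ _ _ _ _ _ _
  _ _ _ _ _ _ _ _ _ _ _ _ _ _ _ _ _ _ _ _ _ _ _ _ _ _ _ _ _ _ _ _ _ _ _ _ _ _ _ _
  _ _ _ _ _ _ _ _ _ _ _ _ _ _ _ _ _ _ _ _ _ _ _ _ _ _ _ _ _ _ _ _ _ _ _ _ _ _ _ _
  _ _ _ _ _ _ _ _ _ _ _ _ _ _ _ _ _ _ _ _ _ _ _ _ _ _ _ _ _ _ _ _ _ _ _ _ _ _ _ _
  _ _ _ _ _ _ _ _ _ _ _ _ _ _ _ _ _ _ _ _ _ _ _ _ _ _ _ _ _ _ _ _ _ _ _ _ _ _ _ _
  _ _ _ _ _ _ _ _ _ _ _ _ _ _ _ _ _ _ _ _ _ _ _ _ _ _ _ _ _ _ _ _ _ _ _ _ _ _ _ _
  _ _ _ _ _ _ _ _ _ _ _ _ _ _ _ _ _ _ _ _ _ _ _ _ _ _ _ _ _ _ _ _ _ _ _ _ _ _ _ _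
  _ _ _ _ _ _ _ _ _ _ _ _ _ _ _ _ _ _ _ _ _ _ _ _ _ _ _ _ _ _ _ _ _ _ _ _ _ _ _ _
  _ _ _ _ _ _ _ _ _ _ _ _ _ _ _ _ _ _ _ _ _ _ _ _ _ _ _ _ _ _ _ _ _ _ _ _ _ _ _ _
  _ _ _ _ _ _ _ _ _ _ _ _ _ _ _ _ _ _ _ _ _ _ _ _ _ _ _ _ _ _ _ _ _ _ _ _ _ _ _ _
  _ _ _ _ _ _ _ _ _ _ _ _ _ _ _ _ _ _ _ _ _ _ _ _ _ _ _ _ _ _ _ _ _ _ _ _ _ _ _ _
  _ _ _ _ _ _ _ _ _ _ _ _ _ _ _ _ _ _ _ _ _ _ _ _ _ _ _ _ _ _ _ _ _ _ _ _ _ _ _ _
  _ _ _ _ _ _ _ _ _ _ _ _ _ _ _ _ _ _ _ _ _ _ _ _ _ _ _ _ _ _ _ _ _ _ _ _ _ _ _ _
  _ _ _ _ _ _ _ _ _ _ _ _ _ _ _ _ _ _ _ _ _ _ _ _ _ _ _ _ _ _ _ _ _ _ _ _ _ _ _ _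
  _ _ _ _ _ _ _ _ _ _ _ _ _ _ _ _ _ _ _ _ _ _ _ _ _ _ _ _ _ _ _ _ _ _ _ _ _ _ _ _
  _ _ _ _ _ _ _ _ _ _ _ _ _ _ _ _ _ _ _ _ _ _ _ _ _ _ _ _ _ _ _ _ _ _ _ _ _ _ _ _
  _ _ _ _ _ _ _ _ _ _ _ _ _ _ _ _ _ _ _ _ _ _ _ _ _ _ _ _ _ _ _ _ _ _ _ _ _ _ _ _
  _ _ _ _ _ _ _ _ _ _ _ _ _ _ _ _ _ _ _ _ _ _ _ _ _ _ _ _ _ _ _ _ _ _ _ _ _ _ _ _
  _ _ _ _ _ _ _ _ _ _ _ _ _ _ _ _ _ _ _ _ _ _ _ _ _ _ _ _ _ _ _ _ _ _ _ _ _ _ _ _
  _ _ _ _ _ _ _ _ _ _ _ _ _ _ _ _ _ _ _ _ _ _ _ _ _ _ _ _ _ _ _ _ _ _ _ _ _ _ _ _
  _ _ _ _ _ _ _ _ _ _ _ _ _ _ _ _ _ _ _ _ _ _ _ _ _ _ _ _ _ _ _ _ _ _ _ _ _ _ _ _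
  _ _ _ _ _ _ _ _ _ _ _ _ _ _ _ _ _ _ _ _ _ _ _ _ _ _ _ _ _ _ _ _ _ _ _ _ _ _ _ _
  _ _ _ _ _ _ _ _ _ _ _ _ _ _ _ _ _ _ _ _ _ _ _ _ _ _ _ _ _ _ _ _ _ _ _ _ _ _ _ _
  _ _ _ _ _ _ _ _ _ _ _ _ _ _ _ _ _ _ _ _ _ _ _ _ _ _ _ _ _ _ _ _ _ _ _ _ _ _ _ _
  _ _ _ _ _ _ _ _ _ _ _ _ _ _ _ _ _ _ _ _ _ _ _ _ _ _ _ _ _ _ _ _ _ _ _ _ _ _ _ _
  _ _ _ _ _ _ _ _ _ _ _ _ _ _ _ _ _ _ _ _ _ _ _ _ _ _ _ _ _ _ _ _ _ _ _ _ _ _ _ _
  _ _ _ _ _ _ _ _ _ _ _ _ _ _ _ _ _ _ _ _ _ _ _ _ _ _ _ _ _ _ _ _ _ _ _ _ _ _ _ _
  _ _ _ _ _ _ _ _ _ _ _ _ _ _ _ _ _ _ _ _ _ _ _ _ _ _ _ _ _ _ _ _ _ _ _ _ _ _ _ _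
  _ _ _ _ _ _ _ _ _ _ _ _ _ _ _ _ _ _ _ _ _ _ _ _ _ _ _ _ _ _ _ _ _ _ _ _ _ _ _ _
  _ _ _ _ _ _ _ _ _ _ _ _ _ _ _ _ _ _ _ _ _ _ _ _ _ _ _ _ _ _ _ _ _ _ _ _ _ _ _ _
  _ _ _ _ _ _ _ _ _ _ _ _ _ _ _ _ _ _ _ _ _ _ _ _ _ _ _ _ _ _ _ _ _ _ _ _ _ _ _ _
  _ _ _ _ _ _ _ _ _ _ _ _ _ _ _ _ _ _ _ _ _ _ _ _ _ _ _ _ _ _ _ _ _ _ _ _ _ _ _ _
  _ _ _ _ _ _ _ _ _ _ _ _ _ _ _ _ _ _ _ _ _ _ _ _ _ _ _ _ _ _ _ _ _ _ _ _ _ _ _ _
  _ _ _ _ _ _ _ _ _ _ _ _ _ _ _ _ _ _ _ _ _ _ _ _ _ _ _ _ _ _ _ _ _ _ _ _ _ _ _ _
  _ _ _ _ _ _ _ _ _ _ _ _ _ _ _ _ _ _ _ _ _ _ _ _ _ _ _ _ _ _ _ _ _ _ _ _ _ _ _ _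
  _ _ _ _ _ _ _ _ _ _ _ _ _ _ _ _ _ _ _ _ _ _ _ _ _ _ _ _ _ _ _ _ _ _ _ _ _ _ _ _
  _ _ _ _ _ _ _ _ _ _ _ _ _ _ _ _ _ _ _ _ _ _ _ _ _ _ _ _ _ _ _ _ _ _ _ _ _ _ _ _
  _ _ _ _ _ _ _ _ _ _ _ _ _ _ _ _ _ _ _ _ _ _ _ _ _ _ _ _ _ _ _ _ _ _ _ _ _ _ _ _
  _ _ _ _ _ _ _ _ _ _ _ _ _ _ _ _ _ _ _ _ _ _ _ _ _ _ _ _ _ _ _ _ _ _ _ _ _ _ _ _
  _ _ _ _ _ _ _ _ _ _ _ _ _ _ _ _ _ _ _ _ _ _ _ _ _ _ _ _ _ _ _ _ _ _ _ _ _ _ _ _
  _ _ _ _ _ _ _ _ _ _ _ _ _ _ _ _ _ _ _ _ _ _ _ _ _ _ _ _ _ _ _ _ _ _ _ _ _ _ _ _
  _ _ _ _ _ _ _ _ _ _ _ _ _ _ _ _ _ _ _ _ _ _ _ _ _ _ _ _ _ _ _ _ _ _ _ _ _ _ _ _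
  _ _ _ _ _ _ _ _ _ _ _ _ _ _ _ _ _ _ _ _ _ _ _ _ _ _ _ _ _ _ _ _ _ _ _ _ _ _ _ _
  _ _ _ _ _ _ _ _ _ _ _ _ _ _ _ _ _ _ _ _ _ _ _ _ _ _ _ _ _ _ _ _ _ _ _ _ _ _ _ _
  _ _ _ _ _ _ _ _ _ _ _ _ _ _ _ _ _ _ _ _ _ _ _ _ _ _ _ _ _ _ _ _ _ _ _ _ _ _ _ _
  _ _ _ _ _ _ _ _ _ _ _ _ _ _ _ _ _ _ _ _ _ _ _ _ _ _ _ _ _ _ _ _ _ _ _ _ _ _ _ _
  _ _ _ _ _ _ _ _ _ _ _ _ _ _ _ _ _ _ _ _ _ _ _ _ _ _ _ _ _ _ _ _ _ _ _ _ _ _ _ _
  _ _ _ _ _ _ _ _ _ _ _ _ _ _ _ _ _ _ _ _ _ _ _ _ _ _ _ _ _ _ _ _ _ _ _ _ _ _ _ _
  _ _ _ _ _ _ _ _ _ _ _ _ _ _ _ _ _ _ _ _ _ _ _ _ _ _ _ _ _ _ _ _ _ _ _ _ _ _ _ _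
  _ _ _ _ _ _ _ _ _ _ _ _ _ _ _ _ _ _ _ _ _ _ _ _ _ _ _ _ _ _ _ _ _ _ _ _ _ _ _ _
  _ _ _ _ _ _ _ _ _ _ _ _ _ _ _ _ _ _ _ _ _ _ _ _ _ _ _ _ _ _ _ _ _ _ _ _ _ _ _ _
  _ _ _ _ _ _ _ _ _ _ _ _ _ _ _ _ _ _ _ _ _ _ _ _ _ _ _ _ _ _ _ _ _ _ _ _ _ _ _ _
  _ _ _ _ _ _ _ _ _ _ _ _ _ _ _ _ _ _ _ _ _ _ _ _ _ _ _ _ _ _ _ _ _ _ _ _ _ _ _ _
  _ _ _ _ _ _ _ _ _ _ _ _ _ _ _ _ _ _ _ _ _ _ _ _ _ _ _ _ _ _ _ _ _ _ _ _ _ _ _ _
  _ _ _ _ _ _ _ _ _ _ _ _ _ _ _ _ _ _ _ _ _ _ _ _ _ _ _ _ _ _ _ _ _ _ _ _ _ _ _ _
  _ _ _ _ _ _ _ _ _ _ _ _ _ _ _ _ _ _ _ _ _ _ _ _ _ _ _ _ _ _ _ _ _ _ _ _ _ _ _ _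
  _ _ _ _ _ _ _ _ _ _ _ _ _ _ _ _ _ _ _ _ _ _ _ _ _ _ _ _ _ _ _ _ _ _ _ _ _ _ _ _
  _ _ _ _ _ _ _ _ _ _ _ _ _ _ _ _ _ _ _ _ _ _ _ _ _ _ _ _ _ _ _ _ _ _ _ _ _ _ _ _
  _ _ _ _ _ _ _ _ _ _ _ _ _ _ _ _ _ _ _ _ _ _ _ _ _ _ _ _ _ _ _ _ _ _ _ _ _ _ _ _
  _ _ _ _ _ _ _ _ _ _ _ _ _ _ _ _ _ _ _ _ _ _ _ _ _ _ _ _ _ _ _ _ _ _ _ _ _ _ _ _
  _ _ _ _ _ _ _ _ _ _ _ _ _ _ _ _ _ _ _ _ _ _ _ _ _ _ _ _ _ _ _ _ _ _ _ _ _ _ _ _
  _ _ _ _ _ _ _ _ _ _ _ _ _ _ _ _ _ _ _ _ _ _ _ _ _ _ _ _ _ _ _ _ _ _ _ _ _ _ _ _
  _ _ _ _ _ _ _ _ _ _ _ _ _ _ _ _ _ _ _ _ _ _ _ _ _ _ _ _ _ _ _ _ _ _ _ _ _ _ _ _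
  _ _ _ _ _ _ _ _ _ _ _ _ _ _ _ _ _ _ _ _ _ _ _ _ _ _ _ _ _ _ _ _ _ _ _ _ _ _ _ _
  _ _ _ _ _ _ _ _ _ _ _ _ _ _ _ _ _ _ _ _ _ _ _ _ _ _ _ _ _ _ _ _ _ _ _ _ _ _ _ _
  _ _ _ _ _ _ _ _ _ _ _ _ _ _ _ _ _ _ _ _ _ _ _ _ _ _ _ _ _ _ _ _ _ _ _ _ _ _ _ _
  _ _ _ _ _ _ _ _ _ _ _ _ _ _ _ _ _ _ _ _ _ _ _ _ _ _ _ _ _ _ _ _ _ _ _ _ _ _ _ _
  _ _ _ _ _ _ _ _ _ _ _ _ _ _ _ _ _ _ _ _ _ _ _ _ _ _ _ _ _ _ _ _ _ _ _ _ _ _ _ _
  _ _ _ _ _ _ _ _ _ _ _ _ _ _ _ _ _ _ _ _ _ _ _ _ _ _ _ _ _ _ _ _ _ _ _ _ _ _ _ _
  _ _ _ _ _ _ _ _ _ _ _ _ _ _ _ _ _ _ _ _ _ _ _ _ _ _ _ _ _ _ _ _ _ _ _ _ _ _ _ _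
  _ _ _ _ _ _ _ _ _ _ _ _ _ _ _ _ _ _ _ _ _ _ _ _ _ _ _ _ _ _ _ _ _ _ _ _ _ _ _ _
  _ _ _ _ _ _ _ _ _ _ _ _ _ _ _ _ _ _ _ _ _ _ _ _ _ _ _ _ _ _ _ _ _ _ _ _ _ _ _ _
  _ _ _ _ _ _ _ _ _ _ _ _ _ _ _ _ _ _ _ _ _ _ _ _ _ _ _ _ _ _ _ _ _ _ _ _ _ _ _ _
  _ _ _ _ _ _ _ _ _ _ _ _ _ _ _ _ _ _ _ _ _ _ _ _ _ _ _ _ _ _ _ _ _ _ _ _ _ _ _ _
  _ _ _ _ _ _ _ _ _ _ _ _ _ _ _ _ _ _ _ _ _ _ _ _ _ _ _ _ _ _ _ _ _ _ _ _ _ _ _ _
  _ _ _ _ _ _ _ _ _ _ _ _ _ _ _ _ _ _ _ _ _ _ _ _ _ _ _ _ _ _ _ _ _ _ _ _ _ _ _ _
  _ _ _ _ _ _ _ _ _ _ _ _ _ _ _ _ _ _ _ _ _ _ _ _ _ _ _ _ _ _ _ _ _ _ _ _ _ _ _ _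
  _ _ _ _ _ _ _ _ _ _ _ _ _ _ _ _ _ _ _ _ _ _ _ _ _ _ _ _ _ _ _ _ _ _ _ _ _ _ _ _
  _ _ _ _ _ _ _ _ _ _ _ _ _ _ _ _ _ _ _ _ _ _ _ _ _ _ _ _ _ _ _ _ _ _ _ _ _ _ _ _
  _ _ _ _ _ _ _ _ _ _ _ _ _ _ _ _ _ _ _ _ _ _ _ _ _ _ _ _ _ _ _ _ _ _ _ _ _ _ _ _
  _ _ _ _ _ _ _ _ _ _ _ _ _ _ _ _ _ _ _ _ _ _ _ _ _ _ _ _ _ _ _ _ _ _ _ _ _ _ _ _
  _ _ _ _ _ _ _ _ _ _ _ _ _ _ _ _ _ _ _ _ _ _ _ _ _ _ _ _ _ _ _ _ _ _ _ _ _ _ _ _
  _ _ _ _ _ _ _ _ _ _ _ _ _ _ _ _ _ _ _ _ _ _ _ _ _ _ _ _ _ _ _ _ _ _ _ _ _ _ _ _
  _ _ _ _ _ _ _ _ _ _ _ _ _ _ _ _ _ _ _ _ _ _ _ _ _ _ _ _ _ _ _ _ _ _ _ _ _ _ _ _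
  _ _ _ _ _ _ _ _ _ _ _ _ _ _ _ _ _ _ _ _ _ _ _ _ _ _ _ _ _ _ _ _ _ _ _ _ _ _ _ _
  _ _ _ _ _ _ _ _ _ _ _ _ _ _ _ _ _ _ _ _ _ _ _ _ _ _ _ _ _ _ _ _ _ _ _ _ _ _ _ _
  _ _ _ _ _ _ _ _ _ _ _ _ _ _ _ _ _ _ _ _ _ _ _ _ _ _ _ _ _ _ _ _ _ _ _ _ _ _ _ _
  _ _ _ _ _ _ _ _ _ _ _ _ _ _ _ _ _ _ _ _ _ _ _ _ _ _ _ _ _ _ _ _ _ _ _ _ _ _ _ _
  _ _ _ _ _ _ _ _ _ _ _ _ _ _ _ _ _ _ _ _ _ _ _ _ _ _ _ _ _ _ _ _ _ _ _ _ _ _ _ _
  _ _ _ _ _ _ _ _ _ _ _ _ _ _ _ _ _ _ _ _ _ _ _ _ _ _ _ _ _ _ _ _ _ _ _ _ _ _ _ _
  _ _ _ _ _ _ _ _ _ _ _ _ _ _ _ _ _ _ _ _ _ _ _ _ _ _ _ _ _ _ _ _ _ _ _ _ _ _ _ _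
  _ _ _ _ _ _ _ _ _ _ _ _ _ _ _ _ _ _ _ _ _ _ _ _ _ _ _ _ _ _ _ _ _ _ _ _ _ _ _ _
  _ _ _ _ _ _ _ _ _ _ _ _ _ _ _ _ _ _ _ _ _ _ _ _ _ _ _ _ _ _ _ _ _ _ _ _ _ _ _ _
  _ _ _ _ _ _ _ _ _ _ _ _ _ _ _ _ _ _ _ _ _ _ _ _ _ _ _ _ _ _ _ _ _ _ _ _ _ _ _ _
  _ _ _ _ _ _ _ _ _ _ _ _ _ _ _ _ _ _ _ _ _ _ _ _ _ _ _ _ _ _ _ _ _ _ _ _ _ _ _ _
  _ _ _ _ _ _ _ _ _ _ _ _ _ _ _ _ _ _ _ _ _ _ _ _ _ _ _ _ _ _ _ _ _ _ _ _ _ _ _ _
  _ _ _ _ _ _ _ _ _ _ _ _ _ _ _ _ _ _ _ _ _ _ _ _ _ _ _ _ _ _ _ _ _ _ _ _ _ _ _ _
  _ _ _ _ _ _ _ _ _ _ _ _ _ _ _ _ _ _ _ _ _ _ _ _ _ _ _ _ _ _ _ _ _ _ _ _ _ _ _ _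
  _ _ _ _ _ _ _ _ _ _ _ _ _ _ _ _ _ _ _ _ _ _ _ _ _ _ _ _ _ _ _ _ _ _ _ _ _ _ _ _
  _ _ _ _ _ _ _ _ _ _ _ _ _ _ _ _ _ _ _ _ _ _ _ _ _ _ _ _ _ _ _ _ _ _ _ _ _ _ _ _
  _ _ _ _ _ _ _ _ _ _ _ _ _ _ _ _ _ _ _ _ _ _ _ _ _ _ _ _ _ _ _ _ _ _ _ _ _ _ _ _
  _ => true

noncomputable def G (chk : List Nat → Bool) (C : Nat) (k : TT) : TT :=
  fun x2 x6 x14 x16 x18 x22 x26 x32 x34 x38 x42 x46 x48 x54 x58 x62
  x64 x66 x74 x78 x86 x88 x92 x96 x100 x102 x110 x114 x122 x124 x126 x130
  x134 x136 x138 x144 x148 x152 x158 x160 x162 x166 x170 x172 x174 x182 x186 x190
  x192 x198 x202 x206 x212 x214 x218 x222 x230 x232 x234 x238 x242 x248 x250 x254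
  x258 x262 x264 x272 x276 x284 x286 x288 x292 x296 x298 x300 x306 x310 x314 x320
  x322 x326 x330 x338 x340 x342 x346 x350 x356 x358 x362 x366 x370 x372 x378 x382
  x386 x388 x390 x398 x402 x406 x408 x414 x418 x422 x428 x430 x432 x436 x440 x442
  x444 x452 x456 x464 x466 x470 x474 x478 x480 x486 x490 x494 x496 x498 x506 x510
  x514 x516 x522 x526 x530 x536 x538 x542 x546 x554 x556 x558 x562 x566 x568 x570
  x576 x580 x584 x590 x592 x594 x598 x602 x604 x606 x614 x618 x626 x628 x632 x636
  x640 x642 x650 x654 x662 x664 x666 x670 x674 x680 x682 x686 x690 x694 x696 x702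
  x706 x710 x712 x714 x722 x726 x734 x736 x740 x744 x748 x750 x758 x762 x770 x772
  x774 x778 x782 x784 x786 x792 x796 x800 x806 x808 x812 x816 x824 x826 x828 x832
  x836 x842 x844 x848 x852 x856 x858 x864 x868 x872 x874 x876 x884 x888 x892 x894
  x900 x904 x908 x914 x916 x918 x922 x926 x928 x930 x938 x942 x950 x952 x956 x960
  x964 x966 x974 x978 x986 x988 x990 x994 x998 x1004 x1006 x1010 x1014 x1018 x1020 x1026
  x1030 x1034 x1036 x1038 x1046 x1050 x1058 x1060 x1064 x1068 x1072 x1074 x1082 x1086 x1094 x1096
  x1098 x1102 x1106 x1108 x1110 x1116 x1120 x1124 x1130 x1132 x1134 x1138 x1142 x1144 x1146 x1154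
  x1158 x1162 x1164 x1170 x1174 x1178 x1184 x1186 x1190 x1194 x1202 x1204 x1206 x1210 x1214 x1216
  x1218 x1224 x1228 x1232 x1238 x1240 x1242 x1246 x1250 x1252 x1254 x1262 x1266 x1274 x1276 x1280
  x1284 x1288 x1290 x1296 x1300 x1304 x1306 x1308 x1316 x1320 x1324 x1326 x1332 x1336 x1340 x1346
  x1348 x1352 x1356 x1364 x1366 x1368 x1372 x1376 x1382 x1384 x1388 x1392 x1396 x1398 x1406 x1410
  x1418 x1420 x1422 x1426 x1430 x1432 x1434 x1440 x1444 x1448 x1454 x1456 x1458 x1462 x1466 x1468
  x1470 x1478 x1482 x1486 x1488 x1494 x1498 x1502 x1508 x1510 x1514 x1518 x1526 x1528 x1530 x1534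
  x1538 x1540 x1542 x1548 x1552 x1556 x1562 x1564 x1566 x1570 x1574 x1576 x1578 x1586 x1590 x1598
  x1600 x1604 x1608 x1612 x1614 x1622 x1626 x1634 x1636 x1638 x1642 x1646 x1652 x1654 x1658 x1662
  x1666 x1668 x1674 x1678 x1682 x1684 x1686 x1694 x1698 x1702 x1704 x1710 x1714 x1718 x1724 x1726
  x1728 x1732 x1736 x1738 x1740 x1748 x1752 x1760 x1762 x1766 x1770 x1774 x1776 x1782 x1786 x1790
  x1792 x1794 x1802 x1806 x1810 x1812 x1818 x1822 x1826 x1832 x1834 x1838 x1842 x1850 x1852 x1854
  x1858 x1862 x1868 x1870 x1874 x1878 x1882 x1884 x1892 x1896 x1904 x1906 x1908 x1912 x1916 x1918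
  x1920 x1926 x1930 x1934 x1940 x1942 x1946 x1950 x1958 x1960 x1962 x1966 x1970 x1976 x1978 x1982
  x1986 x1990 x1992 x1998 x2002 x2006 x2008 x2010 x2018 x2022 x2030 x2032 x2036 x2040 x2044 x2046
  x2054 x2058 x2066 x2068 x2070 x2074 x2078 x2080 x2082 x2088 x2092 x2096 x2102 x2104 x2106 x2110
  x2114 x2116 x2118 x2126 x2130 x2134 x2136 x2142 x2146 x2150 x2156 x2158 x2162 x2166 x2174 x2176
  x2178 x2182 x2186 x2192 x2194 x2198 x2202 x2206 x2208 x2216 x2220 x2228 x2230 x2232 x2236 x2240
  x2242 x2244 x2250 x2254 x2258 x2264 x2266 x2270 x2274 x2282 x2284 x2286 x2290 x2294 x2300 x2302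
  x2306 x2310 x2314 x2316 x2322 x2326 x2330 x2332 x2334 x2342 x2346 x2350 x2352 x2358 x2362 x2366
  x2372 x2374 x2376 x2380 x2384 x2386 x2388 x2396 x2400 x2408 x2410 x2414 x2418 x2422 x2424 x2432
  x2436 x2444 x2446 x2448 x2452 x2456 x2462 x2464 x2468 x2472 x2476 x2478 x2484 x2488 x2492 x2494
  x2496 x2504 x2508 x2516 x2518 x2522 x2526 x2530 x2532 x2540 x2544 x2552 x2554 x2556 x2560 x2564
  x2566 x2568 x2574 x2578 x2582 x2588 x2590 x2592 x2596 x2600 x2602 x2604 x2612 x2616 x2620 x2622
  x2628 x2632 x2636 x2642 x2644 x2648 x2652 x2660 x2662 x2664 x2668 x2672 x2674 x2676 x2682 x2686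
  x2690 x2696 x2698 x2700 x2704 x2708 x2710 x2712 x2720 x2724 x2732 x2734 x2738 x2742 x2746 x2748
  x2754 x2758 x2762 x2764 x2766 x2774 x2778 x2782 x2784 x2790 x2794 x2798 x2804 x2806 x2810 x2814
  x2822 x2824 x2826 x2830 x2834 x2840 x2842 x2846 x2850 x2854 x2856 x2864 x2868 x2876 x2878 x2880
  x2884 x2888 x2890 x2892 x2898 x2902 x2906 x2912 x2914 x2918 x2922 x2930 x2932 x2934 x2938 x2942
  x2948 x2950 x2954 x2958 x2962 x2964 x2970 x2974 x2978 x2980 x2982 x2990 x2994 x3002 x3004 x3008
  x3012 x3016 x3018 x3026 x3030 x3038 x3040 x3042 x3046 x3050 x3052 x3054 x3060 x3064 x3068 x3074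
  x3076 x3078 x3082 x3086 x3088 x3090 x3098 x3102 x3106 x3108 x3114 x3118 x3122 x3128 x3130 x3134
  x3138 x3146 x3148 x3150 x3154 x3158 x3164 x3166 x3170 x3174 x3178 x3180 x3188 x3192 x3200 x3202
  x3204 x3208 x3212 x3214 x3216 x3222 x3226 x3230 x3236 x3238 x3242 x3246 x3254 x3256 x3258 x3262
  x3266 x3272 x3274 x3278 x3282 x3286 x3288 x3294 x3298 x3302 x3304 x3306 x3314 x3318 x3322 x3324
  x3330 x3334 x3338 x3344 x3346 x3348 x3352 x3356 x3358 x3360 x3368 x3372 x3380 x3382 x3386 x3390
  x3394 x3396 x3402 x3406 x3410 x3412 x3414 x3422 x3426 x3430 x3432 x3438 x3442 x3446 x3452 x3454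
  x3458 x3462 x3470 x3472 x3474 x3478 x3482 x3484 x3486 x3492 x3496 x3500 x3506 x3508 x3510 x3514
  x3518 x3520 x3522 x3530 x3534 x3542 x3544 x3548 x3552 x3556 x3558 x3566 x3570 x3578 x3580 x3582
  x3586 x3590 x3596 x3598 x3602 x3606 x3610 x3612 x3618 x3622 x3626 x3628 x3630 x3638 x3642 x3646
  x3648 x3654 x3658 x3662 x3668 x3670 x3672 x3676 x3680 x3682 x3684 x3692 x3696 x3704 x3706 x3710
  x3714 x3718 x3720 x3726 x3730 x3734 x3736 x3738 x3746 x3750 x3754 x3756 x3762 x3766 x3770 x3776
  x3778 x3782 x3786 x3794 x3796 x3798 x3802 x3806 x3812 x3814 x3818 x3822 x3826 x3828 x3836 x3840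
  x3848 x3850 x3852 x3856 x3860 x3862 x3864 x3870 x3874 x3878 x3884 x3886 x3888 x3892 x3896 x3898
  x3900 x3908 x3912 x3916 x3918 x3924 x3928 x3932 x3938 x3940 x3944 x3948 x3956 x3958 x3960 x3964
  x3968 x3970 x3972 x3978 x3982 x3986 x3992 x3994 x3996 x4000 x4004 x4006 x4008 x4016 x4020 x4028
  x4030 x4034 x4038 x4042 x4044 x4052 x4056 x4064 x4066 x4068 x4072 x4076 x4082 x4084 x4088 x4092
  x4096 x4098 x4104 x4108 x4112 x4114 x4116 x4124 x4128 x4136 x4138 x4142 x4146 x4150 x4152 x4160
  x4164 x4172 x4174 x4176 x4180 x4184 x4186 x4188 x4194 x4198 x4202 x4208 x4210 x4214 x4218 x4226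
  x4228 x4230 x4234 x4238 x4244 x4246 x4250 x4254 x4258 x4260 x4266 x4270 x4274 x4276 x4278 x4286
  x4290 x4294 x4296 x4302 x4306 x4310 x4316 x4318 x4320 x4324 x4328 x4330 x4332 x4340 x4344 x4352
  x4354 x4358 x4362 x4366 x4368 x4374 x4378 x4382 x4384 x4386 x4394 x4398 x4402 x4404 x4410 x4414
  x4418 x4424 x4426 x4430 x4434 x4442 x4444 x4446 x4450 x4454 x4456 x4458 x4464 x4468 x4472 x4478
  x4480 x4482 x4486 x4490 x4492 x4494 x4502 x4506 x4514 x4516 x4520 x4524 x4528 x4530 x4538 x4542
  x4550 x4552 x4554 x4558 x4562 x4568 x4570 x4574 x4578 x4582 x4584 x4590 x4594 x4598 x4600 x4602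
  x4610 x4614 x4618 x4620 x4626 x4630 x4634 x4640 x4642 x4644 x4648 x4652 x4654 x4656 x4664 x4668
  x4676 x4678 x4682 x4686 x4690 x4692 x4698 x4702 x4706 x4708 x4710 x4718 x4722 x4726 x4728 x4734
  x4738 x4742 x4748 x4750 x4754 x4758 x4766 x4768 x4770 x4774 x4778 x4784 x4786 x4790 x4794 x4798
  x4800 x4808 x4812 x4820 x4822 x4824 x4828 x4832 x4834 x4836 x4842 x4846 x4850 x4856 x4858 x4862
  x4866 x4874 x4876 x4878 x4882 x4886 x4892 x4894 x4898 x4902 x4906 x4908 x4914 x4918 x4922 x4924
  x4926 x4934 x4938 x4946 x4948 x4952 x4956 x4960 x4962 x4970 x4974 x4982 x4984 x4986 x4990 x4994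
  x4996 x4998 x5004 x5008 x5012 x5018 x5020 x5022 x5026 x5030 x5032 x5034 x5042 x5046 x5050 x5052
  x5058 x5062 x5066 x5072 x5074 x5078 x5082 x5090 x5092 x5094 x5098 x5102 x5104 x5106 x5112 x5116
  x5120 x5126 x5128 x5130 x5134 x5138 x5140 x5142 x5150 x5154 x5162 x5164 x5168 x5172 x5176 x5178
  x5184 x5188 x5192 x5194 x5196 x5204 x5208 x5212 x5214 x5220 x5224 x5228 x5234 x5236 x5240 x5244
  x5252 x5254 x5256 x5260 x5264 x5270 x5272 x5276 x5280 x5284 x5286 x5294 x5298 x5306 x5308 x5310
  x5314 x5318 x5320 x5322 x5328 x5332 x5336 x5342 x5344 x5346 x5350 x5354 x5356 x5358 x5366 x5370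
  x5374 x5376 x5382 x5386 x5390 x5396 x5398 x5402 x5406 x5414 x5416 x5418 x5422 x5426 x5428 x5430
  x5436 x5440 x5444 x5450 x5452 x5454 x5458 x5462 x5464 x5466 x5474 x5478 x5486 x5488 x5492 x5496
  x5500 x5502 x5510 x5514 x5522 x5524 x5526 x5530 x5534 x5540 x5542 x5546 x5550 x5554 x5556 x5562
  x5566 x5570 x5572 x5574 x5582 x5586 x5594 x5596 x5600 x5604 x5608 x5610 x5618 x5622 x5630 x5632
  x5634 x5638 x5642 x5644 x5646 x5652 x5656 x5660 x5666 x5668 x5672 x5676 x5684 x5686 x5688 x5692
  x5696 x5702 x5704 x5708 x5712 x5716 x5718 x5724 x5728 x5732 x5734 x5736 x5744 x5748 x5752 x5754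
  x5760 x5764 x5768 x5774 x5776 x5778 x5782 x5786 x5788 x5790 x5798 x5802 x5810 x5812 x5816 x5820
  x5824 x5826 x5834 x5838 x5846 x5848 x5850 x5854 x5858 x5864 x5866 x5870 x5874 x5878 x5880 x5886
  x5890 x5894 x5896 x5898 x5906 x5910 x5918 x5920 x5924 x5928 x5932 x5934 x5942 x5946 x5954 x5956
  x5958 x5962 x5966 x5968 x5970 x5976 x5980 x5984 x5990 x5992 x5994 x5998 x6002 x6004 x6006 x6014
  x6018 x6022 x6024 x6030 x6034 x6038 x6044 x6046 x6050 x6054 x6062 x6064 x6066 x6070 x6074 x6080
  x6082 x6086 x6090 x6094 x6096 x6104 x6108 x6116 x6118 x6120 x6124 x6128 x6130 x6132 x6138 x6142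
  x6146 x6152 x6154 x6158 x6162 x6170 x6172 x6174 x6178 x6182 x6188 x6190 x6194 x6198 x6202 x6204
  x6210 x6214 x6218 x6220 x6222 x6230 x6234 x6238 x6240 x6246 x6250 x6254 x6260 x6262 x6264 x6268
  x6272 x6274 x6276 x6284 x6288 x6296 x6298 x6302 x6306 x6310 x6312 x6318 x6322 x6326 x6328 x6330
  x6338 x6342 x6346 x6348 x6354 x6358 x6362 x6368 x6370 x6374 x6378 x6386 x6388 x6390 x6394 x6398
  x6400 x6402 x6408 x6412 x6416 x6422 x6424 x6426 x6430 x6434 x6436 x6438 x6446 x6450 x6458 x6460
  x6464 x6468 x6472 x6474 x6482 x6486 x6494 x6496 x6498 x6502 x6506 x6512 x6514 x6518 x6522 x6526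
  x6528 x6534 x6538 x6542 x6544 x6546 x6554 x6558 x6566 x6568 x6572 x6576 x6580 x6582 x6590 x6594
  x6602 x6604 x6606 x6610 x6614 x6616 x6618 x6624 x6628 x6632 x6638 x6640 x6644 x6648 x6656 x6658
  x6660 x6664 x6668 x6674 x6676 x6680 x6684 x6688 x6690 x6696 x6700 x6704 x6706 x6708 x6716 x6720
  x6724 x6726 x6732 x6736 x6740 x6746 x6748 x6750 x6754 x6758 x6760 x6762 x6770 x6774 x6782 x6784
  x6788 x6792 x6796 x6798 x6806 x6810 x6818 x6820 x6822 x6826 x6830 x6836 x6838 x6842 x6846 x6850
  x6852 x6858 x6862 x6866 x6868 x6870 x6878 x6882 x6890 x6892 x6896 x6900 x6904 x6906 x6914 x6918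
  x6926 x6928 x6930 x6934 x6938 x6940 x6942 x6948 x6952 x6956 x6962 x6964 x6966 x6970 x6974 x6976
  x6978 x6986 x6990 x6994 x6996 x7002 x7006 x7010 x7016 x7018 x7022 x7026 x7034 x7036 x7038 x7042
  x7046 x7048 x7050 x7056 x7060 x7064 x7070 x7072 x7074 x7078 x7082 x7084 x7086 x7094 x7098 x7106
  x7108 x7112 x7116 x7120 x7122 x7128 x7132 x7136 x7138 x7140 x7148 x7152 x7156 x7158 x7164 x7168
  x7172 x7178 x7180 x7184 x7188 x7196 x7198 x7200 x7204 x7208 x7214 x7216 x7220 x7224 x7228 x7230
  x7238 x7242 x7250 x7252 x7254 x7258 x7262 x7264 x7266 x7272 x7276 x7280 x7286 x7288 x7292 x7296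
  x7304 x7306 x7308 x7312 x7316 x7322 x7324 x7328 x7332 x7336 x7338 x7344 x7348 x7352 x7354 x7356
  x7364 x7368 x7376 x7378 x7382 x7386 x7390 x7392 x7400 x7404 x7412 x7414 x7416 x7420 x7424 x7426
  x7428 x7434 x7438 x7442 x7448 x7450 x7452 x7456 x7460 x7462 x7464 x7472 x7476 x7480 x7482 x7488
  x7492 x7496 x7502 x7504 x7508 x7512 x7520 x7522 x7524 x7528 x7532 x7538 x7540 x7544 x7548 x7552
  x7554 x7562 x7566 x7574 x7576 x7578 x7582 x7586 x7588 x7590 x7596 x7600 x7604 x7610 x7612 x7616
  x7620 x7628 x7630 x7632 x7636 x7640 x7646 x7648 x7652 x7656 x7660 x7662 x7668 x7672 x7676 x7678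
  x7680 x7688 x7692 x7696 x7698 x7704 x7708 x7712 x7718 x7720 x7722 x7726 x7730 x7732 x7734 x7742
  x7746 x7754 x7756 x7760 x7764 x7768 x7770 x7776 x7780 x7784 x7786 x7788 x7796 x7800 x7804 x7806
  x7812 x7816 x7820 x7826 x7828 x7832 x7836 x7844 x7846 x7848 x7852 x7856 x7858 x7860 x7866 x7870
  x7874 x7880 x7882 x7884 x7888 x7892 x7894 x7896 x7904 x7908 x7916 x7918 x7922 x7926 x7930 x7932
  x7940 x7944 x7952 x7954 x7956 x7960 x7964 x7970 x7972 x7976 x7980 x7984 x7986 x7992 x7996 x8000
  x8002 x8004 x8012 x8016 x8020 x8022 x8028 x8032 x8036 x8042 x8044 x8046 x8050 x8054 x8056 x8058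
  x8066 x8070 x8078 x8080 x8084 x8088 x8092 x8094 x8100 x8104 x8108 x8110 x8112 x8120 x8124 x8128
  x8130 x8136 x8140 x8144 x8150 x8152 x8156 x8160 x8168 x8170 x8172 x8176 x8180 x8186 x8188 x8192
  x8196 x8200 x8202 x8210 x8214 x8222 x8224 x8226 x8230 x8234 x8236 x8238 x8244 x8248 x8252 x8258
  x8260 x8262 x8266 x8270 x8272 x8274 x8282 x8286 x8290 x8292 x8298 x8302 x8306 x8312 x8314 x8318
  x8322 x8330 x8332 x8334 x8338 x8342 x8344 x8346 x8352 x8356 x8360 x8366 x8368 x8370 x8374 x8378
  x8380 x8382 x8390 x8394 x8402 x8404 x8408 x8412 x8416 x8418 x8426 x8430 x8438 x8440 x8442 x8446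
  x8450 x8456 x8458 x8462 x8466 x8470 x8472 x8478 x8482 x8486 x8488 x8490 x8498 x8502 x8510 x8512
  x8516 x8520 x8524 x8526 x8534 x8538 x8546 x8548 x8550 x8554 x8558 x8560 x8562 x8568 x8572 x8576
  x8582 x8584 x8588 x8592 x8600 x8602 x8604 x8608 x8612 x8618 x8620 x8624 x8628 x8632 x8634 x8640
  x8644 x8648 x8650 x8652 x8660 x8664 x8668 x8670 x8676 x8680 x8684 x8690 x8692 x8694 x8698 x8702
  x8704 x8706 x8714 x8718 x8726 x8728 x8732 x8736 x8740 x8742 x8750 x8754 x8762 x8764 x8766 x8770
  x8774 x8780 x8782 x8786 x8790 x8794 x8796 x8802 x8806 x8810 x8812 x8814 x8822 x8826 x8834 x8836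
  x8840 x8844 x8848 x8850 x8858 x8862 x8870 x8872 x8874 x8878 x8882 x8884 x8886 x8892 x8896 x8900
  x8906 x8908 x8910 x8914 x8918 x8920 x8922 x8930 x8934 x8938 x8940 x8946 x8950 x8954 x8960 x8962
  x8966 x8970 x8978 x8980 x8982 x8986 x8990 x8996 x8998 x9002 x9006 x9010 x9012 x9020 x9024 x9032
  x9034 x9036 x9040 x9044 x9046 x9048 x9054 x9058 x9062 x9068 x9070 x9074 x9078 x9086 x9088 x9090
  x9094 x9098 x9104 x9106 x9110 x9114 x9118 x9120 x9126 x9130 x9134 x9136 x9138 x9146 x9150 x9154
  x9156 x9162 x9166 x9170 x9176 x9178 x9180 x9184 x9188 x9190 x9192 x9200 x9204 x9212 x9214 x9218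
  x9222 x9226 x9228 x9234 x9238 x9242 x9244 x9246 x9254 x9258 x9262 x9264 x9270 x9274 x9278 x9284
  x9286 x9290 x9294 x9302 x9304 x9306 x9310 x9314 x9316 x9318 x9324 x9328 x9332 x9338 x9340 x9342
  x9346 x9350 x9352 x9354 x9362 x9366 x9374 x9376 x9380 x9384 x9388 x9390 x9398 x9402 x9410 x9412
  x9414 x9418 x9422 x9428 x9430 x9434 x9438 x9442 x9444 x9450 x9454 x9458 x9460 x9462 x9470 x9474
  x9482 x9484 x9488 x9492 x9496 x9498 x9506 x9510 x9518 x9520 x9522 x9526 x9530 x9532 x9534 x9540
  x9544 x9548 x9554 x9556 x9560 x9564 x9572 x9574 x9576 x9580 x9584 x9590 x9592 x9596 x9600 x9604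
  x9606 x9612 x9616 x9620 x9622 x9624 x9632 x9636 x9640 x9642 x9648 x9652 x9656 x9662 x9664 x9666
  x9670 x9674 x9676 x9678 x9686 x9690 x9698 x9700 x9704 x9708 x9712 x9714 x9722 x9726 x9734 x9736
  x9738 x9742 x9746 x9752 x9754 x9758 x9762 x9766 x9768 x9774 x9778 x9782 x9784 x9786 x9794 x9798
  x9806 x9808 x9812 x9816 x9820 x9822 x9830 x9834 x9842 x9844 x9846 x9850 x9854 x9856 x9858 x9864
  x9868 x9872 x9878 x9880 x9882 x9886 x9890 x9892 x9894 x9902 x9906 x9910 x9912 x9918 x9922 x9926
  x9932 x9934 x9938 x9942 x9950 x9952 x9954 x9958 x9962 x9964 x9966 x9972 x9976 x9980 x9986 x9988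
  x9990 x9994 x9998 x10000 x10002 x10010 x10014 x10022 x10024 x10028 x10032 x10036 x10038 x10044 x10048 x10052
  x10054 x10056 x10064 x10068 x10072 x10074 x10080 x10084 x10088 x10094 x10096 x10100 x10104 x10112 x10114 x10116
  x10120 x10124 x10130 x10132 x10136 x10140 x10144 x10146 x10154 x10158 x10166 x10168 x10170 x10174 x10178 x10180
  x10182 x10188 x10192 x10196 x10202 x10204 x10206 x10210 x10214 x10216 x10218 x10226 x10230 x10234 x10236 x10242
  x10246 x10250 x10256 x10258 x10262 x10266 x10274 x10276 x10278 x10282 x10286 x10288 x10290 x10296 x10300 x10304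
  x10310 x10312 x10314 x10318 x10322 x10324 x10326 x10334 x10338 x10346 x10348 x10352 x10356 x10360 x10362 x10370
  x10374 x10382 x10384 x10386 x10390 x10394 x10400 x10402 x10406 x10410 x10414 x10416 x10422 x10426 x10430 x10432
  x10434 x10442 x10446 x10450 x10452 x10458 x10462 x10466 x10472 x10474 x10476 x10480 x10484 x10486 x10488 x10496
  x10500 x10508 x10510 x10514 x10518 x10522 x10524 x10530 x10534 x10538 x10540 x10542 x10550 x10554 x10558 x10560
  x10566 x10570 x10574 x10580 x10582 x10586 x10590 x10598 x10600 x10602 x10606 x10610 x10616 x10618 x10622 x10626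
  x10630 x10632 x10640 x10644 x10652 x10654 x10656 x10660 x10664 x10666 x10668 x10674 x10678 x10682 x10688 x10690
  x10694 x10698 x10706 x10708 x10710 x10714 x10718 x10724 x10726 x10730 x10734 x10738 x10740 x10746 x10750 x10754
  x10756 x10758 x10766 x10770 x10778 x10780 x10784 x10788 x10792 x10794 x10802 x10806 x10814 x10816 x10818 x10822
  x10826 x10828 x10830 x10836 x10840 x10844 x10850 x10852 x10854 x10858 x10862 x10864 x10866 x10874 x10878 x10882
  x10884 x10890 x10894 x10898 x10904 x10906 x10910 x10914 x10922 x10924 x10926 x10930 x10934 x10936 x10938 x10944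
  x10948 x10952 x10958 x10960 x10962 x10966 x10970 x10972 x10974 x10982 x10986 x10994 x10996 x11000 x11004 x11008
  x11010 x11016 x11020 x11024 x11026 x11028 x11036 x11040 x11044 x11046 x11052 x11056 x11060 x11066 x11068 x11072
  x11076 x11084 x11086 x11088 x11092 x11096 x11102 x11104 x11108 x11112 x11116 x11118 x11126 x11130 x11138 x11140
  x11142 x11146 x11150 x11152 x11154 x11160 x11164 x11168 x11174 x11176 x11178 x11182 x11186 x11188 x11190 x11198
  x11202 x11206 x11208 x11214 x11218 x11222 x11228 x11230 x11234 x11238 x11246 x11248 x11250 x11254 x11258 x11260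
  x11262 x11268 x11272 x11276 x11282 x11284 x11286 x11290 x11294 x11296 x11298 x11306 x11310 x11318 x11320 x11324
  x11328 x11332 x11334 x11342 x11346 x11354 x11356 x11358 x11362 x11366 x11372 x11374 x11378 x11382 x11386 x11388
  x11394 x11398 x11402 x11404 x11406 x11414 x11418 x11426 x11428 x11432 x11436 x11440 x11442 x11450 x11454 x11462
  x11464 x11466 x11470 x11474 x11476 x11478 x11484 x11488 x11492 x11498 x11500 x11504 x11508 x11516 x11518 x11520
  x11524 x11528 x11534 x11536 x11540 x11544 x11548 x11550 x11556 x11560 x11564 x11566 x11568 x11576 x11580 x11584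
  x11586 x11592 x11596 x11600 x11606 x11608 x11610 x11614 x11618 x11620 x11622 x11630 x11634 x11642 x11644 x11648
  x11652 x11656 x11658 x11664 x11668 x11672 x11674 x11676 x11684 x11688 x11692 x11694 x11700 x11704 x11708 x11714
  x11716 x11720 x11724 x11732 x11734 x11736 x11740 x11744 x11746 x11748 x11754 x11758 x11762 x11768 x11770 x11772
  x11776 x11780 x11782 x11784 x11792 x11796 x11804 x11806 x11810 x11814 x11818 x11820 x11828 x11832 x11840 x11842
  x11844 x11848 x11852 x11858 x11860 x11864 x11868 x11872 x11874 x11880 x11884 x11888 x11890 x11892 x11900 x11904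
  x11908 x11910 x11916 x11920 x11924 x11930 x11932 x11934 x11938 x11942 x11944 x11946 x11954 x11958 x11966 x11968
  x11972 x11976 x11980 x11982 x11988 x11992 x11996 x11998 x12000 x12008 x12012 x12016 x12018 x12024 x12028 x12032
  x12038 x12040 x12044 x12048 x12056 x12058 x12060 x12064 x12068 x12074 x12076 x12080 x12084 x12088 x12090 x12098
  x12102 x12110 x12112 x12114 x12118 x12122 x12124 x12126 x12132 x12136 x12140 x12146 x12148 x12152 x12156 x12164
  x12166 x12168 x12172 x12176 x12182 x12184 x12188 x12192 x12196 x12198 x12204 x12208 x12212 x12214 x12216 x12224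
  x12228 x12236 x12238 x12242 x12246 x12250 x12252 x12260 x12264 x12272 x12274 x12276 x12280 x12284 x12286 x12288
  x12294 x12298 x12302 x12308 x12310 x12312 x12316 x12320 x12322 x12324 x12332 x12336 x12340 x12342 x12348 x12352
  x12356 x12362 x12364 x12368 x12372 x12380 x12382 x12384 x12388 x12392 x12398 x12400 x12404 x12408 x12412 x12414
  x12422 x12426 x12434 x12436 x12438 x12442 x12446 x12448 x12450 x12456 x12460 x12464 x12470 x12472 x12476 x12480
  x12488 x12490 x12492 x12496 x12500 x12506 x12508 x12512 x12516 x12520 x12522 x12528 x12532 x12536 x12538 x12540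
  x12548 x12552 x12556 x12558 x12564 x12568 x12572 x12578 x12580 x12582 x12586 x12590 x12592 x12594 x12602 x12606
  x12614 x12616 x12620 x12624 x12628 x12630 x12638 x12642 x12650 x12652 x12654 x12658 x12662 x12668 x12670 x12674
  x12678 x12682 x12684 x12690 x12694 x12698 x12700 x12702 x12710 x12714 x12722 x12724 x12728 x12732 x12736 x12738
  x12746 x12750 x12758 x12760 x12762 x12766 x12770 x12772 x12774 x12780 x12784 x12788 x12794 x12796 x12798 x12802
  x12806 x12808 x12810 x12818 x12822 x12826 x12828 x12834 x12838 x12842 x12848 x12850 x12854 x12858 x12866 x12868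
  x12870 x12874 x12878 x12880 x12882 x12888 x12892 x12896 x12902 x12904 x12906 x12910 x12914 x12916 x12918 x12926
  x12930 x12938 x12940 x12944 x12948 x12952 x12954 x12960 x12964 x12968 x12970 x12972 x12980 x12984 x12988 x12990
  x12996 x13000 x13004 x13010 x13012 x13016 x13020 x13028 x13030 x13032 x13036 x13040 x13046 x13048 x13052 x13056
  x13060 x13062 x13070 x13074 x13082 x13084 x13086 x13090 x13094 x13096 x13098 x13104 x13108 x13112 x13118 x13120
  x13122 x13126 x13130 x13132 x13134 x13142 x13146 x13150 x13152 x13158 x13162 x13166 x13172 x13174 x13178 x13182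
  x13190 x13192 x13194 x13198 x13202 x13204 x13206 x13212 x13216 x13220 x13226 x13228 x13230 x13234 x13238 x13240
  x13242 x13250 x13254 x13262 x13264 x13268 x13272 x13276 x13278 x13286 x13290 x13298 x13300 x13302 x13306 x13310
  x13316 x13318 x13322 x13326 x13330 x13332 x13338 x13342 x13346 x13348 x13350 x13358 x13362 x13366 x13368 x13374
  x13378 x13382 x13388 x13390 x13392 x13396 x13400 x13402 x13404 x13412 x13416 x13424 x13426 x13430 x13434 x13438
  x13440 x13446 x13450 x13454 x13456 x13458 x13466 x13470 x13474 x13476 x13482 x13486 x13490 x13496 x13498 x13502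
  x13506 x13514 x13516 x13518 x13522 x13526 x13532 x13534 x13538 x13542 x13546 x13548 x13556 x13560 x13568 x13570
  x13572 x13576 x13580 x13582 x13584 x13590 x13594 x13598 x13604 x13606 x13610 x13614 x13622 x13624 x13626 x13630
  x13634 x13640 x13642 x13646 x13650 x13654 x13656 x13662 x13666 x13670 x13672 x13674 x13682 x13686 x13694 x13696
  x13700 x13704 x13708 x13710 x13718 x13722 x13730 x13732 x13734 x13738 x13742 x13744 x13746 x13752 x13756 x13760
  x13766 x13768 x13770 x13774 x13778 x13780 x13782 x13790 x13794 x13798 x13800 x13806 x13810 x13814 x13820 x13822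
  x13826 x13830 x13838 x13840 x13842 x13846 x13850 x13852 x13854 x13860 x13864 x13868 x13874 x13876 x13878 x13882
  x13886 x13888 x13890 x13898 x13902 x13910 x13912 x13916 x13920 x13924 x13926 x13932 x13936 x13940 x13942 x13944
  x13952 x13956 x13960 x13962 x13968 x13972 x13976 x13982 x13984 x13988 x13992 x14000 x14002 x14004 x14008 x14012
  x14018 x14020 x14024 x14028 x14032 x14034 x14042 x14046 x14054 x14056 x14058 x14062 x14066 x14068 x14070 x14076
  x14080 x14084 x14090 x14092 x14094 x14098 x14102 x14104 x14106 x14114 x14118 x14122 x14124 x14130 x14134 x14138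
  x14144 x14146 x14150 x14154 x14162 x14164 x14166 x14170 x14174 x14176 x14178 x14184 x14188 x14192 x14198 x14200
  x14202 x14206 x14210 x14212 x14214 x14222 x14226 x14234 x14236 x14240 x14244 x14248 x14250 x14258 x14262 x14270
  x14272 x14274 x14278 x14282 x14288 x14290 x14294 x14298 x14302 x14304 x14310 x14314 x14318 x14320 x14322 x14330
  x14334 x14342 x14344 x14348 x14352 x14356 x14358 x14366 x14370 x14378 x14380 x14382 x14386 x14390 x14392 x14394
  x14400 x14404 x14408 x14414 x14416 x14420 x14424 x14432 x14434 x14436 x14440 x14444 x14450 x14452 x14456 x14460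
  x14464 x14466 x14472 x14476 x14480 x14482 x14484 x14492 x14496 x14500 x14502 x14508 x14512 x14516 x14522 x14524
  x14526 x14530 x14534 x14536 x14538 x14546 x14550 x14558 x14560 x14564 x14568 x14572 x14574 x14582 x14586 x14594
  x14596 x14598 x14602 x14606 x14612 x14614 x14618 x14622 x14626 x14628 x14634 x14638 x14642 x14644 x14646 x14654
  x14658 x14666 x14668 x14672 x14676 x14680 x14682 x14690 x14694 x14702 x14704 x14706 x14710 x14714 x14716 x14718
  x14724 x14728 x14732 x14738 x14740 x14742 x14746 x14750 x14752 x14754 x14762 x14766 x14770 x14772 x14778 x14782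
  x14786 x14792 x14794 x14798 x14802 x14810 x14812 x14814 x14818 x14822 x14828 x14830 x14834 x14838 x14842 x14844
  x14852 x14856 x14864 x14866 x14868 x14872 x14876 x14878 x14880 x14886 x14890 x14894 x14900 x14902 x14906 x14910
  x14918 x14920 x14922 x14926 x14930 x14936 x14938 x14942 x14946 x14950 x14952 x14958 x14962 x14966 x14968 x14970
  x14978 x14982 x14986 x14988 x14994 x14998 x15002 x15008 x15010 x15012 x15016 x15020 x15022 x15024 x15032 x15036
  x15044 x15046 x15050 x15054 x15058 x15060 x15066 x15070 x15074 x15076 x15078 x15086 x15090 x15094 x15096 x15102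
  x15106 x15110 x15116 x15118 x15122 x15126 x15134 x15136 x15138 x15142 x15146 x15148 x15150 x15156 x15160 x15164
  x15170 x15172 x15174 x15178 x15182 x15184 x15186 x15194 x15198 x15206 x15208 x15212 x15216 x15220 x15222 x15230
  x15234 x15242 x15244 x15246 x15250 x15254 x15260 x15262 x15266 x15270 x15274 x15276 x15282 x15286 x15290 x15292
  x15294 x15302 x15306 x15310 x15312 x15318 x15322 x15326 x15332 x15334 x15336 x15340 x15344 x15346 x15348 x15356
  x15360 x15368 x15370 x15374 x15378 x15382 x15384 x15390 x15394 x15398 x15400 x15402 x15410 x15414 x15418 x15420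
  x15426 x15430 x15434 x15440 x15442 x15446 x15450 x15458 x15460 x15462 x15466 x15470 x15476 x15478 x15482 x15486
  x15490 x15492 x15500 x15504 x15512 x15514 x15516 x15520 x15524 x15526 x15528 x15534 x15538 x15542 x15548 x15550
  x15552 x15556 x15560 x15562 x15564 x15572 x15576 x15580 x15582 x15588 x15592 x15596 x15602 x15604 x15608 x15612
  x15620 x15622 x15624 x15628 x15632 x15634 x15636 x15642 x15646 x15650 x15656 x15658 x15660 x15664 x15668 x15670
  x15672 x15680 x15684 x15692 x15694 x15698 x15702 x15706 x15708 x15716 x15720 x15728 x15730 x15732 x15736 x15740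
  x15746 x15748 x15752 x15756 x15760 x15762 x15768 x15772 x15776 x15778 x15780 x15788 x15792 x15800 x15802 x15806
  x15810 x15814 x15816 x15824 x15828 x15836 x15838 x15840 x15844 x15848 x15850 x15852 x15858 x15862 x15866 x15872
  x15874 x15878 x15882 x15890 x15892 x15894 x15898 x15902 x15908 x15910 x15914 x15918 x15922 x15924 x15930 x15934
  x15938 x15940 x15942 x15950 x15954 x15958 x15960 x15966 x15970 x15974 x15980 x15982 x15984 x15988 x15992 x15994
  x15996 x16004 x16008 x16016 x16018 x16022 x16026 x16030 x16032 x16038 x16042 x16046 x16048 x16050 x16058 x16062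
  x16066 x16068 x16074 x16078 x16082 x16088 x16090 x16094 x16098 x16106 x16108 x16110 x16114 x16118 x16120 x16122
  x16128 x16132 x16136 x16142 x16144 x16146 x16150 x16154 x16156 x16158 x16166 x16170 x16178 x16180 x16184 x16188
  x16192 x16194 x16202 x16206 x16214 x16216 x16218 x16222 x16226 x16232 x16234 x16238 x16242 x16246 x16248 x16254
  x16258 x16262 x16264 x16266 x16274 x16278 x16282 x16284 x16290 x16294 x16298 x16304 x16306 x16308 x16312 x16316
  x16318 x16320 x16328 x16332 x16340 x16342 x16346 x16350 x16354 x16356 x16362 x16366 x16370 x16372 x16374 x16382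
  x16386 x16390 x16392 x16398 x16402 x16406 x16412 x16414 x16418 x16422 x16430 x16432 x16434 x16438 x16442 x16448
  x16450 x16454 x16458 x16462 x16464 x16472 x16476 x16484 x16486 x16488 x16492 x16496 x16498 x16500 x16506 x16510
  x16514 x16520 x16522 x16526 x16530 x16538 x16540 x16542 x16546 x16550 x16556 x16558 x16562 x16566 x16570 x16572
  x16578 x16582 x16586 x16588 x16590 x16598 x16602 x16610 x16612 x16616 x16620 x16624 x16626 x16634 x16638 x16646
  x16648 x16650 x16654 x16658 x16660 x16662 x16668 x16672 x16676 x16682 x16684 x16686 x16690 x16694 x16696 x16698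
  x16706 x16710 x16714 x16716 x16722 x16726 x16730 x16736 x16738 x16742 x16746 x16754 x16756 x16758 x16762 x16766
  x16772 x16774 x16778 x16782 x16786 x16788 x16796 x16800 x16808 x16810 x16812 x16816 x16820 x16822 x16824 x16830
  x16834 x16838 x16844 x16846 x16850 x16854 x16862 x16864 x16866 x16870 x16874 x16880 x16882 x16886 x16890 x16894
  x16896 x16902 x16906 x16910 x16912 x16914 x16922 x16926 x16930 x16932 x16938 x16942 x16946 x16952 x16954 x16956
  x16960 x16964 x16966 x16968 x16976 x16980 x16988 x16990 x16994 x16998 x17002 x17004 x17012 x17016 x17024 x17026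
  x17028 x17032 x17036 x17042 x17044 x17048 x17052 x17056 x17058 x17064 x17068 x17072 x17074 x17076 x17084 x17088
  x17096 x17098 x17102 x17106 x17110 x17112 x17120 x17124 x17132 x17134 x17136 x17140 x17144 x17146 x17148 x17154
  x17158 x17162 x17168 x17170 x17172 x17176 x17180 x17182 x17184 x17192 x17196 x17200 x17202 x17208 x17212 x17216
  x17222 x17224 x17228 x17232 x17240 x17242 x17244 x17248 x17252 x17254 x17256 x17262 x17266 x17270 x17276 x17278
  x17280 x17284 x17288 x17290 x17292 x17300 x17304 x17312 x17314 x17318 x17322 x17326 x17328 x17334 x17338 x17342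
  x17344 x17346 x17354 x17358 x17362 x17364 x17370 x17374 x17378 x17384 x17386 x17390 x17394 x17402 x17404 x17406
  x17410 x17414 x17420 x17422 x17426 x17430 x17434 x17436 x17444 x17448 x17456 x17458 x17460 x17464 x17468 x17470
  x17472 x17478 x17482 x17486 x17492 x17494 x17498 x17502 x17510 x17512 x17514 x17518 x17522 x17528 x17530 x17534
  x17538 x17542 x17544 x17550 x17554 x17558 x17560 x17562 x17570 x17574 x17582 x17584 x17588 x17592 x17596 x17598
  x17606 x17610 x17618 x17620 x17622 x17626 x17630 x17632 x17634 x17640 x17644 x17648 x17654 x17656 x17658 x17662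
  x17666 x17668 x17670 x17678 x17682 x17686 x17688 x17694 x17698 x17702 x17708 x17710 x17714 x17718 x17726 x17728
  x17730 x17734 x17738 x17744 x17746 x17750 x17754 x17758 x17760 x17768 x17772 x17780 x17782 x17784 x17788 x17792
  x17794 x17796 x17802 x17806 x17810 x17816 x17818 x17822 x17826 x17834 x17836 x17838 x17842 x17846 x17852 x17854
  x17858 x17862 x17866 x17868 x17874 x17878 x17882 x17884 x17886 x17894 x17898 x17902 x17904 x17910 x17914 x17918
  x17924 x17926 x17928 x17932 x17936 x17938 x17940 x17948 x17952 x17960 x17962 x17966 x17970 x17974 x17976 x17982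
  x17986 x17990 x17992 x17994 x18002 x18006 x18010 x18012 x18018 x18022 x18026 x18032 x18034 x18038 x18042 x18050
  x18052 x18054 x18058 x18062 x18064 x18066 x18072 x18076 x18080 x18086 x18088 x18090 x18094 x18098 x18100 x18102
  x18110 x18114 x18122 x18124 x18128 x18132 x18136 x18138 x18146 x18150 x18158 x18160 x18162 x18166 x18170 x18176
  x18178 x18182 x18186 x18190 x18192 x18198 x18202 x18206 x18208 x18210 x18218 x18222 x18230 x18232 x18236 x18240
  x18244 x18246 x18254 x18258 x18266 x18268 x18270 x18274 x18278 x18280 x18282 x18288 x18292 x18296 x18302 x18304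
  x18308 x18312 x18320 x18322 x18324 x18328 x18332 x18338 x18340 x18344 x18348 x18352 x18354 x18360 x18364 x18368
  x18370 x18372 x18380 x18384 x18388 x18390 x18396 x18400 x18404 x18410 x18412 x18414 x18418 x18422 x18424 x18426
  x18434 x18438 x18446 x18448 x18452 x18456 x18460 x18462 x18470 x18474 x18482 x18484 x18486 x18490 x18494 x18500
  x18502 x18506 x18510 x18514 x18516 x18522 x18526 x18530 x18532 x18534 x18542 x18546 x18554 x18556 x18560 x18564
  x18568 x18570 x18578 x18582 x18590 x18592 x18594 x18598 x18602 x18604 x18606 x18612 x18616 x18620 x18626 x18628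
  x18630 x18634 x18638 x18640 x18642 x18650 x18654 x18658 x18660 x18666 x18670 x18674 x18680 x18682 x18686 x18690
  x18698 x18700 x18702 x18706 x18710 x18712 x18714 x18720 x18724 x18728 x18734 x18736 x18738 x18742 x18746 x18748
  x18750 x18758 x18762 x18770 x18772 x18776 x18780 x18784 x18786 x18792 x18796 x18800 x18802 x18804 x18812 x18816
  x18820 x18822 x18828 x18832 x18836 x18842 x18844 x18848 x18852 x18860 x18862 x18864 x18868 x18872 x18878 x18880
  x18884 x18888 x18892 x18894 x18902 x18906 x18914 x18916 x18918 x18922 x18926 x18928 x18930 x18936 x18940 x18944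
  x18950 x18952 x18954 x18958 x18962 x18964 x18966 x18974 x18978 x18982 x18984 x18990 x18994 x18998 x19004 x19006
  x19010 x19014 x19022 x19024 x19026 x19030 x19034 x19036 x19038 x19044 x19048 x19052 x19058 x19060 x19062 x19066
  x19070 x19072 x19074 x19082 x19086 x19094 x19096 x19100 x19104 x19108 x19110 x19118 x19122 x19130 x19132 x19134
  x19138 x19142 x19148 x19150 x19154 x19158 x19162 x19164 x19170 x19174 x19178 x19180 x19182 x19190 x19194 x19198
  x19200 x19206 x19210 x19214 x19220 x19222 x19224 x19228 x19232 x19234 x19236 x19244 x19248 x19256 x19258 x19262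
  x19266 x19270 x19272 x19278 x19282 x19286 x19288 x19290 x19298 x19302 x19306 x19308 x19314 x19318 x19322 x19328
  x19330 x19334 x19338 x19346 x19348 x19350 x19354 x19358 x19364 x19366 x19370 x19374 x19378 x19380 x19388 x19392
  x19400 x19402 x19404 x19408 x19412 x19414 x19416 x19422 x19426 x19430 x19436 x19438 x19442 x19446 x19454 x19456
  x19458 x19462 x19466 x19472 x19474 x19478 x19482 x19486 x19488 x19494 x19498 x19502 x19504 x19506 x19514 x19518
  x19526 x19528 x19532 x19536 x19540 x19542 x19550 x19554 x19562 x19564 x19566 x19570 x19574 x19576 x19578 x19584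
  x19588 x19592 x19598 x19600 x19602 x19606 x19610 x19612 x19614 x19622 x19626 x19630 x19632 x19638 x19642 x19646
  x19652 x19654 x19658 x19662 x19670 x19672 x19674 x19678 x19682 =>
  Bool.rec false (k
  (sub (add (add (add (add (add (add (add (add (add (add (add (add (add (add (sub C x6) x14) x26) x38) x74) x110) x218) x326) x650) x974) x1946) x2918) x5834) x8750) x17498) x13122)
  (add (add (add (add (add (add (add (add (add (add (add (add (add (add (sub (sub C x2) x18) x42) x78) x114) x222) x330) x654) x978) x1950) x2922) x5838) x8754) x17502) x6568) x13130)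
  (sub (add (add (add (add (add (add (add (add (add (add (sub (add (add (sub C x16) x2) x26) x32) x122) x230) x338) x662) x986) x1958) x2930) x5846) x8762) x17510) x13134)
  (sub (add (add (add (add (add (add (add (add (add (add (sub (sub (sub C x14) x22) x34) x124) x232) x340) x664) x988) x1960) x2932) x5848) x8764) x17512) x6576)
  (add (add (add (add (add (add (add (add (add (add (add (add (sub (sub (add (add C x22) x26) x6) x54) x126) x234) x342) x666) x990) x1962) x2934) x5850) x8766) x17514) x6580) x13142)
  (sub (add (add (add (add (add (add (add (add (add (add (sub (sub (add (add C x18) x26) x16) x58) x130) x238) x346) x670) x994) x1966) x2938) x5854) x8770) x17518) x6582)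
  (sub (add (add (add (add (add (add (add (add (add (add (sub (add (add (add (add C x18) x22) x2) x14) x62) x134) x242) x350) x674) x998) x1970) x2942) x5858) x8774) x17522) x13146)
  (sub (add (add (add (add (add (add (add (add (sub (sub (sub (sub C x34) x38) x14) x86) x356) x680) x1004) x1976) x2948) x5864) x8780) x17528) x13152)
  (sub (add (add (add (add (add (add (add (add (sub (sub (sub (sub C x32) x46) x16) x88) x358) x682) x1006) x1978) x2950) x5866) x8782) x17530) x6594)
  (sub (add (add (add (add (add (add (add (add (sub (add (add (sub (sub C x42) x32) x2) x74) x92) x362) x686) x1010) x1982) x2954) x5870) x8786) x17534) x13158)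
  (add (add (add (add (add (add (add (add (add (add (sub (add (add (sub (sub C x38) x48) x6) x78) x96) x366) x690) x1014) x1986) x2958) x5874) x8790) x17538) x6604) x13166)
  (sub (add (add (add (add (add (add (add (add (sub (sub (sub (sub C x48) x34) x64) x100) x370) x694) x1018) x1990) x2962) x5878) x8794) x17542) x6606)
  (add (add (add (add (add (add (add (add (add (add (sub (sub (sub (sub C x46) x42) x66) x102) x372) x696) x1020) x1992) x2964) x5880) x8796) x17544) x6610) x13172)
  (add (add (add (add (add (add (add (add (add (add (sub (sub (add (add (add (add C x58) x62) x66) x78) x18) x162) x378) x702) x1026) x1998) x2970) x5886) x8802) x17550) x6616) x13178)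
  (sub (add (add (add (add (add (add (add (add (sub (sub (sub (add (add C x54) x62) x64) x22) x166) x382) x706) x1030) x2002) x2974) x5890) x8806) x17554) x6618)
  (sub (add (add (add (add (add (add (add (add (sub (sub (sub (add (add C x54) x58) x74) x26) x170) x386) x710) x1034) x2006) x2978) x5894) x8810) x17558) x13182)
  (sub (add (add (add (add (add (add (add (add (sub (sub (sub (sub C x66) x58) x46) x172) x388) x712) x1036) x2008) x2980) x5896) x8812) x17560) x6624)
  (add (add (add (add (add (add (add (add (add (add (sub (sub (add (add (sub C x64) x54) x78) x48) x174) x390) x714) x1038) x2010) x2982) x5898) x8814) x17562) x6628) x13190)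
  (sub (add (add (add (add (add (add (add (add (sub (add (add (sub (sub C x78) x62) x2) x38) x182) x398) x722) x1046) x2018) x2990) x5906) x8822) x17570) x13194)
  (add (add (add (add (add (add (add (add (add (add (sub (add (add (add (add (sub C x74) x54) x66) x6) x42) x186) x402) x726) x1050) x2022) x2994) x5910) x8826) x17574) x6640) x13202)
  (sub (add (add (add (add (add (add (sub (sub (add (add (sub (sub C x88) x92) x122) x158) x32) x248) x1058) x2030) x3002) x5918) x8834) x17582) x13206)
  (sub (add (add (add (add (add (add (sub (sub (add (add (sub (sub C x86) x100) x124) x160) x34) x250) x1060) x2032) x3004) x5920) x8836) x17584) x6648)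
  (sub (add (add (add (add (add (add (sub (sub (sub (sub (sub C x96) x86) x110) x38) x254) x1064) x2036) x3008) x5924) x8840) x17588) x13212)
  (add (add (add (add (add (add (add (add (sub (sub (sub (sub (sub C x92) x102) x114) x42) x258) x1068) x2040) x3012) x5928) x8844) x17592) x6658) x13220)
  (sub (add (add (add (add (add (add (sub (sub (sub (sub (sub C x102) x88) x136) x46) x262) x1072) x2044) x3016) x5932) x8848) x17596) x6660)
  (add (add (add (add (add (add (add (add (sub (sub (sub (sub (sub C x100) x96) x138) x48) x264) x1074) x2046) x3018) x5934) x8850) x17598) x6664) x13226)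
  (sub (add (add (add (add (add (add (sub (add (add (sub (add (add (sub C x114) x122) x134) x92) x2) x218) x272) x1082) x2054) x3026) x5942) x8858) x17606) x13230)
  (add (add (add (add (add (add (add (add (sub (add (add (sub (sub (sub C x110) x126) x96) x6) x222) x276) x1086) x2058) x3030) x5946) x8862) x17610) x6676) x13238)
  (sub (add (add (add (add (add (add (sub (add (add (add (add (add (add (sub C x124) x110) x134) x86) x158) x14) x230) x284) x1094) x2066) x3038) x5954) x8870) x17618) x13242)
  (sub (add (add (add (add (add (add (sub (add (add (add (add (sub (sub C x122) x130) x88) x160) x16) x232) x286) x1096) x2068) x3040) x5956) x8872) x17620) x6684)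
  (add (add (add (add (add (add (add (add (sub (add (add (sub (sub (add (add C x130) x134) x114) x144) x18) x234) x288) x1098) x2070) x3042) x5958) x8874) x17622) x6688) x13250)
  (sub (add (add (add (add (add (add (sub (add (add (sub (sub (add (add C x126) x134) x124) x148) x22) x238) x292) x1102) x2074) x3046) x5962) x8878) x17626) x6690)
  (sub (add (add (add (add (add (add (sub (add (add (sub (add (add (add (add C x126) x130) x110) x122) x152) x26) x242) x296) x1106) x2078) x3050) x5966) x8882) x17630) x13254)
  (sub (add (add (add (add (add (add (sub (sub (sub (add (add (sub C x138) x148) x160) x100) x190) x298) x1108) x2080) x3052) x5968) x8884) x17632) x6696)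
  (add (add (add (add (add (add (add (add (sub (sub (sub (sub (sub C x136) x144) x102) x192) x300) x1110) x2082) x3054) x5970) x8886) x17634) x6700) x13262)
  (add (add (add (add (add (add (add (add (sub (sub (sub (sub (add (add C x148) x152) x138) x126) x198) x306) x1116) x2088) x3060) x5976) x8892) x17640) x6706) x13268)
  (sub (add (add (add (add (add (add (sub (sub (sub (add (add (add (add C x144) x152) x136) x160) x130) x202) x310) x1120) x2092) x3064) x5980) x8896) x17644) x6708)
  (sub (add (add (add (add (add (add (sub (sub (sub (sub (add (add C x144) x148) x158) x134) x206) x314) x1124) x2096) x3068) x5984) x8900) x17648) x13272)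
  (sub (add (add (add (add (add (add (sub (sub (add (add (sub (sub C x160) x152) x86) x122) x212) x320) x1130) x2102) x3074) x5990) x8906) x17654) x13278)
  (sub (add (add (add (add (add (add (sub (sub (add (add (add (add (sub C x158) x136) x148) x88) x124) x214) x322) x1132) x2104) x3076) x5992) x8908) x17656) x6720)
  (add (add (add (add (add (add (add (add (sub (sub (add (add (add (add (add (add C x166) x170) x174) x186) x198) x234) x54) x486) x1134) x2106) x3078) x5994) x8910) x17658) x6724) x13286)
  (sub (add (add (add (add (add (add (sub (sub (add (add (sub (add (add C x162) x170) x172) x202) x238) x58) x490) x1138) x2110) x3082) x5998) x8914) x17662) x6726)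
  (sub (add (add (add (add (add (add (sub (sub (add (add (sub (add (add C x162) x166) x182) x206) x242) x62) x494) x1142) x2114) x3086) x6002) x8918) x17666) x13290)
  (sub (add (add (add (add (add (add (sub (sub (sub (sub (sub C x174) x166) x190) x64) x496) x1144) x2116) x3088) x6004) x8920) x17668) x6732)
  (add (add (add (add (add (add (add (add (sub (sub (sub (add (add (sub C x172) x162) x186) x192) x66) x498) x1146) x2118) x3090) x6006) x8922) x17670) x6736) x13298)
  (sub (add (add (add (add (add (add (sub (sub (sub (sub (sub C x186) x170) x218) x74) x506) x1154) x2126) x3098) x6014) x8930) x17678) x13302)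
  (add (add (add (add (add (add (add (add (sub (sub (sub (add (add (sub C x182) x162) x174) x222) x78) x510) x1158) x2130) x3102) x6018) x8934) x17682) x6748) x13310)
  (sub (add (add (add (add (add (add (sub (sub (sub (add (add (sub C x192) x202) x214) x172) x136) x514) x1162) x2134) x3106) x6022) x8938) x17686) x6750)
  (add (add (add (add (add (add (add (add (sub (sub (sub (sub (sub C x190) x198) x174) x138) x516) x1164) x2136) x3108) x6024) x8940) x17688) x6754) x13316)
  (add (add (add (add (add (add (add (add (sub (sub (add (add (sub (add (add C x202) x206) x192) x162) x234) x144) x522) x1170) x2142) x3114) x6030) x8946) x17694) x6760) x13322)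
  (sub (add (add (add (add (add (add (sub (sub (add (add (add (add (add (add C x198) x206) x190) x214) x166) x238) x148) x526) x1174) x2146) x3118) x6034) x8950) x17698) x6762)
  (sub (add (add (add (add (add (add (sub (sub (add (add (sub (add (add C x198) x202) x212) x170) x242) x152) x530) x1178) x2150) x3122) x6038) x8954) x17702) x13326)
  (sub (add (add (add (add (add (add (sub (sub (sub (sub (sub C x214) x206) x230) x158) x536) x1184) x2156) x3128) x6044) x8960) x17708) x13332)
  (sub (add (add (add (add (add (add (sub (sub (sub (add (add (sub C x212) x190) x202) x232) x160) x538) x1186) x2158) x3130) x6046) x8962) x17710) x6774)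
  (sub (add (add (add (add (add (add (sub (add (add (sub (add (add (sub C x222) x230) x242) x182) x2) x110) x542) x1190) x2162) x3134) x6050) x8966) x17714) x13338)
  (add (add (add (add (add (add (add (add (sub (add (add (sub (sub (sub C x218) x234) x186) x6) x114) x546) x1194) x2166) x3138) x6054) x8970) x17718) x6784) x13346)
  (sub (add (add (add (add (add (add (sub (add (add (sub (add (add (sub C x232) x218) x242) x212) x14) x122) x554) x1202) x2174) x3146) x6062) x8978) x17726) x13350)
  (sub (add (add (add (add (add (add (sub (add (add (sub (sub (sub C x230) x238) x214) x16) x124) x556) x1204) x2176) x3148) x6064) x8980) x17728) x6792)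
  (add (add (add (add (add (add (add (add (sub (add (add (add (add (sub (add (add C x238) x242) x222) x162) x198) x18) x126) x558) x1206) x2178) x3150) x6066) x8982) x17730) x6796) x13358)
  (sub (add (add (add (add (add (add (sub (add (add (add (add (sub (add (add C x234) x242) x232) x166) x202) x22) x130) x562) x1210) x2182) x3154) x6070) x8986) x17734) x6798)
  (sub (add (add (add (add (add (add (sub (add (add (add (add (add (add (add (add C x234) x238) x218) x230) x170) x206) x26) x134) x566) x1214) x2186) x3158) x6074) x8990) x17738) x13362)
  (sub (add (add (add (add (sub (sub (add (add (add (add (sub (sub C x250) x254) x284) x320) x356) x464) x86) x734) x3164) x6080) x8996) x17744) x13368)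
  (sub (add (add (add (add (sub (sub (add (add (add (add (sub (sub C x248) x262) x286) x322) x358) x466) x88) x736) x3166) x6082) x8998) x17746) x6810)
  (sub (add (add (add (add (sub (sub (add (add (sub (sub (sub C x258) x248) x272) x362) x470) x92) x740) x3170) x6086) x9002) x17750) x13374)
  (add (add (add (add (add (add (sub (sub (add (add (sub (sub (sub C x254) x264) x276) x366) x474) x96) x744) x3174) x6090) x9006) x17754) x6820) x13382)
  (sub (add (add (add (add (sub (sub (add (add (sub (sub (sub C x264) x250) x298) x370) x478) x100) x748) x3178) x6094) x9010) x17758) x6822)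
  (add (add (add (add (add (add (sub (sub (add (add (sub (sub (sub C x262) x258) x300) x372) x480) x102) x750) x3180) x6096) x9012) x17760) x6826) x13388)
  (sub (add (add (add (add (sub (sub (sub (sub (add (add (sub C x276) x284) x296) x254) x326) x110) x758) x3188) x6104) x9020) x17768) x13392)
  (add (add (add (add (add (add (sub (sub (sub (sub (sub (sub C x272) x288) x258) x330) x114) x762) x3192) x6108) x9024) x17772) x6838) x13400)
  (sub (add (add (add (add (sub (sub (sub (add (add (add (add (sub C x286) x272) x296) x248) x320) x338) x122) x770) x3200) x6116) x9032) x17780) x13404)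
  (sub (add (add (add (add (sub (sub (sub (add (add (sub (sub C x284) x292) x250) x322) x340) x124) x772) x3202) x6118) x9034) x17782) x6846)
  (add (add (add (add (add (add (sub (sub (sub (sub (sub (add (add C x292) x296) x276) x306) x342) x126) x774) x3204) x6120) x9036) x17784) x6850) x13412)
  (sub (add (add (add (add (sub (sub (sub (sub (sub (add (add C x288) x296) x286) x310) x346) x130) x778) x3208) x6124) x9040) x17788) x6852)
  (sub (add (add (add (add (sub (sub (sub (sub (add (add (add (add C x288) x292) x272) x284) x314) x350) x134) x782) x3212) x6128) x9044) x17792) x13416)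
  (sub (add (add (add (add (sub (sub (sub (sub (add (add (sub C x300) x310) x322) x262) x406) x136) x784) x3214) x6130) x9046) x17794) x6858)
  (add (add (add (add (add (add (sub (sub (sub (sub (sub (sub C x298) x306) x264) x408) x138) x786) x3216) x6132) x9048) x17796) x6862) x13424)
  (add (add (add (add (add (add (sub (sub (sub (sub (sub (add (add C x310) x314) x300) x288) x414) x144) x792) x3222) x6138) x9054) x17802) x6868) x13430)
  (sub (add (add (add (add (sub (sub (sub (sub (add (add (add (add C x306) x314) x298) x322) x292) x418) x148) x796) x3226) x6142) x9058) x17806) x6870)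
  (sub (add (add (add (add (sub (sub (sub (sub (sub (add (add C x306) x310) x320) x296) x422) x152) x800) x3230) x6146) x9062) x17810) x13434)
  (sub (add (add (add (add (sub (sub (sub (add (add (sub (sub C x322) x314) x248) x284) x428) x158) x806) x3236) x6152) x9068) x17816) x13440)
  (sub (add (add (add (add (sub (sub (sub (add (add (add (add (sub C x320) x298) x310) x250) x286) x430) x160) x808) x3238) x6154) x9070) x17818) x6882)
  (sub (add (add (add (add (sub (add (add (sub (add (add (add (add (sub C x330) x338) x350) x362) x398) x272) x2) x650) x812) x3242) x6158) x9074) x17822) x13446)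
  (add (add (add (add (add (add (sub (add (add (sub (add (add (sub (sub C x326) x342) x366) x402) x276) x6) x654) x816) x3246) x6162) x9078) x17826) x6892) x13454)
  (sub (add (add (add (add (sub (add (add (sub (sub (add (add (sub C x340) x326) x350) x356) x284) x14) x662) x824) x3254) x6170) x9086) x17834) x13458)
  (sub (add (add (add (add (sub (add (add (sub (sub (sub (sub C x338) x346) x358) x286) x16) x664) x826) x3256) x6172) x9088) x17836) x6900)
  (add (add (add (add (add (add (sub (add (add (sub (sub (sub (add (add C x346) x350) x330) x378) x288) x18) x666) x828) x3258) x6174) x9090) x17838) x6904) x13466)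
  (sub (add (add (add (add (sub (add (add (sub (sub (sub (add (add C x342) x350) x340) x382) x292) x22) x670) x832) x3262) x6178) x9094) x17842) x6906)
  (sub (add (add (add (add (sub (add (add (sub (sub (add (add (add (add C x342) x346) x326) x338) x386) x296) x26) x674) x836) x3266) x6182) x9098) x17846) x13470)
  (sub (add (add (add (add (sub (add (add (add (add (sub (sub (sub C x358) x362) x338) x248) x464) x32) x680) x842) x3272) x6188) x9104) x17852) x13476)
  (sub (add (add (add (add (sub (add (add (add (add (sub (sub (sub C x356) x370) x340) x250) x466) x34) x682) x844) x3274) x6190) x9106) x17854) x6918)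
  (sub (add (add (add (add (sub (add (add (add (add (add (add (sub (sub C x366) x356) x326) x398) x254) x470) x38) x686) x848) x3278) x6194) x9110) x17858) x13482)
  (add (add (add (add (add (add (sub (add (add (add (add (add (add (sub (sub C x362) x372) x330) x402) x258) x474) x42) x690) x852) x3282) x6198) x9114) x17862) x6928) x13490)
  (sub (add (add (add (add (sub (add (add (add (add (sub (sub (sub C x372) x358) x388) x262) x478) x46) x694) x856) x3286) x6202) x9118) x17866) x6930)
  (add (add (add (add (add (add (sub (add (add (add (add (sub (sub (sub C x370) x366) x390) x264) x480) x48) x696) x858) x3288) x6204) x9120) x17868) x6934) x13496)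
  (add (add (add (add (add (add (sub (add (add (sub (sub (add (add (add (add C x382) x386) x390) x402) x342) x432) x54) x702) x864) x3294) x6210) x9126) x17874) x6940) x13502)
  (sub (add (add (add (add (sub (add (add (sub (sub (sub (add (add C x378) x386) x388) x346) x436) x58) x706) x868) x3298) x6214) x9130) x17878) x6942)
  (sub (add (add (add (add (sub (add (add (sub (sub (sub (add (add C x378) x382) x398) x350) x440) x62) x710) x872) x3302) x6218) x9134) x17882) x13506)
  (sub (add (add (add (add (sub (add (add (sub (sub (sub (sub C x390) x382) x370) x442) x64) x712) x874) x3304) x6220) x9136) x17884) x6948)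
  (add (add (add (add (add (add (sub (add (add (sub (sub (add (add (sub C x388) x378) x402) x372) x444) x66) x714) x876) x3306) x6222) x9138) x17886) x6952) x13514)
  (sub (add (add (add (add (sub (add (add (sub (add (add (sub (sub C x402) x386) x326) x362) x452) x74) x722) x884) x3314) x6230) x9146) x17894) x13518)
  (add (add (add (add (add (add (sub (add (add (sub (add (add (add (add (sub C x398) x378) x390) x330) x366) x456) x78) x726) x888) x3318) x6234) x9150) x17898) x6964) x13526)
  (sub (add (add (add (add (sub (sub (sub (add (add (add (add (sub C x408) x418) x430) x442) x478) x298) x568) x892) x3322) x6238) x9154) x17902) x6966)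
  (add (add (add (add (add (add (sub (sub (sub (add (add (sub (sub C x406) x414) x444) x480) x300) x570) x894) x3324) x6240) x9156) x17904) x6970) x13532)
  (add (add (add (add (add (add (sub (sub (sub (sub (sub (add (add C x418) x422) x408) x432) x306) x576) x900) x3330) x6246) x9162) x17910) x6976) x13538)
  (sub (add (add (add (add (sub (sub (sub (sub (add (add (add (add C x414) x422) x406) x430) x436) x310) x580) x904) x3334) x6250) x9166) x17914) x6978)
  (sub (add (add (add (add (sub (sub (sub (sub (sub (add (add C x414) x418) x428) x440) x314) x584) x908) x3338) x6254) x9170) x17918) x13542)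
  (sub (add (add (add (add (sub (sub (sub (sub (sub (sub C x430) x422) x464) x320) x590) x914) x3344) x6260) x9176) x17924) x13548)
  (sub (add (add (add (add (sub (sub (sub (sub (add (add (sub C x428) x406) x418) x466) x322) x592) x916) x3346) x6262) x9178) x17926) x6990)
  (add (add (add (add (add (add (sub (sub (sub (sub (add (add (add (add C x436) x440) x444) x456) x414) x378) x594) x918) x3348) x6264) x9180) x17928) x6994) x13556)
  (sub (add (add (add (add (sub (sub (sub (sub (sub (add (add C x432) x440) x442) x418) x382) x598) x922) x3352) x6268) x9184) x17932) x6996)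
  (sub (add (add (add (add (sub (sub (sub (sub (sub (add (add C x432) x436) x452) x422) x386) x602) x926) x3356) x6272) x9188) x17936) x13560)
  (sub (add (add (add (add (sub (sub (sub (add (add (sub (sub C x444) x436) x406) x478) x388) x604) x928) x3358) x6274) x9190) x17938) x7002)
  (add (add (add (add (add (add (sub (sub (sub (add (add (add (add (sub C x442) x432) x456) x408) x480) x390) x606) x930) x3360) x6276) x9192) x17940) x7006) x13568)
  (sub (add (add (add (add (sub (sub (sub (sub (sub (sub C x456) x440) x470) x398) x614) x938) x3368) x6284) x9200) x17948) x13572)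
  (add (add (add (add (add (add (sub (sub (sub (sub (add (add (sub C x452) x432) x444) x474) x402) x618) x942) x3372) x6288) x9204) x17952) x7018) x13580)
  (sub (add (add (add (add (sub (sub (add (add (sub (sub (sub C x466) x470) x428) x248) x356) x626) x950) x3380) x6296) x9212) x17960) x13584)
  (sub (add (add (add (add (sub (sub (add (add (sub (sub (sub C x464) x478) x430) x250) x358) x628) x952) x3382) x6298) x9214) x17962) x7026)
  (sub (add (add (add (add (sub (sub (add (add (sub (sub (sub C x474) x464) x452) x254) x362) x632) x956) x3386) x6302) x9218) x17966) x13590)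
  (add (add (add (add (add (add (sub (sub (add (add (sub (sub (sub C x470) x480) x456) x258) x366) x636) x960) x3390) x6306) x9222) x17970) x7036) x13598)
  (sub (add (add (add (add (sub (sub (add (add (add (add (sub (sub C x480) x466) x406) x442) x262) x370) x640) x964) x3394) x6310) x9226) x17974) x7038)
  (add (add (add (add (add (add (sub (sub (add (add (add (add (sub (sub C x478) x474) x408) x444) x264) x372) x642) x966) x3396) x6312) x9228) x17976) x7042) x13604)
  (add (add (add (add (add (add (sub (sub (add (add (add (add (add (add (add (add C x490) x494) x498) x510) x522) x558) x594) x702) x162) x1458) x3402) x6318) x9234) x17982) x7048) x13610)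
  (sub (add (add (add (add (sub (sub (add (add (add (add (sub (add (add C x486) x494) x496) x526) x562) x598) x706) x166) x1462) x3406) x6322) x9238) x17986) x7050)
  (sub (add (add (add (add (sub (sub (add (add (add (add (sub (add (add C x486) x490) x506) x530) x566) x602) x710) x170) x1466) x3410) x6326) x9242) x17990) x13614)
  (sub (add (add (add (add (sub (sub (add (add (sub (sub (sub C x498) x490) x514) x604) x712) x172) x1468) x3412) x6328) x9244) x17992) x7056)
  (add (add (add (add (add (add (sub (sub (add (add (sub (add (add (sub C x496) x486) x510) x516) x606) x714) x174) x1470) x3414) x6330) x9246) x17994) x7060) x13622)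
  (sub (add (add (add (add (sub (sub (add (add (sub (sub (sub C x510) x494) x542) x614) x722) x182) x1478) x3422) x6338) x9254) x18002) x13626)
  (add (add (add (add (add (add (sub (sub (add (add (sub (add (add (sub C x506) x486) x498) x546) x618) x726) x186) x1482) x3426) x6342) x9258) x18006) x7072) x13634)
  (sub (add (add (add (add (sub (sub (sub (sub (add (add (sub C x516) x526) x538) x496) x568) x190) x1486) x3430) x6346) x9262) x18010) x7074)
  (add (add (add (add (add (add (sub (sub (sub (sub (sub (sub C x514) x522) x498) x570) x192) x1488) x3432) x6348) x9264) x18012) x7078) x13640)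
  (add (add (add (add (add (add (sub (sub (sub (add (add (sub (add (add C x526) x530) x516) x486) x558) x576) x198) x1494) x3438) x6354) x9270) x18018) x7084) x13646)
  (sub (add (add (add (add (sub (sub (sub (add (add (add (add (add (add C x522) x530) x514) x538) x490) x562) x580) x202) x1498) x3442) x6358) x9274) x18022) x7086)
  (sub (add (add (add (add (sub (sub (sub (add (add (sub (add (add C x522) x526) x536) x494) x566) x584) x206) x1502) x3446) x6362) x9278) x18026) x13650)
  (sub (add (add (add (add (sub (sub (sub (sub (sub (sub C x538) x530) x554) x590) x212) x1508) x3452) x6368) x9284) x18032) x13656)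
  (sub (add (add (add (add (sub (sub (sub (sub (add (add (sub C x536) x514) x526) x556) x592) x214) x1510) x3454) x6370) x9286) x18034) x7098)
  (sub (add (add (add (add (sub (sub (sub (sub (add (add (sub C x546) x554) x566) x506) x650) x218) x1514) x3458) x6374) x9290) x18038) x13662)
  (add (add (add (add (add (add (sub (sub (sub (sub (sub (sub C x542) x558) x510) x654) x222) x1518) x3462) x6378) x9294) x18042) x7108) x13670)
  (sub (add (add (add (add (sub (sub (sub (sub (add (add (sub C x556) x542) x566) x536) x662) x230) x1526) x3470) x6386) x9302) x18050) x13674)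
  (sub (add (add (add (add (sub (sub (sub (sub (sub (sub C x554) x562) x538) x664) x232) x1528) x3472) x6388) x9304) x18052) x7116)
  (add (add (add (add (add (add (sub (sub (sub (add (add (sub (add (add C x562) x566) x546) x486) x522) x666) x234) x1530) x3474) x6390) x9306) x18054) x7120) x13682)
  (sub (add (add (add (add (sub (sub (sub (add (add (sub (add (add C x558) x566) x556) x490) x526) x670) x238) x1534) x3478) x6394) x9310) x18058) x7122)
  (sub (add (add (add (add (sub (sub (sub (add (add (add (add (add (add C x558) x562) x542) x554) x494) x530) x674) x242) x1538) x3482) x6398) x9314) x18062) x13686)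
  (sub (add (add (add (add (sub (sub (sub (add (add (add (add (sub C x570) x580) x592) x604) x640) x514) x406) x1540) x3484) x6400) x9316) x18064) x7128)
  (add (add (add (add (add (add (sub (sub (sub (add (add (sub (sub C x568) x576) x606) x642) x516) x408) x1542) x3486) x6402) x9318) x18066) x7132) x13694)
  (add (add (add (add (add (add (sub (sub (sub (sub (sub (add (add C x580) x584) x570) x594) x522) x414) x1548) x3492) x6408) x9324) x18072) x7138) x13700)
  (sub (add (add (add (add (sub (sub (sub (sub (add (add (add (add C x576) x584) x568) x592) x598) x526) x418) x1552) x3496) x6412) x9328) x18076) x7140)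
  (sub (add (add (add (add (sub (sub (sub (sub (sub (add (add C x576) x580) x590) x602) x530) x422) x1556) x3500) x6416) x9332) x18080) x13704)
  (sub (add (add (add (add (sub (sub (sub (sub (sub (sub C x592) x584) x626) x536) x428) x1562) x3506) x6422) x9338) x18086) x13710)
  (sub (add (add (add (add (sub (sub (sub (sub (add (add (sub C x590) x568) x580) x628) x538) x430) x1564) x3508) x6424) x9340) x18088) x7152)
  (add (add (add (add (add (add (sub (sub (add (add (sub (add (add (add (add C x598) x602) x606) x618) x576) x486) x702) x432) x1566) x3510) x6426) x9342) x18090) x7156) x13718)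
  (sub (add (add (add (add (sub (sub (add (add (sub (sub (add (add C x594) x602) x604) x580) x490) x706) x436) x1570) x3514) x6430) x9346) x18094) x7158)
  (sub (add (add (add (add (sub (sub (add (add (sub (sub (add (add C x594) x598) x614) x584) x494) x710) x440) x1574) x3518) x6434) x9350) x18098) x13722)
  (sub (add (add (add (add (sub (sub (add (add (add (add (sub (sub C x606) x598) x568) x640) x496) x712) x442) x1576) x3520) x6436) x9352) x18100) x7164)
  (add (add (add (add (add (add (sub (sub (add (add (add (add (add (add (sub C x604) x594) x618) x570) x642) x498) x714) x444) x1578) x3522) x6438) x9354) x18102) x7168) x13730)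
  (sub (add (add (add (add (sub (sub (add (add (sub (sub (sub C x618) x602) x632) x506) x722) x452) x1586) x3530) x6446) x9362) x18110) x13734)
  (add (add (add (add (add (add (sub (sub (add (add (sub (add (add (sub C x614) x594) x606) x636) x510) x726) x456) x1590) x3534) x6450) x9366) x18114) x7180) x13742)
  (sub (add (add (add (add (sub (sub (sub (sub (sub (sub C x628) x632) x590) x680) x464) x1598) x3542) x6458) x9374) x18122) x13746)
  (sub (add (add (add (add (sub (sub (sub (sub (sub (sub C x626) x640) x592) x682) x466) x1600) x3544) x6460) x9376) x18124) x7188)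
  (sub (add (add (add (add (sub (sub (sub (sub (sub (sub C x636) x626) x614) x686) x470) x1604) x3548) x6464) x9380) x18128) x13752)
  (add (add (add (add (add (add (sub (sub (sub (sub (sub (sub C x632) x642) x618) x690) x474) x1608) x3552) x6468) x9384) x18132) x7198) x13760)
  (sub (add (add (add (add (sub (sub (sub (add (add (sub (sub C x642) x628) x568) x604) x694) x478) x1612) x3556) x6472) x9388) x18136) x7200)
  (add (add (add (add (add (add (sub (sub (sub (add (add (sub (sub C x640) x636) x570) x606) x696) x480) x1614) x3558) x6474) x9390) x18138) x7204) x13766)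
  (sub (add (add (add (add (sub (add (add (sub (add (add (add (add (sub C x654) x662) x674) x686) x722) x542) x2) x326) x1622) x3566) x6482) x9398) x18146) x13770)
  (add (add (add (add (add (add (sub (add (add (sub (add (add (sub (sub C x650) x666) x690) x726) x546) x6) x330) x1626) x3570) x6486) x9402) x18150) x7216) x13778)
  (sub (add (add (add (add (sub (add (add (sub (sub (add (add (sub C x664) x650) x674) x680) x554) x14) x338) x1634) x3578) x6494) x9410) x18158) x13782)
  (sub (add (add (add (add (sub (add (add (sub (sub (sub (sub C x662) x670) x682) x556) x16) x340) x1636) x3580) x6496) x9412) x18160) x7224)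
  (add (add (add (add (add (add (sub (add (add (sub (sub (sub (add (add C x670) x674) x654) x702) x558) x18) x342) x1638) x3582) x6498) x9414) x18162) x7228) x13790)
  (sub (add (add (add (add (sub (add (add (sub (sub (sub (add (add C x666) x674) x664) x706) x562) x22) x346) x1642) x3586) x6502) x9418) x18166) x7230)
  (sub (add (add (add (add (sub (add (add (sub (sub (add (add (add (add C x666) x670) x650) x662) x710) x566) x26) x350) x1646) x3590) x6506) x9422) x18170) x13794)
  (sub (add (add (add (add (sub (add (add (sub (sub (sub (sub C x682) x686) x662) x626) x32) x356) x1652) x3596) x6512) x9428) x18176) x13800)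
  (sub (add (add (add (add (sub (add (add (sub (sub (sub (sub C x680) x694) x664) x628) x34) x358) x1654) x3598) x6514) x9430) x18178) x7242)
  (sub (add (add (add (add (sub (add (add (sub (add (add (sub (sub C x690) x680) x650) x722) x632) x38) x362) x1658) x3602) x6518) x9434) x18182) x13806)
  (add (add (add (add (add (add (sub (add (add (sub (add (add (sub (sub C x686) x696) x654) x726) x636) x42) x366) x1662) x3606) x6522) x9438) x18186) x7252) x13814)
  (sub (add (add (add (add (sub (add (add (sub (sub (sub (sub C x696) x682) x712) x640) x46) x370) x1666) x3610) x6526) x9442) x18190) x7254)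
  (add (add (add (add (add (add (sub (add (add (sub (sub (sub (sub C x694) x690) x714) x642) x48) x372) x1668) x3612) x6528) x9444) x18192) x7258) x13820)
  (add (add (add (add (add (add (sub (add (add (add (add (sub (add (add (add (add C x706) x710) x714) x726) x666) x486) x594) x54) x378) x1674) x3618) x6534) x9450) x18198) x7264) x13826)
  (sub (add (add (add (add (sub (add (add (add (add (sub (sub (add (add C x702) x710) x712) x670) x490) x598) x58) x382) x1678) x3622) x6538) x9454) x18202) x7266)
  (sub (add (add (add (add (sub (add (add (add (add (sub (sub (add (add C x702) x706) x722) x674) x494) x602) x62) x386) x1682) x3626) x6542) x9458) x18206) x13830)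
  (sub (add (add (add (add (sub (add (add (add (add (sub (sub (sub C x714) x706) x694) x496) x604) x64) x388) x1684) x3628) x6544) x9460) x18208) x7272)
  (add (add (add (add (add (add (sub (add (add (add (add (sub (add (add (sub C x712) x702) x726) x696) x498) x606) x66) x390) x1686) x3630) x6546) x9462) x18210) x7276) x13838)
  (sub (add (add (add (add (sub (add (add (add (add (add (add (sub (sub C x726) x710) x650) x686) x506) x614) x74) x398) x1694) x3638) x6554) x9470) x18218) x13842)
  (add (add (add (add (add (add (sub (add (add (add (add (add (add (add (add (sub C x722) x702) x714) x654) x690) x510) x618) x78) x402) x1698) x3642) x6558) x9474) x18222) x7288) x13850)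
  (sub (add (add (sub (sub (add (add (add (add (add (add (sub (sub C x736) x740) x770) x806) x842) x950) x1058) x1382) x248) x2192) x9482) x18230) x13854)
  (sub (add (add (sub (sub (add (add (add (add (add (add (sub (sub C x734) x748) x772) x808) x844) x952) x1060) x1384) x250) x2194) x9484) x18232) x7296)
  (sub (add (add (sub (sub (add (add (add (add (sub (sub (sub C x744) x734) x758) x848) x956) x1064) x1388) x254) x2198) x9488) x18236) x13860)
  (add (add (add (add (sub (sub (add (add (add (add (sub (sub (sub C x740) x750) x762) x852) x960) x1068) x1392) x258) x2202) x9492) x18240) x7306) x13868)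
  (sub (add (add (sub (sub (add (add (add (add (sub (sub (sub C x750) x736) x784) x856) x964) x1072) x1396) x262) x2206) x9496) x18244) x7308)
  (add (add (add (add (sub (sub (add (add (add (add (sub (sub (sub C x748) x744) x786) x858) x966) x1074) x1398) x264) x2208) x9498) x18246) x7312) x13874)
  (sub (add (add (sub (sub (add (add (sub (sub (add (add (sub C x762) x770) x782) x740) x812) x1082) x1406) x272) x2216) x9506) x18254) x13878)
  (add (add (add (add (sub (sub (add (add (sub (sub (sub (sub C x758) x774) x744) x816) x1086) x1410) x276) x2220) x9510) x18258) x7324) x13886)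
  (sub (add (add (sub (sub (add (add (sub (add (add (add (add (sub C x772) x758) x782) x734) x806) x824) x1094) x1418) x284) x2228) x9518) x18266) x13890)
  (sub (add (add (sub (sub (add (add (sub (add (add (sub (sub C x770) x778) x736) x808) x826) x1096) x1420) x286) x2230) x9520) x18268) x7332)
  (add (add (add (add (sub (sub (add (add (sub (sub (sub (add (add C x778) x782) x762) x792) x828) x1098) x1422) x288) x2232) x9522) x18270) x7336) x13898)
  (sub (add (add (sub (sub (add (add (sub (sub (sub (add (add C x774) x782) x772) x796) x832) x1102) x1426) x292) x2236) x9526) x18274) x7338)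
  (sub (add (add (sub (sub (add (add (sub (sub (add (add (add (add C x774) x778) x758) x770) x800) x836) x1106) x1430) x296) x2240) x9530) x18278) x13902)
  (sub (add (add (sub (sub (add (add (sub (sub (add (add (sub C x786) x796) x808) x748) x892) x1108) x1432) x298) x2242) x9532) x18280) x7344)
  (add (add (add (add (sub (sub (add (add (sub (sub (sub (sub C x784) x792) x750) x894) x1110) x1434) x300) x2244) x9534) x18282) x7348) x13910)
  (add (add (add (add (sub (sub (add (add (sub (sub (sub (add (add C x796) x800) x786) x774) x900) x1116) x1440) x306) x2250) x9540) x18288) x7354) x13916)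
  (sub (add (add (sub (sub (add (add (sub (sub (add (add (add (add C x792) x800) x784) x808) x778) x904) x1120) x1444) x310) x2254) x9544) x18292) x7356)
  (sub (add (add (sub (sub (add (add (sub (sub (sub (add (add C x792) x796) x806) x782) x908) x1124) x1448) x314) x2258) x9548) x18296) x13920)
  (sub (add (add (sub (sub (add (add (sub (add (add (sub (sub C x808) x800) x734) x770) x914) x1130) x1454) x320) x2264) x9554) x18302) x13926)
  (sub (add (add (sub (sub (add (add (sub (add (add (add (add (sub C x806) x784) x796) x736) x772) x916) x1132) x1456) x322) x2266) x9556) x18304) x7368)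
  (sub (add (add (sub (sub (sub (sub (add (add (add (add (sub C x816) x824) x836) x848) x884) x758) x974) x326) x2270) x9560) x18308) x13932)
  (add (add (add (add (sub (sub (sub (sub (add (add (sub (sub C x812) x828) x852) x888) x762) x978) x330) x2274) x9564) x18312) x7378) x13940)
  (sub (add (add (sub (sub (sub (sub (sub (add (add (sub C x826) x812) x836) x842) x770) x986) x338) x2282) x9572) x18320) x13944)
  (sub (add (add (sub (sub (sub (sub (sub (sub (sub C x824) x832) x844) x772) x988) x340) x2284) x9574) x18322) x7386)
  (add (add (add (add (sub (sub (sub (sub (sub (sub (add (add C x832) x836) x816) x864) x774) x990) x342) x2286) x9576) x18324) x7390) x13952)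
  (sub (add (add (sub (sub (sub (sub (sub (sub (add (add C x828) x836) x826) x868) x778) x994) x346) x2290) x9580) x18328) x7392)
  (sub (add (add (sub (sub (sub (sub (sub (add (add (add (add C x828) x832) x812) x824) x872) x782) x998) x350) x2294) x9584) x18332) x13956)
  (sub (add (add (sub (sub (sub (add (add (sub (sub (sub C x844) x848) x824) x734) x950) x1004) x356) x2300) x9590) x18338) x13962)
  (sub (add (add (sub (sub (sub (add (add (sub (sub (sub C x842) x856) x826) x736) x952) x1006) x358) x2302) x9592) x18340) x7404)
  (sub (add (add (sub (sub (sub (add (add (add (add (sub (sub C x852) x842) x812) x884) x740) x956) x1010) x362) x2306) x9596) x18344) x13968)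
  (add (add (add (add (sub (sub (sub (add (add (add (add (sub (sub C x848) x858) x816) x888) x744) x960) x1014) x366) x2310) x9600) x18348) x7414) x13976)
  (sub (add (add (sub (sub (sub (add (add (sub (sub (sub C x858) x844) x874) x748) x964) x1018) x370) x2314) x9604) x18352) x7416)
  (add (add (add (add (sub (sub (sub (add (add (sub (sub (sub C x856) x852) x876) x750) x966) x1020) x372) x2316) x9606) x18354) x7420) x13982)
  (add (add (add (add (sub (sub (sub (sub (sub (add (add (add (add C x868) x872) x876) x888) x828) x918) x1026) x378) x2322) x9612) x18360) x7426) x13988)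
  (sub (add (add (sub (sub (sub (sub (sub (sub (add (add C x864) x872) x874) x832) x922) x1030) x382) x2326) x9616) x18364) x7428)
  (sub (add (add (sub (sub (sub (sub (sub (sub (add (add C x864) x868) x884) x836) x926) x1034) x386) x2330) x9620) x18368) x13992)
  (sub (add (add (sub (sub (sub (sub (sub (sub (sub C x876) x868) x856) x928) x1036) x388) x2332) x9622) x18370) x7434)
  (add (add (add (add (sub (sub (sub (sub (sub (add (add (sub C x874) x864) x888) x858) x930) x1038) x390) x2334) x9624) x18372) x7438) x14000)
  (sub (add (add (sub (sub (sub (sub (add (add (sub (sub C x888) x872) x812) x848) x938) x1046) x398) x2342) x9632) x18380) x14004)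
  (add (add (add (add (sub (sub (sub (sub (add (add (add (add (sub C x884) x864) x876) x816) x852) x942) x1050) x402) x2346) x9636) x18384) x7450) x14012)
  (sub (add (add (sub (sub (sub (sub (add (add (add (add (sub C x894) x904) x916) x928) x964) x784) x1216) x406) x2350) x9640) x18388) x7452)
  (add (add (add (add (sub (sub (sub (sub (add (add (sub (sub C x892) x900) x930) x966) x786) x1218) x408) x2352) x9642) x18390) x7456) x14018)
  (add (add (add (add (sub (sub (sub (sub (sub (sub (add (add C x904) x908) x894) x918) x792) x1224) x414) x2358) x9648) x18396) x7462) x14024)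
  (sub (add (add (sub (sub (sub (sub (sub (add (add (add (add C x900) x908) x892) x916) x922) x796) x1228) x418) x2362) x9652) x18400) x7464)
  (sub (add (add (sub (sub (sub (sub (sub (sub (add (add C x900) x904) x914) x926) x800) x1232) x422) x2366) x9656) x18404) x14028)
  (sub (add (add (sub (sub (sub (sub (sub (sub (sub C x916) x908) x950) x806) x1238) x428) x2372) x9662) x18410) x14034)
  (sub (add (add (sub (sub (sub (sub (sub (add (add (sub C x914) x892) x904) x952) x808) x1240) x430) x2374) x9664) x18412) x7476)
  (add (add (add (add (sub (sub (sub (sub (sub (add (add (add (add C x922) x926) x930) x942) x900) x864) x1242) x432) x2376) x9666) x18414) x7480) x14042)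
  (sub (add (add (sub (sub (sub (sub (sub (sub (add (add C x918) x926) x928) x904) x868) x1246) x436) x2380) x9670) x18418) x7482)
  (sub (add (add (sub (sub (sub (sub (sub (sub (add (add C x918) x922) x938) x908) x872) x1250) x440) x2384) x9674) x18422) x14046)
  (sub (add (add (sub (sub (sub (sub (add (add (sub (sub C x930) x922) x892) x964) x874) x1252) x442) x2386) x9676) x18424) x7488)
  (add (add (add (add (sub (sub (sub (sub (add (add (add (add (sub C x928) x918) x942) x894) x966) x876) x1254) x444) x2388) x9678) x18426) x7492) x14054)
  (sub (add (add (sub (sub (sub (sub (sub (sub (sub C x942) x926) x956) x884) x1262) x452) x2396) x9686) x18434) x14058)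
  (add (add (add (add (sub (sub (sub (sub (sub (add (add (sub C x938) x918) x930) x960) x888) x1266) x456) x2400) x9690) x18438) x7504) x14066)
  (sub (add (add (sub (sub (sub (add (add (sub (sub (sub C x952) x956) x914) x734) x842) x1274) x464) x2408) x9698) x18446) x14070)
  (sub (add (add (sub (sub (sub (add (add (sub (sub (sub C x950) x964) x916) x736) x844) x1276) x466) x2410) x9700) x18448) x7512)
  (sub (add (add (sub (sub (sub (add (add (sub (sub (sub C x960) x950) x938) x740) x848) x1280) x470) x2414) x9704) x18452) x14076)
  (add (add (add (add (sub (sub (sub (add (add (sub (sub (sub C x956) x966) x942) x744) x852) x1284) x474) x2418) x9708) x18456) x7522) x14084)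
  (sub (add (add (sub (sub (sub (add (add (add (add (sub (sub C x966) x952) x892) x928) x748) x856) x1288) x478) x2422) x9712) x18460) x7524)
  (add (add (add (add (sub (sub (sub (add (add (add (add (sub (sub C x964) x960) x894) x930) x750) x858) x1290) x480) x2424) x9714) x18462) x7528) x14090)
  (sub (add (add (sub (add (add (sub (add (add (add (add (add (add (sub C x978) x986) x998) x1010) x1046) x1082) x1190) x812) x2) x1946) x2432) x9722) x18470) x14094)
  (add (add (add (add (sub (add (add (sub (add (add (add (add (sub (sub C x974) x990) x1014) x1050) x1086) x1194) x816) x6) x1950) x2436) x9726) x18474) x7540) x14102)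
  (sub (add (add (sub (add (add (sub (add (add (sub (add (add (sub C x988) x974) x998) x1004) x1094) x1202) x824) x14) x1958) x2444) x9734) x18482) x14106)
  (sub (add (add (sub (add (add (sub (add (add (sub (sub (sub C x986) x994) x1006) x1096) x1204) x826) x16) x1960) x2446) x9736) x18484) x7548)
  (add (add (add (add (sub (add (add (sub (add (add (sub (sub (add (add C x994) x998) x978) x1026) x1098) x1206) x828) x18) x1962) x2448) x9738) x18486) x7552) x14114)
  (sub (add (add (sub (add (add (sub (add (add (sub (sub (add (add C x990) x998) x988) x1030) x1102) x1210) x832) x22) x1966) x2452) x9742) x18490) x7554)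
  (sub (add (add (sub (add (add (sub (add (add (sub (add (add (add (add C x990) x994) x974) x986) x1034) x1106) x1214) x836) x26) x1970) x2456) x9746) x18494) x14118)
  (sub (add (add (sub (add (add (sub (sub (sub (sub (sub C x1006) x1010) x986) x1058) x842) x32) x1976) x2462) x9752) x18500) x14124)
  (sub (add (add (sub (add (add (sub (sub (sub (sub (sub C x1004) x1018) x988) x1060) x844) x34) x1978) x2464) x9754) x18502) x7566)
  (sub (add (add (sub (add (add (sub (sub (add (add (sub (sub C x1014) x1004) x974) x1046) x1064) x848) x38) x1982) x2468) x9758) x18506) x14130)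
  (add (add (add (add (sub (add (add (sub (sub (add (add (sub (sub C x1010) x1020) x978) x1050) x1068) x852) x42) x1986) x2472) x9762) x18510) x7576) x14138)
  (sub (add (add (sub (add (add (sub (sub (sub (sub (sub C x1020) x1006) x1036) x1072) x856) x46) x1990) x2476) x9766) x18514) x7578)
  (add (add (add (add (sub (add (add (sub (sub (sub (sub (sub C x1018) x1014) x1038) x1074) x858) x48) x1992) x2478) x9768) x18516) x7582) x14144)
  (add (add (add (add (sub (add (add (sub (sub (sub (add (add (add (add C x1030) x1034) x1038) x1050) x990) x1134) x864) x54) x1998) x2484) x9774) x18522) x7588) x14150)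
  (sub (add (add (sub (add (add (sub (sub (sub (sub (add (add C x1026) x1034) x1036) x994) x1138) x868) x58) x2002) x2488) x9778) x18526) x7590)
  (sub (add (add (sub (add (add (sub (sub (sub (sub (add (add C x1026) x1030) x1046) x998) x1142) x872) x62) x2006) x2492) x9782) x18530) x14154)
  (sub (add (add (sub (add (add (sub (sub (sub (sub (sub C x1038) x1030) x1018) x1144) x874) x64) x2008) x2494) x9784) x18532) x7596)
  (add (add (add (add (sub (add (add (sub (sub (sub (add (add (sub C x1036) x1026) x1050) x1020) x1146) x876) x66) x2010) x2496) x9786) x18534) x7600) x14162)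
  (sub (add (add (sub (add (add (sub (sub (add (add (sub (sub C x1050) x1034) x974) x1010) x1154) x884) x74) x2018) x2504) x9794) x18542) x14166)
  (add (add (add (add (sub (add (add (sub (sub (add (add (add (add (sub C x1046) x1026) x1038) x978) x1014) x1158) x888) x78) x2022) x2508) x9798) x18546) x7612) x14174)
  (sub (add (add (sub (add (add (add (add (sub (add (add (sub (sub C x1060) x1064) x1094) x1130) x1004) x734) x1382) x86) x2030) x2516) x9806) x18554) x14178)
  (sub (add (add (sub (add (add (add (add (sub (add (add (sub (sub C x1058) x1072) x1096) x1132) x1006) x736) x1384) x88) x2032) x2518) x9808) x18556) x7620)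
  (sub (add (add (sub (add (add (add (add (sub (sub (sub (sub C x1068) x1058) x1082) x1010) x740) x1388) x92) x2036) x2522) x9812) x18560) x14184)
  (add (add (add (add (sub (add (add (add (add (sub (sub (sub (sub C x1064) x1074) x1086) x1014) x744) x1392) x96) x2040) x2526) x9816) x18564) x7630) x14192)
  (sub (add (add (sub (add (add (add (add (sub (sub (sub (sub C x1074) x1060) x1108) x1018) x748) x1396) x100) x2044) x2530) x9820) x18568) x7632)
  (add (add (add (add (sub (add (add (add (add (sub (sub (sub (sub C x1072) x1068) x1110) x1020) x750) x1398) x102) x2046) x2532) x9822) x18570) x7636) x14198)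
  (sub (add (add (sub (add (add (add (add (add (add (sub (add (add (sub C x1086) x1094) x1106) x1064) x974) x1190) x758) x1406) x110) x2054) x2540) x9830) x18578) x14202)
  (add (add (add (add (sub (add (add (add (add (add (add (sub (sub (sub C x1082) x1098) x1068) x978) x1194) x762) x1410) x114) x2058) x2544) x9834) x18582) x7648) x14210)
  (sub (add (add (sub (add (add (add (add (add (add (add (add (add (add (sub C x1096) x1082) x1106) x1058) x1130) x986) x1202) x770) x1418) x122) x2066) x2552) x9842) x18590) x14214)
  (sub (add (add (sub (add (add (add (add (add (add (add (add (sub (sub C x1094) x1102) x1060) x1132) x988) x1204) x772) x1420) x124) x2068) x2554) x9844) x18592) x7656)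
  (add (add (add (add (sub (add (add (add (add (add (add (sub (sub (add (add C x1102) x1106) x1086) x1116) x990) x1206) x774) x1422) x126) x2070) x2556) x9846) x18594) x7660) x14222)
  (sub (add (add (sub (add (add (add (add (add (add (sub (sub (add (add C x1098) x1106) x1096) x1120) x994) x1210) x778) x1426) x130) x2074) x2560) x9850) x18598) x7662)
  (sub (add (add (sub (add (add (add (add (add (add (sub (add (add (add (add C x1098) x1102) x1082) x1094) x1124) x998) x1214) x782) x1430) x134) x2078) x2564) x9854) x18602) x14226)
  (sub (add (add (sub (add (add (add (add (sub (sub (add (add (sub C x1110) x1120) x1132) x1072) x1162) x784) x1432) x136) x2080) x2566) x9856) x18604) x7668)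
  (add (add (add (add (sub (add (add (add (add (sub (sub (sub (sub C x1108) x1116) x1074) x1164) x786) x1434) x138) x2082) x2568) x9858) x18606) x7672) x14234)
  (add (add (add (add (sub (add (add (add (add (sub (sub (sub (add (add C x1120) x1124) x1110) x1098) x1170) x792) x1440) x144) x2088) x2574) x9864) x18612) x7678) x14240)
  (sub (add (add (sub (add (add (add (add (sub (sub (add (add (add (add C x1116) x1124) x1108) x1132) x1102) x1174) x796) x1444) x148) x2092) x2578) x9868) x18616) x7680)
  (sub (add (add (sub (add (add (add (add (sub (sub (sub (add (add C x1116) x1120) x1130) x1106) x1178) x800) x1448) x152) x2096) x2582) x9872) x18620) x14244)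
  (sub (add (add (sub (add (add (add (add (sub (add (add (sub (sub C x1132) x1124) x1058) x1094) x1184) x806) x1454) x158) x2102) x2588) x9878) x18626) x14250)
  (sub (add (add (sub (add (add (add (add (sub (add (add (add (add (sub C x1130) x1108) x1120) x1060) x1096) x1186) x808) x1456) x160) x2104) x2590) x9880) x18628) x7692)
  (add (add (add (add (sub (add (add (sub (sub (add (add (add (add (add (add C x1138) x1142) x1146) x1158) x1170) x1206) x1026) x1296) x162) x2106) x2592) x9882) x18630) x7696) x14258)
  (sub (add (add (sub (add (add (sub (sub (add (add (sub (add (add C x1134) x1142) x1144) x1174) x1210) x1030) x1300) x166) x2110) x2596) x9886) x18634) x7698)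
  (sub (add (add (sub (add (add (sub (sub (add (add (sub (add (add C x1134) x1138) x1154) x1178) x1214) x1034) x1304) x170) x2114) x2600) x9890) x18638) x14262)
  (sub (add (add (sub (add (add (sub (sub (sub (sub (sub C x1146) x1138) x1162) x1036) x1306) x172) x2116) x2602) x9892) x18640) x7704)
  (add (add (add (add (sub (add (add (sub (sub (sub (add (add (sub C x1144) x1134) x1158) x1164) x1038) x1308) x174) x2118) x2604) x9894) x18642) x7708) x14270)
  (sub (add (add (sub (add (add (sub (sub (sub (sub (sub C x1158) x1142) x1190) x1046) x1316) x182) x2126) x2612) x9902) x18650) x14274)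
  (add (add (add (add (sub (add (add (sub (sub (sub (add (add (sub C x1154) x1134) x1146) x1194) x1050) x1320) x186) x2130) x2616) x9906) x18654) x7720) x14282)
  (sub (add (add (sub (add (add (sub (sub (sub (add (add (sub C x1164) x1174) x1186) x1144) x1108) x1324) x190) x2134) x2620) x9910) x18658) x7722)
  (add (add (add (add (sub (add (add (sub (sub (sub (sub (sub C x1162) x1170) x1146) x1110) x1326) x192) x2136) x2622) x9912) x18660) x7726) x14288)
  (add (add (add (add (sub (add (add (sub (sub (add (add (sub (add (add C x1174) x1178) x1164) x1134) x1206) x1116) x1332) x198) x2142) x2628) x9918) x18666) x7732) x14294)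
  (sub (add (add (sub (add (add (sub (sub (add (add (add (add (add (add C x1170) x1178) x1162) x1186) x1138) x1210) x1120) x1336) x202) x2146) x2632) x9922) x18670) x7734)
  (sub (add (add (sub (add (add (sub (sub (add (add (sub (add (add C x1170) x1174) x1184) x1142) x1214) x1124) x1340) x206) x2150) x2636) x9926) x18674) x14298)
  (sub (add (add (sub (add (add (sub (sub (sub (sub (sub C x1186) x1178) x1202) x1130) x1346) x212) x2156) x2642) x9932) x18680) x14304)
  (sub (add (add (sub (add (add (sub (sub (sub (add (add (sub C x1184) x1162) x1174) x1204) x1132) x1348) x214) x2158) x2644) x9934) x18682) x7746)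
  (sub (add (add (sub (add (add (sub (add (add (sub (add (add (sub C x1194) x1202) x1214) x1154) x974) x1082) x1352) x218) x2162) x2648) x9938) x18686) x14310)
  (add (add (add (add (sub (add (add (sub (add (add (sub (sub (sub C x1190) x1206) x1158) x978) x1086) x1356) x222) x2166) x2652) x9942) x18690) x7756) x14318)
  (sub (add (add (sub (add (add (sub (add (add (sub (add (add (sub C x1204) x1190) x1214) x1184) x986) x1094) x1364) x230) x2174) x2660) x9950) x18698) x14322)
  (sub (add (add (sub (add (add (sub (add (add (sub (sub (sub C x1202) x1210) x1186) x988) x1096) x1366) x232) x2176) x2662) x9952) x18700) x7764)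
  (add (add (add (add (sub (add (add (sub (add (add (add (add (sub (add (add C x1210) x1214) x1194) x1134) x1170) x990) x1098) x1368) x234) x2178) x2664) x9954) x18702) x7768) x14330)
  (sub (add (add (sub (add (add (sub (add (add (add (add (sub (add (add C x1206) x1214) x1204) x1138) x1174) x994) x1102) x1372) x238) x2182) x2668) x9958) x18706) x7770)
  (sub (add (add (sub (add (add (sub (add (add (add (add (add (add (add (add C x1206) x1210) x1190) x1202) x1142) x1178) x998) x1106) x1376) x242) x2186) x2672) x9962) x18710) x14334)
  (sub (add (add (sub (sub (sub (add (add (add (add (add (add (sub C x1218) x1228) x1240) x1252) x1288) x1324) x1432) x892) x1702) x2674) x9964) x18712) x7776)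
  (add (add (add (add (sub (sub (sub (add (add (add (add (sub (sub C x1216) x1224) x1254) x1290) x1326) x1434) x894) x1704) x2676) x9966) x18714) x7780) x14342)
  (add (add (add (add (sub (sub (sub (add (add (sub (sub (add (add C x1228) x1232) x1218) x1242) x1332) x1440) x900) x1710) x2682) x9972) x18720) x7786) x14348)
  (sub (add (add (sub (sub (sub (add (add (sub (add (add (add (add C x1224) x1232) x1216) x1240) x1246) x1336) x1444) x904) x1714) x2686) x9976) x18724) x7788)
  (sub (add (add (sub (sub (sub (add (add (sub (sub (add (add C x1224) x1228) x1238) x1250) x1340) x1448) x908) x1718) x2690) x9980) x18728) x14352)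
  (sub (add (add (sub (sub (sub (add (add (sub (sub (sub C x1240) x1232) x1274) x1346) x1454) x914) x1724) x2696) x9986) x18734) x14358)
  (sub (add (add (sub (sub (sub (add (add (sub (add (add (sub C x1238) x1216) x1228) x1276) x1348) x1456) x916) x1726) x2698) x9988) x18736) x7800)
  (add (add (add (add (sub (sub (sub (sub (sub (add (add (add (add C x1246) x1250) x1254) x1266) x1224) x1296) x918) x1728) x2700) x9990) x18738) x7804) x14366)
  (sub (add (add (sub (sub (sub (sub (sub (sub (add (add C x1242) x1250) x1252) x1228) x1300) x922) x1732) x2704) x9994) x18742) x7806)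
  (sub (add (add (sub (sub (sub (sub (sub (sub (add (add C x1242) x1246) x1262) x1232) x1304) x926) x1736) x2708) x9998) x18746) x14370)
  (sub (add (add (sub (sub (sub (sub (add (add (sub (sub C x1254) x1246) x1216) x1288) x1306) x928) x1738) x2710) x10000) x18748) x7812)
  (add (add (add (add (sub (sub (sub (sub (add (add (add (add (sub C x1252) x1242) x1266) x1218) x1290) x1308) x930) x1740) x2712) x10002) x18750) x7816) x14378)
  (sub (add (add (sub (sub (sub (sub (sub (sub (sub C x1266) x1250) x1280) x1316) x938) x1748) x2720) x10010) x18758) x14382)
  (add (add (add (add (sub (sub (sub (sub (sub (add (add (sub C x1262) x1242) x1254) x1284) x1320) x942) x1752) x2724) x10014) x18762) x7828) x14390)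
  (sub (add (add (sub (sub (sub (sub (sub (sub (sub C x1276) x1280) x1238) x1382) x950) x1760) x2732) x10022) x18770) x14394)
  (sub (add (add (sub (sub (sub (sub (sub (sub (sub C x1274) x1288) x1240) x1384) x952) x1762) x2734) x10024) x18772) x7836)
  (sub (add (add (sub (sub (sub (sub (sub (sub (sub C x1284) x1274) x1262) x1388) x956) x1766) x2738) x10028) x18776) x14400)
  (add (add (add (add (sub (sub (sub (sub (sub (sub (sub C x1280) x1290) x1266) x1392) x960) x1770) x2742) x10032) x18780) x7846) x14408)
  (sub (add (add (sub (sub (sub (sub (add (add (sub (sub C x1290) x1276) x1216) x1252) x1396) x964) x1774) x2746) x10036) x18784) x7848)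
  (add (add (add (add (sub (sub (sub (sub (add (add (sub (sub C x1288) x1284) x1218) x1254) x1398) x966) x1776) x2748) x10038) x18786) x7852) x14414)
  (add (add (add (add (sub (sub (sub (sub (add (add (add (add (add (add C x1300) x1304) x1308) x1320) x1332) x1368) x1242) x1134) x1782) x2754) x10044) x18792) x7858) x14420)
  (sub (add (add (sub (sub (sub (sub (add (add (sub (add (add C x1296) x1304) x1306) x1336) x1372) x1246) x1138) x1786) x2758) x10048) x18796) x7860)
  (sub (add (add (sub (sub (sub (sub (add (add (sub (add (add C x1296) x1300) x1316) x1340) x1376) x1250) x1142) x1790) x2762) x10052) x18800) x14424)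
  (sub (add (add (sub (sub (sub (sub (sub (sub (sub C x1308) x1300) x1324) x1252) x1144) x1792) x2764) x10054) x18802) x7866)
  (add (add (add (add (sub (sub (sub (sub (sub (add (add (sub C x1306) x1296) x1320) x1326) x1254) x1146) x1794) x2766) x10056) x18804) x7870) x14432)
  (sub (add (add (sub (sub (sub (sub (sub (sub (sub C x1320) x1304) x1352) x1262) x1154) x1802) x2774) x10064) x18812) x14436)
  (add (add (add (add (sub (sub (sub (sub (sub (add (add (sub C x1316) x1296) x1308) x1356) x1266) x1158) x1806) x2778) x10068) x18816) x7882) x14444)
  (sub (add (add (sub (sub (sub (add (add (sub (add (add (sub C x1326) x1336) x1348) x1306) x1216) x1432) x1162) x1810) x2782) x10072) x18820) x7884)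
  (add (add (add (add (sub (sub (sub (add (add (sub (sub (sub C x1324) x1332) x1308) x1218) x1434) x1164) x1812) x2784) x10074) x18822) x7888) x14450)
  (add (add (add (add (sub (sub (sub (add (add (add (add (sub (add (add C x1336) x1340) x1326) x1296) x1368) x1224) x1440) x1170) x1818) x2790) x10080) x18828) x7894) x14456)
  (sub (add (add (sub (sub (sub (add (add (add (add (add (add (add (add C x1332) x1340) x1324) x1348) x1300) x1372) x1228) x1444) x1174) x1822) x2794) x10084) x18832) x7896)
  (sub (add (add (sub (sub (sub (add (add (add (add (sub (add (add C x1332) x1336) x1346) x1304) x1376) x1232) x1448) x1178) x1826) x2798) x10088) x18836) x14460)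
  (sub (add (add (sub (sub (sub (add (add (sub (sub (sub C x1348) x1340) x1364) x1238) x1454) x1184) x1832) x2804) x10094) x18842) x14466)
  (sub (add (add (sub (sub (sub (add (add (sub (add (add (sub C x1346) x1324) x1336) x1366) x1240) x1456) x1186) x1834) x2806) x10096) x18844) x7908)
  (sub (add (add (sub (sub (sub (sub (sub (add (add (sub C x1356) x1364) x1376) x1316) x1406) x1190) x1838) x2810) x10100) x18848) x14472)
  (add (add (add (add (sub (sub (sub (sub (sub (sub (sub C x1352) x1368) x1320) x1410) x1194) x1842) x2814) x10104) x18852) x7918) x14480)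
  (sub (add (add (sub (sub (sub (sub (sub (add (add (sub C x1366) x1352) x1376) x1346) x1418) x1202) x1850) x2822) x10112) x18860) x14484)
  (sub (add (add (sub (sub (sub (sub (sub (sub (sub C x1364) x1372) x1348) x1420) x1204) x1852) x2824) x10114) x18862) x7926)
  (add (add (add (add (sub (sub (sub (sub (add (add (sub (add (add C x1372) x1376) x1356) x1296) x1332) x1422) x1206) x1854) x2826) x10116) x18864) x7930) x14492)
  (sub (add (add (sub (sub (sub (sub (add (add (sub (add (add C x1368) x1376) x1366) x1300) x1336) x1426) x1210) x1858) x2830) x10120) x18868) x7932)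
  (sub (add (add (sub (sub (sub (sub (add (add (add (add (add (add C x1368) x1372) x1352) x1364) x1304) x1340) x1430) x1214) x1862) x2834) x10124) x18872) x14496)
  (sub (add (add (sub (sub (add (add (sub (add (add (sub (sub C x1384) x1388) x1418) x1454) x1274) x734) x1058) x1868) x2840) x10130) x18878) x14502)
  (sub (add (add (sub (sub (add (add (sub (add (add (sub (sub C x1382) x1396) x1420) x1456) x1276) x736) x1060) x1870) x2842) x10132) x18880) x7944)
  (sub (add (add (sub (sub (add (add (sub (sub (sub (sub C x1392) x1382) x1406) x1280) x740) x1064) x1874) x2846) x10136) x18884) x14508)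
  (add (add (add (add (sub (sub (add (add (sub (sub (sub (sub C x1388) x1398) x1410) x1284) x744) x1068) x1878) x2850) x10140) x18888) x7954) x14516)
  (sub (add (add (sub (sub (add (add (sub (sub (sub (sub C x1398) x1384) x1432) x1288) x748) x1072) x1882) x2854) x10144) x18892) x7956)
  (add (add (add (add (sub (sub (add (add (sub (sub (sub (sub C x1396) x1392) x1434) x1290) x750) x1074) x1884) x2856) x10146) x18894) x7960) x14522)
  (sub (add (add (sub (sub (add (add (sub (sub (add (add (sub C x1410) x1418) x1430) x1388) x1352) x758) x1082) x1892) x2864) x10154) x18902) x14526)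
  (add (add (add (add (sub (sub (add (add (sub (sub (sub (sub C x1406) x1422) x1392) x1356) x762) x1086) x1896) x2868) x10158) x18906) x7972) x14534)
  (sub (add (add (sub (sub (add (add (sub (add (add (add (add (sub C x1420) x1406) x1430) x1382) x1454) x1364) x770) x1094) x1904) x2876) x10166) x18914) x14538)
  (sub (add (add (sub (sub (add (add (sub (add (add (sub (sub C x1418) x1426) x1384) x1456) x1366) x772) x1096) x1906) x2878) x10168) x18916) x7980)
  (add (add (add (add (sub (sub (add (add (sub (sub (sub (add (add C x1426) x1430) x1410) x1440) x1368) x774) x1098) x1908) x2880) x10170) x18918) x7984) x14546)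
  (sub (add (add (sub (sub (add (add (sub (sub (sub (add (add C x1422) x1430) x1420) x1444) x1372) x778) x1102) x1912) x2884) x10174) x18922) x7986)
  (sub (add (add (sub (sub (add (add (sub (sub (add (add (add (add C x1422) x1426) x1406) x1418) x1448) x1376) x782) x1106) x1916) x2888) x10178) x18926) x14550)
  (sub (add (add (sub (sub (add (add (add (add (sub (add (add (sub C x1434) x1444) x1456) x1396) x1216) x1324) x784) x1108) x1918) x2890) x10180) x18928) x7992)
  (add (add (add (add (sub (sub (add (add (add (add (sub (sub (sub C x1432) x1440) x1398) x1218) x1326) x786) x1110) x1920) x2892) x10182) x18930) x7996) x14558)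
  (add (add (add (add (sub (sub (add (add (add (add (sub (sub (add (add C x1444) x1448) x1434) x1422) x1224) x1332) x792) x1116) x1926) x2898) x10188) x18936) x8002) x14564)
  (sub (add (add (sub (sub (add (add (add (add (sub (add (add (add (add C x1440) x1448) x1432) x1456) x1426) x1228) x1336) x796) x1120) x1930) x2902) x10192) x18940) x8004)
  (sub (add (add (sub (sub (add (add (add (add (sub (sub (add (add C x1440) x1444) x1454) x1430) x1232) x1340) x800) x1124) x1934) x2906) x10196) x18944) x14568)
  (sub (add (add (sub (sub (add (add (add (add (add (add (sub (sub C x1456) x1448) x1382) x1418) x1238) x1346) x806) x1130) x1940) x2912) x10202) x18950) x14574)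
  (sub (add (add (sub (sub (add (add (add (add (add (add (add (add (sub C x1454) x1432) x1444) x1384) x1420) x1240) x1348) x808) x1132) x1942) x2914) x10204) x18952) x8016)
  (add (add (add (add (sub (sub (add (add (add (add (add (add (add (add (add (add C x1462) x1466) x1470) x1482) x1494) x1530) x1566) x1674) x1782) x2106) x486) x4374) x10206) x18954) x8020) x14582)
  (sub (add (add (sub (sub (add (add (add (add (add (add (sub (add (add C x1458) x1466) x1468) x1498) x1534) x1570) x1678) x1786) x2110) x490) x4378) x10210) x18958) x8022)
  (sub (add (add (sub (sub (add (add (add (add (add (add (sub (add (add C x1458) x1462) x1478) x1502) x1538) x1574) x1682) x1790) x2114) x494) x4382) x10214) x18962) x14586)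
  (sub (add (add (sub (sub (add (add (add (add (sub (sub (sub C x1470) x1462) x1486) x1576) x1684) x1792) x2116) x496) x4384) x10216) x18964) x8028)
  (add (add (add (add (sub (sub (add (add (add (add (sub (add (add (sub C x1468) x1458) x1482) x1488) x1578) x1686) x1794) x2118) x498) x4386) x10218) x18966) x8032) x14594)
  (sub (add (add (sub (sub (add (add (add (add (sub (sub (sub C x1482) x1466) x1514) x1586) x1694) x1802) x2126) x506) x4394) x10226) x18974) x14598)
  (add (add (add (add (sub (sub (add (add (add (add (sub (add (add (sub C x1478) x1458) x1470) x1518) x1590) x1698) x1806) x2130) x510) x4398) x10230) x18978) x8044) x14606)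
  (sub (add (add (sub (sub (add (add (sub (sub (add (add (sub C x1488) x1498) x1510) x1468) x1540) x1810) x2134) x514) x4402) x10234) x18982) x8046)
  (add (add (add (add (sub (sub (add (add (sub (sub (sub (sub C x1486) x1494) x1470) x1542) x1812) x2136) x516) x4404) x10236) x18984) x8050) x14612)
  (add (add (add (add (sub (sub (add (add (sub (add (add (sub (add (add C x1498) x1502) x1488) x1458) x1530) x1548) x1818) x2142) x522) x4410) x10242) x18990) x8056) x14618)
  (sub (add (add (sub (sub (add (add (sub (add (add (add (add (add (add C x1494) x1502) x1486) x1510) x1462) x1534) x1552) x1822) x2146) x526) x4414) x10246) x18994) x8058)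
  (sub (add (add (sub (sub (add (add (sub (add (add (sub (add (add C x1494) x1498) x1508) x1466) x1538) x1556) x1826) x2150) x530) x4418) x10250) x18998) x14622)
  (sub (add (add (sub (sub (add (add (sub (sub (sub (sub C x1510) x1502) x1526) x1562) x1832) x2156) x536) x4424) x10256) x19004) x14628)
  (sub (add (add (sub (sub (add (add (sub (sub (add (add (sub C x1508) x1486) x1498) x1528) x1564) x1834) x2158) x538) x4426) x10258) x19006) x8070)
  (sub (add (add (sub (sub (add (add (sub (sub (add (add (sub C x1518) x1526) x1538) x1478) x1622) x1838) x2162) x542) x4430) x10262) x19010) x14634)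
  (add (add (add (add (sub (sub (add (add (sub (sub (sub (sub C x1514) x1530) x1482) x1626) x1842) x2166) x546) x4434) x10266) x19014) x8080) x14642)
  (sub (add (add (sub (sub (add (add (sub (sub (add (add (sub C x1528) x1514) x1538) x1508) x1634) x1850) x2174) x554) x4442) x10274) x19022) x14646)
  (sub (add (add (sub (sub (add (add (sub (sub (sub (sub C x1526) x1534) x1510) x1636) x1852) x2176) x556) x4444) x10276) x19024) x8088)
  (add (add (add (add (sub (sub (add (add (sub (add (add (sub (add (add C x1534) x1538) x1518) x1458) x1494) x1638) x1854) x2178) x558) x4446) x10278) x19026) x8092) x14654)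
  (sub (add (add (sub (sub (add (add (sub (add (add (sub (add (add C x1530) x1538) x1528) x1462) x1498) x1642) x1858) x2182) x562) x4450) x10282) x19030) x8094)
  (sub (add (add (sub (sub (add (add (sub (add (add (add (add (add (add C x1530) x1534) x1514) x1526) x1466) x1502) x1646) x1862) x2186) x566) x4454) x10286) x19034) x14658)
  (sub (add (add (sub (sub (sub (sub (add (add (add (add (sub C x1542) x1552) x1564) x1576) x1612) x1486) x1702) x568) x4456) x10288) x19036) x8100)
  (add (add (add (add (sub (sub (sub (sub (add (add (sub (sub C x1540) x1548) x1578) x1614) x1488) x1704) x570) x4458) x10290) x19038) x8104) x14666)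
  (add (add (add (add (sub (sub (sub (sub (sub (sub (add (add C x1552) x1556) x1542) x1566) x1494) x1710) x576) x4464) x10296) x19044) x8110) x14672)
  (sub (add (add (sub (sub (sub (sub (sub (add (add (add (add C x1548) x1556) x1540) x1564) x1570) x1498) x1714) x580) x4468) x10300) x19048) x8112)
  (sub (add (add (sub (sub (sub (sub (sub (sub (add (add C x1548) x1552) x1562) x1574) x1502) x1718) x584) x4472) x10304) x19052) x14676)
  (sub (add (add (sub (sub (sub (sub (sub (sub (sub C x1564) x1556) x1598) x1508) x1724) x590) x4478) x10310) x19058) x14682)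
  (sub (add (add (sub (sub (sub (sub (sub (add (add (sub C x1562) x1540) x1552) x1600) x1510) x1726) x592) x4480) x10312) x19060) x8124)
  (add (add (add (add (sub (sub (sub (add (add (sub (add (add (add (add C x1570) x1574) x1578) x1590) x1548) x1458) x1674) x1728) x594) x4482) x10314) x19062) x8128) x14690)
  (sub (add (add (sub (sub (sub (add (add (sub (sub (add (add C x1566) x1574) x1576) x1552) x1462) x1678) x1732) x598) x4486) x10318) x19066) x8130)
  (sub (add (add (sub (sub (sub (add (add (sub (sub (add (add C x1566) x1570) x1586) x1556) x1466) x1682) x1736) x602) x4490) x10322) x19070) x14694)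
  (sub (add (add (sub (sub (sub (add (add (add (add (sub (sub C x1578) x1570) x1540) x1612) x1468) x1684) x1738) x604) x4492) x10324) x19072) x8136)
  (add (add (add (add (sub (sub (sub (add (add (add (add (add (add (sub C x1576) x1566) x1590) x1542) x1614) x1470) x1686) x1740) x606) x4494) x10326) x19074) x8140) x14702)
  (sub (add (add (sub (sub (sub (add (add (sub (sub (sub C x1590) x1574) x1604) x1478) x1694) x1748) x614) x4502) x10334) x19082) x14706)
  (add (add (add (add (sub (sub (sub (add (add (sub (add (add (sub C x1586) x1566) x1578) x1608) x1482) x1698) x1752) x618) x4506) x10338) x19086) x8152) x14714)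
  (sub (add (add (sub (sub (sub (sub (sub (sub (sub C x1600) x1604) x1562) x1652) x1760) x626) x4514) x10346) x19094) x14718)
  (sub (add (add (sub (sub (sub (sub (sub (sub (sub C x1598) x1612) x1564) x1654) x1762) x628) x4516) x10348) x19096) x8160)
  (sub (add (add (sub (sub (sub (sub (sub (sub (sub C x1608) x1598) x1586) x1658) x1766) x632) x4520) x10352) x19100) x14724)
  (add (add (add (add (sub (sub (sub (sub (sub (sub (sub C x1604) x1614) x1590) x1662) x1770) x636) x4524) x10356) x19104) x8170) x14732)
  (sub (add (add (sub (sub (sub (sub (add (add (sub (sub C x1614) x1600) x1540) x1576) x1666) x1774) x640) x4528) x10360) x19108) x8172)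
  (add (add (add (add (sub (sub (sub (sub (add (add (sub (sub C x1612) x1608) x1542) x1578) x1668) x1776) x642) x4530) x10362) x19110) x8176) x14738)
  (sub (add (add (sub (sub (sub (sub (add (add (add (add (sub C x1626) x1634) x1646) x1658) x1694) x1514) x1946) x650) x4538) x10370) x19118) x14742)
  (add (add (add (add (sub (sub (sub (sub (add (add (sub (sub C x1622) x1638) x1662) x1698) x1518) x1950) x654) x4542) x10374) x19122) x8188) x14750)
  (sub (add (add (sub (sub (sub (sub (sub (add (add (sub C x1636) x1622) x1646) x1652) x1526) x1958) x662) x4550) x10382) x19130) x14754)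
  (sub (add (add (sub (sub (sub (sub (sub (sub (sub C x1634) x1642) x1654) x1528) x1960) x664) x4552) x10384) x19132) x8196)
  (add (add (add (add (sub (sub (sub (sub (sub (sub (add (add C x1642) x1646) x1626) x1674) x1530) x1962) x666) x4554) x10386) x19134) x8200) x14762)
  (sub (add (add (sub (sub (sub (sub (sub (sub (add (add C x1638) x1646) x1636) x1678) x1534) x1966) x670) x4558) x10390) x19138) x8202)
  (sub (add (add (sub (sub (sub (sub (sub (add (add (add (add C x1638) x1642) x1622) x1634) x1682) x1538) x1970) x674) x4562) x10394) x19142) x14766)
  (sub (add (add (sub (sub (sub (sub (sub (sub (sub C x1654) x1658) x1634) x1598) x1976) x680) x4568) x10400) x19148) x14772)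
  (sub (add (add (sub (sub (sub (sub (sub (sub (sub C x1652) x1666) x1636) x1600) x1978) x682) x4570) x10402) x19150) x8214)
  (sub (add (add (sub (sub (sub (sub (add (add (sub (sub C x1662) x1652) x1622) x1694) x1604) x1982) x686) x4574) x10406) x19154) x14778)
  (add (add (add (add (sub (sub (sub (sub (add (add (sub (sub C x1658) x1668) x1626) x1698) x1608) x1986) x690) x4578) x10410) x19158) x8224) x14786)
  (sub (add (add (sub (sub (sub (sub (sub (sub (sub C x1668) x1654) x1684) x1612) x1990) x694) x4582) x10414) x19162) x8226)
  (add (add (add (add (sub (sub (sub (sub (sub (sub (sub C x1666) x1662) x1686) x1614) x1992) x696) x4584) x10416) x19164) x8230) x14792)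
  (add (add (add (add (sub (sub (sub (add (add (sub (add (add (add (add C x1678) x1682) x1686) x1698) x1638) x1458) x1566) x1998) x702) x4590) x10422) x19170) x8236) x14798)
  (sub (add (add (sub (sub (sub (add (add (sub (sub (add (add C x1674) x1682) x1684) x1642) x1462) x1570) x2002) x706) x4594) x10426) x19174) x8238)
  (sub (add (add (sub (sub (sub (add (add (sub (sub (add (add C x1674) x1678) x1694) x1646) x1466) x1574) x2006) x710) x4598) x10430) x19178) x14802)
  (sub (add (add (sub (sub (sub (add (add (sub (sub (sub C x1686) x1678) x1666) x1468) x1576) x2008) x712) x4600) x10432) x19180) x8244)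
  (add (add (add (add (sub (sub (sub (add (add (sub (add (add (sub C x1684) x1674) x1698) x1668) x1470) x1578) x2010) x714) x4602) x10434) x19182) x8248) x14810)
  (sub (add (add (sub (sub (sub (add (add (add (add (sub (sub C x1698) x1682) x1622) x1658) x1478) x1586) x2018) x722) x4610) x10442) x19190) x14814)
  (add (add (add (add (sub (sub (sub (add (add (add (add (add (add (sub C x1694) x1674) x1686) x1626) x1662) x1482) x1590) x2022) x726) x4614) x10446) x19194) x8260) x14822)
  (sub (add (add (sub (sub (sub (add (add (add (add (add (add (sub C x1704) x1714) x1726) x1738) x1774) x1810) x1918) x1540) x1216) x4618) x10450) x19198) x8262)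
  (add (add (add (add (sub (sub (sub (add (add (add (add (sub (sub C x1702) x1710) x1740) x1776) x1812) x1920) x1542) x1218) x4620) x10452) x19200) x8266) x14828)
  (add (add (add (add (sub (sub (sub (add (add (sub (sub (add (add C x1714) x1718) x1704) x1728) x1818) x1926) x1548) x1224) x4626) x10458) x19206) x8272) x14834)
  (sub (add (add (sub (sub (sub (add (add (sub (add (add (add (add C x1710) x1718) x1702) x1726) x1732) x1822) x1930) x1552) x1228) x4630) x10462) x19210) x8274)
  (sub (add (add (sub (sub (sub (add (add (sub (sub (add (add C x1710) x1714) x1724) x1736) x1826) x1934) x1556) x1232) x4634) x10466) x19214) x14838)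
  (sub (add (add (sub (sub (sub (add (add (sub (sub (sub C x1726) x1718) x1760) x1832) x1940) x1562) x1238) x4640) x10472) x19220) x14844)
  (sub (add (add (sub (sub (sub (add (add (sub (add (add (sub C x1724) x1702) x1714) x1762) x1834) x1942) x1564) x1240) x4642) x10474) x19222) x8286)
  (add (add (add (add (sub (sub (sub (sub (sub (add (add (add (add C x1732) x1736) x1740) x1752) x1710) x1782) x1566) x1242) x4644) x10476) x19224) x8290) x14852)
  (sub (add (add (sub (sub (sub (sub (sub (sub (add (add C x1728) x1736) x1738) x1714) x1786) x1570) x1246) x4648) x10480) x19228) x8292)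
  (sub (add (add (sub (sub (sub (sub (sub (sub (add (add C x1728) x1732) x1748) x1718) x1790) x1574) x1250) x4652) x10484) x19232) x14856)
  (sub (add (add (sub (sub (sub (sub (add (add (sub (sub C x1740) x1732) x1702) x1774) x1792) x1576) x1252) x4654) x10486) x19234) x8298)
  (add (add (add (add (sub (sub (sub (sub (add (add (add (add (sub C x1738) x1728) x1752) x1704) x1776) x1794) x1578) x1254) x4656) x10488) x19236) x8302) x14864)
  (sub (add (add (sub (sub (sub (sub (sub (sub (sub C x1752) x1736) x1766) x1802) x1586) x1262) x4664) x10496) x19244) x14868)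
  (add (add (add (add (sub (sub (sub (sub (sub (add (add (sub C x1748) x1728) x1740) x1770) x1806) x1590) x1266) x4668) x10500) x19248) x8314) x14876)
  (sub (add (add (sub (sub (sub (sub (sub (sub (sub C x1762) x1766) x1724) x1868) x1598) x1274) x4676) x10508) x19256) x14880)
  (sub (add (add (sub (sub (sub (sub (sub (sub (sub C x1760) x1774) x1726) x1870) x1600) x1276) x4678) x10510) x19258) x8322)
  (sub (add (add (sub (sub (sub (sub (sub (sub (sub C x1770) x1760) x1748) x1874) x1604) x1280) x4682) x10514) x19262) x14886)
  (add (add (add (add (sub (sub (sub (sub (sub (sub (sub C x1766) x1776) x1752) x1878) x1608) x1284) x4686) x10518) x19266) x8332) x14894)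
  (sub (add (add (sub (sub (sub (sub (add (add (sub (sub C x1776) x1762) x1702) x1738) x1882) x1612) x1288) x4690) x10522) x19270) x8334)
  (add (add (add (add (sub (sub (sub (sub (add (add (sub (sub C x1774) x1770) x1704) x1740) x1884) x1614) x1290) x4692) x10524) x19272) x8338) x14900)
  (add (add (add (add (sub (sub (add (add (sub (add (add (add (add (add (add C x1786) x1790) x1794) x1806) x1818) x1854) x1728) x1458) x2106) x1296) x4698) x10530) x19278) x8344) x14906)
  (sub (add (add (sub (sub (add (add (sub (add (add (sub (add (add C x1782) x1790) x1792) x1822) x1858) x1732) x1462) x2110) x1300) x4702) x10534) x19282) x8346)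
  (sub (add (add (sub (sub (add (add (sub (add (add (sub (add (add C x1782) x1786) x1802) x1826) x1862) x1736) x1466) x2114) x1304) x4706) x10538) x19286) x14910)
  (sub (add (add (sub (sub (add (add (sub (sub (sub (sub C x1794) x1786) x1810) x1738) x1468) x2116) x1306) x4708) x10540) x19288) x8352)
  (add (add (add (add (sub (sub (add (add (sub (sub (add (add (sub C x1792) x1782) x1806) x1812) x1740) x1470) x2118) x1308) x4710) x10542) x19290) x8356) x14918)
  (sub (add (add (sub (sub (add (add (sub (sub (sub (sub C x1806) x1790) x1838) x1748) x1478) x2126) x1316) x4718) x10550) x19298) x14922)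
  (add (add (add (add (sub (sub (add (add (sub (sub (add (add (sub C x1802) x1782) x1794) x1842) x1752) x1482) x2130) x1320) x4722) x10554) x19302) x8368) x14930)
  (sub (add (add (sub (sub (add (add (add (add (sub (add (add (sub C x1812) x1822) x1834) x1792) x1702) x1918) x1486) x2134) x1324) x4726) x10558) x19306) x8370)
  (add (add (add (add (sub (sub (add (add (add (add (sub (sub (sub C x1810) x1818) x1794) x1704) x1920) x1488) x2136) x1326) x4728) x10560) x19308) x8374) x14936)
  (add (add (add (add (sub (sub (add (add (add (add (add (add (sub (add (add C x1822) x1826) x1812) x1782) x1854) x1710) x1926) x1494) x2142) x1332) x4734) x10566) x19314) x8380) x14942)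
  (sub (add (add (sub (sub (add (add (add (add (add (add (add (add (add (add C x1818) x1826) x1810) x1834) x1786) x1858) x1714) x1930) x1498) x2146) x1336) x4738) x10570) x19318) x8382)
  (sub (add (add (sub (sub (add (add (add (add (add (add (sub (add (add C x1818) x1822) x1832) x1790) x1862) x1718) x1934) x1502) x2150) x1340) x4742) x10574) x19322) x14946)
  (sub (add (add (sub (sub (add (add (add (add (sub (sub (sub C x1834) x1826) x1850) x1724) x1940) x1508) x2156) x1346) x4748) x10580) x19328) x14952)
  (sub (add (add (sub (sub (add (add (add (add (sub (add (add (sub C x1832) x1810) x1822) x1852) x1726) x1942) x1510) x2158) x1348) x4750) x10582) x19330) x8394)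
  (sub (add (add (sub (sub (add (add (sub (sub (add (add (sub C x1842) x1850) x1862) x1802) x1892) x1514) x2162) x1352) x4754) x10586) x19334) x14958)
  (add (add (add (add (sub (sub (add (add (sub (sub (sub (sub C x1838) x1854) x1806) x1896) x1518) x2166) x1356) x4758) x10590) x19338) x8404) x14966)
  (sub (add (add (sub (sub (add (add (sub (sub (add (add (sub C x1852) x1838) x1862) x1832) x1904) x1526) x2174) x1364) x4766) x10598) x19346) x14970)
  (sub (add (add (sub (sub (add (add (sub (sub (sub (sub C x1850) x1858) x1834) x1906) x1528) x2176) x1366) x4768) x10600) x19348) x8412)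
  (add (add (add (add (sub (sub (add (add (sub (add (add (sub (add (add C x1858) x1862) x1842) x1782) x1818) x1908) x1530) x2178) x1368) x4770) x10602) x19350) x8416) x14978)
  (sub (add (add (sub (sub (add (add (sub (add (add (sub (add (add C x1854) x1862) x1852) x1786) x1822) x1912) x1534) x2182) x1372) x4774) x10606) x19354) x8418)
  (sub (add (add (sub (sub (add (add (sub (add (add (add (add (add (add C x1854) x1858) x1838) x1850) x1790) x1826) x1916) x1538) x2186) x1376) x4778) x10610) x19358) x14982)
  (sub (add (add (sub (sub (sub (sub (add (add (sub (sub C x1870) x1874) x1904) x1940) x1760) x2030) x1382) x4784) x10616) x19364) x14988)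
  (sub (add (add (sub (sub (sub (sub (add (add (sub (sub C x1868) x1882) x1906) x1942) x1762) x2032) x1384) x4786) x10618) x19366) x8430)
  (sub (add (add (sub (sub (sub (sub (sub (sub (sub C x1878) x1868) x1892) x1766) x2036) x1388) x4790) x10622) x19370) x14994)
  (add (add (add (add (sub (sub (sub (sub (sub (sub (sub C x1874) x1884) x1896) x1770) x2040) x1392) x4794) x10626) x19374) x8440) x15002)
  (sub (add (add (sub (sub (sub (sub (sub (sub (sub C x1884) x1870) x1918) x1774) x2044) x1396) x4798) x10630) x19378) x8442)
  (add (add (add (add (sub (sub (sub (sub (sub (sub (sub C x1882) x1878) x1920) x1776) x2046) x1398) x4800) x10632) x19380) x8446) x15008)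
  (sub (add (add (sub (sub (sub (sub (sub (add (add (sub C x1896) x1904) x1916) x1874) x1838) x2054) x1406) x4808) x10640) x19388) x15012)
  (add (add (add (add (sub (sub (sub (sub (sub (sub (sub C x1892) x1908) x1878) x1842) x2058) x1410) x4812) x10644) x19392) x8458) x15020)
  (sub (add (add (sub (sub (sub (sub (add (add (add (add (sub C x1906) x1892) x1916) x1868) x1940) x1850) x2066) x1418) x4820) x10652) x19400) x15024)
  (sub (add (add (sub (sub (sub (sub (add (add (sub (sub C x1904) x1912) x1870) x1942) x1852) x2068) x1420) x4822) x10654) x19402) x8466)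
  (add (add (add (add (sub (sub (sub (sub (sub (sub (add (add C x1912) x1916) x1896) x1926) x1854) x2070) x1422) x4824) x10656) x19404) x8470) x15032)
  (sub (add (add (sub (sub (sub (sub (sub (sub (add (add C x1908) x1916) x1906) x1930) x1858) x2074) x1426) x4828) x10660) x19408) x8472)
  (sub (add (add (sub (sub (sub (sub (sub (add (add (add (add C x1908) x1912) x1892) x1904) x1934) x1862) x2078) x1430) x4832) x10664) x19412) x15036)
  (sub (add (add (sub (sub (sub (add (add (sub (add (add (sub C x1920) x1930) x1942) x1882) x1702) x1810) x2080) x1432) x4834) x10666) x19414) x8478)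
  (add (add (add (add (sub (sub (sub (add (add (sub (sub (sub C x1918) x1926) x1884) x1704) x1812) x2082) x1434) x4836) x10668) x19416) x8482) x15044)
  (add (add (add (add (sub (sub (sub (add (add (sub (sub (add (add C x1930) x1934) x1920) x1908) x1710) x1818) x2088) x1440) x4842) x10674) x19422) x8488) x15050)
  (sub (add (add (sub (sub (sub (add (add (sub (add (add (add (add C x1926) x1934) x1918) x1942) x1912) x1714) x1822) x2092) x1444) x4846) x10678) x19426) x8490)
  (sub (add (add (sub (sub (sub (add (add (sub (sub (add (add C x1926) x1930) x1940) x1916) x1718) x1826) x2096) x1448) x4850) x10682) x19430) x15054)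
  (sub (add (add (sub (sub (sub (add (add (add (add (sub (sub C x1942) x1934) x1868) x1904) x1724) x1832) x2102) x1454) x4856) x10688) x19436) x15060)
  (sub (add (add (sub (sub (sub (add (add (add (add (add (add (sub C x1940) x1918) x1930) x1870) x1906) x1726) x1834) x2104) x1456) x4858) x10690) x19438) x8502)
  (sub (add (add (sub (add (add (sub (add (add (add (add (add (add (sub C x1950) x1958) x1970) x1982) x2018) x2054) x2162) x1622) x2) x974) x4862) x10694) x19442) x15066)
  (add (add (add (add (sub (add (add (sub (add (add (add (add (sub (sub C x1946) x1962) x1986) x2022) x2058) x2166) x1626) x6) x978) x4866) x10698) x19446) x8512) x15074)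
  (sub (add (add (sub (add (add (sub (add (add (sub (add (add (sub C x1960) x1946) x1970) x1976) x2066) x2174) x1634) x14) x986) x4874) x10706) x19454) x15078)
  (sub (add (add (sub (add (add (sub (add (add (sub (sub (sub C x1958) x1966) x1978) x2068) x2176) x1636) x16) x988) x4876) x10708) x19456) x8520)
  (add (add (add (add (sub (add (add (sub (add (add (sub (sub (add (add C x1966) x1970) x1950) x1998) x2070) x2178) x1638) x18) x990) x4878) x10710) x19458) x8524) x15086)
  (sub (add (add (sub (add (add (sub (add (add (sub (sub (add (add C x1962) x1970) x1960) x2002) x2074) x2182) x1642) x22) x994) x4882) x10714) x19462) x8526)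
  (sub (add (add (sub (add (add (sub (add (add (sub (add (add (add (add C x1962) x1966) x1946) x1958) x2006) x2078) x2186) x1646) x26) x998) x4886) x10718) x19466) x15090)
  (sub (add (add (sub (add (add (sub (sub (sub (sub (sub C x1978) x1982) x1958) x2030) x1652) x32) x1004) x4892) x10724) x19472) x15096)
  (sub (add (add (sub (add (add (sub (sub (sub (sub (sub C x1976) x1990) x1960) x2032) x1654) x34) x1006) x4894) x10726) x19474) x8538)
  (sub (add (add (sub (add (add (sub (sub (add (add (sub (sub C x1986) x1976) x1946) x2018) x2036) x1658) x38) x1010) x4898) x10730) x19478) x15102)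
  (add (add (add (add (sub (add (add (sub (sub (add (add (sub (sub C x1982) x1992) x1950) x2022) x2040) x1662) x42) x1014) x4902) x10734) x19482) x8548) x15110)
  (sub (add (add (sub (add (add (sub (sub (sub (sub (sub C x1992) x1978) x2008) x2044) x1666) x46) x1018) x4906) x10738) x19486) x8550)
  (add (add (add (add (sub (add (add (sub (sub (sub (sub (sub C x1990) x1986) x2010) x2046) x1668) x48) x1020) x4908) x10740) x19488) x8554) x15116)
  (add (add (add (add (sub (add (add (sub (sub (sub (add (add (add (add C x2002) x2006) x2010) x2022) x1962) x2106) x1674) x54) x1026) x4914) x10746) x19494) x8560) x15122)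
  (sub (add (add (sub (add (add (sub (sub (sub (sub (add (add C x1998) x2006) x2008) x1966) x2110) x1678) x58) x1030) x4918) x10750) x19498) x8562)
  (sub (add (add (sub (add (add (sub (sub (sub (sub (add (add C x1998) x2002) x2018) x1970) x2114) x1682) x62) x1034) x4922) x10754) x19502) x15126)
  (sub (add (add (sub (add (add (sub (sub (sub (sub (sub C x2010) x2002) x1990) x2116) x1684) x64) x1036) x4924) x10756) x19504) x8568)
  (add (add (add (add (sub (add (add (sub (sub (sub (add (add (sub C x2008) x1998) x2022) x1992) x2118) x1686) x66) x1038) x4926) x10758) x19506) x8572) x15134)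
  (sub (add (add (sub (add (add (sub (sub (add (add (sub (sub C x2022) x2006) x1946) x1982) x2126) x1694) x74) x1046) x4934) x10766) x19514) x15138)
  (add (add (add (add (sub (add (add (sub (sub (add (add (add (add (sub C x2018) x1998) x2010) x1950) x1986) x2130) x1698) x78) x1050) x4938) x10770) x19518) x8584) x15146)
  (sub (add (add (sub (add (add (sub (sub (add (add (sub (sub C x2032) x2036) x2066) x2102) x1976) x1868) x86) x1058) x4946) x10778) x19526) x15150)
  (sub (add (add (sub (add (add (sub (sub (add (add (sub (sub C x2030) x2044) x2068) x2104) x1978) x1870) x88) x1060) x4948) x10780) x19528) x8592)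
  (sub (add (add (sub (add (add (sub (sub (sub (sub (sub C x2040) x2030) x2054) x1982) x1874) x92) x1064) x4952) x10784) x19532) x15156)
  (add (add (add (add (sub (add (add (sub (sub (sub (sub (sub C x2036) x2046) x2058) x1986) x1878) x96) x1068) x4956) x10788) x19536) x8602) x15164)
  (sub (add (add (sub (add (add (sub (sub (sub (sub (sub C x2046) x2032) x2080) x1990) x1882) x100) x1072) x4960) x10792) x19540) x8604)
  (add (add (add (add (sub (add (add (sub (sub (sub (sub (sub C x2044) x2040) x2082) x1992) x1884) x102) x1074) x4962) x10794) x19542) x8608) x15170)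
  (sub (add (add (sub (add (add (sub (add (add (sub (add (add (sub C x2058) x2066) x2078) x2036) x1946) x2162) x1892) x110) x1082) x4970) x10802) x19550) x15174)
  (add (add (add (add (sub (add (add (sub (add (add (sub (sub (sub C x2054) x2070) x2040) x1950) x2166) x1896) x114) x1086) x4974) x10806) x19554) x8620) x15182)
  (sub (add (add (sub (add (add (sub (add (add (add (add (add (add (sub C x2068) x2054) x2078) x2030) x2102) x1958) x2174) x1904) x122) x1094) x4982) x10814) x19562) x15186)
  (sub (add (add (sub (add (add (sub (add (add (add (add (sub (sub C x2066) x2074) x2032) x2104) x1960) x2176) x1906) x124) x1096) x4984) x10816) x19564) x8628)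
  (add (add (add (add (sub (add (add (sub (add (add (sub (sub (add (add C x2074) x2078) x2058) x2088) x1962) x2178) x1908) x126) x1098) x4986) x10818) x19566) x8632) x15194)
  (sub (add (add (sub (add (add (sub (add (add (sub (sub (add (add C x2070) x2078) x2068) x2092) x1966) x2182) x1912) x130) x1102) x4990) x10822) x19570) x8634)
  (sub (add (add (sub (add (add (sub (add (add (sub (add (add (add (add C x2070) x2074) x2054) x2066) x2096) x1970) x2186) x1916) x134) x1106) x4994) x10826) x19574) x15198)
  (sub (add (add (sub (add (add (sub (sub (sub (add (add (sub C x2082) x2092) x2104) x2044) x2134) x1918) x136) x1108) x4996) x10828) x19576) x8640)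
  (add (add (add (add (sub (add (add (sub (sub (sub (sub (sub C x2080) x2088) x2046) x2136) x1920) x138) x1110) x4998) x10830) x19578) x8644) x15206)
  (add (add (add (add (sub (add (add (sub (sub (sub (sub (add (add C x2092) x2096) x2082) x2070) x2142) x1926) x144) x1116) x5004) x10836) x19584) x8650) x15212)
  (sub (add (add (sub (add (add (sub (sub (sub (add (add (add (add C x2088) x2096) x2080) x2104) x2074) x2146) x1930) x148) x1120) x5008) x10840) x19588) x8652)
  (sub (add (add (sub (add (add (sub (sub (sub (sub (add (add C x2088) x2092) x2102) x2078) x2150) x1934) x152) x1124) x5012) x10844) x19592) x15216)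
  (sub (add (add (sub (add (add (sub (sub (add (add (sub (sub C x2104) x2096) x2030) x2066) x2156) x1940) x158) x1130) x5018) x10850) x19598) x15222)
  (sub (add (add (sub (add (add (sub (sub (add (add (add (add (sub C x2102) x2080) x2092) x2032) x2068) x2158) x1942) x160) x1132) x5020) x10852) x19600) x8664)
  (add (add (add (add (sub (add (add (add (add (sub (add (add (add (add (add (add C x2110) x2114) x2118) x2130) x2142) x2178) x1998) x1458) x1782) x162) x1134) x5022) x10854) x19602) x8668) x15230)
  (sub (add (add (sub (add (add (add (add (sub (add (add (sub (add (add C x2106) x2114) x2116) x2146) x2182) x2002) x1462) x1786) x166) x1138) x5026) x10858) x19606) x8670)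
  (sub (add (add (sub (add (add (add (add (sub (add (add (sub (add (add C x2106) x2110) x2126) x2150) x2186) x2006) x1466) x1790) x170) x1142) x5030) x10862) x19610) x15234)
  (sub (add (add (sub (add (add (add (add (sub (sub (sub (sub C x2118) x2110) x2134) x2008) x1468) x1792) x172) x1144) x5032) x10864) x19612) x8676)
  (add (add (add (add (sub (add (add (add (add (sub (sub (add (add (sub C x2116) x2106) x2130) x2136) x2010) x1470) x1794) x174) x1146) x5034) x10866) x19614) x8680) x15242)
  (sub (add (add (sub (add (add (add (add (sub (sub (sub (sub C x2130) x2114) x2162) x2018) x1478) x1802) x182) x1154) x5042) x10874) x19622) x15246)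
  (add (add (add (add (sub (add (add (add (add (sub (sub (add (add (sub C x2126) x2106) x2118) x2166) x2022) x1482) x1806) x186) x1158) x5046) x10878) x19626) x8692) x15254)
  (sub (add (add (sub (add (add (add (add (sub (sub (add (add (sub C x2136) x2146) x2158) x2116) x2080) x1486) x1810) x190) x1162) x5050) x10882) x19630) x8694)
  (add (add (add (add (sub (add (add (add (add (sub (sub (sub (sub C x2134) x2142) x2118) x2082) x1488) x1812) x192) x1164) x5052) x10884) x19632) x8698) x15260)
  (add (add (add (add (sub (add (add (add (add (sub (add (add (sub (add (add C x2146) x2150) x2136) x2106) x2178) x2088) x1494) x1818) x198) x1170) x5058) x10890) x19638) x8704) x15266)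
  (sub (add (add (sub (add (add (add (add (sub (add (add (add (add (add (add C x2142) x2150) x2134) x2158) x2110) x2182) x2092) x1498) x1822) x202) x1174) x5062) x10894) x19642) x8706)
  (sub (add (add (sub (add (add (add (add (sub (add (add (sub (add (add C x2142) x2146) x2156) x2114) x2186) x2096) x1502) x1826) x206) x1178) x5066) x10898) x19646) x15270)
  (sub (add (add (sub (add (add (add (add (sub (sub (sub (sub C x2158) x2150) x2174) x2102) x1508) x1832) x212) x1184) x5072) x10904) x19652) x15276)
  (sub (add (add (sub (add (add (add (add (sub (sub (add (add (sub C x2156) x2134) x2146) x2176) x2104) x1510) x1834) x214) x1186) x5074) x10906) x19654) x8718)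
  (sub (add (add (sub (add (add (add (add (add (add (sub (add (add (sub C x2166) x2174) x2186) x2126) x1946) x2054) x1514) x1838) x218) x1190) x5078) x10910) x19658) x15282)
  (add (add (add (add (sub (add (add (add (add (add (add (sub (sub (sub C x2162) x2178) x2130) x1950) x2058) x1518) x1842) x222) x1194) x5082) x10914) x19662) x8728) x15290)
  (sub (add (add (sub (add (add (add (add (add (add (sub (add (add (sub C x2176) x2162) x2186) x2156) x1958) x2066) x1526) x1850) x230) x1202) x5090) x10922) x19670) x15294)
  (sub (add (add (sub (add (add (add (add (add (add (sub (sub (sub C x2174) x2182) x2158) x1960) x2068) x1528) x1852) x232) x1204) x5092) x10924) x19672) x8736)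
  (add (add (add (add (sub (add (add (add (add (add (add (add (add (sub (add (add C x2182) x2186) x2166) x2106) x2142) x1962) x2070) x1530) x1854) x234) x1206) x5094) x10926) x19674) x8740) x15302)
  (sub (add (add (sub (add (add (add (add (add (add (add (add (sub (add (add C x2178) x2186) x2176) x2110) x2146) x1966) x2074) x1534) x1858) x238) x1210) x5098) x10930) x19678) x8742)
  (sub (add (add (sub (add (add (add (add (add (add (add (add (add (add (add (add C x2178) x2182) x2162) x2174) x2114) x2150) x1970) x2078) x1538) x1862) x242) x1214) x5102) x10934) x19682) x15306)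
  (sub (sub (sub (add (add (add (add (add (add (add (add (sub (sub C x2194) x2198) x2228) x2264) x2300) x2408) x2516) x2840) x3164) x4136) x734) x6566) x15312)
  (sub (sub (sub (add (add (add (add (add (add (add (add (sub (sub C x2192) x2206) x2230) x2266) x2302) x2410) x2518) x2842) x3166) x4138) x736) x6568) x8754)
  (sub (sub (sub (add (add (add (add (add (add (sub (sub (sub C x2202) x2192) x2216) x2306) x2414) x2522) x2846) x3170) x4142) x740) x6572) x15318)
  (add (add (sub (sub (add (add (add (add (add (add (sub (sub (sub C x2198) x2208) x2220) x2310) x2418) x2526) x2850) x3174) x4146) x744) x6576) x8764) x15326)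
  (sub (sub (sub (add (add (add (add (add (add (sub (sub (sub C x2208) x2194) x2242) x2314) x2422) x2530) x2854) x3178) x4150) x748) x6580) x8766)
  (add (add (sub (sub (add (add (add (add (add (add (sub (sub (sub C x2206) x2202) x2244) x2316) x2424) x2532) x2856) x3180) x4152) x750) x6582) x8770) x15332)
  (sub (sub (sub (add (add (add (add (sub (sub (add (add (sub C x2220) x2228) x2240) x2198) x2270) x2540) x2864) x3188) x4160) x758) x6590) x15336)
  (add (add (sub (sub (add (add (add (add (sub (sub (sub (sub C x2216) x2232) x2202) x2274) x2544) x2868) x3192) x4164) x762) x6594) x8782) x15344)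
  (sub (sub (sub (add (add (add (add (sub (add (add (add (add (sub C x2230) x2216) x2240) x2192) x2264) x2282) x2552) x2876) x3200) x4172) x770) x6602) x15348)
  (sub (sub (sub (add (add (add (add (sub (add (add (sub (sub C x2228) x2236) x2194) x2266) x2284) x2554) x2878) x3202) x4174) x772) x6604) x8790)
  (add (add (sub (sub (add (add (add (add (sub (sub (sub (add (add C x2236) x2240) x2220) x2250) x2286) x2556) x2880) x3204) x4176) x774) x6606) x8794) x15356)
  (sub (sub (sub (add (add (add (add (sub (sub (sub (add (add C x2232) x2240) x2230) x2254) x2290) x2560) x2884) x3208) x4180) x778) x6610) x8796)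
  (sub (sub (sub (add (add (add (add (sub (sub (add (add (add (add C x2232) x2236) x2216) x2228) x2258) x2294) x2564) x2888) x3212) x4184) x782) x6614) x15360)
  (sub (sub (sub (add (add (add (add (sub (sub (add (add (sub C x2244) x2254) x2266) x2206) x2350) x2566) x2890) x3214) x4186) x784) x6616) x8802)
  (add (add (sub (sub (add (add (add (add (sub (sub (sub (sub C x2242) x2250) x2208) x2352) x2568) x2892) x3216) x4188) x786) x6618) x8806) x15368)
  (add (add (sub (sub (add (add (add (add (sub (sub (sub (add (add C x2254) x2258) x2244) x2232) x2358) x2574) x2898) x3222) x4194) x792) x6624) x8812) x15374)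
  (sub (sub (sub (add (add (add (add (sub (sub (add (add (add (add C x2250) x2258) x2242) x2266) x2236) x2362) x2578) x2902) x3226) x4198) x796) x6628) x8814)
  (sub (sub (sub (add (add (add (add (sub (sub (sub (add (add C x2250) x2254) x2264) x2240) x2366) x2582) x2906) x3230) x4202) x800) x6632) x15378)
  (sub (sub (sub (add (add (add (add (sub (add (add (sub (sub C x2266) x2258) x2192) x2228) x2372) x2588) x2912) x3236) x4208) x806) x6638) x15384)
  (sub (sub (sub (add (add (add (add (sub (add (add (add (add (sub C x2264) x2242) x2254) x2194) x2230) x2374) x2590) x2914) x3238) x4210) x808) x6640) x8826)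
  (sub (sub (sub (add (add (sub (sub (add (add (add (add (sub C x2274) x2282) x2294) x2306) x2342) x2216) x2432) x3242) x4214) x812) x6644) x15390)
  (add (add (sub (sub (add (add (sub (sub (add (add (sub (sub C x2270) x2286) x2310) x2346) x2220) x2436) x3246) x4218) x816) x6648) x8836) x15398)
  (sub (sub (sub (add (add (sub (sub (sub (add (add (sub C x2284) x2270) x2294) x2300) x2228) x2444) x3254) x4226) x824) x6656) x15402)
  (sub (sub (sub (add (add (sub (sub (sub (sub (sub C x2282) x2290) x2302) x2230) x2446) x3256) x4228) x826) x6658) x8844)
  (add (add (sub (sub (add (add (sub (sub (sub (sub (add (add C x2290) x2294) x2274) x2322) x2232) x2448) x3258) x4230) x828) x6660) x8848) x15410)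
  (sub (sub (sub (add (add (sub (sub (sub (sub (add (add C x2286) x2294) x2284) x2326) x2236) x2452) x3262) x4234) x832) x6664) x8850)
  (sub (sub (sub (add (add (sub (sub (sub (add (add (add (add C x2286) x2290) x2270) x2282) x2330) x2240) x2456) x3266) x4238) x836) x6668) x15414)
  (sub (sub (sub (add (add (sub (add (add (sub (sub (sub C x2302) x2306) x2282) x2192) x2408) x2462) x3272) x4244) x842) x6674) x15420)
  (sub (sub (sub (add (add (sub (add (add (sub (sub (sub C x2300) x2314) x2284) x2194) x2410) x2464) x3274) x4246) x844) x6676) x8862)
  (sub (sub (sub (add (add (sub (add (add (add (add (sub (sub C x2310) x2300) x2270) x2342) x2198) x2414) x2468) x3278) x4250) x848) x6680) x15426)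
  (add (add (sub (sub (add (add (sub (add (add (add (add (sub (sub C x2306) x2316) x2274) x2346) x2202) x2418) x2472) x3282) x4254) x852) x6684) x8872) x15434)
  (sub (sub (sub (add (add (sub (add (add (sub (sub (sub C x2316) x2302) x2332) x2206) x2422) x2476) x3286) x4258) x856) x6688) x8874)
  (add (add (sub (sub (add (add (sub (add (add (sub (sub (sub C x2314) x2310) x2334) x2208) x2424) x2478) x3288) x4260) x858) x6690) x8878) x15440)
  (add (add (sub (sub (add (add (sub (sub (sub (add (add (add (add C x2326) x2330) x2334) x2346) x2286) x2376) x2484) x3294) x4266) x864) x6696) x8884) x15446)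
  (sub (sub (sub (add (add (sub (sub (sub (sub (add (add C x2322) x2330) x2332) x2290) x2380) x2488) x3298) x4270) x868) x6700) x8886)
  (sub (sub (sub (add (add (sub (sub (sub (sub (add (add C x2322) x2326) x2342) x2294) x2384) x2492) x3302) x4274) x872) x6704) x15450)
  (sub (sub (sub (add (add (sub (sub (sub (sub (sub C x2334) x2326) x2314) x2386) x2494) x3304) x4276) x874) x6706) x8892)
  (add (add (sub (sub (add (add (sub (sub (sub (add (add (sub C x2332) x2322) x2346) x2316) x2388) x2496) x3306) x4278) x876) x6708) x8896) x15458)
  (sub (sub (sub (add (add (sub (sub (add (add (sub (sub C x2346) x2330) x2270) x2306) x2396) x2504) x3314) x4286) x884) x6716) x15462)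
  (add (add (sub (sub (add (add (sub (sub (add (add (add (add (sub C x2342) x2322) x2334) x2274) x2310) x2400) x2508) x3318) x4290) x888) x6720) x8908) x15470)
  (sub (sub (sub (add (add (sub (sub (add (add (add (add (sub C x2352) x2362) x2374) x2386) x2422) x2242) x2674) x3322) x4294) x892) x6724) x8910)
  (add (add (sub (sub (add (add (sub (sub (add (add (sub (sub C x2350) x2358) x2388) x2424) x2244) x2676) x3324) x4296) x894) x6726) x8914) x15476)
  (add (add (sub (sub (add (add (sub (sub (sub (sub (add (add C x2362) x2366) x2352) x2376) x2250) x2682) x3330) x4302) x900) x6732) x8920) x15482)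
  (sub (sub (sub (add (add (sub (sub (sub (add (add (add (add C x2358) x2366) x2350) x2374) x2380) x2254) x2686) x3334) x4306) x904) x6736) x8922)
  (sub (sub (sub (add (add (sub (sub (sub (sub (add (add C x2358) x2362) x2372) x2384) x2258) x2690) x3338) x4310) x908) x6740) x15486)
  (sub (sub (sub (add (add (sub (sub (sub (sub (sub C x2374) x2366) x2408) x2264) x2696) x3344) x4316) x914) x6746) x15492)
  (sub (sub (sub (add (add (sub (sub (sub (add (add (sub C x2372) x2350) x2362) x2410) x2266) x2698) x3346) x4318) x916) x6748) x8934)
  (add (add (sub (sub (add (add (sub (sub (sub (add (add (add (add C x2380) x2384) x2388) x2400) x2358) x2322) x2700) x3348) x4320) x918) x6750) x8938) x15500)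
  (sub (sub (sub (add (add (sub (sub (sub (sub (add (add C x2376) x2384) x2386) x2362) x2326) x2704) x3352) x4324) x922) x6754) x8940)
  (sub (sub (sub (add (add (sub (sub (sub (sub (add (add C x2376) x2380) x2396) x2366) x2330) x2708) x3356) x4328) x926) x6758) x15504)
  (sub (sub (sub (add (add (sub (sub (add (add (sub (sub C x2388) x2380) x2350) x2422) x2332) x2710) x3358) x4330) x928) x6760) x8946)
  (add (add (sub (sub (add (add (sub (sub (add (add (add (add (sub C x2386) x2376) x2400) x2352) x2424) x2334) x2712) x3360) x4332) x930) x6762) x8950) x15512)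
  (sub (sub (sub (add (add (sub (sub (sub (sub (sub C x2400) x2384) x2414) x2342) x2720) x3368) x4340) x938) x6770) x15516)
  (add (add (sub (sub (add (add (sub (sub (sub (add (add (sub C x2396) x2376) x2388) x2418) x2346) x2724) x3372) x4344) x942) x6774) x8962) x15524)
  (sub (sub (sub (add (add (sub (add (add (sub (sub (sub C x2410) x2414) x2372) x2192) x2300) x2732) x3380) x4352) x950) x6782) x15528)
  (sub (sub (sub (add (add (sub (add (add (sub (sub (sub C x2408) x2422) x2374) x2194) x2302) x2734) x3382) x4354) x952) x6784) x8970)
  (sub (sub (sub (add (add (sub (add (add (sub (sub (sub C x2418) x2408) x2396) x2198) x2306) x2738) x3386) x4358) x956) x6788) x15534)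
  (add (add (sub (sub (add (add (sub (add (add (sub (sub (sub C x2414) x2424) x2400) x2202) x2310) x2742) x3390) x4362) x960) x6792) x8980) x15542)
  (sub (sub (sub (add (add (sub (add (add (add (add (sub (sub C x2424) x2410) x2350) x2386) x2206) x2314) x2746) x3394) x4366) x964) x6796) x8982)
  (add (add (sub (sub (add (add (sub (add (add (add (add (sub (sub C x2422) x2418) x2352) x2388) x2208) x2316) x2748) x3396) x4368) x966) x6798) x8986) x15548)
  (sub (sub (sub (sub (sub (add (add (add (add (add (add (sub C x2436) x2444) x2456) x2468) x2504) x2540) x2648) x2270) x2918) x974) x6806) x15552)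
  (add (add (sub (sub (sub (sub (add (add (add (add (sub (sub C x2432) x2448) x2472) x2508) x2544) x2652) x2274) x2922) x978) x6810) x8998) x15560)
  (sub (sub (sub (sub (sub (add (add (sub (add (add (sub C x2446) x2432) x2456) x2462) x2552) x2660) x2282) x2930) x986) x6818) x15564)
  (sub (sub (sub (sub (sub (add (add (sub (sub (sub C x2444) x2452) x2464) x2554) x2662) x2284) x2932) x988) x6820) x9006)
  (add (add (sub (sub (sub (sub (add (add (sub (sub (add (add C x2452) x2456) x2436) x2484) x2556) x2664) x2286) x2934) x990) x6822) x9010) x15572)
  (sub (sub (sub (sub (sub (add (add (sub (sub (add (add C x2448) x2456) x2446) x2488) x2560) x2668) x2290) x2938) x994) x6826) x9012)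
  (sub (sub (sub (sub (sub (add (add (sub (add (add (add (add C x2448) x2452) x2432) x2444) x2492) x2564) x2672) x2294) x2942) x998) x6830) x15576)
  (sub (sub (sub (sub (sub (sub (sub (sub (sub C x2464) x2468) x2444) x2516) x2300) x2948) x1004) x6836) x15582)
  (sub (sub (sub (sub (sub (sub (sub (sub (sub C x2462) x2476) x2446) x2518) x2302) x2950) x1006) x6838) x9024)
  (sub (sub (sub (sub (sub (sub (add (add (sub (sub C x2472) x2462) x2432) x2504) x2522) x2306) x2954) x1010) x6842) x15588)
  (add (add (sub (sub (sub (sub (sub (add (add (sub (sub C x2468) x2478) x2436) x2508) x2526) x2310) x2958) x1014) x6846) x9034) x15596)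
  (sub (sub (sub (sub (sub (sub (sub (sub (sub C x2478) x2464) x2494) x2530) x2314) x2962) x1018) x6850) x9036)
  (add (add (sub (sub (sub (sub (sub (sub (sub (sub C x2476) x2472) x2496) x2532) x2316) x2964) x1020) x6852) x9040) x15602)
  (add (add (sub (sub (sub (sub (sub (sub (add (add (add (add C x2488) x2492) x2496) x2508) x2448) x2592) x2322) x2970) x1026) x6858) x9046) x15608)
  (sub (sub (sub (sub (sub (sub (sub (sub (add (add C x2484) x2492) x2494) x2452) x2596) x2326) x2974) x1030) x6862) x9048)
  (sub (sub (sub (sub (sub (sub (sub (sub (add (add C x2484) x2488) x2504) x2456) x2600) x2330) x2978) x1034) x6866) x15612)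
  (sub (sub (sub (sub (sub (sub (sub (sub (sub C x2496) x2488) x2476) x2602) x2332) x2980) x1036) x6868) x9054)
  (add (add (sub (sub (sub (sub (sub (sub (add (add (sub C x2494) x2484) x2508) x2478) x2604) x2334) x2982) x1038) x6870) x9058) x15620)
  (sub (sub (sub (sub (sub (sub (add (add (sub (sub C x2508) x2492) x2432) x2468) x2612) x2342) x2990) x1046) x6878) x15624)
  (add (add (sub (sub (sub (sub (sub (add (add (add (add (sub C x2504) x2484) x2496) x2436) x2472) x2616) x2346) x2994) x1050) x6882) x9070) x15632)
  (sub (sub (sub (sub (add (add (sub (add (add (sub (sub C x2518) x2522) x2552) x2588) x2462) x2192) x2840) x3002) x1058) x6890) x15636)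
  (sub (sub (sub (sub (add (add (sub (add (add (sub (sub C x2516) x2530) x2554) x2590) x2464) x2194) x2842) x3004) x1060) x6892) x9078)
  (sub (sub (sub (sub (add (add (sub (sub (sub (sub C x2526) x2516) x2540) x2468) x2198) x2846) x3008) x1064) x6896) x15642)
  (add (add (sub (sub (sub (add (add (sub (sub (sub (sub C x2522) x2532) x2544) x2472) x2202) x2850) x3012) x1068) x6900) x9088) x15650)
  (sub (sub (sub (sub (add (add (sub (sub (sub (sub C x2532) x2518) x2566) x2476) x2206) x2854) x3016) x1072) x6904) x9090)
  (add (add (sub (sub (sub (add (add (sub (sub (sub (sub C x2530) x2526) x2568) x2478) x2208) x2856) x3018) x1074) x6906) x9094) x15656)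
  (sub (sub (sub (sub (add (add (add (add (sub (add (add (sub C x2544) x2552) x2564) x2522) x2432) x2648) x2216) x2864) x3026) x1082) x6914) x15660)
  (add (add (sub (sub (sub (add (add (add (add (sub (sub (sub C x2540) x2556) x2526) x2436) x2652) x2220) x2868) x3030) x1086) x6918) x9106) x15668)
  (sub (sub (sub (sub (add (add (add (add (add (add (add (add (sub C x2554) x2540) x2564) x2516) x2588) x2444) x2660) x2228) x2876) x3038) x1094) x6926) x15672)
  (sub (sub (sub (sub (add (add (add (add (add (add (sub (sub C x2552) x2560) x2518) x2590) x2446) x2662) x2230) x2878) x3040) x1096) x6928) x9114)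
  (add (add (sub (sub (sub (add (add (add (add (sub (sub (add (add C x2560) x2564) x2544) x2574) x2448) x2664) x2232) x2880) x3042) x1098) x6930) x9118) x15680)
  (sub (sub (sub (sub (add (add (add (add (sub (sub (add (add C x2556) x2564) x2554) x2578) x2452) x2668) x2236) x2884) x3046) x1102) x6934) x9120)
  (sub (sub (sub (sub (add (add (add (add (sub (add (add (add (add C x2556) x2560) x2540) x2552) x2582) x2456) x2672) x2240) x2888) x3050) x1106) x6938) x15684)
  (sub (sub (sub (sub (add (add (sub (sub (add (add (sub C x2568) x2578) x2590) x2530) x2620) x2242) x2890) x3052) x1108) x6940) x9126)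
  (add (add (sub (sub (sub (add (add (sub (sub (sub (sub C x2566) x2574) x2532) x2622) x2244) x2892) x3054) x1110) x6942) x9130) x15692)
  (add (add (sub (sub (sub (add (add (sub (sub (sub (add (add C x2578) x2582) x2568) x2556) x2628) x2250) x2898) x3060) x1116) x6948) x9136) x15698)
  (sub (sub (sub (sub (add (add (sub (sub (add (add (add (add C x2574) x2582) x2566) x2590) x2560) x2632) x2254) x2902) x3064) x1120) x6952) x9138)
  (sub (sub (sub (sub (add (add (sub (sub (sub (add (add C x2574) x2578) x2588) x2564) x2636) x2258) x2906) x3068) x1124) x6956) x15702)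
  (sub (sub (sub (sub (add (add (sub (add (add (sub (sub C x2590) x2582) x2516) x2552) x2642) x2264) x2912) x3074) x1130) x6962) x15708)
  (sub (sub (sub (sub (add (add (sub (add (add (add (add (sub C x2588) x2566) x2578) x2518) x2554) x2644) x2266) x2914) x3076) x1132) x6964) x9150)
  (add (add (sub (sub (sub (sub (sub (add (add (add (add (add (add C x2596) x2600) x2604) x2616) x2628) x2664) x2484) x2754) x3078) x1134) x6966) x9154) x15716)
  (sub (sub (sub (sub (sub (sub (add (add (sub (add (add C x2592) x2600) x2602) x2632) x2668) x2488) x2758) x3082) x1138) x6970) x9156)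
  (sub (sub (sub (sub (sub (sub (add (add (sub (add (add C x2592) x2596) x2612) x2636) x2672) x2492) x2762) x3086) x1142) x6974) x15720)
  (sub (sub (sub (sub (sub (sub (sub (sub (sub C x2604) x2596) x2620) x2494) x2764) x3088) x1144) x6976) x9162)
  (add (add (sub (sub (sub (sub (sub (sub (add (add (sub C x2602) x2592) x2616) x2622) x2496) x2766) x3090) x1146) x6978) x9166) x15728)
  (sub (sub (sub (sub (sub (sub (sub (sub (sub C x2616) x2600) x2648) x2504) x2774) x3098) x1154) x6986) x15732)
  (add (add (sub (sub (sub (sub (sub (sub (add (add (sub C x2612) x2592) x2604) x2652) x2508) x2778) x3102) x1158) x6990) x9178) x15740)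
  (sub (sub (sub (sub (sub (sub (sub (add (add (sub C x2622) x2632) x2644) x2602) x2566) x2782) x3106) x1162) x6994) x9180)
  (add (add (sub (sub (sub (sub (sub (sub (sub (sub C x2620) x2628) x2604) x2568) x2784) x3108) x1164) x6996) x9184) x15746)
  (add (add (sub (sub (sub (sub (sub (add (add (sub (add (add C x2632) x2636) x2622) x2592) x2664) x2574) x2790) x3114) x1170) x7002) x9190) x15752)
  (sub (sub (sub (sub (sub (sub (add (add (add (add (add (add C x2628) x2636) x2620) x2644) x2596) x2668) x2578) x2794) x3118) x1174) x7006) x9192)
  (sub (sub (sub (sub (sub (sub (add (add (sub (add (add C x2628) x2632) x2642) x2600) x2672) x2582) x2798) x3122) x1178) x7010) x15756)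
  (sub (sub (sub (sub (sub (sub (sub (sub (sub C x2644) x2636) x2660) x2588) x2804) x3128) x1184) x7016) x15762)
  (sub (sub (sub (sub (sub (sub (sub (add (add (sub C x2642) x2620) x2632) x2662) x2590) x2806) x3130) x1186) x7018) x9204)
  (sub (sub (sub (sub (sub (add (add (sub (add (add (sub C x2652) x2660) x2672) x2612) x2432) x2540) x2810) x3134) x1190) x7022) x15768)
  (add (add (sub (sub (sub (sub (add (add (sub (sub (sub C x2648) x2664) x2616) x2436) x2544) x2814) x3138) x1194) x7026) x9214) x15776)
  (sub (sub (sub (sub (sub (add (add (sub (add (add (sub C x2662) x2648) x2672) x2642) x2444) x2552) x2822) x3146) x1202) x7034) x15780)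
  (sub (sub (sub (sub (sub (add (add (sub (sub (sub C x2660) x2668) x2644) x2446) x2554) x2824) x3148) x1204) x7036) x9222)
  (add (add (sub (sub (sub (sub (add (add (add (add (sub (add (add C x2668) x2672) x2652) x2592) x2628) x2448) x2556) x2826) x3150) x1206) x7038) x9226) x15788)
  (sub (sub (sub (sub (sub (add (add (add (add (sub (add (add C x2664) x2672) x2662) x2596) x2632) x2452) x2560) x2830) x3154) x1210) x7042) x9228)
  (sub (sub (sub (sub (sub (add (add (add (add (add (add (add (add C x2664) x2668) x2648) x2660) x2600) x2636) x2456) x2564) x2834) x3158) x1214) x7046) x15792)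
  (sub (sub (sub (sub (sub (add (add (add (add (add (add (sub C x2676) x2686) x2698) x2710) x2746) x2782) x2890) x2350) x3646) x1216) x7048) x9234)
  (add (add (sub (sub (sub (sub (add (add (add (add (sub (sub C x2674) x2682) x2712) x2748) x2784) x2892) x2352) x3648) x1218) x7050) x9238) x15800)
  (add (add (sub (sub (sub (sub (add (add (sub (sub (add (add C x2686) x2690) x2676) x2700) x2790) x2898) x2358) x3654) x1224) x7056) x9244) x15806)
  (sub (sub (sub (sub (sub (add (add (sub (add (add (add (add C x2682) x2690) x2674) x2698) x2704) x2794) x2902) x2362) x3658) x1228) x7060) x9246)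
  (sub (sub (sub (sub (sub (add (add (sub (sub (add (add C x2682) x2686) x2696) x2708) x2798) x2906) x2366) x3662) x1232) x7064) x15810)
  (sub (sub (sub (sub (sub (add (add (sub (sub (sub C x2698) x2690) x2732) x2804) x2912) x2372) x3668) x1238) x7070) x15816)
  (sub (sub (sub (sub (sub (add (add (sub (add (add (sub C x2696) x2674) x2686) x2734) x2806) x2914) x2374) x3670) x1240) x7072) x9258)
  (add (add (sub (sub (sub (sub (sub (sub (add (add (add (add C x2704) x2708) x2712) x2724) x2682) x2754) x2376) x3672) x1242) x7074) x9262) x15824)
  (sub (sub (sub (sub (sub (sub (sub (sub (add (add C x2700) x2708) x2710) x2686) x2758) x2380) x3676) x1246) x7078) x9264)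
  (sub (sub (sub (sub (sub (sub (sub (sub (add (add C x2700) x2704) x2720) x2690) x2762) x2384) x3680) x1250) x7082) x15828)
  (sub (sub (sub (sub (sub (sub (add (add (sub (sub C x2712) x2704) x2674) x2746) x2764) x2386) x3682) x1252) x7084) x9270)
  (add (add (sub (sub (sub (sub (sub (add (add (add (add (sub C x2710) x2700) x2724) x2676) x2748) x2766) x2388) x3684) x1254) x7086) x9274) x15836)
  (sub (sub (sub (sub (sub (sub (sub (sub (sub C x2724) x2708) x2738) x2774) x2396) x3692) x1262) x7094) x15840)
  (add (add (sub (sub (sub (sub (sub (sub (add (add (sub C x2720) x2700) x2712) x2742) x2778) x2400) x3696) x1266) x7098) x9286) x15848)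
  (sub (sub (sub (sub (sub (sub (sub (sub (sub C x2734) x2738) x2696) x2840) x2408) x3704) x1274) x7106) x15852)
  (sub (sub (sub (sub (sub (sub (sub (sub (sub C x2732) x2746) x2698) x2842) x2410) x3706) x1276) x7108) x9294)
  (sub (sub (sub (sub (sub (sub (sub (sub (sub C x2742) x2732) x2720) x2846) x2414) x3710) x1280) x7112) x15858)
  (add (add (sub (sub (sub (sub (sub (sub (sub (sub C x2738) x2748) x2724) x2850) x2418) x3714) x1284) x7116) x9304) x15866)
  (sub (sub (sub (sub (sub (sub (add (add (sub (sub C x2748) x2734) x2674) x2710) x2854) x2422) x3718) x1288) x7120) x9306)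
  (add (add (sub (sub (sub (sub (sub (add (add (sub (sub C x2746) x2742) x2676) x2712) x2856) x2424) x3720) x1290) x7122) x9310) x15872)
  (add (add (sub (sub (sub (sub (sub (add (add (add (add (add (add C x2758) x2762) x2766) x2778) x2790) x2826) x2700) x2592) x3726) x1296) x7128) x9316) x15878)
  (sub (sub (sub (sub (sub (sub (add (add (sub (add (add C x2754) x2762) x2764) x2794) x2830) x2704) x2596) x3730) x1300) x7132) x9318)
  (sub (sub (sub (sub (sub (sub (add (add (sub (add (add C x2754) x2758) x2774) x2798) x2834) x2708) x2600) x3734) x1304) x7136) x15882)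
  (sub (sub (sub (sub (sub (sub (sub (sub (sub C x2766) x2758) x2782) x2710) x2602) x3736) x1306) x7138) x9324)
  (add (add (sub (sub (sub (sub (sub (sub (add (add (sub C x2764) x2754) x2778) x2784) x2712) x2604) x3738) x1308) x7140) x9328) x15890)
  (sub (sub (sub (sub (sub (sub (sub (sub (sub C x2778) x2762) x2810) x2720) x2612) x3746) x1316) x7148) x15894)
  (add (add (sub (sub (sub (sub (sub (sub (add (add (sub C x2774) x2754) x2766) x2814) x2724) x2616) x3750) x1320) x7152) x9340) x15902)
  (sub (sub (sub (sub (sub (add (add (sub (add (add (sub C x2784) x2794) x2806) x2764) x2674) x2890) x2620) x3754) x1324) x7156) x9342)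
  (add (add (sub (sub (sub (sub (add (add (sub (sub (sub C x2782) x2790) x2766) x2676) x2892) x2622) x3756) x1326) x7158) x9346) x15908)
  (add (add (sub (sub (sub (sub (add (add (add (add (sub (add (add C x2794) x2798) x2784) x2754) x2826) x2682) x2898) x2628) x3762) x1332) x7164) x9352) x15914)
  (sub (sub (sub (sub (sub (add (add (add (add (add (add (add (add C x2790) x2798) x2782) x2806) x2758) x2830) x2686) x2902) x2632) x3766) x1336) x7168) x9354)
  (sub (sub (sub (sub (sub (add (add (add (add (sub (add (add C x2790) x2794) x2804) x2762) x2834) x2690) x2906) x2636) x3770) x1340) x7172) x15918)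
  (sub (sub (sub (sub (sub (add (add (sub (sub (sub C x2806) x2798) x2822) x2696) x2912) x2642) x3776) x1346) x7178) x15924)
  (sub (sub (sub (sub (sub (add (add (sub (add (add (sub C x2804) x2782) x2794) x2824) x2698) x2914) x2644) x3778) x1348) x7180) x9366)
  (sub (sub (sub (sub (sub (sub (sub (add (add (sub C x2814) x2822) x2834) x2774) x2864) x2648) x3782) x1352) x7184) x15930)
  (add (add (sub (sub (sub (sub (sub (sub (sub (sub C x2810) x2826) x2778) x2868) x2652) x3786) x1356) x7188) x9376) x15938)
  (sub (sub (sub (sub (sub (sub (sub (add (add (sub C x2824) x2810) x2834) x2804) x2876) x2660) x3794) x1364) x7196) x15942)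
  (sub (sub (sub (sub (sub (sub (sub (sub (sub C x2822) x2830) x2806) x2878) x2662) x3796) x1366) x7198) x9384)
  (add (add (sub (sub (sub (sub (sub (add (add (sub (add (add C x2830) x2834) x2814) x2754) x2790) x2880) x2664) x3798) x1368) x7200) x9388) x15950)
  (sub (sub (sub (sub (sub (sub (add (add (sub (add (add C x2826) x2834) x2824) x2758) x2794) x2884) x2668) x3802) x1372) x7204) x9390)
  (sub (sub (sub (sub (sub (sub (add (add (add (add (add (add C x2826) x2830) x2810) x2822) x2762) x2798) x2888) x2672) x3806) x1376) x7208) x15954)
  (sub (sub (sub (sub (add (add (sub (add (add (sub (sub C x2842) x2846) x2876) x2912) x2732) x2192) x2516) x3812) x1382) x7214) x15960)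
  (sub (sub (sub (sub (add (add (sub (add (add (sub (sub C x2840) x2854) x2878) x2914) x2734) x2194) x2518) x3814) x1384) x7216) x9402)
  (sub (sub (sub (sub (add (add (sub (sub (sub (sub C x2850) x2840) x2864) x2738) x2198) x2522) x3818) x1388) x7220) x15966)
  (add (add (sub (sub (sub (add (add (sub (sub (sub (sub C x2846) x2856) x2868) x2742) x2202) x2526) x3822) x1392) x7224) x9412) x15974)
  (sub (sub (sub (sub (add (add (sub (sub (sub (sub C x2856) x2842) x2890) x2746) x2206) x2530) x3826) x1396) x7228) x9414)
  (add (add (sub (sub (sub (add (add (sub (sub (sub (sub C x2854) x2850) x2892) x2748) x2208) x2532) x3828) x1398) x7230) x9418) x15980)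
  (sub (sub (sub (sub (add (add (sub (sub (add (add (sub C x2868) x2876) x2888) x2846) x2810) x2216) x2540) x3836) x1406) x7238) x15984)
  (add (add (sub (sub (sub (add (add (sub (sub (sub (sub C x2864) x2880) x2850) x2814) x2220) x2544) x3840) x1410) x7242) x9430) x15992)
  (sub (sub (sub (sub (add (add (sub (add (add (add (add (sub C x2878) x2864) x2888) x2840) x2912) x2822) x2228) x2552) x3848) x1418) x7250) x15996)
  (sub (sub (sub (sub (add (add (sub (add (add (sub (sub C x2876) x2884) x2842) x2914) x2824) x2230) x2554) x3850) x1420) x7252) x9438)
  (add (add (sub (sub (sub (add (add (sub (sub (sub (add (add C x2884) x2888) x2868) x2898) x2826) x2232) x2556) x3852) x1422) x7254) x9442) x16004)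
  (sub (sub (sub (sub (add (add (sub (sub (sub (add (add C x2880) x2888) x2878) x2902) x2830) x2236) x2560) x3856) x1426) x7258) x9444)
  (sub (sub (sub (sub (add (add (sub (sub (add (add (add (add C x2880) x2884) x2864) x2876) x2906) x2834) x2240) x2564) x3860) x1430) x7262) x16008)
  (sub (sub (sub (sub (add (add (add (add (sub (add (add (sub C x2892) x2902) x2914) x2854) x2674) x2782) x2242) x2566) x3862) x1432) x7264) x9450)
  (add (add (sub (sub (sub (add (add (add (add (sub (sub (sub C x2890) x2898) x2856) x2676) x2784) x2244) x2568) x3864) x1434) x7266) x9454) x16016)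
  (add (add (sub (sub (sub (add (add (add (add (sub (sub (add (add C x2902) x2906) x2892) x2880) x2682) x2790) x2250) x2574) x3870) x1440) x7272) x9460) x16022)
  (sub (sub (sub (sub (add (add (add (add (sub (add (add (add (add C x2898) x2906) x2890) x2914) x2884) x2686) x2794) x2254) x2578) x3874) x1444) x7276) x9462)
  (sub (sub (sub (sub (add (add (add (add (sub (sub (add (add C x2898) x2902) x2912) x2888) x2690) x2798) x2258) x2582) x3878) x1448) x7280) x16026)
  (sub (sub (sub (sub (add (add (add (add (add (add (sub (sub C x2914) x2906) x2840) x2876) x2696) x2804) x2264) x2588) x3884) x1454) x7286) x16032)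
  (sub (sub (sub (sub (add (add (add (add (add (add (add (add (sub C x2912) x2890) x2902) x2842) x2878) x2698) x2806) x2266) x2590) x3886) x1456) x7288) x9474)
  (sub (sub (add (add (sub (add (add (add (add (add (add (add (add (sub C x2922) x2930) x2942) x2954) x2990) x3026) x3134) x3242) x3566) x2432) x2) x5834) x7292) x16038)
  (add (add (sub (add (add (sub (add (add (add (add (add (add (sub (sub C x2918) x2934) x2958) x2994) x3030) x3138) x3246) x3570) x2436) x6) x5838) x7296) x9484) x16046)
  (sub (sub (add (add (sub (add (add (add (add (sub (add (add (sub C x2932) x2918) x2942) x2948) x3038) x3146) x3254) x3578) x2444) x14) x5846) x7304) x16050)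
  (sub (sub (add (add (sub (add (add (add (add (sub (sub (sub C x2930) x2938) x2950) x3040) x3148) x3256) x3580) x2446) x16) x5848) x7306) x9492)
  (add (add (sub (add (add (sub (add (add (add (add (sub (sub (add (add C x2938) x2942) x2922) x2970) x3042) x3150) x3258) x3582) x2448) x18) x5850) x7308) x9496) x16058)
  (sub (sub (add (add (sub (add (add (add (add (sub (sub (add (add C x2934) x2942) x2932) x2974) x3046) x3154) x3262) x3586) x2452) x22) x5854) x7312) x9498)
  (sub (sub (add (add (sub (add (add (add (add (sub (add (add (add (add C x2934) x2938) x2918) x2930) x2978) x3050) x3158) x3266) x3590) x2456) x26) x5858) x7316) x16062)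
  (sub (sub (add (add (sub (add (add (sub (sub (sub (sub C x2950) x2954) x2930) x3002) x3272) x3596) x2462) x32) x5864) x7322) x16068)
  (sub (sub (add (add (sub (add (add (sub (sub (sub (sub C x2948) x2962) x2932) x3004) x3274) x3598) x2464) x34) x5866) x7324) x9510)
  (sub (sub (add (add (sub (add (add (sub (add (add (sub (sub C x2958) x2948) x2918) x2990) x3008) x3278) x3602) x2468) x38) x5870) x7328) x16074)
  (add (add (sub (add (add (sub (add (add (sub (add (add (sub (sub C x2954) x2964) x2922) x2994) x3012) x3282) x3606) x2472) x42) x5874) x7332) x9520) x16082)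
  (sub (sub (add (add (sub (add (add (sub (sub (sub (sub C x2964) x2950) x2980) x3016) x3286) x3610) x2476) x46) x5878) x7336) x9522)
  (add (add (sub (add (add (sub (add (add (sub (sub (sub (sub C x2962) x2958) x2982) x3018) x3288) x3612) x2478) x48) x5880) x7338) x9526) x16088)
  (add (add (sub (add (add (sub (add (add (sub (sub (add (add (add (add C x2974) x2978) x2982) x2994) x2934) x3078) x3294) x3618) x2484) x54) x5886) x7344) x9532) x16094)
  (sub (sub (add (add (sub (add (add (sub (sub (sub (add (add C x2970) x2978) x2980) x2938) x3082) x3298) x3622) x2488) x58) x5890) x7348) x9534)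
  (sub (sub (add (add (sub (add (add (sub (sub (sub (add (add C x2970) x2974) x2990) x2942) x3086) x3302) x3626) x2492) x62) x5894) x7352) x16098)
  (sub (sub (add (add (sub (add (add (sub (sub (sub (sub C x2982) x2974) x2962) x3088) x3304) x3628) x2494) x64) x5896) x7354) x9540)
  (add (add (sub (add (add (sub (add (add (sub (sub (add (add (sub C x2980) x2970) x2994) x2964) x3090) x3306) x3630) x2496) x66) x5898) x7356) x9544) x16106)
  (sub (sub (add (add (sub (add (add (sub (add (add (sub (sub C x2994) x2978) x2918) x2954) x3098) x3314) x3638) x2504) x74) x5906) x7364) x16110)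
  (add (add (sub (add (add (sub (add (add (sub (add (add (add (add (sub C x2990) x2970) x2982) x2922) x2958) x3102) x3318) x3642) x2508) x78) x5910) x7368) x9556) x16118)
  (sub (sub (add (add (sub (sub (sub (add (add (sub (sub C x3004) x3008) x3038) x3074) x2948) x3164) x2516) x86) x5918) x7376) x16122)
  (sub (sub (add (add (sub (sub (sub (add (add (sub (sub C x3002) x3016) x3040) x3076) x2950) x3166) x2518) x88) x5920) x7378) x9564)
  (sub (sub (add (add (sub (sub (sub (sub (sub (sub C x3012) x3002) x3026) x2954) x3170) x2522) x92) x5924) x7382) x16128)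
  (add (add (sub (add (add (sub (sub (sub (sub (sub (sub C x3008) x3018) x3030) x2958) x3174) x2526) x96) x5928) x7386) x9574) x16136)
  (sub (sub (add (add (sub (sub (sub (sub (sub (sub C x3018) x3004) x3052) x2962) x3178) x2530) x100) x5932) x7390) x9576)
  (add (add (sub (add (add (sub (sub (sub (sub (sub (sub C x3016) x3012) x3054) x2964) x3180) x2532) x102) x5934) x7392) x9580) x16142)
  (sub (sub (add (add (sub (sub (add (add (sub (add (add (sub C x3030) x3038) x3050) x3008) x2918) x3134) x3188) x2540) x110) x5942) x7400) x16146)
  (add (add (sub (add (add (sub (sub (add (add (sub (sub (sub C x3026) x3042) x3012) x2922) x3138) x3192) x2544) x114) x5946) x7404) x9592) x16154)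
  (sub (sub (add (add (sub (sub (add (add (add (add (add (add (sub C x3040) x3026) x3050) x3002) x3074) x2930) x3146) x3200) x2552) x122) x5954) x7412) x16158)
  (sub (sub (add (add (sub (sub (add (add (add (add (sub (sub C x3038) x3046) x3004) x3076) x2932) x3148) x3202) x2554) x124) x5956) x7414) x9600)
  (add (add (sub (add (add (sub (sub (add (add (sub (sub (add (add C x3046) x3050) x3030) x3060) x2934) x3150) x3204) x2556) x126) x5958) x7416) x9604) x16166)
  (sub (sub (add (add (sub (sub (add (add (sub (sub (add (add C x3042) x3050) x3040) x3064) x2938) x3154) x3208) x2560) x130) x5962) x7420) x9606)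
  (sub (sub (add (add (sub (sub (add (add (sub (add (add (add (add C x3042) x3046) x3026) x3038) x3068) x2942) x3158) x3212) x2564) x134) x5966) x7424) x16170)
  (sub (sub (add (add (sub (sub (sub (sub (add (add (sub C x3054) x3064) x3076) x3016) x3106) x3214) x2566) x136) x5968) x7426) x9612)
  (add (add (sub (add (add (sub (sub (sub (sub (sub (sub C x3052) x3060) x3018) x3108) x3216) x2568) x138) x5970) x7428) x9616) x16178)
  (add (add (sub (add (add (sub (sub (sub (sub (sub (add (add C x3064) x3068) x3054) x3042) x3114) x3222) x2574) x144) x5976) x7434) x9622) x16184)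
  (sub (sub (add (add (sub (sub (sub (sub (add (add (add (add C x3060) x3068) x3052) x3076) x3046) x3118) x3226) x2578) x148) x5980) x7438) x9624)
  (sub (sub (add (add (sub (sub (sub (sub (sub (add (add C x3060) x3064) x3074) x3050) x3122) x3230) x2582) x152) x5984) x7442) x16188)
  (sub (sub (add (add (sub (sub (sub (add (add (sub (sub C x3076) x3068) x3002) x3038) x3128) x3236) x2588) x158) x5990) x7448) x16194)
  (sub (sub (add (add (sub (sub (sub (add (add (add (add (sub C x3074) x3052) x3064) x3004) x3040) x3130) x3238) x2590) x160) x5992) x7450) x9636)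
  (add (add (sub (add (add (sub (sub (sub (add (add (add (add (add (add C x3082) x3086) x3090) x3102) x3114) x3150) x2970) x3402) x2592) x162) x5994) x7452) x9640) x16202)
  (sub (sub (add (add (sub (sub (sub (add (add (sub (add (add C x3078) x3086) x3088) x3118) x3154) x2974) x3406) x2596) x166) x5998) x7456) x9642)
  (sub (sub (add (add (sub (sub (sub (add (add (sub (add (add C x3078) x3082) x3098) x3122) x3158) x2978) x3410) x2600) x170) x6002) x7460) x16206)
  (sub (sub (add (add (sub (sub (sub (sub (sub (sub C x3090) x3082) x3106) x2980) x3412) x2602) x172) x6004) x7462) x9648)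
  (add (add (sub (add (add (sub (sub (sub (sub (add (add (sub C x3088) x3078) x3102) x3108) x2982) x3414) x2604) x174) x6006) x7464) x9652) x16214)
  (sub (sub (add (add (sub (sub (sub (sub (sub (sub C x3102) x3086) x3134) x2990) x3422) x2612) x182) x6014) x7472) x16218)
  (add (add (sub (add (add (sub (sub (sub (sub (add (add (sub C x3098) x3078) x3090) x3138) x2994) x3426) x2616) x186) x6018) x7476) x9664) x16226)
  (sub (sub (add (add (sub (sub (sub (sub (add (add (sub C x3108) x3118) x3130) x3088) x3052) x3430) x2620) x190) x6022) x7480) x9666)
  (add (add (sub (add (add (sub (sub (sub (sub (sub (sub C x3106) x3114) x3090) x3054) x3432) x2622) x192) x6024) x7482) x9670) x16232)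
  (add (add (sub (add (add (sub (sub (sub (add (add (sub (add (add C x3118) x3122) x3108) x3078) x3150) x3060) x3438) x2628) x198) x6030) x7488) x9676) x16238)
  (sub (sub (add (add (sub (sub (sub (add (add (add (add (add (add C x3114) x3122) x3106) x3130) x3082) x3154) x3064) x3442) x2632) x202) x6034) x7492) x9678)
  (sub (sub (add (add (sub (sub (sub (add (add (sub (add (add C x3114) x3118) x3128) x3086) x3158) x3068) x3446) x2636) x206) x6038) x7496) x16242)
  (sub (sub (add (add (sub (sub (sub (sub (sub (sub C x3130) x3122) x3146) x3074) x3452) x2642) x212) x6044) x7502) x16248)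
  (sub (sub (add (add (sub (sub (sub (sub (add (add (sub C x3128) x3106) x3118) x3148) x3076) x3454) x2644) x214) x6046) x7504) x9690)
  (sub (sub (add (add (sub (sub (add (add (sub (add (add (sub C x3138) x3146) x3158) x3098) x2918) x3026) x3458) x2648) x218) x6050) x7508) x16254)
  (add (add (sub (add (add (sub (sub (add (add (sub (sub (sub C x3134) x3150) x3102) x2922) x3030) x3462) x2652) x222) x6054) x7512) x9700) x16262)
  (sub (sub (add (add (sub (sub (add (add (sub (add (add (sub C x3148) x3134) x3158) x3128) x2930) x3038) x3470) x2660) x230) x6062) x7520) x16266)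
  (sub (sub (add (add (sub (sub (add (add (sub (sub (sub C x3146) x3154) x3130) x2932) x3040) x3472) x2662) x232) x6064) x7522) x9708)
  (add (add (sub (add (add (sub (sub (add (add (add (add (sub (add (add C x3154) x3158) x3138) x3078) x3114) x2934) x3042) x3474) x2664) x234) x6066) x7524) x9712) x16274)
  (sub (sub (add (add (sub (sub (add (add (add (add (sub (add (add C x3150) x3158) x3148) x3082) x3118) x2938) x3046) x3478) x2668) x238) x6070) x7528) x9714)
  (sub (sub (add (add (sub (sub (add (add (add (add (add (add (add (add C x3150) x3154) x3134) x3146) x3086) x3122) x2942) x3050) x3482) x2672) x242) x6074) x7532) x16278)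
  (sub (sub (add (add (add (add (sub (add (add (add (add (sub (sub C x3166) x3170) x3200) x3236) x3272) x3380) x3002) x2192) x4136) x248) x6080) x7538) x16284)
  (sub (sub (add (add (add (add (sub (add (add (add (add (sub (sub C x3164) x3178) x3202) x3238) x3274) x3382) x3004) x2194) x4138) x250) x6082) x7540) x9726)
  (sub (sub (add (add (add (add (sub (add (add (sub (sub (sub C x3174) x3164) x3188) x3278) x3386) x3008) x2198) x4142) x254) x6086) x7544) x16290)
  (add (add (sub (add (add (add (add (sub (add (add (sub (sub (sub C x3170) x3180) x3192) x3282) x3390) x3012) x2202) x4146) x258) x6090) x7548) x9736) x16298)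
  (sub (sub (add (add (add (add (sub (add (add (sub (sub (sub C x3180) x3166) x3214) x3286) x3394) x3016) x2206) x4150) x262) x6094) x7552) x9738)
  (add (add (sub (add (add (add (add (sub (add (add (sub (sub (sub C x3178) x3174) x3216) x3288) x3396) x3018) x2208) x4152) x264) x6096) x7554) x9742) x16304)
  (sub (sub (add (add (add (add (sub (sub (sub (add (add (sub C x3192) x3200) x3212) x3170) x3242) x3026) x2216) x4160) x272) x6104) x7562) x16308)
  (add (add (sub (add (add (add (add (sub (sub (sub (sub (sub C x3188) x3204) x3174) x3246) x3030) x2220) x4164) x276) x6108) x7566) x9754) x16316)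
  (sub (sub (add (add (add (add (sub (sub (add (add (add (add (sub C x3202) x3188) x3212) x3164) x3236) x3254) x3038) x2228) x4172) x284) x6116) x7574) x16320)
  (sub (sub (add (add (add (add (sub (sub (add (add (sub (sub C x3200) x3208) x3166) x3238) x3256) x3040) x2230) x4174) x286) x6118) x7576) x9762)
  (add (add (sub (add (add (add (add (sub (sub (sub (sub (add (add C x3208) x3212) x3192) x3222) x3258) x3042) x2232) x4176) x288) x6120) x7578) x9766) x16328)
  (sub (sub (add (add (add (add (sub (sub (sub (sub (add (add C x3204) x3212) x3202) x3226) x3262) x3046) x2236) x4180) x292) x6124) x7582) x9768)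
  (sub (sub (add (add (add (add (sub (sub (sub (add (add (add (add C x3204) x3208) x3188) x3200) x3230) x3266) x3050) x2240) x4184) x296) x6128) x7586) x16332)
  (sub (sub (add (add (add (add (sub (sub (sub (add (add (sub C x3216) x3226) x3238) x3178) x3322) x3052) x2242) x4186) x298) x6130) x7588) x9774)
  (add (add (sub (add (add (add (add (sub (sub (sub (sub (sub C x3214) x3222) x3180) x3324) x3054) x2244) x4188) x300) x6132) x7590) x9778) x16340)
  (add (add (sub (add (add (add (add (sub (sub (sub (sub (add (add C x3226) x3230) x3216) x3204) x3330) x3060) x2250) x4194) x306) x6138) x7596) x9784) x16346)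
  (sub (sub (add (add (add (add (sub (sub (sub (add (add (add (add C x3222) x3230) x3214) x3238) x3208) x3334) x3064) x2254) x4198) x310) x6142) x7600) x9786)
  (sub (sub (add (add (add (add (sub (sub (sub (sub (add (add C x3222) x3226) x3236) x3212) x3338) x3068) x2258) x4202) x314) x6146) x7604) x16350)
  (sub (sub (add (add (add (add (sub (sub (add (add (sub (sub C x3238) x3230) x3164) x3200) x3344) x3074) x2264) x4208) x320) x6152) x7610) x16356)
  (sub (sub (add (add (add (add (sub (sub (add (add (add (add (sub C x3236) x3214) x3226) x3166) x3202) x3346) x3076) x2266) x4210) x322) x6154) x7612) x9798)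
  (sub (sub (add (add (add (add (add (add (sub (add (add (add (add (sub C x3246) x3254) x3266) x3278) x3314) x3188) x2918) x3566) x2270) x4214) x326) x6158) x7616) x16362)
  (add (add (sub (add (add (add (add (add (add (sub (add (add (sub (sub C x3242) x3258) x3282) x3318) x3192) x2922) x3570) x2274) x4218) x330) x6162) x7620) x9808) x16370)
  (sub (sub (add (add (add (add (add (add (sub (sub (add (add (sub C x3256) x3242) x3266) x3272) x3200) x2930) x3578) x2282) x4226) x338) x6170) x7628) x16374)
  (sub (sub (add (add (add (add (add (add (sub (sub (sub (sub C x3254) x3262) x3274) x3202) x2932) x3580) x2284) x4228) x340) x6172) x7630) x9816)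
  (add (add (sub (add (add (add (add (add (add (sub (sub (sub (add (add C x3262) x3266) x3246) x3294) x3204) x2934) x3582) x2286) x4230) x342) x6174) x7632) x9820) x16382)
  (sub (sub (add (add (add (add (add (add (sub (sub (sub (add (add C x3258) x3266) x3256) x3298) x3208) x2938) x3586) x2290) x4234) x346) x6178) x7636) x9822)
  (sub (sub (add (add (add (add (add (add (sub (sub (add (add (add (add C x3258) x3262) x3242) x3254) x3302) x3212) x2942) x3590) x2294) x4238) x350) x6182) x7640) x16386)
  (sub (sub (add (add (add (add (add (add (add (add (sub (sub (sub C x3274) x3278) x3254) x3164) x3380) x2948) x3596) x2300) x4244) x356) x6188) x7646) x16392)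
  (sub (sub (add (add (add (add (add (add (add (add (sub (sub (sub C x3272) x3286) x3256) x3166) x3382) x2950) x3598) x2302) x4246) x358) x6190) x7648) x9834)
  (sub (sub (add (add (add (add (add (add (add (add (add (add (sub (sub C x3282) x3272) x3242) x3314) x3170) x3386) x2954) x3602) x2306) x4250) x362) x6194) x7652) x16398)
  (add (add (sub (add (add (add (add (add (add (add (add (add (add (sub (sub C x3278) x3288) x3246) x3318) x3174) x3390) x2958) x3606) x2310) x4254) x366) x6198) x7656) x9844) x16406)
  (sub (sub (add (add (add (add (add (add (add (add (sub (sub (sub C x3288) x3274) x3304) x3178) x3394) x2962) x3610) x2314) x4258) x370) x6202) x7660) x9846)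
  (add (add (sub (add (add (add (add (add (add (add (add (sub (sub (sub C x3286) x3282) x3306) x3180) x3396) x2964) x3612) x2316) x4260) x372) x6204) x7662) x9850) x16412)
  (add (add (sub (add (add (add (add (add (add (sub (sub (add (add (add (add C x3298) x3302) x3306) x3318) x3258) x3348) x2970) x3618) x2322) x4266) x378) x6210) x7668) x9856) x16418)
  (sub (sub (add (add (add (add (add (add (sub (sub (sub (add (add C x3294) x3302) x3304) x3262) x3352) x2974) x3622) x2326) x4270) x382) x6214) x7672) x9858)
  (sub (sub (add (add (add (add (add (add (sub (sub (sub (add (add C x3294) x3298) x3314) x3266) x3356) x2978) x3626) x2330) x4274) x386) x6218) x7676) x16422)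
  (sub (sub (add (add (add (add (add (add (sub (sub (sub (sub C x3306) x3298) x3286) x3358) x2980) x3628) x2332) x4276) x388) x6220) x7678) x9864)
  (add (add (sub (add (add (add (add (add (add (sub (sub (add (add (sub C x3304) x3294) x3318) x3288) x3360) x2982) x3630) x2334) x4278) x390) x6222) x7680) x9868) x16430)
  (sub (sub (add (add (add (add (add (add (sub (add (add (sub (sub C x3318) x3302) x3242) x3278) x3368) x2990) x3638) x2342) x4286) x398) x6230) x7688) x16434)
  (add (add (sub (add (add (add (add (add (add (sub (add (add (add (add (sub C x3314) x3294) x3306) x3246) x3282) x3372) x2994) x3642) x2346) x4290) x402) x6234) x7692) x9880) x16442)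
  (sub (sub (add (add (add (add (sub (sub (add (add (add (add (sub C x3324) x3334) x3346) x3358) x3394) x3214) x3484) x2350) x4294) x406) x6238) x7696) x9882)
  (add (add (sub (add (add (add (add (sub (sub (add (add (sub (sub C x3322) x3330) x3360) x3396) x3216) x3486) x2352) x4296) x408) x6240) x7698) x9886) x16448)
  (add (add (sub (add (add (add (add (sub (sub (sub (sub (add (add C x3334) x3338) x3324) x3348) x3222) x3492) x2358) x4302) x414) x6246) x7704) x9892) x16454)
  (sub (sub (add (add (add (add (sub (sub (sub (add (add (add (add C x3330) x3338) x3322) x3346) x3352) x3226) x3496) x2362) x4306) x418) x6250) x7708) x9894)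
  (sub (sub (add (add (add (add (sub (sub (sub (sub (add (add C x3330) x3334) x3344) x3356) x3230) x3500) x2366) x4310) x422) x6254) x7712) x16458)
  (sub (sub (add (add (add (add (sub (sub (sub (sub (sub C x3346) x3338) x3380) x3236) x3506) x2372) x4316) x428) x6260) x7718) x16464)
  (sub (sub (add (add (add (add (sub (sub (sub (add (add (sub C x3344) x3322) x3334) x3382) x3238) x3508) x2374) x4318) x430) x6262) x7720) x9906)
  (add (add (sub (add (add (add (add (sub (sub (sub (add (add (add (add C x3352) x3356) x3360) x3372) x3330) x3294) x3510) x2376) x4320) x432) x6264) x7722) x9910) x16472)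
  (sub (sub (add (add (add (add (sub (sub (sub (sub (add (add C x3348) x3356) x3358) x3334) x3298) x3514) x2380) x4324) x436) x6268) x7726) x9912)
  (sub (sub (add (add (add (add (sub (sub (sub (sub (add (add C x3348) x3352) x3368) x3338) x3302) x3518) x2384) x4328) x440) x6272) x7730) x16476)
  (sub (sub (add (add (add (add (sub (sub (add (add (sub (sub C x3360) x3352) x3322) x3394) x3304) x3520) x2386) x4330) x442) x6274) x7732) x9918)
  (add (add (sub (add (add (add (add (sub (sub (add (add (add (add (sub C x3358) x3348) x3372) x3324) x3396) x3306) x3522) x2388) x4332) x444) x6276) x7734) x9922) x16484)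
  (sub (sub (add (add (add (add (sub (sub (sub (sub (sub C x3372) x3356) x3386) x3314) x3530) x2396) x4340) x452) x6284) x7742) x16488)
  (add (add (sub (add (add (add (add (sub (sub (sub (add (add (sub C x3368) x3348) x3360) x3390) x3318) x3534) x2400) x4344) x456) x6288) x7746) x9934) x16496)
  (sub (sub (add (add (add (add (sub (add (add (sub (sub (sub C x3382) x3386) x3344) x3164) x3272) x3542) x2408) x4352) x464) x6296) x7754) x16500)
  (sub (sub (add (add (add (add (sub (add (add (sub (sub (sub C x3380) x3394) x3346) x3166) x3274) x3544) x2410) x4354) x466) x6298) x7756) x9942)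
  (sub (sub (add (add (add (add (sub (add (add (sub (sub (sub C x3390) x3380) x3368) x3170) x3278) x3548) x2414) x4358) x470) x6302) x7760) x16506)
  (add (add (sub (add (add (add (add (sub (add (add (sub (sub (sub C x3386) x3396) x3372) x3174) x3282) x3552) x2418) x4362) x474) x6306) x7764) x9952) x16514)
  (sub (sub (add (add (add (add (sub (add (add (add (add (sub (sub C x3396) x3382) x3322) x3358) x3178) x3286) x3556) x2422) x4366) x478) x6310) x7768) x9954)
  (add (add (sub (add (add (add (add (sub (add (add (add (add (sub (sub C x3394) x3390) x3324) x3360) x3180) x3288) x3558) x2424) x4368) x480) x6312) x7770) x9958) x16520)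
  (add (add (sub (add (add (sub (sub (add (add (add (add (add (add (add (add C x3406) x3410) x3414) x3426) x3438) x3474) x3510) x3618) x3078) x3888) x486) x6318) x7776) x9964) x16526)
  (sub (sub (add (add (sub (sub (add (add (add (add (sub (add (add C x3402) x3410) x3412) x3442) x3478) x3514) x3622) x3082) x3892) x490) x6322) x7780) x9966)
  (sub (sub (add (add (sub (sub (add (add (add (add (sub (add (add C x3402) x3406) x3422) x3446) x3482) x3518) x3626) x3086) x3896) x494) x6326) x7784) x16530)
  (sub (sub (add (add (sub (sub (add (add (sub (sub (sub C x3414) x3406) x3430) x3520) x3628) x3088) x3898) x496) x6328) x7786) x9972)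
  (add (add (sub (add (add (sub (sub (add (add (sub (add (add (sub C x3412) x3402) x3426) x3432) x3522) x3630) x3090) x3900) x498) x6330) x7788) x9976) x16538)
  (sub (sub (add (add (sub (sub (add (add (sub (sub (sub C x3426) x3410) x3458) x3530) x3638) x3098) x3908) x506) x6338) x7796) x16542)
  (add (add (sub (add (add (sub (sub (add (add (sub (add (add (sub C x3422) x3402) x3414) x3462) x3534) x3642) x3102) x3912) x510) x6342) x7800) x9988) x16550)
  (sub (sub (add (add (sub (sub (sub (sub (add (add (sub C x3432) x3442) x3454) x3412) x3484) x3106) x3916) x514) x6346) x7804) x9990)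
  (add (add (sub (add (add (sub (sub (sub (sub (sub (sub C x3430) x3438) x3414) x3486) x3108) x3918) x516) x6348) x7806) x9994) x16556)
  (add (add (sub (add (add (sub (sub (sub (add (add (sub (add (add C x3442) x3446) x3432) x3402) x3474) x3492) x3114) x3924) x522) x6354) x7812) x10000) x16562)
  (sub (sub (add (add (sub (sub (sub (add (add (add (add (add (add C x3438) x3446) x3430) x3454) x3406) x3478) x3496) x3118) x3928) x526) x6358) x7816) x10002)
  (sub (sub (add (add (sub (sub (sub (add (add (sub (add (add C x3438) x3442) x3452) x3410) x3482) x3500) x3122) x3932) x530) x6362) x7820) x16566)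
  (sub (sub (add (add (sub (sub (sub (sub (sub (sub C x3454) x3446) x3470) x3506) x3128) x3938) x536) x6368) x7826) x16572)
  (sub (sub (add (add (sub (sub (sub (sub (add (add (sub C x3452) x3430) x3442) x3472) x3508) x3130) x3940) x538) x6370) x7828) x10014)
  (sub (sub (add (add (sub (sub (sub (sub (add (add (sub C x3462) x3470) x3482) x3422) x3566) x3134) x3944) x542) x6374) x7832) x16578)
  (add (add (sub (add (add (sub (sub (sub (sub (sub (sub C x3458) x3474) x3426) x3570) x3138) x3948) x546) x6378) x7836) x10024) x16586)
  (sub (sub (add (add (sub (sub (sub (sub (add (add (sub C x3472) x3458) x3482) x3452) x3578) x3146) x3956) x554) x6386) x7844) x16590)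
  (sub (sub (add (add (sub (sub (sub (sub (sub (sub C x3470) x3478) x3454) x3580) x3148) x3958) x556) x6388) x7846) x10032)
  (add (add (sub (add (add (sub (sub (sub (add (add (sub (add (add C x3478) x3482) x3462) x3402) x3438) x3582) x3150) x3960) x558) x6390) x7848) x10036) x16598)
  (sub (sub (add (add (sub (sub (sub (add (add (sub (add (add C x3474) x3482) x3472) x3406) x3442) x3586) x3154) x3964) x562) x6394) x7852) x10038)
  (sub (sub (add (add (sub (sub (sub (add (add (add (add (add (add C x3474) x3478) x3458) x3470) x3410) x3446) x3590) x3158) x3968) x566) x6398) x7856) x16602)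
  (sub (sub (add (add (sub (sub (sub (add (add (add (add (sub C x3486) x3496) x3508) x3520) x3556) x3430) x3322) x3970) x568) x6400) x7858) x10044)
  (add (add (sub (add (add (sub (sub (sub (add (add (sub (sub C x3484) x3492) x3522) x3558) x3432) x3324) x3972) x570) x6402) x7860) x10048) x16610)
  (add (add (sub (add (add (sub (sub (sub (sub (sub (add (add C x3496) x3500) x3486) x3510) x3438) x3330) x3978) x576) x6408) x7866) x10054) x16616)
  (sub (sub (add (add (sub (sub (sub (sub (add (add (add (add C x3492) x3500) x3484) x3508) x3514) x3442) x3334) x3982) x580) x6412) x7870) x10056)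
  (sub (sub (add (add (sub (sub (sub (sub (sub (add (add C x3492) x3496) x3506) x3518) x3446) x3338) x3986) x584) x6416) x7874) x16620)
  (sub (sub (add (add (sub (sub (sub (sub (sub (sub C x3508) x3500) x3542) x3452) x3344) x3992) x590) x6422) x7880) x16626)
  (sub (sub (add (add (sub (sub (sub (sub (add (add (sub C x3506) x3484) x3496) x3544) x3454) x3346) x3994) x592) x6424) x7882) x10068)
  (add (add (sub (add (add (sub (sub (add (add (sub (add (add (add (add C x3514) x3518) x3522) x3534) x3492) x3402) x3618) x3348) x3996) x594) x6426) x7884) x10072) x16634)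
  (sub (sub (add (add (sub (sub (add (add (sub (sub (add (add C x3510) x3518) x3520) x3496) x3406) x3622) x3352) x4000) x598) x6430) x7888) x10074)
  (sub (sub (add (add (sub (sub (add (add (sub (sub (add (add C x3510) x3514) x3530) x3500) x3410) x3626) x3356) x4004) x602) x6434) x7892) x16638)
  (sub (sub (add (add (sub (sub (add (add (add (add (sub (sub C x3522) x3514) x3484) x3556) x3412) x3628) x3358) x4006) x604) x6436) x7894) x10080)
  (add (add (sub (add (add (sub (sub (add (add (add (add (add (add (sub C x3520) x3510) x3534) x3486) x3558) x3414) x3630) x3360) x4008) x606) x6438) x7896) x10084) x16646)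
  (sub (sub (add (add (sub (sub (add (add (sub (sub (sub C x3534) x3518) x3548) x3422) x3638) x3368) x4016) x614) x6446) x7904) x16650)
  (add (add (sub (add (add (sub (sub (add (add (sub (add (add (sub C x3530) x3510) x3522) x3552) x3426) x3642) x3372) x4020) x618) x6450) x7908) x10096) x16658)
  (sub (sub (add (add (sub (sub (sub (sub (sub (sub C x3544) x3548) x3506) x3596) x3380) x4028) x626) x6458) x7916) x16662)
  (sub (sub (add (add (sub (sub (sub (sub (sub (sub C x3542) x3556) x3508) x3598) x3382) x4030) x628) x6460) x7918) x10104)
  (sub (sub (add (add (sub (sub (sub (sub (sub (sub C x3552) x3542) x3530) x3602) x3386) x4034) x632) x6464) x7922) x16668)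
  (add (add (sub (add (add (sub (sub (sub (sub (sub (sub C x3548) x3558) x3534) x3606) x3390) x4038) x636) x6468) x7926) x10114) x16676)
  (sub (sub (add (add (sub (sub (sub (add (add (sub (sub C x3558) x3544) x3484) x3520) x3610) x3394) x4042) x640) x6472) x7930) x10116)
  (add (add (sub (add (add (sub (sub (sub (add (add (sub (sub C x3556) x3552) x3486) x3522) x3612) x3396) x4044) x642) x6474) x7932) x10120) x16682)
  (sub (sub (add (add (sub (add (add (sub (add (add (add (add (sub C x3570) x3578) x3590) x3602) x3638) x3458) x2918) x3242) x4052) x650) x6482) x7940) x16686)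
  (add (add (sub (add (add (sub (add (add (sub (add (add (sub (sub C x3566) x3582) x3606) x3642) x3462) x2922) x3246) x4056) x654) x6486) x7944) x10132) x16694)
  (sub (sub (add (add (sub (add (add (sub (sub (add (add (sub C x3580) x3566) x3590) x3596) x3470) x2930) x3254) x4064) x662) x6494) x7952) x16698)
  (sub (sub (add (add (sub (add (add (sub (sub (sub (sub C x3578) x3586) x3598) x3472) x2932) x3256) x4066) x664) x6496) x7954) x10140)
  (add (add (sub (add (add (sub (add (add (sub (sub (sub (add (add C x3586) x3590) x3570) x3618) x3474) x2934) x3258) x4068) x666) x6498) x7956) x10144) x16706)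
  (sub (sub (add (add (sub (add (add (sub (sub (sub (add (add C x3582) x3590) x3580) x3622) x3478) x2938) x3262) x4072) x670) x6502) x7960) x10146)
  (sub (sub (add (add (sub (add (add (sub (sub (add (add (add (add C x3582) x3586) x3566) x3578) x3626) x3482) x2942) x3266) x4076) x674) x6506) x7964) x16710)
  (sub (sub (add (add (sub (add (add (sub (sub (sub (sub C x3598) x3602) x3578) x3542) x2948) x3272) x4082) x680) x6512) x7970) x16716)
  (sub (sub (add (add (sub (add (add (sub (sub (sub (sub C x3596) x3610) x3580) x3544) x2950) x3274) x4084) x682) x6514) x7972) x10158)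
  (sub (sub (add (add (sub (add (add (sub (add (add (sub (sub C x3606) x3596) x3566) x3638) x3548) x2954) x3278) x4088) x686) x6518) x7976) x16722)
  (add (add (sub (add (add (sub (add (add (sub (add (add (sub (sub C x3602) x3612) x3570) x3642) x3552) x2958) x3282) x4092) x690) x6522) x7980) x10168) x16730)
  (sub (sub (add (add (sub (add (add (sub (sub (sub (sub C x3612) x3598) x3628) x3556) x2962) x3286) x4096) x694) x6526) x7984) x10170)
  (add (add (sub (add (add (sub (add (add (sub (sub (sub (sub C x3610) x3606) x3630) x3558) x2964) x3288) x4098) x696) x6528) x7986) x10174) x16736)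
  (add (add (sub (add (add (sub (add (add (add (add (sub (add (add (add (add C x3622) x3626) x3630) x3642) x3582) x3402) x3510) x2970) x3294) x4104) x702) x6534) x7992) x10180) x16742)
  (sub (sub (add (add (sub (add (add (add (add (sub (sub (add (add C x3618) x3626) x3628) x3586) x3406) x3514) x2974) x3298) x4108) x706) x6538) x7996) x10182)
  (sub (sub (add (add (sub (add (add (add (add (sub (sub (add (add C x3618) x3622) x3638) x3590) x3410) x3518) x2978) x3302) x4112) x710) x6542) x8000) x16746)
  (sub (sub (add (add (sub (add (add (add (add (sub (sub (sub C x3630) x3622) x3610) x3412) x3520) x2980) x3304) x4114) x712) x6544) x8002) x10188)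
  (add (add (sub (add (add (sub (add (add (add (add (sub (add (add (sub C x3628) x3618) x3642) x3612) x3414) x3522) x2982) x3306) x4116) x714) x6546) x8004) x10192) x16754)
  (sub (sub (add (add (sub (add (add (add (add (add (add (sub (sub C x3642) x3626) x3566) x3602) x3422) x3530) x2990) x3314) x4124) x722) x6554) x8012) x16758)
  (add (add (sub (add (add (sub (add (add (add (add (add (add (add (add (sub C x3638) x3618) x3630) x3570) x3606) x3426) x3534) x2994) x3318) x4128) x726) x6558) x8016) x10204) x16766)
  (sub (sub (sub (sub (add (add (add (add (add (add (add (add (sub C x3648) x3658) x3670) x3682) x3718) x3754) x3862) x3970) x4294) x2674) x5104) x8020) x10206)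
  (add (add (sub (sub (sub (add (add (add (add (add (add (sub (sub C x3646) x3654) x3684) x3720) x3756) x3864) x3972) x4296) x2676) x5106) x8022) x10210) x16772)
  (add (add (sub (sub (sub (add (add (add (add (sub (sub (add (add C x3658) x3662) x3648) x3672) x3762) x3870) x3978) x4302) x2682) x5112) x8028) x10216) x16778)
  (sub (sub (sub (sub (add (add (add (add (sub (add (add (add (add C x3654) x3662) x3646) x3670) x3676) x3766) x3874) x3982) x4306) x2686) x5116) x8032) x10218)
  (sub (sub (sub (sub (add (add (add (add (sub (sub (add (add C x3654) x3658) x3668) x3680) x3770) x3878) x3986) x4310) x2690) x5120) x8036) x16782)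
  (sub (sub (sub (sub (add (add (add (add (sub (sub (sub C x3670) x3662) x3704) x3776) x3884) x3992) x4316) x2696) x5126) x8042) x16788)
  (sub (sub (sub (sub (add (add (add (add (sub (add (add (sub C x3668) x3646) x3658) x3706) x3778) x3886) x3994) x4318) x2698) x5128) x8044) x10230)
  (add (add (sub (sub (sub (add (add (sub (sub (add (add (add (add C x3676) x3680) x3684) x3696) x3654) x3726) x3996) x4320) x2700) x5130) x8046) x10234) x16796)
  (sub (sub (sub (sub (add (add (sub (sub (sub (add (add C x3672) x3680) x3682) x3658) x3730) x4000) x4324) x2704) x5134) x8050) x10236)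
  (sub (sub (sub (sub (add (add (sub (sub (sub (add (add C x3672) x3676) x3692) x3662) x3734) x4004) x4328) x2708) x5138) x8054) x16800)
  (sub (sub (sub (sub (add (add (sub (add (add (sub (sub C x3684) x3676) x3646) x3718) x3736) x4006) x4330) x2710) x5140) x8056) x10242)
  (add (add (sub (sub (sub (add (add (sub (add (add (add (add (sub C x3682) x3672) x3696) x3648) x3720) x3738) x4008) x4332) x2712) x5142) x8058) x10246) x16808)
  (sub (sub (sub (sub (add (add (sub (sub (sub (sub C x3696) x3680) x3710) x3746) x4016) x4340) x2720) x5150) x8066) x16812)
  (add (add (sub (sub (sub (add (add (sub (sub (add (add (sub C x3692) x3672) x3684) x3714) x3750) x4020) x4344) x2724) x5154) x8070) x10258) x16820)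
  (sub (sub (sub (sub (add (add (sub (sub (sub (sub C x3706) x3710) x3668) x3812) x4028) x4352) x2732) x5162) x8078) x16824)
  (sub (sub (sub (sub (add (add (sub (sub (sub (sub C x3704) x3718) x3670) x3814) x4030) x4354) x2734) x5164) x8080) x10266)
  (sub (sub (sub (sub (add (add (sub (sub (sub (sub C x3714) x3704) x3692) x3818) x4034) x4358) x2738) x5168) x8084) x16830)
  (add (add (sub (sub (sub (add (add (sub (sub (sub (sub C x3710) x3720) x3696) x3822) x4038) x4362) x2742) x5172) x8088) x10276) x16838)
  (sub (sub (sub (sub (add (add (sub (add (add (sub (sub C x3720) x3706) x3646) x3682) x3826) x4042) x4366) x2746) x5176) x8092) x10278)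
  (add (add (sub (sub (sub (add (add (sub (add (add (sub (sub C x3718) x3714) x3648) x3684) x3828) x4044) x4368) x2748) x5178) x8094) x10282) x16844)
  (add (add (sub (sub (sub (sub (sub (add (add (add (add (add (add C x3730) x3734) x3738) x3750) x3762) x3798) x3672) x3888) x2754) x5184) x8100) x10288) x16850)
  (sub (sub (sub (sub (sub (sub (add (add (sub (add (add C x3726) x3734) x3736) x3766) x3802) x3676) x3892) x2758) x5188) x8104) x10290)
  (sub (sub (sub (sub (sub (sub (add (add (sub (add (add C x3726) x3730) x3746) x3770) x3806) x3680) x3896) x2762) x5192) x8108) x16854)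
  (sub (sub (sub (sub (sub (sub (sub (sub (sub C x3738) x3730) x3754) x3682) x3898) x2764) x5194) x8110) x10296)
  (add (add (sub (sub (sub (sub (sub (sub (add (add (sub C x3736) x3726) x3750) x3756) x3684) x3900) x2766) x5196) x8112) x10300) x16862)
  (sub (sub (sub (sub (sub (sub (sub (sub (sub C x3750) x3734) x3782) x3692) x3908) x2774) x5204) x8120) x16866)
  (add (add (sub (sub (sub (sub (sub (sub (add (add (sub C x3746) x3726) x3738) x3786) x3696) x3912) x2778) x5208) x8124) x10312) x16874)
  (sub (sub (sub (sub (sub (add (add (sub (add (add (sub C x3756) x3766) x3778) x3736) x3646) x3862) x3916) x2782) x5212) x8128) x10314)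
  (add (add (sub (sub (sub (sub (add (add (sub (sub (sub C x3754) x3762) x3738) x3648) x3864) x3918) x2784) x5214) x8130) x10318) x16880)
  (add (add (sub (sub (sub (sub (add (add (add (add (sub (add (add C x3766) x3770) x3756) x3726) x3798) x3654) x3870) x3924) x2790) x5220) x8136) x10324) x16886)
  (sub (sub (sub (sub (sub (add (add (add (add (add (add (add (add C x3762) x3770) x3754) x3778) x3730) x3802) x3658) x3874) x3928) x2794) x5224) x8140) x10326)
  (sub (sub (sub (sub (sub (add (add (add (add (sub (add (add C x3762) x3766) x3776) x3734) x3806) x3662) x3878) x3932) x2798) x5228) x8144) x16890)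
  (sub (sub (sub (sub (sub (add (add (sub (sub (sub C x3778) x3770) x3794) x3668) x3884) x3938) x2804) x5234) x8150) x16896)
  (sub (sub (sub (sub (sub (add (add (sub (add (add (sub C x3776) x3754) x3766) x3796) x3670) x3886) x3940) x2806) x5236) x8152) x10338)
  (sub (sub (sub (sub (sub (sub (sub (add (add (sub C x3786) x3794) x3806) x3746) x3836) x3944) x2810) x5240) x8156) x16902)
  (add (add (sub (sub (sub (sub (sub (sub (sub (sub C x3782) x3798) x3750) x3840) x3948) x2814) x5244) x8160) x10348) x16910)
  (sub (sub (sub (sub (sub (sub (sub (add (add (sub C x3796) x3782) x3806) x3776) x3848) x3956) x2822) x5252) x8168) x16914)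
  (sub (sub (sub (sub (sub (sub (sub (sub (sub C x3794) x3802) x3778) x3850) x3958) x2824) x5254) x8170) x10356)
  (add (add (sub (sub (sub (sub (sub (add (add (sub (add (add C x3802) x3806) x3786) x3726) x3762) x3852) x3960) x2826) x5256) x8172) x10360) x16922)
  (sub (sub (sub (sub (sub (sub (add (add (sub (add (add C x3798) x3806) x3796) x3730) x3766) x3856) x3964) x2830) x5260) x8176) x10362)
  (sub (sub (sub (sub (sub (sub (add (add (add (add (add (add C x3798) x3802) x3782) x3794) x3734) x3770) x3860) x3968) x2834) x5264) x8180) x16926)
  (sub (sub (sub (sub (sub (sub (add (add (sub (sub C x3814) x3818) x3848) x3884) x3704) x4136) x2840) x5270) x8186) x16932)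
  (sub (sub (sub (sub (sub (sub (add (add (sub (sub C x3812) x3826) x3850) x3886) x3706) x4138) x2842) x5272) x8188) x10374)
  (sub (sub (sub (sub (sub (sub (sub (sub (sub C x3822) x3812) x3836) x3710) x4142) x2846) x5276) x8192) x16938)
  (add (add (sub (sub (sub (sub (sub (sub (sub (sub C x3818) x3828) x3840) x3714) x4146) x2850) x5280) x8196) x10384) x16946)
  (sub (sub (sub (sub (sub (sub (sub (sub (sub C x3828) x3814) x3862) x3718) x4150) x2854) x5284) x8200) x10386)
  (add (add (sub (sub (sub (sub (sub (sub (sub (sub C x3826) x3822) x3864) x3720) x4152) x2856) x5286) x8202) x10390) x16952)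
  (sub (sub (sub (sub (sub (sub (sub (add (add (sub C x3840) x3848) x3860) x3818) x3782) x4160) x2864) x5294) x8210) x16956)
  (add (add (sub (sub (sub (sub (sub (sub (sub (sub C x3836) x3852) x3822) x3786) x4164) x2868) x5298) x8214) x10402) x16964)
  (sub (sub (sub (sub (sub (sub (add (add (add (add (sub C x3850) x3836) x3860) x3812) x3884) x3794) x4172) x2876) x5306) x8222) x16968)
  (sub (sub (sub (sub (sub (sub (add (add (sub (sub C x3848) x3856) x3814) x3886) x3796) x4174) x2878) x5308) x8224) x10410)
  (add (add (sub (sub (sub (sub (sub (sub (sub (add (add C x3856) x3860) x3840) x3870) x3798) x4176) x2880) x5310) x8226) x10414) x16976)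
  (sub (sub (sub (sub (sub (sub (sub (sub (add (add C x3852) x3860) x3850) x3874) x3802) x4180) x2884) x5314) x8230) x10416)
  (sub (sub (sub (sub (sub (sub (sub (add (add (add (add C x3852) x3856) x3836) x3848) x3878) x3806) x4184) x2888) x5318) x8234) x16980)
  (sub (sub (sub (sub (sub (add (add (sub (add (add (sub C x3864) x3874) x3886) x3826) x3646) x3754) x4186) x2890) x5320) x8236) x10422)
  (add (add (sub (sub (sub (sub (add (add (sub (sub (sub C x3862) x3870) x3828) x3648) x3756) x4188) x2892) x5322) x8238) x10426) x16988)
  (add (add (sub (sub (sub (sub (add (add (sub (sub (add (add C x3874) x3878) x3864) x3852) x3654) x3762) x4194) x2898) x5328) x8244) x10432) x16994)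
  (sub (sub (sub (sub (sub (add (add (sub (add (add (add (add C x3870) x3878) x3862) x3886) x3856) x3658) x3766) x4198) x2902) x5332) x8248) x10434)
  (sub (sub (sub (sub (sub (add (add (sub (sub (add (add C x3870) x3874) x3884) x3860) x3662) x3770) x4202) x2906) x5336) x8252) x16998)
  (sub (sub (sub (sub (sub (add (add (add (add (sub (sub C x3886) x3878) x3812) x3848) x3668) x3776) x4208) x2912) x5342) x8258) x17004)
  (sub (sub (sub (sub (sub (add (add (add (add (add (add (sub C x3884) x3862) x3874) x3814) x3850) x3670) x3778) x4210) x2914) x5344) x8260) x10446)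
  (add (add (sub (sub (sub (sub (add (add (add (add (add (add (add (add C x3892) x3896) x3900) x3912) x3924) x3960) x3996) x4104) x3726) x3402) x5346) x8262) x10450) x17012)
  (sub (sub (sub (sub (sub (add (add (add (add (sub (add (add C x3888) x3896) x3898) x3928) x3964) x4000) x4108) x3730) x3406) x5350) x8266) x10452)
  (sub (sub (sub (sub (sub (add (add (add (add (sub (add (add C x3888) x3892) x3908) x3932) x3968) x4004) x4112) x3734) x3410) x5354) x8270) x17016)
  (sub (sub (sub (sub (sub (add (add (sub (sub (sub C x3900) x3892) x3916) x4006) x4114) x3736) x3412) x5356) x8272) x10458)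
  (add (add (sub (sub (sub (sub (add (add (sub (add (add (sub C x3898) x3888) x3912) x3918) x4008) x4116) x3738) x3414) x5358) x8274) x10462) x17024)
  (sub (sub (sub (sub (sub (add (add (sub (sub (sub C x3912) x3896) x3944) x4016) x4124) x3746) x3422) x5366) x8282) x17028)
  (add (add (sub (sub (sub (sub (add (add (sub (add (add (sub C x3908) x3888) x3900) x3948) x4020) x4128) x3750) x3426) x5370) x8286) x10474) x17036)
  (sub (sub (sub (sub (sub (sub (sub (add (add (sub C x3918) x3928) x3940) x3898) x3970) x3754) x3430) x5374) x8290) x10476)
  (add (add (sub (sub (sub (sub (sub (sub (sub (sub C x3916) x3924) x3900) x3972) x3756) x3432) x5376) x8292) x10480) x17042)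
  (add (add (sub (sub (sub (sub (sub (add (add (sub (add (add C x3928) x3932) x3918) x3888) x3960) x3978) x3762) x3438) x5382) x8298) x10486) x17048)
  (sub (sub (sub (sub (sub (sub (add (add (add (add (add (add C x3924) x3932) x3916) x3940) x3892) x3964) x3982) x3766) x3442) x5386) x8302) x10488)
  (sub (sub (sub (sub (sub (sub (add (add (sub (add (add C x3924) x3928) x3938) x3896) x3968) x3986) x3770) x3446) x5390) x8306) x17052)
  (sub (sub (sub (sub (sub (sub (sub (sub (sub C x3940) x3932) x3956) x3992) x3776) x3452) x5396) x8312) x17058)
  (sub (sub (sub (sub (sub (sub (sub (add (add (sub C x3938) x3916) x3928) x3958) x3994) x3778) x3454) x5398) x8314) x10500)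
  (sub (sub (sub (sub (sub (sub (sub (add (add (sub C x3948) x3956) x3968) x3908) x4052) x3782) x3458) x5402) x8318) x17064)
  (add (add (sub (sub (sub (sub (sub (sub (sub (sub C x3944) x3960) x3912) x4056) x3786) x3462) x5406) x8322) x10510) x17072)
  (sub (sub (sub (sub (sub (sub (sub (add (add (sub C x3958) x3944) x3968) x3938) x4064) x3794) x3470) x5414) x8330) x17076)
  (sub (sub (sub (sub (sub (sub (sub (sub (sub C x3956) x3964) x3940) x4066) x3796) x3472) x5416) x8332) x10518)
  (add (add (sub (sub (sub (sub (sub (add (add (sub (add (add C x3964) x3968) x3948) x3888) x3924) x4068) x3798) x3474) x5418) x8334) x10522) x17084)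
  (sub (sub (sub (sub (sub (sub (add (add (sub (add (add C x3960) x3968) x3958) x3892) x3928) x4072) x3802) x3478) x5422) x8338) x10524)
  (sub (sub (sub (sub (sub (sub (add (add (add (add (add (add C x3960) x3964) x3944) x3956) x3896) x3932) x4076) x3806) x3482) x5426) x8342) x17088)
  (sub (sub (sub (sub (add (add (sub (add (add (add (add (sub C x3972) x3982) x3994) x4006) x4042) x3916) x3646) x4294) x3484) x5428) x8344) x10530)
  (add (add (sub (sub (sub (add (add (sub (add (add (sub (sub C x3970) x3978) x4008) x4044) x3918) x3648) x4296) x3486) x5430) x8346) x10534) x17096)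
  (add (add (sub (sub (sub (add (add (sub (sub (sub (add (add C x3982) x3986) x3972) x3996) x3924) x3654) x4302) x3492) x5436) x8352) x10540) x17102)
  (sub (sub (sub (sub (add (add (sub (sub (add (add (add (add C x3978) x3986) x3970) x3994) x4000) x3928) x3658) x4306) x3496) x5440) x8356) x10542)
  (sub (sub (sub (sub (add (add (sub (sub (sub (add (add C x3978) x3982) x3992) x4004) x3932) x3662) x4310) x3500) x5444) x8360) x17106)
  (sub (sub (sub (sub (add (add (sub (sub (sub (sub C x3994) x3986) x4028) x3938) x3668) x4316) x3506) x5450) x8366) x17112)
  (sub (sub (sub (sub (add (add (sub (sub (add (add (sub C x3992) x3970) x3982) x4030) x3940) x3670) x4318) x3508) x5452) x8368) x10554)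
  (add (add (sub (sub (sub (add (add (add (add (sub (add (add (add (add C x4000) x4004) x4008) x4020) x3978) x3888) x4104) x3672) x4320) x3510) x5454) x8370) x10558) x17120)
  (sub (sub (sub (sub (add (add (add (add (sub (sub (add (add C x3996) x4004) x4006) x3982) x3892) x4108) x3676) x4324) x3514) x5458) x8374) x10560)
  (sub (sub (sub (sub (add (add (add (add (sub (sub (add (add C x3996) x4000) x4016) x3986) x3896) x4112) x3680) x4328) x3518) x5462) x8378) x17124)
  (sub (sub (sub (sub (add (add (add (add (add (add (sub (sub C x4008) x4000) x3970) x4042) x3898) x4114) x3682) x4330) x3520) x5464) x8380) x10566)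
  (add (add (sub (sub (sub (add (add (add (add (add (add (add (add (sub C x4006) x3996) x4020) x3972) x4044) x3900) x4116) x3684) x4332) x3522) x5466) x8382) x10570) x17132)
  (sub (sub (sub (sub (add (add (add (add (sub (sub (sub C x4020) x4004) x4034) x3908) x4124) x3692) x4340) x3530) x5474) x8390) x17136)
  (add (add (sub (sub (sub (add (add (add (add (sub (add (add (sub C x4016) x3996) x4008) x4038) x3912) x4128) x3696) x4344) x3534) x5478) x8394) x10582) x17144)
  (sub (sub (sub (sub (add (add (sub (sub (sub (sub C x4030) x4034) x3992) x4082) x3704) x4352) x3542) x5486) x8402) x17148)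
  (sub (sub (sub (sub (add (add (sub (sub (sub (sub C x4028) x4042) x3994) x4084) x3706) x4354) x3544) x5488) x8404) x10590)
  (sub (sub (sub (sub (add (add (sub (sub (sub (sub C x4038) x4028) x4016) x4088) x3710) x4358) x3548) x5492) x8408) x17154)
  (add (add (sub (sub (sub (add (add (sub (sub (sub (sub C x4034) x4044) x4020) x4092) x3714) x4362) x3552) x5496) x8412) x10600) x17162)
  (sub (sub (sub (sub (add (add (sub (add (add (sub (sub C x4044) x4030) x3970) x4006) x4096) x3718) x4366) x3556) x5500) x8416) x10602)
  (add (add (sub (sub (sub (add (add (sub (add (add (sub (sub C x4042) x4038) x3972) x4008) x4098) x3720) x4368) x3558) x5502) x8418) x10606) x17168)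
  (sub (sub (sub (sub (sub (sub (add (add (add (add (sub C x4056) x4064) x4076) x4088) x4124) x3944) x4214) x3566) x5510) x8426) x17172)
  (add (add (sub (sub (sub (sub (sub (add (add (sub (sub C x4052) x4068) x4092) x4128) x3948) x4218) x3570) x5514) x8430) x10618) x17180)
  (sub (sub (sub (sub (sub (sub (sub (add (add (sub C x4066) x4052) x4076) x4082) x3956) x4226) x3578) x5522) x8438) x17184)
  (sub (sub (sub (sub (sub (sub (sub (sub (sub C x4064) x4072) x4084) x3958) x4228) x3580) x5524) x8440) x10626)
  (add (add (sub (sub (sub (sub (sub (sub (sub (add (add C x4072) x4076) x4056) x4104) x3960) x4230) x3582) x5526) x8442) x10630) x17192)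
  (sub (sub (sub (sub (sub (sub (sub (sub (add (add C x4068) x4076) x4066) x4108) x3964) x4234) x3586) x5530) x8446) x10632)
  (sub (sub (sub (sub (sub (sub (sub (add (add (add (add C x4068) x4072) x4052) x4064) x4112) x3968) x4238) x3590) x5534) x8450) x17196)
  (sub (sub (sub (sub (sub (sub (sub (sub (sub C x4084) x4088) x4064) x4028) x4244) x3596) x5540) x8456) x17202)
  (sub (sub (sub (sub (sub (sub (sub (sub (sub C x4082) x4096) x4066) x4030) x4246) x3598) x5542) x8458) x10644)
  (sub (sub (sub (sub (sub (sub (add (add (sub (sub C x4092) x4082) x4052) x4124) x4034) x4250) x3602) x5546) x8462) x17208)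
  (add (add (sub (sub (sub (sub (sub (add (add (sub (sub C x4088) x4098) x4056) x4128) x4038) x4254) x3606) x5550) x8466) x10654) x17216)
  (sub (sub (sub (sub (sub (sub (sub (sub (sub C x4098) x4084) x4114) x4042) x4258) x3610) x5554) x8470) x10656)
  (add (add (sub (sub (sub (sub (sub (sub (sub (sub C x4096) x4092) x4116) x4044) x4260) x3612) x5556) x8472) x10660) x17222)
  (add (add (sub (sub (sub (sub (add (add (sub (add (add (add (add C x4108) x4112) x4116) x4128) x4068) x3888) x3996) x4266) x3618) x5562) x8478) x10666) x17228)
  (sub (sub (sub (sub (sub (add (add (sub (sub (add (add C x4104) x4112) x4114) x4072) x3892) x4000) x4270) x3622) x5566) x8482) x10668)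
  (sub (sub (sub (sub (sub (add (add (sub (sub (add (add C x4104) x4108) x4124) x4076) x3896) x4004) x4274) x3626) x5570) x8486) x17232)
  (sub (sub (sub (sub (sub (add (add (sub (sub (sub C x4116) x4108) x4096) x3898) x4006) x4276) x3628) x5572) x8488) x10674)
  (add (add (sub (sub (sub (sub (add (add (sub (add (add (sub C x4114) x4104) x4128) x4098) x3900) x4008) x4278) x3630) x5574) x8490) x10678) x17240)
  (sub (sub (sub (sub (sub (add (add (add (add (sub (sub C x4128) x4112) x4052) x4088) x3908) x4016) x4286) x3638) x5582) x8498) x17244)
  (add (add (sub (sub (sub (sub (add (add (add (add (add (add (sub C x4124) x4104) x4116) x4056) x4092) x3912) x4020) x4290) x3642) x5586) x8502) x10690) x17252)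
  (sub (sub (sub (add (add (sub (add (add (add (add (sub (sub C x4138) x4142) x4172) x4208) x4244) x4352) x3812) x2192) x3164) x5594) x8510) x17256)
  (sub (sub (sub (add (add (sub (add (add (add (add (sub (sub C x4136) x4150) x4174) x4210) x4246) x4354) x3814) x2194) x3166) x5596) x8512) x10698)
  (sub (sub (sub (add (add (sub (add (add (sub (sub (sub C x4146) x4136) x4160) x4250) x4358) x3818) x2198) x3170) x5600) x8516) x17262)
  (add (add (sub (sub (add (add (sub (add (add (sub (sub (sub C x4142) x4152) x4164) x4254) x4362) x3822) x2202) x3174) x5604) x8520) x10708) x17270)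
  (sub (sub (sub (add (add (sub (add (add (sub (sub (sub C x4152) x4138) x4186) x4258) x4366) x3826) x2206) x3178) x5608) x8524) x10710)
  (add (add (sub (sub (add (add (sub (add (add (sub (sub (sub C x4150) x4146) x4188) x4260) x4368) x3828) x2208) x3180) x5610) x8526) x10714) x17276)
  (sub (sub (sub (add (add (sub (sub (sub (add (add (sub C x4164) x4172) x4184) x4142) x4214) x3836) x2216) x3188) x5618) x8534) x17280)
  (add (add (sub (sub (add (add (sub (sub (sub (sub (sub C x4160) x4176) x4146) x4218) x3840) x2220) x3192) x5622) x8538) x10726) x17288)
  (sub (sub (sub (add (add (sub (sub (add (add (add (add (sub C x4174) x4160) x4184) x4136) x4208) x4226) x3848) x2228) x3200) x5630) x8546) x17292)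
  (sub (sub (sub (add (add (sub (sub (add (add (sub (sub C x4172) x4180) x4138) x4210) x4228) x3850) x2230) x3202) x5632) x8548) x10734)
  (add (add (sub (sub (add (add (sub (sub (sub (sub (add (add C x4180) x4184) x4164) x4194) x4230) x3852) x2232) x3204) x5634) x8550) x10738) x17300)
  (sub (sub (sub (add (add (sub (sub (sub (sub (add (add C x4176) x4184) x4174) x4198) x4234) x3856) x2236) x3208) x5638) x8554) x10740)
  (sub (sub (sub (add (add (sub (sub (sub (add (add (add (add C x4176) x4180) x4160) x4172) x4202) x4238) x3860) x2240) x3212) x5642) x8558) x17304)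
  (sub (sub (sub (add (add (sub (sub (sub (add (add (sub C x4188) x4198) x4210) x4150) x4294) x3862) x2242) x3214) x5644) x8560) x10746)
  (add (add (sub (sub (add (add (sub (sub (sub (sub (sub C x4186) x4194) x4152) x4296) x3864) x2244) x3216) x5646) x8562) x10750) x17312)
  (add (add (sub (sub (add (add (sub (sub (sub (sub (add (add C x4198) x4202) x4188) x4176) x4302) x3870) x2250) x3222) x5652) x8568) x10756) x17318)
  (sub (sub (sub (add (add (sub (sub (sub (add (add (add (add C x4194) x4202) x4186) x4210) x4180) x4306) x3874) x2254) x3226) x5656) x8572) x10758)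
  (sub (sub (sub (add (add (sub (sub (sub (sub (add (add C x4194) x4198) x4208) x4184) x4310) x3878) x2258) x3230) x5660) x8576) x17322)
  (sub (sub (sub (add (add (sub (sub (add (add (sub (sub C x4210) x4202) x4136) x4172) x4316) x3884) x2264) x3236) x5666) x8582) x17328)
  (sub (sub (sub (add (add (sub (sub (add (add (add (add (sub C x4208) x4186) x4198) x4138) x4174) x4318) x3886) x2266) x3238) x5668) x8584) x10770)
  (sub (sub (sub (add (add (sub (sub (add (add (add (add (sub C x4218) x4226) x4238) x4250) x4286) x4160) x4052) x2270) x3242) x5672) x8588) x17334)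
  (add (add (sub (sub (add (add (sub (sub (add (add (sub (sub C x4214) x4230) x4254) x4290) x4164) x4056) x2274) x3246) x5676) x8592) x10780) x17342)
  (sub (sub (sub (add (add (sub (sub (sub (add (add (sub C x4228) x4214) x4238) x4244) x4172) x4064) x2282) x3254) x5684) x8600) x17346)
  (sub (sub (sub (add (add (sub (sub (sub (sub (sub C x4226) x4234) x4246) x4174) x4066) x2284) x3256) x5686) x8602) x10788)
  (add (add (sub (sub (add (add (sub (sub (sub (sub (add (add C x4234) x4238) x4218) x4266) x4176) x4068) x2286) x3258) x5688) x8604) x10792) x17354)
  (sub (sub (sub (add (add (sub (sub (sub (sub (add (add C x4230) x4238) x4228) x4270) x4180) x4072) x2290) x3262) x5692) x8608) x10794)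
  (sub (sub (sub (add (add (sub (sub (sub (add (add (add (add C x4230) x4234) x4214) x4226) x4274) x4184) x4076) x2294) x3266) x5696) x8612) x17358)
  (sub (sub (sub (add (add (sub (add (add (sub (sub (sub C x4246) x4250) x4226) x4136) x4352) x4082) x2300) x3272) x5702) x8618) x17364)
  (sub (sub (sub (add (add (sub (add (add (sub (sub (sub C x4244) x4258) x4228) x4138) x4354) x4084) x2302) x3274) x5704) x8620) x10806)
  (sub (sub (sub (add (add (sub (add (add (add (add (sub (sub C x4254) x4244) x4214) x4286) x4142) x4358) x4088) x2306) x3278) x5708) x8624) x17370)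
  (add (add (sub (sub (add (add (sub (add (add (add (add (sub (sub C x4250) x4260) x4218) x4290) x4146) x4362) x4092) x2310) x3282) x5712) x8628) x10816) x17378)
  (sub (sub (sub (add (add (sub (add (add (sub (sub (sub C x4260) x4246) x4276) x4150) x4366) x4096) x2314) x3286) x5716) x8632) x10818)
  (add (add (sub (sub (add (add (sub (add (add (sub (sub (sub C x4258) x4254) x4278) x4152) x4368) x4098) x2316) x3288) x5718) x8634) x10822) x17384)
  (add (add (sub (sub (add (add (sub (sub (sub (add (add (add (add C x4270) x4274) x4278) x4290) x4230) x4320) x4104) x2322) x3294) x5724) x8640) x10828) x17390)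
  (sub (sub (sub (add (add (sub (sub (sub (sub (add (add C x4266) x4274) x4276) x4234) x4324) x4108) x2326) x3298) x5728) x8644) x10830)
  (sub (sub (sub (add (add (sub (sub (sub (sub (add (add C x4266) x4270) x4286) x4238) x4328) x4112) x2330) x3302) x5732) x8648) x17394)
  (sub (sub (sub (add (add (sub (sub (sub (sub (sub C x4278) x4270) x4258) x4330) x4114) x2332) x3304) x5734) x8650) x10836)
  (add (add (sub (sub (add (add (sub (sub (sub (add (add (sub C x4276) x4266) x4290) x4260) x4332) x4116) x2334) x3306) x5736) x8652) x10840) x17402)
  (sub (sub (sub (add (add (sub (sub (add (add (sub (sub C x4290) x4274) x4214) x4250) x4340) x4124) x2342) x3314) x5744) x8660) x17406)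
  (add (add (sub (sub (add (add (sub (sub (add (add (add (add (sub C x4286) x4266) x4278) x4218) x4254) x4344) x4128) x2346) x3318) x5748) x8664) x10852) x17414)
  (sub (sub (sub (add (add (add (add (sub (add (add (add (add (sub C x4296) x4306) x4318) x4330) x4366) x4186) x3646) x3970) x2350) x3322) x5752) x8668) x10854)
  (add (add (sub (sub (add (add (add (add (sub (add (add (sub (sub C x4294) x4302) x4332) x4368) x4188) x3648) x3972) x2352) x3324) x5754) x8670) x10858) x17420)
  (add (add (sub (sub (add (add (add (add (sub (sub (sub (add (add C x4306) x4310) x4296) x4320) x4194) x3654) x3978) x2358) x3330) x5760) x8676) x10864) x17426)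
  (sub (sub (sub (add (add (add (add (sub (sub (add (add (add (add C x4302) x4310) x4294) x4318) x4324) x4198) x3658) x3982) x2362) x3334) x5764) x8680) x10866)
  (sub (sub (sub (add (add (add (add (sub (sub (sub (add (add C x4302) x4306) x4316) x4328) x4202) x3662) x3986) x2366) x3338) x5768) x8684) x17430)
  (sub (sub (sub (add (add (add (add (sub (sub (sub (sub C x4318) x4310) x4352) x4208) x3668) x3992) x2372) x3344) x5774) x8690) x17436)
  (sub (sub (sub (add (add (add (add (sub (sub (add (add (sub C x4316) x4294) x4306) x4354) x4210) x3670) x3994) x2374) x3346) x5776) x8692) x10878)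
  (add (add (sub (sub (add (add (add (add (sub (sub (add (add (add (add C x4324) x4328) x4332) x4344) x4302) x4266) x3672) x3996) x2376) x3348) x5778) x8694) x10882) x17444)
  (sub (sub (sub (add (add (add (add (sub (sub (sub (add (add C x4320) x4328) x4330) x4306) x4270) x3676) x4000) x2380) x3352) x5782) x8698) x10884)
  (sub (sub (sub (add (add (add (add (sub (sub (sub (add (add C x4320) x4324) x4340) x4310) x4274) x3680) x4004) x2384) x3356) x5786) x8702) x17448)
  (sub (sub (sub (add (add (add (add (sub (add (add (sub (sub C x4332) x4324) x4294) x4366) x4276) x3682) x4006) x2386) x3358) x5788) x8704) x10890)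
  (add (add (sub (sub (add (add (add (add (sub (add (add (add (add (sub C x4330) x4320) x4344) x4296) x4368) x4278) x3684) x4008) x2388) x3360) x5790) x8706) x10894) x17456)
  (sub (sub (sub (add (add (add (add (sub (sub (sub (sub C x4344) x4328) x4358) x4286) x3692) x4016) x2396) x3368) x5798) x8714) x17460)
  (add (add (sub (sub (add (add (add (add (sub (sub (add (add (sub C x4340) x4320) x4332) x4362) x4290) x3696) x4020) x2400) x3372) x5802) x8718) x10906) x17468)
  (sub (sub (sub (add (add (add (add (add (add (sub (sub (sub C x4354) x4358) x4316) x4136) x4244) x3704) x4028) x2408) x3380) x5810) x8726) x17472)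
  (sub (sub (sub (add (add (add (add (add (add (sub (sub (sub C x4352) x4366) x4318) x4138) x4246) x3706) x4030) x2410) x3382) x5812) x8728) x10914)
  (sub (sub (sub (add (add (add (add (add (add (sub (sub (sub C x4362) x4352) x4340) x4142) x4250) x3710) x4034) x2414) x3386) x5816) x8732) x17478)
  (add (add (sub (sub (add (add (add (add (add (add (sub (sub (sub C x4358) x4368) x4344) x4146) x4254) x3714) x4038) x2418) x3390) x5820) x8736) x10924) x17486)
  (sub (sub (sub (add (add (add (add (add (add (add (add (sub (sub C x4368) x4354) x4294) x4330) x4150) x4258) x3718) x4042) x2422) x3394) x5824) x8740) x10926)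
  (add (add (sub (sub (add (add (add (add (add (add (add (add (sub (sub C x4366) x4362) x4296) x4332) x4152) x4260) x3720) x4044) x2424) x3396) x5826) x8742) x10930) x17492)
  (add (add (sub (sub (add (add (add (add (add (add (add (add (add (add (add (add C x4378) x4382) x4386) x4398) x4410) x4446) x4482) x4590) x4698) x5022) x5346) x6318) x1458) x13122) x10936) x17498)
  (sub (sub (sub (add (add (add (add (add (add (add (add (sub (add (add C x4374) x4382) x4384) x4414) x4450) x4486) x4594) x4702) x5026) x5350) x6322) x1462) x13126) x10938)
  (sub (sub (sub (add (add (add (add (add (add (add (add (sub (add (add C x4374) x4378) x4394) x4418) x4454) x4490) x4598) x4706) x5030) x5354) x6326) x1466) x13130) x17502)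
  (sub (sub (sub (add (add (add (add (add (add (sub (sub (sub C x4386) x4378) x4402) x4492) x4600) x4708) x5032) x5356) x6328) x1468) x13132) x10944)
  (add (add (sub (sub (add (add (add (add (add (add (sub (add (add (sub C x4384) x4374) x4398) x4404) x4494) x4602) x4710) x5034) x5358) x6330) x1470) x13134) x10948) x17510)
  (sub (sub (sub (add (add (add (add (add (add (sub (sub (sub C x4398) x4382) x4430) x4502) x4610) x4718) x5042) x5366) x6338) x1478) x13142) x17514)
  (add (add (sub (sub (add (add (add (add (add (add (sub (add (add (sub C x4394) x4374) x4386) x4434) x4506) x4614) x4722) x5046) x5370) x6342) x1482) x13146) x10960) x17522)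
  (sub (sub (sub (add (add (add (add (sub (sub (add (add (sub C x4404) x4414) x4426) x4384) x4456) x4726) x5050) x5374) x6346) x1486) x13150) x10962)
  (add (add (sub (sub (add (add (add (add (sub (sub (sub (sub C x4402) x4410) x4386) x4458) x4728) x5052) x5376) x6348) x1488) x13152) x10966) x17528)
  (add (add (sub (sub (add (add (add (add (sub (add (add (sub (add (add C x4414) x4418) x4404) x4374) x4446) x4464) x4734) x5058) x5382) x6354) x1494) x13158) x10972) x17534)
  (sub (sub (sub (add (add (add (add (sub (add (add (add (add (add (add C x4410) x4418) x4402) x4426) x4378) x4450) x4468) x4738) x5062) x5386) x6358) x1498) x13162) x10974)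
  (sub (sub (sub (add (add (add (add (sub (add (add (sub (add (add C x4410) x4414) x4424) x4382) x4454) x4472) x4742) x5066) x5390) x6362) x1502) x13166) x17538)
  (sub (sub (sub (add (add (add (add (sub (sub (sub (sub C x4426) x4418) x4442) x4478) x4748) x5072) x5396) x6368) x1508) x13172) x17544)
  (sub (sub (sub (add (add (add (add (sub (sub (add (add (sub C x4424) x4402) x4414) x4444) x4480) x4750) x5074) x5398) x6370) x1510) x13174) x10986)
  (sub (sub (sub (add (add (add (add (sub (sub (add (add (sub C x4434) x4442) x4454) x4394) x4538) x4754) x5078) x5402) x6374) x1514) x13178) x17550)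
  (add (add (sub (sub (add (add (add (add (sub (sub (sub (sub C x4430) x4446) x4398) x4542) x4758) x5082) x5406) x6378) x1518) x13182) x10996) x17558)
  (sub (sub (sub (add (add (add (add (sub (sub (add (add (sub C x4444) x4430) x4454) x4424) x4550) x4766) x5090) x5414) x6386) x1526) x13190) x17562)
  (sub (sub (sub (add (add (add (add (sub (sub (sub (sub C x4442) x4450) x4426) x4552) x4768) x5092) x5416) x6388) x1528) x13192) x11004)
  (add (add (sub (sub (add (add (add (add (sub (add (add (sub (add (add C x4450) x4454) x4434) x4374) x4410) x4554) x4770) x5094) x5418) x6390) x1530) x13194) x11008) x17570)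
  (sub (sub (sub (add (add (add (add (sub (add (add (sub (add (add C x4446) x4454) x4444) x4378) x4414) x4558) x4774) x5098) x5422) x6394) x1534) x13198) x11010)
  (sub (sub (sub (add (add (add (add (sub (add (add (add (add (add (add C x4446) x4450) x4430) x4442) x4382) x4418) x4562) x4778) x5102) x5426) x6398) x1538) x13202) x17574)
  (sub (sub (sub (add (add (sub (sub (add (add (add (add (sub C x4458) x4468) x4480) x4492) x4528) x4402) x4618) x5428) x6400) x1540) x13204) x11016)
  (add (add (sub (sub (add (add (sub (sub (add (add (sub (sub C x4456) x4464) x4494) x4530) x4404) x4620) x5430) x6402) x1542) x13206) x11020) x17582)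
  (add (add (sub (sub (add (add (sub (sub (sub (sub (add (add C x4468) x4472) x4458) x4482) x4410) x4626) x5436) x6408) x1548) x13212) x11026) x17588)
  (sub (sub (sub (add (add (sub (sub (sub (add (add (add (add C x4464) x4472) x4456) x4480) x4486) x4414) x4630) x5440) x6412) x1552) x13216) x11028)
  (sub (sub (sub (add (add (sub (sub (sub (sub (add (add C x4464) x4468) x4478) x4490) x4418) x4634) x5444) x6416) x1556) x13220) x17592)
  (sub (sub (sub (add (add (sub (sub (sub (sub (sub C x4480) x4472) x4514) x4424) x4640) x5450) x6422) x1562) x13226) x17598)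
  (sub (sub (sub (add (add (sub (sub (sub (add (add (sub C x4478) x4456) x4468) x4516) x4426) x4642) x5452) x6424) x1564) x13228) x11040)
  (add (add (sub (sub (add (add (sub (add (add (sub (add (add (add (add C x4486) x4490) x4494) x4506) x4464) x4374) x4590) x4644) x5454) x6426) x1566) x13230) x11044) x17606)
  (sub (sub (sub (add (add (sub (add (add (sub (sub (add (add C x4482) x4490) x4492) x4468) x4378) x4594) x4648) x5458) x6430) x1570) x13234) x11046)
  (sub (sub (sub (add (add (sub (add (add (sub (sub (add (add C x4482) x4486) x4502) x4472) x4382) x4598) x4652) x5462) x6434) x1574) x13238) x17610)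
  (sub (sub (sub (add (add (sub (add (add (add (add (sub (sub C x4494) x4486) x4456) x4528) x4384) x4600) x4654) x5464) x6436) x1576) x13240) x11052)
  (add (add (sub (sub (add (add (sub (add (add (add (add (add (add (sub C x4492) x4482) x4506) x4458) x4530) x4386) x4602) x4656) x5466) x6438) x1578) x13242) x11056) x17618)
  (sub (sub (sub (add (add (sub (add (add (sub (sub (sub C x4506) x4490) x4520) x4394) x4610) x4664) x5474) x6446) x1586) x13250) x17622)
  (add (add (sub (sub (add (add (sub (add (add (sub (add (add (sub C x4502) x4482) x4494) x4524) x4398) x4614) x4668) x5478) x6450) x1590) x13254) x11068) x17630)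
  (sub (sub (sub (add (add (sub (sub (sub (sub (sub C x4516) x4520) x4478) x4568) x4676) x5486) x6458) x1598) x13262) x17634)
  (sub (sub (sub (add (add (sub (sub (sub (sub (sub C x4514) x4528) x4480) x4570) x4678) x5488) x6460) x1600) x13264) x11076)
  (sub (sub (sub (add (add (sub (sub (sub (sub (sub C x4524) x4514) x4502) x4574) x4682) x5492) x6464) x1604) x13268) x17640)
  (add (add (sub (sub (add (add (sub (sub (sub (sub (sub C x4520) x4530) x4506) x4578) x4686) x5496) x6468) x1608) x13272) x11086) x17648)
  (sub (sub (sub (add (add (sub (sub (add (add (sub (sub C x4530) x4516) x4456) x4492) x4582) x4690) x5500) x6472) x1612) x13276) x11088)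
  (add (add (sub (sub (add (add (sub (sub (add (add (sub (sub C x4528) x4524) x4458) x4494) x4584) x4692) x5502) x6474) x1614) x13278) x11092) x17654)
  (sub (sub (sub (add (add (sub (sub (add (add (add (add (sub C x4542) x4550) x4562) x4574) x4610) x4430) x4862) x5510) x6482) x1622) x13286) x17658)
  (add (add (sub (sub (add (add (sub (sub (add (add (sub (sub C x4538) x4554) x4578) x4614) x4434) x4866) x5514) x6486) x1626) x13290) x11104) x17666)
  (sub (sub (sub (add (add (sub (sub (sub (add (add (sub C x4552) x4538) x4562) x4568) x4442) x4874) x5522) x6494) x1634) x13298) x17670)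
  (sub (sub (sub (add (add (sub (sub (sub (sub (sub C x4550) x4558) x4570) x4444) x4876) x5524) x6496) x1636) x13300) x11112)
  (add (add (sub (sub (add (add (sub (sub (sub (sub (add (add C x4558) x4562) x4542) x4590) x4446) x4878) x5526) x6498) x1638) x13302) x11116) x17678)
  (sub (sub (sub (add (add (sub (sub (sub (sub (add (add C x4554) x4562) x4552) x4594) x4450) x4882) x5530) x6502) x1642) x13306) x11118)
  (sub (sub (sub (add (add (sub (sub (sub (add (add (add (add C x4554) x4558) x4538) x4550) x4598) x4454) x4886) x5534) x6506) x1646) x13310) x17682)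
  (sub (sub (sub (add (add (sub (sub (sub (sub (sub C x4570) x4574) x4550) x4514) x4892) x5540) x6512) x1652) x13316) x17688)
  (sub (sub (sub (add (add (sub (sub (sub (sub (sub C x4568) x4582) x4552) x4516) x4894) x5542) x6514) x1654) x13318) x11130)
  (sub (sub (sub (add (add (sub (sub (add (add (sub (sub C x4578) x4568) x4538) x4610) x4520) x4898) x5546) x6518) x1658) x13322) x17694)
  (add (add (sub (sub (add (add (sub (sub (add (add (sub (sub C x4574) x4584) x4542) x4614) x4524) x4902) x5550) x6522) x1662) x13326) x11140) x17702)
  (sub (sub (sub (add (add (sub (sub (sub (sub (sub C x4584) x4570) x4600) x4528) x4906) x5554) x6526) x1666) x13330) x11142)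
  (add (add (sub (sub (add (add (sub (sub (sub (sub (sub C x4582) x4578) x4602) x4530) x4908) x5556) x6528) x1668) x13332) x11146) x17708)
  (add (add (sub (sub (add (add (sub (add (add (sub (add (add (add (add C x4594) x4598) x4602) x4614) x4554) x4374) x4482) x4914) x5562) x6534) x1674) x13338) x11152) x17714)
  (sub (sub (sub (add (add (sub (add (add (sub (sub (add (add C x4590) x4598) x4600) x4558) x4378) x4486) x4918) x5566) x6538) x1678) x13342) x11154)
  (sub (sub (sub (add (add (sub (add (add (sub (sub (add (add C x4590) x4594) x4610) x4562) x4382) x4490) x4922) x5570) x6542) x1682) x13346) x17718)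
  (sub (sub (sub (add (add (sub (add (add (sub (sub (sub C x4602) x4594) x4582) x4384) x4492) x4924) x5572) x6544) x1684) x13348) x11160)
  (add (add (sub (sub (add (add (sub (add (add (sub (add (add (sub C x4600) x4590) x4614) x4584) x4386) x4494) x4926) x5574) x6546) x1686) x13350) x11164) x17726)
  (sub (sub (sub (add (add (sub (add (add (add (add (sub (sub C x4614) x4598) x4538) x4574) x4394) x4502) x4934) x5582) x6554) x1694) x13358) x17730)
  (add (add (sub (sub (add (add (sub (add (add (add (add (add (add (sub C x4610) x4590) x4602) x4542) x4578) x4398) x4506) x4938) x5586) x6558) x1698) x13362) x11176) x17738)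
  (sub (sub (sub (sub (sub (add (add (add (add (add (add (sub C x4620) x4630) x4642) x4654) x4690) x4726) x4834) x4456) x5104) x1702) x13366) x11178)
  (add (add (sub (sub (sub (sub (add (add (add (add (sub (sub C x4618) x4626) x4656) x4692) x4728) x4836) x4458) x5106) x1704) x13368) x11182) x17744)
  (add (add (sub (sub (sub (sub (add (add (sub (sub (add (add C x4630) x4634) x4620) x4644) x4734) x4842) x4464) x5112) x1710) x13374) x11188) x17750)
  (sub (sub (sub (sub (sub (add (add (sub (add (add (add (add C x4626) x4634) x4618) x4642) x4648) x4738) x4846) x4468) x5116) x1714) x13378) x11190)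
  (sub (sub (sub (sub (sub (add (add (sub (sub (add (add C x4626) x4630) x4640) x4652) x4742) x4850) x4472) x5120) x1718) x13382) x17754)
  (sub (sub (sub (sub (sub (add (add (sub (sub (sub C x4642) x4634) x4676) x4748) x4856) x4478) x5126) x1724) x13388) x17760)
  (sub (sub (sub (sub (sub (add (add (sub (add (add (sub C x4640) x4618) x4630) x4678) x4750) x4858) x4480) x5128) x1726) x13390) x11202)
  (add (add (sub (sub (sub (sub (sub (sub (add (add (add (add C x4648) x4652) x4656) x4668) x4626) x4698) x4482) x5130) x1728) x13392) x11206) x17768)
  (sub (sub (sub (sub (sub (sub (sub (sub (add (add C x4644) x4652) x4654) x4630) x4702) x4486) x5134) x1732) x13396) x11208)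
  (sub (sub (sub (sub (sub (sub (sub (sub (add (add C x4644) x4648) x4664) x4634) x4706) x4490) x5138) x1736) x13400) x17772)
  (sub (sub (sub (sub (sub (sub (add (add (sub (sub C x4656) x4648) x4618) x4690) x4708) x4492) x5140) x1738) x13402) x11214)
  (add (add (sub (sub (sub (sub (sub (add (add (add (add (sub C x4654) x4644) x4668) x4620) x4692) x4710) x4494) x5142) x1740) x13404) x11218) x17780)
  (sub (sub (sub (sub (sub (sub (sub (sub (sub C x4668) x4652) x4682) x4718) x4502) x5150) x1748) x13412) x17784)
  (add (add (sub (sub (sub (sub (sub (sub (add (add (sub C x4664) x4644) x4656) x4686) x4722) x4506) x5154) x1752) x13416) x11230) x17792)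
  (sub (sub (sub (sub (sub (sub (sub (sub (sub C x4678) x4682) x4640) x4784) x4514) x5162) x1760) x13424) x17796)
  (sub (sub (sub (sub (sub (sub (sub (sub (sub C x4676) x4690) x4642) x4786) x4516) x5164) x1762) x13426) x11238)
  (sub (sub (sub (sub (sub (sub (sub (sub (sub C x4686) x4676) x4664) x4790) x4520) x5168) x1766) x13430) x17802)
  (add (add (sub (sub (sub (sub (sub (sub (sub (sub C x4682) x4692) x4668) x4794) x4524) x5172) x1770) x13434) x11248) x17810)
  (sub (sub (sub (sub (sub (sub (add (add (sub (sub C x4692) x4678) x4618) x4654) x4798) x4528) x5176) x1774) x13438) x11250)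
  (add (add (sub (sub (sub (sub (sub (add (add (sub (sub C x4690) x4686) x4620) x4656) x4800) x4530) x5178) x1776) x13440) x11254) x17816)
  (add (add (sub (sub (sub (add (add (sub (add (add (add (add (add (add C x4702) x4706) x4710) x4722) x4734) x4770) x4644) x4374) x5022) x5184) x1782) x13446) x11260) x17822)
  (sub (sub (sub (sub (add (add (sub (add (add (sub (add (add C x4698) x4706) x4708) x4738) x4774) x4648) x4378) x5026) x5188) x1786) x13450) x11262)
  (sub (sub (sub (sub (add (add (sub (add (add (sub (add (add C x4698) x4702) x4718) x4742) x4778) x4652) x4382) x5030) x5192) x1790) x13454) x17826)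
  (sub (sub (sub (sub (add (add (sub (sub (sub (sub C x4710) x4702) x4726) x4654) x4384) x5032) x5194) x1792) x13456) x11268)
  (add (add (sub (sub (sub (add (add (sub (sub (add (add (sub C x4708) x4698) x4722) x4728) x4656) x4386) x5034) x5196) x1794) x13458) x11272) x17834)
  (sub (sub (sub (sub (add (add (sub (sub (sub (sub C x4722) x4706) x4754) x4664) x4394) x5042) x5204) x1802) x13466) x17838)
  (add (add (sub (sub (sub (add (add (sub (sub (add (add (sub C x4718) x4698) x4710) x4758) x4668) x4398) x5046) x5208) x1806) x13470) x11284) x17846)
  (sub (sub (sub (sub (add (add (add (add (sub (add (add (sub C x4728) x4738) x4750) x4708) x4618) x4834) x4402) x5050) x5212) x1810) x13474) x11286)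
  (add (add (sub (sub (sub (add (add (add (add (sub (sub (sub C x4726) x4734) x4710) x4620) x4836) x4404) x5052) x5214) x1812) x13476) x11290) x17852)
  (add (add (sub (sub (sub (add (add (add (add (add (add (sub (add (add C x4738) x4742) x4728) x4698) x4770) x4626) x4842) x4410) x5058) x5220) x1818) x13482) x11296) x17858)
  (sub (sub (sub (sub (add (add (add (add (add (add (add (add (add (add C x4734) x4742) x4726) x4750) x4702) x4774) x4630) x4846) x4414) x5062) x5224) x1822) x13486) x11298)
  (sub (sub (sub (sub (add (add (add (add (add (add (sub (add (add C x4734) x4738) x4748) x4706) x4778) x4634) x4850) x4418) x5066) x5228) x1826) x13490) x17862)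
  (sub (sub (sub (sub (add (add (add (add (sub (sub (sub C x4750) x4742) x4766) x4640) x4856) x4424) x5072) x5234) x1832) x13496) x17868)
  (sub (sub (sub (sub (add (add (add (add (sub (add (add (sub C x4748) x4726) x4738) x4768) x4642) x4858) x4426) x5074) x5236) x1834) x13498) x11310)
  (sub (sub (sub (sub (add (add (sub (sub (add (add (sub C x4758) x4766) x4778) x4718) x4808) x4430) x5078) x5240) x1838) x13502) x17874)
  (add (add (sub (sub (sub (add (add (sub (sub (sub (sub C x4754) x4770) x4722) x4812) x4434) x5082) x5244) x1842) x13506) x11320) x17882)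
  (sub (sub (sub (sub (add (add (sub (sub (add (add (sub C x4768) x4754) x4778) x4748) x4820) x4442) x5090) x5252) x1850) x13514) x17886)
  (sub (sub (sub (sub (add (add (sub (sub (sub (sub C x4766) x4774) x4750) x4822) x4444) x5092) x5254) x1852) x13516) x11328)
  (add (add (sub (sub (sub (add (add (sub (add (add (sub (add (add C x4774) x4778) x4758) x4698) x4734) x4824) x4446) x5094) x5256) x1854) x13518) x11332) x17894)
  (sub (sub (sub (sub (add (add (sub (add (add (sub (add (add C x4770) x4778) x4768) x4702) x4738) x4828) x4450) x5098) x5260) x1858) x13522) x11334)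
  (sub (sub (sub (sub (add (add (sub (add (add (add (add (add (add C x4770) x4774) x4754) x4766) x4706) x4742) x4832) x4454) x5102) x5264) x1862) x13526) x17898)
  (sub (sub (sub (sub (sub (sub (add (add (sub (sub C x4786) x4790) x4820) x4856) x4676) x4946) x5270) x1868) x13532) x17904)
  (sub (sub (sub (sub (sub (sub (add (add (sub (sub C x4784) x4798) x4822) x4858) x4678) x4948) x5272) x1870) x13534) x11346)
  (sub (sub (sub (sub (sub (sub (sub (sub (sub C x4794) x4784) x4808) x4682) x4952) x5276) x1874) x13538) x17910)
  (add (add (sub (sub (sub (sub (sub (sub (sub (sub C x4790) x4800) x4812) x4686) x4956) x5280) x1878) x13542) x11356) x17918)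
  (sub (sub (sub (sub (sub (sub (sub (sub (sub C x4800) x4786) x4834) x4690) x4960) x5284) x1882) x13546) x11358)
  (add (add (sub (sub (sub (sub (sub (sub (sub (sub C x4798) x4794) x4836) x4692) x4962) x5286) x1884) x13548) x11362) x17924)
  (sub (sub (sub (sub (sub (sub (sub (add (add (sub C x4812) x4820) x4832) x4790) x4754) x4970) x5294) x1892) x13556) x17928)
  (add (add (sub (sub (sub (sub (sub (sub (sub (sub C x4808) x4824) x4794) x4758) x4974) x5298) x1896) x13560) x11374) x17936)
  (sub (sub (sub (sub (sub (sub (add (add (add (add (sub C x4822) x4808) x4832) x4784) x4856) x4766) x4982) x5306) x1904) x13568) x17940)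
  (sub (sub (sub (sub (sub (sub (add (add (sub (sub C x4820) x4828) x4786) x4858) x4768) x4984) x5308) x1906) x13570) x11382)
  (add (add (sub (sub (sub (sub (sub (sub (sub (add (add C x4828) x4832) x4812) x4842) x4770) x4986) x5310) x1908) x13572) x11386) x17948)
  (sub (sub (sub (sub (sub (sub (sub (sub (add (add C x4824) x4832) x4822) x4846) x4774) x4990) x5314) x1912) x13576) x11388)
  (sub (sub (sub (sub (sub (sub (sub (add (add (add (add C x4824) x4828) x4808) x4820) x4850) x4778) x4994) x5318) x1916) x13580) x17952)
  (sub (sub (sub (sub (sub (add (add (sub (add (add (sub C x4836) x4846) x4858) x4798) x4618) x4726) x4996) x5320) x1918) x13582) x11394)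
  (add (add (sub (sub (sub (sub (add (add (sub (sub (sub C x4834) x4842) x4800) x4620) x4728) x4998) x5322) x1920) x13584) x11398) x17960)
  (add (add (sub (sub (sub (sub (add (add (sub (sub (add (add C x4846) x4850) x4836) x4824) x4626) x4734) x5004) x5328) x1926) x13590) x11404) x17966)
  (sub (sub (sub (sub (sub (add (add (sub (add (add (add (add C x4842) x4850) x4834) x4858) x4828) x4630) x4738) x5008) x5332) x1930) x13594) x11406)
  (sub (sub (sub (sub (sub (add (add (sub (sub (add (add C x4842) x4846) x4856) x4832) x4634) x4742) x5012) x5336) x1934) x13598) x17970)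
  (sub (sub (sub (sub (sub (add (add (add (add (sub (sub C x4858) x4850) x4784) x4820) x4640) x4748) x5018) x5342) x1940) x13604) x17976)
  (sub (sub (sub (sub (sub (add (add (add (add (add (add (sub C x4856) x4834) x4846) x4786) x4822) x4642) x4750) x5020) x5344) x1942) x13606) x11418)
  (sub (sub (sub (sub (sub (add (add (add (add (add (add (sub C x4866) x4874) x4886) x4898) x4934) x4970) x5078) x4538) x5834) x1946) x13610) x17982)
  (add (add (sub (sub (sub (sub (add (add (add (add (sub (sub C x4862) x4878) x4902) x4938) x4974) x5082) x4542) x5838) x1950) x13614) x11428) x17990)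
  (sub (sub (sub (sub (sub (add (add (sub (add (add (sub C x4876) x4862) x4886) x4892) x4982) x5090) x4550) x5846) x1958) x13622) x17994)
  (sub (sub (sub (sub (sub (add (add (sub (sub (sub C x4874) x4882) x4894) x4984) x5092) x4552) x5848) x1960) x13624) x11436)
  (add (add (sub (sub (sub (sub (add (add (sub (sub (add (add C x4882) x4886) x4866) x4914) x4986) x5094) x4554) x5850) x1962) x13626) x11440) x18002)
  (sub (sub (sub (sub (sub (add (add (sub (sub (add (add C x4878) x4886) x4876) x4918) x4990) x5098) x4558) x5854) x1966) x13630) x11442)
  (sub (sub (sub (sub (sub (add (add (sub (add (add (add (add C x4878) x4882) x4862) x4874) x4922) x4994) x5102) x4562) x5858) x1970) x13634) x18006)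
  (sub (sub (sub (sub (sub (sub (sub (sub (sub C x4894) x4898) x4874) x4946) x4568) x5864) x1976) x13640) x18012)
  (sub (sub (sub (sub (sub (sub (sub (sub (sub C x4892) x4906) x4876) x4948) x4570) x5866) x1978) x13642) x11454)
  (sub (sub (sub (sub (sub (sub (add (add (sub (sub C x4902) x4892) x4862) x4934) x4952) x4574) x5870) x1982) x13646) x18018)
  (add (add (sub (sub (sub (sub (sub (add (add (sub (sub C x4898) x4908) x4866) x4938) x4956) x4578) x5874) x1986) x13650) x11464) x18026)
  (sub (sub (sub (sub (sub (sub (sub (sub (sub C x4908) x4894) x4924) x4960) x4582) x5878) x1990) x13654) x11466)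
  (add (add (sub (sub (sub (sub (sub (sub (sub (sub C x4906) x4902) x4926) x4962) x4584) x5880) x1992) x13656) x11470) x18032)
  (add (add (sub (sub (sub (sub (sub (sub (add (add (add (add C x4918) x4922) x4926) x4938) x4878) x5022) x4590) x5886) x1998) x13662) x11476) x18038)
  (sub (sub (sub (sub (sub (sub (sub (sub (add (add C x4914) x4922) x4924) x4882) x5026) x4594) x5890) x2002) x13666) x11478)
  (sub (sub (sub (sub (sub (sub (sub (sub (add (add C x4914) x4918) x4934) x4886) x5030) x4598) x5894) x2006) x13670) x18042)
  (sub (sub (sub (sub (sub (sub (sub (sub (sub C x4926) x4918) x4906) x5032) x4600) x5896) x2008) x13672) x11484)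
  (add (add (sub (sub (sub (sub (sub (sub (add (add (sub C x4924) x4914) x4938) x4908) x5034) x4602) x5898) x2010) x13674) x11488) x18050)
  (sub (sub (sub (sub (sub (sub (add (add (sub (sub C x4938) x4922) x4862) x4898) x5042) x4610) x5906) x2018) x13682) x18054)
  (add (add (sub (sub (sub (sub (sub (add (add (add (add (sub C x4934) x4914) x4926) x4866) x4902) x5046) x4614) x5910) x2022) x13686) x11500) x18062)
  (sub (sub (sub (sub (sub (sub (add (add (sub (sub C x4948) x4952) x4982) x5018) x4892) x4784) x5918) x2030) x13694) x18066)
  (sub (sub (sub (sub (sub (sub (add (add (sub (sub C x4946) x4960) x4984) x5020) x4894) x4786) x5920) x2032) x13696) x11508)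
  (sub (sub (sub (sub (sub (sub (sub (sub (sub C x4956) x4946) x4970) x4898) x4790) x5924) x2036) x13700) x18072)
  (add (add (sub (sub (sub (sub (sub (sub (sub (sub C x4952) x4962) x4974) x4902) x4794) x5928) x2040) x13704) x11518) x18080)
  (sub (sub (sub (sub (sub (sub (sub (sub (sub C x4962) x4948) x4996) x4906) x4798) x5932) x2044) x13708) x11520)
  (add (add (sub (sub (sub (sub (sub (sub (sub (sub C x4960) x4956) x4998) x4908) x4800) x5934) x2046) x13710) x11524) x18086)
  (sub (sub (sub (sub (sub (add (add (sub (add (add (sub C x4974) x4982) x4994) x4952) x4862) x5078) x4808) x5942) x2054) x13718) x18090)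
  (add (add (sub (sub (sub (sub (add (add (sub (sub (sub C x4970) x4986) x4956) x4866) x5082) x4812) x5946) x2058) x13722) x11536) x18098)
  (sub (sub (sub (sub (sub (add (add (add (add (add (add (sub C x4984) x4970) x4994) x4946) x5018) x4874) x5090) x4820) x5954) x2066) x13730) x18102)
  (sub (sub (sub (sub (sub (add (add (add (add (sub (sub C x4982) x4990) x4948) x5020) x4876) x5092) x4822) x5956) x2068) x13732) x11544)
  (add (add (sub (sub (sub (sub (add (add (sub (sub (add (add C x4990) x4994) x4974) x5004) x4878) x5094) x4824) x5958) x2070) x13734) x11548) x18110)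
  (sub (sub (sub (sub (sub (add (add (sub (sub (add (add C x4986) x4994) x4984) x5008) x4882) x5098) x4828) x5962) x2074) x13738) x11550)
  (sub (sub (sub (sub (sub (add (add (sub (add (add (add (add C x4986) x4990) x4970) x4982) x5012) x4886) x5102) x4832) x5966) x2078) x13742) x18114)
  (sub (sub (sub (sub (sub (sub (sub (add (add (sub C x4998) x5008) x5020) x4960) x5050) x4834) x5968) x2080) x13744) x11556)
  (add (add (sub (sub (sub (sub (sub (sub (sub (sub C x4996) x5004) x4962) x5052) x4836) x5970) x2082) x13746) x11560) x18122)
  (add (add (sub (sub (sub (sub (sub (sub (sub (add (add C x5008) x5012) x4998) x4986) x5058) x4842) x5976) x2088) x13752) x11566) x18128)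
  (sub (sub (sub (sub (sub (sub (sub (add (add (add (add C x5004) x5012) x4996) x5020) x4990) x5062) x4846) x5980) x2092) x13756) x11568)
  (sub (sub (sub (sub (sub (sub (sub (sub (add (add C x5004) x5008) x5018) x4994) x5066) x4850) x5984) x2096) x13760) x18132)
  (sub (sub (sub (sub (sub (sub (add (add (sub (sub C x5020) x5012) x4946) x4982) x5072) x4856) x5990) x2102) x13766) x18138)
  (sub (sub (sub (sub (sub (sub (add (add (add (add (sub C x5018) x4996) x5008) x4948) x4984) x5074) x4858) x5992) x2104) x13768) x11580)
  (add (add (sub (sub (sub (add (add (sub (add (add (add (add (add (add C x5026) x5030) x5034) x5046) x5058) x5094) x4914) x4374) x4698) x5994) x2106) x13770) x11584) x18146)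
  (sub (sub (sub (sub (add (add (sub (add (add (sub (add (add C x5022) x5030) x5032) x5062) x5098) x4918) x4378) x4702) x5998) x2110) x13774) x11586)
  (sub (sub (sub (sub (add (add (sub (add (add (sub (add (add C x5022) x5026) x5042) x5066) x5102) x4922) x4382) x4706) x6002) x2114) x13778) x18150)
  (sub (sub (sub (sub (add (add (sub (sub (sub (sub C x5034) x5026) x5050) x4924) x4384) x4708) x6004) x2116) x13780) x11592)
  (add (add (sub (sub (sub (add (add (sub (sub (add (add (sub C x5032) x5022) x5046) x5052) x4926) x4386) x4710) x6006) x2118) x13782) x11596) x18158)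
  (sub (sub (sub (sub (add (add (sub (sub (sub (sub C x5046) x5030) x5078) x4934) x4394) x4718) x6014) x2126) x13790) x18162)
  (add (add (sub (sub (sub (add (add (sub (sub (add (add (sub C x5042) x5022) x5034) x5082) x4938) x4398) x4722) x6018) x2130) x13794) x11608) x18170)
  (sub (sub (sub (sub (add (add (sub (sub (add (add (sub C x5052) x5062) x5074) x5032) x4996) x4402) x4726) x6022) x2134) x13798) x11610)
  (add (add (sub (sub (sub (add (add (sub (sub (sub (sub C x5050) x5058) x5034) x4998) x4404) x4728) x6024) x2136) x13800) x11614) x18176)
  (add (add (sub (sub (sub (add (add (sub (add (add (sub (add (add C x5062) x5066) x5052) x5022) x5094) x5004) x4410) x4734) x6030) x2142) x13806) x11620) x18182)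
  (sub (sub (sub (sub (add (add (sub (add (add (add (add (add (add C x5058) x5066) x5050) x5074) x5026) x5098) x5008) x4414) x4738) x6034) x2146) x13810) x11622)
  (sub (sub (sub (sub (add (add (sub (add (add (sub (add (add C x5058) x5062) x5072) x5030) x5102) x5012) x4418) x4742) x6038) x2150) x13814) x18186)
  (sub (sub (sub (sub (add (add (sub (sub (sub (sub C x5074) x5066) x5090) x5018) x4424) x4748) x6044) x2156) x13820) x18192)
  (sub (sub (sub (sub (add (add (sub (sub (add (add (sub C x5072) x5050) x5062) x5092) x5020) x4426) x4750) x6046) x2158) x13822) x11634)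
  (sub (sub (sub (sub (add (add (add (add (sub (add (add (sub C x5082) x5090) x5102) x5042) x4862) x4970) x4430) x4754) x6050) x2162) x13826) x18198)
  (add (add (sub (sub (sub (add (add (add (add (sub (sub (sub C x5078) x5094) x5046) x4866) x4974) x4434) x4758) x6054) x2166) x13830) x11644) x18206)
  (sub (sub (sub (sub (add (add (add (add (sub (add (add (sub C x5092) x5078) x5102) x5072) x4874) x4982) x4442) x4766) x6062) x2174) x13838) x18210)
  (sub (sub (sub (sub (add (add (add (add (sub (sub (sub C x5090) x5098) x5074) x4876) x4984) x4444) x4768) x6064) x2176) x13840) x11652)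
  (add (add (sub (sub (sub (add (add (add (add (add (add (sub (add (add C x5098) x5102) x5082) x5022) x5058) x4878) x4986) x4446) x4770) x6066) x2178) x13842) x11656) x18218)
  (sub (sub (sub (sub (add (add (add (add (add (add (sub (add (add C x5094) x5102) x5092) x5026) x5062) x4882) x4990) x4450) x4774) x6070) x2182) x13846) x11658)
  (sub (sub (sub (sub (add (add (add (add (add (add (add (add (add (add C x5094) x5098) x5078) x5090) x5030) x5066) x4886) x4994) x4454) x4778) x6074) x2186) x13850) x18222)
  (sub (sub (sub (sub (add (add (add (add (add (add (add (add (sub C x5106) x5116) x5128) x5140) x5176) x5212) x5320) x5428) x5752) x4618) x3646) x13852) x11664)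
  (add (add (sub (sub (sub (add (add (add (add (add (add (sub (sub C x5104) x5112) x5142) x5178) x5214) x5322) x5430) x5754) x4620) x3648) x13854) x11668) x18230)
  (add (add (sub (sub (sub (add (add (add (add (sub (sub (add (add C x5116) x5120) x5106) x5130) x5220) x5328) x5436) x5760) x4626) x3654) x13860) x11674) x18236)
  (sub (sub (sub (sub (add (add (add (add (sub (add (add (add (add C x5112) x5120) x5104) x5128) x5134) x5224) x5332) x5440) x5764) x4630) x3658) x13864) x11676)
  (sub (sub (sub (sub (add (add (add (add (sub (sub (add (add C x5112) x5116) x5126) x5138) x5228) x5336) x5444) x5768) x4634) x3662) x13868) x18240)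
  (sub (sub (sub (sub (add (add (add (add (sub (sub (sub C x5128) x5120) x5162) x5234) x5342) x5450) x5774) x4640) x3668) x13874) x18246)
  (sub (sub (sub (sub (add (add (add (add (sub (add (add (sub C x5126) x5104) x5116) x5164) x5236) x5344) x5452) x5776) x4642) x3670) x13876) x11688)
  (add (add (sub (sub (sub (add (add (sub (sub (add (add (add (add C x5134) x5138) x5142) x5154) x5112) x5184) x5454) x5778) x4644) x3672) x13878) x11692) x18254)
  (sub (sub (sub (sub (add (add (sub (sub (sub (add (add C x5130) x5138) x5140) x5116) x5188) x5458) x5782) x4648) x3676) x13882) x11694)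
  (sub (sub (sub (sub (add (add (sub (sub (sub (add (add C x5130) x5134) x5150) x5120) x5192) x5462) x5786) x4652) x3680) x13886) x18258)
  (sub (sub (sub (sub (add (add (sub (add (add (sub (sub C x5142) x5134) x5104) x5176) x5194) x5464) x5788) x4654) x3682) x13888) x11700)
  (add (add (sub (sub (sub (add (add (sub (add (add (add (add (sub C x5140) x5130) x5154) x5106) x5178) x5196) x5466) x5790) x4656) x3684) x13890) x11704) x18266)
  (sub (sub (sub (sub (add (add (sub (sub (sub (sub C x5154) x5138) x5168) x5204) x5474) x5798) x4664) x3692) x13898) x18270)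
  (add (add (sub (sub (sub (add (add (sub (sub (add (add (sub C x5150) x5130) x5142) x5172) x5208) x5478) x5802) x4668) x3696) x13902) x11716) x18278)
  (sub (sub (sub (sub (add (add (sub (sub (sub (sub C x5164) x5168) x5126) x5270) x5486) x5810) x4676) x3704) x13910) x18282)
  (sub (sub (sub (sub (add (add (sub (sub (sub (sub C x5162) x5176) x5128) x5272) x5488) x5812) x4678) x3706) x13912) x11724)
  (sub (sub (sub (sub (add (add (sub (sub (sub (sub C x5172) x5162) x5150) x5276) x5492) x5816) x4682) x3710) x13916) x18288)
  (add (add (sub (sub (sub (add (add (sub (sub (sub (sub C x5168) x5178) x5154) x5280) x5496) x5820) x4686) x3714) x13920) x11734) x18296)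
  (sub (sub (sub (sub (add (add (sub (add (add (sub (sub C x5178) x5164) x5104) x5140) x5284) x5500) x5824) x4690) x3718) x13924) x11736)
  (add (add (sub (sub (sub (add (add (sub (add (add (sub (sub C x5176) x5172) x5106) x5142) x5286) x5502) x5826) x4692) x3720) x13926) x11740) x18302)
  (add (add (sub (sub (sub (sub (sub (add (add (add (add (add (add C x5188) x5192) x5196) x5208) x5220) x5256) x5130) x5346) x4698) x3726) x13932) x11746) x18308)
  (sub (sub (sub (sub (sub (sub (add (add (sub (add (add C x5184) x5192) x5194) x5224) x5260) x5134) x5350) x4702) x3730) x13936) x11748)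
  (sub (sub (sub (sub (sub (sub (add (add (sub (add (add C x5184) x5188) x5204) x5228) x5264) x5138) x5354) x4706) x3734) x13940) x18312)
  (sub (sub (sub (sub (sub (sub (sub (sub (sub C x5196) x5188) x5212) x5140) x5356) x4708) x3736) x13942) x11754)
  (add (add (sub (sub (sub (sub (sub (sub (add (add (sub C x5194) x5184) x5208) x5214) x5142) x5358) x4710) x3738) x13944) x11758) x18320)
  (sub (sub (sub (sub (sub (sub (sub (sub (sub C x5208) x5192) x5240) x5150) x5366) x4718) x3746) x13952) x18324)
  (add (add (sub (sub (sub (sub (sub (sub (add (add (sub C x5204) x5184) x5196) x5244) x5154) x5370) x4722) x3750) x13956) x11770) x18332)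
  (sub (sub (sub (sub (sub (add (add (sub (add (add (sub C x5214) x5224) x5236) x5194) x5104) x5320) x5374) x4726) x3754) x13960) x11772)
  (add (add (sub (sub (sub (sub (add (add (sub (sub (sub C x5212) x5220) x5196) x5106) x5322) x5376) x4728) x3756) x13962) x11776) x18338)
  (add (add (sub (sub (sub (sub (add (add (add (add (sub (add (add C x5224) x5228) x5214) x5184) x5256) x5112) x5328) x5382) x4734) x3762) x13968) x11782) x18344)
  (sub (sub (sub (sub (sub (add (add (add (add (add (add (add (add C x5220) x5228) x5212) x5236) x5188) x5260) x5116) x5332) x5386) x4738) x3766) x13972) x11784)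
  (sub (sub (sub (sub (sub (add (add (add (add (sub (add (add C x5220) x5224) x5234) x5192) x5264) x5120) x5336) x5390) x4742) x3770) x13976) x18348)
  (sub (sub (sub (sub (sub (add (add (sub (sub (sub C x5236) x5228) x5252) x5126) x5342) x5396) x4748) x3776) x13982) x18354)
  (sub (sub (sub (sub (sub (add (add (sub (add (add (sub C x5234) x5212) x5224) x5254) x5128) x5344) x5398) x4750) x3778) x13984) x11796)
  (sub (sub (sub (sub (sub (sub (sub (add (add (sub C x5244) x5252) x5264) x5204) x5294) x5402) x4754) x3782) x13988) x18360)
  (add (add (sub (sub (sub (sub (sub (sub (sub (sub C x5240) x5256) x5208) x5298) x5406) x4758) x3786) x13992) x11806) x18368)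
  (sub (sub (sub (sub (sub (sub (sub (add (add (sub C x5254) x5240) x5264) x5234) x5306) x5414) x4766) x3794) x14000) x18372)
  (sub (sub (sub (sub (sub (sub (sub (sub (sub C x5252) x5260) x5236) x5308) x5416) x4768) x3796) x14002) x11814)
  (add (add (sub (sub (sub (sub (sub (add (add (sub (add (add C x5260) x5264) x5244) x5184) x5220) x5310) x5418) x4770) x3798) x14004) x11818) x18380)
  (sub (sub (sub (sub (sub (sub (add (add (sub (add (add C x5256) x5264) x5254) x5188) x5224) x5314) x5422) x4774) x3802) x14008) x11820)
  (sub (sub (sub (sub (sub (sub (add (add (add (add (add (add C x5256) x5260) x5240) x5252) x5192) x5228) x5318) x5426) x4778) x3806) x14012) x18384)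
  (sub (sub (sub (sub (sub (sub (add (add (sub (sub C x5272) x5276) x5306) x5342) x5162) x5594) x4784) x3812) x14018) x18390)
  (sub (sub (sub (sub (sub (sub (add (add (sub (sub C x5270) x5284) x5308) x5344) x5164) x5596) x4786) x3814) x14020) x11832)
  (sub (sub (sub (sub (sub (sub (sub (sub (sub C x5280) x5270) x5294) x5168) x5600) x4790) x3818) x14024) x18396)
  (add (add (sub (sub (sub (sub (sub (sub (sub (sub C x5276) x5286) x5298) x5172) x5604) x4794) x3822) x14028) x11842) x18404)
  (sub (sub (sub (sub (sub (sub (sub (sub (sub C x5286) x5272) x5320) x5176) x5608) x4798) x3826) x14032) x11844)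
  (add (add (sub (sub (sub (sub (sub (sub (sub (sub C x5284) x5280) x5322) x5178) x5610) x4800) x3828) x14034) x11848) x18410)
  (sub (sub (sub (sub (sub (sub (sub (add (add (sub C x5298) x5306) x5318) x5276) x5240) x5618) x4808) x3836) x14042) x18414)
  (add (add (sub (sub (sub (sub (sub (sub (sub (sub C x5294) x5310) x5280) x5244) x5622) x4812) x3840) x14046) x11860) x18422)
  (sub (sub (sub (sub (sub (sub (add (add (add (add (sub C x5308) x5294) x5318) x5270) x5342) x5252) x5630) x4820) x3848) x14054) x18426)
  (sub (sub (sub (sub (sub (sub (add (add (sub (sub C x5306) x5314) x5272) x5344) x5254) x5632) x4822) x3850) x14056) x11868)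
  (add (add (sub (sub (sub (sub (sub (sub (sub (add (add C x5314) x5318) x5298) x5328) x5256) x5634) x4824) x3852) x14058) x11872) x18434)
  (sub (sub (sub (sub (sub (sub (sub (sub (add (add C x5310) x5318) x5308) x5332) x5260) x5638) x4828) x3856) x14062) x11874)
  (sub (sub (sub (sub (sub (sub (sub (add (add (add (add C x5310) x5314) x5294) x5306) x5336) x5264) x5642) x4832) x3860) x14066) x18438)
  (sub (sub (sub (sub (sub (add (add (sub (add (add (sub C x5322) x5332) x5344) x5284) x5104) x5212) x5644) x4834) x3862) x14068) x11880)
  (add (add (sub (sub (sub (sub (add (add (sub (sub (sub C x5320) x5328) x5286) x5106) x5214) x5646) x4836) x3864) x14070) x11884) x18446)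
  (add (add (sub (sub (sub (sub (add (add (sub (sub (add (add C x5332) x5336) x5322) x5310) x5112) x5220) x5652) x4842) x3870) x14076) x11890) x18452)
  (sub (sub (sub (sub (sub (add (add (sub (add (add (add (add C x5328) x5336) x5320) x5344) x5314) x5116) x5224) x5656) x4846) x3874) x14080) x11892)
  (sub (sub (sub (sub (sub (add (add (sub (sub (add (add C x5328) x5332) x5342) x5318) x5120) x5228) x5660) x4850) x3878) x14084) x18456)
  (sub (sub (sub (sub (sub (add (add (add (add (sub (sub C x5344) x5336) x5270) x5306) x5126) x5234) x5666) x4856) x3884) x14090) x18462)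
  (sub (sub (sub (sub (sub (add (add (add (add (add (add (sub C x5342) x5320) x5332) x5272) x5308) x5128) x5236) x5668) x4858) x3886) x14092) x11904)
  (add (add (sub (sub (add (add (sub (add (add (add (add (add (add (add (add C x5350) x5354) x5358) x5370) x5382) x5418) x5454) x5562) x5184) x4374) x6318) x3888) x14094) x11908) x18470)
  (sub (sub (sub (add (add (sub (add (add (add (add (sub (add (add C x5346) x5354) x5356) x5386) x5422) x5458) x5566) x5188) x4378) x6322) x3892) x14098) x11910)
  (sub (sub (sub (add (add (sub (add (add (add (add (sub (add (add C x5346) x5350) x5366) x5390) x5426) x5462) x5570) x5192) x4382) x6326) x3896) x14102) x18474)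
  (sub (sub (sub (add (add (sub (add (add (sub (sub (sub C x5358) x5350) x5374) x5464) x5572) x5194) x4384) x6328) x3898) x14104) x11916)
  (add (add (sub (sub (add (add (sub (add (add (sub (add (add (sub C x5356) x5346) x5370) x5376) x5466) x5574) x5196) x4386) x6330) x3900) x14106) x11920) x18482)
  (sub (sub (sub (add (add (sub (add (add (sub (sub (sub C x5370) x5354) x5402) x5474) x5582) x5204) x4394) x6338) x3908) x14114) x18486)
  (add (add (sub (sub (add (add (sub (add (add (sub (add (add (sub C x5366) x5346) x5358) x5406) x5478) x5586) x5208) x4398) x6342) x3912) x14118) x11932) x18494)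
  (sub (sub (sub (add (add (sub (sub (sub (add (add (sub C x5376) x5386) x5398) x5356) x5428) x5212) x4402) x6346) x3916) x14122) x11934)
  (add (add (sub (sub (add (add (sub (sub (sub (sub (sub C x5374) x5382) x5358) x5430) x5214) x4404) x6348) x3918) x14124) x11938) x18500)
  (add (add (sub (sub (add (add (sub (sub (add (add (sub (add (add C x5386) x5390) x5376) x5346) x5418) x5436) x5220) x4410) x6354) x3924) x14130) x11944) x18506)
  (sub (sub (sub (add (add (sub (sub (add (add (add (add (add (add C x5382) x5390) x5374) x5398) x5350) x5422) x5440) x5224) x4414) x6358) x3928) x14134) x11946)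
  (sub (sub (sub (add (add (sub (sub (add (add (sub (add (add C x5382) x5386) x5396) x5354) x5426) x5444) x5228) x4418) x6362) x3932) x14138) x18510)
  (sub (sub (sub (add (add (sub (sub (sub (sub (sub C x5398) x5390) x5414) x5450) x5234) x4424) x6368) x3938) x14144) x18516)
  (sub (sub (sub (add (add (sub (sub (sub (add (add (sub C x5396) x5374) x5386) x5416) x5452) x5236) x4426) x6370) x3940) x14146) x11958)
  (sub (sub (sub (add (add (sub (sub (sub (add (add (sub C x5406) x5414) x5426) x5366) x5510) x5240) x4430) x6374) x3944) x14150) x18522)
  (add (add (sub (sub (add (add (sub (sub (sub (sub (sub C x5402) x5418) x5370) x5514) x5244) x4434) x6378) x3948) x14154) x11968) x18530)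
  (sub (sub (sub (add (add (sub (sub (sub (add (add (sub C x5416) x5402) x5426) x5396) x5522) x5252) x4442) x6386) x3956) x14162) x18534)
  (sub (sub (sub (add (add (sub (sub (sub (sub (sub C x5414) x5422) x5398) x5524) x5254) x4444) x6388) x3958) x14164) x11976)
  (add (add (sub (sub (add (add (sub (sub (add (add (sub (add (add C x5422) x5426) x5406) x5346) x5382) x5526) x5256) x4446) x6390) x3960) x14166) x11980) x18542)
  (sub (sub (sub (add (add (sub (sub (add (add (sub (add (add C x5418) x5426) x5416) x5350) x5386) x5530) x5260) x4450) x6394) x3964) x14170) x11982)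
  (sub (sub (sub (add (add (sub (sub (add (add (add (add (add (add C x5418) x5422) x5402) x5414) x5354) x5390) x5534) x5264) x4454) x6398) x3968) x14174) x18546)
  (sub (sub (sub (add (add (add (add (sub (add (add (add (add (sub C x5430) x5440) x5452) x5464) x5500) x5374) x5104) x5752) x4456) x6400) x3970) x14176) x11988)
  (add (add (sub (sub (add (add (add (add (sub (add (add (sub (sub C x5428) x5436) x5466) x5502) x5376) x5106) x5754) x4458) x6402) x3972) x14178) x11992) x18554)
  (add (add (sub (sub (add (add (add (add (sub (sub (sub (add (add C x5440) x5444) x5430) x5454) x5382) x5112) x5760) x4464) x6408) x3978) x14184) x11998) x18560)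
  (sub (sub (sub (add (add (add (add (sub (sub (add (add (add (add C x5436) x5444) x5428) x5452) x5458) x5386) x5116) x5764) x4468) x6412) x3982) x14188) x12000)
  (sub (sub (sub (add (add (add (add (sub (sub (sub (add (add C x5436) x5440) x5450) x5462) x5390) x5120) x5768) x4472) x6416) x3986) x14192) x18564)
  (sub (sub (sub (add (add (add (add (sub (sub (sub (sub C x5452) x5444) x5486) x5396) x5126) x5774) x4478) x6422) x3992) x14198) x18570)
  (sub (sub (sub (add (add (add (add (sub (sub (add (add (sub C x5450) x5428) x5440) x5488) x5398) x5128) x5776) x4480) x6424) x3994) x14200) x12012)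
  (add (add (sub (sub (add (add (add (add (add (add (sub (add (add (add (add C x5458) x5462) x5466) x5478) x5436) x5346) x5562) x5130) x5778) x4482) x6426) x3996) x14202) x12016) x18578)
  (sub (sub (sub (add (add (add (add (add (add (sub (sub (add (add C x5454) x5462) x5464) x5440) x5350) x5566) x5134) x5782) x4486) x6430) x4000) x14206) x12018)
  (sub (sub (sub (add (add (add (add (add (add (sub (sub (add (add C x5454) x5458) x5474) x5444) x5354) x5570) x5138) x5786) x4490) x6434) x4004) x14210) x18582)
  (sub (sub (sub (add (add (add (add (add (add (add (add (sub (sub C x5466) x5458) x5428) x5500) x5356) x5572) x5140) x5788) x4492) x6436) x4006) x14212) x12024)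
  (add (add (sub (sub (add (add (add (add (add (add (add (add (add (add (sub C x5464) x5454) x5478) x5430) x5502) x5358) x5574) x5142) x5790) x4494) x6438) x4008) x14214) x12028) x18590)
  (sub (sub (sub (add (add (add (add (add (add (sub (sub (sub C x5478) x5462) x5492) x5366) x5582) x5150) x5798) x4502) x6446) x4016) x14222) x18594)
  (add (add (sub (sub (add (add (add (add (add (add (sub (add (add (sub C x5474) x5454) x5466) x5496) x5370) x5586) x5154) x5802) x4506) x6450) x4020) x14226) x12040) x18602)
  (sub (sub (sub (add (add (add (add (sub (sub (sub (sub C x5488) x5492) x5450) x5540) x5162) x5810) x4514) x6458) x4028) x14234) x18606)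
  (sub (sub (sub (add (add (add (add (sub (sub (sub (sub C x5486) x5500) x5452) x5542) x5164) x5812) x4516) x6460) x4030) x14236) x12048)
  (sub (sub (sub (add (add (add (add (sub (sub (sub (sub C x5496) x5486) x5474) x5546) x5168) x5816) x4520) x6464) x4034) x14240) x18612)
  (add (add (sub (sub (add (add (add (add (sub (sub (sub (sub C x5492) x5502) x5478) x5550) x5172) x5820) x4524) x6468) x4038) x14244) x12058) x18620)
  (sub (sub (sub (add (add (add (add (sub (add (add (sub (sub C x5502) x5488) x5428) x5464) x5554) x5176) x5824) x4528) x6472) x4042) x14248) x12060)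
  (add (add (sub (sub (add (add (add (add (sub (add (add (sub (sub C x5500) x5496) x5430) x5466) x5556) x5178) x5826) x4530) x6474) x4044) x14250) x12064) x18626)
  (sub (sub (sub (add (add (sub (sub (add (add (add (add (sub C x5514) x5522) x5534) x5546) x5582) x5402) x5672) x4538) x6482) x4052) x14258) x18630)
  (add (add (sub (sub (add (add (sub (sub (add (add (sub (sub C x5510) x5526) x5550) x5586) x5406) x5676) x4542) x6486) x4056) x14262) x12076) x18638)
  (sub (sub (sub (add (add (sub (sub (sub (add (add (sub C x5524) x5510) x5534) x5540) x5414) x5684) x4550) x6494) x4064) x14270) x18642)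
  (sub (sub (sub (add (add (sub (sub (sub (sub (sub C x5522) x5530) x5542) x5416) x5686) x4552) x6496) x4066) x14272) x12084)
  (add (add (sub (sub (add (add (sub (sub (sub (sub (add (add C x5530) x5534) x5514) x5562) x5418) x5688) x4554) x6498) x4068) x14274) x12088) x18650)
  (sub (sub (sub (add (add (sub (sub (sub (sub (add (add C x5526) x5534) x5524) x5566) x5422) x5692) x4558) x6502) x4072) x14278) x12090)
  (sub (sub (sub (add (add (sub (sub (sub (add (add (add (add C x5526) x5530) x5510) x5522) x5570) x5426) x5696) x4562) x6506) x4076) x14282) x18654)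
  (sub (sub (sub (add (add (sub (sub (sub (sub (sub C x5542) x5546) x5522) x5486) x5702) x4568) x6512) x4082) x14288) x18660)
  (sub (sub (sub (add (add (sub (sub (sub (sub (sub C x5540) x5554) x5524) x5488) x5704) x4570) x6514) x4084) x14290) x12102)
  (sub (sub (sub (add (add (sub (sub (add (add (sub (sub C x5550) x5540) x5510) x5582) x5492) x5708) x4574) x6518) x4088) x14294) x18666)
  (add (add (sub (sub (add (add (sub (sub (add (add (sub (sub C x5546) x5556) x5514) x5586) x5496) x5712) x4578) x6522) x4092) x14298) x12112) x18674)
  (sub (sub (sub (add (add (sub (sub (sub (sub (sub C x5556) x5542) x5572) x5500) x5716) x4582) x6526) x4096) x14302) x12114)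
  (add (add (sub (sub (add (add (sub (sub (sub (sub (sub C x5554) x5550) x5574) x5502) x5718) x4584) x6528) x4098) x14304) x12118) x18680)
  (add (add (sub (sub (add (add (sub (add (add (sub (add (add (add (add C x5566) x5570) x5574) x5586) x5526) x5346) x5454) x5724) x4590) x6534) x4104) x14310) x12124) x18686)
  (sub (sub (sub (add (add (sub (add (add (sub (sub (add (add C x5562) x5570) x5572) x5530) x5350) x5458) x5728) x4594) x6538) x4108) x14314) x12126)
  (sub (sub (sub (add (add (sub (add (add (sub (sub (add (add C x5562) x5566) x5582) x5534) x5354) x5462) x5732) x4598) x6542) x4112) x14318) x18690)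
  (sub (sub (sub (add (add (sub (add (add (sub (sub (sub C x5574) x5566) x5554) x5356) x5464) x5734) x4600) x6544) x4114) x14320) x12132)
  (add (add (sub (sub (add (add (sub (add (add (sub (add (add (sub C x5572) x5562) x5586) x5556) x5358) x5466) x5736) x4602) x6546) x4116) x14322) x12136) x18698)
  (sub (sub (sub (add (add (sub (add (add (add (add (sub (sub C x5586) x5570) x5510) x5546) x5366) x5474) x5744) x4610) x6554) x4124) x14330) x18702)
  (add (add (sub (sub (add (add (sub (add (add (add (add (add (add (sub C x5582) x5562) x5574) x5514) x5550) x5370) x5478) x5748) x4614) x6558) x4128) x14334) x12148) x18710)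
  (sub (sub (sub (sub (sub (add (add (add (add (sub (sub C x5596) x5600) x5630) x5666) x5702) x5810) x5270) x6080) x4136) x14342) x18714)
  (sub (sub (sub (sub (sub (add (add (add (add (sub (sub C x5594) x5608) x5632) x5668) x5704) x5812) x5272) x6082) x4138) x14344) x12156)
  (sub (sub (sub (sub (sub (add (add (sub (sub (sub C x5604) x5594) x5618) x5708) x5816) x5276) x6086) x4142) x14348) x18720)
  (add (add (sub (sub (sub (sub (add (add (sub (sub (sub C x5600) x5610) x5622) x5712) x5820) x5280) x6090) x4146) x14352) x12166) x18728)
  (sub (sub (sub (sub (sub (add (add (sub (sub (sub C x5610) x5596) x5644) x5716) x5824) x5284) x6094) x4150) x14356) x12168)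
  (add (add (sub (sub (sub (sub (add (add (sub (sub (sub C x5608) x5604) x5646) x5718) x5826) x5286) x6096) x4152) x14358) x12172) x18734)
  (sub (sub (sub (sub (sub (sub (sub (add (add (sub C x5622) x5630) x5642) x5600) x5672) x5294) x6104) x4160) x14366) x18738)
  (add (add (sub (sub (sub (sub (sub (sub (sub (sub C x5618) x5634) x5604) x5676) x5298) x6108) x4164) x14370) x12184) x18746)
  (sub (sub (sub (sub (sub (sub (add (add (add (add (sub C x5632) x5618) x5642) x5594) x5666) x5684) x5306) x6116) x4172) x14378) x18750)
  (sub (sub (sub (sub (sub (sub (add (add (sub (sub C x5630) x5638) x5596) x5668) x5686) x5308) x6118) x4174) x14380) x12192)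
  (add (add (sub (sub (sub (sub (sub (sub (sub (add (add C x5638) x5642) x5622) x5652) x5688) x5310) x6120) x4176) x14382) x12196) x18758)
  (sub (sub (sub (sub (sub (sub (sub (sub (add (add C x5634) x5642) x5632) x5656) x5692) x5314) x6124) x4180) x14386) x12198)
  (sub (sub (sub (sub (sub (sub (sub (add (add (add (add C x5634) x5638) x5618) x5630) x5660) x5696) x5318) x6128) x4184) x14390) x18762)
  (sub (sub (sub (sub (sub (sub (sub (add (add (sub C x5646) x5656) x5668) x5608) x5752) x5320) x6130) x4186) x14392) x12204)
  (add (add (sub (sub (sub (sub (sub (sub (sub (sub C x5644) x5652) x5610) x5754) x5322) x6132) x4188) x14394) x12208) x18770)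
  (add (add (sub (sub (sub (sub (sub (sub (sub (add (add C x5656) x5660) x5646) x5634) x5760) x5328) x6138) x4194) x14400) x12214) x18776)
  (sub (sub (sub (sub (sub (sub (sub (add (add (add (add C x5652) x5660) x5644) x5668) x5638) x5764) x5332) x6142) x4198) x14404) x12216)
  (sub (sub (sub (sub (sub (sub (sub (sub (add (add C x5652) x5656) x5666) x5642) x5768) x5336) x6146) x4202) x14408) x18780)
  (sub (sub (sub (sub (sub (sub (add (add (sub (sub C x5668) x5660) x5594) x5630) x5774) x5342) x6152) x4208) x14414) x18786)
  (sub (sub (sub (sub (sub (sub (add (add (add (add (sub C x5666) x5644) x5656) x5596) x5632) x5776) x5344) x6154) x4210) x14416) x12228)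
  (sub (sub (sub (sub (sub (sub (add (add (add (add (sub C x5676) x5684) x5696) x5708) x5744) x5618) x5510) x6158) x4214) x14420) x18792)
  (add (add (sub (sub (sub (sub (sub (add (add (sub (sub C x5672) x5688) x5712) x5748) x5622) x5514) x6162) x4218) x14424) x12238) x18800)
  (sub (sub (sub (sub (sub (sub (sub (add (add (sub C x5686) x5672) x5696) x5702) x5630) x5522) x6170) x4226) x14432) x18804)
  (sub (sub (sub (sub (sub (sub (sub (sub (sub C x5684) x5692) x5704) x5632) x5524) x6172) x4228) x14434) x12246)
  (add (add (sub (sub (sub (sub (sub (sub (sub (add (add C x5692) x5696) x5676) x5724) x5634) x5526) x6174) x4230) x14436) x12250) x18812)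
  (sub (sub (sub (sub (sub (sub (sub (sub (add (add C x5688) x5696) x5686) x5728) x5638) x5530) x6178) x4234) x14440) x12252)
  (sub (sub (sub (sub (sub (sub (sub (add (add (add (add C x5688) x5692) x5672) x5684) x5732) x5642) x5534) x6182) x4238) x14444) x18816)
  (sub (sub (sub (sub (sub (add (add (sub (sub (sub C x5704) x5708) x5684) x5594) x5810) x5540) x6188) x4244) x14450) x18822)
  (sub (sub (sub (sub (sub (add (add (sub (sub (sub C x5702) x5716) x5686) x5596) x5812) x5542) x6190) x4246) x14452) x12264)
  (sub (sub (sub (sub (sub (add (add (add (add (sub (sub C x5712) x5702) x5672) x5744) x5600) x5816) x5546) x6194) x4250) x14456) x18828)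
  (add (add (sub (sub (sub (sub (add (add (add (add (sub (sub C x5708) x5718) x5676) x5748) x5604) x5820) x5550) x6198) x4254) x14460) x12274) x18836)
  (sub (sub (sub (sub (sub (add (add (sub (sub (sub C x5718) x5704) x5734) x5608) x5824) x5554) x6202) x4258) x14464) x12276)
  (add (add (sub (sub (sub (sub (add (add (sub (sub (sub C x5716) x5712) x5736) x5610) x5826) x5556) x6204) x4260) x14466) x12280) x18842)
  (add (add (sub (sub (sub (sub (sub (sub (add (add (add (add C x5728) x5732) x5736) x5748) x5688) x5778) x5562) x6210) x4266) x14472) x12286) x18848)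
  (sub (sub (sub (sub (sub (sub (sub (sub (add (add C x5724) x5732) x5734) x5692) x5782) x5566) x6214) x4270) x14476) x12288)
  (sub (sub (sub (sub (sub (sub (sub (sub (add (add C x5724) x5728) x5744) x5696) x5786) x5570) x6218) x4274) x14480) x18852)
  (sub (sub (sub (sub (sub (sub (sub (sub (sub C x5736) x5728) x5716) x5788) x5572) x6220) x4276) x14482) x12294)
  (add (add (sub (sub (sub (sub (sub (sub (add (add (sub C x5734) x5724) x5748) x5718) x5790) x5574) x6222) x4278) x14484) x12298) x18860)
  (sub (sub (sub (sub (sub (sub (add (add (sub (sub C x5748) x5732) x5672) x5708) x5798) x5582) x6230) x4286) x14492) x18864)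
  (add (add (sub (sub (sub (sub (sub (add (add (add (add (sub C x5744) x5724) x5736) x5676) x5712) x5802) x5586) x6234) x4290) x14496) x12310) x18872)
  (sub (sub (sub (sub (add (add (sub (add (add (add (add (sub C x5754) x5764) x5776) x5788) x5824) x5644) x5104) x5428) x6238) x4294) x14500) x12312)
  (add (add (sub (sub (sub (add (add (sub (add (add (sub (sub C x5752) x5760) x5790) x5826) x5646) x5106) x5430) x6240) x4296) x14502) x12316) x18878)
  (add (add (sub (sub (sub (add (add (sub (sub (sub (add (add C x5764) x5768) x5754) x5778) x5652) x5112) x5436) x6246) x4302) x14508) x12322) x18884)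
  (sub (sub (sub (sub (add (add (sub (sub (add (add (add (add C x5760) x5768) x5752) x5776) x5782) x5656) x5116) x5440) x6250) x4306) x14512) x12324)
  (sub (sub (sub (sub (add (add (sub (sub (sub (add (add C x5760) x5764) x5774) x5786) x5660) x5120) x5444) x6254) x4310) x14516) x18888)
  (sub (sub (sub (sub (add (add (sub (sub (sub (sub C x5776) x5768) x5810) x5666) x5126) x5450) x6260) x4316) x14522) x18894)
  (sub (sub (sub (sub (add (add (sub (sub (add (add (sub C x5774) x5752) x5764) x5812) x5668) x5128) x5452) x6262) x4318) x14524) x12336)
  (add (add (sub (sub (sub (add (add (sub (sub (add (add (add (add C x5782) x5786) x5790) x5802) x5760) x5724) x5130) x5454) x6264) x4320) x14526) x12340) x18902)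
  (sub (sub (sub (sub (add (add (sub (sub (sub (add (add C x5778) x5786) x5788) x5764) x5728) x5134) x5458) x6268) x4324) x14530) x12342)
  (sub (sub (sub (sub (add (add (sub (sub (sub (add (add C x5778) x5782) x5798) x5768) x5732) x5138) x5462) x6272) x4328) x14534) x18906)
  (sub (sub (sub (sub (add (add (sub (add (add (sub (sub C x5790) x5782) x5752) x5824) x5734) x5140) x5464) x6274) x4330) x14536) x12348)
  (add (add (sub (sub (sub (add (add (sub (add (add (add (add (sub C x5788) x5778) x5802) x5754) x5826) x5736) x5142) x5466) x6276) x4332) x14538) x12352) x18914)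
  (sub (sub (sub (sub (add (add (sub (sub (sub (sub C x5802) x5786) x5816) x5744) x5150) x5474) x6284) x4340) x14546) x18918)
  (add (add (sub (sub (sub (add (add (sub (sub (add (add (sub C x5798) x5778) x5790) x5820) x5748) x5154) x5478) x6288) x4344) x14550) x12364) x18926)
  (sub (sub (sub (sub (add (add (add (add (sub (sub (sub C x5812) x5816) x5774) x5594) x5702) x5162) x5486) x6296) x4352) x14558) x18930)
  (sub (sub (sub (sub (add (add (add (add (sub (sub (sub C x5810) x5824) x5776) x5596) x5704) x5164) x5488) x6298) x4354) x14560) x12372)
  (sub (sub (sub (sub (add (add (add (add (sub (sub (sub C x5820) x5810) x5798) x5600) x5708) x5168) x5492) x6302) x4358) x14564) x18936)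
  (add (add (sub (sub (sub (add (add (add (add (sub (sub (sub C x5816) x5826) x5802) x5604) x5712) x5172) x5496) x6306) x4362) x14568) x12382) x18944)
  (sub (sub (sub (sub (add (add (add (add (add (add (sub (sub C x5826) x5812) x5752) x5788) x5608) x5716) x5176) x5500) x6310) x4366) x14572) x12384)
  (add (add (sub (sub (sub (add (add (add (add (add (add (sub (sub C x5824) x5820) x5754) x5790) x5610) x5718) x5178) x5502) x6312) x4368) x14574) x12388) x18950)
  (sub (sub (add (add (sub (add (add (add (add (add (add (add (add (sub C x5838) x5846) x5858) x5870) x5906) x5942) x6050) x6158) x6482) x4862) x2) x2918) x14582) x18954)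
  (add (add (sub (add (add (sub (add (add (add (add (add (add (sub (sub C x5834) x5850) x5874) x5910) x5946) x6054) x6162) x6486) x4866) x6) x2922) x14586) x12400) x18962)
  (sub (sub (add (add (sub (add (add (add (add (sub (add (add (sub C x5848) x5834) x5858) x5864) x5954) x6062) x6170) x6494) x4874) x14) x2930) x14594) x18966)
  (sub (sub (add (add (sub (add (add (add (add (sub (sub (sub C x5846) x5854) x5866) x5956) x6064) x6172) x6496) x4876) x16) x2932) x14596) x12408)
  (add (add (sub (add (add (sub (add (add (add (add (sub (sub (add (add C x5854) x5858) x5838) x5886) x5958) x6066) x6174) x6498) x4878) x18) x2934) x14598) x12412) x18974)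
  (sub (sub (add (add (sub (add (add (add (add (sub (sub (add (add C x5850) x5858) x5848) x5890) x5962) x6070) x6178) x6502) x4882) x22) x2938) x14602) x12414)
  (sub (sub (add (add (sub (add (add (add (add (sub (add (add (add (add C x5850) x5854) x5834) x5846) x5894) x5966) x6074) x6182) x6506) x4886) x26) x2942) x14606) x18978)
  (sub (sub (add (add (sub (add (add (sub (sub (sub (sub C x5866) x5870) x5846) x5918) x6188) x6512) x4892) x32) x2948) x14612) x18984)
  (sub (sub (add (add (sub (add (add (sub (sub (sub (sub C x5864) x5878) x5848) x5920) x6190) x6514) x4894) x34) x2950) x14614) x12426)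
  (sub (sub (add (add (sub (add (add (sub (add (add (sub (sub C x5874) x5864) x5834) x5906) x5924) x6194) x6518) x4898) x38) x2954) x14618) x18990)
  (add (add (sub (add (add (sub (add (add (sub (add (add (sub (sub C x5870) x5880) x5838) x5910) x5928) x6198) x6522) x4902) x42) x2958) x14622) x12436) x18998)
  (sub (sub (add (add (sub (add (add (sub (sub (sub (sub C x5880) x5866) x5896) x5932) x6202) x6526) x4906) x46) x2962) x14626) x12438)
  (add (add (sub (add (add (sub (add (add (sub (sub (sub (sub C x5878) x5874) x5898) x5934) x6204) x6528) x4908) x48) x2964) x14628) x12442) x19004)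
  (add (add (sub (add (add (sub (add (add (sub (sub (add (add (add (add C x5890) x5894) x5898) x5910) x5850) x5994) x6210) x6534) x4914) x54) x2970) x14634) x12448) x19010)
  (sub (sub (add (add (sub (add (add (sub (sub (sub (add (add C x5886) x5894) x5896) x5854) x5998) x6214) x6538) x4918) x58) x2974) x14638) x12450)
  (sub (sub (add (add (sub (add (add (sub (sub (sub (add (add C x5886) x5890) x5906) x5858) x6002) x6218) x6542) x4922) x62) x2978) x14642) x19014)
  (sub (sub (add (add (sub (add (add (sub (sub (sub (sub C x5898) x5890) x5878) x6004) x6220) x6544) x4924) x64) x2980) x14644) x12456)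
  (add (add (sub (add (add (sub (add (add (sub (sub (add (add (sub C x5896) x5886) x5910) x5880) x6006) x6222) x6546) x4926) x66) x2982) x14646) x12460) x19022)
  (sub (sub (add (add (sub (add (add (sub (add (add (sub (sub C x5910) x5894) x5834) x5870) x6014) x6230) x6554) x4934) x74) x2990) x14654) x19026)
  (add (add (sub (add (add (sub (add (add (sub (add (add (add (add (sub C x5906) x5886) x5898) x5838) x5874) x6018) x6234) x6558) x4938) x78) x2994) x14658) x12472) x19034)
  (sub (sub (add (add (sub (sub (sub (add (add (sub (sub C x5920) x5924) x5954) x5990) x5864) x6080) x4946) x86) x3002) x14666) x19038)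
  (sub (sub (add (add (sub (sub (sub (add (add (sub (sub C x5918) x5932) x5956) x5992) x5866) x6082) x4948) x88) x3004) x14668) x12480)
  (sub (sub (add (add (sub (sub (sub (sub (sub (sub C x5928) x5918) x5942) x5870) x6086) x4952) x92) x3008) x14672) x19044)
  (add (add (sub (add (add (sub (sub (sub (sub (sub (sub C x5924) x5934) x5946) x5874) x6090) x4956) x96) x3012) x14676) x12490) x19052)
  (sub (sub (add (add (sub (sub (sub (sub (sub (sub C x5934) x5920) x5968) x5878) x6094) x4960) x100) x3016) x14680) x12492)
  (add (add (sub (add (add (sub (sub (sub (sub (sub (sub C x5932) x5928) x5970) x5880) x6096) x4962) x102) x3018) x14682) x12496) x19058)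
  (sub (sub (add (add (sub (sub (add (add (sub (add (add (sub C x5946) x5954) x5966) x5924) x5834) x6050) x6104) x4970) x110) x3026) x14690) x19062)
  (add (add (sub (add (add (sub (sub (add (add (sub (sub (sub C x5942) x5958) x5928) x5838) x6054) x6108) x4974) x114) x3030) x14694) x12508) x19070)
  (sub (sub (add (add (sub (sub (add (add (add (add (add (add (sub C x5956) x5942) x5966) x5918) x5990) x5846) x6062) x6116) x4982) x122) x3038) x14702) x19074)
  (sub (sub (add (add (sub (sub (add (add (add (add (sub (sub C x5954) x5962) x5920) x5992) x5848) x6064) x6118) x4984) x124) x3040) x14704) x12516)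
  (add (add (sub (add (add (sub (sub (add (add (sub (sub (add (add C x5962) x5966) x5946) x5976) x5850) x6066) x6120) x4986) x126) x3042) x14706) x12520) x19082)
  (sub (sub (add (add (sub (sub (add (add (sub (sub (add (add C x5958) x5966) x5956) x5980) x5854) x6070) x6124) x4990) x130) x3046) x14710) x12522)
  (sub (sub (add (add (sub (sub (add (add (sub (add (add (add (add C x5958) x5962) x5942) x5954) x5984) x5858) x6074) x6128) x4994) x134) x3050) x14714) x19086)
  (sub (sub (add (add (sub (sub (sub (sub (add (add (sub C x5970) x5980) x5992) x5932) x6022) x6130) x4996) x136) x3052) x14716) x12528)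
  (add (add (sub (add (add (sub (sub (sub (sub (sub (sub C x5968) x5976) x5934) x6024) x6132) x4998) x138) x3054) x14718) x12532) x19094)
  (add (add (sub (add (add (sub (sub (sub (sub (sub (add (add C x5980) x5984) x5970) x5958) x6030) x6138) x5004) x144) x3060) x14724) x12538) x19100)
  (sub (sub (add (add (sub (sub (sub (sub (add (add (add (add C x5976) x5984) x5968) x5992) x5962) x6034) x6142) x5008) x148) x3064) x14728) x12540)
  (sub (sub (add (add (sub (sub (sub (sub (sub (add (add C x5976) x5980) x5990) x5966) x6038) x6146) x5012) x152) x3068) x14732) x19104)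
  (sub (sub (add (add (sub (sub (sub (add (add (sub (sub C x5992) x5984) x5918) x5954) x6044) x6152) x5018) x158) x3074) x14738) x19110)
  (sub (sub (add (add (sub (sub (sub (add (add (add (add (sub C x5990) x5968) x5980) x5920) x5956) x6046) x6154) x5020) x160) x3076) x14740) x12552)
  (add (add (sub (add (add (sub (sub (sub (add (add (add (add (add (add C x5998) x6002) x6006) x6018) x6030) x6066) x5886) x6318) x5022) x162) x3078) x14742) x12556) x19118)
  (sub (sub (add (add (sub (sub (sub (add (add (sub (add (add C x5994) x6002) x6004) x6034) x6070) x5890) x6322) x5026) x166) x3082) x14746) x12558)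
  (sub (sub (add (add (sub (sub (sub (add (add (sub (add (add C x5994) x5998) x6014) x6038) x6074) x5894) x6326) x5030) x170) x3086) x14750) x19122)
  (sub (sub (add (add (sub (sub (sub (sub (sub (sub C x6006) x5998) x6022) x5896) x6328) x5032) x172) x3088) x14752) x12564)
  (add (add (sub (add (add (sub (sub (sub (sub (add (add (sub C x6004) x5994) x6018) x6024) x5898) x6330) x5034) x174) x3090) x14754) x12568) x19130)
  (sub (sub (add (add (sub (sub (sub (sub (sub (sub C x6018) x6002) x6050) x5906) x6338) x5042) x182) x3098) x14762) x19134)
  (add (add (sub (add (add (sub (sub (sub (sub (add (add (sub C x6014) x5994) x6006) x6054) x5910) x6342) x5046) x186) x3102) x14766) x12580) x19142)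
  (sub (sub (add (add (sub (sub (sub (sub (add (add (sub C x6024) x6034) x6046) x6004) x5968) x6346) x5050) x190) x3106) x14770) x12582)
  (add (add (sub (add (add (sub (sub (sub (sub (sub (sub C x6022) x6030) x6006) x5970) x6348) x5052) x192) x3108) x14772) x12586) x19148)
  (add (add (sub (add (add (sub (sub (sub (add (add (sub (add (add C x6034) x6038) x6024) x5994) x6066) x5976) x6354) x5058) x198) x3114) x14778) x12592) x19154)
  (sub (sub (add (add (sub (sub (sub (add (add (add (add (add (add C x6030) x6038) x6022) x6046) x5998) x6070) x5980) x6358) x5062) x202) x3118) x14782) x12594)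
  (sub (sub (add (add (sub (sub (sub (add (add (sub (add (add C x6030) x6034) x6044) x6002) x6074) x5984) x6362) x5066) x206) x3122) x14786) x19158)
  (sub (sub (add (add (sub (sub (sub (sub (sub (sub C x6046) x6038) x6062) x5990) x6368) x5072) x212) x3128) x14792) x19164)
  (sub (sub (add (add (sub (sub (sub (sub (add (add (sub C x6044) x6022) x6034) x6064) x5992) x6370) x5074) x214) x3130) x14794) x12606)
  (sub (sub (add (add (sub (sub (add (add (sub (add (add (sub C x6054) x6062) x6074) x6014) x5834) x5942) x6374) x5078) x218) x3134) x14798) x19170)
  (add (add (sub (add (add (sub (sub (add (add (sub (sub (sub C x6050) x6066) x6018) x5838) x5946) x6378) x5082) x222) x3138) x14802) x12616) x19178)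
  (sub (sub (add (add (sub (sub (add (add (sub (add (add (sub C x6064) x6050) x6074) x6044) x5846) x5954) x6386) x5090) x230) x3146) x14810) x19182)
  (sub (sub (add (add (sub (sub (add (add (sub (sub (sub C x6062) x6070) x6046) x5848) x5956) x6388) x5092) x232) x3148) x14812) x12624)
  (add (add (sub (add (add (sub (sub (add (add (add (add (sub (add (add C x6070) x6074) x6054) x5994) x6030) x5850) x5958) x6390) x5094) x234) x3150) x14814) x12628) x19190)
  (sub (sub (add (add (sub (sub (add (add (add (add (sub (add (add C x6066) x6074) x6064) x5998) x6034) x5854) x5962) x6394) x5098) x238) x3154) x14818) x12630)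
  (sub (sub (add (add (sub (sub (add (add (add (add (add (add (add (add C x6066) x6070) x6050) x6062) x6002) x6038) x5858) x5966) x6398) x5102) x242) x3158) x14822) x19194)
  (sub (sub (add (add (sub (sub (add (add (add (add (sub (sub C x6082) x6086) x6116) x6152) x6188) x6296) x5918) x5594) x248) x3164) x14828) x19200)
  (sub (sub (add (add (sub (sub (add (add (add (add (sub (sub C x6080) x6094) x6118) x6154) x6190) x6298) x5920) x5596) x250) x3166) x14830) x12642)
  (sub (sub (add (add (sub (sub (add (add (sub (sub (sub C x6090) x6080) x6104) x6194) x6302) x5924) x5600) x254) x3170) x14834) x19206)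
  (add (add (sub (add (add (sub (sub (add (add (sub (sub (sub C x6086) x6096) x6108) x6198) x6306) x5928) x5604) x258) x3174) x14838) x12652) x19214)
  (sub (sub (add (add (sub (sub (add (add (sub (sub (sub C x6096) x6082) x6130) x6202) x6310) x5932) x5608) x262) x3178) x14842) x12654)
  (add (add (sub (add (add (sub (sub (add (add (sub (sub (sub C x6094) x6090) x6132) x6204) x6312) x5934) x5610) x264) x3180) x14844) x12658) x19220)
  (sub (sub (add (add (sub (sub (sub (sub (add (add (sub C x6108) x6116) x6128) x6086) x6158) x5942) x5618) x272) x3188) x14852) x19224)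
  (add (add (sub (add (add (sub (sub (sub (sub (sub (sub C x6104) x6120) x6090) x6162) x5946) x5622) x276) x3192) x14856) x12670) x19232)
  (sub (sub (add (add (sub (sub (sub (add (add (add (add (sub C x6118) x6104) x6128) x6080) x6152) x6170) x5954) x5630) x284) x3200) x14864) x19236)
  (sub (sub (add (add (sub (sub (sub (add (add (sub (sub C x6116) x6124) x6082) x6154) x6172) x5956) x5632) x286) x3202) x14866) x12678)
  (add (add (sub (add (add (sub (sub (sub (sub (sub (add (add C x6124) x6128) x6108) x6138) x6174) x5958) x5634) x288) x3204) x14868) x12682) x19244)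
  (sub (sub (add (add (sub (sub (sub (sub (sub (add (add C x6120) x6128) x6118) x6142) x6178) x5962) x5638) x292) x3208) x14872) x12684)
  (sub (sub (add (add (sub (sub (sub (sub (add (add (add (add C x6120) x6124) x6104) x6116) x6146) x6182) x5966) x5642) x296) x3212) x14876) x19248)
  (sub (sub (add (add (sub (sub (sub (sub (add (add (sub C x6132) x6142) x6154) x6094) x6238) x5968) x5644) x298) x3214) x14878) x12690)
  (add (add (sub (add (add (sub (sub (sub (sub (sub (sub C x6130) x6138) x6096) x6240) x5970) x5646) x300) x3216) x14880) x12694) x19256)
  (add (add (sub (add (add (sub (sub (sub (sub (sub (add (add C x6142) x6146) x6132) x6120) x6246) x5976) x5652) x306) x3222) x14886) x12700) x19262)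
  (sub (sub (add (add (sub (sub (sub (sub (add (add (add (add C x6138) x6146) x6130) x6154) x6124) x6250) x5980) x5656) x310) x3226) x14890) x12702)
  (sub (sub (add (add (sub (sub (sub (sub (sub (add (add C x6138) x6142) x6152) x6128) x6254) x5984) x5660) x314) x3230) x14894) x19266)
  (sub (sub (add (add (sub (sub (sub (add (add (sub (sub C x6154) x6146) x6080) x6116) x6260) x5990) x5666) x320) x3236) x14900) x19272)
  (sub (sub (add (add (sub (sub (sub (add (add (add (add (sub C x6152) x6130) x6142) x6082) x6118) x6262) x5992) x5668) x322) x3238) x14902) x12714)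
  (sub (sub (add (add (sub (add (add (sub (add (add (add (add (sub C x6162) x6170) x6182) x6194) x6230) x6104) x5834) x6482) x5672) x326) x3242) x14906) x19278)
  (add (add (sub (add (add (sub (add (add (sub (add (add (sub (sub C x6158) x6174) x6198) x6234) x6108) x5838) x6486) x5676) x330) x3246) x14910) x12724) x19286)
  (sub (sub (add (add (sub (add (add (sub (sub (add (add (sub C x6172) x6158) x6182) x6188) x6116) x5846) x6494) x5684) x338) x3254) x14918) x19290)
  (sub (sub (add (add (sub (add (add (sub (sub (sub (sub C x6170) x6178) x6190) x6118) x5848) x6496) x5686) x340) x3256) x14920) x12732)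
  (add (add (sub (add (add (sub (add (add (sub (sub (sub (add (add C x6178) x6182) x6162) x6210) x6120) x5850) x6498) x5688) x342) x3258) x14922) x12736) x19298)
  (sub (sub (add (add (sub (add (add (sub (sub (sub (add (add C x6174) x6182) x6172) x6214) x6124) x5854) x6502) x5692) x346) x3262) x14926) x12738)
  (sub (sub (add (add (sub (add (add (sub (sub (add (add (add (add C x6174) x6178) x6158) x6170) x6218) x6128) x5858) x6506) x5696) x350) x3266) x14930) x19302)
  (sub (sub (add (add (sub (add (add (add (add (sub (sub (sub C x6190) x6194) x6170) x6080) x6296) x5864) x6512) x5702) x356) x3272) x14936) x19308)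
  (sub (sub (add (add (sub (add (add (add (add (sub (sub (sub C x6188) x6202) x6172) x6082) x6298) x5866) x6514) x5704) x358) x3274) x14938) x12750)
  (sub (sub (add (add (sub (add (add (add (add (add (add (sub (sub C x6198) x6188) x6158) x6230) x6086) x6302) x5870) x6518) x5708) x362) x3278) x14942) x19314)
  (add (add (sub (add (add (sub (add (add (add (add (add (add (sub (sub C x6194) x6204) x6162) x6234) x6090) x6306) x5874) x6522) x5712) x366) x3282) x14946) x12760) x19322)
  (sub (sub (add (add (sub (add (add (add (add (sub (sub (sub C x6204) x6190) x6220) x6094) x6310) x5878) x6526) x5716) x370) x3286) x14950) x12762)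
  (add (add (sub (add (add (sub (add (add (add (add (sub (sub (sub C x6202) x6198) x6222) x6096) x6312) x5880) x6528) x5718) x372) x3288) x14952) x12766) x19328)
  (add (add (sub (add (add (sub (add (add (sub (sub (add (add (add (add C x6214) x6218) x6222) x6234) x6174) x6264) x5886) x6534) x5724) x378) x3294) x14958) x12772) x19334)
  (sub (sub (add (add (sub (add (add (sub (sub (sub (add (add C x6210) x6218) x6220) x6178) x6268) x5890) x6538) x5728) x382) x3298) x14962) x12774)
  (sub (sub (add (add (sub (add (add (sub (sub (sub (add (add C x6210) x6214) x6230) x6182) x6272) x5894) x6542) x5732) x386) x3302) x14966) x19338)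
  (sub (sub (add (add (sub (add (add (sub (sub (sub (sub C x6222) x6214) x6202) x6274) x5896) x6544) x5734) x388) x3304) x14968) x12780)
  (add (add (sub (add (add (sub (add (add (sub (sub (add (add (sub C x6220) x6210) x6234) x6204) x6276) x5898) x6546) x5736) x390) x3306) x14970) x12784) x19346)
  (sub (sub (add (add (sub (add (add (sub (add (add (sub (sub C x6234) x6218) x6158) x6194) x6284) x5906) x6554) x5744) x398) x3314) x14978) x19350)
  (add (add (sub (add (add (sub (add (add (sub (add (add (add (add (sub C x6230) x6210) x6222) x6162) x6198) x6288) x5910) x6558) x5748) x402) x3318) x14982) x12796) x19358)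
  (sub (sub (add (add (sub (sub (sub (add (add (add (add (sub C x6240) x6250) x6262) x6274) x6310) x6130) x6400) x5752) x406) x3322) x14986) x12798)
  (add (add (sub (add (add (sub (sub (sub (add (add (sub (sub C x6238) x6246) x6276) x6312) x6132) x6402) x5754) x408) x3324) x14988) x12802) x19364)
  (add (add (sub (add (add (sub (sub (sub (sub (sub (add (add C x6250) x6254) x6240) x6264) x6138) x6408) x5760) x414) x3330) x14994) x12808) x19370)
  (sub (sub (add (add (sub (sub (sub (sub (add (add (add (add C x6246) x6254) x6238) x6262) x6268) x6142) x6412) x5764) x418) x3334) x14998) x12810)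
  (sub (sub (add (add (sub (sub (sub (sub (sub (add (add C x6246) x6250) x6260) x6272) x6146) x6416) x5768) x422) x3338) x15002) x19374)
  (sub (sub (add (add (sub (sub (sub (sub (sub (sub C x6262) x6254) x6296) x6152) x6422) x5774) x428) x3344) x15008) x19380)
  (sub (sub (add (add (sub (sub (sub (sub (add (add (sub C x6260) x6238) x6250) x6298) x6154) x6424) x5776) x430) x3346) x15010) x12822)
  (add (add (sub (add (add (sub (sub (sub (sub (add (add (add (add C x6268) x6272) x6276) x6288) x6246) x6210) x6426) x5778) x432) x3348) x15012) x12826) x19388)
  (sub (sub (add (add (sub (sub (sub (sub (sub (add (add C x6264) x6272) x6274) x6250) x6214) x6430) x5782) x436) x3352) x15016) x12828)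
  (sub (sub (add (add (sub (sub (sub (sub (sub (add (add C x6264) x6268) x6284) x6254) x6218) x6434) x5786) x440) x3356) x15020) x19392)
  (sub (sub (add (add (sub (sub (sub (add (add (sub (sub C x6276) x6268) x6238) x6310) x6220) x6436) x5788) x442) x3358) x15022) x12834)
  (add (add (sub (add (add (sub (sub (sub (add (add (add (add (sub C x6274) x6264) x6288) x6240) x6312) x6222) x6438) x5790) x444) x3360) x15024) x12838) x19400)
  (sub (sub (add (add (sub (sub (sub (sub (sub (sub C x6288) x6272) x6302) x6230) x6446) x5798) x452) x3368) x15032) x19404)
  (add (add (sub (add (add (sub (sub (sub (sub (add (add (sub C x6284) x6264) x6276) x6306) x6234) x6450) x5802) x456) x3372) x15036) x12850) x19412)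
  (sub (sub (add (add (sub (sub (add (add (sub (sub (sub C x6298) x6302) x6260) x6080) x6188) x6458) x5810) x464) x3380) x15044) x19416)
  (sub (sub (add (add (sub (sub (add (add (sub (sub (sub C x6296) x6310) x6262) x6082) x6190) x6460) x5812) x466) x3382) x15046) x12858)
  (sub (sub (add (add (sub (sub (add (add (sub (sub (sub C x6306) x6296) x6284) x6086) x6194) x6464) x5816) x470) x3386) x15050) x19422)
  (add (add (sub (add (add (sub (sub (add (add (sub (sub (sub C x6302) x6312) x6288) x6090) x6198) x6468) x5820) x474) x3390) x15054) x12868) x19430)
  (sub (sub (add (add (sub (sub (add (add (add (add (sub (sub C x6312) x6298) x6238) x6274) x6094) x6202) x6472) x5824) x478) x3394) x15058) x12870)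
  (add (add (sub (add (add (sub (sub (add (add (add (add (sub (sub C x6310) x6306) x6240) x6276) x6096) x6204) x6474) x5826) x480) x3396) x15060) x12874) x19436)
  (add (add (sub (add (add (add (add (sub (add (add (add (add (add (add (add (add C x6322) x6326) x6330) x6342) x6354) x6390) x6426) x6534) x5994) x4374) x5346) x486) x3402) x15066) x12880) x19442)
  (sub (sub (add (add (add (add (sub (add (add (add (add (sub (add (add C x6318) x6326) x6328) x6358) x6394) x6430) x6538) x5998) x4378) x5350) x490) x3406) x15070) x12882)
  (sub (sub (add (add (add (add (sub (add (add (add (add (sub (add (add C x6318) x6322) x6338) x6362) x6398) x6434) x6542) x6002) x4382) x5354) x494) x3410) x15074) x19446)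
  (sub (sub (add (add (add (add (sub (add (add (sub (sub (sub C x6330) x6322) x6346) x6436) x6544) x6004) x4384) x5356) x496) x3412) x15076) x12888)
  (add (add (sub (add (add (add (add (sub (add (add (sub (add (add (sub C x6328) x6318) x6342) x6348) x6438) x6546) x6006) x4386) x5358) x498) x3414) x15078) x12892) x19454)
  (sub (sub (add (add (add (add (sub (add (add (sub (sub (sub C x6342) x6326) x6374) x6446) x6554) x6014) x4394) x5366) x506) x3422) x15086) x19458)
  (add (add (sub (add (add (add (add (sub (add (add (sub (add (add (sub C x6338) x6318) x6330) x6378) x6450) x6558) x6018) x4398) x5370) x510) x3426) x15090) x12904) x19466)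
  (sub (sub (add (add (add (add (sub (sub (sub (add (add (sub C x6348) x6358) x6370) x6328) x6400) x6022) x4402) x5374) x514) x3430) x15094) x12906)
  (add (add (sub (add (add (add (add (sub (sub (sub (sub (sub C x6346) x6354) x6330) x6402) x6024) x4404) x5376) x516) x3432) x15096) x12910) x19472)
  (add (add (sub (add (add (add (add (sub (sub (add (add (sub (add (add C x6358) x6362) x6348) x6318) x6390) x6408) x6030) x4410) x5382) x522) x3438) x15102) x12916) x19478)
  (sub (sub (add (add (add (add (sub (sub (add (add (add (add (add (add C x6354) x6362) x6346) x6370) x6322) x6394) x6412) x6034) x4414) x5386) x526) x3442) x15106) x12918)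
  (sub (sub (add (add (add (add (sub (sub (add (add (sub (add (add C x6354) x6358) x6368) x6326) x6398) x6416) x6038) x4418) x5390) x530) x3446) x15110) x19482)
  (sub (sub (add (add (add (add (sub (sub (sub (sub (sub C x6370) x6362) x6386) x6422) x6044) x4424) x5396) x536) x3452) x15116) x19488)
  (sub (sub (add (add (add (add (sub (sub (sub (add (add (sub C x6368) x6346) x6358) x6388) x6424) x6046) x4426) x5398) x538) x3454) x15118) x12930)
  (sub (sub (add (add (add (add (sub (sub (sub (add (add (sub C x6378) x6386) x6398) x6338) x6482) x6050) x4430) x5402) x542) x3458) x15122) x19494)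
  (add (add (sub (add (add (add (add (sub (sub (sub (sub (sub C x6374) x6390) x6342) x6486) x6054) x4434) x5406) x546) x3462) x15126) x12940) x19502)
  (sub (sub (add (add (add (add (sub (sub (sub (add (add (sub C x6388) x6374) x6398) x6368) x6494) x6062) x4442) x5414) x554) x3470) x15134) x19506)
  (sub (sub (add (add (add (add (sub (sub (sub (sub (sub C x6386) x6394) x6370) x6496) x6064) x4444) x5416) x556) x3472) x15136) x12948)
  (add (add (sub (add (add (add (add (sub (sub (add (add (sub (add (add C x6394) x6398) x6378) x6318) x6354) x6498) x6066) x4446) x5418) x558) x3474) x15138) x12952) x19514)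
  (sub (sub (add (add (add (add (sub (sub (add (add (sub (add (add C x6390) x6398) x6388) x6322) x6358) x6502) x6070) x4450) x5422) x562) x3478) x15142) x12954)
  (sub (sub (add (add (add (add (sub (sub (add (add (add (add (add (add C x6390) x6394) x6374) x6386) x6326) x6362) x6506) x6074) x4454) x5426) x566) x3482) x15146) x19518)
  (sub (sub (add (add (add (add (sub (sub (add (add (add (add (sub C x6402) x6412) x6424) x6436) x6472) x6346) x6238) x4456) x5428) x568) x3484) x15148) x12960)
  (add (add (sub (add (add (add (add (sub (sub (add (add (sub (sub C x6400) x6408) x6438) x6474) x6348) x6240) x4458) x5430) x570) x3486) x15150) x12964) x19526)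
  (add (add (sub (add (add (add (add (sub (sub (sub (sub (add (add C x6412) x6416) x6402) x6426) x6354) x6246) x4464) x5436) x576) x3492) x15156) x12970) x19532)
  (sub (sub (add (add (add (add (sub (sub (sub (add (add (add (add C x6408) x6416) x6400) x6424) x6430) x6358) x6250) x4468) x5440) x580) x3496) x15160) x12972)
  (sub (sub (add (add (add (add (sub (sub (sub (sub (add (add C x6408) x6412) x6422) x6434) x6362) x6254) x4472) x5444) x584) x3500) x15164) x19536)
  (sub (sub (add (add (add (add (sub (sub (sub (sub (sub C x6424) x6416) x6458) x6368) x6260) x4478) x5450) x590) x3506) x15170) x19542)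
  (sub (sub (add (add (add (add (sub (sub (sub (add (add (sub C x6422) x6400) x6412) x6460) x6370) x6262) x4480) x5452) x592) x3508) x15172) x12984)
  (add (add (sub (add (add (add (add (sub (add (add (sub (add (add (add (add C x6430) x6434) x6438) x6450) x6408) x6318) x6534) x6264) x4482) x5454) x594) x3510) x15174) x12988) x19550)
  (sub (sub (add (add (add (add (sub (add (add (sub (sub (add (add C x6426) x6434) x6436) x6412) x6322) x6538) x6268) x4486) x5458) x598) x3514) x15178) x12990)
  (sub (sub (add (add (add (add (sub (add (add (sub (sub (add (add C x6426) x6430) x6446) x6416) x6326) x6542) x6272) x4490) x5462) x602) x3518) x15182) x19554)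
  (sub (sub (add (add (add (add (sub (add (add (add (add (sub (sub C x6438) x6430) x6400) x6472) x6328) x6544) x6274) x4492) x5464) x604) x3520) x15184) x12996)
  (add (add (sub (add (add (add (add (sub (add (add (add (add (add (add (sub C x6436) x6426) x6450) x6402) x6474) x6330) x6546) x6276) x4494) x5466) x606) x3522) x15186) x13000) x19562)
  (sub (sub (add (add (add (add (sub (add (add (sub (sub (sub C x6450) x6434) x6464) x6338) x6554) x6284) x4502) x5474) x614) x3530) x15194) x19566)
  (add (add (sub (add (add (add (add (sub (add (add (sub (add (add (sub C x6446) x6426) x6438) x6468) x6342) x6558) x6288) x4506) x5478) x618) x3534) x15198) x13012) x19574)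
  (sub (sub (add (add (add (add (sub (sub (sub (sub (sub C x6460) x6464) x6422) x6512) x6296) x4514) x5486) x626) x3542) x15206) x19578)
  (sub (sub (add (add (add (add (sub (sub (sub (sub (sub C x6458) x6472) x6424) x6514) x6298) x4516) x5488) x628) x3544) x15208) x13020)
  (sub (sub (add (add (add (add (sub (sub (sub (sub (sub C x6468) x6458) x6446) x6518) x6302) x4520) x5492) x632) x3548) x15212) x19584)
  (add (add (sub (add (add (add (add (sub (sub (sub (sub (sub C x6464) x6474) x6450) x6522) x6306) x4524) x5496) x636) x3552) x15216) x13030) x19592)
  (sub (sub (add (add (add (add (sub (sub (add (add (sub (sub C x6474) x6460) x6400) x6436) x6526) x6310) x4528) x5500) x640) x3556) x15220) x13032)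
  (add (add (sub (add (add (add (add (sub (sub (add (add (sub (sub C x6472) x6468) x6402) x6438) x6528) x6312) x4530) x5502) x642) x3558) x15222) x13036) x19598)
  (sub (sub (add (add (add (add (add (add (sub (add (add (add (add (sub C x6486) x6494) x6506) x6518) x6554) x6374) x5834) x6158) x4538) x5510) x650) x3566) x15230) x19602)
  (add (add (sub (add (add (add (add (add (add (sub (add (add (sub (sub C x6482) x6498) x6522) x6558) x6378) x5838) x6162) x4542) x5514) x654) x3570) x15234) x13048) x19610)
  (sub (sub (add (add (add (add (add (add (sub (sub (add (add (sub C x6496) x6482) x6506) x6512) x6386) x5846) x6170) x4550) x5522) x662) x3578) x15242) x19614)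
  (sub (sub (add (add (add (add (add (add (sub (sub (sub (sub C x6494) x6502) x6514) x6388) x5848) x6172) x4552) x5524) x664) x3580) x15244) x13056)
  (add (add (sub (add (add (add (add (add (add (sub (sub (sub (add (add C x6502) x6506) x6486) x6534) x6390) x5850) x6174) x4554) x5526) x666) x3582) x15246) x13060) x19622)
  (sub (sub (add (add (add (add (add (add (sub (sub (sub (add (add C x6498) x6506) x6496) x6538) x6394) x5854) x6178) x4558) x5530) x670) x3586) x15250) x13062)
  (sub (sub (add (add (add (add (add (add (sub (sub (add (add (add (add C x6498) x6502) x6482) x6494) x6542) x6398) x5858) x6182) x4562) x5534) x674) x3590) x15254) x19626)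
  (sub (sub (add (add (add (add (add (add (sub (sub (sub (sub C x6514) x6518) x6494) x6458) x5864) x6188) x4568) x5540) x680) x3596) x15260) x19632)
  (sub (sub (add (add (add (add (add (add (sub (sub (sub (sub C x6512) x6526) x6496) x6460) x5866) x6190) x4570) x5542) x682) x3598) x15262) x13074)
  (sub (sub (add (add (add (add (add (add (sub (add (add (sub (sub C x6522) x6512) x6482) x6554) x6464) x5870) x6194) x4574) x5546) x686) x3602) x15266) x19638)
  (add (add (sub (add (add (add (add (add (add (sub (add (add (sub (sub C x6518) x6528) x6486) x6558) x6468) x5874) x6198) x4578) x5550) x690) x3606) x15270) x13084) x19646)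
  (sub (sub (add (add (add (add (add (add (sub (sub (sub (sub C x6528) x6514) x6544) x6472) x5878) x6202) x4582) x5554) x694) x3610) x15274) x13086)
  (add (add (sub (add (add (add (add (add (add (sub (sub (sub (sub C x6526) x6522) x6546) x6474) x5880) x6204) x4584) x5556) x696) x3612) x15276) x13090) x19652)
  (add (add (sub (add (add (add (add (add (add (add (add (sub (add (add (add (add C x6538) x6542) x6546) x6558) x6498) x6318) x6426) x5886) x6210) x4590) x5562) x702) x3618) x15282) x13096) x19658)
  (sub (sub (add (add (add (add (add (add (add (add (sub (sub (add (add C x6534) x6542) x6544) x6502) x6322) x6430) x5890) x6214) x4594) x5566) x706) x3622) x15286) x13098)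
  (sub (sub (add (add (add (add (add (add (add (add (sub (sub (add (add C x6534) x6538) x6554) x6506) x6326) x6434) x5894) x6218) x4598) x5570) x710) x3626) x15290) x19662)
  (sub (sub (add (add (add (add (add (add (add (add (sub (sub (sub C x6546) x6538) x6526) x6328) x6436) x5896) x6220) x4600) x5572) x712) x3628) x15292) x13104)
  (add (add (sub (add (add (add (add (add (add (add (add (sub (add (add (sub C x6544) x6534) x6558) x6528) x6330) x6438) x5898) x6222) x4602) x5574) x714) x3630) x15294) x13108) x19670)
  (sub (sub (add (add (add (add (add (add (add (add (add (add (sub (sub C x6558) x6542) x6482) x6518) x6338) x6446) x5906) x6230) x4610) x5582) x722) x3638) x15302) x19674)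
  (add (add (sub (add (add (add (add (add (add (add (add (add (add (add (add (sub C x6554) x6534) x6546) x6486) x6522) x6342) x6450) x5910) x6234) x4614) x5586) x726) x3642) x15306) x13120) x19682)
  (sub (sub (add (add (add (add (add (add (add (add (add (add (sub (sub C x6568) x6572) x6602) x6638) x6674) x6782) x6890) x7214) x7538) x8510) x9482) x12398) x2192) x13126)
  (add (add (sub (add (add (add (add (add (add (add (add (add (add (sub (sub C x6566) x6580) x6604) x6640) x6676) x6784) x6892) x7216) x7540) x8512) x9484) x12400) x2194) x6) x13130)
  (sub (sub (add (add (add (add (add (add (add (add (sub (sub (sub C x6576) x6566) x6590) x6680) x6788) x6896) x7220) x7544) x8516) x9488) x12404) x2198) x13132)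
  (sub (sub (add (add (add (add (add (add (add (add (sub (sub (sub C x6572) x6582) x6594) x6684) x6792) x6900) x7224) x7548) x8520) x9492) x12408) x2202) x16)
  (add (add (sub (add (add (add (add (add (add (add (add (sub (sub (sub C x6582) x6568) x6616) x6688) x6796) x6904) x7228) x7552) x8524) x9496) x12412) x2206) x18) x13142)
  (sub (sub (add (add (add (add (add (add (add (add (sub (sub (sub C x6580) x6576) x6618) x6690) x6798) x6906) x7230) x7554) x8526) x9498) x12414) x2208) x22)
  (sub (sub (add (add (add (add (add (add (sub (sub (add (add (sub C x6594) x6602) x6614) x6572) x6644) x6914) x7238) x7562) x8534) x9506) x12422) x2216) x13150)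
  (sub (sub (add (add (add (add (add (add (sub (sub (sub (sub C x6590) x6606) x6576) x6648) x6918) x7242) x7566) x8538) x9510) x12426) x2220) x34)
  (sub (sub (add (add (add (add (add (add (sub (add (add (add (add (sub C x6604) x6590) x6614) x6566) x6638) x6656) x6926) x7250) x7574) x8546) x9518) x12434) x2228) x13162)
  (add (add (sub (add (add (add (add (add (add (sub (add (add (sub (sub C x6602) x6610) x6568) x6640) x6658) x6928) x7252) x7576) x8548) x9520) x12436) x2230) x42) x13166)
  (sub (sub (add (add (add (add (add (add (sub (sub (sub (add (add C x6610) x6614) x6594) x6624) x6660) x6930) x7254) x7578) x8550) x9522) x12438) x2232) x46)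
  (add (add (sub (add (add (add (add (add (add (sub (sub (sub (add (add C x6606) x6614) x6604) x6628) x6664) x6934) x7258) x7582) x8554) x9526) x12442) x2236) x48) x13172)
  (sub (sub (add (add (add (add (add (add (sub (sub (add (add (add (add C x6606) x6610) x6590) x6602) x6632) x6668) x6938) x7262) x7586) x8558) x9530) x12446) x2240) x13174)
  (add (add (sub (add (add (add (add (add (add (sub (sub (add (add (sub C x6618) x6628) x6640) x6580) x6724) x6940) x7264) x7588) x8560) x9532) x12448) x2242) x54) x13178)
  (sub (sub (add (add (add (add (add (add (sub (sub (sub (sub C x6616) x6624) x6582) x6726) x6942) x7266) x7590) x8562) x9534) x12450) x2244) x58)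
  (sub (sub (add (add (add (add (add (add (sub (sub (sub (add (add C x6628) x6632) x6618) x6606) x6732) x6948) x7272) x7596) x8568) x9540) x12456) x2250) x64)
  (add (add (sub (add (add (add (add (add (add (sub (sub (add (add (add (add C x6624) x6632) x6616) x6640) x6610) x6736) x6952) x7276) x7600) x8572) x9544) x12460) x2254) x66) x13190)
  (sub (sub (add (add (add (add (add (add (sub (sub (sub (add (add C x6624) x6628) x6638) x6614) x6740) x6956) x7280) x7604) x8576) x9548) x12464) x2258) x13192)
  (sub (sub (add (add (add (add (add (add (sub (add (add (sub (sub C x6640) x6632) x6566) x6602) x6746) x6962) x7286) x7610) x8582) x9554) x12470) x2264) x13198)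
  (add (add (sub (add (add (add (add (add (add (sub (add (add (add (add (sub C x6638) x6616) x6628) x6568) x6604) x6748) x6964) x7288) x7612) x8584) x9556) x12472) x2266) x78) x13202)
  (sub (sub (add (add (add (add (sub (sub (add (add (add (add (sub C x6648) x6656) x6668) x6680) x6716) x6590) x6806) x7616) x8588) x9560) x12476) x2270) x13204)
  (sub (sub (add (add (add (add (sub (sub (add (add (sub (sub C x6644) x6660) x6684) x6720) x6594) x6810) x7620) x8592) x9564) x12480) x2274) x88)
  (sub (sub (add (add (add (add (sub (sub (sub (add (add (sub C x6658) x6644) x6668) x6674) x6602) x6818) x7628) x8600) x9572) x12488) x2282) x13216)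
  (add (add (sub (add (add (add (add (sub (sub (sub (sub (sub C x6656) x6664) x6676) x6604) x6820) x7630) x8602) x9574) x12490) x2284) x96) x13220)
  (sub (sub (add (add (add (add (sub (sub (sub (sub (add (add C x6664) x6668) x6648) x6696) x6606) x6822) x7632) x8604) x9576) x12492) x2286) x100)
  (add (add (sub (add (add (add (add (sub (sub (sub (sub (add (add C x6660) x6668) x6658) x6700) x6610) x6826) x7636) x8608) x9580) x12496) x2290) x102) x13226)
  (sub (sub (add (add (add (add (sub (sub (sub (add (add (add (add C x6660) x6664) x6644) x6656) x6704) x6614) x6830) x7640) x8612) x9584) x12500) x2294) x13228)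
  (sub (sub (add (add (add (add (sub (add (add (sub (sub (sub C x6676) x6680) x6656) x6566) x6782) x6836) x7646) x8618) x9590) x12506) x2300) x13234)
  (add (add (sub (add (add (add (add (sub (add (add (sub (sub (sub C x6674) x6688) x6658) x6568) x6784) x6838) x7648) x8620) x9592) x12508) x2302) x114) x13238)
  (sub (sub (add (add (add (add (sub (add (add (add (add (sub (sub C x6684) x6674) x6644) x6716) x6572) x6788) x6842) x7652) x8624) x9596) x12512) x2306) x13240)
  (sub (sub (add (add (add (add (sub (add (add (add (add (sub (sub C x6680) x6690) x6648) x6720) x6576) x6792) x6846) x7656) x8628) x9600) x12516) x2310) x124)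
  (add (add (sub (add (add (add (add (sub (add (add (sub (sub (sub C x6690) x6676) x6706) x6580) x6796) x6850) x7660) x8632) x9604) x12520) x2314) x126) x13250)
  (sub (sub (add (add (add (add (sub (add (add (sub (sub (sub C x6688) x6684) x6708) x6582) x6798) x6852) x7662) x8634) x9606) x12522) x2316) x130)
  (sub (sub (add (add (add (add (sub (sub (sub (add (add (add (add C x6700) x6704) x6708) x6720) x6660) x6750) x6858) x7668) x8640) x9612) x12528) x2322) x136)
  (add (add (sub (add (add (add (add (sub (sub (sub (sub (add (add C x6696) x6704) x6706) x6664) x6754) x6862) x7672) x8644) x9616) x12532) x2326) x138) x13262)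
  (sub (sub (add (add (add (add (sub (sub (sub (sub (add (add C x6696) x6700) x6716) x6668) x6758) x6866) x7676) x8648) x9620) x12536) x2330) x13264)
  (add (add (sub (add (add (add (add (sub (sub (sub (sub (sub C x6708) x6700) x6688) x6760) x6868) x7678) x8650) x9622) x12538) x2332) x144) x13268)
  (sub (sub (add (add (add (add (sub (sub (sub (add (add (sub C x6706) x6696) x6720) x6690) x6762) x6870) x7680) x8652) x9624) x12540) x2334) x148)
  (sub (sub (add (add (add (add (sub (sub (add (add (sub (sub C x6720) x6704) x6644) x6680) x6770) x6878) x7688) x8660) x9632) x12548) x2342) x13276)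
  (sub (sub (add (add (add (add (sub (sub (add (add (add (add (sub C x6716) x6696) x6708) x6648) x6684) x6774) x6882) x7692) x8664) x9636) x12552) x2346) x160)
  (add (add (sub (add (add (add (add (sub (sub (add (add (add (add (sub C x6726) x6736) x6748) x6760) x6796) x6616) x7048) x7696) x8668) x9640) x12556) x2350) x162) x13286)
  (sub (sub (add (add (add (add (sub (sub (add (add (sub (sub C x6724) x6732) x6762) x6798) x6618) x7050) x7698) x8670) x9642) x12558) x2352) x166)
  (sub (sub (add (add (add (add (sub (sub (sub (sub (add (add C x6736) x6740) x6726) x6750) x6624) x7056) x7704) x8676) x9648) x12564) x2358) x172)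
  (add (add (sub (add (add (add (add (sub (sub (sub (add (add (add (add C x6732) x6740) x6724) x6748) x6754) x6628) x7060) x7708) x8680) x9652) x12568) x2362) x174) x13298)
  (sub (sub (add (add (add (add (sub (sub (sub (sub (add (add C x6732) x6736) x6746) x6758) x6632) x7064) x7712) x8684) x9656) x12572) x2366) x13300)
  (sub (sub (add (add (add (add (sub (sub (sub (sub (sub C x6748) x6740) x6782) x6638) x7070) x7718) x8690) x9662) x12578) x2372) x13306)
  (add (add (sub (add (add (add (add (sub (sub (sub (add (add (sub C x6746) x6724) x6736) x6784) x6640) x7072) x7720) x8692) x9664) x12580) x2374) x186) x13310)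
  (sub (sub (add (add (add (add (sub (sub (sub (add (add (add (add C x6754) x6758) x6762) x6774) x6732) x6696) x7074) x7722) x8694) x9666) x12582) x2376) x190)
  (add (add (sub (add (add (add (add (sub (sub (sub (sub (add (add C x6750) x6758) x6760) x6736) x6700) x7078) x7726) x8698) x9670) x12586) x2380) x192) x13316)
  (sub (sub (add (add (add (add (sub (sub (sub (sub (add (add C x6750) x6754) x6770) x6740) x6704) x7082) x7730) x8702) x9674) x12590) x2384) x13318)
  (add (add (sub (add (add (add (add (sub (sub (add (add (sub (sub C x6762) x6754) x6724) x6796) x6706) x7084) x7732) x8704) x9676) x12592) x2386) x198) x13322)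
  (sub (sub (add (add (add (add (sub (sub (add (add (add (add (sub C x6760) x6750) x6774) x6726) x6798) x6708) x7086) x7734) x8706) x9678) x12594) x2388) x202)
  (sub (sub (add (add (add (add (sub (sub (sub (sub (sub C x6774) x6758) x6788) x6716) x7094) x7742) x8714) x9686) x12602) x2396) x13330)
  (sub (sub (add (add (add (add (sub (sub (sub (add (add (sub C x6770) x6750) x6762) x6792) x6720) x7098) x7746) x8718) x9690) x12606) x2400) x214)
  (sub (sub (add (add (add (add (sub (add (add (sub (sub (sub C x6784) x6788) x6746) x6566) x6674) x7106) x7754) x8726) x9698) x12614) x2408) x13342)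
  (add (add (sub (add (add (add (add (sub (add (add (sub (sub (sub C x6782) x6796) x6748) x6568) x6676) x7108) x7756) x8728) x9700) x12616) x2410) x222) x13346)
  (sub (sub (add (add (add (add (sub (add (add (sub (sub (sub C x6792) x6782) x6770) x6572) x6680) x7112) x7760) x8732) x9704) x12620) x2414) x13348)
  (sub (sub (add (add (add (add (sub (add (add (sub (sub (sub C x6788) x6798) x6774) x6576) x6684) x7116) x7764) x8736) x9708) x12624) x2418) x232)
  (add (add (sub (add (add (add (add (sub (add (add (add (add (sub (sub C x6798) x6784) x6724) x6760) x6580) x6688) x7120) x7768) x8740) x9712) x12628) x2422) x234) x13358)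
  (sub (sub (add (add (add (add (sub (add (add (add (add (sub (sub C x6796) x6792) x6726) x6762) x6582) x6690) x7122) x7770) x8742) x9714) x12630) x2424) x238)
  (sub (sub (add (add (sub (sub (add (add (add (add (add (add (sub C x6810) x6818) x6830) x6842) x6878) x6914) x7022) x6644) x7292) x9722) x12638) x2432) x13366)
  (sub (sub (add (add (sub (sub (add (add (add (add (sub (sub C x6806) x6822) x6846) x6882) x6918) x7026) x6648) x7296) x9726) x12642) x2436) x250)
  (sub (sub (add (add (sub (sub (add (add (sub (add (add (sub C x6820) x6806) x6830) x6836) x6926) x7034) x6656) x7304) x9734) x12650) x2444) x13378)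
  (add (add (sub (add (add (sub (sub (add (add (sub (sub (sub C x6818) x6826) x6838) x6928) x7036) x6658) x7306) x9736) x12652) x2446) x258) x13382)
  (sub (sub (add (add (sub (sub (add (add (sub (sub (add (add C x6826) x6830) x6810) x6858) x6930) x7038) x6660) x7308) x9738) x12654) x2448) x262)
  (add (add (sub (add (add (sub (sub (add (add (sub (sub (add (add C x6822) x6830) x6820) x6862) x6934) x7042) x6664) x7312) x9742) x12658) x2452) x264) x13388)
  (sub (sub (add (add (sub (sub (add (add (sub (add (add (add (add C x6822) x6826) x6806) x6818) x6866) x6938) x7046) x6668) x7316) x9746) x12662) x2456) x13390)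
  (sub (sub (add (add (sub (sub (sub (sub (sub (sub C x6838) x6842) x6818) x6890) x6674) x7322) x9752) x12668) x2462) x13396)
  (add (add (sub (add (add (sub (sub (sub (sub (sub (sub C x6836) x6850) x6820) x6892) x6676) x7324) x9754) x12670) x2464) x276) x13400)
  (sub (sub (add (add (sub (sub (sub (add (add (sub (sub C x6846) x6836) x6806) x6878) x6896) x6680) x7328) x9758) x12674) x2468) x13402)
  (sub (sub (add (add (sub (sub (sub (add (add (sub (sub C x6842) x6852) x6810) x6882) x6900) x6684) x7332) x9762) x12678) x2472) x286)
  (add (add (sub (add (add (sub (sub (sub (sub (sub (sub C x6852) x6838) x6868) x6904) x6688) x7336) x9766) x12682) x2476) x288) x13412)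
  (sub (sub (add (add (sub (sub (sub (sub (sub (sub C x6850) x6846) x6870) x6906) x6690) x7338) x9768) x12684) x2478) x292)
  (sub (sub (add (add (sub (sub (sub (sub (add (add (add (add C x6862) x6866) x6870) x6882) x6822) x6966) x6696) x7344) x9774) x12690) x2484) x298)
  (add (add (sub (add (add (sub (sub (sub (sub (sub (add (add C x6858) x6866) x6868) x6826) x6970) x6700) x7348) x9778) x12694) x2488) x300) x13424)
  (sub (sub (add (add (sub (sub (sub (sub (sub (add (add C x6858) x6862) x6878) x6830) x6974) x6704) x7352) x9782) x12698) x2492) x13426)
  (add (add (sub (add (add (sub (sub (sub (sub (sub (sub C x6870) x6862) x6850) x6976) x6706) x7354) x9784) x12700) x2494) x306) x13430)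
  (sub (sub (add (add (sub (sub (sub (sub (add (add (sub C x6868) x6858) x6882) x6852) x6978) x6708) x7356) x9786) x12702) x2496) x310)
  (sub (sub (add (add (sub (sub (sub (add (add (sub (sub C x6882) x6866) x6806) x6842) x6986) x6716) x7364) x9794) x12710) x2504) x13438)
  (sub (sub (add (add (sub (sub (sub (add (add (add (add (sub C x6878) x6858) x6870) x6810) x6846) x6990) x6720) x7368) x9798) x12714) x2508) x322)
  (sub (sub (add (add (sub (add (add (sub (add (add (sub (sub C x6892) x6896) x6926) x6962) x6836) x6566) x7214) x7376) x9806) x12722) x2516) x13450)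
  (add (add (sub (add (add (sub (add (add (sub (add (add (sub (sub C x6890) x6904) x6928) x6964) x6838) x6568) x7216) x7378) x9808) x12724) x2518) x330) x13454)
  (sub (sub (add (add (sub (add (add (sub (sub (sub (sub C x6900) x6890) x6914) x6842) x6572) x7220) x7382) x9812) x12728) x2522) x13456)
  (sub (sub (add (add (sub (add (add (sub (sub (sub (sub C x6896) x6906) x6918) x6846) x6576) x7224) x7386) x9816) x12732) x2526) x340)
  (add (add (sub (add (add (sub (add (add (sub (sub (sub (sub C x6906) x6892) x6940) x6850) x6580) x7228) x7390) x9820) x12736) x2530) x342) x13466)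
  (sub (sub (add (add (sub (add (add (sub (sub (sub (sub C x6904) x6900) x6942) x6852) x6582) x7230) x7392) x9822) x12738) x2532) x346)
  (sub (sub (add (add (sub (add (add (add (add (sub (add (add (sub C x6918) x6926) x6938) x6896) x6806) x7022) x6590) x7238) x7400) x9830) x12746) x2540) x13474)
  (sub (sub (add (add (sub (add (add (add (add (sub (sub (sub C x6914) x6930) x6900) x6810) x7026) x6594) x7242) x7404) x9834) x12750) x2544) x358)
  (sub (sub (add (add (sub (add (add (add (add (add (add (add (add (sub C x6928) x6914) x6938) x6890) x6962) x6818) x7034) x6602) x7250) x7412) x9842) x12758) x2552) x13486)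
  (add (add (sub (add (add (sub (add (add (add (add (add (add (sub (sub C x6926) x6934) x6892) x6964) x6820) x7036) x6604) x7252) x7414) x9844) x12760) x2554) x366) x13490)
  (sub (sub (add (add (sub (add (add (add (add (sub (sub (add (add C x6934) x6938) x6918) x6948) x6822) x7038) x6606) x7254) x7416) x9846) x12762) x2556) x370)
  (add (add (sub (add (add (sub (add (add (add (add (sub (sub (add (add C x6930) x6938) x6928) x6952) x6826) x7042) x6610) x7258) x7420) x9850) x12766) x2560) x372) x13496)
  (sub (sub (add (add (sub (add (add (add (add (sub (add (add (add (add C x6930) x6934) x6914) x6926) x6956) x6830) x7046) x6614) x7262) x7424) x9854) x12770) x2564) x13498)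
  (add (add (sub (add (add (sub (add (add (sub (sub (add (add (sub C x6942) x6952) x6964) x6904) x6994) x6616) x7264) x7426) x9856) x12772) x2566) x378) x13502)
  (sub (sub (add (add (sub (add (add (sub (sub (sub (sub C x6940) x6948) x6906) x6996) x6618) x7266) x7428) x9858) x12774) x2568) x382)
  (sub (sub (add (add (sub (add (add (sub (sub (sub (add (add C x6952) x6956) x6942) x6930) x7002) x6624) x7272) x7434) x9864) x12780) x2574) x388)
  (add (add (sub (add (add (sub (add (add (sub (sub (add (add (add (add C x6948) x6956) x6940) x6964) x6934) x7006) x6628) x7276) x7438) x9868) x12784) x2578) x390) x13514)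
  (sub (sub (add (add (sub (add (add (sub (sub (sub (add (add C x6948) x6952) x6962) x6938) x7010) x6632) x7280) x7442) x9872) x12788) x2582) x13516)
  (sub (sub (add (add (sub (add (add (sub (add (add (sub (sub C x6964) x6956) x6890) x6926) x7016) x6638) x7286) x7448) x9878) x12794) x2588) x13522)
  (add (add (sub (add (add (sub (add (add (sub (add (add (add (add (sub C x6962) x6940) x6952) x6892) x6928) x7018) x6640) x7288) x7450) x9880) x12796) x2590) x402) x13526)
  (sub (sub (add (add (sub (sub (sub (add (add (add (add (add (add C x6970) x6974) x6978) x6990) x7002) x7038) x6858) x7128) x7452) x9882) x12798) x2592) x406)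
  (add (add (sub (add (add (sub (sub (sub (add (add (sub (add (add C x6966) x6974) x6976) x7006) x7042) x6862) x7132) x7456) x9886) x12802) x2596) x408) x13532)
  (sub (sub (add (add (sub (sub (sub (add (add (sub (add (add C x6966) x6970) x6986) x7010) x7046) x6866) x7136) x7460) x9890) x12806) x2600) x13534)
  (add (add (sub (add (add (sub (sub (sub (sub (sub (sub C x6978) x6970) x6994) x6868) x7138) x7462) x9892) x12808) x2602) x414) x13538)
  (sub (sub (add (add (sub (sub (sub (sub (add (add (sub C x6976) x6966) x6990) x6996) x6870) x7140) x7464) x9894) x12810) x2604) x418)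
  (sub (sub (add (add (sub (sub (sub (sub (sub (sub C x6990) x6974) x7022) x6878) x7148) x7472) x9902) x12818) x2612) x13546)
  (sub (sub (add (add (sub (sub (sub (sub (add (add (sub C x6986) x6966) x6978) x7026) x6882) x7152) x7476) x9906) x12822) x2616) x430)
  (add (add (sub (add (add (sub (sub (sub (sub (add (add (sub C x6996) x7006) x7018) x6976) x6940) x7156) x7480) x9910) x12826) x2620) x432) x13556)
  (sub (sub (add (add (sub (sub (sub (sub (sub (sub C x6994) x7002) x6978) x6942) x7158) x7482) x9912) x12828) x2622) x436)
  (sub (sub (add (add (sub (sub (sub (add (add (sub (add (add C x7006) x7010) x6996) x6966) x7038) x6948) x7164) x7488) x9918) x12834) x2628) x442)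
  (add (add (sub (add (add (sub (sub (sub (add (add (add (add (add (add C x7002) x7010) x6994) x7018) x6970) x7042) x6952) x7168) x7492) x9922) x12838) x2632) x444) x13568)
  (sub (sub (add (add (sub (sub (sub (add (add (sub (add (add C x7002) x7006) x7016) x6974) x7046) x6956) x7172) x7496) x9926) x12842) x2636) x13570)
  (sub (sub (add (add (sub (sub (sub (sub (sub (sub C x7018) x7010) x7034) x6962) x7178) x7502) x9932) x12848) x2642) x13576)
  (add (add (sub (add (add (sub (sub (sub (sub (add (add (sub C x7016) x6994) x7006) x7036) x6964) x7180) x7504) x9934) x12850) x2644) x456) x13580)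
  (sub (sub (add (add (sub (sub (add (add (sub (add (add (sub C x7026) x7034) x7046) x6986) x6806) x6914) x7184) x7508) x9938) x12854) x2648) x13582)
  (sub (sub (add (add (sub (sub (add (add (sub (sub (sub C x7022) x7038) x6990) x6810) x6918) x7188) x7512) x9942) x12858) x2652) x466)
  (sub (sub (add (add (sub (sub (add (add (sub (add (add (sub C x7036) x7022) x7046) x7016) x6818) x6926) x7196) x7520) x9950) x12866) x2660) x13594)
  (add (add (sub (add (add (sub (sub (add (add (sub (sub (sub C x7034) x7042) x7018) x6820) x6928) x7198) x7522) x9952) x12868) x2662) x474) x13598)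
  (sub (sub (add (add (sub (sub (add (add (add (add (sub (add (add C x7042) x7046) x7026) x6966) x7002) x6822) x6930) x7200) x7524) x9954) x12870) x2664) x478)
  (add (add (sub (add (add (sub (sub (add (add (add (add (sub (add (add C x7038) x7046) x7036) x6970) x7006) x6826) x6934) x7204) x7528) x9958) x12874) x2668) x480) x13604)
  (sub (sub (add (add (sub (sub (add (add (add (add (add (add (add (add C x7038) x7042) x7022) x7034) x6974) x7010) x6830) x6938) x7208) x7532) x9962) x12878) x2672) x13606)
  (add (add (sub (add (add (sub (sub (add (add (add (add (add (add (sub C x7050) x7060) x7072) x7084) x7120) x7156) x7264) x6724) x8020) x9964) x12880) x2674) x486) x13610)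
  (sub (sub (add (add (sub (sub (add (add (add (add (sub (sub C x7048) x7056) x7086) x7122) x7158) x7266) x6726) x8022) x9966) x12882) x2676) x490)
  (sub (sub (add (add (sub (sub (add (add (sub (sub (add (add C x7060) x7064) x7050) x7074) x7164) x7272) x6732) x8028) x9972) x12888) x2682) x496)
  (add (add (sub (add (add (sub (sub (add (add (sub (add (add (add (add C x7056) x7064) x7048) x7072) x7078) x7168) x7276) x6736) x8032) x9976) x12892) x2686) x498) x13622)
  (sub (sub (add (add (sub (sub (add (add (sub (sub (add (add C x7056) x7060) x7070) x7082) x7172) x7280) x6740) x8036) x9980) x12896) x2690) x13624)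
  (sub (sub (add (add (sub (sub (add (add (sub (sub (sub C x7072) x7064) x7106) x7178) x7286) x6746) x8042) x9986) x12902) x2696) x13630)
  (add (add (sub (add (add (sub (sub (add (add (sub (add (add (sub C x7070) x7048) x7060) x7108) x7180) x7288) x6748) x8044) x9988) x12904) x2698) x510) x13634)
  (sub (sub (add (add (sub (sub (sub (sub (add (add (add (add C x7078) x7082) x7086) x7098) x7056) x7128) x6750) x8046) x9990) x12906) x2700) x514)
  (add (add (sub (add (add (sub (sub (sub (sub (sub (add (add C x7074) x7082) x7084) x7060) x7132) x6754) x8050) x9994) x12910) x2704) x516) x13640)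
  (sub (sub (add (add (sub (sub (sub (sub (sub (add (add C x7074) x7078) x7094) x7064) x7136) x6758) x8054) x9998) x12914) x2708) x13642)
  (add (add (sub (add (add (sub (sub (sub (add (add (sub (sub C x7086) x7078) x7048) x7120) x7138) x6760) x8056) x10000) x12916) x2710) x522) x13646)
  (sub (sub (add (add (sub (sub (sub (add (add (add (add (sub C x7084) x7074) x7098) x7050) x7122) x7140) x6762) x8058) x10002) x12918) x2712) x526)
  (sub (sub (add (add (sub (sub (sub (sub (sub (sub C x7098) x7082) x7112) x7148) x6770) x8066) x10010) x12926) x2720) x13654)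
  (sub (sub (add (add (sub (sub (sub (sub (add (add (sub C x7094) x7074) x7086) x7116) x7152) x6774) x8070) x10014) x12930) x2724) x538)
  (sub (sub (add (add (sub (sub (sub (sub (sub (sub C x7108) x7112) x7070) x7214) x6782) x8078) x10022) x12938) x2732) x13666)
  (add (add (sub (add (add (sub (sub (sub (sub (sub (sub C x7106) x7120) x7072) x7216) x6784) x8080) x10024) x12940) x2734) x546) x13670)
  (sub (sub (add (add (sub (sub (sub (sub (sub (sub C x7116) x7106) x7094) x7220) x6788) x8084) x10028) x12944) x2738) x13672)
  (sub (sub (add (add (sub (sub (sub (sub (sub (sub C x7112) x7122) x7098) x7224) x6792) x8088) x10032) x12948) x2742) x556)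
  (add (add (sub (add (add (sub (sub (sub (add (add (sub (sub C x7122) x7108) x7048) x7084) x7228) x6796) x8092) x10036) x12952) x2746) x558) x13682)
  (sub (sub (add (add (sub (sub (sub (add (add (sub (sub C x7120) x7116) x7050) x7086) x7230) x6798) x8094) x10038) x12954) x2748) x562)
  (sub (sub (add (add (sub (sub (sub (add (add (add (add (add (add C x7132) x7136) x7140) x7152) x7164) x7200) x7074) x6966) x8100) x10044) x12960) x2754) x568)
  (add (add (sub (add (add (sub (sub (sub (add (add (sub (add (add C x7128) x7136) x7138) x7168) x7204) x7078) x6970) x8104) x10048) x12964) x2758) x570) x13694)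
  (sub (sub (add (add (sub (sub (sub (add (add (sub (add (add C x7128) x7132) x7148) x7172) x7208) x7082) x6974) x8108) x10052) x12968) x2762) x13696)
  (add (add (sub (add (add (sub (sub (sub (sub (sub (sub C x7140) x7132) x7156) x7084) x6976) x8110) x10054) x12970) x2764) x576) x13700)
  (sub (sub (add (add (sub (sub (sub (sub (add (add (sub C x7138) x7128) x7152) x7158) x7086) x6978) x8112) x10056) x12972) x2766) x580)
  (sub (sub (add (add (sub (sub (sub (sub (sub (sub C x7152) x7136) x7184) x7094) x6986) x8120) x10064) x12980) x2774) x13708)
  (sub (sub (add (add (sub (sub (sub (sub (add (add (sub C x7148) x7128) x7140) x7188) x7098) x6990) x8124) x10068) x12984) x2778) x592)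
  (add (add (sub (add (add (sub (sub (add (add (sub (add (add (sub C x7158) x7168) x7180) x7138) x7048) x7264) x6994) x8128) x10072) x12988) x2782) x594) x13718)
  (sub (sub (add (add (sub (sub (add (add (sub (sub (sub C x7156) x7164) x7140) x7050) x7266) x6996) x8130) x10074) x12990) x2784) x598)
  (sub (sub (add (add (sub (sub (add (add (add (add (sub (add (add C x7168) x7172) x7158) x7128) x7200) x7056) x7272) x7002) x8136) x10080) x12996) x2790) x604)
  (add (add (sub (add (add (sub (sub (add (add (add (add (add (add (add (add C x7164) x7172) x7156) x7180) x7132) x7204) x7060) x7276) x7006) x8140) x10084) x13000) x2794) x606) x13730)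
  (sub (sub (add (add (sub (sub (add (add (add (add (sub (add (add C x7164) x7168) x7178) x7136) x7208) x7064) x7280) x7010) x8144) x10088) x13004) x2798) x13732)
  (sub (sub (add (add (sub (sub (add (add (sub (sub (sub C x7180) x7172) x7196) x7070) x7286) x7016) x8150) x10094) x13010) x2804) x13738)
  (add (add (sub (add (add (sub (sub (add (add (sub (add (add (sub C x7178) x7156) x7168) x7198) x7072) x7288) x7018) x8152) x10096) x13012) x2806) x618) x13742)
  (sub (sub (add (add (sub (sub (sub (sub (add (add (sub C x7188) x7196) x7208) x7148) x7238) x7022) x8156) x10100) x13016) x2810) x13744)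
  (sub (sub (add (add (sub (sub (sub (sub (sub (sub C x7184) x7200) x7152) x7242) x7026) x8160) x10104) x13020) x2814) x628)
  (sub (sub (add (add (sub (sub (sub (sub (add (add (sub C x7198) x7184) x7208) x7178) x7250) x7034) x8168) x10112) x13028) x2822) x13756)
  (add (add (sub (add (add (sub (sub (sub (sub (sub (sub C x7196) x7204) x7180) x7252) x7036) x8170) x10114) x13030) x2824) x636) x13760)
  (sub (sub (add (add (sub (sub (sub (add (add (sub (add (add C x7204) x7208) x7188) x7128) x7164) x7254) x7038) x8172) x10116) x13032) x2826) x640)
  (add (add (sub (add (add (sub (sub (sub (add (add (sub (add (add C x7200) x7208) x7198) x7132) x7168) x7258) x7042) x8176) x10120) x13036) x2830) x642) x13766)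
  (sub (sub (add (add (sub (sub (sub (add (add (add (add (add (add C x7200) x7204) x7184) x7196) x7136) x7172) x7262) x7046) x8180) x10124) x13040) x2834) x13768)
  (sub (sub (add (add (sub (add (add (sub (add (add (sub (sub C x7216) x7220) x7250) x7286) x7106) x6566) x6890) x8186) x10130) x13046) x2840) x13774)
  (add (add (sub (add (add (sub (add (add (sub (add (add (sub (sub C x7214) x7228) x7252) x7288) x7108) x6568) x6892) x8188) x10132) x13048) x2842) x654) x13778)
  (sub (sub (add (add (sub (add (add (sub (sub (sub (sub C x7224) x7214) x7238) x7112) x6572) x6896) x8192) x10136) x13052) x2846) x13780)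
  (sub (sub (add (add (sub (add (add (sub (sub (sub (sub C x7220) x7230) x7242) x7116) x6576) x6900) x8196) x10140) x13056) x2850) x664)
  (add (add (sub (add (add (sub (add (add (sub (sub (sub (sub C x7230) x7216) x7264) x7120) x6580) x6904) x8200) x10144) x13060) x2854) x666) x13790)
  (sub (sub (add (add (sub (add (add (sub (sub (sub (sub C x7228) x7224) x7266) x7122) x6582) x6906) x8202) x10146) x13062) x2856) x670)
  (sub (sub (add (add (sub (add (add (sub (sub (add (add (sub C x7242) x7250) x7262) x7220) x7184) x6590) x6914) x8210) x10154) x13070) x2864) x13798)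
  (sub (sub (add (add (sub (add (add (sub (sub (sub (sub C x7238) x7254) x7224) x7188) x6594) x6918) x8214) x10158) x13074) x2868) x682)
  (sub (sub (add (add (sub (add (add (sub (add (add (add (add (sub C x7252) x7238) x7262) x7214) x7286) x7196) x6602) x6926) x8222) x10166) x13082) x2876) x13810)
  (add (add (sub (add (add (sub (add (add (sub (add (add (sub (sub C x7250) x7258) x7216) x7288) x7198) x6604) x6928) x8224) x10168) x13084) x2878) x690) x13814)
  (sub (sub (add (add (sub (add (add (sub (sub (sub (add (add C x7258) x7262) x7242) x7272) x7200) x6606) x6930) x8226) x10170) x13086) x2880) x694)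
  (add (add (sub (add (add (sub (add (add (sub (sub (sub (add (add C x7254) x7262) x7252) x7276) x7204) x6610) x6934) x8230) x10174) x13090) x2884) x696) x13820)
  (sub (sub (add (add (sub (add (add (sub (sub (add (add (add (add C x7254) x7258) x7238) x7250) x7280) x7208) x6614) x6938) x8234) x10178) x13094) x2888) x13822)
  (add (add (sub (add (add (sub (add (add (add (add (sub (add (add (sub C x7266) x7276) x7288) x7228) x7048) x7156) x6616) x6940) x8236) x10180) x13096) x2890) x702) x13826)
  (sub (sub (add (add (sub (add (add (add (add (sub (sub (sub C x7264) x7272) x7230) x7050) x7158) x6618) x6942) x8238) x10182) x13098) x2892) x706)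
  (sub (sub (add (add (sub (add (add (add (add (sub (sub (add (add C x7276) x7280) x7266) x7254) x7056) x7164) x6624) x6948) x8244) x10188) x13104) x2898) x712)
  (add (add (sub (add (add (sub (add (add (add (add (sub (add (add (add (add C x7272) x7280) x7264) x7288) x7258) x7060) x7168) x6628) x6952) x8248) x10192) x13108) x2902) x714) x13838)
  (sub (sub (add (add (sub (add (add (add (add (sub (sub (add (add C x7272) x7276) x7286) x7262) x7064) x7172) x6632) x6956) x8252) x10196) x13112) x2906) x13840)
  (sub (sub (add (add (sub (add (add (add (add (add (add (sub (sub C x7288) x7280) x7214) x7250) x7070) x7178) x6638) x6962) x8258) x10202) x13118) x2912) x13846)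
  (add (add (sub (add (add (sub (add (add (add (add (add (add (add (add (sub C x7286) x7264) x7276) x7216) x7252) x7072) x7180) x6640) x6964) x8260) x10204) x13120) x2914) x726) x13850)
  (sub (sub (sub (sub (add (add (add (add (add (add (add (add (sub C x7296) x7304) x7316) x7328) x7364) x7400) x7508) x7616) x7940) x6806) x8750) x2918) x13852)
  (sub (sub (sub (sub (add (add (add (add (add (add (sub (sub C x7292) x7308) x7332) x7368) x7404) x7512) x7620) x7944) x6810) x8754) x2922) x736)
  (sub (sub (sub (sub (add (add (add (add (sub (add (add (sub C x7306) x7292) x7316) x7322) x7412) x7520) x7628) x7952) x6818) x8762) x2930) x13864)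
  (add (add (sub (sub (sub (add (add (add (add (sub (sub (sub C x7304) x7312) x7324) x7414) x7522) x7630) x7954) x6820) x8764) x2932) x744) x13868)
  (sub (sub (sub (sub (add (add (add (add (sub (sub (add (add C x7312) x7316) x7296) x7344) x7416) x7524) x7632) x7956) x6822) x8766) x2934) x748)
  (add (add (sub (sub (sub (add (add (add (add (sub (sub (add (add C x7308) x7316) x7306) x7348) x7420) x7528) x7636) x7960) x6826) x8770) x2938) x750) x13874)
  (sub (sub (sub (sub (add (add (add (add (sub (add (add (add (add C x7308) x7312) x7292) x7304) x7352) x7424) x7532) x7640) x7964) x6830) x8774) x2942) x13876)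
  (sub (sub (sub (sub (add (add (sub (sub (sub (sub C x7324) x7328) x7304) x7376) x7646) x7970) x6836) x8780) x2948) x13882)
  (add (add (sub (sub (sub (add (add (sub (sub (sub (sub C x7322) x7336) x7306) x7378) x7648) x7972) x6838) x8782) x2950) x762) x13886)
  (sub (sub (sub (sub (add (add (sub (add (add (sub (sub C x7332) x7322) x7292) x7364) x7382) x7652) x7976) x6842) x8786) x2954) x13888)
  (sub (sub (sub (sub (add (add (sub (add (add (sub (sub C x7328) x7338) x7296) x7368) x7386) x7656) x7980) x6846) x8790) x2958) x772)
  (add (add (sub (sub (sub (add (add (sub (sub (sub (sub C x7338) x7324) x7354) x7390) x7660) x7984) x6850) x8794) x2962) x774) x13898)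
  (sub (sub (sub (sub (add (add (sub (sub (sub (sub C x7336) x7332) x7356) x7392) x7662) x7986) x6852) x8796) x2964) x778)
  (sub (sub (sub (sub (add (add (sub (sub (add (add (add (add C x7348) x7352) x7356) x7368) x7308) x7452) x7668) x7992) x6858) x8802) x2970) x784)
  (add (add (sub (sub (sub (add (add (sub (sub (sub (add (add C x7344) x7352) x7354) x7312) x7456) x7672) x7996) x6862) x8806) x2974) x786) x13910)
  (sub (sub (sub (sub (add (add (sub (sub (sub (add (add C x7344) x7348) x7364) x7316) x7460) x7676) x8000) x6866) x8810) x2978) x13912)
  (add (add (sub (sub (sub (add (add (sub (sub (sub (sub C x7356) x7348) x7336) x7462) x7678) x8002) x6868) x8812) x2980) x792) x13916)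
  (sub (sub (sub (sub (add (add (sub (sub (add (add (sub C x7354) x7344) x7368) x7338) x7464) x7680) x8004) x6870) x8814) x2982) x796)
  (sub (sub (sub (sub (add (add (sub (add (add (sub (sub C x7368) x7352) x7292) x7328) x7472) x7688) x8012) x6878) x8822) x2990) x13924)
  (sub (sub (sub (sub (add (add (sub (add (add (add (add (sub C x7364) x7344) x7356) x7296) x7332) x7476) x7692) x8016) x6882) x8826) x2994) x808)
  (sub (sub (sub (sub (sub (sub (add (add (sub (sub C x7378) x7382) x7412) x7448) x7322) x7538) x6890) x8834) x3002) x13936)
  (add (add (sub (sub (sub (sub (sub (add (add (sub (sub C x7376) x7390) x7414) x7450) x7324) x7540) x6892) x8836) x3004) x816) x13940)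
  (sub (sub (sub (sub (sub (sub (sub (sub (sub C x7386) x7376) x7400) x7328) x7544) x6896) x8840) x3008) x13942)
  (sub (sub (sub (sub (sub (sub (sub (sub (sub C x7382) x7392) x7404) x7332) x7548) x6900) x8844) x3012) x826)
  (add (add (sub (sub (sub (sub (sub (sub (sub (sub C x7392) x7378) x7426) x7336) x7552) x6904) x8848) x3016) x828) x13952)
  (sub (sub (sub (sub (sub (sub (sub (sub (sub C x7390) x7386) x7428) x7338) x7554) x6906) x8850) x3018) x832)
  (sub (sub (sub (sub (sub (add (add (sub (add (add (sub C x7404) x7412) x7424) x7382) x7292) x7508) x7562) x6914) x8858) x3026) x13960)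
  (sub (sub (sub (sub (sub (add (add (sub (sub (sub C x7400) x7416) x7386) x7296) x7512) x7566) x6918) x8862) x3030) x844)
  (sub (sub (sub (sub (sub (add (add (add (add (add (add (sub C x7414) x7400) x7424) x7376) x7448) x7304) x7520) x7574) x6926) x8870) x3038) x13972)
  (add (add (sub (sub (sub (sub (add (add (add (add (sub (sub C x7412) x7420) x7378) x7450) x7306) x7522) x7576) x6928) x8872) x3040) x852) x13976)
  (sub (sub (sub (sub (sub (add (add (sub (sub (add (add C x7420) x7424) x7404) x7434) x7308) x7524) x7578) x6930) x8874) x3042) x856)
  (add (add (sub (sub (sub (sub (add (add (sub (sub (add (add C x7416) x7424) x7414) x7438) x7312) x7528) x7582) x6934) x8878) x3046) x858) x13982)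
  (sub (sub (sub (sub (sub (add (add (sub (add (add (add (add C x7416) x7420) x7400) x7412) x7442) x7316) x7532) x7586) x6938) x8882) x3050) x13984)
  (add (add (sub (sub (sub (sub (sub (sub (add (add (sub C x7428) x7438) x7450) x7390) x7480) x7588) x6940) x8884) x3052) x864) x13988)
  (sub (sub (sub (sub (sub (sub (sub (sub (sub C x7426) x7434) x7392) x7482) x7590) x6942) x8886) x3054) x868)
  (sub (sub (sub (sub (sub (sub (sub (sub (add (add C x7438) x7442) x7428) x7416) x7488) x7596) x6948) x8892) x3060) x874)
  (add (add (sub (sub (sub (sub (sub (sub (add (add (add (add C x7434) x7442) x7426) x7450) x7420) x7492) x7600) x6952) x8896) x3064) x876) x14000)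
  (sub (sub (sub (sub (sub (sub (sub (sub (add (add C x7434) x7438) x7448) x7424) x7496) x7604) x6956) x8900) x3068) x14002)
  (sub (sub (sub (sub (sub (sub (add (add (sub (sub C x7450) x7442) x7376) x7412) x7502) x7610) x6962) x8906) x3074) x14008)
  (add (add (sub (sub (sub (sub (sub (add (add (add (add (sub C x7448) x7426) x7438) x7378) x7414) x7504) x7612) x6964) x8908) x3076) x888) x14012)
  (sub (sub (sub (sub (sub (sub (add (add (add (add (add (add C x7456) x7460) x7464) x7476) x7488) x7524) x7344) x7776) x6966) x8910) x3078) x892)
  (add (add (sub (sub (sub (sub (sub (add (add (sub (add (add C x7452) x7460) x7462) x7492) x7528) x7348) x7780) x6970) x8914) x3082) x894) x14018)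
  (sub (sub (sub (sub (sub (sub (add (add (sub (add (add C x7452) x7456) x7472) x7496) x7532) x7352) x7784) x6974) x8918) x3086) x14020)
  (add (add (sub (sub (sub (sub (sub (sub (sub (sub C x7464) x7456) x7480) x7354) x7786) x6976) x8920) x3088) x900) x14024)
  (sub (sub (sub (sub (sub (sub (sub (add (add (sub C x7462) x7452) x7476) x7482) x7356) x7788) x6978) x8922) x3090) x904)
  (sub (sub (sub (sub (sub (sub (sub (sub (sub C x7476) x7460) x7508) x7364) x7796) x6986) x8930) x3098) x14032)
  (sub (sub (sub (sub (sub (sub (sub (add (add (sub C x7472) x7452) x7464) x7512) x7368) x7800) x6990) x8934) x3102) x916)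
  (add (add (sub (sub (sub (sub (sub (sub (add (add (sub C x7482) x7492) x7504) x7462) x7426) x7804) x6994) x8938) x3106) x918) x14042)
  (sub (sub (sub (sub (sub (sub (sub (sub (sub C x7480) x7488) x7464) x7428) x7806) x6996) x8940) x3108) x922)
  (sub (sub (sub (sub (sub (sub (add (add (sub (add (add C x7492) x7496) x7482) x7452) x7524) x7434) x7812) x7002) x8946) x3114) x928)
  (add (add (sub (sub (sub (sub (sub (add (add (add (add (add (add C x7488) x7496) x7480) x7504) x7456) x7528) x7438) x7816) x7006) x8950) x3118) x930) x14054)
  (sub (sub (sub (sub (sub (sub (add (add (sub (add (add C x7488) x7492) x7502) x7460) x7532) x7442) x7820) x7010) x8954) x3122) x14056)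
  (sub (sub (sub (sub (sub (sub (sub (sub (sub C x7504) x7496) x7520) x7448) x7826) x7016) x8960) x3128) x14062)
  (add (add (sub (sub (sub (sub (sub (sub (add (add (sub C x7502) x7480) x7492) x7522) x7450) x7828) x7018) x8962) x3130) x942) x14066)
  (sub (sub (sub (sub (sub (add (add (sub (add (add (sub C x7512) x7520) x7532) x7472) x7292) x7400) x7832) x7022) x8966) x3134) x14068)
  (sub (sub (sub (sub (sub (add (add (sub (sub (sub C x7508) x7524) x7476) x7296) x7404) x7836) x7026) x8970) x3138) x952)
  (sub (sub (sub (sub (sub (add (add (sub (add (add (sub C x7522) x7508) x7532) x7502) x7304) x7412) x7844) x7034) x8978) x3146) x14080)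
  (add (add (sub (sub (sub (sub (add (add (sub (sub (sub C x7520) x7528) x7504) x7306) x7414) x7846) x7036) x8980) x3148) x960) x14084)
  (sub (sub (sub (sub (sub (add (add (add (add (sub (add (add C x7528) x7532) x7512) x7452) x7488) x7308) x7416) x7848) x7038) x8982) x3150) x964)
  (add (add (sub (sub (sub (sub (add (add (add (add (sub (add (add C x7524) x7532) x7522) x7456) x7492) x7312) x7420) x7852) x7042) x8986) x3154) x966) x14090)
  (sub (sub (sub (sub (sub (add (add (add (add (add (add (add (add C x7524) x7528) x7508) x7520) x7460) x7496) x7316) x7424) x7856) x7046) x8990) x3158) x14092)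
  (sub (sub (sub (add (add (sub (add (add (add (add (sub (sub C x7540) x7544) x7574) x7610) x7646) x7754) x7376) x6566) x8510) x8996) x3164) x14098)
  (add (add (sub (sub (add (add (sub (add (add (add (add (sub (sub C x7538) x7552) x7576) x7612) x7648) x7756) x7378) x6568) x8512) x8998) x3166) x978) x14102)
  (sub (sub (sub (add (add (sub (add (add (sub (sub (sub C x7548) x7538) x7562) x7652) x7760) x7382) x6572) x8516) x9002) x3170) x14104)
  (sub (sub (sub (add (add (sub (add (add (sub (sub (sub C x7544) x7554) x7566) x7656) x7764) x7386) x6576) x8520) x9006) x3174) x988)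
  (add (add (sub (sub (add (add (sub (add (add (sub (sub (sub C x7554) x7540) x7588) x7660) x7768) x7390) x6580) x8524) x9010) x3178) x990) x14114)
  (sub (sub (sub (add (add (sub (add (add (sub (sub (sub C x7552) x7548) x7590) x7662) x7770) x7392) x6582) x8526) x9012) x3180) x994)
  (sub (sub (sub (add (add (sub (sub (sub (add (add (sub C x7566) x7574) x7586) x7544) x7616) x7400) x6590) x8534) x9020) x3188) x14122)
  (sub (sub (sub (add (add (sub (sub (sub (sub (sub C x7562) x7578) x7548) x7620) x7404) x6594) x8538) x9024) x3192) x1006)
  (sub (sub (sub (add (add (sub (sub (add (add (add (add (sub C x7576) x7562) x7586) x7538) x7610) x7628) x7412) x6602) x8546) x9032) x3200) x14134)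
  (add (add (sub (sub (add (add (sub (sub (add (add (sub (sub C x7574) x7582) x7540) x7612) x7630) x7414) x6604) x8548) x9034) x3202) x1014) x14138)
  (sub (sub (sub (add (add (sub (sub (sub (sub (add (add C x7582) x7586) x7566) x7596) x7632) x7416) x6606) x8550) x9036) x3204) x1018)
  (add (add (sub (sub (add (add (sub (sub (sub (sub (add (add C x7578) x7586) x7576) x7600) x7636) x7420) x6610) x8554) x9040) x3208) x1020) x14144)
  (sub (sub (sub (add (add (sub (sub (sub (add (add (add (add C x7578) x7582) x7562) x7574) x7604) x7640) x7424) x6614) x8558) x9044) x3212) x14146)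
  (add (add (sub (sub (add (add (sub (sub (sub (add (add (sub C x7590) x7600) x7612) x7552) x7696) x7426) x6616) x8560) x9046) x3214) x1026) x14150)
  (sub (sub (sub (add (add (sub (sub (sub (sub (sub C x7588) x7596) x7554) x7698) x7428) x6618) x8562) x9048) x3216) x1030)
  (sub (sub (sub (add (add (sub (sub (sub (sub (add (add C x7600) x7604) x7590) x7578) x7704) x7434) x6624) x8568) x9054) x3222) x1036)
  (add (add (sub (sub (add (add (sub (sub (sub (add (add (add (add C x7596) x7604) x7588) x7612) x7582) x7708) x7438) x6628) x8572) x9058) x3226) x1038) x14162)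
  (sub (sub (sub (add (add (sub (sub (sub (sub (add (add C x7596) x7600) x7610) x7586) x7712) x7442) x6632) x8576) x9062) x3230) x14164)
  (sub (sub (sub (add (add (sub (sub (add (add (sub (sub C x7612) x7604) x7538) x7574) x7718) x7448) x6638) x8582) x9068) x3236) x14170)
  (add (add (sub (sub (add (add (sub (sub (add (add (add (add (sub C x7610) x7588) x7600) x7540) x7576) x7720) x7450) x6640) x8584) x9070) x3238) x1050) x14174)
  (sub (sub (sub (add (add (add (add (sub (add (add (add (add (sub C x7620) x7628) x7640) x7652) x7688) x7562) x7292) x7940) x6644) x8588) x9074) x3242) x14176)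
  (sub (sub (sub (add (add (add (add (sub (add (add (sub (sub C x7616) x7632) x7656) x7692) x7566) x7296) x7944) x6648) x8592) x9078) x3246) x1060)
  (sub (sub (sub (add (add (add (add (sub (sub (add (add (sub C x7630) x7616) x7640) x7646) x7574) x7304) x7952) x6656) x8600) x9086) x3254) x14188)
  (add (add (sub (sub (add (add (add (add (sub (sub (sub (sub C x7628) x7636) x7648) x7576) x7306) x7954) x6658) x8602) x9088) x3256) x1068) x14192)
  (sub (sub (sub (add (add (add (add (sub (sub (sub (add (add C x7636) x7640) x7620) x7668) x7578) x7308) x7956) x6660) x8604) x9090) x3258) x1072)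
  (add (add (sub (sub (add (add (add (add (sub (sub (sub (add (add C x7632) x7640) x7630) x7672) x7582) x7312) x7960) x6664) x8608) x9094) x3262) x1074) x14198)
  (sub (sub (sub (add (add (add (add (sub (sub (add (add (add (add C x7632) x7636) x7616) x7628) x7676) x7586) x7316) x7964) x6668) x8612) x9098) x3266) x14200)
  (sub (sub (sub (add (add (add (add (add (add (sub (sub (sub C x7648) x7652) x7628) x7538) x7754) x7322) x7970) x6674) x8618) x9104) x3272) x14206)
  (add (add (sub (sub (add (add (add (add (add (add (sub (sub (sub C x7646) x7660) x7630) x7540) x7756) x7324) x7972) x6676) x8620) x9106) x3274) x1086) x14210)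
  (sub (sub (sub (add (add (add (add (add (add (add (add (sub (sub C x7656) x7646) x7616) x7688) x7544) x7760) x7328) x7976) x6680) x8624) x9110) x3278) x14212)
  (sub (sub (sub (add (add (add (add (add (add (add (add (sub (sub C x7652) x7662) x7620) x7692) x7548) x7764) x7332) x7980) x6684) x8628) x9114) x3282) x1096)
  (add (add (sub (sub (add (add (add (add (add (add (sub (sub (sub C x7662) x7648) x7678) x7552) x7768) x7336) x7984) x6688) x8632) x9118) x3286) x1098) x14222)
  (sub (sub (sub (add (add (add (add (add (add (sub (sub (sub C x7660) x7656) x7680) x7554) x7770) x7338) x7986) x6690) x8634) x9120) x3288) x1102)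
  (sub (sub (sub (add (add (add (add (sub (sub (add (add (add (add C x7672) x7676) x7680) x7692) x7632) x7722) x7344) x7992) x6696) x8640) x9126) x3294) x1108)
  (add (add (sub (sub (add (add (add (add (sub (sub (sub (add (add C x7668) x7676) x7678) x7636) x7726) x7348) x7996) x6700) x8644) x9130) x3298) x1110) x14234)
  (sub (sub (sub (add (add (add (add (sub (sub (sub (add (add C x7668) x7672) x7688) x7640) x7730) x7352) x8000) x6704) x8648) x9134) x3302) x14236)
  (add (add (sub (sub (add (add (add (add (sub (sub (sub (sub C x7680) x7672) x7660) x7732) x7354) x8002) x6706) x8650) x9136) x3304) x1116) x14240)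
  (sub (sub (sub (add (add (add (add (sub (sub (add (add (sub C x7678) x7668) x7692) x7662) x7734) x7356) x8004) x6708) x8652) x9138) x3306) x1120)
  (sub (sub (sub (add (add (add (add (sub (add (add (sub (sub C x7692) x7676) x7616) x7652) x7742) x7364) x8012) x6716) x8660) x9146) x3314) x14248)
  (sub (sub (sub (add (add (add (add (sub (add (add (add (add (sub C x7688) x7668) x7680) x7620) x7656) x7746) x7368) x8016) x6720) x8664) x9150) x3318) x1132)
  (add (add (sub (sub (add (add (sub (sub (add (add (add (add (sub C x7698) x7708) x7720) x7732) x7768) x7588) x7858) x6724) x8668) x9154) x3322) x1134) x14258)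
  (sub (sub (sub (add (add (sub (sub (add (add (sub (sub C x7696) x7704) x7734) x7770) x7590) x7860) x6726) x8670) x9156) x3324) x1138)
  (sub (sub (sub (add (add (sub (sub (sub (sub (add (add C x7708) x7712) x7698) x7722) x7596) x7866) x6732) x8676) x9162) x3330) x1144)
  (add (add (sub (sub (add (add (sub (sub (sub (add (add (add (add C x7704) x7712) x7696) x7720) x7726) x7600) x7870) x6736) x8680) x9166) x3334) x1146) x14270)
  (sub (sub (sub (add (add (sub (sub (sub (sub (add (add C x7704) x7708) x7718) x7730) x7604) x7874) x6740) x8684) x9170) x3338) x14272)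
  (sub (sub (sub (add (add (sub (sub (sub (sub (sub C x7720) x7712) x7754) x7610) x7880) x6746) x8690) x9176) x3344) x14278)
  (add (add (sub (sub (add (add (sub (sub (sub (add (add (sub C x7718) x7696) x7708) x7756) x7612) x7882) x6748) x8692) x9178) x3346) x1158) x14282)
  (sub (sub (sub (add (add (sub (sub (sub (add (add (add (add C x7726) x7730) x7734) x7746) x7704) x7668) x7884) x6750) x8694) x9180) x3348) x1162)
  (add (add (sub (sub (add (add (sub (sub (sub (sub (add (add C x7722) x7730) x7732) x7708) x7672) x7888) x6754) x8698) x9184) x3352) x1164) x14288)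
  (sub (sub (sub (add (add (sub (sub (sub (sub (add (add C x7722) x7726) x7742) x7712) x7676) x7892) x6758) x8702) x9188) x3356) x14290)
  (add (add (sub (sub (add (add (sub (sub (add (add (sub (sub C x7734) x7726) x7696) x7768) x7678) x7894) x6760) x8704) x9190) x3358) x1170) x14294)
  (sub (sub (sub (add (add (sub (sub (add (add (add (add (sub C x7732) x7722) x7746) x7698) x7770) x7680) x7896) x6762) x8706) x9192) x3360) x1174)
  (sub (sub (sub (add (add (sub (sub (sub (sub (sub C x7746) x7730) x7760) x7688) x7904) x6770) x8714) x9200) x3368) x14302)
  (sub (sub (sub (add (add (sub (sub (sub (add (add (sub C x7742) x7722) x7734) x7764) x7692) x7908) x6774) x8718) x9204) x3372) x1186)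
  (sub (sub (sub (add (add (sub (add (add (sub (sub (sub C x7756) x7760) x7718) x7538) x7646) x7916) x6782) x8726) x9212) x3380) x14314)
  (add (add (sub (sub (add (add (sub (add (add (sub (sub (sub C x7754) x7768) x7720) x7540) x7648) x7918) x6784) x8728) x9214) x3382) x1194) x14318)
  (sub (sub (sub (add (add (sub (add (add (sub (sub (sub C x7764) x7754) x7742) x7544) x7652) x7922) x6788) x8732) x9218) x3386) x14320)
  (sub (sub (sub (add (add (sub (add (add (sub (sub (sub C x7760) x7770) x7746) x7548) x7656) x7926) x6792) x8736) x9222) x3390) x1204)
  (add (add (sub (sub (add (add (sub (add (add (add (add (sub (sub C x7770) x7756) x7696) x7732) x7552) x7660) x7930) x6796) x8740) x9226) x3394) x1206) x14330)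
  (sub (sub (sub (add (add (sub (add (add (add (add (sub (sub C x7768) x7764) x7698) x7734) x7554) x7662) x7932) x6798) x8742) x9228) x3396) x1210)
  (sub (sub (sub (sub (sub (add (add (add (add (add (add (add (add C x7780) x7784) x7788) x7800) x7812) x7848) x7884) x7992) x7452) x8262) x9234) x3402) x1216)
  (add (add (sub (sub (sub (sub (add (add (add (add (sub (add (add C x7776) x7784) x7786) x7816) x7852) x7888) x7996) x7456) x8266) x9238) x3406) x1218) x14342)
  (sub (sub (sub (sub (sub (add (add (add (add (sub (add (add C x7776) x7780) x7796) x7820) x7856) x7892) x8000) x7460) x8270) x9242) x3410) x14344)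
  (add (add (sub (sub (sub (sub (add (add (sub (sub (sub C x7788) x7780) x7804) x7894) x8002) x7462) x8272) x9244) x3412) x1224) x14348)
  (sub (sub (sub (sub (sub (add (add (sub (add (add (sub C x7786) x7776) x7800) x7806) x7896) x8004) x7464) x8274) x9246) x3414) x1228)
  (sub (sub (sub (sub (sub (add (add (sub (sub (sub C x7800) x7784) x7832) x7904) x8012) x7472) x8282) x9254) x3422) x14356)
  (sub (sub (sub (sub (sub (add (add (sub (add (add (sub C x7796) x7776) x7788) x7836) x7908) x8016) x7476) x8286) x9258) x3426) x1240)
  (add (add (sub (sub (sub (sub (sub (sub (add (add (sub C x7806) x7816) x7828) x7786) x7858) x7480) x8290) x9262) x3430) x1242) x14366)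
  (sub (sub (sub (sub (sub (sub (sub (sub (sub C x7804) x7812) x7788) x7860) x7482) x8292) x9264) x3432) x1246)
  (sub (sub (sub (sub (sub (sub (add (add (sub (add (add C x7816) x7820) x7806) x7776) x7848) x7866) x7488) x8298) x9270) x3438) x1252)
  (add (add (sub (sub (sub (sub (sub (add (add (add (add (add (add C x7812) x7820) x7804) x7828) x7780) x7852) x7870) x7492) x8302) x9274) x3442) x1254) x14378)
  (sub (sub (sub (sub (sub (sub (add (add (sub (add (add C x7812) x7816) x7826) x7784) x7856) x7874) x7496) x8306) x9278) x3446) x14380)
  (sub (sub (sub (sub (sub (sub (sub (sub (sub C x7828) x7820) x7844) x7880) x7502) x8312) x9284) x3452) x14386)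
  (add (add (sub (sub (sub (sub (sub (sub (add (add (sub C x7826) x7804) x7816) x7846) x7882) x7504) x8314) x9286) x3454) x1266) x14390)
  (sub (sub (sub (sub (sub (sub (sub (add (add (sub C x7836) x7844) x7856) x7796) x7940) x7508) x8318) x9290) x3458) x14392)
  (sub (sub (sub (sub (sub (sub (sub (sub (sub C x7832) x7848) x7800) x7944) x7512) x8322) x9294) x3462) x1276)
  (sub (sub (sub (sub (sub (sub (sub (add (add (sub C x7846) x7832) x7856) x7826) x7952) x7520) x8330) x9302) x3470) x14404)
  (add (add (sub (sub (sub (sub (sub (sub (sub (sub C x7844) x7852) x7828) x7954) x7522) x8332) x9304) x3472) x1284) x14408)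
  (sub (sub (sub (sub (sub (sub (add (add (sub (add (add C x7852) x7856) x7836) x7776) x7812) x7956) x7524) x8334) x9306) x3474) x1288)
  (add (add (sub (sub (sub (sub (sub (add (add (sub (add (add C x7848) x7856) x7846) x7780) x7816) x7960) x7528) x8338) x9310) x3478) x1290) x14414)
  (sub (sub (sub (sub (sub (sub (add (add (add (add (add (add C x7848) x7852) x7832) x7844) x7784) x7820) x7964) x7532) x8342) x9314) x3482) x14416)
  (add (add (sub (sub (sub (sub (sub (add (add (add (add (sub C x7860) x7870) x7882) x7894) x7930) x7804) x7696) x8344) x9316) x3484) x1296) x14420)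
  (sub (sub (sub (sub (sub (sub (add (add (sub (sub C x7858) x7866) x7896) x7932) x7806) x7698) x8346) x9318) x3486) x1300)
  (sub (sub (sub (sub (sub (sub (sub (sub (add (add C x7870) x7874) x7860) x7884) x7812) x7704) x8352) x9324) x3492) x1306)
  (add (add (sub (sub (sub (sub (sub (sub (add (add (add (add C x7866) x7874) x7858) x7882) x7888) x7816) x7708) x8356) x9328) x3496) x1308) x14432)
  (sub (sub (sub (sub (sub (sub (sub (sub (add (add C x7866) x7870) x7880) x7892) x7820) x7712) x8360) x9332) x3500) x14434)
  (sub (sub (sub (sub (sub (sub (sub (sub (sub C x7882) x7874) x7916) x7826) x7718) x8366) x9338) x3506) x14440)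
  (add (add (sub (sub (sub (sub (sub (sub (add (add (sub C x7880) x7858) x7870) x7918) x7828) x7720) x8368) x9340) x3508) x1320) x14444)
  (sub (sub (sub (sub (sub (add (add (sub (add (add (add (add C x7888) x7892) x7896) x7908) x7866) x7776) x7992) x7722) x8370) x9342) x3510) x1324)
  (add (add (sub (sub (sub (sub (add (add (sub (sub (add (add C x7884) x7892) x7894) x7870) x7780) x7996) x7726) x8374) x9346) x3514) x1326) x14450)
  (sub (sub (sub (sub (sub (add (add (sub (sub (add (add C x7884) x7888) x7904) x7874) x7784) x8000) x7730) x8378) x9350) x3518) x14452)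
  (add (add (sub (sub (sub (sub (add (add (add (add (sub (sub C x7896) x7888) x7858) x7930) x7786) x8002) x7732) x8380) x9352) x3520) x1332) x14456)
  (sub (sub (sub (sub (sub (add (add (add (add (add (add (sub C x7894) x7884) x7908) x7860) x7932) x7788) x8004) x7734) x8382) x9354) x3522) x1336)
  (sub (sub (sub (sub (sub (add (add (sub (sub (sub C x7908) x7892) x7922) x7796) x8012) x7742) x8390) x9362) x3530) x14464)
  (sub (sub (sub (sub (sub (add (add (sub (add (add (sub C x7904) x7884) x7896) x7926) x7800) x8016) x7746) x8394) x9366) x3534) x1348)
  (sub (sub (sub (sub (sub (sub (sub (sub (sub C x7918) x7922) x7880) x7970) x7754) x8402) x9374) x3542) x14476)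
  (add (add (sub (sub (sub (sub (sub (sub (sub (sub C x7916) x7930) x7882) x7972) x7756) x8404) x9376) x3544) x1356) x14480)
  (sub (sub (sub (sub (sub (sub (sub (sub (sub C x7926) x7916) x7904) x7976) x7760) x8408) x9380) x3548) x14482)
  (sub (sub (sub (sub (sub (sub (sub (sub (sub C x7922) x7932) x7908) x7980) x7764) x8412) x9384) x3552) x1366)
  (add (add (sub (sub (sub (sub (sub (add (add (sub (sub C x7932) x7918) x7858) x7894) x7984) x7768) x8416) x9388) x3556) x1368) x14492)
  (sub (sub (sub (sub (sub (sub (add (add (sub (sub C x7930) x7926) x7860) x7896) x7986) x7770) x8418) x9390) x3558) x1372)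
  (sub (sub (sub (sub (add (add (sub (add (add (add (add (sub C x7944) x7952) x7964) x7976) x8012) x7832) x7292) x7616) x8426) x9398) x3566) x14500)
  (sub (sub (sub (sub (add (add (sub (add (add (sub (sub C x7940) x7956) x7980) x8016) x7836) x7296) x7620) x8430) x9402) x3570) x1384)
  (sub (sub (sub (sub (add (add (sub (sub (add (add (sub C x7954) x7940) x7964) x7970) x7844) x7304) x7628) x8438) x9410) x3578) x14512)
  (add (add (sub (sub (sub (add (add (sub (sub (sub (sub C x7952) x7960) x7972) x7846) x7306) x7630) x8440) x9412) x3580) x1392) x14516)
  (sub (sub (sub (sub (add (add (sub (sub (sub (add (add C x7960) x7964) x7944) x7992) x7848) x7308) x7632) x8442) x9414) x3582) x1396)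
  (add (add (sub (sub (sub (add (add (sub (sub (sub (add (add C x7956) x7964) x7954) x7996) x7852) x7312) x7636) x8446) x9418) x3586) x1398) x14522)
  (sub (sub (sub (sub (add (add (sub (sub (add (add (add (add C x7956) x7960) x7940) x7952) x8000) x7856) x7316) x7640) x8450) x9422) x3590) x14524)
  (sub (sub (sub (sub (add (add (sub (sub (sub (sub C x7972) x7976) x7952) x7916) x7322) x7646) x8456) x9428) x3596) x14530)
  (add (add (sub (sub (sub (add (add (sub (sub (sub (sub C x7970) x7984) x7954) x7918) x7324) x7648) x8458) x9430) x3598) x1410) x14534)
  (sub (sub (sub (sub (add (add (sub (add (add (sub (sub C x7980) x7970) x7940) x8012) x7922) x7328) x7652) x8462) x9434) x3602) x14536)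
  (sub (sub (sub (sub (add (add (sub (add (add (sub (sub C x7976) x7986) x7944) x8016) x7926) x7332) x7656) x8466) x9438) x3606) x1420)
  (add (add (sub (sub (sub (add (add (sub (sub (sub (sub C x7986) x7972) x8002) x7930) x7336) x7660) x8470) x9442) x3610) x1422) x14546)
  (sub (sub (sub (sub (add (add (sub (sub (sub (sub C x7984) x7980) x8004) x7932) x7338) x7662) x8472) x9444) x3612) x1426)
  (sub (sub (sub (sub (add (add (add (add (sub (add (add (add (add C x7996) x8000) x8004) x8016) x7956) x7776) x7884) x7344) x7668) x8478) x9450) x3618) x1432)
  (add (add (sub (sub (sub (add (add (add (add (sub (sub (add (add C x7992) x8000) x8002) x7960) x7780) x7888) x7348) x7672) x8482) x9454) x3622) x1434) x14558)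
  (sub (sub (sub (sub (add (add (add (add (sub (sub (add (add C x7992) x7996) x8012) x7964) x7784) x7892) x7352) x7676) x8486) x9458) x3626) x14560)
  (add (add (sub (sub (sub (add (add (add (add (sub (sub (sub C x8004) x7996) x7984) x7786) x7894) x7354) x7678) x8488) x9460) x3628) x1440) x14564)
  (sub (sub (sub (sub (add (add (add (add (sub (add (add (sub C x8002) x7992) x8016) x7986) x7788) x7896) x7356) x7680) x8490) x9462) x3630) x1444)
  (sub (sub (sub (sub (add (add (add (add (add (add (sub (sub C x8016) x8000) x7940) x7976) x7796) x7904) x7364) x7688) x8498) x9470) x3638) x14572)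
  (sub (sub (sub (sub (add (add (add (add (add (add (add (add (sub C x8012) x7992) x8004) x7944) x7980) x7800) x7908) x7368) x7692) x8502) x9474) x3642) x1456)
  (add (add (sub (sub (sub (add (add (add (add (add (add (add (add (sub C x8022) x8032) x8044) x8056) x8092) x8128) x8236) x8344) x8668) x7048) x10936) x3646) x1458) x14582)
  (sub (sub (sub (sub (add (add (add (add (add (add (sub (sub C x8020) x8028) x8058) x8094) x8130) x8238) x8346) x8670) x7050) x10938) x3648) x1462)
  (sub (sub (sub (sub (add (add (add (add (sub (sub (add (add C x8032) x8036) x8022) x8046) x8136) x8244) x8352) x8676) x7056) x10944) x3654) x1468)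
  (add (add (sub (sub (sub (add (add (add (add (sub (add (add (add (add C x8028) x8036) x8020) x8044) x8050) x8140) x8248) x8356) x8680) x7060) x10948) x3658) x1470) x14594)
  (sub (sub (sub (sub (add (add (add (add (sub (sub (add (add C x8028) x8032) x8042) x8054) x8144) x8252) x8360) x8684) x7064) x10952) x3662) x14596)
  (sub (sub (sub (sub (add (add (add (add (sub (sub (sub C x8044) x8036) x8078) x8150) x8258) x8366) x8690) x7070) x10958) x3668) x14602)
  (add (add (sub (sub (sub (add (add (add (add (sub (add (add (sub C x8042) x8020) x8032) x8080) x8152) x8260) x8368) x8692) x7072) x10960) x3670) x1482) x14606)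
  (sub (sub (sub (sub (add (add (sub (sub (add (add (add (add C x8050) x8054) x8058) x8070) x8028) x8100) x8370) x8694) x7074) x10962) x3672) x1486)
  (add (add (sub (sub (sub (add (add (sub (sub (sub (add (add C x8046) x8054) x8056) x8032) x8104) x8374) x8698) x7078) x10966) x3676) x1488) x14612)
  (sub (sub (sub (sub (add (add (sub (sub (sub (add (add C x8046) x8050) x8066) x8036) x8108) x8378) x8702) x7082) x10970) x3680) x14614)
  (add (add (sub (sub (sub (add (add (sub (add (add (sub (sub C x8058) x8050) x8020) x8092) x8110) x8380) x8704) x7084) x10972) x3682) x1494) x14618)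
  (sub (sub (sub (sub (add (add (sub (add (add (add (add (sub C x8056) x8046) x8070) x8022) x8094) x8112) x8382) x8706) x7086) x10974) x3684) x1498)
  (sub (sub (sub (sub (add (add (sub (sub (sub (sub C x8070) x8054) x8084) x8120) x8390) x8714) x7094) x10982) x3692) x14626)
  (sub (sub (sub (sub (add (add (sub (sub (add (add (sub C x8066) x8046) x8058) x8088) x8124) x8394) x8718) x7098) x10986) x3696) x1510)
  (sub (sub (sub (sub (add (add (sub (sub (sub (sub C x8080) x8084) x8042) x8186) x8402) x8726) x7106) x10994) x3704) x14638)
  (add (add (sub (sub (sub (add (add (sub (sub (sub (sub C x8078) x8092) x8044) x8188) x8404) x8728) x7108) x10996) x3706) x1518) x14642)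
  (sub (sub (sub (sub (add (add (sub (sub (sub (sub C x8088) x8078) x8066) x8192) x8408) x8732) x7112) x11000) x3710) x14644)
  (sub (sub (sub (sub (add (add (sub (sub (sub (sub C x8084) x8094) x8070) x8196) x8412) x8736) x7116) x11004) x3714) x1528)
  (add (add (sub (sub (sub (add (add (sub (add (add (sub (sub C x8094) x8080) x8020) x8056) x8200) x8416) x8740) x7120) x11008) x3718) x1530) x14654)
  (sub (sub (sub (sub (add (add (sub (add (add (sub (sub C x8092) x8088) x8022) x8058) x8202) x8418) x8742) x7122) x11010) x3720) x1534)
  (sub (sub (sub (sub (sub (sub (add (add (add (add (add (add C x8104) x8108) x8112) x8124) x8136) x8172) x8046) x8262) x7128) x11016) x3726) x1540)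
  (add (add (sub (sub (sub (sub (sub (add (add (sub (add (add C x8100) x8108) x8110) x8140) x8176) x8050) x8266) x7132) x11020) x3730) x1542) x14666)
  (sub (sub (sub (sub (sub (sub (add (add (sub (add (add C x8100) x8104) x8120) x8144) x8180) x8054) x8270) x7136) x11024) x3734) x14668)
  (add (add (sub (sub (sub (sub (sub (sub (sub (sub C x8112) x8104) x8128) x8056) x8272) x7138) x11026) x3736) x1548) x14672)
  (sub (sub (sub (sub (sub (sub (sub (add (add (sub C x8110) x8100) x8124) x8130) x8058) x8274) x7140) x11028) x3738) x1552)
  (sub (sub (sub (sub (sub (sub (sub (sub (sub C x8124) x8108) x8156) x8066) x8282) x7148) x11036) x3746) x14680)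
  (sub (sub (sub (sub (sub (sub (sub (add (add (sub C x8120) x8100) x8112) x8160) x8070) x8286) x7152) x11040) x3750) x1564)
  (add (add (sub (sub (sub (sub (add (add (sub (add (add (sub C x8130) x8140) x8152) x8110) x8020) x8236) x8290) x7156) x11044) x3754) x1566) x14690)
  (sub (sub (sub (sub (sub (add (add (sub (sub (sub C x8128) x8136) x8112) x8022) x8238) x8292) x7158) x11046) x3756) x1570)
  (sub (sub (sub (sub (sub (add (add (add (add (sub (add (add C x8140) x8144) x8130) x8100) x8172) x8028) x8244) x8298) x7164) x11052) x3762) x1576)
  (add (add (sub (sub (sub (sub (add (add (add (add (add (add (add (add C x8136) x8144) x8128) x8152) x8104) x8176) x8032) x8248) x8302) x7168) x11056) x3766) x1578) x14702)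
  (sub (sub (sub (sub (sub (add (add (add (add (sub (add (add C x8136) x8140) x8150) x8108) x8180) x8036) x8252) x8306) x7172) x11060) x3770) x14704)
  (sub (sub (sub (sub (sub (add (add (sub (sub (sub C x8152) x8144) x8168) x8042) x8258) x8312) x7178) x11066) x3776) x14710)
  (add (add (sub (sub (sub (sub (add (add (sub (add (add (sub C x8150) x8128) x8140) x8170) x8044) x8260) x8314) x7180) x11068) x3778) x1590) x14714)
  (sub (sub (sub (sub (sub (sub (sub (add (add (sub C x8160) x8168) x8180) x8120) x8210) x8318) x7184) x11072) x3782) x14716)
  (sub (sub (sub (sub (sub (sub (sub (sub (sub C x8156) x8172) x8124) x8214) x8322) x7188) x11076) x3786) x1600)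
  (sub (sub (sub (sub (sub (sub (sub (add (add (sub C x8170) x8156) x8180) x8150) x8222) x8330) x7196) x11084) x3794) x14728)
  (add (add (sub (sub (sub (sub (sub (sub (sub (sub C x8168) x8176) x8152) x8224) x8332) x7198) x11086) x3796) x1608) x14732)
  (sub (sub (sub (sub (sub (sub (add (add (sub (add (add C x8176) x8180) x8160) x8100) x8136) x8226) x8334) x7200) x11088) x3798) x1612)
  (add (add (sub (sub (sub (sub (sub (add (add (sub (add (add C x8172) x8180) x8170) x8104) x8140) x8230) x8338) x7204) x11092) x3802) x1614) x14738)
  (sub (sub (sub (sub (sub (sub (add (add (add (add (add (add C x8172) x8176) x8156) x8168) x8108) x8144) x8234) x8342) x7208) x11096) x3806) x14740)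
  (sub (sub (sub (sub (sub (sub (add (add (sub (sub C x8188) x8192) x8222) x8258) x8078) x8510) x7214) x11102) x3812) x14746)
  (add (add (sub (sub (sub (sub (sub (add (add (sub (sub C x8186) x8200) x8224) x8260) x8080) x8512) x7216) x11104) x3814) x1626) x14750)
  (sub (sub (sub (sub (sub (sub (sub (sub (sub C x8196) x8186) x8210) x8084) x8516) x7220) x11108) x3818) x14752)
  (sub (sub (sub (sub (sub (sub (sub (sub (sub C x8192) x8202) x8214) x8088) x8520) x7224) x11112) x3822) x1636)
  (add (add (sub (sub (sub (sub (sub (sub (sub (sub C x8202) x8188) x8236) x8092) x8524) x7228) x11116) x3826) x1638) x14762)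
  (sub (sub (sub (sub (sub (sub (sub (sub (sub C x8200) x8196) x8238) x8094) x8526) x7230) x11118) x3828) x1642)
  (sub (sub (sub (sub (sub (sub (sub (add (add (sub C x8214) x8222) x8234) x8192) x8156) x8534) x7238) x11126) x3836) x14770)
  (sub (sub (sub (sub (sub (sub (sub (sub (sub C x8210) x8226) x8196) x8160) x8538) x7242) x11130) x3840) x1654)
  (sub (sub (sub (sub (sub (sub (add (add (add (add (sub C x8224) x8210) x8234) x8186) x8258) x8168) x8546) x7250) x11138) x3848) x14782)
  (add (add (sub (sub (sub (sub (sub (add (add (sub (sub C x8222) x8230) x8188) x8260) x8170) x8548) x7252) x11140) x3850) x1662) x14786)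
  (sub (sub (sub (sub (sub (sub (sub (sub (add (add C x8230) x8234) x8214) x8244) x8172) x8550) x7254) x11142) x3852) x1666)
  (add (add (sub (sub (sub (sub (sub (sub (sub (add (add C x8226) x8234) x8224) x8248) x8176) x8554) x7258) x11146) x3856) x1668) x14792)
  (sub (sub (sub (sub (sub (sub (sub (add (add (add (add C x8226) x8230) x8210) x8222) x8252) x8180) x8558) x7262) x11150) x3860) x14794)
  (add (add (sub (sub (sub (sub (add (add (sub (add (add (sub C x8238) x8248) x8260) x8200) x8020) x8128) x8560) x7264) x11152) x3862) x1674) x14798)
  (sub (sub (sub (sub (sub (add (add (sub (sub (sub C x8236) x8244) x8202) x8022) x8130) x8562) x7266) x11154) x3864) x1678)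
  (sub (sub (sub (sub (sub (add (add (sub (sub (add (add C x8248) x8252) x8238) x8226) x8028) x8136) x8568) x7272) x11160) x3870) x1684)
  (add (add (sub (sub (sub (sub (add (add (sub (add (add (add (add C x8244) x8252) x8236) x8260) x8230) x8032) x8140) x8572) x7276) x11164) x3874) x1686) x14810)
  (sub (sub (sub (sub (sub (add (add (sub (sub (add (add C x8244) x8248) x8258) x8234) x8036) x8144) x8576) x7280) x11168) x3878) x14812)
  (sub (sub (sub (sub (sub (add (add (add (add (sub (sub C x8260) x8252) x8186) x8222) x8042) x8150) x8582) x7286) x11174) x3884) x14818)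
  (add (add (sub (sub (sub (sub (add (add (add (add (add (add (sub C x8258) x8236) x8248) x8188) x8224) x8044) x8152) x8584) x7288) x11176) x3886) x1698) x14822)
  (sub (sub (sub (sub (sub (add (add (add (add (add (add (add (add C x8266) x8270) x8274) x8286) x8298) x8334) x8370) x8478) x8100) x7776) x11178) x3888) x1702)
  (add (add (sub (sub (sub (sub (add (add (add (add (sub (add (add C x8262) x8270) x8272) x8302) x8338) x8374) x8482) x8104) x7780) x11182) x3892) x1704) x14828)
  (sub (sub (sub (sub (sub (add (add (add (add (sub (add (add C x8262) x8266) x8282) x8306) x8342) x8378) x8486) x8108) x7784) x11186) x3896) x14830)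
  (add (add (sub (sub (sub (sub (add (add (sub (sub (sub C x8274) x8266) x8290) x8380) x8488) x8110) x7786) x11188) x3898) x1710) x14834)
  (sub (sub (sub (sub (sub (add (add (sub (add (add (sub C x8272) x8262) x8286) x8292) x8382) x8490) x8112) x7788) x11190) x3900) x1714)
  (sub (sub (sub (sub (sub (add (add (sub (sub (sub C x8286) x8270) x8318) x8390) x8498) x8120) x7796) x11198) x3908) x14842)
  (sub (sub (sub (sub (sub (add (add (sub (add (add (sub C x8282) x8262) x8274) x8322) x8394) x8502) x8124) x7800) x11202) x3912) x1726)
  (add (add (sub (sub (sub (sub (sub (sub (add (add (sub C x8292) x8302) x8314) x8272) x8344) x8128) x7804) x11206) x3916) x1728) x14852)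
  (sub (sub (sub (sub (sub (sub (sub (sub (sub C x8290) x8298) x8274) x8346) x8130) x7806) x11208) x3918) x1732)
  (sub (sub (sub (sub (sub (sub (add (add (sub (add (add C x8302) x8306) x8292) x8262) x8334) x8352) x8136) x7812) x11214) x3924) x1738)
  (add (add (sub (sub (sub (sub (sub (add (add (add (add (add (add C x8298) x8306) x8290) x8314) x8266) x8338) x8356) x8140) x7816) x11218) x3928) x1740) x14864)
  (sub (sub (sub (sub (sub (sub (add (add (sub (add (add C x8298) x8302) x8312) x8270) x8342) x8360) x8144) x7820) x11222) x3932) x14866)
  (sub (sub (sub (sub (sub (sub (sub (sub (sub C x8314) x8306) x8330) x8366) x8150) x7826) x11228) x3938) x14872)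
  (add (add (sub (sub (sub (sub (sub (sub (add (add (sub C x8312) x8290) x8302) x8332) x8368) x8152) x7828) x11230) x3940) x1752) x14876)
  (sub (sub (sub (sub (sub (sub (sub (add (add (sub C x8322) x8330) x8342) x8282) x8426) x8156) x7832) x11234) x3944) x14878)
  (sub (sub (sub (sub (sub (sub (sub (sub (sub C x8318) x8334) x8286) x8430) x8160) x7836) x11238) x3948) x1762)
  (sub (sub (sub (sub (sub (sub (sub (add (add (sub C x8332) x8318) x8342) x8312) x8438) x8168) x7844) x11246) x3956) x14890)
  (add (add (sub (sub (sub (sub (sub (sub (sub (sub C x8330) x8338) x8314) x8440) x8170) x7846) x11248) x3958) x1770) x14894)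
  (sub (sub (sub (sub (sub (sub (add (add (sub (add (add C x8338) x8342) x8322) x8262) x8298) x8442) x8172) x7848) x11250) x3960) x1774)
  (add (add (sub (sub (sub (sub (sub (add (add (sub (add (add C x8334) x8342) x8332) x8266) x8302) x8446) x8176) x7852) x11254) x3964) x1776) x14900)
  (sub (sub (sub (sub (sub (sub (add (add (add (add (add (add C x8334) x8338) x8318) x8330) x8270) x8306) x8450) x8180) x7856) x11258) x3968) x14902)
  (add (add (sub (sub (sub (add (add (sub (add (add (add (add (sub C x8346) x8356) x8368) x8380) x8416) x8290) x8020) x8668) x7858) x11260) x3970) x1782) x14906)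
  (sub (sub (sub (sub (add (add (sub (add (add (sub (sub C x8344) x8352) x8382) x8418) x8292) x8022) x8670) x7860) x11262) x3972) x1786)
  (sub (sub (sub (sub (add (add (sub (sub (sub (add (add C x8356) x8360) x8346) x8370) x8298) x8028) x8676) x7866) x11268) x3978) x1792)
  (add (add (sub (sub (sub (add (add (sub (sub (add (add (add (add C x8352) x8360) x8344) x8368) x8374) x8302) x8032) x8680) x7870) x11272) x3982) x1794) x14918)
  (sub (sub (sub (sub (add (add (sub (sub (sub (add (add C x8352) x8356) x8366) x8378) x8306) x8036) x8684) x7874) x11276) x3986) x14920)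
  (sub (sub (sub (sub (add (add (sub (sub (sub (sub C x8368) x8360) x8402) x8312) x8042) x8690) x7880) x11282) x3992) x14926)
  (add (add (sub (sub (sub (add (add (sub (sub (add (add (sub C x8366) x8344) x8356) x8404) x8314) x8044) x8692) x7882) x11284) x3994) x1806) x14930)
  (sub (sub (sub (sub (add (add (add (add (sub (add (add (add (add C x8374) x8378) x8382) x8394) x8352) x8262) x8478) x8046) x8694) x7884) x11286) x3996) x1810)
  (add (add (sub (sub (sub (add (add (add (add (sub (sub (add (add C x8370) x8378) x8380) x8356) x8266) x8482) x8050) x8698) x7888) x11290) x4000) x1812) x14936)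
  (sub (sub (sub (sub (add (add (add (add (sub (sub (add (add C x8370) x8374) x8390) x8360) x8270) x8486) x8054) x8702) x7892) x11294) x4004) x14938)
  (add (add (sub (sub (sub (add (add (add (add (add (add (sub (sub C x8382) x8374) x8344) x8416) x8272) x8488) x8056) x8704) x7894) x11296) x4006) x1818) x14942)
  (sub (sub (sub (sub (add (add (add (add (add (add (add (add (sub C x8380) x8370) x8394) x8346) x8418) x8274) x8490) x8058) x8706) x7896) x11298) x4008) x1822)
  (sub (sub (sub (sub (add (add (add (add (sub (sub (sub C x8394) x8378) x8408) x8282) x8498) x8066) x8714) x7904) x11306) x4016) x14950)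
  (sub (sub (sub (sub (add (add (add (add (sub (add (add (sub C x8390) x8370) x8382) x8412) x8286) x8502) x8070) x8718) x7908) x11310) x4020) x1834)
  (sub (sub (sub (sub (add (add (sub (sub (sub (sub C x8404) x8408) x8366) x8456) x8078) x8726) x7916) x11318) x4028) x14962)
  (add (add (sub (sub (sub (add (add (sub (sub (sub (sub C x8402) x8416) x8368) x8458) x8080) x8728) x7918) x11320) x4030) x1842) x14966)
  (sub (sub (sub (sub (add (add (sub (sub (sub (sub C x8412) x8402) x8390) x8462) x8084) x8732) x7922) x11324) x4034) x14968)
  (sub (sub (sub (sub (add (add (sub (sub (sub (sub C x8408) x8418) x8394) x8466) x8088) x8736) x7926) x11328) x4038) x1852)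
  (add (add (sub (sub (sub (add (add (sub (add (add (sub (sub C x8418) x8404) x8344) x8380) x8470) x8092) x8740) x7930) x11332) x4042) x1854) x14978)
  (sub (sub (sub (sub (add (add (sub (add (add (sub (sub C x8416) x8412) x8346) x8382) x8472) x8094) x8742) x7932) x11334) x4044) x1858)
  (sub (sub (sub (sub (sub (sub (add (add (add (add (sub C x8430) x8438) x8450) x8462) x8498) x8318) x8588) x7940) x11342) x4052) x14986)
  (sub (sub (sub (sub (sub (sub (add (add (sub (sub C x8426) x8442) x8466) x8502) x8322) x8592) x7944) x11346) x4056) x1870)
  (sub (sub (sub (sub (sub (sub (sub (add (add (sub C x8440) x8426) x8450) x8456) x8330) x8600) x7952) x11354) x4064) x14998)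
  (add (add (sub (sub (sub (sub (sub (sub (sub (sub C x8438) x8446) x8458) x8332) x8602) x7954) x11356) x4066) x1878) x15002)
  (sub (sub (sub (sub (sub (sub (sub (sub (add (add C x8446) x8450) x8430) x8478) x8334) x8604) x7956) x11358) x4068) x1882)
  (add (add (sub (sub (sub (sub (sub (sub (sub (add (add C x8442) x8450) x8440) x8482) x8338) x8608) x7960) x11362) x4072) x1884) x15008)
  (sub (sub (sub (sub (sub (sub (sub (add (add (add (add C x8442) x8446) x8426) x8438) x8486) x8342) x8612) x7964) x11366) x4076) x15010)
  (sub (sub (sub (sub (sub (sub (sub (sub (sub C x8458) x8462) x8438) x8402) x8618) x7970) x11372) x4082) x15016)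
  (add (add (sub (sub (sub (sub (sub (sub (sub (sub C x8456) x8470) x8440) x8404) x8620) x7972) x11374) x4084) x1896) x15020)
  (sub (sub (sub (sub (sub (sub (add (add (sub (sub C x8466) x8456) x8426) x8498) x8408) x8624) x7976) x11378) x4088) x15022)
  (sub (sub (sub (sub (sub (sub (add (add (sub (sub C x8462) x8472) x8430) x8502) x8412) x8628) x7980) x11382) x4092) x1906)
  (add (add (sub (sub (sub (sub (sub (sub (sub (sub C x8472) x8458) x8488) x8416) x8632) x7984) x11386) x4096) x1908) x15032)
  (sub (sub (sub (sub (sub (sub (sub (sub (sub C x8470) x8466) x8490) x8418) x8634) x7986) x11388) x4098) x1912)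
  (sub (sub (sub (sub (sub (add (add (sub (add (add (add (add C x8482) x8486) x8490) x8502) x8442) x8262) x8370) x8640) x7992) x11394) x4104) x1918)
  (add (add (sub (sub (sub (sub (add (add (sub (sub (add (add C x8478) x8486) x8488) x8446) x8266) x8374) x8644) x7996) x11398) x4108) x1920) x15044)
  (sub (sub (sub (sub (sub (add (add (sub (sub (add (add C x8478) x8482) x8498) x8450) x8270) x8378) x8648) x8000) x11402) x4112) x15046)
  (add (add (sub (sub (sub (sub (add (add (sub (sub (sub C x8490) x8482) x8470) x8272) x8380) x8650) x8002) x11404) x4114) x1926) x15050)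
  (sub (sub (sub (sub (sub (add (add (sub (add (add (sub C x8488) x8478) x8502) x8472) x8274) x8382) x8652) x8004) x11406) x4116) x1930)
  (sub (sub (sub (sub (sub (add (add (add (add (sub (sub C x8502) x8486) x8426) x8462) x8282) x8390) x8660) x8012) x11414) x4124) x15058)
  (sub (sub (sub (sub (sub (add (add (add (add (add (add (sub C x8498) x8478) x8490) x8430) x8466) x8286) x8394) x8664) x8016) x11418) x4128) x1942)
  (sub (sub (sub (add (add (sub (add (add (add (add (sub (sub C x8512) x8516) x8546) x8582) x8618) x8726) x8186) x6566) x7538) x11426) x4136) x15070)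
  (add (add (sub (sub (add (add (sub (add (add (add (add (sub (sub C x8510) x8524) x8548) x8584) x8620) x8728) x8188) x6568) x7540) x11428) x4138) x1950) x15074)
  (sub (sub (sub (add (add (sub (add (add (sub (sub (sub C x8520) x8510) x8534) x8624) x8732) x8192) x6572) x7544) x11432) x4142) x15076)
  (sub (sub (sub (add (add (sub (add (add (sub (sub (sub C x8516) x8526) x8538) x8628) x8736) x8196) x6576) x7548) x11436) x4146) x1960)
  (add (add (sub (sub (add (add (sub (add (add (sub (sub (sub C x8526) x8512) x8560) x8632) x8740) x8200) x6580) x7552) x11440) x4150) x1962) x15086)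
  (sub (sub (sub (add (add (sub (add (add (sub (sub (sub C x8524) x8520) x8562) x8634) x8742) x8202) x6582) x7554) x11442) x4152) x1966)
  (sub (sub (sub (add (add (sub (sub (sub (add (add (sub C x8538) x8546) x8558) x8516) x8588) x8210) x6590) x7562) x11450) x4160) x15094)
  (sub (sub (sub (add (add (sub (sub (sub (sub (sub C x8534) x8550) x8520) x8592) x8214) x6594) x7566) x11454) x4164) x1978)
  (sub (sub (sub (add (add (sub (sub (add (add (add (add (sub C x8548) x8534) x8558) x8510) x8582) x8600) x8222) x6602) x7574) x11462) x4172) x15106)
  (add (add (sub (sub (add (add (sub (sub (add (add (sub (sub C x8546) x8554) x8512) x8584) x8602) x8224) x6604) x7576) x11464) x4174) x1986) x15110)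
  (sub (sub (sub (add (add (sub (sub (sub (sub (add (add C x8554) x8558) x8538) x8568) x8604) x8226) x6606) x7578) x11466) x4176) x1990)
  (add (add (sub (sub (add (add (sub (sub (sub (sub (add (add C x8550) x8558) x8548) x8572) x8608) x8230) x6610) x7582) x11470) x4180) x1992) x15116)
  (sub (sub (sub (add (add (sub (sub (sub (add (add (add (add C x8550) x8554) x8534) x8546) x8576) x8612) x8234) x6614) x7586) x11474) x4184) x15118)
  (add (add (sub (sub (add (add (sub (sub (sub (add (add (sub C x8562) x8572) x8584) x8524) x8668) x8236) x6616) x7588) x11476) x4186) x1998) x15122)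
  (sub (sub (sub (add (add (sub (sub (sub (sub (sub C x8560) x8568) x8526) x8670) x8238) x6618) x7590) x11478) x4188) x2002)
  (sub (sub (sub (add (add (sub (sub (sub (sub (add (add C x8572) x8576) x8562) x8550) x8676) x8244) x6624) x7596) x11484) x4194) x2008)
  (add (add (sub (sub (add (add (sub (sub (sub (add (add (add (add C x8568) x8576) x8560) x8584) x8554) x8680) x8248) x6628) x7600) x11488) x4198) x2010) x15134)
  (sub (sub (sub (add (add (sub (sub (sub (sub (add (add C x8568) x8572) x8582) x8558) x8684) x8252) x6632) x7604) x11492) x4202) x15136)
  (sub (sub (sub (add (add (sub (sub (add (add (sub (sub C x8584) x8576) x8510) x8546) x8690) x8258) x6638) x7610) x11498) x4208) x15142)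
  (add (add (sub (sub (add (add (sub (sub (add (add (add (add (sub C x8582) x8560) x8572) x8512) x8548) x8692) x8260) x6640) x7612) x11500) x4210) x2022) x15146)
  (sub (sub (sub (add (add (sub (sub (add (add (add (add (sub C x8592) x8600) x8612) x8624) x8660) x8534) x8426) x6644) x7616) x11504) x4214) x15148)
  (sub (sub (sub (add (add (sub (sub (add (add (sub (sub C x8588) x8604) x8628) x8664) x8538) x8430) x6648) x7620) x11508) x4218) x2032)
  (sub (sub (sub (add (add (sub (sub (sub (add (add (sub C x8602) x8588) x8612) x8618) x8546) x8438) x6656) x7628) x11516) x4226) x15160)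
  (add (add (sub (sub (add (add (sub (sub (sub (sub (sub C x8600) x8608) x8620) x8548) x8440) x6658) x7630) x11518) x4228) x2040) x15164)
  (sub (sub (sub (add (add (sub (sub (sub (sub (add (add C x8608) x8612) x8592) x8640) x8550) x8442) x6660) x7632) x11520) x4230) x2044)
  (add (add (sub (sub (add (add (sub (sub (sub (sub (add (add C x8604) x8612) x8602) x8644) x8554) x8446) x6664) x7636) x11524) x4234) x2046) x15170)
  (sub (sub (sub (add (add (sub (sub (sub (add (add (add (add C x8604) x8608) x8588) x8600) x8648) x8558) x8450) x6668) x7640) x11528) x4238) x15172)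
  (sub (sub (sub (add (add (sub (add (add (sub (sub (sub C x8620) x8624) x8600) x8510) x8726) x8456) x6674) x7646) x11534) x4244) x15178)
  (add (add (sub (sub (add (add (sub (add (add (sub (sub (sub C x8618) x8632) x8602) x8512) x8728) x8458) x6676) x7648) x11536) x4246) x2058) x15182)
  (sub (sub (sub (add (add (sub (add (add (add (add (sub (sub C x8628) x8618) x8588) x8660) x8516) x8732) x8462) x6680) x7652) x11540) x4250) x15184)
  (sub (sub (sub (add (add (sub (add (add (add (add (sub (sub C x8624) x8634) x8592) x8664) x8520) x8736) x8466) x6684) x7656) x11544) x4254) x2068)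
  (add (add (sub (sub (add (add (sub (add (add (sub (sub (sub C x8634) x8620) x8650) x8524) x8740) x8470) x6688) x7660) x11548) x4258) x2070) x15194)
  (sub (sub (sub (add (add (sub (add (add (sub (sub (sub C x8632) x8628) x8652) x8526) x8742) x8472) x6690) x7662) x11550) x4260) x2074)
  (sub (sub (sub (add (add (sub (sub (sub (add (add (add (add C x8644) x8648) x8652) x8664) x8604) x8694) x8478) x6696) x7668) x11556) x4266) x2080)
  (add (add (sub (sub (add (add (sub (sub (sub (sub (add (add C x8640) x8648) x8650) x8608) x8698) x8482) x6700) x7672) x11560) x4270) x2082) x15206)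
  (sub (sub (sub (add (add (sub (sub (sub (sub (add (add C x8640) x8644) x8660) x8612) x8702) x8486) x6704) x7676) x11564) x4274) x15208)
  (add (add (sub (sub (add (add (sub (sub (sub (sub (sub C x8652) x8644) x8632) x8704) x8488) x6706) x7678) x11566) x4276) x2088) x15212)
  (sub (sub (sub (add (add (sub (sub (sub (add (add (sub C x8650) x8640) x8664) x8634) x8706) x8490) x6708) x7680) x11568) x4278) x2092)
  (sub (sub (sub (add (add (sub (sub (add (add (sub (sub C x8664) x8648) x8588) x8624) x8714) x8498) x6716) x7688) x11576) x4286) x15220)
  (sub (sub (sub (add (add (sub (sub (add (add (add (add (sub C x8660) x8640) x8652) x8592) x8628) x8718) x8502) x6720) x7692) x11580) x4290) x2104)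
  (add (add (sub (sub (add (add (add (add (sub (add (add (add (add (sub C x8670) x8680) x8692) x8704) x8740) x8560) x8020) x8344) x6724) x7696) x11584) x4294) x2106) x15230)
  (sub (sub (sub (add (add (add (add (sub (add (add (sub (sub C x8668) x8676) x8706) x8742) x8562) x8022) x8346) x6726) x7698) x11586) x4296) x2110)
  (sub (sub (sub (add (add (add (add (sub (sub (sub (add (add C x8680) x8684) x8670) x8694) x8568) x8028) x8352) x6732) x7704) x11592) x4302) x2116)
  (add (add (sub (sub (add (add (add (add (sub (sub (add (add (add (add C x8676) x8684) x8668) x8692) x8698) x8572) x8032) x8356) x6736) x7708) x11596) x4306) x2118) x15242)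
  (sub (sub (sub (add (add (add (add (sub (sub (sub (add (add C x8676) x8680) x8690) x8702) x8576) x8036) x8360) x6740) x7712) x11600) x4310) x15244)
  (sub (sub (sub (add (add (add (add (sub (sub (sub (sub C x8692) x8684) x8726) x8582) x8042) x8366) x6746) x7718) x11606) x4316) x15250)
  (add (add (sub (sub (add (add (add (add (sub (sub (add (add (sub C x8690) x8668) x8680) x8728) x8584) x8044) x8368) x6748) x7720) x11608) x4318) x2130) x15254)
  (sub (sub (sub (add (add (add (add (sub (sub (add (add (add (add C x8698) x8702) x8706) x8718) x8676) x8640) x8046) x8370) x6750) x7722) x11610) x4320) x2134)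
  (add (add (sub (sub (add (add (add (add (sub (sub (sub (add (add C x8694) x8702) x8704) x8680) x8644) x8050) x8374) x6754) x7726) x11614) x4324) x2136) x15260)
  (sub (sub (sub (add (add (add (add (sub (sub (sub (add (add C x8694) x8698) x8714) x8684) x8648) x8054) x8378) x6758) x7730) x11618) x4328) x15262)
  (add (add (sub (sub (add (add (add (add (sub (add (add (sub (sub C x8706) x8698) x8668) x8740) x8650) x8056) x8380) x6760) x7732) x11620) x4330) x2142) x15266)
  (sub (sub (sub (add (add (add (add (sub (add (add (add (add (sub C x8704) x8694) x8718) x8670) x8742) x8652) x8058) x8382) x6762) x7734) x11622) x4332) x2146)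
  (sub (sub (sub (add (add (add (add (sub (sub (sub (sub C x8718) x8702) x8732) x8660) x8066) x8390) x6770) x7742) x11630) x4340) x15274)
  (sub (sub (sub (add (add (add (add (sub (sub (add (add (sub C x8714) x8694) x8706) x8736) x8664) x8070) x8394) x6774) x7746) x11634) x4344) x2158)
  (sub (sub (sub (add (add (add (add (add (add (sub (sub (sub C x8728) x8732) x8690) x8510) x8618) x8078) x8402) x6782) x7754) x11642) x4352) x15286)
  (add (add (sub (sub (add (add (add (add (add (add (sub (sub (sub C x8726) x8740) x8692) x8512) x8620) x8080) x8404) x6784) x7756) x11644) x4354) x2166) x15290)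
  (sub (sub (sub (add (add (add (add (add (add (sub (sub (sub C x8736) x8726) x8714) x8516) x8624) x8084) x8408) x6788) x7760) x11648) x4358) x15292)
  (sub (sub (sub (add (add (add (add (add (add (sub (sub (sub C x8732) x8742) x8718) x8520) x8628) x8088) x8412) x6792) x7764) x11652) x4362) x2176)
  (add (add (sub (sub (add (add (add (add (add (add (add (add (sub (sub C x8742) x8728) x8668) x8704) x8524) x8632) x8092) x8416) x6796) x7768) x11656) x4366) x2178) x15302)
  (sub (sub (sub (add (add (add (add (add (add (add (add (sub (sub C x8740) x8736) x8670) x8706) x8526) x8634) x8094) x8418) x6798) x7770) x11658) x4368) x2182)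
  (sub (add (add (sub (add (add (add (add (add (add (add (add (add (add (sub C x8754) x8762) x8774) x8786) x8822) x8858) x8966) x9074) x9398) x9722) x10694) x7292) x2) x17498) x15310)
  (sub (add (add (sub (add (add (add (add (add (add (add (add (sub (sub C x8750) x8766) x8790) x8826) x8862) x8970) x9078) x9402) x9726) x10698) x7296) x6) x17502) x2194)
  (sub (add (add (sub (add (add (add (add (add (add (sub (add (add (sub C x8764) x8750) x8774) x8780) x8870) x8978) x9086) x9410) x9734) x10706) x7304) x14) x17510) x15322)
  (add (add (add (add (sub (add (add (add (add (add (add (sub (sub (sub C x8762) x8770) x8782) x8872) x8980) x9088) x9412) x9736) x10708) x7306) x16) x17512) x2202) x15326)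
  (sub (add (add (sub (add (add (add (add (add (add (sub (sub (add (add C x8770) x8774) x8754) x8802) x8874) x8982) x9090) x9414) x9738) x10710) x7308) x18) x17514) x2206)
  (add (add (add (add (sub (add (add (add (add (add (add (sub (sub (add (add C x8766) x8774) x8764) x8806) x8878) x8986) x9094) x9418) x9742) x10714) x7312) x22) x17518) x2208) x15332)
  (sub (add (add (sub (add (add (add (add (add (add (sub (add (add (add (add C x8766) x8770) x8750) x8762) x8810) x8882) x8990) x9098) x9422) x9746) x10718) x7316) x26) x17522) x15334)
  (sub (add (add (sub (add (add (add (add (sub (sub (sub (sub C x8782) x8786) x8762) x8834) x9104) x9428) x9752) x10724) x7322) x32) x17528) x15340)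
  (add (add (add (add (sub (add (add (add (add (sub (sub (sub (sub C x8780) x8794) x8764) x8836) x9106) x9430) x9754) x10726) x7324) x34) x17530) x2220) x15344)
  (sub (add (add (sub (add (add (add (add (sub (add (add (sub (sub C x8790) x8780) x8750) x8822) x8840) x9110) x9434) x9758) x10730) x7328) x38) x17534) x15346)
  (sub (add (add (sub (add (add (add (add (sub (add (add (sub (sub C x8786) x8796) x8754) x8826) x8844) x9114) x9438) x9762) x10734) x7332) x42) x17538) x2230)
  (add (add (add (add (sub (add (add (add (add (sub (sub (sub (sub C x8796) x8782) x8812) x8848) x9118) x9442) x9766) x10738) x7336) x46) x17542) x2232) x15356)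
  (sub (add (add (sub (add (add (add (add (sub (sub (sub (sub C x8794) x8790) x8814) x8850) x9120) x9444) x9768) x10740) x7338) x48) x17544) x2236)
  (sub (add (add (sub (add (add (add (add (sub (sub (add (add (add (add C x8806) x8810) x8814) x8826) x8766) x8910) x9126) x9450) x9774) x10746) x7344) x54) x17550) x2242)
  (add (add (add (add (sub (add (add (add (add (sub (sub (sub (add (add C x8802) x8810) x8812) x8770) x8914) x9130) x9454) x9778) x10750) x7348) x58) x17554) x2244) x15368)
  (sub (add (add (sub (add (add (add (add (sub (sub (sub (add (add C x8802) x8806) x8822) x8774) x8918) x9134) x9458) x9782) x10754) x7352) x62) x17558) x15370)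
  (add (add (add (add (sub (add (add (add (add (sub (sub (sub (sub C x8814) x8806) x8794) x8920) x9136) x9460) x9784) x10756) x7354) x64) x17560) x2250) x15374)
  (sub (add (add (sub (add (add (add (add (sub (sub (add (add (sub C x8812) x8802) x8826) x8796) x8922) x9138) x9462) x9786) x10758) x7356) x66) x17562) x2254)
  (sub (add (add (sub (add (add (add (add (sub (add (add (sub (sub C x8826) x8810) x8750) x8786) x8930) x9146) x9470) x9794) x10766) x7364) x74) x17570) x15382)
  (sub (add (add (sub (add (add (add (add (sub (add (add (add (add (sub C x8822) x8802) x8814) x8754) x8790) x8934) x9150) x9474) x9798) x10770) x7368) x78) x17574) x2266)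
  (sub (add (add (sub (add (add (sub (sub (add (add (sub (sub C x8836) x8840) x8870) x8906) x8780) x8996) x9806) x10778) x7376) x86) x17582) x15394)
  (add (add (add (add (sub (add (add (sub (sub (add (add (sub (sub C x8834) x8848) x8872) x8908) x8782) x8998) x9808) x10780) x7378) x88) x17584) x2274) x15398)
  (sub (add (add (sub (add (add (sub (sub (sub (sub (sub C x8844) x8834) x8858) x8786) x9002) x9812) x10784) x7382) x92) x17588) x15400)
  (sub (add (add (sub (add (add (sub (sub (sub (sub (sub C x8840) x8850) x8862) x8790) x9006) x9816) x10788) x7386) x96) x17592) x2284)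
  (add (add (add (add (sub (add (add (sub (sub (sub (sub (sub C x8850) x8836) x8884) x8794) x9010) x9820) x10792) x7390) x100) x17596) x2286) x15410)
  (sub (add (add (sub (add (add (sub (sub (sub (sub (sub C x8848) x8844) x8886) x8796) x9012) x9822) x10794) x7392) x102) x17598) x2290)
  (sub (add (add (sub (add (add (sub (add (add (sub (add (add (sub C x8862) x8870) x8882) x8840) x8750) x8966) x9020) x9830) x10802) x7400) x110) x17606) x15418)
  (sub (add (add (sub (add (add (sub (add (add (sub (sub (sub C x8858) x8874) x8844) x8754) x8970) x9024) x9834) x10806) x7404) x114) x17610) x2302)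
  (sub (add (add (sub (add (add (sub (add (add (add (add (add (add (sub C x8872) x8858) x8882) x8834) x8906) x8762) x8978) x9032) x9842) x10814) x7412) x122) x17618) x15430)
  (add (add (add (add (sub (add (add (sub (add (add (add (add (sub (sub C x8870) x8878) x8836) x8908) x8764) x8980) x9034) x9844) x10816) x7414) x124) x17620) x2310) x15434)
  (sub (add (add (sub (add (add (sub (add (add (sub (sub (add (add C x8878) x8882) x8862) x8892) x8766) x8982) x9036) x9846) x10818) x7416) x126) x17622) x2314)
  (add (add (add (add (sub (add (add (sub (add (add (sub (sub (add (add C x8874) x8882) x8872) x8896) x8770) x8986) x9040) x9850) x10822) x7420) x130) x17626) x2316) x15440)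
  (sub (add (add (sub (add (add (sub (add (add (sub (add (add (add (add C x8874) x8878) x8858) x8870) x8900) x8774) x8990) x9044) x9854) x10826) x7424) x134) x17630) x15442)
  (add (add (add (add (sub (add (add (sub (sub (sub (add (add (sub C x8886) x8896) x8908) x8848) x8938) x9046) x9856) x10828) x7426) x136) x17632) x2322) x15446)
  (sub (add (add (sub (add (add (sub (sub (sub (sub (sub C x8884) x8892) x8850) x8940) x9048) x9858) x10830) x7428) x138) x17634) x2326)
  (sub (add (add (sub (add (add (sub (sub (sub (sub (add (add C x8896) x8900) x8886) x8874) x8946) x9054) x9864) x10836) x7434) x144) x17640) x2332)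
  (add (add (add (add (sub (add (add (sub (sub (sub (add (add (add (add C x8892) x8900) x8884) x8908) x8878) x8950) x9058) x9868) x10840) x7438) x148) x17644) x2334) x15458)
  (sub (add (add (sub (add (add (sub (sub (sub (sub (add (add C x8892) x8896) x8906) x8882) x8954) x9062) x9872) x10844) x7442) x152) x17648) x15460)
  (sub (add (add (sub (add (add (sub (sub (add (add (sub (sub C x8908) x8900) x8834) x8870) x8960) x9068) x9878) x10850) x7448) x158) x17654) x15466)
  (add (add (add (add (sub (add (add (sub (sub (add (add (add (add (sub C x8906) x8884) x8896) x8836) x8872) x8962) x9070) x9880) x10852) x7450) x160) x17656) x2346) x15470)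
  (sub (add (add (sub (add (add (sub (sub (add (add (add (add (add (add C x8914) x8918) x8922) x8934) x8946) x8982) x8802) x9234) x9882) x10854) x7452) x162) x17658) x2350)
  (add (add (add (add (sub (add (add (sub (sub (add (add (sub (add (add C x8910) x8918) x8920) x8950) x8986) x8806) x9238) x9886) x10858) x7456) x166) x17662) x2352) x15476)
  (sub (add (add (sub (add (add (sub (sub (add (add (sub (add (add C x8910) x8914) x8930) x8954) x8990) x8810) x9242) x9890) x10862) x7460) x170) x17666) x15478)
  (add (add (add (add (sub (add (add (sub (sub (sub (sub (sub C x8922) x8914) x8938) x8812) x9244) x9892) x10864) x7462) x172) x17668) x2358) x15482)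
  (sub (add (add (sub (add (add (sub (sub (sub (add (add (sub C x8920) x8910) x8934) x8940) x8814) x9246) x9894) x10866) x7464) x174) x17670) x2362)
  (sub (add (add (sub (add (add (sub (sub (sub (sub (sub C x8934) x8918) x8966) x8822) x9254) x9902) x10874) x7472) x182) x17678) x15490)
  (sub (add (add (sub (add (add (sub (sub (sub (add (add (sub C x8930) x8910) x8922) x8970) x8826) x9258) x9906) x10878) x7476) x186) x17682) x2374)
  (add (add (add (add (sub (add (add (sub (sub (sub (add (add (sub C x8940) x8950) x8962) x8920) x8884) x9262) x9910) x10882) x7480) x190) x17686) x2376) x15500)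
  (sub (add (add (sub (add (add (sub (sub (sub (sub (sub C x8938) x8946) x8922) x8886) x9264) x9912) x10884) x7482) x192) x17688) x2380)
  (sub (add (add (sub (add (add (sub (sub (add (add (sub (add (add C x8950) x8954) x8940) x8910) x8982) x8892) x9270) x9918) x10890) x7488) x198) x17694) x2386)
  (add (add (add (add (sub (add (add (sub (sub (add (add (add (add (add (add C x8946) x8954) x8938) x8962) x8914) x8986) x8896) x9274) x9922) x10894) x7492) x202) x17698) x2388) x15512)
  (sub (add (add (sub (add (add (sub (sub (add (add (sub (add (add C x8946) x8950) x8960) x8918) x8990) x8900) x9278) x9926) x10898) x7496) x206) x17702) x15514)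
  (sub (add (add (sub (add (add (sub (sub (sub (sub (sub C x8962) x8954) x8978) x8906) x9284) x9932) x10904) x7502) x212) x17708) x15520)
  (add (add (add (add (sub (add (add (sub (sub (sub (add (add (sub C x8960) x8938) x8950) x8980) x8908) x9286) x9934) x10906) x7504) x214) x17710) x2400) x15524)
  (sub (add (add (sub (add (add (sub (add (add (sub (add (add (sub C x8970) x8978) x8990) x8930) x8750) x8858) x9290) x9938) x10910) x7508) x218) x17714) x15526)
  (sub (add (add (sub (add (add (sub (add (add (sub (sub (sub C x8966) x8982) x8934) x8754) x8862) x9294) x9942) x10914) x7512) x222) x17718) x2410)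
  (sub (add (add (sub (add (add (sub (add (add (sub (add (add (sub C x8980) x8966) x8990) x8960) x8762) x8870) x9302) x9950) x10922) x7520) x230) x17726) x15538)
  (add (add (add (add (sub (add (add (sub (add (add (sub (sub (sub C x8978) x8986) x8962) x8764) x8872) x9304) x9952) x10924) x7522) x232) x17728) x2418) x15542)
  (sub (add (add (sub (add (add (sub (add (add (add (add (sub (add (add C x8986) x8990) x8970) x8910) x8946) x8766) x8874) x9306) x9954) x10926) x7524) x234) x17730) x2422)
  (add (add (add (add (sub (add (add (sub (add (add (add (add (sub (add (add C x8982) x8990) x8980) x8914) x8950) x8770) x8878) x9310) x9958) x10930) x7528) x238) x17734) x2424) x15548)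
  (sub (add (add (sub (add (add (sub (add (add (add (add (add (add (add (add C x8982) x8986) x8966) x8978) x8918) x8954) x8774) x8882) x9314) x9962) x10934) x7532) x242) x17738) x15550)
  (sub (add (add (sub (sub (sub (add (add (add (add (sub (sub C x8998) x9002) x9032) x9068) x9104) x9212) x8834) x9482) x7538) x248) x17744) x15556)
  (add (add (add (add (sub (sub (sub (add (add (add (add (sub (sub C x8996) x9010) x9034) x9070) x9106) x9214) x8836) x9484) x7540) x250) x17746) x2436) x15560)
  (sub (add (add (sub (sub (sub (add (add (sub (sub (sub C x9006) x8996) x9020) x9110) x9218) x8840) x9488) x7544) x254) x17750) x15562)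
  (sub (add (add (sub (sub (sub (add (add (sub (sub (sub C x9002) x9012) x9024) x9114) x9222) x8844) x9492) x7548) x258) x17754) x2446)
  (add (add (add (add (sub (sub (sub (add (add (sub (sub (sub C x9012) x8998) x9046) x9118) x9226) x8848) x9496) x7552) x262) x17758) x2448) x15572)
  (sub (add (add (sub (sub (sub (add (add (sub (sub (sub C x9010) x9006) x9048) x9120) x9228) x8850) x9498) x7554) x264) x17760) x2452)
  (sub (add (add (sub (sub (sub (sub (sub (add (add (sub C x9024) x9032) x9044) x9002) x9074) x8858) x9506) x7562) x272) x17768) x15580)
  (sub (add (add (sub (sub (sub (sub (sub (sub (sub C x9020) x9036) x9006) x9078) x8862) x9510) x7566) x276) x17772) x2464)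
  (sub (add (add (sub (sub (sub (sub (add (add (add (add (sub C x9034) x9020) x9044) x8996) x9068) x9086) x8870) x9518) x7574) x284) x17780) x15592)
  (add (add (add (add (sub (sub (sub (sub (add (add (sub (sub C x9032) x9040) x8998) x9070) x9088) x8872) x9520) x7576) x286) x17782) x2472) x15596)
  (sub (add (add (sub (sub (sub (sub (sub (sub (add (add C x9040) x9044) x9024) x9054) x9090) x8874) x9522) x7578) x288) x17784) x2476)
  (add (add (add (add (sub (sub (sub (sub (sub (sub (add (add C x9036) x9044) x9034) x9058) x9094) x8878) x9526) x7582) x292) x17788) x2478) x15602)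
  (sub (add (add (sub (sub (sub (sub (sub (add (add (add (add C x9036) x9040) x9020) x9032) x9062) x9098) x8882) x9530) x7586) x296) x17792) x15604)
  (add (add (add (add (sub (sub (sub (sub (sub (add (add (sub C x9048) x9058) x9070) x9010) x9154) x8884) x9532) x7588) x298) x17794) x2484) x15608)
  (sub (add (add (sub (sub (sub (sub (sub (sub (sub C x9046) x9054) x9012) x9156) x8886) x9534) x7590) x300) x17796) x2488)
  (sub (add (add (sub (sub (sub (sub (sub (sub (add (add C x9058) x9062) x9048) x9036) x9162) x8892) x9540) x7596) x306) x17802) x2494)
  (add (add (add (add (sub (sub (sub (sub (sub (add (add (add (add C x9054) x9062) x9046) x9070) x9040) x9166) x8896) x9544) x7600) x310) x17806) x2496) x15620)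
  (sub (add (add (sub (sub (sub (sub (sub (sub (add (add C x9054) x9058) x9068) x9044) x9170) x8900) x9548) x7604) x314) x17810) x15622)
  (sub (add (add (sub (sub (sub (sub (add (add (sub (sub C x9070) x9062) x8996) x9032) x9176) x8906) x9554) x7610) x320) x17816) x15628)
  (add (add (add (add (sub (sub (sub (sub (add (add (add (add (sub C x9068) x9046) x9058) x8998) x9034) x9178) x8908) x9556) x7612) x322) x17818) x2508) x15632)
  (sub (add (add (sub (sub (add (add (sub (add (add (add (add (sub C x9078) x9086) x9098) x9110) x9146) x9020) x8750) x9398) x9560) x7616) x326) x17822) x15634)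
  (sub (add (add (sub (sub (add (add (sub (add (add (sub (sub C x9074) x9090) x9114) x9150) x9024) x8754) x9402) x9564) x7620) x330) x17826) x2518)
  (sub (add (add (sub (sub (add (add (sub (sub (add (add (sub C x9088) x9074) x9098) x9104) x9032) x8762) x9410) x9572) x7628) x338) x17834) x15646)
  (add (add (add (add (sub (sub (add (add (sub (sub (sub (sub C x9086) x9094) x9106) x9034) x8764) x9412) x9574) x7630) x340) x17836) x2526) x15650)
  (sub (add (add (sub (sub (add (add (sub (sub (sub (add (add C x9094) x9098) x9078) x9126) x9036) x8766) x9414) x9576) x7632) x342) x17838) x2530)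
  (add (add (add (add (sub (sub (add (add (sub (sub (sub (add (add C x9090) x9098) x9088) x9130) x9040) x8770) x9418) x9580) x7636) x346) x17842) x2532) x15656)
  (sub (add (add (sub (sub (add (add (sub (sub (add (add (add (add C x9090) x9094) x9074) x9086) x9134) x9044) x8774) x9422) x9584) x7640) x350) x17846) x15658)
  (sub (add (add (sub (sub (add (add (add (add (sub (sub (sub C x9106) x9110) x9086) x8996) x9212) x8780) x9428) x9590) x7646) x356) x17852) x15664)
  (add (add (add (add (sub (sub (add (add (add (add (sub (sub (sub C x9104) x9118) x9088) x8998) x9214) x8782) x9430) x9592) x7648) x358) x17854) x2544) x15668)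
  (sub (add (add (sub (sub (add (add (add (add (add (add (sub (sub C x9114) x9104) x9074) x9146) x9002) x9218) x8786) x9434) x9596) x7652) x362) x17858) x15670)
  (sub (add (add (sub (sub (add (add (add (add (add (add (sub (sub C x9110) x9120) x9078) x9150) x9006) x9222) x8790) x9438) x9600) x7656) x366) x17862) x2554)
  (add (add (add (add (sub (sub (add (add (add (add (sub (sub (sub C x9120) x9106) x9136) x9010) x9226) x8794) x9442) x9604) x7660) x370) x17866) x2556) x15680)
  (sub (add (add (sub (sub (add (add (add (add (sub (sub (sub C x9118) x9114) x9138) x9012) x9228) x8796) x9444) x9606) x7662) x372) x17868) x2560)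
  (sub (add (add (sub (sub (add (add (sub (sub (add (add (add (add C x9130) x9134) x9138) x9150) x9090) x9180) x8802) x9450) x9612) x7668) x378) x17874) x2566)
  (add (add (add (add (sub (sub (add (add (sub (sub (sub (add (add C x9126) x9134) x9136) x9094) x9184) x8806) x9454) x9616) x7672) x382) x17878) x2568) x15692)
  (sub (add (add (sub (sub (add (add (sub (sub (sub (add (add C x9126) x9130) x9146) x9098) x9188) x8810) x9458) x9620) x7676) x386) x17882) x15694)
  (add (add (add (add (sub (sub (add (add (sub (sub (sub (sub C x9138) x9130) x9118) x9190) x8812) x9460) x9622) x7678) x388) x17884) x2574) x15698)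
  (sub (add (add (sub (sub (add (add (sub (sub (add (add (sub C x9136) x9126) x9150) x9120) x9192) x8814) x9462) x9624) x7680) x390) x17886) x2578)
  (sub (add (add (sub (sub (add (add (sub (add (add (sub (sub C x9150) x9134) x9074) x9110) x9200) x8822) x9470) x9632) x7688) x398) x17894) x15706)
  (sub (add (add (sub (sub (add (add (sub (add (add (add (add (sub C x9146) x9126) x9138) x9078) x9114) x9204) x8826) x9474) x9636) x7692) x402) x17898) x2590)
  (add (add (add (add (sub (sub (sub (sub (add (add (add (add (sub C x9156) x9166) x9178) x9190) x9226) x9046) x9316) x9640) x7696) x406) x17902) x2592) x15716)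
  (sub (add (add (sub (sub (sub (sub (add (add (sub (sub C x9154) x9162) x9192) x9228) x9048) x9318) x9642) x7698) x408) x17904) x2596)
  (sub (add (add (sub (sub (sub (sub (sub (sub (add (add C x9166) x9170) x9156) x9180) x9054) x9324) x9648) x7704) x414) x17910) x2602)
  (add (add (add (add (sub (sub (sub (sub (sub (add (add (add (add C x9162) x9170) x9154) x9178) x9184) x9058) x9328) x9652) x7708) x418) x17914) x2604) x15728)
  (sub (add (add (sub (sub (sub (sub (sub (sub (add (add C x9162) x9166) x9176) x9188) x9062) x9332) x9656) x7712) x422) x17918) x15730)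
  (sub (add (add (sub (sub (sub (sub (sub (sub (sub C x9178) x9170) x9212) x9068) x9338) x9662) x7718) x428) x17924) x15736)
  (add (add (add (add (sub (sub (sub (sub (sub (add (add (sub C x9176) x9154) x9166) x9214) x9070) x9340) x9664) x7720) x430) x17926) x2616) x15740)
  (sub (add (add (sub (sub (sub (sub (sub (add (add (add (add C x9184) x9188) x9192) x9204) x9162) x9126) x9342) x9666) x7722) x432) x17928) x2620)
  (add (add (add (add (sub (sub (sub (sub (sub (sub (add (add C x9180) x9188) x9190) x9166) x9130) x9346) x9670) x7726) x436) x17932) x2622) x15746)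
  (sub (add (add (sub (sub (sub (sub (sub (sub (add (add C x9180) x9184) x9200) x9170) x9134) x9350) x9674) x7730) x440) x17936) x15748)
  (add (add (add (add (sub (sub (sub (sub (add (add (sub (sub C x9192) x9184) x9154) x9226) x9136) x9352) x9676) x7732) x442) x17938) x2628) x15752)
  (sub (add (add (sub (sub (sub (sub (add (add (add (add (sub C x9190) x9180) x9204) x9156) x9228) x9138) x9354) x9678) x7734) x444) x17940) x2632)
  (sub (add (add (sub (sub (sub (sub (sub (sub (sub C x9204) x9188) x9218) x9146) x9362) x9686) x7742) x452) x17948) x15760)
  (sub (add (add (sub (sub (sub (sub (sub (add (add (sub C x9200) x9180) x9192) x9222) x9150) x9366) x9690) x7746) x456) x17952) x2644)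
  (sub (add (add (sub (sub (sub (add (add (sub (sub (sub C x9214) x9218) x9176) x8996) x9104) x9374) x9698) x7754) x464) x17960) x15772)
  (add (add (add (add (sub (sub (sub (add (add (sub (sub (sub C x9212) x9226) x9178) x8998) x9106) x9376) x9700) x7756) x466) x17962) x2652) x15776)
  (sub (add (add (sub (sub (sub (add (add (sub (sub (sub C x9222) x9212) x9200) x9002) x9110) x9380) x9704) x7760) x470) x17966) x15778)
  (sub (add (add (sub (sub (sub (add (add (sub (sub (sub C x9218) x9228) x9204) x9006) x9114) x9384) x9708) x7764) x474) x17970) x2662)
  (add (add (add (add (sub (sub (sub (add (add (add (add (sub (sub C x9228) x9214) x9154) x9190) x9010) x9118) x9388) x9712) x7768) x478) x17974) x2664) x15788)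
  (sub (add (add (sub (sub (sub (add (add (add (add (sub (sub C x9226) x9222) x9156) x9192) x9012) x9120) x9390) x9714) x7770) x480) x17976) x2668)
  (sub (add (add (sub (sub (sub (add (add (add (add (add (add (add (add C x9238) x9242) x9246) x9258) x9270) x9306) x9342) x9450) x8910) x10206) x7776) x486) x17982) x2674)
  (add (add (add (add (sub (sub (sub (add (add (add (add (sub (add (add C x9234) x9242) x9244) x9274) x9310) x9346) x9454) x8914) x10210) x7780) x490) x17986) x2676) x15800)
  (sub (add (add (sub (sub (sub (add (add (add (add (sub (add (add C x9234) x9238) x9254) x9278) x9314) x9350) x9458) x8918) x10214) x7784) x494) x17990) x15802)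
  (add (add (add (add (sub (sub (sub (add (add (sub (sub (sub C x9246) x9238) x9262) x9352) x9460) x8920) x10216) x7786) x496) x17992) x2682) x15806)
  (sub (add (add (sub (sub (sub (add (add (sub (add (add (sub C x9244) x9234) x9258) x9264) x9354) x9462) x8922) x10218) x7788) x498) x17994) x2686)
  (sub (add (add (sub (sub (sub (add (add (sub (sub (sub C x9258) x9242) x9290) x9362) x9470) x8930) x10226) x7796) x506) x18002) x15814)
  (sub (add (add (sub (sub (sub (add (add (sub (add (add (sub C x9254) x9234) x9246) x9294) x9366) x9474) x8934) x10230) x7800) x510) x18006) x2698)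
  (add (add (add (add (sub (sub (sub (sub (sub (add (add (sub C x9264) x9274) x9286) x9244) x9316) x8938) x10234) x7804) x514) x18010) x2700) x15824)
  (sub (add (add (sub (sub (sub (sub (sub (sub (sub C x9262) x9270) x9246) x9318) x8940) x10236) x7806) x516) x18012) x2704)
  (sub (add (add (sub (sub (sub (sub (add (add (sub (add (add C x9274) x9278) x9264) x9234) x9306) x9324) x8946) x10242) x7812) x522) x18018) x2710)
  (add (add (add (add (sub (sub (sub (sub (add (add (add (add (add (add C x9270) x9278) x9262) x9286) x9238) x9310) x9328) x8950) x10246) x7816) x526) x18022) x2712) x15836)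
  (sub (add (add (sub (sub (sub (sub (add (add (sub (add (add C x9270) x9274) x9284) x9242) x9314) x9332) x8954) x10250) x7820) x530) x18026) x15838)
  (sub (add (add (sub (sub (sub (sub (sub (sub (sub C x9286) x9278) x9302) x9338) x8960) x10256) x7826) x536) x18032) x15844)
  (add (add (add (add (sub (sub (sub (sub (sub (add (add (sub C x9284) x9262) x9274) x9304) x9340) x8962) x10258) x7828) x538) x18034) x2724) x15848)
  (sub (add (add (sub (sub (sub (sub (sub (add (add (sub C x9294) x9302) x9314) x9254) x9398) x8966) x10262) x7832) x542) x18038) x15850)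
  (sub (add (add (sub (sub (sub (sub (sub (sub (sub C x9290) x9306) x9258) x9402) x8970) x10266) x7836) x546) x18042) x2734)
  (sub (add (add (sub (sub (sub (sub (sub (add (add (sub C x9304) x9290) x9314) x9284) x9410) x8978) x10274) x7844) x554) x18050) x15862)
  (add (add (add (add (sub (sub (sub (sub (sub (sub (sub C x9302) x9310) x9286) x9412) x8980) x10276) x7846) x556) x18052) x2742) x15866)
  (sub (add (add (sub (sub (sub (sub (add (add (sub (add (add C x9310) x9314) x9294) x9234) x9270) x9414) x8982) x10278) x7848) x558) x18054) x2746)
  (add (add (add (add (sub (sub (sub (sub (add (add (sub (add (add C x9306) x9314) x9304) x9238) x9274) x9418) x8986) x10282) x7852) x562) x18058) x2748) x15872)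
  (sub (add (add (sub (sub (sub (sub (add (add (add (add (add (add C x9306) x9310) x9290) x9302) x9242) x9278) x9422) x8990) x10286) x7856) x566) x18062) x15874)
  (add (add (add (add (sub (sub (sub (sub (add (add (add (add (sub C x9318) x9328) x9340) x9352) x9388) x9262) x9154) x10288) x7858) x568) x18064) x2754) x15878)
  (sub (add (add (sub (sub (sub (sub (add (add (sub (sub C x9316) x9324) x9354) x9390) x9264) x9156) x10290) x7860) x570) x18066) x2758)
  (sub (add (add (sub (sub (sub (sub (sub (sub (add (add C x9328) x9332) x9318) x9342) x9270) x9162) x10296) x7866) x576) x18072) x2764)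
  (add (add (add (add (sub (sub (sub (sub (sub (add (add (add (add C x9324) x9332) x9316) x9340) x9346) x9274) x9166) x10300) x7870) x580) x18076) x2766) x15890)
  (sub (add (add (sub (sub (sub (sub (sub (sub (add (add C x9324) x9328) x9338) x9350) x9278) x9170) x10304) x7874) x584) x18080) x15892)
  (sub (add (add (sub (sub (sub (sub (sub (sub (sub C x9340) x9332) x9374) x9284) x9176) x10310) x7880) x590) x18086) x15898)
  (add (add (add (add (sub (sub (sub (sub (sub (add (add (sub C x9338) x9316) x9328) x9376) x9286) x9178) x10312) x7882) x592) x18088) x2778) x15902)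
  (sub (add (add (sub (sub (sub (add (add (sub (add (add (add (add C x9346) x9350) x9354) x9366) x9324) x9234) x9450) x9180) x10314) x7884) x594) x18090) x2782)
  (add (add (add (add (sub (sub (sub (add (add (sub (sub (add (add C x9342) x9350) x9352) x9328) x9238) x9454) x9184) x10318) x7888) x598) x18094) x2784) x15908)
  (sub (add (add (sub (sub (sub (add (add (sub (sub (add (add C x9342) x9346) x9362) x9332) x9242) x9458) x9188) x10322) x7892) x602) x18098) x15910)
  (add (add (add (add (sub (sub (sub (add (add (add (add (sub (sub C x9354) x9346) x9316) x9388) x9244) x9460) x9190) x10324) x7894) x604) x18100) x2790) x15914)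
  (sub (add (add (sub (sub (sub (add (add (add (add (add (add (sub C x9352) x9342) x9366) x9318) x9390) x9246) x9462) x9192) x10326) x7896) x606) x18102) x2794)
  (sub (add (add (sub (sub (sub (add (add (sub (sub (sub C x9366) x9350) x9380) x9254) x9470) x9200) x10334) x7904) x614) x18110) x15922)
  (sub (add (add (sub (sub (sub (add (add (sub (add (add (sub C x9362) x9342) x9354) x9384) x9258) x9474) x9204) x10338) x7908) x618) x18114) x2806)
  (sub (add (add (sub (sub (sub (sub (sub (sub (sub C x9376) x9380) x9338) x9428) x9212) x10346) x7916) x626) x18122) x15934)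
  (add (add (add (add (sub (sub (sub (sub (sub (sub (sub C x9374) x9388) x9340) x9430) x9214) x10348) x7918) x628) x18124) x2814) x15938)
  (sub (add (add (sub (sub (sub (sub (sub (sub (sub C x9384) x9374) x9362) x9434) x9218) x10352) x7922) x632) x18128) x15940)
  (sub (add (add (sub (sub (sub (sub (sub (sub (sub C x9380) x9390) x9366) x9438) x9222) x10356) x7926) x636) x18132) x2824)
  (add (add (add (add (sub (sub (sub (sub (add (add (sub (sub C x9390) x9376) x9316) x9352) x9442) x9226) x10360) x7930) x640) x18136) x2826) x15950)
  (sub (add (add (sub (sub (sub (sub (add (add (sub (sub C x9388) x9384) x9318) x9354) x9444) x9228) x10362) x7932) x642) x18138) x2830)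
  (sub (add (add (sub (sub (add (add (sub (add (add (add (add (sub C x9402) x9410) x9422) x9434) x9470) x9290) x8750) x9074) x10370) x7940) x650) x18146) x15958)
  (sub (add (add (sub (sub (add (add (sub (add (add (sub (sub C x9398) x9414) x9438) x9474) x9294) x8754) x9078) x10374) x7944) x654) x18150) x2842)
  (sub (add (add (sub (sub (add (add (sub (sub (add (add (sub C x9412) x9398) x9422) x9428) x9302) x8762) x9086) x10382) x7952) x662) x18158) x15970)
  (add (add (add (add (sub (sub (add (add (sub (sub (sub (sub C x9410) x9418) x9430) x9304) x8764) x9088) x10384) x7954) x664) x18160) x2850) x15974)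
  (sub (add (add (sub (sub (add (add (sub (sub (sub (add (add C x9418) x9422) x9402) x9450) x9306) x8766) x9090) x10386) x7956) x666) x18162) x2854)
  (add (add (add (add (sub (sub (add (add (sub (sub (sub (add (add C x9414) x9422) x9412) x9454) x9310) x8770) x9094) x10390) x7960) x670) x18166) x2856) x15980)
  (sub (add (add (sub (sub (add (add (sub (sub (add (add (add (add C x9414) x9418) x9398) x9410) x9458) x9314) x8774) x9098) x10394) x7964) x674) x18170) x15982)
  (sub (add (add (sub (sub (add (add (sub (sub (sub (sub C x9430) x9434) x9410) x9374) x8780) x9104) x10400) x7970) x680) x18176) x15988)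
  (add (add (add (add (sub (sub (add (add (sub (sub (sub (sub C x9428) x9442) x9412) x9376) x8782) x9106) x10402) x7972) x682) x18178) x2868) x15992)
  (sub (add (add (sub (sub (add (add (sub (add (add (sub (sub C x9438) x9428) x9398) x9470) x9380) x8786) x9110) x10406) x7976) x686) x18182) x15994)
  (sub (add (add (sub (sub (add (add (sub (add (add (sub (sub C x9434) x9444) x9402) x9474) x9384) x8790) x9114) x10410) x7980) x690) x18186) x2878)
  (add (add (add (add (sub (sub (add (add (sub (sub (sub (sub C x9444) x9430) x9460) x9388) x8794) x9118) x10414) x7984) x694) x18190) x2880) x16004)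
  (sub (add (add (sub (sub (add (add (sub (sub (sub (sub C x9442) x9438) x9462) x9390) x8796) x9120) x10416) x7986) x696) x18192) x2884)
  (sub (add (add (sub (sub (add (add (add (add (sub (add (add (add (add C x9454) x9458) x9462) x9474) x9414) x9234) x9342) x8802) x9126) x10422) x7992) x702) x18198) x2890)
  (add (add (add (add (sub (sub (add (add (add (add (sub (sub (add (add C x9450) x9458) x9460) x9418) x9238) x9346) x8806) x9130) x10426) x7996) x706) x18202) x2892) x16016)
  (sub (add (add (sub (sub (add (add (add (add (sub (sub (add (add C x9450) x9454) x9470) x9422) x9242) x9350) x8810) x9134) x10430) x8000) x710) x18206) x16018)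
  (add (add (add (add (sub (sub (add (add (add (add (sub (sub (sub C x9462) x9454) x9442) x9244) x9352) x8812) x9136) x10432) x8002) x712) x18208) x2898) x16022)
  (sub (add (add (sub (sub (add (add (add (add (sub (add (add (sub C x9460) x9450) x9474) x9444) x9246) x9354) x8814) x9138) x10434) x8004) x714) x18210) x2902)
  (sub (add (add (sub (sub (add (add (add (add (add (add (sub (sub C x9474) x9458) x9398) x9434) x9254) x9362) x8822) x9146) x10442) x8012) x722) x18218) x16030)
  (sub (add (add (sub (sub (add (add (add (add (add (add (add (add (sub C x9470) x9450) x9462) x9402) x9438) x9258) x9366) x8826) x9150) x10446) x8016) x726) x18222) x2914)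
  (sub (add (add (add (add (sub (add (add (add (add (add (add (sub (sub C x9484) x9488) x9518) x9554) x9590) x9698) x9806) x10130) x8996) x6566) x12398) x734) x18230) x16042)
  (add (add (add (add (add (add (sub (add (add (add (add (add (add (sub (sub C x9482) x9496) x9520) x9556) x9592) x9700) x9808) x10132) x8998) x6568) x12400) x736) x18232) x2922) x16046)
  (sub (add (add (add (add (sub (add (add (add (add (sub (sub (sub C x9492) x9482) x9506) x9596) x9704) x9812) x10136) x9002) x6572) x12404) x740) x18236) x16048)
  (sub (add (add (add (add (sub (add (add (add (add (sub (sub (sub C x9488) x9498) x9510) x9600) x9708) x9816) x10140) x9006) x6576) x12408) x744) x18240) x2932)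
  (add (add (add (add (add (add (sub (add (add (add (add (sub (sub (sub C x9498) x9484) x9532) x9604) x9712) x9820) x10144) x9010) x6580) x12412) x748) x18244) x2934) x16058)
  (sub (add (add (add (add (sub (add (add (add (add (sub (sub (sub C x9496) x9492) x9534) x9606) x9714) x9822) x10146) x9012) x6582) x12414) x750) x18246) x2938)
  (sub (add (add (add (add (sub (add (add (sub (sub (add (add (sub C x9510) x9518) x9530) x9488) x9560) x9830) x10154) x9020) x6590) x12422) x758) x18254) x16066)
  (sub (add (add (add (add (sub (add (add (sub (sub (sub (sub C x9506) x9522) x9492) x9564) x9834) x10158) x9024) x6594) x12426) x762) x18258) x2950)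
  (sub (add (add (add (add (sub (add (add (sub (add (add (add (add (sub C x9520) x9506) x9530) x9482) x9554) x9572) x9842) x10166) x9032) x6602) x12434) x770) x18266) x16078)
  (add (add (add (add (add (add (sub (add (add (sub (add (add (sub (sub C x9518) x9526) x9484) x9556) x9574) x9844) x10168) x9034) x6604) x12436) x772) x18268) x2958) x16082)
  (sub (add (add (add (add (sub (add (add (sub (sub (sub (add (add C x9526) x9530) x9510) x9540) x9576) x9846) x10170) x9036) x6606) x12438) x774) x18270) x2962)
  (add (add (add (add (add (add (sub (add (add (sub (sub (sub (add (add C x9522) x9530) x9520) x9544) x9580) x9850) x10174) x9040) x6610) x12442) x778) x18274) x2964) x16088)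
  (sub (add (add (add (add (sub (add (add (sub (sub (add (add (add (add C x9522) x9526) x9506) x9518) x9548) x9584) x9854) x10178) x9044) x6614) x12446) x782) x18278) x16090)
  (add (add (add (add (add (add (sub (add (add (sub (sub (add (add (sub C x9534) x9544) x9556) x9496) x9640) x9856) x10180) x9046) x6616) x12448) x784) x18280) x2970) x16094)
  (sub (add (add (add (add (sub (add (add (sub (sub (sub (sub C x9532) x9540) x9498) x9642) x9858) x10182) x9048) x6618) x12450) x786) x18282) x2974)
  (sub (add (add (add (add (sub (add (add (sub (sub (sub (add (add C x9544) x9548) x9534) x9522) x9648) x9864) x10188) x9054) x6624) x12456) x792) x18288) x2980)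
  (add (add (add (add (add (add (sub (add (add (sub (sub (add (add (add (add C x9540) x9548) x9532) x9556) x9526) x9652) x9868) x10192) x9058) x6628) x12460) x796) x18292) x2982) x16106)
  (sub (add (add (add (add (sub (add (add (sub (sub (sub (add (add C x9540) x9544) x9554) x9530) x9656) x9872) x10196) x9062) x6632) x12464) x800) x18296) x16108)
  (sub (add (add (add (add (sub (add (add (sub (add (add (sub (sub C x9556) x9548) x9482) x9518) x9662) x9878) x10202) x9068) x6638) x12470) x806) x18302) x16114)
  (add (add (add (add (add (add (sub (add (add (sub (add (add (add (add (sub C x9554) x9532) x9544) x9484) x9520) x9664) x9880) x10204) x9070) x6640) x12472) x808) x18304) x2994) x16118)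
  (sub (add (add (add (add (sub (sub (sub (add (add (add (add (sub C x9564) x9572) x9584) x9596) x9632) x9506) x9722) x9074) x6644) x12476) x812) x18308) x16120)
  (sub (add (add (add (add (sub (sub (sub (add (add (sub (sub C x9560) x9576) x9600) x9636) x9510) x9726) x9078) x6648) x12480) x816) x18312) x3004)
  (sub (add (add (add (add (sub (sub (sub (sub (add (add (sub C x9574) x9560) x9584) x9590) x9518) x9734) x9086) x6656) x12488) x824) x18320) x16132)
  (add (add (add (add (add (add (sub (sub (sub (sub (sub (sub C x9572) x9580) x9592) x9520) x9736) x9088) x6658) x12490) x826) x18322) x3012) x16136)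
  (sub (add (add (add (add (sub (sub (sub (sub (sub (add (add C x9580) x9584) x9564) x9612) x9522) x9738) x9090) x6660) x12492) x828) x18324) x3016)
  (add (add (add (add (add (add (sub (sub (sub (sub (sub (add (add C x9576) x9584) x9574) x9616) x9526) x9742) x9094) x6664) x12496) x832) x18328) x3018) x16142)
  (sub (add (add (add (add (sub (sub (sub (sub (add (add (add (add C x9576) x9580) x9560) x9572) x9620) x9530) x9746) x9098) x6668) x12500) x836) x18332) x16144)
  (sub (add (add (add (add (sub (sub (add (add (sub (sub (sub C x9592) x9596) x9572) x9482) x9698) x9752) x9104) x6674) x12506) x842) x18338) x16150)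
  (add (add (add (add (add (add (sub (sub (add (add (sub (sub (sub C x9590) x9604) x9574) x9484) x9700) x9754) x9106) x6676) x12508) x844) x18340) x3030) x16154)
  (sub (add (add (add (add (sub (sub (add (add (add (add (sub (sub C x9600) x9590) x9560) x9632) x9488) x9704) x9758) x9110) x6680) x12512) x848) x18344) x16156)
  (sub (add (add (add (add (sub (sub (add (add (add (add (sub (sub C x9596) x9606) x9564) x9636) x9492) x9708) x9762) x9114) x6684) x12516) x852) x18348) x3040)
  (add (add (add (add (add (add (sub (sub (add (add (sub (sub (sub C x9606) x9592) x9622) x9496) x9712) x9766) x9118) x6688) x12520) x856) x18352) x3042) x16166)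
  (sub (add (add (add (add (sub (sub (add (add (sub (sub (sub C x9604) x9600) x9624) x9498) x9714) x9768) x9120) x6690) x12522) x858) x18354) x3046)
  (sub (add (add (add (add (sub (sub (sub (sub (add (add (add (add C x9616) x9620) x9624) x9636) x9576) x9666) x9774) x9126) x6696) x12528) x864) x18360) x3052)
  (add (add (add (add (add (add (sub (sub (sub (sub (sub (add (add C x9612) x9620) x9622) x9580) x9670) x9778) x9130) x6700) x12532) x868) x18364) x3054) x16178)
  (sub (add (add (add (add (sub (sub (sub (sub (sub (add (add C x9612) x9616) x9632) x9584) x9674) x9782) x9134) x6704) x12536) x872) x18368) x16180)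
  (add (add (add (add (add (add (sub (sub (sub (sub (sub (sub C x9624) x9616) x9604) x9676) x9784) x9136) x6706) x12538) x874) x18370) x3060) x16184)
  (sub (add (add (add (add (sub (sub (sub (sub (add (add (sub C x9622) x9612) x9636) x9606) x9678) x9786) x9138) x6708) x12540) x876) x18372) x3064)
  (sub (add (add (add (add (sub (sub (sub (add (add (sub (sub C x9636) x9620) x9560) x9596) x9686) x9794) x9146) x6716) x12548) x884) x18380) x16192)
  (sub (add (add (add (add (sub (sub (sub (add (add (add (add (sub C x9632) x9612) x9624) x9564) x9600) x9690) x9798) x9150) x6720) x12552) x888) x18384) x3076)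
  (add (add (add (add (add (add (sub (sub (sub (add (add (add (add (sub C x9642) x9652) x9664) x9676) x9712) x9532) x9964) x9154) x6724) x12556) x892) x18388) x3078) x16202)
  (sub (add (add (add (add (sub (sub (sub (add (add (sub (sub C x9640) x9648) x9678) x9714) x9534) x9966) x9156) x6726) x12558) x894) x18390) x3082)
  (sub (add (add (add (add (sub (sub (sub (sub (sub (add (add C x9652) x9656) x9642) x9666) x9540) x9972) x9162) x6732) x12564) x900) x18396) x3088)
  (add (add (add (add (add (add (sub (sub (sub (sub (add (add (add (add C x9648) x9656) x9640) x9664) x9670) x9544) x9976) x9166) x6736) x12568) x904) x18400) x3090) x16214)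
  (sub (add (add (add (add (sub (sub (sub (sub (sub (add (add C x9648) x9652) x9662) x9674) x9548) x9980) x9170) x6740) x12572) x908) x18404) x16216)
  (sub (add (add (add (add (sub (sub (sub (sub (sub (sub C x9664) x9656) x9698) x9554) x9986) x9176) x6746) x12578) x914) x18410) x16222)
  (add (add (add (add (add (add (sub (sub (sub (sub (add (add (sub C x9662) x9640) x9652) x9700) x9556) x9988) x9178) x6748) x12580) x916) x18412) x3102) x16226)
  (sub (add (add (add (add (sub (sub (sub (sub (add (add (add (add C x9670) x9674) x9678) x9690) x9648) x9612) x9990) x9180) x6750) x12582) x918) x18414) x3106)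
  (add (add (add (add (add (add (sub (sub (sub (sub (sub (add (add C x9666) x9674) x9676) x9652) x9616) x9994) x9184) x6754) x12586) x922) x18418) x3108) x16232)
  (sub (add (add (add (add (sub (sub (sub (sub (sub (add (add C x9666) x9670) x9686) x9656) x9620) x9998) x9188) x6758) x12590) x926) x18422) x16234)
  (add (add (add (add (add (add (sub (sub (sub (add (add (sub (sub C x9678) x9670) x9640) x9712) x9622) x10000) x9190) x6760) x12592) x928) x18424) x3114) x16238)
  (sub (add (add (add (add (sub (sub (sub (add (add (add (add (sub C x9676) x9666) x9690) x9642) x9714) x9624) x10002) x9192) x6762) x12594) x930) x18426) x3118)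
  (sub (add (add (add (add (sub (sub (sub (sub (sub (sub C x9690) x9674) x9704) x9632) x10010) x9200) x6770) x12602) x938) x18434) x16246)
  (sub (add (add (add (add (sub (sub (sub (sub (add (add (sub C x9686) x9666) x9678) x9708) x9636) x10014) x9204) x6774) x12606) x942) x18438) x3130)
  (sub (add (add (add (add (sub (sub (add (add (sub (sub (sub C x9700) x9704) x9662) x9482) x9590) x10022) x9212) x6782) x12614) x950) x18446) x16258)
  (add (add (add (add (add (add (sub (sub (add (add (sub (sub (sub C x9698) x9712) x9664) x9484) x9592) x10024) x9214) x6784) x12616) x952) x18448) x3138) x16262)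
  (sub (add (add (add (add (sub (sub (add (add (sub (sub (sub C x9708) x9698) x9686) x9488) x9596) x10028) x9218) x6788) x12620) x956) x18452) x16264)
  (sub (add (add (add (add (sub (sub (add (add (sub (sub (sub C x9704) x9714) x9690) x9492) x9600) x10032) x9222) x6792) x12624) x960) x18456) x3148)
  (add (add (add (add (add (add (sub (sub (add (add (add (add (sub (sub C x9714) x9700) x9640) x9676) x9496) x9604) x10036) x9226) x6796) x12628) x964) x18460) x3150) x16274)
  (sub (add (add (add (add (sub (sub (add (add (add (add (sub (sub C x9712) x9708) x9642) x9678) x9498) x9606) x10038) x9228) x6798) x12630) x966) x18462) x3154)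
  (sub (add (add (add (add (add (add (sub (add (add (add (add (add (add (sub C x9726) x9734) x9746) x9758) x9794) x9830) x9938) x9560) x8750) x10694) x6806) x12638) x974) x18470) x16282)
  (sub (add (add (add (add (add (add (sub (add (add (add (add (sub (sub C x9722) x9738) x9762) x9798) x9834) x9942) x9564) x8754) x10698) x6810) x12642) x978) x18474) x3166)
  (sub (add (add (add (add (add (add (sub (add (add (sub (add (add (sub C x9736) x9722) x9746) x9752) x9842) x9950) x9572) x8762) x10706) x6818) x12650) x986) x18482) x16294)
  (add (add (add (add (add (add (add (add (sub (add (add (sub (sub (sub C x9734) x9742) x9754) x9844) x9952) x9574) x8764) x10708) x6820) x12652) x988) x18484) x3174) x16298)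
  (sub (add (add (add (add (add (add (sub (add (add (sub (sub (add (add C x9742) x9746) x9726) x9774) x9846) x9954) x9576) x8766) x10710) x6822) x12654) x990) x18486) x3178)
  (add (add (add (add (add (add (add (add (sub (add (add (sub (sub (add (add C x9738) x9746) x9736) x9778) x9850) x9958) x9580) x8770) x10714) x6826) x12658) x994) x18490) x3180) x16304)
  (sub (add (add (add (add (add (add (sub (add (add (sub (add (add (add (add C x9738) x9742) x9722) x9734) x9782) x9854) x9962) x9584) x8774) x10718) x6830) x12662) x998) x18494) x16306)
  (sub (add (add (add (add (add (add (sub (sub (sub (sub (sub C x9754) x9758) x9734) x9806) x9590) x8780) x10724) x6836) x12668) x1004) x18500) x16312)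
  (add (add (add (add (add (add (add (add (sub (sub (sub (sub (sub C x9752) x9766) x9736) x9808) x9592) x8782) x10726) x6838) x12670) x1006) x18502) x3192) x16316)
  (sub (add (add (add (add (add (add (sub (sub (add (add (sub (sub C x9762) x9752) x9722) x9794) x9812) x9596) x8786) x10730) x6842) x12674) x1010) x18506) x16318)
  (sub (add (add (add (add (add (add (sub (sub (add (add (sub (sub C x9758) x9768) x9726) x9798) x9816) x9600) x8790) x10734) x6846) x12678) x1014) x18510) x3202)
  (add (add (add (add (add (add (add (add (sub (sub (sub (sub (sub C x9768) x9754) x9784) x9820) x9604) x8794) x10738) x6850) x12682) x1018) x18514) x3204) x16328)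
  (sub (add (add (add (add (add (add (sub (sub (sub (sub (sub C x9766) x9762) x9786) x9822) x9606) x8796) x10740) x6852) x12684) x1020) x18516) x3208)
  (sub (add (add (add (add (add (add (sub (sub (sub (add (add (add (add C x9778) x9782) x9786) x9798) x9738) x9882) x9612) x8802) x10746) x6858) x12690) x1026) x18522) x3214)
  (add (add (add (add (add (add (add (add (sub (sub (sub (sub (add (add C x9774) x9782) x9784) x9742) x9886) x9616) x8806) x10750) x6862) x12694) x1030) x18526) x3216) x16340)
  (sub (add (add (add (add (add (add (sub (sub (sub (sub (add (add C x9774) x9778) x9794) x9746) x9890) x9620) x8810) x10754) x6866) x12698) x1034) x18530) x16342)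
  (add (add (add (add (add (add (add (add (sub (sub (sub (sub (sub C x9786) x9778) x9766) x9892) x9622) x8812) x10756) x6868) x12700) x1036) x18532) x3222) x16346)
  (sub (add (add (add (add (add (add (sub (sub (sub (add (add (sub C x9784) x9774) x9798) x9768) x9894) x9624) x8814) x10758) x6870) x12702) x1038) x18534) x3226)
  (sub (add (add (add (add (add (add (sub (sub (add (add (sub (sub C x9798) x9782) x9722) x9758) x9902) x9632) x8822) x10766) x6878) x12710) x1046) x18542) x16354)
  (sub (add (add (add (add (add (add (sub (sub (add (add (add (add (sub C x9794) x9774) x9786) x9726) x9762) x9906) x9636) x8826) x10770) x6882) x12714) x1050) x18546) x3238)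
  (sub (add (add (add (add (add (add (add (add (sub (add (add (sub (sub C x9808) x9812) x9842) x9878) x9752) x9482) x10130) x8834) x10778) x6890) x12722) x1058) x18554) x16366)
  (add (add (add (add (add (add (add (add (add (add (sub (add (add (sub (sub C x9806) x9820) x9844) x9880) x9754) x9484) x10132) x8836) x10780) x6892) x12724) x1060) x18556) x3246) x16370)
  (sub (add (add (add (add (add (add (add (add (sub (sub (sub (sub C x9816) x9806) x9830) x9758) x9488) x10136) x8840) x10784) x6896) x12728) x1064) x18560) x16372)
  (sub (add (add (add (add (add (add (add (add (sub (sub (sub (sub C x9812) x9822) x9834) x9762) x9492) x10140) x8844) x10788) x6900) x12732) x1068) x18564) x3256)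
  (add (add (add (add (add (add (add (add (add (add (sub (sub (sub (sub C x9822) x9808) x9856) x9766) x9496) x10144) x8848) x10792) x6904) x12736) x1072) x18568) x3258) x16382)
  (sub (add (add (add (add (add (add (add (add (sub (sub (sub (sub C x9820) x9816) x9858) x9768) x9498) x10146) x8850) x10794) x6906) x12738) x1074) x18570) x3262)
  (sub (add (add (add (add (add (add (add (add (add (add (sub (add (add (sub C x9834) x9842) x9854) x9812) x9722) x9938) x9506) x10154) x8858) x10802) x6914) x12746) x1082) x18578) x16390)
  (sub (add (add (add (add (add (add (add (add (add (add (sub (sub (sub C x9830) x9846) x9816) x9726) x9942) x9510) x10158) x8862) x10806) x6918) x12750) x1086) x18582) x3274)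
  (sub (add (add (add (add (add (add (add (add (add (add (add (add (add (add (sub C x9844) x9830) x9854) x9806) x9878) x9734) x9950) x9518) x10166) x8870) x10814) x6926) x12758) x1094) x18590) x16402)
  (add (add (add (add (add (add (add (add (add (add (add (add (add (add (sub (sub C x9842) x9850) x9808) x9880) x9736) x9952) x9520) x10168) x8872) x10816) x6928) x12760) x1096) x18592) x3282) x16406)
  (sub (add (add (add (add (add (add (add (add (add (add (sub (sub (add (add C x9850) x9854) x9834) x9864) x9738) x9954) x9522) x10170) x8874) x10818) x6930) x12762) x1098) x18594) x3286)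
  (add (add (add (add (add (add (add (add (add (add (add (add (sub (sub (add (add C x9846) x9854) x9844) x9868) x9742) x9958) x9526) x10174) x8878) x10822) x6934) x12766) x1102) x18598) x3288) x16412)
  (sub (add (add (add (add (add (add (add (add (add (add (sub (add (add (add (add C x9846) x9850) x9830) x9842) x9872) x9746) x9962) x9530) x10178) x8882) x10826) x6938) x12770) x1106) x18602) x16414)
  (add (add (add (add (add (add (add (add (add (add (sub (sub (add (add (sub C x9858) x9868) x9880) x9820) x9910) x9532) x10180) x8884) x10828) x6940) x12772) x1108) x18604) x3294) x16418)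
  (sub (add (add (add (add (add (add (add (add (sub (sub (sub (sub C x9856) x9864) x9822) x9912) x9534) x10182) x8886) x10830) x6942) x12774) x1110) x18606) x3298)
  (sub (add (add (add (add (add (add (add (add (sub (sub (sub (add (add C x9868) x9872) x9858) x9846) x9918) x9540) x10188) x8892) x10836) x6948) x12780) x1116) x18612) x3304)
  (add (add (add (add (add (add (add (add (add (add (sub (sub (add (add (add (add C x9864) x9872) x9856) x9880) x9850) x9922) x9544) x10192) x8896) x10840) x6952) x12784) x1120) x18616) x3306) x16430)
  (sub (add (add (add (add (add (add (add (add (sub (sub (sub (add (add C x9864) x9868) x9878) x9854) x9926) x9548) x10196) x8900) x10844) x6956) x12788) x1124) x18620) x16432)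
  (sub (add (add (add (add (add (add (add (add (sub (add (add (sub (sub C x9880) x9872) x9806) x9842) x9932) x9554) x10202) x8906) x10850) x6962) x12794) x1130) x18626) x16438)
  (add (add (add (add (add (add (add (add (add (add (sub (add (add (add (add (sub C x9878) x9856) x9868) x9808) x9844) x9934) x9556) x10204) x8908) x10852) x6964) x12796) x1132) x18628) x3318) x16442)
  (sub (add (add (add (add (add (add (sub (sub (add (add (add (add (add (add C x9886) x9890) x9894) x9906) x9918) x9954) x9774) x10044) x8910) x10854) x6966) x12798) x1134) x18630) x3322)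
  (add (add (add (add (add (add (add (add (sub (sub (add (add (sub (add (add C x9882) x9890) x9892) x9922) x9958) x9778) x10048) x8914) x10858) x6970) x12802) x1138) x18634) x3324) x16448)
  (sub (add (add (add (add (add (add (sub (sub (add (add (sub (add (add C x9882) x9886) x9902) x9926) x9962) x9782) x10052) x8918) x10862) x6974) x12806) x1142) x18638) x16450)
  (add (add (add (add (add (add (add (add (sub (sub (sub (sub (sub C x9894) x9886) x9910) x9784) x10054) x8920) x10864) x6976) x12808) x1144) x18640) x3330) x16454)
  (sub (add (add (add (add (add (add (sub (sub (sub (add (add (sub C x9892) x9882) x9906) x9912) x9786) x10056) x8922) x10866) x6978) x12810) x1146) x18642) x3334)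
  (sub (add (add (add (add (add (add (sub (sub (sub (sub (sub C x9906) x9890) x9938) x9794) x10064) x8930) x10874) x6986) x12818) x1154) x18650) x16462)
  (sub (add (add (add (add (add (add (sub (sub (sub (add (add (sub C x9902) x9882) x9894) x9942) x9798) x10068) x8934) x10878) x6990) x12822) x1158) x18654) x3346)
  (add (add (add (add (add (add (add (add (sub (sub (sub (add (add (sub C x9912) x9922) x9934) x9892) x9856) x10072) x8938) x10882) x6994) x12826) x1162) x18658) x3348) x16472)
  (sub (add (add (add (add (add (add (sub (sub (sub (sub (sub C x9910) x9918) x9894) x9858) x10074) x8940) x10884) x6996) x12828) x1164) x18660) x3352)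
  (sub (add (add (add (add (add (add (sub (sub (add (add (sub (add (add C x9922) x9926) x9912) x9882) x9954) x9864) x10080) x8946) x10890) x7002) x12834) x1170) x18666) x3358)
  (add (add (add (add (add (add (add (add (sub (sub (add (add (add (add (add (add C x9918) x9926) x9910) x9934) x9886) x9958) x9868) x10084) x8950) x10894) x7006) x12838) x1174) x18670) x3360) x16484)
  (sub (add (add (add (add (add (add (sub (sub (add (add (sub (add (add C x9918) x9922) x9932) x9890) x9962) x9872) x10088) x8954) x10898) x7010) x12842) x1178) x18674) x16486)
  (sub (add (add (add (add (add (add (sub (sub (sub (sub (sub C x9934) x9926) x9950) x9878) x10094) x8960) x10904) x7016) x12848) x1184) x18680) x16492)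
  (add (add (add (add (add (add (add (add (sub (sub (sub (add (add (sub C x9932) x9910) x9922) x9952) x9880) x10096) x8962) x10906) x7018) x12850) x1186) x18682) x3372) x16496)
  (sub (add (add (add (add (add (add (sub (add (add (sub (add (add (sub C x9942) x9950) x9962) x9902) x9722) x9830) x10100) x8966) x10910) x7022) x12854) x1190) x18686) x16498)
  (sub (add (add (add (add (add (add (sub (add (add (sub (sub (sub C x9938) x9954) x9906) x9726) x9834) x10104) x8970) x10914) x7026) x12858) x1194) x18690) x3382)
  (sub (add (add (add (add (add (add (sub (add (add (sub (add (add (sub C x9952) x9938) x9962) x9932) x9734) x9842) x10112) x8978) x10922) x7034) x12866) x1202) x18698) x16510)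
  (add (add (add (add (add (add (add (add (sub (add (add (sub (sub (sub C x9950) x9958) x9934) x9736) x9844) x10114) x8980) x10924) x7036) x12868) x1204) x18700) x3390) x16514)
  (sub (add (add (add (add (add (add (sub (add (add (add (add (sub (add (add C x9958) x9962) x9942) x9882) x9918) x9738) x9846) x10116) x8982) x10926) x7038) x12870) x1206) x18702) x3394)
  (add (add (add (add (add (add (add (add (sub (add (add (add (add (sub (add (add C x9954) x9962) x9952) x9886) x9922) x9742) x9850) x10120) x8986) x10930) x7042) x12874) x1210) x18706) x3396) x16520)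
  (sub (add (add (add (add (add (add (sub (add (add (add (add (add (add (add (add C x9954) x9958) x9938) x9950) x9890) x9926) x9746) x9854) x10124) x8990) x10934) x7046) x12878) x1214) x18710) x16522)
  (add (add (add (add (add (add (sub (sub (add (add (add (add (add (add (sub C x9966) x9976) x9988) x10000) x10036) x10072) x10180) x9640) x10450) x7048) x12880) x1216) x18712) x3402) x16526)
  (sub (add (add (add (add (sub (sub (add (add (add (add (sub (sub C x9964) x9972) x10002) x10038) x10074) x10182) x9642) x10452) x7050) x12882) x1218) x18714) x3406)
  (sub (add (add (add (add (sub (sub (add (add (sub (sub (add (add C x9976) x9980) x9966) x9990) x10080) x10188) x9648) x10458) x7056) x12888) x1224) x18720) x3412)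
  (add (add (add (add (add (add (sub (sub (add (add (sub (add (add (add (add C x9972) x9980) x9964) x9988) x9994) x10084) x10192) x9652) x10462) x7060) x12892) x1228) x18724) x3414) x16538)
  (sub (add (add (add (add (sub (sub (add (add (sub (sub (add (add C x9972) x9976) x9986) x9998) x10088) x10196) x9656) x10466) x7064) x12896) x1232) x18728) x16540)
  (sub (add (add (add (add (sub (sub (add (add (sub (sub (sub C x9988) x9980) x10022) x10094) x10202) x9662) x10472) x7070) x12902) x1238) x18734) x16546)
  (add (add (add (add (add (add (sub (sub (add (add (sub (add (add (sub C x9986) x9964) x9976) x10024) x10096) x10204) x9664) x10474) x7072) x12904) x1240) x18736) x3426) x16550)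
  (sub (add (add (add (add (sub (sub (sub (sub (add (add (add (add C x9994) x9998) x10002) x10014) x9972) x10044) x9666) x10476) x7074) x12906) x1242) x18738) x3430)
  (add (add (add (add (add (add (sub (sub (sub (sub (sub (add (add C x9990) x9998) x10000) x9976) x10048) x9670) x10480) x7078) x12910) x1246) x18742) x3432) x16556)
  (sub (add (add (add (add (sub (sub (sub (sub (sub (add (add C x9990) x9994) x10010) x9980) x10052) x9674) x10484) x7082) x12914) x1250) x18746) x16558)
  (add (add (add (add (add (add (sub (sub (sub (add (add (sub (sub C x10002) x9994) x9964) x10036) x10054) x9676) x10486) x7084) x12916) x1252) x18748) x3438) x16562)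
  (sub (add (add (add (add (sub (sub (sub (add (add (add (add (sub C x10000) x9990) x10014) x9966) x10038) x10056) x9678) x10488) x7086) x12918) x1254) x18750) x3442)
  (sub (add (add (add (add (sub (sub (sub (sub (sub (sub C x10014) x9998) x10028) x10064) x9686) x10496) x7094) x12926) x1262) x18758) x16570)
  (sub (add (add (add (add (sub (sub (sub (sub (add (add (sub C x10010) x9990) x10002) x10032) x10068) x9690) x10500) x7098) x12930) x1266) x18762) x3454)
  (sub (add (add (add (add (sub (sub (sub (sub (sub (sub C x10024) x10028) x9986) x10130) x9698) x10508) x7106) x12938) x1274) x18770) x16582)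
  (add (add (add (add (add (add (sub (sub (sub (sub (sub (sub C x10022) x10036) x9988) x10132) x9700) x10510) x7108) x12940) x1276) x18772) x3462) x16586)
  (sub (add (add (add (add (sub (sub (sub (sub (sub (sub C x10032) x10022) x10010) x10136) x9704) x10514) x7112) x12944) x1280) x18776) x16588)
  (sub (add (add (add (add (sub (sub (sub (sub (sub (sub C x10028) x10038) x10014) x10140) x9708) x10518) x7116) x12948) x1284) x18780) x3472)
  (add (add (add (add (add (add (sub (sub (sub (add (add (sub (sub C x10038) x10024) x9964) x10000) x10144) x9712) x10522) x7120) x12952) x1288) x18784) x3474) x16598)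
  (sub (add (add (add (add (sub (sub (sub (add (add (sub (sub C x10036) x10032) x9966) x10002) x10146) x9714) x10524) x7122) x12954) x1290) x18786) x3478)
  (sub (add (add (add (add (sub (sub (sub (add (add (add (add (add (add C x10048) x10052) x10056) x10068) x10080) x10116) x9990) x9882) x10530) x7128) x12960) x1296) x18792) x3484)
  (add (add (add (add (add (add (sub (sub (sub (add (add (sub (add (add C x10044) x10052) x10054) x10084) x10120) x9994) x9886) x10534) x7132) x12964) x1300) x18796) x3486) x16610)
  (sub (add (add (add (add (sub (sub (sub (add (add (sub (add (add C x10044) x10048) x10064) x10088) x10124) x9998) x9890) x10538) x7136) x12968) x1304) x18800) x16612)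
  (add (add (add (add (add (add (sub (sub (sub (sub (sub (sub C x10056) x10048) x10072) x10000) x9892) x10540) x7138) x12970) x1306) x18802) x3492) x16616)
  (sub (add (add (add (add (sub (sub (sub (sub (add (add (sub C x10054) x10044) x10068) x10074) x10002) x9894) x10542) x7140) x12972) x1308) x18804) x3496)
  (sub (add (add (add (add (sub (sub (sub (sub (sub (sub C x10068) x10052) x10100) x10010) x9902) x10550) x7148) x12980) x1316) x18812) x16624)
  (sub (add (add (add (add (sub (sub (sub (sub (add (add (sub C x10064) x10044) x10056) x10104) x10014) x9906) x10554) x7152) x12984) x1320) x18816) x3508)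
  (add (add (add (add (add (add (sub (sub (add (add (sub (add (add (sub C x10074) x10084) x10096) x10054) x9964) x10180) x9910) x10558) x7156) x12988) x1324) x18820) x3510) x16634)
  (sub (add (add (add (add (sub (sub (add (add (sub (sub (sub C x10072) x10080) x10056) x9966) x10182) x9912) x10560) x7158) x12990) x1326) x18822) x3514)
  (sub (add (add (add (add (sub (sub (add (add (add (add (sub (add (add C x10084) x10088) x10074) x10044) x10116) x9972) x10188) x9918) x10566) x7164) x12996) x1332) x18828) x3520)
  (add (add (add (add (add (add (sub (sub (add (add (add (add (add (add (add (add C x10080) x10088) x10072) x10096) x10048) x10120) x9976) x10192) x9922) x10570) x7168) x13000) x1336) x18832) x3522) x16646)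
  (sub (add (add (add (add (sub (sub (add (add (add (add (sub (add (add C x10080) x10084) x10094) x10052) x10124) x9980) x10196) x9926) x10574) x7172) x13004) x1340) x18836) x16648)
  (sub (add (add (add (add (sub (sub (add (add (sub (sub (sub C x10096) x10088) x10112) x9986) x10202) x9932) x10580) x7178) x13010) x1346) x18842) x16654)
  (add (add (add (add (add (add (sub (sub (add (add (sub (add (add (sub C x10094) x10072) x10084) x10114) x9988) x10204) x9934) x10582) x7180) x13012) x1348) x18844) x3534) x16658)
  (sub (add (add (add (add (sub (sub (sub (sub (add (add (sub C x10104) x10112) x10124) x10064) x10154) x9938) x10586) x7184) x13016) x1352) x18848) x16660)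
  (sub (add (add (add (add (sub (sub (sub (sub (sub (sub C x10100) x10116) x10068) x10158) x9942) x10590) x7188) x13020) x1356) x18852) x3544)
  (sub (add (add (add (add (sub (sub (sub (sub (add (add (sub C x10114) x10100) x10124) x10094) x10166) x9950) x10598) x7196) x13028) x1364) x18860) x16672)
  (add (add (add (add (add (add (sub (sub (sub (sub (sub (sub C x10112) x10120) x10096) x10168) x9952) x10600) x7198) x13030) x1366) x18862) x3552) x16676)
  (sub (add (add (add (add (sub (sub (sub (add (add (sub (add (add C x10120) x10124) x10104) x10044) x10080) x10170) x9954) x10602) x7200) x13032) x1368) x18864) x3556)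
  (add (add (add (add (add (add (sub (sub (sub (add (add (sub (add (add C x10116) x10124) x10114) x10048) x10084) x10174) x9958) x10606) x7204) x13036) x1372) x18868) x3558) x16682)
  (sub (add (add (add (add (sub (sub (sub (add (add (add (add (add (add C x10116) x10120) x10100) x10112) x10052) x10088) x10178) x9962) x10610) x7208) x13040) x1376) x18872) x16684)
  (sub (add (add (add (add (sub (add (add (sub (add (add (sub (sub C x10132) x10136) x10166) x10202) x10022) x9482) x9806) x10616) x7214) x13046) x1382) x18878) x16690)
  (add (add (add (add (add (add (sub (add (add (sub (add (add (sub (sub C x10130) x10144) x10168) x10204) x10024) x9484) x9808) x10618) x7216) x13048) x1384) x18880) x3570) x16694)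
  (sub (add (add (add (add (sub (add (add (sub (sub (sub (sub C x10140) x10130) x10154) x10028) x9488) x9812) x10622) x7220) x13052) x1388) x18884) x16696)
  (sub (add (add (add (add (sub (add (add (sub (sub (sub (sub C x10136) x10146) x10158) x10032) x9492) x9816) x10626) x7224) x13056) x1392) x18888) x3580)
  (add (add (add (add (add (add (sub (add (add (sub (sub (sub (sub C x10146) x10132) x10180) x10036) x9496) x9820) x10630) x7228) x13060) x1396) x18892) x3582) x16706)
  (sub (add (add (add (add (sub (add (add (sub (sub (sub (sub C x10144) x10140) x10182) x10038) x9498) x9822) x10632) x7230) x13062) x1398) x18894) x3586)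
  (sub (add (add (add (add (sub (add (add (sub (sub (add (add (sub C x10158) x10166) x10178) x10136) x10100) x9506) x9830) x10640) x7238) x13070) x1406) x18902) x16714)
  (sub (add (add (add (add (sub (add (add (sub (sub (sub (sub C x10154) x10170) x10140) x10104) x9510) x9834) x10644) x7242) x13074) x1410) x18906) x3598)
  (sub (add (add (add (add (sub (add (add (sub (add (add (add (add (sub C x10168) x10154) x10178) x10130) x10202) x10112) x9518) x9842) x10652) x7250) x13082) x1418) x18914) x16726)
  (add (add (add (add (add (add (sub (add (add (sub (add (add (sub (sub C x10166) x10174) x10132) x10204) x10114) x9520) x9844) x10654) x7252) x13084) x1420) x18916) x3606) x16730)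
  (sub (add (add (add (add (sub (add (add (sub (sub (sub (add (add C x10174) x10178) x10158) x10188) x10116) x9522) x9846) x10656) x7254) x13086) x1422) x18918) x3610)
  (add (add (add (add (add (add (sub (add (add (sub (sub (sub (add (add C x10170) x10178) x10168) x10192) x10120) x9526) x9850) x10660) x7258) x13090) x1426) x18922) x3612) x16736)
  (sub (add (add (add (add (sub (add (add (sub (sub (add (add (add (add C x10170) x10174) x10154) x10166) x10196) x10124) x9530) x9854) x10664) x7262) x13094) x1430) x18926) x16738)
  (add (add (add (add (add (add (sub (add (add (add (add (sub (add (add (sub C x10182) x10192) x10204) x10144) x9964) x10072) x9532) x9856) x10666) x7264) x13096) x1432) x18928) x3618) x16742)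
  (sub (add (add (add (add (sub (add (add (add (add (sub (sub (sub C x10180) x10188) x10146) x9966) x10074) x9534) x9858) x10668) x7266) x13098) x1434) x18930) x3622)
  (sub (add (add (add (add (sub (add (add (add (add (sub (sub (add (add C x10192) x10196) x10182) x10170) x9972) x10080) x9540) x9864) x10674) x7272) x13104) x1440) x18936) x3628)
  (add (add (add (add (add (add (sub (add (add (add (add (sub (add (add (add (add C x10188) x10196) x10180) x10204) x10174) x9976) x10084) x9544) x9868) x10678) x7276) x13108) x1444) x18940) x3630) x16754)
  (sub (add (add (add (add (sub (add (add (add (add (sub (sub (add (add C x10188) x10192) x10202) x10178) x9980) x10088) x9548) x9872) x10682) x7280) x13112) x1448) x18944) x16756)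
  (sub (add (add (add (add (sub (add (add (add (add (add (add (sub (sub C x10204) x10196) x10130) x10166) x9986) x10094) x9554) x9878) x10688) x7286) x13118) x1454) x18950) x16762)
  (add (add (add (add (add (add (sub (add (add (add (add (add (add (add (add (sub C x10202) x10180) x10192) x10132) x10168) x9988) x10096) x9556) x9880) x10690) x7288) x13120) x1456) x18952) x3642) x16766)
  (sub (add (add (sub (sub (add (add (add (add (add (add (add (add (add (add C x10210) x10214) x10218) x10230) x10242) x10278) x10314) x10422) x10530) x10854) x9234) x11664) x1458) x18954) x3646)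
  (add (add (add (add (sub (sub (add (add (add (add (add (add (sub (add (add C x10206) x10214) x10216) x10246) x10282) x10318) x10426) x10534) x10858) x9238) x11668) x1462) x18958) x3648) x16772)
  (sub (add (add (sub (sub (add (add (add (add (add (add (sub (add (add C x10206) x10210) x10226) x10250) x10286) x10322) x10430) x10538) x10862) x9242) x11672) x1466) x18962) x16774)
  (add (add (add (add (sub (sub (add (add (add (add (sub (sub (sub C x10218) x10210) x10234) x10324) x10432) x10540) x10864) x9244) x11674) x1468) x18964) x3654) x16778)
  (sub (add (add (sub (sub (add (add (add (add (sub (add (add (sub C x10216) x10206) x10230) x10236) x10326) x10434) x10542) x10866) x9246) x11676) x1470) x18966) x3658)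
  (sub (add (add (sub (sub (add (add (add (add (sub (sub (sub C x10230) x10214) x10262) x10334) x10442) x10550) x10874) x9254) x11684) x1478) x18974) x16786)
  (sub (add (add (sub (sub (add (add (add (add (sub (add (add (sub C x10226) x10206) x10218) x10266) x10338) x10446) x10554) x10878) x9258) x11688) x1482) x18978) x3670)
  (add (add (add (add (sub (sub (add (add (sub (sub (add (add (sub C x10236) x10246) x10258) x10216) x10288) x10558) x10882) x9262) x11692) x1486) x18982) x3672) x16796)
  (sub (add (add (sub (sub (add (add (sub (sub (sub (sub C x10234) x10242) x10218) x10290) x10560) x10884) x9264) x11694) x1488) x18984) x3676)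
  (sub (add (add (sub (sub (add (add (sub (add (add (sub (add (add C x10246) x10250) x10236) x10206) x10278) x10296) x10566) x10890) x9270) x11700) x1494) x18990) x3682)
  (add (add (add (add (sub (sub (add (add (sub (add (add (add (add (add (add C x10242) x10250) x10234) x10258) x10210) x10282) x10300) x10570) x10894) x9274) x11704) x1498) x18994) x3684) x16808)
  (sub (add (add (sub (sub (add (add (sub (add (add (sub (add (add C x10242) x10246) x10256) x10214) x10286) x10304) x10574) x10898) x9278) x11708) x1502) x18998) x16810)
  (sub (add (add (sub (sub (add (add (sub (sub (sub (sub C x10258) x10250) x10274) x10310) x10580) x10904) x9284) x11714) x1508) x19004) x16816)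
  (add (add (add (add (sub (sub (add (add (sub (sub (add (add (sub C x10256) x10234) x10246) x10276) x10312) x10582) x10906) x9286) x11716) x1510) x19006) x3696) x16820)
  (sub (add (add (sub (sub (add (add (sub (sub (add (add (sub C x10266) x10274) x10286) x10226) x10370) x10586) x10910) x9290) x11720) x1514) x19010) x16822)
  (sub (add (add (sub (sub (add (add (sub (sub (sub (sub C x10262) x10278) x10230) x10374) x10590) x10914) x9294) x11724) x1518) x19014) x3706)
  (sub (add (add (sub (sub (add (add (sub (sub (add (add (sub C x10276) x10262) x10286) x10256) x10382) x10598) x10922) x9302) x11732) x1526) x19022) x16834)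
  (add (add (add (add (sub (sub (add (add (sub (sub (sub (sub C x10274) x10282) x10258) x10384) x10600) x10924) x9304) x11734) x1528) x19024) x3714) x16838)
  (sub (add (add (sub (sub (add (add (sub (add (add (sub (add (add C x10282) x10286) x10266) x10206) x10242) x10386) x10602) x10926) x9306) x11736) x1530) x19026) x3718)
  (add (add (add (add (sub (sub (add (add (sub (add (add (sub (add (add C x10278) x10286) x10276) x10210) x10246) x10390) x10606) x10930) x9310) x11740) x1534) x19030) x3720) x16844)
  (sub (add (add (sub (sub (add (add (sub (add (add (add (add (add (add C x10278) x10282) x10262) x10274) x10214) x10250) x10394) x10610) x10934) x9314) x11744) x1538) x19034) x16846)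
  (add (add (add (add (sub (sub (sub (sub (add (add (add (add (sub C x10290) x10300) x10312) x10324) x10360) x10234) x10450) x9316) x11746) x1540) x19036) x3726) x16850)
  (sub (add (add (sub (sub (sub (sub (add (add (sub (sub C x10288) x10296) x10326) x10362) x10236) x10452) x9318) x11748) x1542) x19038) x3730)
  (sub (add (add (sub (sub (sub (sub (sub (sub (add (add C x10300) x10304) x10290) x10314) x10242) x10458) x9324) x11754) x1548) x19044) x3736)
  (add (add (add (add (sub (sub (sub (sub (sub (add (add (add (add C x10296) x10304) x10288) x10312) x10318) x10246) x10462) x9328) x11758) x1552) x19048) x3738) x16862)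
  (sub (add (add (sub (sub (sub (sub (sub (sub (add (add C x10296) x10300) x10310) x10322) x10250) x10466) x9332) x11762) x1556) x19052) x16864)
  (sub (add (add (sub (sub (sub (sub (sub (sub (sub C x10312) x10304) x10346) x10256) x10472) x9338) x11768) x1562) x19058) x16870)
  (add (add (add (add (sub (sub (sub (sub (sub (add (add (sub C x10310) x10288) x10300) x10348) x10258) x10474) x9340) x11770) x1564) x19060) x3750) x16874)
  (sub (add (add (sub (sub (sub (add (add (sub (add (add (add (add C x10318) x10322) x10326) x10338) x10296) x10206) x10422) x10476) x9342) x11772) x1566) x19062) x3754)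
  (add (add (add (add (sub (sub (sub (add (add (sub (sub (add (add C x10314) x10322) x10324) x10300) x10210) x10426) x10480) x9346) x11776) x1570) x19066) x3756) x16880)
  (sub (add (add (sub (sub (sub (add (add (sub (sub (add (add C x10314) x10318) x10334) x10304) x10214) x10430) x10484) x9350) x11780) x1574) x19070) x16882)
  (add (add (add (add (sub (sub (sub (add (add (add (add (sub (sub C x10326) x10318) x10288) x10360) x10216) x10432) x10486) x9352) x11782) x1576) x19072) x3762) x16886)
  (sub (add (add (sub (sub (sub (add (add (add (add (add (add (sub C x10324) x10314) x10338) x10290) x10362) x10218) x10434) x10488) x9354) x11784) x1578) x19074) x3766)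
  (sub (add (add (sub (sub (sub (add (add (sub (sub (sub C x10338) x10322) x10352) x10226) x10442) x10496) x9362) x11792) x1586) x19082) x16894)
  (sub (add (add (sub (sub (sub (add (add (sub (add (add (sub C x10334) x10314) x10326) x10356) x10230) x10446) x10500) x9366) x11796) x1590) x19086) x3778)
  (sub (add (add (sub (sub (sub (sub (sub (sub (sub C x10348) x10352) x10310) x10400) x10508) x9374) x11804) x1598) x19094) x16906)
  (add (add (add (add (sub (sub (sub (sub (sub (sub (sub C x10346) x10360) x10312) x10402) x10510) x9376) x11806) x1600) x19096) x3786) x16910)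
  (sub (add (add (sub (sub (sub (sub (sub (sub (sub C x10356) x10346) x10334) x10406) x10514) x9380) x11810) x1604) x19100) x16912)
  (sub (add (add (sub (sub (sub (sub (sub (sub (sub C x10352) x10362) x10338) x10410) x10518) x9384) x11814) x1608) x19104) x3796)
  (add (add (add (add (sub (sub (sub (sub (add (add (sub (sub C x10362) x10348) x10288) x10324) x10414) x10522) x9388) x11818) x1612) x19108) x3798) x16922)
  (sub (add (add (sub (sub (sub (sub (add (add (sub (sub C x10360) x10356) x10290) x10326) x10416) x10524) x9390) x11820) x1614) x19110) x3802)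
  (sub (add (add (sub (sub (sub (sub (add (add (add (add (sub C x10374) x10382) x10394) x10406) x10442) x10262) x10694) x9398) x11828) x1622) x19118) x16930)
  (sub (add (add (sub (sub (sub (sub (add (add (sub (sub C x10370) x10386) x10410) x10446) x10266) x10698) x9402) x11832) x1626) x19122) x3814)
  (sub (add (add (sub (sub (sub (sub (sub (add (add (sub C x10384) x10370) x10394) x10400) x10274) x10706) x9410) x11840) x1634) x19130) x16942)
  (add (add (add (add (sub (sub (sub (sub (sub (sub (sub C x10382) x10390) x10402) x10276) x10708) x9412) x11842) x1636) x19132) x3822) x16946)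
  (sub (add (add (sub (sub (sub (sub (sub (sub (add (add C x10390) x10394) x10374) x10422) x10278) x10710) x9414) x11844) x1638) x19134) x3826)
  (add (add (add (add (sub (sub (sub (sub (sub (sub (add (add C x10386) x10394) x10384) x10426) x10282) x10714) x9418) x11848) x1642) x19138) x3828) x16952)
  (sub (add (add (sub (sub (sub (sub (sub (add (add (add (add C x10386) x10390) x10370) x10382) x10430) x10286) x10718) x9422) x11852) x1646) x19142) x16954)
  (sub (add (add (sub (sub (sub (sub (sub (sub (sub C x10402) x10406) x10382) x10346) x10724) x9428) x11858) x1652) x19148) x16960)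
  (add (add (add (add (sub (sub (sub (sub (sub (sub (sub C x10400) x10414) x10384) x10348) x10726) x9430) x11860) x1654) x19150) x3840) x16964)
  (sub (add (add (sub (sub (sub (sub (add (add (sub (sub C x10410) x10400) x10370) x10442) x10352) x10730) x9434) x11864) x1658) x19154) x16966)
  (sub (add (add (sub (sub (sub (sub (add (add (sub (sub C x10406) x10416) x10374) x10446) x10356) x10734) x9438) x11868) x1662) x19158) x3850)
  (add (add (add (add (sub (sub (sub (sub (sub (sub (sub C x10416) x10402) x10432) x10360) x10738) x9442) x11872) x1666) x19162) x3852) x16976)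
  (sub (add (add (sub (sub (sub (sub (sub (sub (sub C x10414) x10410) x10434) x10362) x10740) x9444) x11874) x1668) x19164) x3856)
  (sub (add (add (sub (sub (sub (add (add (sub (add (add (add (add C x10426) x10430) x10434) x10446) x10386) x10206) x10314) x10746) x9450) x11880) x1674) x19170) x3862)
  (add (add (add (add (sub (sub (sub (add (add (sub (sub (add (add C x10422) x10430) x10432) x10390) x10210) x10318) x10750) x9454) x11884) x1678) x19174) x3864) x16988)
  (sub (add (add (sub (sub (sub (add (add (sub (sub (add (add C x10422) x10426) x10442) x10394) x10214) x10322) x10754) x9458) x11888) x1682) x19178) x16990)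
  (add (add (add (add (sub (sub (sub (add (add (sub (sub (sub C x10434) x10426) x10414) x10216) x10324) x10756) x9460) x11890) x1684) x19180) x3870) x16994)
  (sub (add (add (sub (sub (sub (add (add (sub (add (add (sub C x10432) x10422) x10446) x10416) x10218) x10326) x10758) x9462) x11892) x1686) x19182) x3874)
  (sub (add (add (sub (sub (sub (add (add (add (add (sub (sub C x10446) x10430) x10370) x10406) x10226) x10334) x10766) x9470) x11900) x1694) x19190) x17002)
  (sub (add (add (sub (sub (sub (add (add (add (add (add (add (sub C x10442) x10422) x10434) x10374) x10410) x10230) x10338) x10770) x9474) x11904) x1698) x19194) x3886)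
  (add (add (add (add (sub (sub (sub (add (add (add (add (add (add (sub C x10452) x10462) x10474) x10486) x10522) x10558) x10666) x10288) x9964) x11908) x1702) x19198) x3888) x17012)
  (sub (add (add (sub (sub (sub (add (add (add (add (sub (sub C x10450) x10458) x10488) x10524) x10560) x10668) x10290) x9966) x11910) x1704) x19200) x3892)
  (sub (add (add (sub (sub (sub (add (add (sub (sub (add (add C x10462) x10466) x10452) x10476) x10566) x10674) x10296) x9972) x11916) x1710) x19206) x3898)
  (add (add (add (add (sub (sub (sub (add (add (sub (add (add (add (add C x10458) x10466) x10450) x10474) x10480) x10570) x10678) x10300) x9976) x11920) x1714) x19210) x3900) x17024)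
  (sub (add (add (sub (sub (sub (add (add (sub (sub (add (add C x10458) x10462) x10472) x10484) x10574) x10682) x10304) x9980) x11924) x1718) x19214) x17026)
  (sub (add (add (sub (sub (sub (add (add (sub (sub (sub C x10474) x10466) x10508) x10580) x10688) x10310) x9986) x11930) x1724) x19220) x17032)
  (add (add (add (add (sub (sub (sub (add (add (sub (add (add (sub C x10472) x10450) x10462) x10510) x10582) x10690) x10312) x9988) x11932) x1726) x19222) x3912) x17036)
  (sub (add (add (sub (sub (sub (sub (sub (add (add (add (add C x10480) x10484) x10488) x10500) x10458) x10530) x10314) x9990) x11934) x1728) x19224) x3916)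
  (add (add (add (add (sub (sub (sub (sub (sub (sub (add (add C x10476) x10484) x10486) x10462) x10534) x10318) x9994) x11938) x1732) x19228) x3918) x17042)
  (sub (add (add (sub (sub (sub (sub (sub (sub (add (add C x10476) x10480) x10496) x10466) x10538) x10322) x9998) x11942) x1736) x19232) x17044)
  (add (add (add (add (sub (sub (sub (sub (add (add (sub (sub C x10488) x10480) x10450) x10522) x10540) x10324) x10000) x11944) x1738) x19234) x3924) x17048)
  (sub (add (add (sub (sub (sub (sub (add (add (add (add (sub C x10486) x10476) x10500) x10452) x10524) x10542) x10326) x10002) x11946) x1740) x19236) x3928)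
  (sub (add (add (sub (sub (sub (sub (sub (sub (sub C x10500) x10484) x10514) x10550) x10334) x10010) x11954) x1748) x19244) x17056)
  (sub (add (add (sub (sub (sub (sub (sub (add (add (sub C x10496) x10476) x10488) x10518) x10554) x10338) x10014) x11958) x1752) x19248) x3940)
  (sub (add (add (sub (sub (sub (sub (sub (sub (sub C x10510) x10514) x10472) x10616) x10346) x10022) x11966) x1760) x19256) x17068)
  (add (add (add (add (sub (sub (sub (sub (sub (sub (sub C x10508) x10522) x10474) x10618) x10348) x10024) x11968) x1762) x19258) x3948) x17072)
  (sub (add (add (sub (sub (sub (sub (sub (sub (sub C x10518) x10508) x10496) x10622) x10352) x10028) x11972) x1766) x19262) x17074)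
  (sub (add (add (sub (sub (sub (sub (sub (sub (sub C x10514) x10524) x10500) x10626) x10356) x10032) x11976) x1770) x19266) x3958)
  (add (add (add (add (sub (sub (sub (sub (add (add (sub (sub C x10524) x10510) x10450) x10486) x10630) x10360) x10036) x11980) x1774) x19270) x3960) x17084)
  (sub (add (add (sub (sub (sub (sub (add (add (sub (sub C x10522) x10518) x10452) x10488) x10632) x10362) x10038) x11982) x1776) x19272) x3964)
  (sub (add (add (sub (sub (add (add (sub (add (add (add (add (add (add C x10534) x10538) x10542) x10554) x10566) x10602) x10476) x10206) x10854) x10044) x11988) x1782) x19278) x3970)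
  (add (add (add (add (sub (sub (add (add (sub (add (add (sub (add (add C x10530) x10538) x10540) x10570) x10606) x10480) x10210) x10858) x10048) x11992) x1786) x19282) x3972) x17096)
  (sub (add (add (sub (sub (add (add (sub (add (add (sub (add (add C x10530) x10534) x10550) x10574) x10610) x10484) x10214) x10862) x10052) x11996) x1790) x19286) x17098)
  (add (add (add (add (sub (sub (add (add (sub (sub (sub (sub C x10542) x10534) x10558) x10486) x10216) x10864) x10054) x11998) x1792) x19288) x3978) x17102)
  (sub (add (add (sub (sub (add (add (sub (sub (add (add (sub C x10540) x10530) x10554) x10560) x10488) x10218) x10866) x10056) x12000) x1794) x19290) x3982)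
  (sub (add (add (sub (sub (add (add (sub (sub (sub (sub C x10554) x10538) x10586) x10496) x10226) x10874) x10064) x12008) x1802) x19298) x17110)
  (sub (add (add (sub (sub (add (add (sub (sub (add (add (sub C x10550) x10530) x10542) x10590) x10500) x10230) x10878) x10068) x12012) x1806) x19302) x3994)
  (add (add (add (add (sub (sub (add (add (add (add (sub (add (add (sub C x10560) x10570) x10582) x10540) x10450) x10666) x10234) x10882) x10072) x12016) x1810) x19306) x3996) x17120)
  (sub (add (add (sub (sub (add (add (add (add (sub (sub (sub C x10558) x10566) x10542) x10452) x10668) x10236) x10884) x10074) x12018) x1812) x19308) x4000)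
  (sub (add (add (sub (sub (add (add (add (add (add (add (sub (add (add C x10570) x10574) x10560) x10530) x10602) x10458) x10674) x10242) x10890) x10080) x12024) x1818) x19314) x4006)
  (add (add (add (add (sub (sub (add (add (add (add (add (add (add (add (add (add C x10566) x10574) x10558) x10582) x10534) x10606) x10462) x10678) x10246) x10894) x10084) x12028) x1822) x19318) x4008) x17132)
  (sub (add (add (sub (sub (add (add (add (add (add (add (sub (add (add C x10566) x10570) x10580) x10538) x10610) x10466) x10682) x10250) x10898) x10088) x12032) x1826) x19322) x17134)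
  (sub (add (add (sub (sub (add (add (add (add (sub (sub (sub C x10582) x10574) x10598) x10472) x10688) x10256) x10904) x10094) x12038) x1832) x19328) x17140)
  (add (add (add (add (sub (sub (add (add (add (add (sub (add (add (sub C x10580) x10558) x10570) x10600) x10474) x10690) x10258) x10906) x10096) x12040) x1834) x19330) x4020) x17144)
  (sub (add (add (sub (sub (add (add (sub (sub (add (add (sub C x10590) x10598) x10610) x10550) x10640) x10262) x10910) x10100) x12044) x1838) x19334) x17146)
  (sub (add (add (sub (sub (add (add (sub (sub (sub (sub C x10586) x10602) x10554) x10644) x10266) x10914) x10104) x12048) x1842) x19338) x4030)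
  (sub (add (add (sub (sub (add (add (sub (sub (add (add (sub C x10600) x10586) x10610) x10580) x10652) x10274) x10922) x10112) x12056) x1850) x19346) x17158)
  (add (add (add (add (sub (sub (add (add (sub (sub (sub (sub C x10598) x10606) x10582) x10654) x10276) x10924) x10114) x12058) x1852) x19348) x4038) x17162)
  (sub (add (add (sub (sub (add (add (sub (add (add (sub (add (add C x10606) x10610) x10590) x10530) x10566) x10656) x10278) x10926) x10116) x12060) x1854) x19350) x4042)
  (add (add (add (add (sub (sub (add (add (sub (add (add (sub (add (add C x10602) x10610) x10600) x10534) x10570) x10660) x10282) x10930) x10120) x12064) x1858) x19354) x4044) x17168)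
  (sub (add (add (sub (sub (add (add (sub (add (add (add (add (add (add C x10602) x10606) x10586) x10598) x10538) x10574) x10664) x10286) x10934) x10124) x12068) x1862) x19358) x17170)
  (sub (add (add (sub (sub (sub (sub (add (add (sub (sub C x10618) x10622) x10652) x10688) x10508) x10778) x10130) x12074) x1868) x19364) x17176)
  (add (add (add (add (sub (sub (sub (sub (add (add (sub (sub C x10616) x10630) x10654) x10690) x10510) x10780) x10132) x12076) x1870) x19366) x4056) x17180)
  (sub (add (add (sub (sub (sub (sub (sub (sub (sub C x10626) x10616) x10640) x10514) x10784) x10136) x12080) x1874) x19370) x17182)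
  (sub (add (add (sub (sub (sub (sub (sub (sub (sub C x10622) x10632) x10644) x10518) x10788) x10140) x12084) x1878) x19374) x4066)
  (add (add (add (add (sub (sub (sub (sub (sub (sub (sub C x10632) x10618) x10666) x10522) x10792) x10144) x12088) x1882) x19378) x4068) x17192)
  (sub (add (add (sub (sub (sub (sub (sub (sub (sub C x10630) x10626) x10668) x10524) x10794) x10146) x12090) x1884) x19380) x4072)
  (sub (add (add (sub (sub (sub (sub (sub (add (add (sub C x10644) x10652) x10664) x10622) x10586) x10802) x10154) x12098) x1892) x19388) x17200)
  (sub (add (add (sub (sub (sub (sub (sub (sub (sub C x10640) x10656) x10626) x10590) x10806) x10158) x12102) x1896) x19392) x4084)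
  (sub (add (add (sub (sub (sub (sub (add (add (add (add (sub C x10654) x10640) x10664) x10616) x10688) x10598) x10814) x10166) x12110) x1904) x19400) x17212)
  (add (add (add (add (sub (sub (sub (sub (add (add (sub (sub C x10652) x10660) x10618) x10690) x10600) x10816) x10168) x12112) x1906) x19402) x4092) x17216)
  (sub (add (add (sub (sub (sub (sub (sub (sub (add (add C x10660) x10664) x10644) x10674) x10602) x10818) x10170) x12114) x1908) x19404) x4096)
  (add (add (add (add (sub (sub (sub (sub (sub (sub (add (add C x10656) x10664) x10654) x10678) x10606) x10822) x10174) x12118) x1912) x19408) x4098) x17222)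
  (sub (add (add (sub (sub (sub (sub (sub (add (add (add (add C x10656) x10660) x10640) x10652) x10682) x10610) x10826) x10178) x12122) x1916) x19412) x17224)
  (add (add (add (add (sub (sub (sub (add (add (sub (add (add (sub C x10668) x10678) x10690) x10630) x10450) x10558) x10828) x10180) x12124) x1918) x19414) x4104) x17228)
  (sub (add (add (sub (sub (sub (add (add (sub (sub (sub C x10666) x10674) x10632) x10452) x10560) x10830) x10182) x12126) x1920) x19416) x4108)
  (sub (add (add (sub (sub (sub (add (add (sub (sub (add (add C x10678) x10682) x10668) x10656) x10458) x10566) x10836) x10188) x12132) x1926) x19422) x4114)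
  (add (add (add (add (sub (sub (sub (add (add (sub (add (add (add (add C x10674) x10682) x10666) x10690) x10660) x10462) x10570) x10840) x10192) x12136) x1930) x19426) x4116) x17240)
  (sub (add (add (sub (sub (sub (add (add (sub (sub (add (add C x10674) x10678) x10688) x10664) x10466) x10574) x10844) x10196) x12140) x1934) x19430) x17242)
  (sub (add (add (sub (sub (sub (add (add (add (add (sub (sub C x10690) x10682) x10616) x10652) x10472) x10580) x10850) x10202) x12146) x1940) x19436) x17248)
  (add (add (add (add (sub (sub (sub (add (add (add (add (add (add (sub C x10688) x10666) x10678) x10618) x10654) x10474) x10582) x10852) x10204) x12148) x1942) x19438) x4128) x17252)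
  (sub (add (add (sub (add (add (sub (add (add (add (add (add (add (sub C x10698) x10706) x10718) x10730) x10766) x10802) x10910) x10370) x8750) x9722) x12152) x1946) x19442) x17254)
  (sub (add (add (sub (add (add (sub (add (add (add (add (sub (sub C x10694) x10710) x10734) x10770) x10806) x10914) x10374) x8754) x9726) x12156) x1950) x19446) x4138)
  (sub (add (add (sub (add (add (sub (add (add (sub (add (add (sub C x10708) x10694) x10718) x10724) x10814) x10922) x10382) x8762) x9734) x12164) x1958) x19454) x17266)
  (add (add (add (add (sub (add (add (sub (add (add (sub (sub (sub C x10706) x10714) x10726) x10816) x10924) x10384) x8764) x9736) x12166) x1960) x19456) x4146) x17270)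
  (sub (add (add (sub (add (add (sub (add (add (sub (sub (add (add C x10714) x10718) x10698) x10746) x10818) x10926) x10386) x8766) x9738) x12168) x1962) x19458) x4150)
  (add (add (add (add (sub (add (add (sub (add (add (sub (sub (add (add C x10710) x10718) x10708) x10750) x10822) x10930) x10390) x8770) x9742) x12172) x1966) x19462) x4152) x17276)
  (sub (add (add (sub (add (add (sub (add (add (sub (add (add (add (add C x10710) x10714) x10694) x10706) x10754) x10826) x10934) x10394) x8774) x9746) x12176) x1970) x19466) x17278)
  (sub (add (add (sub (add (add (sub (sub (sub (sub (sub C x10726) x10730) x10706) x10778) x10400) x8780) x9752) x12182) x1976) x19472) x17284)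
  (add (add (add (add (sub (add (add (sub (sub (sub (sub (sub C x10724) x10738) x10708) x10780) x10402) x8782) x9754) x12184) x1978) x19474) x4164) x17288)
  (sub (add (add (sub (add (add (sub (sub (add (add (sub (sub C x10734) x10724) x10694) x10766) x10784) x10406) x8786) x9758) x12188) x1982) x19478) x17290)
  (sub (add (add (sub (add (add (sub (sub (add (add (sub (sub C x10730) x10740) x10698) x10770) x10788) x10410) x8790) x9762) x12192) x1986) x19482) x4174)
  (add (add (add (add (sub (add (add (sub (sub (sub (sub (sub C x10740) x10726) x10756) x10792) x10414) x8794) x9766) x12196) x1990) x19486) x4176) x17300)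
  (sub (add (add (sub (add (add (sub (sub (sub (sub (sub C x10738) x10734) x10758) x10794) x10416) x8796) x9768) x12198) x1992) x19488) x4180)
  (sub (add (add (sub (add (add (sub (sub (sub (add (add (add (add C x10750) x10754) x10758) x10770) x10710) x10854) x10422) x8802) x9774) x12204) x1998) x19494) x4186)
  (add (add (add (add (sub (add (add (sub (sub (sub (sub (add (add C x10746) x10754) x10756) x10714) x10858) x10426) x8806) x9778) x12208) x2002) x19498) x4188) x17312)
  (sub (add (add (sub (add (add (sub (sub (sub (sub (add (add C x10746) x10750) x10766) x10718) x10862) x10430) x8810) x9782) x12212) x2006) x19502) x17314)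
  (add (add (add (add (sub (add (add (sub (sub (sub (sub (sub C x10758) x10750) x10738) x10864) x10432) x8812) x9784) x12214) x2008) x19504) x4194) x17318)
  (sub (add (add (sub (add (add (sub (sub (sub (add (add (sub C x10756) x10746) x10770) x10740) x10866) x10434) x8814) x9786) x12216) x2010) x19506) x4198)
  (sub (add (add (sub (add (add (sub (sub (add (add (sub (sub C x10770) x10754) x10694) x10730) x10874) x10442) x8822) x9794) x12224) x2018) x19514) x17326)
  (sub (add (add (sub (add (add (sub (sub (add (add (add (add (sub C x10766) x10746) x10758) x10698) x10734) x10878) x10446) x8826) x9798) x12228) x2022) x19518) x4210)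
  (sub (add (add (sub (add (add (sub (sub (add (add (sub (sub C x10780) x10784) x10814) x10850) x10724) x10616) x8834) x9806) x12236) x2030) x19526) x17338)
  (add (add (add (add (sub (add (add (sub (sub (add (add (sub (sub C x10778) x10792) x10816) x10852) x10726) x10618) x8836) x9808) x12238) x2032) x19528) x4218) x17342)
  (sub (add (add (sub (add (add (sub (sub (sub (sub (sub C x10788) x10778) x10802) x10730) x10622) x8840) x9812) x12242) x2036) x19532) x17344)
  (sub (add (add (sub (add (add (sub (sub (sub (sub (sub C x10784) x10794) x10806) x10734) x10626) x8844) x9816) x12246) x2040) x19536) x4228)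
  (add (add (add (add (sub (add (add (sub (sub (sub (sub (sub C x10794) x10780) x10828) x10738) x10630) x8848) x9820) x12250) x2044) x19540) x4230) x17354)
  (sub (add (add (sub (add (add (sub (sub (sub (sub (sub C x10792) x10788) x10830) x10740) x10632) x8850) x9822) x12252) x2046) x19542) x4234)
  (sub (add (add (sub (add (add (sub (add (add (sub (add (add (sub C x10806) x10814) x10826) x10784) x10694) x10910) x10640) x8858) x9830) x12260) x2054) x19550) x17362)
  (sub (add (add (sub (add (add (sub (add (add (sub (sub (sub C x10802) x10818) x10788) x10698) x10914) x10644) x8862) x9834) x12264) x2058) x19554) x4246)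
  (sub (add (add (sub (add (add (sub (add (add (add (add (add (add (sub C x10816) x10802) x10826) x10778) x10850) x10706) x10922) x10652) x8870) x9842) x12272) x2066) x19562) x17374)
  (add (add (add (add (sub (add (add (sub (add (add (add (add (sub (sub C x10814) x10822) x10780) x10852) x10708) x10924) x10654) x8872) x9844) x12274) x2068) x19564) x4254) x17378)
  (sub (add (add (sub (add (add (sub (add (add (sub (sub (add (add C x10822) x10826) x10806) x10836) x10710) x10926) x10656) x8874) x9846) x12276) x2070) x19566) x4258)
  (add (add (add (add (sub (add (add (sub (add (add (sub (sub (add (add C x10818) x10826) x10816) x10840) x10714) x10930) x10660) x8878) x9850) x12280) x2074) x19570) x4260) x17384)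
  (sub (add (add (sub (add (add (sub (add (add (sub (add (add (add (add C x10818) x10822) x10802) x10814) x10844) x10718) x10934) x10664) x8882) x9854) x12284) x2078) x19574) x17386)
  (add (add (add (add (sub (add (add (sub (sub (sub (add (add (sub C x10830) x10840) x10852) x10792) x10882) x10666) x8884) x9856) x12286) x2080) x19576) x4266) x17390)
  (sub (add (add (sub (add (add (sub (sub (sub (sub (sub C x10828) x10836) x10794) x10884) x10668) x8886) x9858) x12288) x2082) x19578) x4270)
  (sub (add (add (sub (add (add (sub (sub (sub (sub (add (add C x10840) x10844) x10830) x10818) x10890) x10674) x8892) x9864) x12294) x2088) x19584) x4276)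
  (add (add (add (add (sub (add (add (sub (sub (sub (add (add (add (add C x10836) x10844) x10828) x10852) x10822) x10894) x10678) x8896) x9868) x12298) x2092) x19588) x4278) x17402)
  (sub (add (add (sub (add (add (sub (sub (sub (sub (add (add C x10836) x10840) x10850) x10826) x10898) x10682) x8900) x9872) x12302) x2096) x19592) x17404)
  (sub (add (add (sub (add (add (sub (sub (add (add (sub (sub C x10852) x10844) x10778) x10814) x10904) x10688) x8906) x9878) x12308) x2102) x19598) x17410)
  (add (add (add (add (sub (add (add (sub (sub (add (add (add (add (sub C x10850) x10828) x10840) x10780) x10816) x10906) x10690) x8908) x9880) x12310) x2104) x19600) x4290) x17414)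
  (sub (add (add (sub (add (add (add (add (sub (add (add (add (add (add (add C x10858) x10862) x10866) x10878) x10890) x10926) x10746) x10206) x10530) x8910) x9882) x12312) x2106) x19602) x4294)
  (add (add (add (add (sub (add (add (add (add (sub (add (add (sub (add (add C x10854) x10862) x10864) x10894) x10930) x10750) x10210) x10534) x8914) x9886) x12316) x2110) x19606) x4296) x17420)
  (sub (add (add (sub (add (add (add (add (sub (add (add (sub (add (add C x10854) x10858) x10874) x10898) x10934) x10754) x10214) x10538) x8918) x9890) x12320) x2114) x19610) x17422)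
  (add (add (add (add (sub (add (add (add (add (sub (sub (sub (sub C x10866) x10858) x10882) x10756) x10216) x10540) x8920) x9892) x12322) x2116) x19612) x4302) x17426)
  (sub (add (add (sub (add (add (add (add (sub (sub (add (add (sub C x10864) x10854) x10878) x10884) x10758) x10218) x10542) x8922) x9894) x12324) x2118) x19614) x4306)
  (sub (add (add (sub (add (add (add (add (sub (sub (sub (sub C x10878) x10862) x10910) x10766) x10226) x10550) x8930) x9902) x12332) x2126) x19622) x17434)
  (sub (add (add (sub (add (add (add (add (sub (sub (add (add (sub C x10874) x10854) x10866) x10914) x10770) x10230) x10554) x8934) x9906) x12336) x2130) x19626) x4318)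
  (add (add (add (add (sub (add (add (add (add (sub (sub (add (add (sub C x10884) x10894) x10906) x10864) x10828) x10234) x10558) x8938) x9910) x12340) x2134) x19630) x4320) x17444)
  (sub (add (add (sub (add (add (add (add (sub (sub (sub (sub C x10882) x10890) x10866) x10830) x10236) x10560) x8940) x9912) x12342) x2136) x19632) x4324)
  (sub (add (add (sub (add (add (add (add (sub (add (add (sub (add (add C x10894) x10898) x10884) x10854) x10926) x10836) x10242) x10566) x8946) x9918) x12348) x2142) x19638) x4330)
  (add (add (add (add (sub (add (add (add (add (sub (add (add (add (add (add (add C x10890) x10898) x10882) x10906) x10858) x10930) x10840) x10246) x10570) x8950) x9922) x12352) x2146) x19642) x4332) x17456)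
  (sub (add (add (sub (add (add (add (add (sub (add (add (sub (add (add C x10890) x10894) x10904) x10862) x10934) x10844) x10250) x10574) x8954) x9926) x12356) x2150) x19646) x17458)
  (sub (add (add (sub (add (add (add (add (sub (sub (sub (sub C x10906) x10898) x10922) x10850) x10256) x10580) x8960) x9932) x12362) x2156) x19652) x17464)
  (add (add (add (add (sub (add (add (add (add (sub (sub (add (add (sub C x10904) x10882) x10894) x10924) x10852) x10258) x10582) x8962) x9934) x12364) x2158) x19654) x4344) x17468)
  (sub (add (add (sub (add (add (add (add (add (add (sub (add (add (sub C x10914) x10922) x10934) x10874) x10694) x10802) x10262) x10586) x8966) x9938) x12368) x2162) x19658) x17470)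
  (sub (add (add (sub (add (add (add (add (add (add (sub (sub (sub C x10910) x10926) x10878) x10698) x10806) x10266) x10590) x8970) x9942) x12372) x2166) x19662) x4354)
  (sub (add (add (sub (add (add (add (add (add (add (sub (add (add (sub C x10924) x10910) x10934) x10904) x10706) x10814) x10274) x10598) x8978) x9950) x12380) x2174) x19670) x17482)
  (add (add (add (add (sub (add (add (add (add (add (add (sub (sub (sub C x10922) x10930) x10906) x10708) x10816) x10276) x10600) x8980) x9952) x12382) x2176) x19672) x4362) x17486)
  (sub (add (add (sub (add (add (add (add (add (add (add (add (sub (add (add C x10930) x10934) x10914) x10854) x10890) x10710) x10818) x10278) x10602) x8982) x9954) x12384) x2178) x19674) x4366)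
  (add (add (add (add (sub (add (add (add (add (add (add (add (add (sub (add (add C x10926) x10934) x10924) x10858) x10894) x10714) x10822) x10282) x10606) x8986) x9958) x12388) x2182) x19678) x4368) x17492)
  (sub (add (add (sub (add (add (add (add (add (add (add (add (add (add (add (add C x10926) x10930) x10910) x10922) x10862) x10898) x10718) x10826) x10286) x10610) x8990) x9962) x12392) x2186) x19682) x17494)
  (add (add (sub (sub (add (add (add (add (add (add (add (add (add (add (sub C x10938) x10948) x10960) x10972) x11008) x11044) x11152) x11260) x11584) x11908) x12880) x8020) x15310) x4374) x17498)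
  (sub (sub (sub (add (add (add (add (add (add (add (add (sub (sub C x10936) x10944) x10974) x11010) x11046) x11154) x11262) x11586) x11910) x12882) x8022) x15312) x4378)
  (sub (sub (sub (add (add (add (add (add (add (sub (sub (add (add C x10948) x10952) x10938) x10962) x11052) x11160) x11268) x11592) x11916) x12888) x8028) x15318) x4384)
  (add (add (sub (sub (add (add (add (add (add (add (sub (add (add (add (add C x10944) x10952) x10936) x10960) x10966) x11056) x11164) x11272) x11596) x11920) x12892) x8032) x15322) x4386) x17510)
  (sub (sub (sub (add (add (add (add (add (add (sub (sub (add (add C x10944) x10948) x10958) x10970) x11060) x11168) x11276) x11600) x11924) x12896) x8036) x15326) x17512)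
  (sub (sub (sub (add (add (add (add (add (add (sub (sub (sub C x10960) x10952) x10994) x11066) x11174) x11282) x11606) x11930) x12902) x8042) x15332) x17518)
  (add (add (sub (sub (add (add (add (add (add (add (sub (add (add (sub C x10958) x10936) x10948) x10996) x11068) x11176) x11284) x11608) x11932) x12904) x8044) x15334) x4398) x17522)
  (sub (sub (sub (add (add (add (add (sub (sub (add (add (add (add C x10966) x10970) x10974) x10986) x10944) x11016) x11286) x11610) x11934) x12906) x8046) x15336) x4402)
  (add (add (sub (sub (add (add (add (add (sub (sub (sub (add (add C x10962) x10970) x10972) x10948) x11020) x11290) x11614) x11938) x12910) x8050) x15340) x4404) x17528)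
  (sub (sub (sub (add (add (add (add (sub (sub (sub (add (add C x10962) x10966) x10982) x10952) x11024) x11294) x11618) x11942) x12914) x8054) x15344) x17530)
  (add (add (sub (sub (add (add (add (add (sub (add (add (sub (sub C x10974) x10966) x10936) x11008) x11026) x11296) x11620) x11944) x12916) x8056) x15346) x4410) x17534)
  (sub (sub (sub (add (add (add (add (sub (add (add (add (add (sub C x10972) x10962) x10986) x10938) x11010) x11028) x11298) x11622) x11946) x12918) x8058) x15348) x4414)
  (sub (sub (sub (add (add (add (add (sub (sub (sub (sub C x10986) x10970) x11000) x11036) x11306) x11630) x11954) x12926) x8066) x15356) x17542)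
  (sub (sub (sub (add (add (add (add (sub (sub (add (add (sub C x10982) x10962) x10974) x11004) x11040) x11310) x11634) x11958) x12930) x8070) x15360) x4426)
  (sub (sub (sub (add (add (add (add (sub (sub (sub (sub C x10996) x11000) x10958) x11102) x11318) x11642) x11966) x12938) x8078) x15368) x17554)
  (add (add (sub (sub (add (add (add (add (sub (sub (sub (sub C x10994) x11008) x10960) x11104) x11320) x11644) x11968) x12940) x8080) x15370) x4434) x17558)
  (sub (sub (sub (add (add (add (add (sub (sub (sub (sub C x11004) x10994) x10982) x11108) x11324) x11648) x11972) x12944) x8084) x15374) x17560)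
  (sub (sub (sub (add (add (add (add (sub (sub (sub (sub C x11000) x11010) x10986) x11112) x11328) x11652) x11976) x12948) x8088) x15378) x4444)
  (add (add (sub (sub (add (add (add (add (sub (add (add (sub (sub C x11010) x10996) x10936) x10972) x11116) x11332) x11656) x11980) x12952) x8092) x15382) x4446) x17570)
  (sub (sub (sub (add (add (add (add (sub (add (add (sub (sub C x11008) x11004) x10938) x10974) x11118) x11334) x11658) x11982) x12954) x8094) x15384) x4450)
  (sub (sub (sub (add (add (sub (sub (add (add (add (add (add (add C x11020) x11024) x11028) x11040) x11052) x11088) x10962) x11178) x11988) x12960) x8100) x15390) x4456)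
  (add (add (sub (sub (add (add (sub (sub (add (add (sub (add (add C x11016) x11024) x11026) x11056) x11092) x10966) x11182) x11992) x12964) x8104) x15394) x4458) x17582)
  (sub (sub (sub (add (add (sub (sub (add (add (sub (add (add C x11016) x11020) x11036) x11060) x11096) x10970) x11186) x11996) x12968) x8108) x15398) x17584)
  (add (add (sub (sub (add (add (sub (sub (sub (sub (sub C x11028) x11020) x11044) x10972) x11188) x11998) x12970) x8110) x15400) x4464) x17588)
  (sub (sub (sub (add (add (sub (sub (sub (add (add (sub C x11026) x11016) x11040) x11046) x10974) x11190) x12000) x12972) x8112) x15402) x4468)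
  (sub (sub (sub (add (add (sub (sub (sub (sub (sub C x11040) x11024) x11072) x10982) x11198) x12008) x12980) x8120) x15410) x17596)
  (sub (sub (sub (add (add (sub (sub (sub (add (add (sub C x11036) x11016) x11028) x11076) x10986) x11202) x12012) x12984) x8124) x15414) x4480)
  (add (add (sub (sub (add (add (sub (add (add (sub (add (add (sub C x11046) x11056) x11068) x11026) x10936) x11152) x11206) x12016) x12988) x8128) x15418) x4482) x17606)
  (sub (sub (sub (add (add (sub (add (add (sub (sub (sub C x11044) x11052) x11028) x10938) x11154) x11208) x12018) x12990) x8130) x15420) x4486)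
  (sub (sub (sub (add (add (sub (add (add (add (add (sub (add (add C x11056) x11060) x11046) x11016) x11088) x10944) x11160) x11214) x12024) x12996) x8136) x15426) x4492)
  (add (add (sub (sub (add (add (sub (add (add (add (add (add (add (add (add C x11052) x11060) x11044) x11068) x11020) x11092) x10948) x11164) x11218) x12028) x13000) x8140) x15430) x4494) x17618)
  (sub (sub (sub (add (add (sub (add (add (add (add (sub (add (add C x11052) x11056) x11066) x11024) x11096) x10952) x11168) x11222) x12032) x13004) x8144) x15434) x17620)
  (sub (sub (sub (add (add (sub (add (add (sub (sub (sub C x11068) x11060) x11084) x10958) x11174) x11228) x12038) x13010) x8150) x15440) x17626)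
  (add (add (sub (sub (add (add (sub (add (add (sub (add (add (sub C x11066) x11044) x11056) x11086) x10960) x11176) x11230) x12040) x13012) x8152) x15442) x4506) x17630)
  (sub (sub (sub (add (add (sub (sub (sub (add (add (sub C x11076) x11084) x11096) x11036) x11126) x11234) x12044) x13016) x8156) x15446) x17632)
  (sub (sub (sub (add (add (sub (sub (sub (sub (sub C x11072) x11088) x11040) x11130) x11238) x12048) x13020) x8160) x15450) x4516)
  (sub (sub (sub (add (add (sub (sub (sub (add (add (sub C x11086) x11072) x11096) x11066) x11138) x11246) x12056) x13028) x8168) x15458) x17644)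
  (add (add (sub (sub (add (add (sub (sub (sub (sub (sub C x11084) x11092) x11068) x11140) x11248) x12058) x13030) x8170) x15460) x4524) x17648)
  (sub (sub (sub (add (add (sub (sub (add (add (sub (add (add C x11092) x11096) x11076) x11016) x11052) x11142) x11250) x12060) x13032) x8172) x15462) x4528)
  (add (add (sub (sub (add (add (sub (sub (add (add (sub (add (add C x11088) x11096) x11086) x11020) x11056) x11146) x11254) x12064) x13036) x8176) x15466) x4530) x17654)
  (sub (sub (sub (add (add (sub (sub (add (add (add (add (add (add C x11088) x11092) x11072) x11084) x11024) x11060) x11150) x11258) x12068) x13040) x8180) x15470) x17656)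
  (sub (sub (sub (add (add (sub (sub (add (add (sub (sub C x11104) x11108) x11138) x11174) x10994) x11426) x12074) x13046) x8186) x15476) x17662)
  (add (add (sub (sub (add (add (sub (sub (add (add (sub (sub C x11102) x11116) x11140) x11176) x10996) x11428) x12076) x13048) x8188) x15478) x4542) x17666)
  (sub (sub (sub (add (add (sub (sub (sub (sub (sub C x11112) x11102) x11126) x11000) x11432) x12080) x13052) x8192) x15482) x17668)
  (sub (sub (sub (add (add (sub (sub (sub (sub (sub C x11108) x11118) x11130) x11004) x11436) x12084) x13056) x8196) x15486) x4552)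
  (add (add (sub (sub (add (add (sub (sub (sub (sub (sub C x11118) x11104) x11152) x11008) x11440) x12088) x13060) x8200) x15490) x4554) x17678)
  (sub (sub (sub (add (add (sub (sub (sub (sub (sub C x11116) x11112) x11154) x11010) x11442) x12090) x13062) x8202) x15492) x4558)
  (sub (sub (sub (add (add (sub (sub (sub (add (add (sub C x11130) x11138) x11150) x11108) x11072) x11450) x12098) x13070) x8210) x15500) x17686)
  (sub (sub (sub (add (add (sub (sub (sub (sub (sub C x11126) x11142) x11112) x11076) x11454) x12102) x13074) x8214) x15504) x4570)
  (sub (sub (sub (add (add (sub (sub (add (add (add (add (sub C x11140) x11126) x11150) x11102) x11174) x11084) x11462) x12110) x13082) x8222) x15512) x17698)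
  (add (add (sub (sub (add (add (sub (sub (add (add (sub (sub C x11138) x11146) x11104) x11176) x11086) x11464) x12112) x13084) x8224) x15514) x4578) x17702)
  (sub (sub (sub (add (add (sub (sub (sub (sub (add (add C x11146) x11150) x11130) x11160) x11088) x11466) x12114) x13086) x8226) x15516) x4582)
  (add (add (sub (sub (add (add (sub (sub (sub (sub (add (add C x11142) x11150) x11140) x11164) x11092) x11470) x12118) x13090) x8230) x15520) x4584) x17708)
  (sub (sub (sub (add (add (sub (sub (sub (add (add (add (add C x11142) x11146) x11126) x11138) x11168) x11096) x11474) x12122) x13094) x8234) x15524) x17710)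
  (add (add (sub (sub (add (add (sub (add (add (sub (add (add (sub C x11154) x11164) x11176) x11116) x10936) x11044) x11476) x12124) x13096) x8236) x15526) x4590) x17714)
  (sub (sub (sub (add (add (sub (add (add (sub (sub (sub C x11152) x11160) x11118) x10938) x11046) x11478) x12126) x13098) x8238) x15528) x4594)
  (sub (sub (sub (add (add (sub (add (add (sub (sub (add (add C x11164) x11168) x11154) x11142) x10944) x11052) x11484) x12132) x13104) x8244) x15534) x4600)
  (add (add (sub (sub (add (add (sub (add (add (sub (add (add (add (add C x11160) x11168) x11152) x11176) x11146) x10948) x11056) x11488) x12136) x13108) x8248) x15538) x4602) x17726)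
  (sub (sub (sub (add (add (sub (add (add (sub (sub (add (add C x11160) x11164) x11174) x11150) x10952) x11060) x11492) x12140) x13112) x8252) x15542) x17728)
  (sub (sub (sub (add (add (sub (add (add (add (add (sub (sub C x11176) x11168) x11102) x11138) x10958) x11066) x11498) x12146) x13118) x8258) x15548) x17734)
  (add (add (sub (sub (add (add (sub (add (add (add (add (add (add (sub C x11174) x11152) x11164) x11104) x11140) x10960) x11068) x11500) x12148) x13120) x8260) x15550) x4614) x17738)
  (sub (sub (sub (sub (sub (add (add (add (add (add (add (add (add C x11182) x11186) x11190) x11202) x11214) x11250) x11286) x11394) x11016) x11664) x8262) x15552) x4618)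
  (add (add (sub (sub (sub (sub (add (add (add (add (sub (add (add C x11178) x11186) x11188) x11218) x11254) x11290) x11398) x11020) x11668) x8266) x15556) x4620) x17744)
  (sub (sub (sub (sub (sub (add (add (add (add (sub (add (add C x11178) x11182) x11198) x11222) x11258) x11294) x11402) x11024) x11672) x8270) x15560) x17746)
  (add (add (sub (sub (sub (sub (add (add (sub (sub (sub C x11190) x11182) x11206) x11296) x11404) x11026) x11674) x8272) x15562) x4626) x17750)
  (sub (sub (sub (sub (sub (add (add (sub (add (add (sub C x11188) x11178) x11202) x11208) x11298) x11406) x11028) x11676) x8274) x15564) x4630)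
  (sub (sub (sub (sub (sub (add (add (sub (sub (sub C x11202) x11186) x11234) x11306) x11414) x11036) x11684) x8282) x15572) x17758)
  (sub (sub (sub (sub (sub (add (add (sub (add (add (sub C x11198) x11178) x11190) x11238) x11310) x11418) x11040) x11688) x8286) x15576) x4642)
  (add (add (sub (sub (sub (sub (sub (sub (add (add (sub C x11208) x11218) x11230) x11188) x11260) x11044) x11692) x8290) x15580) x4644) x17768)
  (sub (sub (sub (sub (sub (sub (sub (sub (sub C x11206) x11214) x11190) x11262) x11046) x11694) x8292) x15582) x4648)
  (sub (sub (sub (sub (sub (sub (add (add (sub (add (add C x11218) x11222) x11208) x11178) x11250) x11268) x11052) x11700) x8298) x15588) x4654)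
  (add (add (sub (sub (sub (sub (sub (add (add (add (add (add (add C x11214) x11222) x11206) x11230) x11182) x11254) x11272) x11056) x11704) x8302) x15592) x4656) x17780)
  (sub (sub (sub (sub (sub (sub (add (add (sub (add (add C x11214) x11218) x11228) x11186) x11258) x11276) x11060) x11708) x8306) x15596) x17782)
  (sub (sub (sub (sub (sub (sub (sub (sub (sub C x11230) x11222) x11246) x11282) x11066) x11714) x8312) x15602) x17788)
  (add (add (sub (sub (sub (sub (sub (sub (add (add (sub C x11228) x11206) x11218) x11248) x11284) x11068) x11716) x8314) x15604) x4668) x17792)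
  (sub (sub (sub (sub (sub (sub (sub (add (add (sub C x11238) x11246) x11258) x11198) x11342) x11072) x11720) x8318) x15608) x17794)
  (sub (sub (sub (sub (sub (sub (sub (sub (sub C x11234) x11250) x11202) x11346) x11076) x11724) x8322) x15612) x4678)
  (sub (sub (sub (sub (sub (sub (sub (add (add (sub C x11248) x11234) x11258) x11228) x11354) x11084) x11732) x8330) x15620) x17806)
  (add (add (sub (sub (sub (sub (sub (sub (sub (sub C x11246) x11254) x11230) x11356) x11086) x11734) x8332) x15622) x4686) x17810)
  (sub (sub (sub (sub (sub (sub (add (add (sub (add (add C x11254) x11258) x11238) x11178) x11214) x11358) x11088) x11736) x8334) x15624) x4690)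
  (add (add (sub (sub (sub (sub (sub (add (add (sub (add (add C x11250) x11258) x11248) x11182) x11218) x11362) x11092) x11740) x8338) x15628) x4692) x17816)
  (sub (sub (sub (sub (sub (sub (add (add (add (add (add (add C x11250) x11254) x11234) x11246) x11186) x11222) x11366) x11096) x11744) x8342) x15632) x17818)
  (add (add (sub (sub (sub (add (add (sub (add (add (add (add (sub C x11262) x11272) x11284) x11296) x11332) x11206) x10936) x11584) x11746) x8344) x15634) x4698) x17822)
  (sub (sub (sub (sub (add (add (sub (add (add (sub (sub C x11260) x11268) x11298) x11334) x11208) x10938) x11586) x11748) x8346) x15636) x4702)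
  (sub (sub (sub (sub (add (add (sub (sub (sub (add (add C x11272) x11276) x11262) x11286) x11214) x10944) x11592) x11754) x8352) x15642) x4708)
  (add (add (sub (sub (sub (add (add (sub (sub (add (add (add (add C x11268) x11276) x11260) x11284) x11290) x11218) x10948) x11596) x11758) x8356) x15646) x4710) x17834)
  (sub (sub (sub (sub (add (add (sub (sub (sub (add (add C x11268) x11272) x11282) x11294) x11222) x10952) x11600) x11762) x8360) x15650) x17836)
  (sub (sub (sub (sub (add (add (sub (sub (sub (sub C x11284) x11276) x11318) x11228) x10958) x11606) x11768) x8366) x15656) x17842)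
  (add (add (sub (sub (sub (add (add (sub (sub (add (add (sub C x11282) x11260) x11272) x11320) x11230) x10960) x11608) x11770) x8368) x15658) x4722) x17846)
  (sub (sub (sub (sub (add (add (add (add (sub (add (add (add (add C x11290) x11294) x11298) x11310) x11268) x11178) x11394) x10962) x11610) x11772) x8370) x15660) x4726)
  (add (add (sub (sub (sub (add (add (add (add (sub (sub (add (add C x11286) x11294) x11296) x11272) x11182) x11398) x10966) x11614) x11776) x8374) x15664) x4728) x17852)
  (sub (sub (sub (sub (add (add (add (add (sub (sub (add (add C x11286) x11290) x11306) x11276) x11186) x11402) x10970) x11618) x11780) x8378) x15668) x17854)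
  (add (add (sub (sub (sub (add (add (add (add (add (add (sub (sub C x11298) x11290) x11260) x11332) x11188) x11404) x10972) x11620) x11782) x8380) x15670) x4734) x17858)
  (sub (sub (sub (sub (add (add (add (add (add (add (add (add (sub C x11296) x11286) x11310) x11262) x11334) x11190) x11406) x10974) x11622) x11784) x8382) x15672) x4738)
  (sub (sub (sub (sub (add (add (add (add (sub (sub (sub C x11310) x11294) x11324) x11198) x11414) x10982) x11630) x11792) x8390) x15680) x17866)
  (sub (sub (sub (sub (add (add (add (add (sub (add (add (sub C x11306) x11286) x11298) x11328) x11202) x11418) x10986) x11634) x11796) x8394) x15684) x4750)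
  (sub (sub (sub (sub (add (add (sub (sub (sub (sub C x11320) x11324) x11282) x11372) x10994) x11642) x11804) x8402) x15692) x17878)
  (add (add (sub (sub (sub (add (add (sub (sub (sub (sub C x11318) x11332) x11284) x11374) x10996) x11644) x11806) x8404) x15694) x4758) x17882)
  (sub (sub (sub (sub (add (add (sub (sub (sub (sub C x11328) x11318) x11306) x11378) x11000) x11648) x11810) x8408) x15698) x17884)
  (sub (sub (sub (sub (add (add (sub (sub (sub (sub C x11324) x11334) x11310) x11382) x11004) x11652) x11814) x8412) x15702) x4768)
  (add (add (sub (sub (sub (add (add (sub (add (add (sub (sub C x11334) x11320) x11260) x11296) x11386) x11008) x11656) x11818) x8416) x15706) x4770) x17894)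
  (sub (sub (sub (sub (add (add (sub (add (add (sub (sub C x11332) x11328) x11262) x11298) x11388) x11010) x11658) x11820) x8418) x15708) x4774)
  (sub (sub (sub (sub (sub (sub (add (add (add (add (sub C x11346) x11354) x11366) x11378) x11414) x11234) x11504) x11828) x8426) x15716) x17902)
  (sub (sub (sub (sub (sub (sub (add (add (sub (sub C x11342) x11358) x11382) x11418) x11238) x11508) x11832) x8430) x15720) x4786)
  (sub (sub (sub (sub (sub (sub (sub (add (add (sub C x11356) x11342) x11366) x11372) x11246) x11516) x11840) x8438) x15728) x17914)
  (add (add (sub (sub (sub (sub (sub (sub (sub (sub C x11354) x11362) x11374) x11248) x11518) x11842) x8440) x15730) x4794) x17918)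
  (sub (sub (sub (sub (sub (sub (sub (sub (add (add C x11362) x11366) x11346) x11394) x11250) x11520) x11844) x8442) x15732) x4798)
  (add (add (sub (sub (sub (sub (sub (sub (sub (add (add C x11358) x11366) x11356) x11398) x11254) x11524) x11848) x8446) x15736) x4800) x17924)
  (sub (sub (sub (sub (sub (sub (sub (add (add (add (add C x11358) x11362) x11342) x11354) x11402) x11258) x11528) x11852) x8450) x15740) x17926)
  (sub (sub (sub (sub (sub (sub (sub (sub (sub C x11374) x11378) x11354) x11318) x11534) x11858) x8456) x15746) x17932)
  (add (add (sub (sub (sub (sub (sub (sub (sub (sub C x11372) x11386) x11356) x11320) x11536) x11860) x8458) x15748) x4812) x17936)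
  (sub (sub (sub (sub (sub (sub (add (add (sub (sub C x11382) x11372) x11342) x11414) x11324) x11540) x11864) x8462) x15752) x17938)
  (sub (sub (sub (sub (sub (sub (add (add (sub (sub C x11378) x11388) x11346) x11418) x11328) x11544) x11868) x8466) x15756) x4822)
  (add (add (sub (sub (sub (sub (sub (sub (sub (sub C x11388) x11374) x11404) x11332) x11548) x11872) x8470) x15760) x4824) x17948)
  (sub (sub (sub (sub (sub (sub (sub (sub (sub C x11386) x11382) x11406) x11334) x11550) x11874) x8472) x15762) x4828)
  (sub (sub (sub (sub (sub (add (add (sub (add (add (add (add C x11398) x11402) x11406) x11418) x11358) x11178) x11286) x11556) x11880) x8478) x15768) x4834)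
  (add (add (sub (sub (sub (sub (add (add (sub (sub (add (add C x11394) x11402) x11404) x11362) x11182) x11290) x11560) x11884) x8482) x15772) x4836) x17960)
  (sub (sub (sub (sub (sub (add (add (sub (sub (add (add C x11394) x11398) x11414) x11366) x11186) x11294) x11564) x11888) x8486) x15776) x17962)
  (add (add (sub (sub (sub (sub (add (add (sub (sub (sub C x11406) x11398) x11386) x11188) x11296) x11566) x11890) x8488) x15778) x4842) x17966)
  (sub (sub (sub (sub (sub (add (add (sub (add (add (sub C x11404) x11394) x11418) x11388) x11190) x11298) x11568) x11892) x8490) x15780) x4846)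
  (sub (sub (sub (sub (sub (add (add (add (add (sub (sub C x11418) x11402) x11342) x11378) x11198) x11306) x11576) x11900) x8498) x15788) x17974)
  (sub (sub (sub (sub (sub (add (add (add (add (add (add (sub C x11414) x11394) x11406) x11346) x11382) x11202) x11310) x11580) x11904) x8502) x15792) x4858)
  (sub (sub (sub (sub (sub (add (add (add (add (sub (sub C x11428) x11432) x11462) x11498) x11534) x11642) x11102) x12398) x8510) x15800) x17986)
  (add (add (sub (sub (sub (sub (add (add (add (add (sub (sub C x11426) x11440) x11464) x11500) x11536) x11644) x11104) x12400) x8512) x15802) x4866) x17990)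
  (sub (sub (sub (sub (sub (add (add (sub (sub (sub C x11436) x11426) x11450) x11540) x11648) x11108) x12404) x8516) x15806) x17992)
  (sub (sub (sub (sub (sub (add (add (sub (sub (sub C x11432) x11442) x11454) x11544) x11652) x11112) x12408) x8520) x15810) x4876)
  (add (add (sub (sub (sub (sub (add (add (sub (sub (sub C x11442) x11428) x11476) x11548) x11656) x11116) x12412) x8524) x15814) x4878) x18002)
  (sub (sub (sub (sub (sub (add (add (sub (sub (sub C x11440) x11436) x11478) x11550) x11658) x11118) x12414) x8526) x15816) x4882)
  (sub (sub (sub (sub (sub (sub (sub (add (add (sub C x11454) x11462) x11474) x11432) x11504) x11126) x12422) x8534) x15824) x18010)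
  (sub (sub (sub (sub (sub (sub (sub (sub (sub C x11450) x11466) x11436) x11508) x11130) x12426) x8538) x15828) x4894)
  (sub (sub (sub (sub (sub (sub (add (add (add (add (sub C x11464) x11450) x11474) x11426) x11498) x11516) x11138) x12434) x8546) x15836) x18022)
  (add (add (sub (sub (sub (sub (sub (add (add (sub (sub C x11462) x11470) x11428) x11500) x11518) x11140) x12436) x8548) x15838) x4902) x18026)
  (sub (sub (sub (sub (sub (sub (sub (sub (add (add C x11470) x11474) x11454) x11484) x11520) x11142) x12438) x8550) x15840) x4906)
  (add (add (sub (sub (sub (sub (sub (sub (sub (add (add C x11466) x11474) x11464) x11488) x11524) x11146) x12442) x8554) x15844) x4908) x18032)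
  (sub (sub (sub (sub (sub (sub (sub (add (add (add (add C x11466) x11470) x11450) x11462) x11492) x11528) x11150) x12446) x8558) x15848) x18034)
  (add (add (sub (sub (sub (sub (sub (sub (add (add (sub C x11478) x11488) x11500) x11440) x11584) x11152) x12448) x8560) x15850) x4914) x18038)
  (sub (sub (sub (sub (sub (sub (sub (sub (sub C x11476) x11484) x11442) x11586) x11154) x12450) x8562) x15852) x4918)
  (sub (sub (sub (sub (sub (sub (sub (sub (add (add C x11488) x11492) x11478) x11466) x11592) x11160) x12456) x8568) x15858) x4924)
  (add (add (sub (sub (sub (sub (sub (sub (add (add (add (add C x11484) x11492) x11476) x11500) x11470) x11596) x11164) x12460) x8572) x15862) x4926) x18050)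
  (sub (sub (sub (sub (sub (sub (sub (sub (add (add C x11484) x11488) x11498) x11474) x11600) x11168) x12464) x8576) x15866) x18052)
  (sub (sub (sub (sub (sub (sub (add (add (sub (sub C x11500) x11492) x11426) x11462) x11606) x11174) x12470) x8582) x15872) x18058)
  (add (add (sub (sub (sub (sub (sub (add (add (add (add (sub C x11498) x11476) x11488) x11428) x11464) x11608) x11176) x12472) x8584) x15874) x4938) x18062)
  (sub (sub (sub (sub (sub (sub (add (add (add (add (sub C x11508) x11516) x11528) x11540) x11576) x11450) x11342) x12476) x8588) x15878) x18064)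
  (sub (sub (sub (sub (sub (sub (add (add (sub (sub C x11504) x11520) x11544) x11580) x11454) x11346) x12480) x8592) x15882) x4948)
  (sub (sub (sub (sub (sub (sub (sub (add (add (sub C x11518) x11504) x11528) x11534) x11462) x11354) x12488) x8600) x15890) x18076)
  (add (add (sub (sub (sub (sub (sub (sub (sub (sub C x11516) x11524) x11536) x11464) x11356) x12490) x8602) x15892) x4956) x18080)
  (sub (sub (sub (sub (sub (sub (sub (sub (add (add C x11524) x11528) x11508) x11556) x11466) x11358) x12492) x8604) x15894) x4960)
  (add (add (sub (sub (sub (sub (sub (sub (sub (add (add C x11520) x11528) x11518) x11560) x11470) x11362) x12496) x8608) x15898) x4962) x18086)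
  (sub (sub (sub (sub (sub (sub (sub (add (add (add (add C x11520) x11524) x11504) x11516) x11564) x11474) x11366) x12500) x8612) x15902) x18088)
  (sub (sub (sub (sub (sub (add (add (sub (sub (sub C x11536) x11540) x11516) x11426) x11642) x11372) x12506) x8618) x15908) x18094)
  (add (add (sub (sub (sub (sub (add (add (sub (sub (sub C x11534) x11548) x11518) x11428) x11644) x11374) x12508) x8620) x15910) x4974) x18098)
  (sub (sub (sub (sub (sub (add (add (add (add (sub (sub C x11544) x11534) x11504) x11576) x11432) x11648) x11378) x12512) x8624) x15914) x18100)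
  (sub (sub (sub (sub (sub (add (add (add (add (sub (sub C x11540) x11550) x11508) x11580) x11436) x11652) x11382) x12516) x8628) x15918) x4984)
  (add (add (sub (sub (sub (sub (add (add (sub (sub (sub C x11550) x11536) x11566) x11440) x11656) x11386) x12520) x8632) x15922) x4986) x18110)
  (sub (sub (sub (sub (sub (add (add (sub (sub (sub C x11548) x11544) x11568) x11442) x11658) x11388) x12522) x8634) x15924) x4990)
  (sub (sub (sub (sub (sub (sub (sub (add (add (add (add C x11560) x11564) x11568) x11580) x11520) x11610) x11394) x12528) x8640) x15930) x4996)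
  (add (add (sub (sub (sub (sub (sub (sub (sub (add (add C x11556) x11564) x11566) x11524) x11614) x11398) x12532) x8644) x15934) x4998) x18122)
  (sub (sub (sub (sub (sub (sub (sub (sub (add (add C x11556) x11560) x11576) x11528) x11618) x11402) x12536) x8648) x15938) x18124)
  (add (add (sub (sub (sub (sub (sub (sub (sub (sub C x11568) x11560) x11548) x11620) x11404) x12538) x8650) x15940) x5004) x18128)
  (sub (sub (sub (sub (sub (sub (sub (add (add (sub C x11566) x11556) x11580) x11550) x11622) x11406) x12540) x8652) x15942) x5008)
  (sub (sub (sub (sub (sub (sub (add (add (sub (sub C x11580) x11564) x11504) x11540) x11630) x11414) x12548) x8660) x15950) x18136)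
  (sub (sub (sub (sub (sub (sub (add (add (add (add (sub C x11576) x11556) x11568) x11508) x11544) x11634) x11418) x12552) x8664) x15954) x5020)
  (add (add (sub (sub (sub (add (add (sub (add (add (add (add (sub C x11586) x11596) x11608) x11620) x11656) x11476) x10936) x11260) x12556) x8668) x15958) x5022) x18146)
  (sub (sub (sub (sub (add (add (sub (add (add (sub (sub C x11584) x11592) x11622) x11658) x11478) x10938) x11262) x12558) x8670) x15960) x5026)
  (sub (sub (sub (sub (add (add (sub (sub (sub (add (add C x11596) x11600) x11586) x11610) x11484) x10944) x11268) x12564) x8676) x15966) x5032)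
  (add (add (sub (sub (sub (add (add (sub (sub (add (add (add (add C x11592) x11600) x11584) x11608) x11614) x11488) x10948) x11272) x12568) x8680) x15970) x5034) x18158)
  (sub (sub (sub (sub (add (add (sub (sub (sub (add (add C x11592) x11596) x11606) x11618) x11492) x10952) x11276) x12572) x8684) x15974) x18160)
  (sub (sub (sub (sub (add (add (sub (sub (sub (sub C x11608) x11600) x11642) x11498) x10958) x11282) x12578) x8690) x15980) x18166)
  (add (add (sub (sub (sub (add (add (sub (sub (add (add (sub C x11606) x11584) x11596) x11644) x11500) x10960) x11284) x12580) x8692) x15982) x5046) x18170)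
  (sub (sub (sub (sub (add (add (sub (sub (add (add (add (add C x11614) x11618) x11622) x11634) x11592) x11556) x10962) x11286) x12582) x8694) x15984) x5050)
  (add (add (sub (sub (sub (add (add (sub (sub (sub (add (add C x11610) x11618) x11620) x11596) x11560) x10966) x11290) x12586) x8698) x15988) x5052) x18176)
  (sub (sub (sub (sub (add (add (sub (sub (sub (add (add C x11610) x11614) x11630) x11600) x11564) x10970) x11294) x12590) x8702) x15992) x18178)
  (add (add (sub (sub (sub (add (add (sub (add (add (sub (sub C x11622) x11614) x11584) x11656) x11566) x10972) x11296) x12592) x8704) x15994) x5058) x18182)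
  (sub (sub (sub (sub (add (add (sub (add (add (add (add (sub C x11620) x11610) x11634) x11586) x11658) x11568) x10974) x11298) x12594) x8706) x15996) x5062)
  (sub (sub (sub (sub (add (add (sub (sub (sub (sub C x11634) x11618) x11648) x11576) x10982) x11306) x12602) x8714) x16004) x18190)
  (sub (sub (sub (sub (add (add (sub (sub (add (add (sub C x11630) x11610) x11622) x11652) x11580) x10986) x11310) x12606) x8718) x16008) x5074)
  (sub (sub (sub (sub (add (add (add (add (sub (sub (sub C x11644) x11648) x11606) x11426) x11534) x10994) x11318) x12614) x8726) x16016) x18202)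
  (add (add (sub (sub (sub (add (add (add (add (sub (sub (sub C x11642) x11656) x11608) x11428) x11536) x10996) x11320) x12616) x8728) x16018) x5082) x18206)
  (sub (sub (sub (sub (add (add (add (add (sub (sub (sub C x11652) x11642) x11630) x11432) x11540) x11000) x11324) x12620) x8732) x16022) x18208)
  (sub (sub (sub (sub (add (add (add (add (sub (sub (sub C x11648) x11658) x11634) x11436) x11544) x11004) x11328) x12624) x8736) x16026) x5092)
  (add (add (sub (sub (sub (add (add (add (add (add (add (sub (sub C x11658) x11644) x11584) x11620) x11440) x11548) x11008) x11332) x12628) x8740) x16030) x5094) x18218)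
  (sub (sub (sub (sub (add (add (add (add (add (add (sub (sub C x11656) x11652) x11586) x11622) x11442) x11550) x11010) x11334) x12630) x8742) x16032) x5098)
  (sub (sub (sub (sub (add (add (add (add (add (add (add (add (add (add C x11668) x11672) x11676) x11688) x11700) x11736) x11772) x11880) x11988) x12312) x11178) x10206) x16038) x5104)
  (add (add (sub (sub (sub (add (add (add (add (add (add (sub (add (add C x11664) x11672) x11674) x11704) x11740) x11776) x11884) x11992) x12316) x11182) x10210) x16042) x5106) x18230)
  (sub (sub (sub (sub (add (add (add (add (add (add (sub (add (add C x11664) x11668) x11684) x11708) x11744) x11780) x11888) x11996) x12320) x11186) x10214) x16046) x18232)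
  (add (add (sub (sub (sub (add (add (add (add (sub (sub (sub C x11676) x11668) x11692) x11782) x11890) x11998) x12322) x11188) x10216) x16048) x5112) x18236)
  (sub (sub (sub (sub (add (add (add (add (sub (add (add (sub C x11674) x11664) x11688) x11694) x11784) x11892) x12000) x12324) x11190) x10218) x16050) x5116)
  (sub (sub (sub (sub (add (add (add (add (sub (sub (sub C x11688) x11672) x11720) x11792) x11900) x12008) x12332) x11198) x10226) x16058) x18244)
  (sub (sub (sub (sub (add (add (add (add (sub (add (add (sub C x11684) x11664) x11676) x11724) x11796) x11904) x12012) x12336) x11202) x10230) x16062) x5128)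
  (add (add (sub (sub (sub (add (add (sub (sub (add (add (sub C x11694) x11704) x11716) x11674) x11746) x12016) x12340) x11206) x10234) x16066) x5130) x18254)
  (sub (sub (sub (sub (add (add (sub (sub (sub (sub C x11692) x11700) x11676) x11748) x12018) x12342) x11208) x10236) x16068) x5134)
  (sub (sub (sub (sub (add (add (sub (add (add (sub (add (add C x11704) x11708) x11694) x11664) x11736) x11754) x12024) x12348) x11214) x10242) x16074) x5140)
  (add (add (sub (sub (sub (add (add (sub (add (add (add (add (add (add C x11700) x11708) x11692) x11716) x11668) x11740) x11758) x12028) x12352) x11218) x10246) x16078) x5142) x18266)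
  (sub (sub (sub (sub (add (add (sub (add (add (sub (add (add C x11700) x11704) x11714) x11672) x11744) x11762) x12032) x12356) x11222) x10250) x16082) x18268)
  (sub (sub (sub (sub (add (add (sub (sub (sub (sub C x11716) x11708) x11732) x11768) x12038) x12362) x11228) x10256) x16088) x18274)
  (add (add (sub (sub (sub (add (add (sub (sub (add (add (sub C x11714) x11692) x11704) x11734) x11770) x12040) x12364) x11230) x10258) x16090) x5154) x18278)
  (sub (sub (sub (sub (add (add (sub (sub (add (add (sub C x11724) x11732) x11744) x11684) x11828) x12044) x12368) x11234) x10262) x16094) x18280)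
  (sub (sub (sub (sub (add (add (sub (sub (sub (sub C x11720) x11736) x11688) x11832) x12048) x12372) x11238) x10266) x16098) x5164)
  (sub (sub (sub (sub (add (add (sub (sub (add (add (sub C x11734) x11720) x11744) x11714) x11840) x12056) x12380) x11246) x10274) x16106) x18292)
  (add (add (sub (sub (sub (add (add (sub (sub (sub (sub C x11732) x11740) x11716) x11842) x12058) x12382) x11248) x10276) x16108) x5172) x18296)
  (sub (sub (sub (sub (add (add (sub (add (add (sub (add (add C x11740) x11744) x11724) x11664) x11700) x11844) x12060) x12384) x11250) x10278) x16110) x5176)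
  (add (add (sub (sub (sub (add (add (sub (add (add (sub (add (add C x11736) x11744) x11734) x11668) x11704) x11848) x12064) x12388) x11254) x10282) x16114) x5178) x18302)
  (sub (sub (sub (sub (add (add (sub (add (add (add (add (add (add C x11736) x11740) x11720) x11732) x11672) x11708) x11852) x12068) x12392) x11258) x10286) x16118) x18304)
  (add (add (sub (sub (sub (sub (sub (add (add (add (add (sub C x11748) x11758) x11770) x11782) x11818) x11692) x11908) x11260) x10288) x16120) x5184) x18308)
  (sub (sub (sub (sub (sub (sub (add (add (sub (sub C x11746) x11754) x11784) x11820) x11694) x11910) x11262) x10290) x16122) x5188)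
  (sub (sub (sub (sub (sub (sub (sub (sub (add (add C x11758) x11762) x11748) x11772) x11700) x11916) x11268) x10296) x16128) x5194)
  (add (add (sub (sub (sub (sub (sub (sub (add (add (add (add C x11754) x11762) x11746) x11770) x11776) x11704) x11920) x11272) x10300) x16132) x5196) x18320)
  (sub (sub (sub (sub (sub (sub (sub (sub (add (add C x11754) x11758) x11768) x11780) x11708) x11924) x11276) x10304) x16136) x18322)
  (sub (sub (sub (sub (sub (sub (sub (sub (sub C x11770) x11762) x11804) x11714) x11930) x11282) x10310) x16142) x18328)
  (add (add (sub (sub (sub (sub (sub (sub (add (add (sub C x11768) x11746) x11758) x11806) x11716) x11932) x11284) x10312) x16144) x5208) x18332)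
  (sub (sub (sub (sub (sub (add (add (sub (add (add (add (add C x11776) x11780) x11784) x11796) x11754) x11664) x11880) x11934) x11286) x10314) x16146) x5212)
  (add (add (sub (sub (sub (sub (add (add (sub (sub (add (add C x11772) x11780) x11782) x11758) x11668) x11884) x11938) x11290) x10318) x16150) x5214) x18338)
  (sub (sub (sub (sub (sub (add (add (sub (sub (add (add C x11772) x11776) x11792) x11762) x11672) x11888) x11942) x11294) x10322) x16154) x18340)
  (add (add (sub (sub (sub (sub (add (add (add (add (sub (sub C x11784) x11776) x11746) x11818) x11674) x11890) x11944) x11296) x10324) x16156) x5220) x18344)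
  (sub (sub (sub (sub (sub (add (add (add (add (add (add (sub C x11782) x11772) x11796) x11748) x11820) x11676) x11892) x11946) x11298) x10326) x16158) x5224)
  (sub (sub (sub (sub (sub (add (add (sub (sub (sub C x11796) x11780) x11810) x11684) x11900) x11954) x11306) x10334) x16166) x18352)
  (sub (sub (sub (sub (sub (add (add (sub (add (add (sub C x11792) x11772) x11784) x11814) x11688) x11904) x11958) x11310) x10338) x16170) x5236)
  (sub (sub (sub (sub (sub (sub (sub (sub (sub C x11806) x11810) x11768) x11858) x11966) x11318) x10346) x16178) x18364)
  (add (add (sub (sub (sub (sub (sub (sub (sub (sub C x11804) x11818) x11770) x11860) x11968) x11320) x10348) x16180) x5244) x18368)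
  (sub (sub (sub (sub (sub (sub (sub (sub (sub C x11814) x11804) x11792) x11864) x11972) x11324) x10352) x16184) x18370)
  (sub (sub (sub (sub (sub (sub (sub (sub (sub C x11810) x11820) x11796) x11868) x11976) x11328) x10356) x16188) x5254)
  (add (add (sub (sub (sub (sub (sub (add (add (sub (sub C x11820) x11806) x11746) x11782) x11872) x11980) x11332) x10360) x16192) x5256) x18380)
  (sub (sub (sub (sub (sub (sub (add (add (sub (sub C x11818) x11814) x11748) x11784) x11874) x11982) x11334) x10362) x16194) x5260)
  (sub (sub (sub (sub (sub (sub (add (add (add (add (sub C x11832) x11840) x11852) x11864) x11900) x11720) x12152) x11342) x10370) x16202) x18388)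
  (sub (sub (sub (sub (sub (sub (add (add (sub (sub C x11828) x11844) x11868) x11904) x11724) x12156) x11346) x10374) x16206) x5272)
  (sub (sub (sub (sub (sub (sub (sub (add (add (sub C x11842) x11828) x11852) x11858) x11732) x12164) x11354) x10382) x16214) x18400)
  (add (add (sub (sub (sub (sub (sub (sub (sub (sub C x11840) x11848) x11860) x11734) x12166) x11356) x10384) x16216) x5280) x18404)
  (sub (sub (sub (sub (sub (sub (sub (sub (add (add C x11848) x11852) x11832) x11880) x11736) x12168) x11358) x10386) x16218) x5284)
  (add (add (sub (sub (sub (sub (sub (sub (sub (add (add C x11844) x11852) x11842) x11884) x11740) x12172) x11362) x10390) x16222) x5286) x18410)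
  (sub (sub (sub (sub (sub (sub (sub (add (add (add (add C x11844) x11848) x11828) x11840) x11888) x11744) x12176) x11366) x10394) x16226) x18412)
  (sub (sub (sub (sub (sub (sub (sub (sub (sub C x11860) x11864) x11840) x11804) x12182) x11372) x10400) x16232) x18418)
  (add (add (sub (sub (sub (sub (sub (sub (sub (sub C x11858) x11872) x11842) x11806) x12184) x11374) x10402) x16234) x5298) x18422)
  (sub (sub (sub (sub (sub (sub (add (add (sub (sub C x11868) x11858) x11828) x11900) x11810) x12188) x11378) x10406) x16238) x18424)
  (sub (sub (sub (sub (sub (sub (add (add (sub (sub C x11864) x11874) x11832) x11904) x11814) x12192) x11382) x10410) x16242) x5308)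
  (add (add (sub (sub (sub (sub (sub (sub (sub (sub C x11874) x11860) x11890) x11818) x12196) x11386) x10414) x16246) x5310) x18434)
  (sub (sub (sub (sub (sub (sub (sub (sub (sub C x11872) x11868) x11892) x11820) x12198) x11388) x10416) x16248) x5314)
  (sub (sub (sub (sub (sub (add (add (sub (add (add (add (add C x11884) x11888) x11892) x11904) x11844) x11664) x11772) x12204) x11394) x10422) x16254) x5320)
  (add (add (sub (sub (sub (sub (add (add (sub (sub (add (add C x11880) x11888) x11890) x11848) x11668) x11776) x12208) x11398) x10426) x16258) x5322) x18446)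
  (sub (sub (sub (sub (sub (add (add (sub (sub (add (add C x11880) x11884) x11900) x11852) x11672) x11780) x12212) x11402) x10430) x16262) x18448)
  (add (add (sub (sub (sub (sub (add (add (sub (sub (sub C x11892) x11884) x11872) x11674) x11782) x12214) x11404) x10432) x16264) x5328) x18452)
  (sub (sub (sub (sub (sub (add (add (sub (add (add (sub C x11890) x11880) x11904) x11874) x11676) x11784) x12216) x11406) x10434) x16266) x5332)
  (sub (sub (sub (sub (sub (add (add (add (add (sub (sub C x11904) x11888) x11828) x11864) x11684) x11792) x12224) x11414) x10442) x16274) x18460)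
  (sub (sub (sub (sub (sub (add (add (add (add (add (add (sub C x11900) x11880) x11892) x11832) x11868) x11688) x11796) x12228) x11418) x10446) x16278) x5344)
  (add (add (sub (sub (add (add (sub (add (add (add (add (add (add (sub C x11910) x11920) x11932) x11944) x11980) x12016) x12124) x11746) x10936) x12880) x10450) x16282) x5346) x18470)
  (sub (sub (sub (add (add (sub (add (add (add (add (sub (sub C x11908) x11916) x11946) x11982) x12018) x12126) x11748) x10938) x12882) x10452) x16284) x5350)
  (sub (sub (sub (add (add (sub (add (add (sub (sub (add (add C x11920) x11924) x11910) x11934) x12024) x12132) x11754) x10944) x12888) x10458) x16290) x5356)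
  (add (add (sub (sub (add (add (sub (add (add (sub (add (add (add (add C x11916) x11924) x11908) x11932) x11938) x12028) x12136) x11758) x10948) x12892) x10462) x16294) x5358) x18482)
  (sub (sub (sub (add (add (sub (add (add (sub (sub (add (add C x11916) x11920) x11930) x11942) x12032) x12140) x11762) x10952) x12896) x10466) x16298) x18484)
  (sub (sub (sub (add (add (sub (add (add (sub (sub (sub C x11932) x11924) x11966) x12038) x12146) x11768) x10958) x12902) x10472) x16304) x18490)
  (add (add (sub (sub (add (add (sub (add (add (sub (add (add (sub C x11930) x11908) x11920) x11968) x12040) x12148) x11770) x10960) x12904) x10474) x16306) x5370) x18494)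
  (sub (sub (sub (add (add (sub (sub (sub (add (add (add (add C x11938) x11942) x11946) x11958) x11916) x11988) x11772) x10962) x12906) x10476) x16308) x5374)
  (add (add (sub (sub (add (add (sub (sub (sub (sub (add (add C x11934) x11942) x11944) x11920) x11992) x11776) x10966) x12910) x10480) x16312) x5376) x18500)
  (sub (sub (sub (add (add (sub (sub (sub (sub (add (add C x11934) x11938) x11954) x11924) x11996) x11780) x10970) x12914) x10484) x16316) x18502)
  (add (add (sub (sub (add (add (sub (sub (add (add (sub (sub C x11946) x11938) x11908) x11980) x11998) x11782) x10972) x12916) x10486) x16318) x5382) x18506)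
  (sub (sub (sub (add (add (sub (sub (add (add (add (add (sub C x11944) x11934) x11958) x11910) x11982) x12000) x11784) x10974) x12918) x10488) x16320) x5386)
  (sub (sub (sub (add (add (sub (sub (sub (sub (sub C x11958) x11942) x11972) x12008) x11792) x10982) x12926) x10496) x16328) x18514)
  (sub (sub (sub (add (add (sub (sub (sub (add (add (sub C x11954) x11934) x11946) x11976) x12012) x11796) x10986) x12930) x10500) x16332) x5398)
  (sub (sub (sub (add (add (sub (sub (sub (sub (sub C x11968) x11972) x11930) x12074) x11804) x10994) x12938) x10508) x16340) x18526)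
  (add (add (sub (sub (add (add (sub (sub (sub (sub (sub C x11966) x11980) x11932) x12076) x11806) x10996) x12940) x10510) x16342) x5406) x18530)
  (sub (sub (sub (add (add (sub (sub (sub (sub (sub C x11976) x11966) x11954) x12080) x11810) x11000) x12944) x10514) x16346) x18532)
  (sub (sub (sub (add (add (sub (sub (sub (sub (sub C x11972) x11982) x11958) x12084) x11814) x11004) x12948) x10518) x16350) x5416)
  (add (add (sub (sub (add (add (sub (sub (add (add (sub (sub C x11982) x11968) x11908) x11944) x12088) x11818) x11008) x12952) x10522) x16354) x5418) x18542)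
  (sub (sub (sub (add (add (sub (sub (add (add (sub (sub C x11980) x11976) x11910) x11946) x12090) x11820) x11010) x12954) x10524) x16356) x5422)
  (sub (sub (sub (add (add (add (add (sub (add (add (add (add (add (add C x11992) x11996) x12000) x12012) x12024) x12060) x11934) x11664) x12312) x11016) x12960) x10530) x16362) x5428)
  (add (add (sub (sub (add (add (add (add (sub (add (add (sub (add (add C x11988) x11996) x11998) x12028) x12064) x11938) x11668) x12316) x11020) x12964) x10534) x16366) x5430) x18554)
  (sub (sub (sub (add (add (add (add (sub (add (add (sub (add (add C x11988) x11992) x12008) x12032) x12068) x11942) x11672) x12320) x11024) x12968) x10538) x16370) x18556)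
  (add (add (sub (sub (add (add (add (add (sub (sub (sub (sub C x12000) x11992) x12016) x11944) x11674) x12322) x11026) x12970) x10540) x16372) x5436) x18560)
  (sub (sub (sub (add (add (add (add (sub (sub (add (add (sub C x11998) x11988) x12012) x12018) x11946) x11676) x12324) x11028) x12972) x10542) x16374) x5440)
  (sub (sub (sub (add (add (add (add (sub (sub (sub (sub C x12012) x11996) x12044) x11954) x11684) x12332) x11036) x12980) x10550) x16382) x18568)
  (sub (sub (sub (add (add (add (add (sub (sub (add (add (sub C x12008) x11988) x12000) x12048) x11958) x11688) x12336) x11040) x12984) x10554) x16386) x5452)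
  (add (add (sub (sub (add (add (add (add (add (add (sub (add (add (sub C x12018) x12028) x12040) x11998) x11908) x12124) x11692) x12340) x11044) x12988) x10558) x16390) x5454) x18578)
  (sub (sub (sub (add (add (add (add (add (add (sub (sub (sub C x12016) x12024) x12000) x11910) x12126) x11694) x12342) x11046) x12990) x10560) x16392) x5458)
  (sub (sub (sub (add (add (add (add (add (add (add (add (sub (add (add C x12028) x12032) x12018) x11988) x12060) x11916) x12132) x11700) x12348) x11052) x12996) x10566) x16398) x5464)
  (add (add (sub (sub (add (add (add (add (add (add (add (add (add (add (add (add C x12024) x12032) x12016) x12040) x11992) x12064) x11920) x12136) x11704) x12352) x11056) x13000) x10570) x16402) x5466) x18590)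
  (sub (sub (sub (add (add (add (add (add (add (add (add (sub (add (add C x12024) x12028) x12038) x11996) x12068) x11924) x12140) x11708) x12356) x11060) x13004) x10574) x16406) x18592)
  (sub (sub (sub (add (add (add (add (add (add (sub (sub (sub C x12040) x12032) x12056) x11930) x12146) x11714) x12362) x11066) x13010) x10580) x16412) x18598)
  (add (add (sub (sub (add (add (add (add (add (add (sub (add (add (sub C x12038) x12016) x12028) x12058) x11932) x12148) x11716) x12364) x11068) x13012) x10582) x16414) x5478) x18602)
  (sub (sub (sub (add (add (add (add (sub (sub (add (add (sub C x12048) x12056) x12068) x12008) x12098) x11720) x12368) x11072) x13016) x10586) x16418) x18604)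
  (sub (sub (sub (add (add (add (add (sub (sub (sub (sub C x12044) x12060) x12012) x12102) x11724) x12372) x11076) x13020) x10590) x16422) x5488)
  (sub (sub (sub (add (add (add (add (sub (sub (add (add (sub C x12058) x12044) x12068) x12038) x12110) x11732) x12380) x11084) x13028) x10598) x16430) x18616)
  (add (add (sub (sub (add (add (add (add (sub (sub (sub (sub C x12056) x12064) x12040) x12112) x11734) x12382) x11086) x13030) x10600) x16432) x5496) x18620)
  (sub (sub (sub (add (add (add (add (sub (add (add (sub (add (add C x12064) x12068) x12048) x11988) x12024) x12114) x11736) x12384) x11088) x13032) x10602) x16434) x5500)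
  (add (add (sub (sub (add (add (add (add (sub (add (add (sub (add (add C x12060) x12068) x12058) x11992) x12028) x12118) x11740) x12388) x11092) x13036) x10606) x16438) x5502) x18626)
  (sub (sub (sub (add (add (add (add (sub (add (add (add (add (add (add C x12060) x12064) x12044) x12056) x11996) x12032) x12122) x11744) x12392) x11096) x13040) x10610) x16442) x18628)
  (sub (sub (sub (add (add (sub (sub (add (add (sub (sub C x12076) x12080) x12110) x12146) x11966) x12236) x11102) x13046) x10616) x16448) x18634)
  (add (add (sub (sub (add (add (sub (sub (add (add (sub (sub C x12074) x12088) x12112) x12148) x11968) x12238) x11104) x13048) x10618) x16450) x5514) x18638)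
  (sub (sub (sub (add (add (sub (sub (sub (sub (sub C x12084) x12074) x12098) x11972) x12242) x11108) x13052) x10622) x16454) x18640)
  (sub (sub (sub (add (add (sub (sub (sub (sub (sub C x12080) x12090) x12102) x11976) x12246) x11112) x13056) x10626) x16458) x5524)
  (add (add (sub (sub (add (add (sub (sub (sub (sub (sub C x12090) x12076) x12124) x11980) x12250) x11116) x13060) x10630) x16462) x5526) x18650)
  (sub (sub (sub (add (add (sub (sub (sub (sub (sub C x12088) x12084) x12126) x11982) x12252) x11118) x13062) x10632) x16464) x5530)
  (sub (sub (sub (add (add (sub (sub (sub (add (add (sub C x12102) x12110) x12122) x12080) x12044) x12260) x11126) x13070) x10640) x16472) x18658)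
  (sub (sub (sub (add (add (sub (sub (sub (sub (sub C x12098) x12114) x12084) x12048) x12264) x11130) x13074) x10644) x16476) x5542)
  (sub (sub (sub (add (add (sub (sub (add (add (add (add (sub C x12112) x12098) x12122) x12074) x12146) x12056) x12272) x11138) x13082) x10652) x16484) x18670)
  (add (add (sub (sub (add (add (sub (sub (add (add (sub (sub C x12110) x12118) x12076) x12148) x12058) x12274) x11140) x13084) x10654) x16486) x5550) x18674)
  (sub (sub (sub (add (add (sub (sub (sub (sub (add (add C x12118) x12122) x12102) x12132) x12060) x12276) x11142) x13086) x10656) x16488) x5554)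
  (add (add (sub (sub (add (add (sub (sub (sub (sub (add (add C x12114) x12122) x12112) x12136) x12064) x12280) x11146) x13090) x10660) x16492) x5556) x18680)
  (sub (sub (sub (add (add (sub (sub (sub (add (add (add (add C x12114) x12118) x12098) x12110) x12140) x12068) x12284) x11150) x13094) x10664) x16496) x18682)
  (add (add (sub (sub (add (add (sub (add (add (sub (add (add (sub C x12126) x12136) x12148) x12088) x11908) x12016) x12286) x11152) x13096) x10666) x16498) x5562) x18686)
  (sub (sub (sub (add (add (sub (add (add (sub (sub (sub C x12124) x12132) x12090) x11910) x12018) x12288) x11154) x13098) x10668) x16500) x5566)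
  (sub (sub (sub (add (add (sub (add (add (sub (sub (add (add C x12136) x12140) x12126) x12114) x11916) x12024) x12294) x11160) x13104) x10674) x16506) x5572)
  (add (add (sub (sub (add (add (sub (add (add (sub (add (add (add (add C x12132) x12140) x12124) x12148) x12118) x11920) x12028) x12298) x11164) x13108) x10678) x16510) x5574) x18698)
  (sub (sub (sub (add (add (sub (add (add (sub (sub (add (add C x12132) x12136) x12146) x12122) x11924) x12032) x12302) x11168) x13112) x10682) x16514) x18700)
  (sub (sub (sub (add (add (sub (add (add (add (add (sub (sub C x12148) x12140) x12074) x12110) x11930) x12038) x12308) x11174) x13118) x10688) x16520) x18706)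
  (add (add (sub (sub (add (add (sub (add (add (add (add (add (add (sub C x12146) x12124) x12136) x12076) x12112) x11932) x12040) x12310) x11176) x13120) x10690) x16522) x5586) x18710)
  (sub (sub (sub (sub (sub (add (add (add (add (add (add (sub C x12156) x12164) x12176) x12188) x12224) x12260) x12368) x11828) x12638) x10694) x16526) x18712)
  (sub (sub (sub (sub (sub (add (add (add (add (sub (sub C x12152) x12168) x12192) x12228) x12264) x12372) x11832) x12642) x10698) x16530) x5596)
  (sub (sub (sub (sub (sub (add (add (sub (add (add (sub C x12166) x12152) x12176) x12182) x12272) x12380) x11840) x12650) x10706) x16538) x18724)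
  (add (add (sub (sub (sub (sub (add (add (sub (sub (sub C x12164) x12172) x12184) x12274) x12382) x11842) x12652) x10708) x16540) x5604) x18728)
  (sub (sub (sub (sub (sub (add (add (sub (sub (add (add C x12172) x12176) x12156) x12204) x12276) x12384) x11844) x12654) x10710) x16542) x5608)
  (add (add (sub (sub (sub (sub (add (add (sub (sub (add (add C x12168) x12176) x12166) x12208) x12280) x12388) x11848) x12658) x10714) x16546) x5610) x18734)
  (sub (sub (sub (sub (sub (add (add (sub (add (add (add (add C x12168) x12172) x12152) x12164) x12212) x12284) x12392) x11852) x12662) x10718) x16550) x18736)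
  (sub (sub (sub (sub (sub (sub (sub (sub (sub C x12184) x12188) x12164) x12236) x11858) x12668) x10724) x16556) x18742)
  (add (add (sub (sub (sub (sub (sub (sub (sub (sub C x12182) x12196) x12166) x12238) x11860) x12670) x10726) x16558) x5622) x18746)
  (sub (sub (sub (sub (sub (sub (add (add (sub (sub C x12192) x12182) x12152) x12224) x12242) x11864) x12674) x10730) x16562) x18748)
  (sub (sub (sub (sub (sub (sub (add (add (sub (sub C x12188) x12198) x12156) x12228) x12246) x11868) x12678) x10734) x16566) x5632)
  (add (add (sub (sub (sub (sub (sub (sub (sub (sub C x12198) x12184) x12214) x12250) x11872) x12682) x10738) x16570) x5634) x18758)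
  (sub (sub (sub (sub (sub (sub (sub (sub (sub C x12196) x12192) x12216) x12252) x11874) x12684) x10740) x16572) x5638)
  (sub (sub (sub (sub (sub (sub (sub (add (add (add (add C x12208) x12212) x12216) x12228) x12168) x12312) x11880) x12690) x10746) x16578) x5644)
  (add (add (sub (sub (sub (sub (sub (sub (sub (add (add C x12204) x12212) x12214) x12172) x12316) x11884) x12694) x10750) x16582) x5646) x18770)
  (sub (sub (sub (sub (sub (sub (sub (sub (add (add C x12204) x12208) x12224) x12176) x12320) x11888) x12698) x10754) x16586) x18772)
  (add (add (sub (sub (sub (sub (sub (sub (sub (sub C x12216) x12208) x12196) x12322) x11890) x12700) x10756) x16588) x5652) x18776)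
  (sub (sub (sub (sub (sub (sub (sub (add (add (sub C x12214) x12204) x12228) x12198) x12324) x11892) x12702) x10758) x16590) x5656)
  (sub (sub (sub (sub (sub (sub (add (add (sub (sub C x12228) x12212) x12152) x12188) x12332) x11900) x12710) x10766) x16598) x18784)
  (sub (sub (sub (sub (sub (sub (add (add (add (add (sub C x12224) x12204) x12216) x12156) x12192) x12336) x11904) x12714) x10770) x16602) x5668)
  (sub (sub (sub (sub (sub (sub (add (add (sub (sub C x12238) x12242) x12272) x12308) x12182) x12074) x12722) x10778) x16610) x18796)
  (add (add (sub (sub (sub (sub (sub (add (add (sub (sub C x12236) x12250) x12274) x12310) x12184) x12076) x12724) x10780) x16612) x5676) x18800)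
  (sub (sub (sub (sub (sub (sub (sub (sub (sub C x12246) x12236) x12260) x12188) x12080) x12728) x10784) x16616) x18802)
  (sub (sub (sub (sub (sub (sub (sub (sub (sub C x12242) x12252) x12264) x12192) x12084) x12732) x10788) x16620) x5686)
  (add (add (sub (sub (sub (sub (sub (sub (sub (sub C x12252) x12238) x12286) x12196) x12088) x12736) x10792) x16624) x5688) x18812)
  (sub (sub (sub (sub (sub (sub (sub (sub (sub C x12250) x12246) x12288) x12198) x12090) x12738) x10794) x16626) x5692)
  (sub (sub (sub (sub (sub (add (add (sub (add (add (sub C x12264) x12272) x12284) x12242) x12152) x12368) x12098) x12746) x10802) x16634) x18820)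
  (sub (sub (sub (sub (sub (add (add (sub (sub (sub C x12260) x12276) x12246) x12156) x12372) x12102) x12750) x10806) x16638) x5704)
  (sub (sub (sub (sub (sub (add (add (add (add (add (add (sub C x12274) x12260) x12284) x12236) x12308) x12164) x12380) x12110) x12758) x10814) x16646) x18832)
  (add (add (sub (sub (sub (sub (add (add (add (add (sub (sub C x12272) x12280) x12238) x12310) x12166) x12382) x12112) x12760) x10816) x16648) x5712) x18836)
  (sub (sub (sub (sub (sub (add (add (sub (sub (add (add C x12280) x12284) x12264) x12294) x12168) x12384) x12114) x12762) x10818) x16650) x5716)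
  (add (add (sub (sub (sub (sub (add (add (sub (sub (add (add C x12276) x12284) x12274) x12298) x12172) x12388) x12118) x12766) x10822) x16654) x5718) x18842)
  (sub (sub (sub (sub (sub (add (add (sub (add (add (add (add C x12276) x12280) x12260) x12272) x12302) x12176) x12392) x12122) x12770) x10826) x16658) x18844)
  (add (add (sub (sub (sub (sub (sub (sub (add (add (sub C x12288) x12298) x12310) x12250) x12340) x12124) x12772) x10828) x16660) x5724) x18848)
  (sub (sub (sub (sub (sub (sub (sub (sub (sub C x12286) x12294) x12252) x12342) x12126) x12774) x10830) x16662) x5728)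
  (sub (sub (sub (sub (sub (sub (sub (sub (add (add C x12298) x12302) x12288) x12276) x12348) x12132) x12780) x10836) x16668) x5734)
  (add (add (sub (sub (sub (sub (sub (sub (add (add (add (add C x12294) x12302) x12286) x12310) x12280) x12352) x12136) x12784) x10840) x16672) x5736) x18860)
  (sub (sub (sub (sub (sub (sub (sub (sub (add (add C x12294) x12298) x12308) x12284) x12356) x12140) x12788) x10844) x16676) x18862)
  (sub (sub (sub (sub (sub (sub (add (add (sub (sub C x12310) x12302) x12236) x12272) x12362) x12146) x12794) x10850) x16682) x18868)
  (add (add (sub (sub (sub (sub (sub (add (add (add (add (sub C x12308) x12286) x12298) x12238) x12274) x12364) x12148) x12796) x10852) x16684) x5748) x18872)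
  (sub (sub (sub (sub (add (add (sub (add (add (add (add (add (add C x12316) x12320) x12324) x12336) x12348) x12384) x12204) x11664) x11988) x12798) x10854) x16686) x5752)
  (add (add (sub (sub (sub (add (add (sub (add (add (sub (add (add C x12312) x12320) x12322) x12352) x12388) x12208) x11668) x11992) x12802) x10858) x16690) x5754) x18878)
  (sub (sub (sub (sub (add (add (sub (add (add (sub (add (add C x12312) x12316) x12332) x12356) x12392) x12212) x11672) x11996) x12806) x10862) x16694) x18880)
  (add (add (sub (sub (sub (add (add (sub (sub (sub (sub C x12324) x12316) x12340) x12214) x11674) x11998) x12808) x10864) x16696) x5760) x18884)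
  (sub (sub (sub (sub (add (add (sub (sub (add (add (sub C x12322) x12312) x12336) x12342) x12216) x11676) x12000) x12810) x10866) x16698) x5764)
  (sub (sub (sub (sub (add (add (sub (sub (sub (sub C x12336) x12320) x12368) x12224) x11684) x12008) x12818) x10874) x16706) x18892)
  (sub (sub (sub (sub (add (add (sub (sub (add (add (sub C x12332) x12312) x12324) x12372) x12228) x11688) x12012) x12822) x10878) x16710) x5776)
  (add (add (sub (sub (sub (add (add (sub (sub (add (add (sub C x12342) x12352) x12364) x12322) x12286) x11692) x12016) x12826) x10882) x16714) x5778) x18902)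
  (sub (sub (sub (sub (add (add (sub (sub (sub (sub C x12340) x12348) x12324) x12288) x11694) x12018) x12828) x10884) x16716) x5782)
  (sub (sub (sub (sub (add (add (sub (add (add (sub (add (add C x12352) x12356) x12342) x12312) x12384) x12294) x11700) x12024) x12834) x10890) x16722) x5788)
  (add (add (sub (sub (sub (add (add (sub (add (add (add (add (add (add C x12348) x12356) x12340) x12364) x12316) x12388) x12298) x11704) x12028) x12838) x10894) x16726) x5790) x18914)
  (sub (sub (sub (sub (add (add (sub (add (add (sub (add (add C x12348) x12352) x12362) x12320) x12392) x12302) x11708) x12032) x12842) x10898) x16730) x18916)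
  (sub (sub (sub (sub (add (add (sub (sub (sub (sub C x12364) x12356) x12380) x12308) x11714) x12038) x12848) x10904) x16736) x18922)
  (add (add (sub (sub (sub (add (add (sub (sub (add (add (sub C x12362) x12340) x12352) x12382) x12310) x11716) x12040) x12850) x10906) x16738) x5802) x18926)
  (sub (sub (sub (sub (add (add (add (add (sub (add (add (sub C x12372) x12380) x12392) x12332) x12152) x12260) x11720) x12044) x12854) x10910) x16742) x18928)
  (sub (sub (sub (sub (add (add (add (add (sub (sub (sub C x12368) x12384) x12336) x12156) x12264) x11724) x12048) x12858) x10914) x16746) x5812)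
  (sub (sub (sub (sub (add (add (add (add (sub (add (add (sub C x12382) x12368) x12392) x12362) x12164) x12272) x11732) x12056) x12866) x10922) x16754) x18940)
  (add (add (sub (sub (sub (add (add (add (add (sub (sub (sub C x12380) x12388) x12364) x12166) x12274) x11734) x12058) x12868) x10924) x16756) x5820) x18944)
  (sub (sub (sub (sub (add (add (add (add (add (add (sub (add (add C x12388) x12392) x12372) x12312) x12348) x12168) x12276) x11736) x12060) x12870) x10926) x16758) x5824)
  (add (add (sub (sub (sub (add (add (add (add (add (add (sub (add (add C x12384) x12392) x12382) x12316) x12352) x12172) x12280) x11740) x12064) x12874) x10930) x16762) x5826) x18950)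
  (sub (sub (sub (sub (add (add (add (add (add (add (add (add (add (add C x12384) x12388) x12368) x12380) x12320) x12356) x12176) x12284) x11744) x12068) x12878) x10934) x16766) x18952)
  (sub (sub (add (add (sub (add (add (add (add (add (add (sub (sub C x12400) x12404) x12434) x12470) x12506) x12614) x12722) x13046) x11426) x6566) x9482) x16772) x18958)
  (add (add (sub (add (add (sub (add (add (add (add (add (add (sub (sub C x12398) x12412) x12436) x12472) x12508) x12616) x12724) x13048) x11428) x6568) x9484) x16774) x5838) x18962)
  (sub (sub (add (add (sub (add (add (add (add (sub (sub (sub C x12408) x12398) x12422) x12512) x12620) x12728) x13052) x11432) x6572) x9488) x16778) x18964)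
  (sub (sub (add (add (sub (add (add (add (add (sub (sub (sub C x12404) x12414) x12426) x12516) x12624) x12732) x13056) x11436) x6576) x9492) x16782) x5848)
  (add (add (sub (add (add (sub (add (add (add (add (sub (sub (sub C x12414) x12400) x12448) x12520) x12628) x12736) x13060) x11440) x6580) x9496) x16786) x5850) x18974)
  (sub (sub (add (add (sub (add (add (add (add (sub (sub (sub C x12412) x12408) x12450) x12522) x12630) x12738) x13062) x11442) x6582) x9498) x16788) x5854)
  (sub (sub (add (add (sub (add (add (sub (sub (add (add (sub C x12426) x12434) x12446) x12404) x12476) x12746) x13070) x11450) x6590) x9506) x16796) x18982)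
  (sub (sub (add (add (sub (add (add (sub (sub (sub (sub C x12422) x12438) x12408) x12480) x12750) x13074) x11454) x6594) x9510) x16800) x5866)
  (sub (sub (add (add (sub (add (add (sub (add (add (add (add (sub C x12436) x12422) x12446) x12398) x12470) x12488) x12758) x13082) x11462) x6602) x9518) x16808) x18994)
  (add (add (sub (add (add (sub (add (add (sub (add (add (sub (sub C x12434) x12442) x12400) x12472) x12490) x12760) x13084) x11464) x6604) x9520) x16810) x5874) x18998)
  (sub (sub (add (add (sub (add (add (sub (sub (sub (add (add C x12442) x12446) x12426) x12456) x12492) x12762) x13086) x11466) x6606) x9522) x16812) x5878)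
  (add (add (sub (add (add (sub (add (add (sub (sub (sub (add (add C x12438) x12446) x12436) x12460) x12496) x12766) x13090) x11470) x6610) x9526) x16816) x5880) x19004)
  (sub (sub (add (add (sub (add (add (sub (sub (add (add (add (add C x12438) x12442) x12422) x12434) x12464) x12500) x12770) x13094) x11474) x6614) x9530) x16820) x19006)
  (add (add (sub (add (add (sub (add (add (sub (sub (add (add (sub C x12450) x12460) x12472) x12412) x12556) x12772) x13096) x11476) x6616) x9532) x16822) x5886) x19010)
  (sub (sub (add (add (sub (add (add (sub (sub (sub (sub C x12448) x12456) x12414) x12558) x12774) x13098) x11478) x6618) x9534) x16824) x5890)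
  (sub (sub (add (add (sub (add (add (sub (sub (sub (add (add C x12460) x12464) x12450) x12438) x12564) x12780) x13104) x11484) x6624) x9540) x16830) x5896)
  (add (add (sub (add (add (sub (add (add (sub (sub (add (add (add (add C x12456) x12464) x12448) x12472) x12442) x12568) x12784) x13108) x11488) x6628) x9544) x16834) x5898) x19022)
  (sub (sub (add (add (sub (add (add (sub (sub (sub (add (add C x12456) x12460) x12470) x12446) x12572) x12788) x13112) x11492) x6632) x9548) x16838) x19024)
  (sub (sub (add (add (sub (add (add (sub (add (add (sub (sub C x12472) x12464) x12398) x12434) x12578) x12794) x13118) x11498) x6638) x9554) x16844) x19030)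
  (add (add (sub (add (add (sub (add (add (sub (add (add (add (add (sub C x12470) x12448) x12460) x12400) x12436) x12580) x12796) x13120) x11500) x6640) x9556) x16846) x5910) x19034)
  (sub (sub (add (add (sub (sub (sub (add (add (add (add (sub C x12480) x12488) x12500) x12512) x12548) x12422) x12638) x11504) x6644) x9560) x16850) x19036)
  (sub (sub (add (add (sub (sub (sub (add (add (sub (sub C x12476) x12492) x12516) x12552) x12426) x12642) x11508) x6648) x9564) x16854) x5920)
  (sub (sub (add (add (sub (sub (sub (sub (add (add (sub C x12490) x12476) x12500) x12506) x12434) x12650) x11516) x6656) x9572) x16862) x19048)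
  (add (add (sub (add (add (sub (sub (sub (sub (sub (sub C x12488) x12496) x12508) x12436) x12652) x11518) x6658) x9574) x16864) x5928) x19052)
  (sub (sub (add (add (sub (sub (sub (sub (sub (add (add C x12496) x12500) x12480) x12528) x12438) x12654) x11520) x6660) x9576) x16866) x5932)
  (add (add (sub (add (add (sub (sub (sub (sub (sub (add (add C x12492) x12500) x12490) x12532) x12442) x12658) x11524) x6664) x9580) x16870) x5934) x19058)
  (sub (sub (add (add (sub (sub (sub (sub (add (add (add (add C x12492) x12496) x12476) x12488) x12536) x12446) x12662) x11528) x6668) x9584) x16874) x19060)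
  (sub (sub (add (add (sub (sub (add (add (sub (sub (sub C x12508) x12512) x12488) x12398) x12614) x12668) x11534) x6674) x9590) x16880) x19066)
  (add (add (sub (add (add (sub (sub (add (add (sub (sub (sub C x12506) x12520) x12490) x12400) x12616) x12670) x11536) x6676) x9592) x16882) x5946) x19070)
  (sub (sub (add (add (sub (sub (add (add (add (add (sub (sub C x12516) x12506) x12476) x12548) x12404) x12620) x12674) x11540) x6680) x9596) x16886) x19072)
  (sub (sub (add (add (sub (sub (add (add (add (add (sub (sub C x12512) x12522) x12480) x12552) x12408) x12624) x12678) x11544) x6684) x9600) x16890) x5956)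
  (add (add (sub (add (add (sub (sub (add (add (sub (sub (sub C x12522) x12508) x12538) x12412) x12628) x12682) x11548) x6688) x9604) x16894) x5958) x19082)
  (sub (sub (add (add (sub (sub (add (add (sub (sub (sub C x12520) x12516) x12540) x12414) x12630) x12684) x11550) x6690) x9606) x16896) x5962)
  (sub (sub (add (add (sub (sub (sub (sub (add (add (add (add C x12532) x12536) x12540) x12552) x12492) x12582) x12690) x11556) x6696) x9612) x16902) x5968)
  (add (add (sub (add (add (sub (sub (sub (sub (sub (add (add C x12528) x12536) x12538) x12496) x12586) x12694) x11560) x6700) x9616) x16906) x5970) x19094)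
  (sub (sub (add (add (sub (sub (sub (sub (sub (add (add C x12528) x12532) x12548) x12500) x12590) x12698) x11564) x6704) x9620) x16910) x19096)
  (add (add (sub (add (add (sub (sub (sub (sub (sub (sub C x12540) x12532) x12520) x12592) x12700) x11566) x6706) x9622) x16912) x5976) x19100)
  (sub (sub (add (add (sub (sub (sub (sub (add (add (sub C x12538) x12528) x12552) x12522) x12594) x12702) x11568) x6708) x9624) x16914) x5980)
  (sub (sub (add (add (sub (sub (sub (add (add (sub (sub C x12552) x12536) x12476) x12512) x12602) x12710) x11576) x6716) x9632) x16922) x19108)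
  (sub (sub (add (add (sub (sub (sub (add (add (add (add (sub C x12548) x12528) x12540) x12480) x12516) x12606) x12714) x11580) x6720) x9636) x16926) x5992)
  (add (add (sub (add (add (sub (sub (sub (add (add (add (add (sub C x12558) x12568) x12580) x12592) x12628) x12448) x12880) x11584) x6724) x9640) x16930) x5994) x19118)
  (sub (sub (add (add (sub (sub (sub (add (add (sub (sub C x12556) x12564) x12594) x12630) x12450) x12882) x11586) x6726) x9642) x16932) x5998)
  (sub (sub (add (add (sub (sub (sub (sub (sub (add (add C x12568) x12572) x12558) x12582) x12456) x12888) x11592) x6732) x9648) x16938) x6004)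
  (add (add (sub (add (add (sub (sub (sub (sub (add (add (add (add C x12564) x12572) x12556) x12580) x12586) x12460) x12892) x11596) x6736) x9652) x16942) x6006) x19130)
  (sub (sub (add (add (sub (sub (sub (sub (sub (add (add C x12564) x12568) x12578) x12590) x12464) x12896) x11600) x6740) x9656) x16946) x19132)
  (sub (sub (add (add (sub (sub (sub (sub (sub (sub C x12580) x12572) x12614) x12470) x12902) x11606) x6746) x9662) x16952) x19138)
  (add (add (sub (add (add (sub (sub (sub (sub (add (add (sub C x12578) x12556) x12568) x12616) x12472) x12904) x11608) x6748) x9664) x16954) x6018) x19142)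
  (sub (sub (add (add (sub (sub (sub (sub (add (add (add (add C x12586) x12590) x12594) x12606) x12564) x12528) x12906) x11610) x6750) x9666) x16956) x6022)
  (add (add (sub (add (add (sub (sub (sub (sub (sub (add (add C x12582) x12590) x12592) x12568) x12532) x12910) x11614) x6754) x9670) x16960) x6024) x19148)
  (sub (sub (add (add (sub (sub (sub (sub (sub (add (add C x12582) x12586) x12602) x12572) x12536) x12914) x11618) x6758) x9674) x16964) x19150)
  (add (add (sub (add (add (sub (sub (sub (add (add (sub (sub C x12594) x12586) x12556) x12628) x12538) x12916) x11620) x6760) x9676) x16966) x6030) x19154)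
  (sub (sub (add (add (sub (sub (sub (add (add (add (add (sub C x12592) x12582) x12606) x12558) x12630) x12540) x12918) x11622) x6762) x9678) x16968) x6034)
  (sub (sub (add (add (sub (sub (sub (sub (sub (sub C x12606) x12590) x12620) x12548) x12926) x11630) x6770) x9686) x16976) x19162)
  (sub (sub (add (add (sub (sub (sub (sub (add (add (sub C x12602) x12582) x12594) x12624) x12552) x12930) x11634) x6774) x9690) x16980) x6046)
  (sub (sub (add (add (sub (sub (add (add (sub (sub (sub C x12616) x12620) x12578) x12398) x12506) x12938) x11642) x6782) x9698) x16988) x19174)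
  (add (add (sub (add (add (sub (sub (add (add (sub (sub (sub C x12614) x12628) x12580) x12400) x12508) x12940) x11644) x6784) x9700) x16990) x6054) x19178)
  (sub (sub (add (add (sub (sub (add (add (sub (sub (sub C x12624) x12614) x12602) x12404) x12512) x12944) x11648) x6788) x9704) x16994) x19180)
  (sub (sub (add (add (sub (sub (add (add (sub (sub (sub C x12620) x12630) x12606) x12408) x12516) x12948) x11652) x6792) x9708) x16998) x6064)
  (add (add (sub (add (add (sub (sub (add (add (add (add (sub (sub C x12630) x12616) x12556) x12592) x12412) x12520) x12952) x11656) x6796) x9712) x17002) x6066) x19190)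
  (sub (sub (add (add (sub (sub (add (add (add (add (sub (sub C x12628) x12624) x12558) x12594) x12414) x12522) x12954) x11658) x6798) x9714) x17004) x6070)
  (sub (sub (add (add (sub (sub (add (add (add (add (add (add (sub C x12642) x12650) x12662) x12674) x12710) x12746) x12854) x12476) x12152) x6806) x9722) x17012) x19198)
  (sub (sub (add (add (sub (sub (add (add (add (add (sub (sub C x12638) x12654) x12678) x12714) x12750) x12858) x12480) x12156) x6810) x9726) x17016) x6082)
  (sub (sub (add (add (sub (sub (add (add (sub (add (add (sub C x12652) x12638) x12662) x12668) x12758) x12866) x12488) x12164) x6818) x9734) x17024) x19210)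
  (add (add (sub (add (add (sub (sub (add (add (sub (sub (sub C x12650) x12658) x12670) x12760) x12868) x12490) x12166) x6820) x9736) x17026) x6090) x19214)
  (sub (sub (add (add (sub (sub (add (add (sub (sub (add (add C x12658) x12662) x12642) x12690) x12762) x12870) x12492) x12168) x6822) x9738) x17028) x6094)
  (add (add (sub (add (add (sub (sub (add (add (sub (sub (add (add C x12654) x12662) x12652) x12694) x12766) x12874) x12496) x12172) x6826) x9742) x17032) x6096) x19220)
  (sub (sub (add (add (sub (sub (add (add (sub (add (add (add (add C x12654) x12658) x12638) x12650) x12698) x12770) x12878) x12500) x12176) x6830) x9746) x17036) x19222)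
  (sub (sub (add (add (sub (sub (sub (sub (sub (sub C x12670) x12674) x12650) x12722) x12506) x12182) x6836) x9752) x17042) x19228)
  (add (add (sub (add (add (sub (sub (sub (sub (sub (sub C x12668) x12682) x12652) x12724) x12508) x12184) x6838) x9754) x17044) x6108) x19232)
  (sub (sub (add (add (sub (sub (sub (add (add (sub (sub C x12678) x12668) x12638) x12710) x12728) x12512) x12188) x6842) x9758) x17048) x19234)
  (sub (sub (add (add (sub (sub (sub (add (add (sub (sub C x12674) x12684) x12642) x12714) x12732) x12516) x12192) x6846) x9762) x17052) x6118)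
  (add (add (sub (add (add (sub (sub (sub (sub (sub (sub C x12684) x12670) x12700) x12736) x12520) x12196) x6850) x9766) x17056) x6120) x19244)
  (sub (sub (add (add (sub (sub (sub (sub (sub (sub C x12682) x12678) x12702) x12738) x12522) x12198) x6852) x9768) x17058) x6124)
  (sub (sub (add (add (sub (sub (sub (sub (add (add (add (add C x12694) x12698) x12702) x12714) x12654) x12798) x12528) x12204) x6858) x9774) x17064) x6130)
  (add (add (sub (add (add (sub (sub (sub (sub (sub (add (add C x12690) x12698) x12700) x12658) x12802) x12532) x12208) x6862) x9778) x17068) x6132) x19256)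
  (sub (sub (add (add (sub (sub (sub (sub (sub (add (add C x12690) x12694) x12710) x12662) x12806) x12536) x12212) x6866) x9782) x17072) x19258)
  (add (add (sub (add (add (sub (sub (sub (sub (sub (sub C x12702) x12694) x12682) x12808) x12538) x12214) x6868) x9784) x17074) x6138) x19262)
  (sub (sub (add (add (sub (sub (sub (sub (add (add (sub C x12700) x12690) x12714) x12684) x12810) x12540) x12216) x6870) x9786) x17076) x6142)
  (sub (sub (add (add (sub (sub (sub (add (add (sub (sub C x12714) x12698) x12638) x12674) x12818) x12548) x12224) x6878) x9794) x17084) x19270)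
  (sub (sub (add (add (sub (sub (sub (add (add (add (add (sub C x12710) x12690) x12702) x12642) x12678) x12822) x12552) x12228) x6882) x9798) x17088) x6154)
  (sub (sub (add (add (sub (add (add (sub (add (add (sub (sub C x12724) x12728) x12758) x12794) x12668) x12398) x13046) x12236) x6890) x9806) x17096) x19282)
  (add (add (sub (add (add (sub (add (add (sub (add (add (sub (sub C x12722) x12736) x12760) x12796) x12670) x12400) x13048) x12238) x6892) x9808) x17098) x6162) x19286)
  (sub (sub (add (add (sub (add (add (sub (sub (sub (sub C x12732) x12722) x12746) x12674) x12404) x13052) x12242) x6896) x9812) x17102) x19288)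
  (sub (sub (add (add (sub (add (add (sub (sub (sub (sub C x12728) x12738) x12750) x12678) x12408) x13056) x12246) x6900) x9816) x17106) x6172)
  (add (add (sub (add (add (sub (add (add (sub (sub (sub (sub C x12738) x12724) x12772) x12682) x12412) x13060) x12250) x6904) x9820) x17110) x6174) x19298)
  (sub (sub (add (add (sub (add (add (sub (sub (sub (sub C x12736) x12732) x12774) x12684) x12414) x13062) x12252) x6906) x9822) x17112) x6178)
  (sub (sub (add (add (sub (add (add (add (add (sub (add (add (sub C x12750) x12758) x12770) x12728) x12638) x12854) x12422) x13070) x12260) x6914) x9830) x17120) x19306)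
  (sub (sub (add (add (sub (add (add (add (add (sub (sub (sub C x12746) x12762) x12732) x12642) x12858) x12426) x13074) x12264) x6918) x9834) x17124) x6190)
  (sub (sub (add (add (sub (add (add (add (add (add (add (add (add (sub C x12760) x12746) x12770) x12722) x12794) x12650) x12866) x12434) x13082) x12272) x6926) x9842) x17132) x19318)
  (add (add (sub (add (add (sub (add (add (add (add (add (add (sub (sub C x12758) x12766) x12724) x12796) x12652) x12868) x12436) x13084) x12274) x6928) x9844) x17134) x6198) x19322)
  (sub (sub (add (add (sub (add (add (add (add (sub (sub (add (add C x12766) x12770) x12750) x12780) x12654) x12870) x12438) x13086) x12276) x6930) x9846) x17136) x6202)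
  (add (add (sub (add (add (sub (add (add (add (add (sub (sub (add (add C x12762) x12770) x12760) x12784) x12658) x12874) x12442) x13090) x12280) x6934) x9850) x17140) x6204) x19328)
  (sub (sub (add (add (sub (add (add (add (add (sub (add (add (add (add C x12762) x12766) x12746) x12758) x12788) x12662) x12878) x12446) x13094) x12284) x6938) x9854) x17144) x19330)
  (add (add (sub (add (add (sub (add (add (sub (sub (add (add (sub C x12774) x12784) x12796) x12736) x12826) x12448) x13096) x12286) x6940) x9856) x17146) x6210) x19334)
  (sub (sub (add (add (sub (add (add (sub (sub (sub (sub C x12772) x12780) x12738) x12828) x12450) x13098) x12288) x6942) x9858) x17148) x6214)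
  (sub (sub (add (add (sub (add (add (sub (sub (sub (add (add C x12784) x12788) x12774) x12762) x12834) x12456) x13104) x12294) x6948) x9864) x17154) x6220)
  (add (add (sub (add (add (sub (add (add (sub (sub (add (add (add (add C x12780) x12788) x12772) x12796) x12766) x12838) x12460) x13108) x12298) x6952) x9868) x17158) x6222) x19346)
  (sub (sub (add (add (sub (add (add (sub (sub (sub (add (add C x12780) x12784) x12794) x12770) x12842) x12464) x13112) x12302) x6956) x9872) x17162) x19348)
  (sub (sub (add (add (sub (add (add (sub (add (add (sub (sub C x12796) x12788) x12722) x12758) x12848) x12470) x13118) x12308) x6962) x9878) x17168) x19354)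
  (add (add (sub (add (add (sub (add (add (sub (add (add (add (add (sub C x12794) x12772) x12784) x12724) x12760) x12850) x12472) x13120) x12310) x6964) x9880) x17170) x6234) x19358)
  (sub (sub (add (add (sub (sub (sub (add (add (add (add (add (add C x12802) x12806) x12810) x12822) x12834) x12870) x12690) x12960) x12312) x6966) x9882) x17172) x6238)
  (add (add (sub (add (add (sub (sub (sub (add (add (sub (add (add C x12798) x12806) x12808) x12838) x12874) x12694) x12964) x12316) x6970) x9886) x17176) x6240) x19364)
  (sub (sub (add (add (sub (sub (sub (add (add (sub (add (add C x12798) x12802) x12818) x12842) x12878) x12698) x12968) x12320) x6974) x9890) x17180) x19366)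
  (add (add (sub (add (add (sub (sub (sub (sub (sub (sub C x12810) x12802) x12826) x12700) x12970) x12322) x6976) x9892) x17182) x6246) x19370)
  (sub (sub (add (add (sub (sub (sub (sub (add (add (sub C x12808) x12798) x12822) x12828) x12702) x12972) x12324) x6978) x9894) x17184) x6250)
  (sub (sub (add (add (sub (sub (sub (sub (sub (sub C x12822) x12806) x12854) x12710) x12980) x12332) x6986) x9902) x17192) x19378)
  (sub (sub (add (add (sub (sub (sub (sub (add (add (sub C x12818) x12798) x12810) x12858) x12714) x12984) x12336) x6990) x9906) x17196) x6262)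
  (add (add (sub (add (add (sub (sub (sub (sub (add (add (sub C x12828) x12838) x12850) x12808) x12772) x12988) x12340) x6994) x9910) x17200) x6264) x19388)
  (sub (sub (add (add (sub (sub (sub (sub (sub (sub C x12826) x12834) x12810) x12774) x12990) x12342) x6996) x9912) x17202) x6268)
  (sub (sub (add (add (sub (sub (sub (add (add (sub (add (add C x12838) x12842) x12828) x12798) x12870) x12780) x12996) x12348) x7002) x9918) x17208) x6274)
  (add (add (sub (add (add (sub (sub (sub (add (add (add (add (add (add C x12834) x12842) x12826) x12850) x12802) x12874) x12784) x13000) x12352) x7006) x9922) x17212) x6276) x19400)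
  (sub (sub (add (add (sub (sub (sub (add (add (sub (add (add C x12834) x12838) x12848) x12806) x12878) x12788) x13004) x12356) x7010) x9926) x17216) x19402)
  (sub (sub (add (add (sub (sub (sub (sub (sub (sub C x12850) x12842) x12866) x12794) x13010) x12362) x7016) x9932) x17222) x19408)
  (add (add (sub (add (add (sub (sub (sub (sub (add (add (sub C x12848) x12826) x12838) x12868) x12796) x13012) x12364) x7018) x9934) x17224) x6288) x19412)
  (sub (sub (add (add (sub (sub (add (add (sub (add (add (sub C x12858) x12866) x12878) x12818) x12638) x12746) x13016) x12368) x7022) x9938) x17228) x19414)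
  (sub (sub (add (add (sub (sub (add (add (sub (sub (sub C x12854) x12870) x12822) x12642) x12750) x13020) x12372) x7026) x9942) x17232) x6298)
  (sub (sub (add (add (sub (sub (add (add (sub (add (add (sub C x12868) x12854) x12878) x12848) x12650) x12758) x13028) x12380) x7034) x9950) x17240) x19426)
  (add (add (sub (add (add (sub (sub (add (add (sub (sub (sub C x12866) x12874) x12850) x12652) x12760) x13030) x12382) x7036) x9952) x17242) x6306) x19430)
  (sub (sub (add (add (sub (sub (add (add (add (add (sub (add (add C x12874) x12878) x12858) x12798) x12834) x12654) x12762) x13032) x12384) x7038) x9954) x17244) x6310)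
  (add (add (sub (add (add (sub (sub (add (add (add (add (sub (add (add C x12870) x12878) x12868) x12802) x12838) x12658) x12766) x13036) x12388) x7042) x9958) x17248) x6312) x19436)
  (sub (sub (add (add (sub (sub (add (add (add (add (add (add (add (add C x12870) x12874) x12854) x12866) x12806) x12842) x12662) x12770) x13040) x12392) x7046) x9962) x17252) x19438)
  (add (add (sub (add (add (add (add (sub (add (add (add (add (add (add (sub C x12882) x12892) x12904) x12916) x12952) x12988) x13096) x12556) x10936) x11908) x7048) x9964) x17254) x6318) x19442)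
  (sub (sub (add (add (add (add (sub (add (add (add (add (sub (sub C x12880) x12888) x12918) x12954) x12990) x13098) x12558) x10938) x11910) x7050) x9966) x17256) x6322)
  (sub (sub (add (add (add (add (sub (add (add (sub (sub (add (add C x12892) x12896) x12882) x12906) x12996) x13104) x12564) x10944) x11916) x7056) x9972) x17262) x6328)
  (add (add (sub (add (add (add (add (sub (add (add (sub (add (add (add (add C x12888) x12896) x12880) x12904) x12910) x13000) x13108) x12568) x10948) x11920) x7060) x9976) x17266) x6330) x19454)
  (sub (sub (add (add (add (add (sub (add (add (sub (sub (add (add C x12888) x12892) x12902) x12914) x13004) x13112) x12572) x10952) x11924) x7064) x9980) x17270) x19456)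
  (sub (sub (add (add (add (add (sub (add (add (sub (sub (sub C x12904) x12896) x12938) x13010) x13118) x12578) x10958) x11930) x7070) x9986) x17276) x19462)
  (add (add (sub (add (add (add (add (sub (add (add (sub (add (add (sub C x12902) x12880) x12892) x12940) x13012) x13120) x12580) x10960) x11932) x7072) x9988) x17278) x6342) x19466)
  (sub (sub (add (add (add (add (sub (sub (sub (add (add (add (add C x12910) x12914) x12918) x12930) x12888) x12960) x12582) x10962) x11934) x7074) x9990) x17280) x6346)
  (add (add (sub (add (add (add (add (sub (sub (sub (sub (add (add C x12906) x12914) x12916) x12892) x12964) x12586) x10966) x11938) x7078) x9994) x17284) x6348) x19472)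
  (sub (sub (add (add (add (add (sub (sub (sub (sub (add (add C x12906) x12910) x12926) x12896) x12968) x12590) x10970) x11942) x7082) x9998) x17288) x19474)
  (add (add (sub (add (add (add (add (sub (sub (add (add (sub (sub C x12918) x12910) x12880) x12952) x12970) x12592) x10972) x11944) x7084) x10000) x17290) x6354) x19478)
  (sub (sub (add (add (add (add (sub (sub (add (add (add (add (sub C x12916) x12906) x12930) x12882) x12954) x12972) x12594) x10974) x11946) x7086) x10002) x17292) x6358)
  (sub (sub (add (add (add (add (sub (sub (sub (sub (sub C x12930) x12914) x12944) x12980) x12602) x10982) x11954) x7094) x10010) x17300) x19486)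
  (sub (sub (add (add (add (add (sub (sub (sub (add (add (sub C x12926) x12906) x12918) x12948) x12984) x12606) x10986) x11958) x7098) x10014) x17304) x6370)
  (sub (sub (add (add (add (add (sub (sub (sub (sub (sub C x12940) x12944) x12902) x13046) x12614) x10994) x11966) x7106) x10022) x17312) x19498)
  (add (add (sub (add (add (add (add (sub (sub (sub (sub (sub C x12938) x12952) x12904) x13048) x12616) x10996) x11968) x7108) x10024) x17314) x6378) x19502)
  (sub (sub (add (add (add (add (sub (sub (sub (sub (sub C x12948) x12938) x12926) x13052) x12620) x11000) x11972) x7112) x10028) x17318) x19504)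
  (sub (sub (add (add (add (add (sub (sub (sub (sub (sub C x12944) x12954) x12930) x13056) x12624) x11004) x11976) x7116) x10032) x17322) x6388)
  (add (add (sub (add (add (add (add (sub (sub (add (add (sub (sub C x12954) x12940) x12880) x12916) x13060) x12628) x11008) x11980) x7120) x10036) x17326) x6390) x19514)
  (sub (sub (add (add (add (add (sub (sub (add (add (sub (sub C x12952) x12948) x12882) x12918) x13062) x12630) x11010) x11982) x7122) x10038) x17328) x6394)
  (sub (sub (add (add (add (add (sub (sub (add (add (add (add (add (add C x12964) x12968) x12972) x12984) x12996) x13032) x12906) x12798) x11016) x11988) x7128) x10044) x17334) x6400)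
  (add (add (sub (add (add (add (add (sub (sub (add (add (sub (add (add C x12960) x12968) x12970) x13000) x13036) x12910) x12802) x11020) x11992) x7132) x10048) x17338) x6402) x19526)
  (sub (sub (add (add (add (add (sub (sub (add (add (sub (add (add C x12960) x12964) x12980) x13004) x13040) x12914) x12806) x11024) x11996) x7136) x10052) x17342) x19528)
  (add (add (sub (add (add (add (add (sub (sub (sub (sub (sub C x12972) x12964) x12988) x12916) x12808) x11026) x11998) x7138) x10054) x17344) x6408) x19532)
  (sub (sub (add (add (add (add (sub (sub (sub (add (add (sub C x12970) x12960) x12984) x12990) x12918) x12810) x11028) x12000) x7140) x10056) x17346) x6412)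
  (sub (sub (add (add (add (add (sub (sub (sub (sub (sub C x12984) x12968) x13016) x12926) x12818) x11036) x12008) x7148) x10064) x17354) x19540)
  (sub (sub (add (add (add (add (sub (sub (sub (add (add (sub C x12980) x12960) x12972) x13020) x12930) x12822) x11040) x12012) x7152) x10068) x17358) x6424)
  (add (add (sub (add (add (add (add (sub (add (add (sub (add (add (sub C x12990) x13000) x13012) x12970) x12880) x13096) x12826) x11044) x12016) x7156) x10072) x17362) x6426) x19550)
  (sub (sub (add (add (add (add (sub (add (add (sub (sub (sub C x12988) x12996) x12972) x12882) x13098) x12828) x11046) x12018) x7158) x10074) x17364) x6430)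
  (sub (sub (add (add (add (add (sub (add (add (add (add (sub (add (add C x13000) x13004) x12990) x12960) x13032) x12888) x13104) x12834) x11052) x12024) x7164) x10080) x17370) x6436)
  (add (add (sub (add (add (add (add (sub (add (add (add (add (add (add (add (add C x12996) x13004) x12988) x13012) x12964) x13036) x12892) x13108) x12838) x11056) x12028) x7168) x10084) x17374) x6438) x19562)
  (sub (sub (add (add (add (add (sub (add (add (add (add (sub (add (add C x12996) x13000) x13010) x12968) x13040) x12896) x13112) x12842) x11060) x12032) x7172) x10088) x17378) x19564)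
  (sub (sub (add (add (add (add (sub (add (add (sub (sub (sub C x13012) x13004) x13028) x12902) x13118) x12848) x11066) x12038) x7178) x10094) x17384) x19570)
  (add (add (sub (add (add (add (add (sub (add (add (sub (add (add (sub C x13010) x12988) x13000) x13030) x12904) x13120) x12850) x11068) x12040) x7180) x10096) x17386) x6450) x19574)
  (sub (sub (add (add (add (add (sub (sub (sub (add (add (sub C x13020) x13028) x13040) x12980) x13070) x12854) x11072) x12044) x7184) x10100) x17390) x19576)
  (sub (sub (add (add (add (add (sub (sub (sub (sub (sub C x13016) x13032) x12984) x13074) x12858) x11076) x12048) x7188) x10104) x17394) x6460)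
  (sub (sub (add (add (add (add (sub (sub (sub (add (add (sub C x13030) x13016) x13040) x13010) x13082) x12866) x11084) x12056) x7196) x10112) x17402) x19588)
  (add (add (sub (add (add (add (add (sub (sub (sub (sub (sub C x13028) x13036) x13012) x13084) x12868) x11086) x12058) x7198) x10114) x17404) x6468) x19592)
  (sub (sub (add (add (add (add (sub (sub (add (add (sub (add (add C x13036) x13040) x13020) x12960) x12996) x13086) x12870) x11088) x12060) x7200) x10116) x17406) x6472)
  (add (add (sub (add (add (add (add (sub (sub (add (add (sub (add (add C x13032) x13040) x13030) x12964) x13000) x13090) x12874) x11092) x12064) x7204) x10120) x17410) x6474) x19598)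
  (sub (sub (add (add (add (add (sub (sub (add (add (add (add (add (add C x13032) x13036) x13016) x13028) x12968) x13004) x13094) x12878) x11096) x12068) x7208) x10124) x17414) x19600)
  (sub (sub (add (add (add (add (add (add (sub (add (add (sub (sub C x13048) x13052) x13082) x13118) x12938) x12398) x12722) x11102) x12074) x7214) x10130) x17420) x19606)
  (add (add (sub (add (add (add (add (add (add (sub (add (add (sub (sub C x13046) x13060) x13084) x13120) x12940) x12400) x12724) x11104) x12076) x7216) x10132) x17422) x6486) x19610)
  (sub (sub (add (add (add (add (add (add (sub (sub (sub (sub C x13056) x13046) x13070) x12944) x12404) x12728) x11108) x12080) x7220) x10136) x17426) x19612)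
  (sub (sub (add (add (add (add (add (add (sub (sub (sub (sub C x13052) x13062) x13074) x12948) x12408) x12732) x11112) x12084) x7224) x10140) x17430) x6496)
  (add (add (sub (add (add (add (add (add (add (sub (sub (sub (sub C x13062) x13048) x13096) x12952) x12412) x12736) x11116) x12088) x7228) x10144) x17434) x6498) x19622)
  (sub (sub (add (add (add (add (add (add (sub (sub (sub (sub C x13060) x13056) x13098) x12954) x12414) x12738) x11118) x12090) x7230) x10146) x17436) x6502)
  (sub (sub (add (add (add (add (add (add (sub (sub (add (add (sub C x13074) x13082) x13094) x13052) x13016) x12422) x12746) x11126) x12098) x7238) x10154) x17444) x19630)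
  (sub (sub (add (add (add (add (add (add (sub (sub (sub (sub C x13070) x13086) x13056) x13020) x12426) x12750) x11130) x12102) x7242) x10158) x17448) x6514)
  (sub (sub (add (add (add (add (add (add (sub (add (add (add (add (sub C x13084) x13070) x13094) x13046) x13118) x13028) x12434) x12758) x11138) x12110) x7250) x10166) x17456) x19642)
  (add (add (sub (add (add (add (add (add (add (sub (add (add (sub (sub C x13082) x13090) x13048) x13120) x13030) x12436) x12760) x11140) x12112) x7252) x10168) x17458) x6522) x19646)
  (sub (sub (add (add (add (add (add (add (sub (sub (sub (add (add C x13090) x13094) x13074) x13104) x13032) x12438) x12762) x11142) x12114) x7254) x10170) x17460) x6526)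
  (add (add (sub (add (add (add (add (add (add (sub (sub (sub (add (add C x13086) x13094) x13084) x13108) x13036) x12442) x12766) x11146) x12118) x7258) x10174) x17464) x6528) x19652)
  (sub (sub (add (add (add (add (add (add (sub (sub (add (add (add (add C x13086) x13090) x13070) x13082) x13112) x13040) x12446) x12770) x11150) x12122) x7262) x10178) x17468) x19654)
  (add (add (sub (add (add (add (add (add (add (add (add (sub (add (add (sub C x13098) x13108) x13120) x13060) x12880) x12988) x12448) x12772) x11152) x12124) x7264) x10180) x17470) x6534) x19658)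
  (sub (sub (add (add (add (add (add (add (add (add (sub (sub (sub C x13096) x13104) x13062) x12882) x12990) x12450) x12774) x11154) x12126) x7266) x10182) x17472) x6538)
  (sub (sub (add (add (add (add (add (add (add (add (sub (sub (add (add C x13108) x13112) x13098) x13086) x12888) x12996) x12456) x12780) x11160) x12132) x7272) x10188) x17478) x6544)
  (add (add (sub (add (add (add (add (add (add (add (add (sub (add (add (add (add C x13104) x13112) x13096) x13120) x13090) x12892) x13000) x12460) x12784) x11164) x12136) x7276) x10192) x17482) x6546) x19670)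
  (sub (sub (add (add (add (add (add (add (add (add (sub (sub (add (add C x13104) x13108) x13118) x13094) x12896) x13004) x12464) x12788) x11168) x12140) x7280) x10196) x17486) x19672)
  (sub (sub (add (add (add (add (add (add (add (add (add (add (sub (sub C x13120) x13112) x13046) x13082) x12902) x13010) x12470) x12794) x11174) x12146) x7286) x10202) x17492) x19678)
  (add (add (sub (add (add (add (add (add (add (add (add (add (add (add (add (sub C x13118) x13096) x13108) x13048) x13084) x12904) x13012) x12472) x12796) x11176) x12148) x7288) x10204) x17494) x6558) x19682)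
  (sub (sub (add (add (add (add (add (add (add (add (add (add (add (add (add (add C x13126) x13130) x13134) x13146) x13158) x13194) x13230) x13338) x13446) x13770) x14094) x15066) x16038) x18954) x4374) x2)
  (sub (sub (add (add (add (add (add (add (add (add (add (add (sub (add (add C x13122) x13130) x13132) x13162) x13198) x13234) x13342) x13450) x13774) x14098) x15070) x16042) x18958) x4378) x6566)
  (add (add (sub (add (add (add (add (add (add (add (add (add (add (sub (add (add C x13122) x13126) x13142) x13166) x13202) x13238) x13346) x13454) x13778) x14102) x15074) x16046) x18962) x4382) x6) x6568)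
  (sub (sub (add (add (add (add (add (add (add (add (sub (sub (sub C x13134) x13126) x13150) x13240) x13348) x13456) x13780) x14104) x15076) x16048) x18964) x4384) x6572)
  (sub (sub (add (add (add (add (add (add (add (add (sub (add (add (sub C x13132) x13122) x13146) x13152) x13242) x13350) x13458) x13782) x14106) x15078) x16050) x18966) x4386) x14)
  (add (add (sub (add (add (add (add (add (add (add (add (sub (sub (sub C x13146) x13130) x13178) x13250) x13358) x13466) x13790) x14114) x15086) x16058) x18974) x4394) x18) x6580)
  (sub (sub (add (add (add (add (add (add (add (add (sub (add (add (sub C x13142) x13122) x13134) x13182) x13254) x13362) x13470) x13794) x14118) x15090) x16062) x18978) x4398) x26)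
  (sub (sub (add (add (add (add (add (add (sub (sub (add (add (sub C x13152) x13162) x13174) x13132) x13204) x13474) x13798) x14122) x15094) x16066) x18982) x4402) x6590)
  (sub (sub (add (add (add (add (add (add (sub (sub (sub (sub C x13150) x13158) x13134) x13206) x13476) x13800) x14124) x15096) x16068) x18984) x4404) x32)
  (sub (sub (add (add (add (add (add (add (sub (add (add (sub (add (add C x13162) x13166) x13152) x13122) x13194) x13212) x13482) x13806) x14130) x15102) x16074) x18990) x4410) x38)
  (sub (sub (add (add (add (add (add (add (sub (add (add (add (add (add (add C x13158) x13166) x13150) x13174) x13126) x13198) x13216) x13486) x13810) x14134) x15106) x16078) x18994) x4414) x6602)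
  (add (add (sub (add (add (add (add (add (add (sub (add (add (sub (add (add C x13158) x13162) x13172) x13130) x13202) x13220) x13490) x13814) x14138) x15110) x16082) x18998) x4418) x42) x6604)
  (add (add (sub (add (add (add (add (add (add (sub (sub (sub (sub C x13174) x13166) x13190) x13226) x13496) x13820) x14144) x15116) x16088) x19004) x4424) x48) x6610)
  (sub (sub (add (add (add (add (add (add (sub (sub (add (add (sub C x13172) x13150) x13162) x13192) x13228) x13498) x13822) x14146) x15118) x16090) x19006) x4426) x6614)
  (add (add (sub (add (add (add (add (add (add (sub (sub (add (add (sub C x13182) x13190) x13202) x13142) x13286) x13502) x13826) x14150) x15122) x16094) x19010) x4430) x54) x6616)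
  (sub (sub (add (add (add (add (add (add (sub (sub (sub (sub C x13178) x13194) x13146) x13290) x13506) x13830) x14154) x15126) x16098) x19014) x4434) x62)
  (add (add (sub (add (add (add (add (add (add (sub (sub (add (add (sub C x13192) x13178) x13202) x13172) x13298) x13514) x13838) x14162) x15134) x16106) x19022) x4442) x66) x6628)
  (sub (sub (add (add (add (add (add (add (sub (sub (sub (sub C x13190) x13198) x13174) x13300) x13516) x13840) x14164) x15136) x16108) x19024) x4444) x6632)
  (sub (sub (add (add (add (add (add (add (sub (add (add (sub (add (add C x13198) x13202) x13182) x13122) x13158) x13302) x13518) x13842) x14166) x15138) x16110) x19026) x4446) x74)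
  (sub (sub (add (add (add (add (add (add (sub (add (add (sub (add (add C x13194) x13202) x13192) x13126) x13162) x13306) x13522) x13846) x14170) x15142) x16114) x19030) x4450) x6638)
  (add (add (sub (add (add (add (add (add (add (sub (add (add (add (add (add (add C x13194) x13198) x13178) x13190) x13130) x13166) x13310) x13526) x13850) x14174) x15146) x16118) x19034) x4454) x78) x6640)
  (sub (sub (add (add (add (add (sub (sub (add (add (add (add (sub C x13206) x13216) x13228) x13240) x13276) x13150) x13366) x14176) x15148) x16120) x19036) x4456) x6644)
  (sub (sub (add (add (add (add (sub (sub (add (add (sub (sub C x13204) x13212) x13242) x13278) x13152) x13368) x14178) x15150) x16122) x19038) x4458) x86)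
  (sub (sub (add (add (add (add (sub (sub (sub (sub (add (add C x13216) x13220) x13206) x13230) x13158) x13374) x14184) x15156) x16128) x19044) x4464) x92)
  (sub (sub (add (add (add (add (sub (sub (sub (add (add (add (add C x13212) x13220) x13204) x13228) x13234) x13162) x13378) x14188) x15160) x16132) x19048) x4468) x6656)
  (add (add (sub (add (add (add (add (sub (sub (sub (sub (add (add C x13212) x13216) x13226) x13238) x13166) x13382) x14192) x15164) x16136) x19052) x4472) x96) x6658)
  (add (add (sub (add (add (add (add (sub (sub (sub (sub (sub C x13228) x13220) x13262) x13172) x13388) x14198) x15170) x16142) x19058) x4478) x102) x6664)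
  (sub (sub (add (add (add (add (sub (sub (sub (add (add (sub C x13226) x13204) x13216) x13264) x13174) x13390) x14200) x15172) x16144) x19060) x4480) x6668)
  (sub (sub (add (add (add (add (sub (add (add (sub (add (add (add (add C x13234) x13238) x13242) x13254) x13212) x13122) x13338) x13392) x14202) x15174) x16146) x19062) x4482) x110)
  (sub (sub (add (add (add (add (sub (add (add (sub (sub (add (add C x13230) x13238) x13240) x13216) x13126) x13342) x13396) x14206) x15178) x16150) x19066) x4486) x6674)
  (add (add (sub (add (add (add (add (sub (add (add (sub (sub (add (add C x13230) x13234) x13250) x13220) x13130) x13346) x13400) x14210) x15182) x16154) x19070) x4490) x114) x6676)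
  (sub (sub (add (add (add (add (sub (add (add (add (add (sub (sub C x13242) x13234) x13204) x13276) x13132) x13348) x13402) x14212) x15184) x16156) x19072) x4492) x6680)
  (sub (sub (add (add (add (add (sub (add (add (add (add (add (add (sub C x13240) x13230) x13254) x13206) x13278) x13134) x13350) x13404) x14214) x15186) x16158) x19074) x4494) x122)
  (add (add (sub (add (add (add (add (sub (add (add (sub (sub (sub C x13254) x13238) x13268) x13142) x13358) x13412) x14222) x15194) x16166) x19082) x4502) x126) x6688)
  (sub (sub (add (add (add (add (sub (add (add (sub (add (add (sub C x13250) x13230) x13242) x13272) x13146) x13362) x13416) x14226) x15198) x16170) x19086) x4506) x134)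
  (add (add (sub (add (add (add (add (sub (sub (sub (sub (sub C x13264) x13268) x13226) x13316) x13424) x14234) x15206) x16178) x19094) x4514) x138) x6700)
  (sub (sub (add (add (add (add (sub (sub (sub (sub (sub C x13262) x13276) x13228) x13318) x13426) x14236) x15208) x16180) x19096) x4516) x6704)
  (add (add (sub (add (add (add (add (sub (sub (sub (sub (sub C x13272) x13262) x13250) x13322) x13430) x14240) x15212) x16184) x19100) x4520) x144) x6706)
  (sub (sub (add (add (add (add (sub (sub (sub (sub (sub C x13268) x13278) x13254) x13326) x13434) x14244) x15216) x16188) x19104) x4524) x152)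
  (sub (sub (add (add (add (add (sub (sub (add (add (sub (sub C x13278) x13264) x13204) x13240) x13330) x13438) x14248) x15220) x16192) x19108) x4528) x6716)
  (sub (sub (add (add (add (add (sub (sub (add (add (sub (sub C x13276) x13272) x13206) x13242) x13332) x13440) x14250) x15222) x16194) x19110) x4530) x158)
  (add (add (sub (add (add (add (add (sub (sub (add (add (add (add (sub C x13290) x13298) x13310) x13322) x13358) x13178) x13610) x14258) x15230) x16202) x19118) x4538) x162) x6724)
  (sub (sub (add (add (add (add (sub (sub (add (add (sub (sub C x13286) x13302) x13326) x13362) x13182) x13614) x14262) x15234) x16206) x19122) x4542) x170)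
  (add (add (sub (add (add (add (add (sub (sub (sub (add (add (sub C x13300) x13286) x13310) x13316) x13190) x13622) x14270) x15242) x16214) x19130) x4550) x174) x6736)
  (sub (sub (add (add (add (add (sub (sub (sub (sub (sub C x13298) x13306) x13318) x13192) x13624) x14272) x15244) x16216) x19132) x4552) x6740)
  (sub (sub (add (add (add (add (sub (sub (sub (sub (add (add C x13306) x13310) x13290) x13338) x13194) x13626) x14274) x15246) x16218) x19134) x4554) x182)
  (sub (sub (add (add (add (add (sub (sub (sub (sub (add (add C x13302) x13310) x13300) x13342) x13198) x13630) x14278) x15250) x16222) x19138) x4558) x6746)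
  (add (add (sub (add (add (add (add (sub (sub (sub (add (add (add (add C x13302) x13306) x13286) x13298) x13346) x13202) x13634) x14282) x15254) x16226) x19142) x4562) x186) x6748)
  (add (add (sub (add (add (add (add (sub (sub (sub (sub (sub C x13318) x13322) x13298) x13262) x13640) x14288) x15260) x16232) x19148) x4568) x192) x6754)
  (sub (sub (add (add (add (add (sub (sub (sub (sub (sub C x13316) x13330) x13300) x13264) x13642) x14290) x15262) x16234) x19150) x4570) x6758)
  (add (add (sub (add (add (add (add (sub (sub (add (add (sub (sub C x13326) x13316) x13286) x13358) x13268) x13646) x14294) x15266) x16238) x19154) x4574) x198) x6760)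
  (sub (sub (add (add (add (add (sub (sub (add (add (sub (sub C x13322) x13332) x13290) x13362) x13272) x13650) x14298) x15270) x16242) x19158) x4578) x206)
  (sub (sub (add (add (add (add (sub (sub (sub (sub (sub C x13332) x13318) x13348) x13276) x13654) x14302) x15274) x16246) x19162) x4582) x6770)
  (sub (sub (add (add (add (add (sub (sub (sub (sub (sub C x13330) x13326) x13350) x13278) x13656) x14304) x15276) x16248) x19164) x4584) x212)
  (sub (sub (add (add (add (add (sub (add (add (sub (add (add (add (add C x13342) x13346) x13350) x13362) x13302) x13122) x13230) x13662) x14310) x15282) x16254) x19170) x4590) x218)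
  (sub (sub (add (add (add (add (sub (add (add (sub (sub (add (add C x13338) x13346) x13348) x13306) x13126) x13234) x13666) x14314) x15286) x16258) x19174) x4594) x6782)
  (add (add (sub (add (add (add (add (sub (add (add (sub (sub (add (add C x13338) x13342) x13358) x13310) x13130) x13238) x13670) x14318) x15290) x16262) x19178) x4598) x222) x6784)
  (sub (sub (add (add (add (add (sub (add (add (sub (sub (sub C x13350) x13342) x13330) x13132) x13240) x13672) x14320) x15292) x16264) x19180) x4600) x6788)
  (sub (sub (add (add (add (add (sub (add (add (sub (add (add (sub C x13348) x13338) x13362) x13332) x13134) x13242) x13674) x14322) x15294) x16266) x19182) x4602) x230)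
  (add (add (sub (add (add (add (add (sub (add (add (add (add (sub (sub C x13362) x13346) x13286) x13322) x13142) x13250) x13682) x14330) x15302) x16274) x19190) x4610) x234) x6796)
  (sub (sub (add (add (add (add (sub (add (add (add (add (add (add (sub C x13358) x13338) x13350) x13290) x13326) x13146) x13254) x13686) x14334) x15306) x16278) x19194) x4614) x242)
  (sub (sub (add (add (sub (sub (add (add (add (add (add (add (sub C x13368) x13378) x13390) x13402) x13438) x13474) x13582) x13204) x13852) x16282) x19198) x4618) x6806)
  (sub (sub (add (add (sub (sub (add (add (add (add (sub (sub C x13366) x13374) x13404) x13440) x13476) x13584) x13206) x13854) x16284) x19200) x4620) x248)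
  (sub (sub (add (add (sub (sub (add (add (sub (sub (add (add C x13378) x13382) x13368) x13392) x13482) x13590) x13212) x13860) x16290) x19206) x4626) x254)
  (sub (sub (add (add (sub (sub (add (add (sub (add (add (add (add C x13374) x13382) x13366) x13390) x13396) x13486) x13594) x13216) x13864) x16294) x19210) x4630) x6818)
  (add (add (sub (add (add (sub (sub (add (add (sub (sub (add (add C x13374) x13378) x13388) x13400) x13490) x13598) x13220) x13868) x16298) x19214) x4634) x258) x6820)
  (add (add (sub (add (add (sub (sub (add (add (sub (sub (sub C x13390) x13382) x13424) x13496) x13604) x13226) x13874) x16304) x19220) x4640) x264) x6826)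
  (sub (sub (add (add (sub (sub (add (add (sub (add (add (sub C x13388) x13366) x13378) x13426) x13498) x13606) x13228) x13876) x16306) x19222) x4642) x6830)
  (sub (sub (add (add (sub (sub (sub (sub (add (add (add (add C x13396) x13400) x13404) x13416) x13374) x13446) x13230) x13878) x16308) x19224) x4644) x272)
  (sub (sub (add (add (sub (sub (sub (sub (sub (add (add C x13392) x13400) x13402) x13378) x13450) x13234) x13882) x16312) x19228) x4648) x6836)
  (add (add (sub (add (add (sub (sub (sub (sub (sub (add (add C x13392) x13396) x13412) x13382) x13454) x13238) x13886) x16316) x19232) x4652) x276) x6838)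
  (sub (sub (add (add (sub (sub (sub (add (add (sub (sub C x13404) x13396) x13366) x13438) x13456) x13240) x13888) x16318) x19234) x4654) x6842)
  (sub (sub (add (add (sub (sub (sub (add (add (add (add (sub C x13402) x13392) x13416) x13368) x13440) x13458) x13242) x13890) x16320) x19236) x4656) x284)
  (add (add (sub (add (add (sub (sub (sub (sub (sub (sub C x13416) x13400) x13430) x13466) x13250) x13898) x16328) x19244) x4664) x288) x6850)
  (sub (sub (add (add (sub (sub (sub (sub (add (add (sub C x13412) x13392) x13404) x13434) x13470) x13254) x13902) x16332) x19248) x4668) x296)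
  (add (add (sub (add (add (sub (sub (sub (sub (sub (sub C x13426) x13430) x13388) x13532) x13262) x13910) x16340) x19256) x4676) x300) x6862)
  (sub (sub (add (add (sub (sub (sub (sub (sub (sub C x13424) x13438) x13390) x13534) x13264) x13912) x16342) x19258) x4678) x6866)
  (add (add (sub (add (add (sub (sub (sub (sub (sub (sub C x13434) x13424) x13412) x13538) x13268) x13916) x16346) x19262) x4682) x306) x6868)
  (sub (sub (add (add (sub (sub (sub (sub (sub (sub C x13430) x13440) x13416) x13542) x13272) x13920) x16350) x19266) x4686) x314)
  (sub (sub (add (add (sub (sub (sub (add (add (sub (sub C x13440) x13426) x13366) x13402) x13546) x13276) x13924) x16354) x19270) x4690) x6878)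
  (sub (sub (add (add (sub (sub (sub (add (add (sub (sub C x13438) x13434) x13368) x13404) x13548) x13278) x13926) x16356) x19272) x4692) x320)
  (sub (sub (add (add (sub (add (add (sub (add (add (add (add (add (add C x13450) x13454) x13458) x13470) x13482) x13518) x13392) x13122) x13770) x13932) x16362) x19278) x4698) x326)
  (sub (sub (add (add (sub (add (add (sub (add (add (sub (add (add C x13446) x13454) x13456) x13486) x13522) x13396) x13126) x13774) x13936) x16366) x19282) x4702) x6890)
  (add (add (sub (add (add (sub (add (add (sub (add (add (sub (add (add C x13446) x13450) x13466) x13490) x13526) x13400) x13130) x13778) x13940) x16370) x19286) x4706) x330) x6892)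
  (sub (sub (add (add (sub (add (add (sub (sub (sub (sub C x13458) x13450) x13474) x13402) x13132) x13780) x13942) x16372) x19288) x4708) x6896)
  (sub (sub (add (add (sub (add (add (sub (sub (add (add (sub C x13456) x13446) x13470) x13476) x13404) x13134) x13782) x13944) x16374) x19290) x4710) x338)
  (add (add (sub (add (add (sub (add (add (sub (sub (sub (sub C x13470) x13454) x13502) x13412) x13142) x13790) x13952) x16382) x19298) x4718) x342) x6904)
  (sub (sub (add (add (sub (add (add (sub (sub (add (add (sub C x13466) x13446) x13458) x13506) x13416) x13146) x13794) x13956) x16386) x19302) x4722) x350)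
  (sub (sub (add (add (sub (add (add (add (add (sub (add (add (sub C x13476) x13486) x13498) x13456) x13366) x13582) x13150) x13798) x13960) x16390) x19306) x4726) x6914)
  (sub (sub (add (add (sub (add (add (add (add (sub (sub (sub C x13474) x13482) x13458) x13368) x13584) x13152) x13800) x13962) x16392) x19308) x4728) x356)
  (sub (sub (add (add (sub (add (add (add (add (add (add (sub (add (add C x13486) x13490) x13476) x13446) x13518) x13374) x13590) x13158) x13806) x13968) x16398) x19314) x4734) x362)
  (sub (sub (add (add (sub (add (add (add (add (add (add (add (add (add (add C x13482) x13490) x13474) x13498) x13450) x13522) x13378) x13594) x13162) x13810) x13972) x16402) x19318) x4738) x6926)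
  (add (add (sub (add (add (sub (add (add (add (add (add (add (sub (add (add C x13482) x13486) x13496) x13454) x13526) x13382) x13598) x13166) x13814) x13976) x16406) x19322) x4742) x366) x6928)
  (add (add (sub (add (add (sub (add (add (add (add (sub (sub (sub C x13498) x13490) x13514) x13388) x13604) x13172) x13820) x13982) x16412) x19328) x4748) x372) x6934)
  (sub (sub (add (add (sub (add (add (add (add (sub (add (add (sub C x13496) x13474) x13486) x13516) x13390) x13606) x13174) x13822) x13984) x16414) x19330) x4750) x6938)
  (add (add (sub (add (add (sub (add (add (sub (sub (add (add (sub C x13506) x13514) x13526) x13466) x13556) x13178) x13826) x13988) x16418) x19334) x4754) x378) x6940)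
  (sub (sub (add (add (sub (add (add (sub (sub (sub (sub C x13502) x13518) x13470) x13560) x13182) x13830) x13992) x16422) x19338) x4758) x386)
  (add (add (sub (add (add (sub (add (add (sub (sub (add (add (sub C x13516) x13502) x13526) x13496) x13568) x13190) x13838) x14000) x16430) x19346) x4766) x390) x6952)
  (sub (sub (add (add (sub (add (add (sub (sub (sub (sub C x13514) x13522) x13498) x13570) x13192) x13840) x14002) x16432) x19348) x4768) x6956)
  (sub (sub (add (add (sub (add (add (sub (add (add (sub (add (add C x13522) x13526) x13506) x13446) x13482) x13572) x13194) x13842) x14004) x16434) x19350) x4770) x398)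
  (sub (sub (add (add (sub (add (add (sub (add (add (sub (add (add C x13518) x13526) x13516) x13450) x13486) x13576) x13198) x13846) x14008) x16438) x19354) x4774) x6962)
  (add (add (sub (add (add (sub (add (add (sub (add (add (add (add (add (add C x13518) x13522) x13502) x13514) x13454) x13490) x13580) x13202) x13850) x14012) x16442) x19358) x4778) x402) x6964)
  (add (add (sub (add (add (sub (sub (sub (add (add (sub (sub C x13534) x13538) x13568) x13604) x13424) x13694) x14018) x16448) x19364) x4784) x408) x6970)
  (sub (sub (add (add (sub (sub (sub (add (add (sub (sub C x13532) x13546) x13570) x13606) x13426) x13696) x14020) x16450) x19366) x4786) x6974)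
  (add (add (sub (add (add (sub (sub (sub (sub (sub (sub C x13542) x13532) x13556) x13430) x13700) x14024) x16454) x19370) x4790) x414) x6976)
  (sub (sub (add (add (sub (sub (sub (sub (sub (sub C x13538) x13548) x13560) x13434) x13704) x14028) x16458) x19374) x4794) x422)
  (sub (sub (add (add (sub (sub (sub (sub (sub (sub C x13548) x13534) x13582) x13438) x13708) x14032) x16462) x19378) x4798) x6986)
  (sub (sub (add (add (sub (sub (sub (sub (sub (sub C x13546) x13542) x13584) x13440) x13710) x14034) x16464) x19380) x4800) x428)
  (add (add (sub (add (add (sub (sub (sub (sub (add (add (sub C x13560) x13568) x13580) x13538) x13502) x13718) x14042) x16472) x19388) x4808) x432) x6994)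
  (sub (sub (add (add (sub (sub (sub (sub (sub (sub C x13556) x13572) x13542) x13506) x13722) x14046) x16476) x19392) x4812) x440)
  (add (add (sub (add (add (sub (sub (sub (add (add (add (add (sub C x13570) x13556) x13580) x13532) x13604) x13514) x13730) x14054) x16484) x19400) x4820) x444) x7006)
  (sub (sub (add (add (sub (sub (sub (add (add (sub (sub C x13568) x13576) x13534) x13606) x13516) x13732) x14056) x16486) x19402) x4822) x7010)
  (sub (sub (add (add (sub (sub (sub (sub (sub (add (add C x13576) x13580) x13560) x13590) x13518) x13734) x14058) x16488) x19404) x4824) x452)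
  (sub (sub (add (add (sub (sub (sub (sub (sub (add (add C x13572) x13580) x13570) x13594) x13522) x13738) x14062) x16492) x19408) x4828) x7016)
  (add (add (sub (add (add (sub (sub (sub (sub (add (add (add (add C x13572) x13576) x13556) x13568) x13598) x13526) x13742) x14066) x16496) x19412) x4832) x456) x7018)
  (sub (sub (add (add (sub (sub (add (add (sub (add (add (sub C x13584) x13594) x13606) x13546) x13366) x13474) x13744) x14068) x16498) x19414) x4834) x7022)
  (sub (sub (add (add (sub (sub (add (add (sub (sub (sub C x13582) x13590) x13548) x13368) x13476) x13746) x14070) x16500) x19416) x4836) x464)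
  (sub (sub (add (add (sub (sub (add (add (sub (sub (add (add C x13594) x13598) x13584) x13572) x13374) x13482) x13752) x14076) x16506) x19422) x4842) x470)
  (sub (sub (add (add (sub (sub (add (add (sub (add (add (add (add C x13590) x13598) x13582) x13606) x13576) x13378) x13486) x13756) x14080) x16510) x19426) x4846) x7034)
  (add (add (sub (add (add (sub (sub (add (add (sub (sub (add (add C x13590) x13594) x13604) x13580) x13382) x13490) x13760) x14084) x16514) x19430) x4850) x474) x7036)
  (add (add (sub (add (add (sub (sub (add (add (add (add (sub (sub C x13606) x13598) x13532) x13568) x13388) x13496) x13766) x14090) x16520) x19436) x4856) x480) x7042)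
  (sub (sub (add (add (sub (sub (add (add (add (add (add (add (sub C x13604) x13582) x13594) x13534) x13570) x13390) x13498) x13768) x14092) x16522) x19438) x4858) x7046)
  (add (add (sub (add (add (sub (sub (add (add (add (add (add (add (sub C x13614) x13622) x13634) x13646) x13682) x13718) x13826) x13286) x14582) x16526) x19442) x4862) x486) x7048)
  (sub (sub (add (add (sub (sub (add (add (add (add (sub (sub C x13610) x13626) x13650) x13686) x13722) x13830) x13290) x14586) x16530) x19446) x4866) x494)
  (add (add (sub (add (add (sub (sub (add (add (sub (add (add (sub C x13624) x13610) x13634) x13640) x13730) x13838) x13298) x14594) x16538) x19454) x4874) x498) x7060)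
  (sub (sub (add (add (sub (sub (add (add (sub (sub (sub C x13622) x13630) x13642) x13732) x13840) x13300) x14596) x16540) x19456) x4876) x7064)
  (sub (sub (add (add (sub (sub (add (add (sub (sub (add (add C x13630) x13634) x13614) x13662) x13734) x13842) x13302) x14598) x16542) x19458) x4878) x506)
  (sub (sub (add (add (sub (sub (add (add (sub (sub (add (add C x13626) x13634) x13624) x13666) x13738) x13846) x13306) x14602) x16546) x19462) x4882) x7070)
  (add (add (sub (add (add (sub (sub (add (add (sub (add (add (add (add C x13626) x13630) x13610) x13622) x13670) x13742) x13850) x13310) x14606) x16550) x19466) x4886) x510) x7072)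
  (add (add (sub (add (add (sub (sub (sub (sub (sub (sub C x13642) x13646) x13622) x13694) x13316) x14612) x16556) x19472) x4892) x516) x7078)
  (sub (sub (add (add (sub (sub (sub (sub (sub (sub C x13640) x13654) x13624) x13696) x13318) x14614) x16558) x19474) x4894) x7082)
  (add (add (sub (add (add (sub (sub (sub (add (add (sub (sub C x13650) x13640) x13610) x13682) x13700) x13322) x14618) x16562) x19478) x4898) x522) x7084)
  (sub (sub (add (add (sub (sub (sub (add (add (sub (sub C x13646) x13656) x13614) x13686) x13704) x13326) x14622) x16566) x19482) x4902) x530)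
  (sub (sub (add (add (sub (sub (sub (sub (sub (sub C x13656) x13642) x13672) x13708) x13330) x14626) x16570) x19486) x4906) x7094)
  (sub (sub (add (add (sub (sub (sub (sub (sub (sub C x13654) x13650) x13674) x13710) x13332) x14628) x16572) x19488) x4908) x536)
  (sub (sub (add (add (sub (sub (sub (sub (add (add (add (add C x13666) x13670) x13674) x13686) x13626) x13770) x13338) x14634) x16578) x19494) x4914) x542)
  (sub (sub (add (add (sub (sub (sub (sub (sub (add (add C x13662) x13670) x13672) x13630) x13774) x13342) x14638) x16582) x19498) x4918) x7106)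
  (add (add (sub (add (add (sub (sub (sub (sub (sub (add (add C x13662) x13666) x13682) x13634) x13778) x13346) x14642) x16586) x19502) x4922) x546) x7108)
  (sub (sub (add (add (sub (sub (sub (sub (sub (sub C x13674) x13666) x13654) x13780) x13348) x14644) x16588) x19504) x4924) x7112)
  (sub (sub (add (add (sub (sub (sub (sub (add (add (sub C x13672) x13662) x13686) x13656) x13782) x13350) x14646) x16590) x19506) x4926) x554)
  (add (add (sub (add (add (sub (sub (sub (add (add (sub (sub C x13686) x13670) x13610) x13646) x13790) x13358) x14654) x16598) x19514) x4934) x558) x7120)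
  (sub (sub (add (add (sub (sub (sub (add (add (add (add (sub C x13682) x13662) x13674) x13614) x13650) x13794) x13362) x14658) x16602) x19518) x4938) x566)
  (add (add (sub (add (add (sub (sub (sub (add (add (sub (sub C x13696) x13700) x13730) x13766) x13640) x13532) x14666) x16610) x19526) x4946) x570) x7132)
  (sub (sub (add (add (sub (sub (sub (add (add (sub (sub C x13694) x13708) x13732) x13768) x13642) x13534) x14668) x16612) x19528) x4948) x7136)
  (add (add (sub (add (add (sub (sub (sub (sub (sub (sub C x13704) x13694) x13718) x13646) x13538) x14672) x16616) x19532) x4952) x576) x7138)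
  (sub (sub (add (add (sub (sub (sub (sub (sub (sub C x13700) x13710) x13722) x13650) x13542) x14676) x16620) x19536) x4956) x584)
  (sub (sub (add (add (sub (sub (sub (sub (sub (sub C x13710) x13696) x13744) x13654) x13546) x14680) x16624) x19540) x4960) x7148)
  (sub (sub (add (add (sub (sub (sub (sub (sub (sub C x13708) x13704) x13746) x13656) x13548) x14682) x16626) x19542) x4962) x590)
  (add (add (sub (add (add (sub (sub (add (add (sub (add (add (sub C x13722) x13730) x13742) x13700) x13610) x13826) x13556) x14690) x16634) x19550) x4970) x594) x7156)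
  (sub (sub (add (add (sub (sub (add (add (sub (sub (sub C x13718) x13734) x13704) x13614) x13830) x13560) x14694) x16638) x19554) x4974) x602)
  (add (add (sub (add (add (sub (sub (add (add (add (add (add (add (sub C x13732) x13718) x13742) x13694) x13766) x13622) x13838) x13568) x14702) x16646) x19562) x4982) x606) x7168)
  (sub (sub (add (add (sub (sub (add (add (add (add (sub (sub C x13730) x13738) x13696) x13768) x13624) x13840) x13570) x14704) x16648) x19564) x4984) x7172)
  (sub (sub (add (add (sub (sub (add (add (sub (sub (add (add C x13738) x13742) x13722) x13752) x13626) x13842) x13572) x14706) x16650) x19566) x4986) x614)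
  (sub (sub (add (add (sub (sub (add (add (sub (sub (add (add C x13734) x13742) x13732) x13756) x13630) x13846) x13576) x14710) x16654) x19570) x4990) x7178)
  (add (add (sub (add (add (sub (sub (add (add (sub (add (add (add (add C x13734) x13738) x13718) x13730) x13760) x13634) x13850) x13580) x14714) x16658) x19574) x4994) x618) x7180)
  (sub (sub (add (add (sub (sub (sub (sub (add (add (sub C x13746) x13756) x13768) x13708) x13798) x13582) x14716) x16660) x19576) x4996) x7184)
  (sub (sub (add (add (sub (sub (sub (sub (sub (sub C x13744) x13752) x13710) x13800) x13584) x14718) x16662) x19578) x4998) x626)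
  (sub (sub (add (add (sub (sub (sub (sub (sub (add (add C x13756) x13760) x13746) x13734) x13806) x13590) x14724) x16668) x19584) x5004) x632)
  (sub (sub (add (add (sub (sub (sub (sub (add (add (add (add C x13752) x13760) x13744) x13768) x13738) x13810) x13594) x14728) x16672) x19588) x5008) x7196)
  (add (add (sub (add (add (sub (sub (sub (sub (sub (add (add C x13752) x13756) x13766) x13742) x13814) x13598) x14732) x16676) x19592) x5012) x636) x7198)
  (add (add (sub (add (add (sub (sub (sub (add (add (sub (sub C x13768) x13760) x13694) x13730) x13820) x13604) x14738) x16682) x19598) x5018) x642) x7204)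
  (sub (sub (add (add (sub (sub (sub (add (add (add (add (sub C x13766) x13744) x13756) x13696) x13732) x13822) x13606) x14740) x16684) x19600) x5020) x7208)
  (sub (sub (add (add (sub (add (add (sub (add (add (add (add (add (add C x13774) x13778) x13782) x13794) x13806) x13842) x13662) x13122) x13446) x14742) x16686) x19602) x5022) x650)
  (sub (sub (add (add (sub (add (add (sub (add (add (sub (add (add C x13770) x13778) x13780) x13810) x13846) x13666) x13126) x13450) x14746) x16690) x19606) x5026) x7214)
  (add (add (sub (add (add (sub (add (add (sub (add (add (sub (add (add C x13770) x13774) x13790) x13814) x13850) x13670) x13130) x13454) x14750) x16694) x19610) x5030) x654) x7216)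
  (sub (sub (add (add (sub (add (add (sub (sub (sub (sub C x13782) x13774) x13798) x13672) x13132) x13456) x14752) x16696) x19612) x5032) x7220)
  (sub (sub (add (add (sub (add (add (sub (sub (add (add (sub C x13780) x13770) x13794) x13800) x13674) x13134) x13458) x14754) x16698) x19614) x5034) x662)
  (add (add (sub (add (add (sub (add (add (sub (sub (sub (sub C x13794) x13778) x13826) x13682) x13142) x13466) x14762) x16706) x19622) x5042) x666) x7228)
  (sub (sub (add (add (sub (add (add (sub (sub (add (add (sub C x13790) x13770) x13782) x13830) x13686) x13146) x13470) x14766) x16710) x19626) x5046) x674)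
  (sub (sub (add (add (sub (add (add (sub (sub (add (add (sub C x13800) x13810) x13822) x13780) x13744) x13150) x13474) x14770) x16714) x19630) x5050) x7238)
  (sub (sub (add (add (sub (add (add (sub (sub (sub (sub C x13798) x13806) x13782) x13746) x13152) x13476) x14772) x16716) x19632) x5052) x680)
  (sub (sub (add (add (sub (add (add (sub (add (add (sub (add (add C x13810) x13814) x13800) x13770) x13842) x13752) x13158) x13482) x14778) x16722) x19638) x5058) x686)
  (sub (sub (add (add (sub (add (add (sub (add (add (add (add (add (add C x13806) x13814) x13798) x13822) x13774) x13846) x13756) x13162) x13486) x14782) x16726) x19642) x5062) x7250)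
  (add (add (sub (add (add (sub (add (add (sub (add (add (sub (add (add C x13806) x13810) x13820) x13778) x13850) x13760) x13166) x13490) x14786) x16730) x19646) x5066) x690) x7252)
  (add (add (sub (add (add (sub (add (add (sub (sub (sub (sub C x13822) x13814) x13838) x13766) x13172) x13496) x14792) x16736) x19652) x5072) x696) x7258)
  (sub (sub (add (add (sub (add (add (sub (sub (add (add (sub C x13820) x13798) x13810) x13840) x13768) x13174) x13498) x14794) x16738) x19654) x5074) x7262)
  (add (add (sub (add (add (sub (add (add (add (add (sub (add (add (sub C x13830) x13838) x13850) x13790) x13610) x13718) x13178) x13502) x14798) x16742) x19658) x5078) x702) x7264)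
  (sub (sub (add (add (sub (add (add (add (add (sub (sub (sub C x13826) x13842) x13794) x13614) x13722) x13182) x13506) x14802) x16746) x19662) x5082) x710)
  (add (add (sub (add (add (sub (add (add (add (add (sub (add (add (sub C x13840) x13826) x13850) x13820) x13622) x13730) x13190) x13514) x14810) x16754) x19670) x5090) x714) x7276)
  (sub (sub (add (add (sub (add (add (add (add (sub (sub (sub C x13838) x13846) x13822) x13624) x13732) x13192) x13516) x14812) x16756) x19672) x5092) x7280)
  (sub (sub (add (add (sub (add (add (add (add (add (add (sub (add (add C x13846) x13850) x13830) x13770) x13806) x13626) x13734) x13194) x13518) x14814) x16758) x19674) x5094) x722)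
  (sub (sub (add (add (sub (add (add (add (add (add (add (sub (add (add C x13842) x13850) x13840) x13774) x13810) x13630) x13738) x13198) x13522) x14818) x16762) x19678) x5098) x7286)
  (add (add (sub (add (add (sub (add (add (add (add (add (add (add (add (add (add C x13842) x13846) x13826) x13838) x13778) x13814) x13634) x13742) x13202) x13526) x14822) x16766) x19682) x5102) x726) x7288)
  (sub (sub (sub (sub (add (add (add (add (add (add (add (add (sub C x13854) x13864) x13876) x13888) x13924) x13960) x14068) x14176) x14500) x13366) x15310) x5104) x7292)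
  (sub (sub (sub (sub (add (add (add (add (add (add (sub (sub C x13852) x13860) x13890) x13926) x13962) x14070) x14178) x14502) x13368) x15312) x5106) x734)
  (sub (sub (sub (sub (add (add (add (add (sub (sub (add (add C x13864) x13868) x13854) x13878) x13968) x14076) x14184) x14508) x13374) x15318) x5112) x740)
  (sub (sub (sub (sub (add (add (add (add (sub (add (add (add (add C x13860) x13868) x13852) x13876) x13882) x13972) x14080) x14188) x14512) x13378) x15322) x5116) x7304)
  (add (add (sub (sub (sub (add (add (add (add (sub (sub (add (add C x13860) x13864) x13874) x13886) x13976) x14084) x14192) x14516) x13382) x15326) x5120) x744) x7306)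
  (add (add (sub (sub (sub (add (add (add (add (sub (sub (sub C x13876) x13868) x13910) x13982) x14090) x14198) x14522) x13388) x15332) x5126) x750) x7312)
  (sub (sub (sub (sub (add (add (add (add (sub (add (add (sub C x13874) x13852) x13864) x13912) x13984) x14092) x14200) x14524) x13390) x15334) x5128) x7316)
  (sub (sub (sub (sub (add (add (sub (sub (add (add (add (add C x13882) x13886) x13890) x13902) x13860) x13932) x14202) x14526) x13392) x15336) x5130) x758)
  (sub (sub (sub (sub (add (add (sub (sub (sub (add (add C x13878) x13886) x13888) x13864) x13936) x14206) x14530) x13396) x15340) x5134) x7322)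
  (add (add (sub (sub (sub (add (add (sub (sub (sub (add (add C x13878) x13882) x13898) x13868) x13940) x14210) x14534) x13400) x15344) x5138) x762) x7324)
  (sub (sub (sub (sub (add (add (sub (add (add (sub (sub C x13890) x13882) x13852) x13924) x13942) x14212) x14536) x13402) x15346) x5140) x7328)
  (sub (sub (sub (sub (add (add (sub (add (add (add (add (sub C x13888) x13878) x13902) x13854) x13926) x13944) x14214) x14538) x13404) x15348) x5142) x770)
  (add (add (sub (sub (sub (add (add (sub (sub (sub (sub C x13902) x13886) x13916) x13952) x14222) x14546) x13412) x15356) x5150) x774) x7336)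
  (sub (sub (sub (sub (add (add (sub (sub (add (add (sub C x13898) x13878) x13890) x13920) x13956) x14226) x14550) x13416) x15360) x5154) x782)
  (add (add (sub (sub (sub (add (add (sub (sub (sub (sub C x13912) x13916) x13874) x14018) x14234) x14558) x13424) x15368) x5162) x786) x7348)
  (sub (sub (sub (sub (add (add (sub (sub (sub (sub C x13910) x13924) x13876) x14020) x14236) x14560) x13426) x15370) x5164) x7352)
  (add (add (sub (sub (sub (add (add (sub (sub (sub (sub C x13920) x13910) x13898) x14024) x14240) x14564) x13430) x15374) x5168) x792) x7354)
  (sub (sub (sub (sub (add (add (sub (sub (sub (sub C x13916) x13926) x13902) x14028) x14244) x14568) x13434) x15378) x5172) x800)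
  (sub (sub (sub (sub (add (add (sub (add (add (sub (sub C x13926) x13912) x13852) x13888) x14032) x14248) x14572) x13438) x15382) x5176) x7364)
  (sub (sub (sub (sub (add (add (sub (add (add (sub (sub C x13924) x13920) x13854) x13890) x14034) x14250) x14574) x13440) x15384) x5178) x806)
  (sub (sub (sub (sub (sub (sub (add (add (add (add (add (add C x13936) x13940) x13944) x13956) x13968) x14004) x13878) x14094) x13446) x15390) x5184) x812)
  (sub (sub (sub (sub (sub (sub (add (add (sub (add (add C x13932) x13940) x13942) x13972) x14008) x13882) x14098) x13450) x15394) x5188) x7376)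
  (add (add (sub (sub (sub (sub (sub (add (add (sub (add (add C x13932) x13936) x13952) x13976) x14012) x13886) x14102) x13454) x15398) x5192) x816) x7378)
  (sub (sub (sub (sub (sub (sub (sub (sub (sub C x13944) x13936) x13960) x13888) x14104) x13456) x15400) x5194) x7382)
  (sub (sub (sub (sub (sub (sub (sub (add (add (sub C x13942) x13932) x13956) x13962) x13890) x14106) x13458) x15402) x5196) x824)
  (add (add (sub (sub (sub (sub (sub (sub (sub (sub C x13956) x13940) x13988) x13898) x14114) x13466) x15410) x5204) x828) x7390)
  (sub (sub (sub (sub (sub (sub (sub (add (add (sub C x13952) x13932) x13944) x13992) x13902) x14118) x13470) x15414) x5208) x836)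
  (sub (sub (sub (sub (sub (add (add (sub (add (add (sub C x13962) x13972) x13984) x13942) x13852) x14068) x14122) x13474) x15418) x5212) x7400)
  (sub (sub (sub (sub (sub (add (add (sub (sub (sub C x13960) x13968) x13944) x13854) x14070) x14124) x13476) x15420) x5214) x842)
  (sub (sub (sub (sub (sub (add (add (add (add (sub (add (add C x13972) x13976) x13962) x13932) x14004) x13860) x14076) x14130) x13482) x15426) x5220) x848)
  (sub (sub (sub (sub (sub (add (add (add (add (add (add (add (add C x13968) x13976) x13960) x13984) x13936) x14008) x13864) x14080) x14134) x13486) x15430) x5224) x7412)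
  (add (add (sub (sub (sub (sub (add (add (add (add (sub (add (add C x13968) x13972) x13982) x13940) x14012) x13868) x14084) x14138) x13490) x15434) x5228) x852) x7414)
  (add (add (sub (sub (sub (sub (add (add (sub (sub (sub C x13984) x13976) x14000) x13874) x14090) x14144) x13496) x15440) x5234) x858) x7420)
  (sub (sub (sub (sub (sub (add (add (sub (add (add (sub C x13982) x13960) x13972) x14002) x13876) x14092) x14146) x13498) x15442) x5236) x7424)
  (add (add (sub (sub (sub (sub (sub (sub (add (add (sub C x13992) x14000) x14012) x13952) x14042) x14150) x13502) x15446) x5240) x864) x7426)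
  (sub (sub (sub (sub (sub (sub (sub (sub (sub C x13988) x14004) x13956) x14046) x14154) x13506) x15450) x5244) x872)
  (add (add (sub (sub (sub (sub (sub (sub (add (add (sub C x14002) x13988) x14012) x13982) x14054) x14162) x13514) x15458) x5252) x876) x7438)
  (sub (sub (sub (sub (sub (sub (sub (sub (sub C x14000) x14008) x13984) x14056) x14164) x13516) x15460) x5254) x7442)
  (sub (sub (sub (sub (sub (sub (add (add (sub (add (add C x14008) x14012) x13992) x13932) x13968) x14058) x14166) x13518) x15462) x5256) x884)
  (sub (sub (sub (sub (sub (sub (add (add (sub (add (add C x14004) x14012) x14002) x13936) x13972) x14062) x14170) x13522) x15466) x5260) x7448)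
  (add (add (sub (sub (sub (sub (sub (add (add (add (add (add (add C x14004) x14008) x13988) x14000) x13940) x13976) x14066) x14174) x13526) x15470) x5264) x888) x7450)
  (add (add (sub (sub (sub (sub (sub (add (add (sub (sub C x14020) x14024) x14054) x14090) x13910) x14342) x13532) x15476) x5270) x894) x7456)
  (sub (sub (sub (sub (sub (sub (add (add (sub (sub C x14018) x14032) x14056) x14092) x13912) x14344) x13534) x15478) x5272) x7460)
  (add (add (sub (sub (sub (sub (sub (sub (sub (sub C x14028) x14018) x14042) x13916) x14348) x13538) x15482) x5276) x900) x7462)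
  (sub (sub (sub (sub (sub (sub (sub (sub (sub C x14024) x14034) x14046) x13920) x14352) x13542) x15486) x5280) x908)
  (sub (sub (sub (sub (sub (sub (sub (sub (sub C x14034) x14020) x14068) x13924) x14356) x13546) x15490) x5284) x7472)
  (sub (sub (sub (sub (sub (sub (sub (sub (sub C x14032) x14028) x14070) x13926) x14358) x13548) x15492) x5286) x914)
  (add (add (sub (sub (sub (sub (sub (sub (add (add (sub C x14046) x14054) x14066) x14024) x13988) x14366) x13556) x15500) x5294) x918) x7480)
  (sub (sub (sub (sub (sub (sub (sub (sub (sub C x14042) x14058) x14028) x13992) x14370) x13560) x15504) x5298) x926)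
  (add (add (sub (sub (sub (sub (sub (add (add (add (add (sub C x14056) x14042) x14066) x14018) x14090) x14000) x14378) x13568) x15512) x5306) x930) x7492)
  (sub (sub (sub (sub (sub (sub (add (add (sub (sub C x14054) x14062) x14020) x14092) x14002) x14380) x13570) x15514) x5308) x7496)
  (sub (sub (sub (sub (sub (sub (sub (sub (add (add C x14062) x14066) x14046) x14076) x14004) x14382) x13572) x15516) x5310) x938)
  (sub (sub (sub (sub (sub (sub (sub (sub (add (add C x14058) x14066) x14056) x14080) x14008) x14386) x13576) x15520) x5314) x7502)
  (add (add (sub (sub (sub (sub (sub (sub (add (add (add (add C x14058) x14062) x14042) x14054) x14084) x14012) x14390) x13580) x15524) x5318) x942) x7504)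
  (sub (sub (sub (sub (sub (add (add (sub (add (add (sub C x14070) x14080) x14092) x14032) x13852) x13960) x14392) x13582) x15526) x5320) x7508)
  (sub (sub (sub (sub (sub (add (add (sub (sub (sub C x14068) x14076) x14034) x13854) x13962) x14394) x13584) x15528) x5322) x950)
  (sub (sub (sub (sub (sub (add (add (sub (sub (add (add C x14080) x14084) x14070) x14058) x13860) x13968) x14400) x13590) x15534) x5328) x956)
  (sub (sub (sub (sub (sub (add (add (sub (add (add (add (add C x14076) x14084) x14068) x14092) x14062) x13864) x13972) x14404) x13594) x15538) x5332) x7520)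
  (add (add (sub (sub (sub (sub (add (add (sub (sub (add (add C x14076) x14080) x14090) x14066) x13868) x13976) x14408) x13598) x15542) x5336) x960) x7522)
  (add (add (sub (sub (sub (sub (add (add (add (add (sub (sub C x14092) x14084) x14018) x14054) x13874) x13982) x14414) x13604) x15548) x5342) x966) x7528)
  (sub (sub (sub (sub (sub (add (add (add (add (add (add (sub C x14090) x14068) x14080) x14020) x14056) x13876) x13984) x14416) x13606) x15550) x5344) x7532)
  (sub (sub (sub (add (add (sub (add (add (add (add (add (add (add (add C x14098) x14102) x14106) x14118) x14130) x14166) x14202) x14310) x13932) x13122) x15066) x15552) x5346) x974)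
  (sub (sub (sub (add (add (sub (add (add (add (add (sub (add (add C x14094) x14102) x14104) x14134) x14170) x14206) x14314) x13936) x13126) x15070) x15556) x5350) x7538)
  (add (add (sub (sub (add (add (sub (add (add (add (add (sub (add (add C x14094) x14098) x14114) x14138) x14174) x14210) x14318) x13940) x13130) x15074) x15560) x5354) x978) x7540)
  (sub (sub (sub (add (add (sub (add (add (sub (sub (sub C x14106) x14098) x14122) x14212) x14320) x13942) x13132) x15076) x15562) x5356) x7544)
  (sub (sub (sub (add (add (sub (add (add (sub (add (add (sub C x14104) x14094) x14118) x14124) x14214) x14322) x13944) x13134) x15078) x15564) x5358) x986)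
  (add (add (sub (sub (add (add (sub (add (add (sub (sub (sub C x14118) x14102) x14150) x14222) x14330) x13952) x13142) x15086) x15572) x5366) x990) x7552)
  (sub (sub (sub (add (add (sub (add (add (sub (add (add (sub C x14114) x14094) x14106) x14154) x14226) x14334) x13956) x13146) x15090) x15576) x5370) x998)
  (sub (sub (sub (add (add (sub (sub (sub (add (add (sub C x14124) x14134) x14146) x14104) x14176) x13960) x13150) x15094) x15580) x5374) x7562)
  (sub (sub (sub (add (add (sub (sub (sub (sub (sub C x14122) x14130) x14106) x14178) x13962) x13152) x15096) x15582) x5376) x1004)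
  (sub (sub (sub (add (add (sub (sub (add (add (sub (add (add C x14134) x14138) x14124) x14094) x14166) x14184) x13968) x13158) x15102) x15588) x5382) x1010)
  (sub (sub (sub (add (add (sub (sub (add (add (add (add (add (add C x14130) x14138) x14122) x14146) x14098) x14170) x14188) x13972) x13162) x15106) x15592) x5386) x7574)
  (add (add (sub (sub (add (add (sub (sub (add (add (sub (add (add C x14130) x14134) x14144) x14102) x14174) x14192) x13976) x13166) x15110) x15596) x5390) x1014) x7576)
  (add (add (sub (sub (add (add (sub (sub (sub (sub (sub C x14146) x14138) x14162) x14198) x13982) x13172) x15116) x15602) x5396) x1020) x7582)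
  (sub (sub (sub (add (add (sub (sub (sub (add (add (sub C x14144) x14122) x14134) x14164) x14200) x13984) x13174) x15118) x15604) x5398) x7586)
  (add (add (sub (sub (add (add (sub (sub (sub (add (add (sub C x14154) x14162) x14174) x14114) x14258) x13988) x13178) x15122) x15608) x5402) x1026) x7588)
  (sub (sub (sub (add (add (sub (sub (sub (sub (sub C x14150) x14166) x14118) x14262) x13992) x13182) x15126) x15612) x5406) x1034)
  (add (add (sub (sub (add (add (sub (sub (sub (add (add (sub C x14164) x14150) x14174) x14144) x14270) x14000) x13190) x15134) x15620) x5414) x1038) x7600)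
  (sub (sub (sub (add (add (sub (sub (sub (sub (sub C x14162) x14170) x14146) x14272) x14002) x13192) x15136) x15622) x5416) x7604)
  (sub (sub (sub (add (add (sub (sub (add (add (sub (add (add C x14170) x14174) x14154) x14094) x14130) x14274) x14004) x13194) x15138) x15624) x5418) x1046)
  (sub (sub (sub (add (add (sub (sub (add (add (sub (add (add C x14166) x14174) x14164) x14098) x14134) x14278) x14008) x13198) x15142) x15628) x5422) x7610)
  (add (add (sub (sub (add (add (sub (sub (add (add (add (add (add (add C x14166) x14170) x14150) x14162) x14102) x14138) x14282) x14012) x13202) x15146) x15632) x5426) x1050) x7612)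
  (sub (sub (sub (add (add (add (add (sub (add (add (add (add (sub C x14178) x14188) x14200) x14212) x14248) x14122) x13852) x14500) x13204) x15148) x15634) x5428) x7616)
  (sub (sub (sub (add (add (add (add (sub (add (add (sub (sub C x14176) x14184) x14214) x14250) x14124) x13854) x14502) x13206) x15150) x15636) x5430) x1058)
  (sub (sub (sub (add (add (add (add (sub (sub (sub (add (add C x14188) x14192) x14178) x14202) x14130) x13860) x14508) x13212) x15156) x15642) x5436) x1064)
  (sub (sub (sub (add (add (add (add (sub (sub (add (add (add (add C x14184) x14192) x14176) x14200) x14206) x14134) x13864) x14512) x13216) x15160) x15646) x5440) x7628)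
  (add (add (sub (sub (add (add (add (add (sub (sub (sub (add (add C x14184) x14188) x14198) x14210) x14138) x13868) x14516) x13220) x15164) x15650) x5444) x1068) x7630)
  (add (add (sub (sub (add (add (add (add (sub (sub (sub (sub C x14200) x14192) x14234) x14144) x13874) x14522) x13226) x15170) x15656) x5450) x1074) x7636)
  (sub (sub (sub (add (add (add (add (sub (sub (add (add (sub C x14198) x14176) x14188) x14236) x14146) x13876) x14524) x13228) x15172) x15658) x5452) x7640)
  (sub (sub (sub (add (add (add (add (add (add (sub (add (add (add (add C x14206) x14210) x14214) x14226) x14184) x14094) x14310) x13878) x14526) x13230) x15174) x15660) x5454) x1082)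
  (sub (sub (sub (add (add (add (add (add (add (sub (sub (add (add C x14202) x14210) x14212) x14188) x14098) x14314) x13882) x14530) x13234) x15178) x15664) x5458) x7646)
  (add (add (sub (sub (add (add (add (add (add (add (sub (sub (add (add C x14202) x14206) x14222) x14192) x14102) x14318) x13886) x14534) x13238) x15182) x15668) x5462) x1086) x7648)
  (sub (sub (sub (add (add (add (add (add (add (add (add (sub (sub C x14214) x14206) x14176) x14248) x14104) x14320) x13888) x14536) x13240) x15184) x15670) x5464) x7652)
  (sub (sub (sub (add (add (add (add (add (add (add (add (add (add (sub C x14212) x14202) x14226) x14178) x14250) x14106) x14322) x13890) x14538) x13242) x15186) x15672) x5466) x1094)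
  (add (add (sub (sub (add (add (add (add (add (add (sub (sub (sub C x14226) x14210) x14240) x14114) x14330) x13898) x14546) x13250) x15194) x15680) x5474) x1098) x7660)
  (sub (sub (sub (add (add (add (add (add (add (sub (add (add (sub C x14222) x14202) x14214) x14244) x14118) x14334) x13902) x14550) x13254) x15198) x15684) x5478) x1106)
  (add (add (sub (sub (add (add (add (add (sub (sub (sub (sub C x14236) x14240) x14198) x14288) x13910) x14558) x13262) x15206) x15692) x5486) x1110) x7672)
  (sub (sub (sub (add (add (add (add (sub (sub (sub (sub C x14234) x14248) x14200) x14290) x13912) x14560) x13264) x15208) x15694) x5488) x7676)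
  (add (add (sub (sub (add (add (add (add (sub (sub (sub (sub C x14244) x14234) x14222) x14294) x13916) x14564) x13268) x15212) x15698) x5492) x1116) x7678)
  (sub (sub (sub (add (add (add (add (sub (sub (sub (sub C x14240) x14250) x14226) x14298) x13920) x14568) x13272) x15216) x15702) x5496) x1124)
  (sub (sub (sub (add (add (add (add (sub (add (add (sub (sub C x14250) x14236) x14176) x14212) x14302) x13924) x14572) x13276) x15220) x15706) x5500) x7688)
  (sub (sub (sub (add (add (add (add (sub (add (add (sub (sub C x14248) x14244) x14178) x14214) x14304) x13926) x14574) x13278) x15222) x15708) x5502) x1130)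
  (add (add (sub (sub (add (add (sub (sub (add (add (add (add (sub C x14262) x14270) x14282) x14294) x14330) x14150) x14420) x13286) x15230) x15716) x5510) x1134) x7696)
  (sub (sub (sub (add (add (sub (sub (add (add (sub (sub C x14258) x14274) x14298) x14334) x14154) x14424) x13290) x15234) x15720) x5514) x1142)
  (add (add (sub (sub (add (add (sub (sub (sub (add (add (sub C x14272) x14258) x14282) x14288) x14162) x14432) x13298) x15242) x15728) x5522) x1146) x7708)
  (sub (sub (sub (add (add (sub (sub (sub (sub (sub C x14270) x14278) x14290) x14164) x14434) x13300) x15244) x15730) x5524) x7712)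
  (sub (sub (sub (add (add (sub (sub (sub (sub (add (add C x14278) x14282) x14262) x14310) x14166) x14436) x13302) x15246) x15732) x5526) x1154)
  (sub (sub (sub (add (add (sub (sub (sub (sub (add (add C x14274) x14282) x14272) x14314) x14170) x14440) x13306) x15250) x15736) x5530) x7718)
  (add (add (sub (sub (add (add (sub (sub (sub (add (add (add (add C x14274) x14278) x14258) x14270) x14318) x14174) x14444) x13310) x15254) x15740) x5534) x1158) x7720)
  (add (add (sub (sub (add (add (sub (sub (sub (sub (sub C x14290) x14294) x14270) x14234) x14450) x13316) x15260) x15746) x5540) x1164) x7726)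
  (sub (sub (sub (add (add (sub (sub (sub (sub (sub C x14288) x14302) x14272) x14236) x14452) x13318) x15262) x15748) x5542) x7730)
  (add (add (sub (sub (add (add (sub (sub (add (add (sub (sub C x14298) x14288) x14258) x14330) x14240) x14456) x13322) x15266) x15752) x5546) x1170) x7732)
  (sub (sub (sub (add (add (sub (sub (add (add (sub (sub C x14294) x14304) x14262) x14334) x14244) x14460) x13326) x15270) x15756) x5550) x1178)
  (sub (sub (sub (add (add (sub (sub (sub (sub (sub C x14304) x14290) x14320) x14248) x14464) x13330) x15274) x15760) x5554) x7742)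
  (sub (sub (sub (add (add (sub (sub (sub (sub (sub C x14302) x14298) x14322) x14250) x14466) x13332) x15276) x15762) x5556) x1184)
  (sub (sub (sub (add (add (sub (add (add (sub (add (add (add (add C x14314) x14318) x14322) x14334) x14274) x14094) x14202) x14472) x13338) x15282) x15768) x5562) x1190)
  (sub (sub (sub (add (add (sub (add (add (sub (sub (add (add C x14310) x14318) x14320) x14278) x14098) x14206) x14476) x13342) x15286) x15772) x5566) x7754)
  (add (add (sub (sub (add (add (sub (add (add (sub (sub (add (add C x14310) x14314) x14330) x14282) x14102) x14210) x14480) x13346) x15290) x15776) x5570) x1194) x7756)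
  (sub (sub (sub (add (add (sub (add (add (sub (sub (sub C x14322) x14314) x14302) x14104) x14212) x14482) x13348) x15292) x15778) x5572) x7760)
  (sub (sub (sub (add (add (sub (add (add (sub (add (add (sub C x14320) x14310) x14334) x14304) x14106) x14214) x14484) x13350) x15294) x15780) x5574) x1202)
  (add (add (sub (sub (add (add (sub (add (add (add (add (sub (sub C x14334) x14318) x14258) x14294) x14114) x14222) x14492) x13358) x15302) x15788) x5582) x1206) x7768)
  (sub (sub (sub (add (add (sub (add (add (add (add (add (add (sub C x14330) x14310) x14322) x14262) x14298) x14118) x14226) x14496) x13362) x15306) x15792) x5586) x1214)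
  (add (add (sub (sub (sub (sub (add (add (add (add (sub (sub C x14344) x14348) x14378) x14414) x14450) x14558) x14018) x14828) x15800) x5594) x1218) x7780)
  (sub (sub (sub (sub (sub (add (add (add (add (sub (sub C x14342) x14356) x14380) x14416) x14452) x14560) x14020) x14830) x15802) x5596) x7784)
  (add (add (sub (sub (sub (sub (add (add (sub (sub (sub C x14352) x14342) x14366) x14456) x14564) x14024) x14834) x15806) x5600) x1224) x7786)
  (sub (sub (sub (sub (sub (add (add (sub (sub (sub C x14348) x14358) x14370) x14460) x14568) x14028) x14838) x15810) x5604) x1232)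
  (sub (sub (sub (sub (sub (add (add (sub (sub (sub C x14358) x14344) x14392) x14464) x14572) x14032) x14842) x15814) x5608) x7796)
  (sub (sub (sub (sub (sub (add (add (sub (sub (sub C x14356) x14352) x14394) x14466) x14574) x14034) x14844) x15816) x5610) x1238)
  (add (add (sub (sub (sub (sub (sub (sub (add (add (sub C x14370) x14378) x14390) x14348) x14420) x14042) x14852) x15824) x5618) x1242) x7804)
  (sub (sub (sub (sub (sub (sub (sub (sub (sub C x14366) x14382) x14352) x14424) x14046) x14856) x15828) x5622) x1250)
  (add (add (sub (sub (sub (sub (sub (add (add (add (add (sub C x14380) x14366) x14390) x14342) x14414) x14432) x14054) x14864) x15836) x5630) x1254) x7816)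
  (sub (sub (sub (sub (sub (sub (add (add (sub (sub C x14378) x14386) x14344) x14416) x14434) x14056) x14866) x15838) x5632) x7820)
  (sub (sub (sub (sub (sub (sub (sub (sub (add (add C x14386) x14390) x14370) x14400) x14436) x14058) x14868) x15840) x5634) x1262)
  (sub (sub (sub (sub (sub (sub (sub (sub (add (add C x14382) x14390) x14380) x14404) x14440) x14062) x14872) x15844) x5638) x7826)
  (add (add (sub (sub (sub (sub (sub (sub (add (add (add (add C x14382) x14386) x14366) x14378) x14408) x14444) x14066) x14876) x15848) x5642) x1266) x7828)
  (sub (sub (sub (sub (sub (sub (sub (add (add (sub C x14394) x14404) x14416) x14356) x14500) x14068) x14878) x15850) x5644) x7832)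
  (sub (sub (sub (sub (sub (sub (sub (sub (sub C x14392) x14400) x14358) x14502) x14070) x14880) x15852) x5646) x1274)
  (sub (sub (sub (sub (sub (sub (sub (sub (add (add C x14404) x14408) x14394) x14382) x14508) x14076) x14886) x15858) x5652) x1280)
  (sub (sub (sub (sub (sub (sub (sub (add (add (add (add C x14400) x14408) x14392) x14416) x14386) x14512) x14080) x14890) x15862) x5656) x7844)
  (add (add (sub (sub (sub (sub (sub (sub (sub (add (add C x14400) x14404) x14414) x14390) x14516) x14084) x14894) x15866) x5660) x1284) x7846)
  (add (add (sub (sub (sub (sub (sub (add (add (sub (sub C x14416) x14408) x14342) x14378) x14522) x14090) x14900) x15872) x5666) x1290) x7852)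
  (sub (sub (sub (sub (sub (sub (add (add (add (add (sub C x14414) x14392) x14404) x14344) x14380) x14524) x14092) x14902) x15874) x5668) x7856)
  (add (add (sub (sub (sub (sub (sub (add (add (add (add (sub C x14424) x14432) x14444) x14456) x14492) x14366) x14258) x14906) x15878) x5672) x1296) x7858)
  (sub (sub (sub (sub (sub (sub (add (add (sub (sub C x14420) x14436) x14460) x14496) x14370) x14262) x14910) x15882) x5676) x1304)
  (add (add (sub (sub (sub (sub (sub (sub (add (add (sub C x14434) x14420) x14444) x14450) x14378) x14270) x14918) x15890) x5684) x1308) x7870)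
  (sub (sub (sub (sub (sub (sub (sub (sub (sub C x14432) x14440) x14452) x14380) x14272) x14920) x15892) x5686) x7874)
  (sub (sub (sub (sub (sub (sub (sub (sub (add (add C x14440) x14444) x14424) x14472) x14382) x14274) x14922) x15894) x5688) x1316)
  (sub (sub (sub (sub (sub (sub (sub (sub (add (add C x14436) x14444) x14434) x14476) x14386) x14278) x14926) x15898) x5692) x7880)
  (add (add (sub (sub (sub (sub (sub (sub (add (add (add (add C x14436) x14440) x14420) x14432) x14480) x14390) x14282) x14930) x15902) x5696) x1320) x7882)
  (add (add (sub (sub (sub (sub (add (add (sub (sub (sub C x14452) x14456) x14432) x14342) x14558) x14288) x14936) x15908) x5702) x1326) x7888)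
  (sub (sub (sub (sub (sub (add (add (sub (sub (sub C x14450) x14464) x14434) x14344) x14560) x14290) x14938) x15910) x5704) x7892)
  (add (add (sub (sub (sub (sub (add (add (add (add (sub (sub C x14460) x14450) x14420) x14492) x14348) x14564) x14294) x14942) x15914) x5708) x1332) x7894)
  (sub (sub (sub (sub (sub (add (add (add (add (sub (sub C x14456) x14466) x14424) x14496) x14352) x14568) x14298) x14946) x15918) x5712) x1340)
  (sub (sub (sub (sub (sub (add (add (sub (sub (sub C x14466) x14452) x14482) x14356) x14572) x14302) x14950) x15922) x5716) x7904)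
  (sub (sub (sub (sub (sub (add (add (sub (sub (sub C x14464) x14460) x14484) x14358) x14574) x14304) x14952) x15924) x5718) x1346)
  (sub (sub (sub (sub (sub (sub (sub (add (add (add (add C x14476) x14480) x14484) x14496) x14436) x14526) x14310) x14958) x15930) x5724) x1352)
  (sub (sub (sub (sub (sub (sub (sub (sub (add (add C x14472) x14480) x14482) x14440) x14530) x14314) x14962) x15934) x5728) x7916)
  (add (add (sub (sub (sub (sub (sub (sub (sub (add (add C x14472) x14476) x14492) x14444) x14534) x14318) x14966) x15938) x5732) x1356) x7918)
  (sub (sub (sub (sub (sub (sub (sub (sub (sub C x14484) x14476) x14464) x14536) x14320) x14968) x15940) x5734) x7922)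
  (sub (sub (sub (sub (sub (sub (sub (add (add (sub C x14482) x14472) x14496) x14466) x14538) x14322) x14970) x15942) x5736) x1364)
  (add (add (sub (sub (sub (sub (sub (add (add (sub (sub C x14496) x14480) x14420) x14456) x14546) x14330) x14978) x15950) x5744) x1368) x7930)
  (sub (sub (sub (sub (sub (sub (add (add (add (add (sub C x14492) x14472) x14484) x14424) x14460) x14550) x14334) x14982) x15954) x5748) x1376)
  (sub (sub (sub (sub (add (add (sub (add (add (add (add (sub C x14502) x14512) x14524) x14536) x14572) x14392) x13852) x14176) x14986) x15958) x5752) x7940)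
  (sub (sub (sub (sub (add (add (sub (add (add (sub (sub C x14500) x14508) x14538) x14574) x14394) x13854) x14178) x14988) x15960) x5754) x1382)
  (sub (sub (sub (sub (add (add (sub (sub (sub (add (add C x14512) x14516) x14502) x14526) x14400) x13860) x14184) x14994) x15966) x5760) x1388)
  (sub (sub (sub (sub (add (add (sub (sub (add (add (add (add C x14508) x14516) x14500) x14524) x14530) x14404) x13864) x14188) x14998) x15970) x5764) x7952)
  (add (add (sub (sub (sub (add (add (sub (sub (sub (add (add C x14508) x14512) x14522) x14534) x14408) x13868) x14192) x15002) x15974) x5768) x1392) x7954)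
  (add (add (sub (sub (sub (add (add (sub (sub (sub (sub C x14524) x14516) x14558) x14414) x13874) x14198) x15008) x15980) x5774) x1398) x7960)
  (sub (sub (sub (sub (add (add (sub (sub (add (add (sub C x14522) x14500) x14512) x14560) x14416) x13876) x14200) x15010) x15982) x5776) x7964)
  (sub (sub (sub (sub (add (add (sub (sub (add (add (add (add C x14530) x14534) x14538) x14550) x14508) x14472) x13878) x14202) x15012) x15984) x5778) x1406)
  (sub (sub (sub (sub (add (add (sub (sub (sub (add (add C x14526) x14534) x14536) x14512) x14476) x13882) x14206) x15016) x15988) x5782) x7970)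
  (add (add (sub (sub (sub (add (add (sub (sub (sub (add (add C x14526) x14530) x14546) x14516) x14480) x13886) x14210) x15020) x15992) x5786) x1410) x7972)
  (sub (sub (sub (sub (add (add (sub (add (add (sub (sub C x14538) x14530) x14500) x14572) x14482) x13888) x14212) x15022) x15994) x5788) x7976)
  (sub (sub (sub (sub (add (add (sub (add (add (add (add (sub C x14536) x14526) x14550) x14502) x14574) x14484) x13890) x14214) x15024) x15996) x5790) x1418)
  (add (add (sub (sub (sub (add (add (sub (sub (sub (sub C x14550) x14534) x14564) x14492) x13898) x14222) x15032) x16004) x5798) x1422) x7984)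
  (sub (sub (sub (sub (add (add (sub (sub (add (add (sub C x14546) x14526) x14538) x14568) x14496) x13902) x14226) x15036) x16008) x5802) x1430)
  (add (add (sub (sub (sub (add (add (add (add (sub (sub (sub C x14560) x14564) x14522) x14342) x14450) x13910) x14234) x15044) x16016) x5810) x1434) x7996)
  (sub (sub (sub (sub (add (add (add (add (sub (sub (sub C x14558) x14572) x14524) x14344) x14452) x13912) x14236) x15046) x16018) x5812) x8000)
  (add (add (sub (sub (sub (add (add (add (add (sub (sub (sub C x14568) x14558) x14546) x14348) x14456) x13916) x14240) x15050) x16022) x5816) x1440) x8002)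
  (sub (sub (sub (sub (add (add (add (add (sub (sub (sub C x14564) x14574) x14550) x14352) x14460) x13920) x14244) x15054) x16026) x5820) x1448)
  (sub (sub (sub (sub (add (add (add (add (add (add (sub (sub C x14574) x14560) x14500) x14536) x14356) x14464) x13924) x14248) x15058) x16030) x5824) x8012)
  (sub (sub (sub (sub (add (add (add (add (add (add (sub (sub C x14572) x14568) x14502) x14538) x14358) x14466) x13926) x14250) x15060) x16032) x5826) x1454)
  (add (add (sub (sub (sub (add (add (add (add (add (add (add (add (sub C x14586) x14594) x14606) x14618) x14654) x14690) x14798) x14906) x15230) x13610) x17498) x5834) x1458) x8020)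
  (sub (sub (sub (sub (add (add (add (add (add (add (sub (sub C x14582) x14598) x14622) x14658) x14694) x14802) x14910) x15234) x13614) x17502) x5838) x1466)
  (add (add (sub (sub (sub (add (add (add (add (sub (add (add (sub C x14596) x14582) x14606) x14612) x14702) x14810) x14918) x15242) x13622) x17510) x5846) x1470) x8032)
  (sub (sub (sub (sub (add (add (add (add (sub (sub (sub C x14594) x14602) x14614) x14704) x14812) x14920) x15244) x13624) x17512) x5848) x8036)
  (sub (sub (sub (sub (add (add (add (add (sub (sub (add (add C x14602) x14606) x14586) x14634) x14706) x14814) x14922) x15246) x13626) x17514) x5850) x1478)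
  (sub (sub (sub (sub (add (add (add (add (sub (sub (add (add C x14598) x14606) x14596) x14638) x14710) x14818) x14926) x15250) x13630) x17518) x5854) x8042)
  (add (add (sub (sub (sub (add (add (add (add (sub (add (add (add (add C x14598) x14602) x14582) x14594) x14642) x14714) x14822) x14930) x15254) x13634) x17522) x5858) x1482) x8044)
  (add (add (sub (sub (sub (add (add (sub (sub (sub (sub C x14614) x14618) x14594) x14666) x14936) x15260) x13640) x17528) x5864) x1488) x8050)
  (sub (sub (sub (sub (add (add (sub (sub (sub (sub C x14612) x14626) x14596) x14668) x14938) x15262) x13642) x17530) x5866) x8054)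
  (add (add (sub (sub (sub (add (add (sub (add (add (sub (sub C x14622) x14612) x14582) x14654) x14672) x14942) x15266) x13646) x17534) x5870) x1494) x8056)
  (sub (sub (sub (sub (add (add (sub (add (add (sub (sub C x14618) x14628) x14586) x14658) x14676) x14946) x15270) x13650) x17538) x5874) x1502)
  (sub (sub (sub (sub (add (add (sub (sub (sub (sub C x14628) x14614) x14644) x14680) x14950) x15274) x13654) x17542) x5878) x8066)
  (sub (sub (sub (sub (add (add (sub (sub (sub (sub C x14626) x14622) x14646) x14682) x14952) x15276) x13656) x17544) x5880) x1508)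
  (sub (sub (sub (sub (add (add (sub (sub (add (add (add (add C x14638) x14642) x14646) x14658) x14598) x14742) x14958) x15282) x13662) x17550) x5886) x1514)
  (sub (sub (sub (sub (add (add (sub (sub (sub (add (add C x14634) x14642) x14644) x14602) x14746) x14962) x15286) x13666) x17554) x5890) x8078)
  (add (add (sub (sub (sub (add (add (sub (sub (sub (add (add C x14634) x14638) x14654) x14606) x14750) x14966) x15290) x13670) x17558) x5894) x1518) x8080)
  (sub (sub (sub (sub (add (add (sub (sub (sub (sub C x14646) x14638) x14626) x14752) x14968) x15292) x13672) x17560) x5896) x8084)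
  (sub (sub (sub (sub (add (add (sub (sub (add (add (sub C x14644) x14634) x14658) x14628) x14754) x14970) x15294) x13674) x17562) x5898) x1526)
  (add (add (sub (sub (sub (add (add (sub (add (add (sub (sub C x14658) x14642) x14582) x14618) x14762) x14978) x15302) x13682) x17570) x5906) x1530) x8092)
  (sub (sub (sub (sub (add (add (sub (add (add (add (add (sub C x14654) x14634) x14646) x14586) x14622) x14766) x14982) x15306) x13686) x17574) x5910) x1538)
  (add (add (sub (sub (sub (sub (sub (add (add (sub (sub C x14668) x14672) x14702) x14738) x14612) x14828) x13694) x17582) x5918) x1542) x8104)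
  (sub (sub (sub (sub (sub (sub (add (add (sub (sub C x14666) x14680) x14704) x14740) x14614) x14830) x13696) x17584) x5920) x8108)
  (add (add (sub (sub (sub (sub (sub (sub (sub (sub C x14676) x14666) x14690) x14618) x14834) x13700) x17588) x5924) x1548) x8110)
  (sub (sub (sub (sub (sub (sub (sub (sub (sub C x14672) x14682) x14694) x14622) x14838) x13704) x17592) x5928) x1556)
  (sub (sub (sub (sub (sub (sub (sub (sub (sub C x14682) x14668) x14716) x14626) x14842) x13708) x17596) x5932) x8120)
  (sub (sub (sub (sub (sub (sub (sub (sub (sub C x14680) x14676) x14718) x14628) x14844) x13710) x17598) x5934) x1562)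
  (add (add (sub (sub (sub (sub (add (add (sub (add (add (sub C x14694) x14702) x14714) x14672) x14582) x14798) x14852) x13718) x17606) x5942) x1566) x8128)
  (sub (sub (sub (sub (sub (add (add (sub (sub (sub C x14690) x14706) x14676) x14586) x14802) x14856) x13722) x17610) x5946) x1574)
  (add (add (sub (sub (sub (sub (add (add (add (add (add (add (sub C x14704) x14690) x14714) x14666) x14738) x14594) x14810) x14864) x13730) x17618) x5954) x1578) x8140)
  (sub (sub (sub (sub (sub (add (add (add (add (sub (sub C x14702) x14710) x14668) x14740) x14596) x14812) x14866) x13732) x17620) x5956) x8144)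
  (sub (sub (sub (sub (sub (add (add (sub (sub (add (add C x14710) x14714) x14694) x14724) x14598) x14814) x14868) x13734) x17622) x5958) x1586)
  (sub (sub (sub (sub (sub (add (add (sub (sub (add (add C x14706) x14714) x14704) x14728) x14602) x14818) x14872) x13738) x17626) x5962) x8150)
  (add (add (sub (sub (sub (sub (add (add (sub (add (add (add (add C x14706) x14710) x14690) x14702) x14732) x14606) x14822) x14876) x13742) x17630) x5966) x1590) x8152)
  (sub (sub (sub (sub (sub (sub (sub (add (add (sub C x14718) x14728) x14740) x14680) x14770) x14878) x13744) x17632) x5968) x8156)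
  (sub (sub (sub (sub (sub (sub (sub (sub (sub C x14716) x14724) x14682) x14772) x14880) x13746) x17634) x5970) x1598)
  (sub (sub (sub (sub (sub (sub (sub (sub (add (add C x14728) x14732) x14718) x14706) x14778) x14886) x13752) x17640) x5976) x1604)
  (sub (sub (sub (sub (sub (sub (sub (add (add (add (add C x14724) x14732) x14716) x14740) x14710) x14782) x14890) x13756) x17644) x5980) x8168)
  (add (add (sub (sub (sub (sub (sub (sub (sub (add (add C x14724) x14728) x14738) x14714) x14786) x14894) x13760) x17648) x5984) x1608) x8170)
  (add (add (sub (sub (sub (sub (sub (add (add (sub (sub C x14740) x14732) x14666) x14702) x14792) x14900) x13766) x17654) x5990) x1614) x8176)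
  (sub (sub (sub (sub (sub (sub (add (add (add (add (sub C x14738) x14716) x14728) x14668) x14704) x14794) x14902) x13768) x17656) x5992) x8180)
  (sub (sub (sub (sub (sub (sub (add (add (add (add (add (add C x14746) x14750) x14754) x14766) x14778) x14814) x14634) x15066) x13770) x17658) x5994) x1622)
  (sub (sub (sub (sub (sub (sub (add (add (sub (add (add C x14742) x14750) x14752) x14782) x14818) x14638) x15070) x13774) x17662) x5998) x8186)
  (add (add (sub (sub (sub (sub (sub (add (add (sub (add (add C x14742) x14746) x14762) x14786) x14822) x14642) x15074) x13778) x17666) x6002) x1626) x8188)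
  (sub (sub (sub (sub (sub (sub (sub (sub (sub C x14754) x14746) x14770) x14644) x15076) x13780) x17668) x6004) x8192)
  (sub (sub (sub (sub (sub (sub (sub (add (add (sub C x14752) x14742) x14766) x14772) x14646) x15078) x13782) x17670) x6006) x1634)
  (add (add (sub (sub (sub (sub (sub (sub (sub (sub C x14766) x14750) x14798) x14654) x15086) x13790) x17678) x6014) x1638) x8200)
  (sub (sub (sub (sub (sub (sub (sub (add (add (sub C x14762) x14742) x14754) x14802) x14658) x15090) x13794) x17682) x6018) x1646)
  (sub (sub (sub (sub (sub (sub (sub (add (add (sub C x14772) x14782) x14794) x14752) x14716) x15094) x13798) x17686) x6022) x8210)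
  (sub (sub (sub (sub (sub (sub (sub (sub (sub C x14770) x14778) x14754) x14718) x15096) x13800) x17688) x6024) x1652)
  (sub (sub (sub (sub (sub (sub (add (add (sub (add (add C x14782) x14786) x14772) x14742) x14814) x14724) x15102) x13806) x17694) x6030) x1658)
  (sub (sub (sub (sub (sub (sub (add (add (add (add (add (add C x14778) x14786) x14770) x14794) x14746) x14818) x14728) x15106) x13810) x17698) x6034) x8222)
  (add (add (sub (sub (sub (sub (sub (add (add (sub (add (add C x14778) x14782) x14792) x14750) x14822) x14732) x15110) x13814) x17702) x6038) x1662) x8224)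
  (add (add (sub (sub (sub (sub (sub (sub (sub (sub C x14794) x14786) x14810) x14738) x15116) x13820) x17708) x6044) x1668) x8230)
  (sub (sub (sub (sub (sub (sub (sub (add (add (sub C x14792) x14770) x14782) x14812) x14740) x15118) x13822) x17710) x6046) x8234)
  (add (add (sub (sub (sub (sub (add (add (sub (add (add (sub C x14802) x14810) x14822) x14762) x14582) x14690) x15122) x13826) x17714) x6050) x1674) x8236)
  (sub (sub (sub (sub (sub (add (add (sub (sub (sub C x14798) x14814) x14766) x14586) x14694) x15126) x13830) x17718) x6054) x1682)
  (add (add (sub (sub (sub (sub (add (add (sub (add (add (sub C x14812) x14798) x14822) x14792) x14594) x14702) x15134) x13838) x17726) x6062) x1686) x8248)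
  (sub (sub (sub (sub (sub (add (add (sub (sub (sub C x14810) x14818) x14794) x14596) x14704) x15136) x13840) x17728) x6064) x8252)
  (sub (sub (sub (sub (sub (add (add (add (add (sub (add (add C x14818) x14822) x14802) x14742) x14778) x14598) x14706) x15138) x13842) x17730) x6066) x1694)
  (sub (sub (sub (sub (sub (add (add (add (add (sub (add (add C x14814) x14822) x14812) x14746) x14782) x14602) x14710) x15142) x13846) x17734) x6070) x8258)
  (add (add (sub (sub (sub (sub (add (add (add (add (add (add (add (add C x14814) x14818) x14798) x14810) x14750) x14786) x14606) x14714) x15146) x13850) x17738) x6074) x1698) x8260)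
  (add (add (sub (sub (sub (sub (add (add (add (add (sub (sub C x14830) x14834) x14864) x14900) x14936) x15044) x14666) x14342) x17744) x6080) x1704) x8266)
  (sub (sub (sub (sub (sub (add (add (add (add (sub (sub C x14828) x14842) x14866) x14902) x14938) x15046) x14668) x14344) x17746) x6082) x8270)
  (add (add (sub (sub (sub (sub (add (add (sub (sub (sub C x14838) x14828) x14852) x14942) x15050) x14672) x14348) x17750) x6086) x1710) x8272)
  (sub (sub (sub (sub (sub (add (add (sub (sub (sub C x14834) x14844) x14856) x14946) x15054) x14676) x14352) x17754) x6090) x1718)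
  (sub (sub (sub (sub (sub (add (add (sub (sub (sub C x14844) x14830) x14878) x14950) x15058) x14680) x14356) x17758) x6094) x8282)
  (sub (sub (sub (sub (sub (add (add (sub (sub (sub C x14842) x14838) x14880) x14952) x15060) x14682) x14358) x17760) x6096) x1724)
  (add (add (sub (sub (sub (sub (sub (sub (add (add (sub C x14856) x14864) x14876) x14834) x14906) x14690) x14366) x17768) x6104) x1728) x8290)
  (sub (sub (sub (sub (sub (sub (sub (sub (sub C x14852) x14868) x14838) x14910) x14694) x14370) x17772) x6108) x1736)
  (add (add (sub (sub (sub (sub (sub (add (add (add (add (sub C x14866) x14852) x14876) x14828) x14900) x14918) x14702) x14378) x17780) x6116) x1740) x8302)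
  (sub (sub (sub (sub (sub (sub (add (add (sub (sub C x14864) x14872) x14830) x14902) x14920) x14704) x14380) x17782) x6118) x8306)
  (sub (sub (sub (sub (sub (sub (sub (sub (add (add C x14872) x14876) x14856) x14886) x14922) x14706) x14382) x17784) x6120) x1748)
  (sub (sub (sub (sub (sub (sub (sub (sub (add (add C x14868) x14876) x14866) x14890) x14926) x14710) x14386) x17788) x6124) x8312)
  (add (add (sub (sub (sub (sub (sub (sub (add (add (add (add C x14868) x14872) x14852) x14864) x14894) x14930) x14714) x14390) x17792) x6128) x1752) x8314)
  (sub (sub (sub (sub (sub (sub (sub (add (add (sub C x14880) x14890) x14902) x14842) x14986) x14716) x14392) x17794) x6130) x8318)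
  (sub (sub (sub (sub (sub (sub (sub (sub (sub C x14878) x14886) x14844) x14988) x14718) x14394) x17796) x6132) x1760)
  (sub (sub (sub (sub (sub (sub (sub (sub (add (add C x14890) x14894) x14880) x14868) x14994) x14724) x14400) x17802) x6138) x1766)
  (sub (sub (sub (sub (sub (sub (sub (add (add (add (add C x14886) x14894) x14878) x14902) x14872) x14998) x14728) x14404) x17806) x6142) x8330)
  (add (add (sub (sub (sub (sub (sub (sub (sub (add (add C x14886) x14890) x14900) x14876) x15002) x14732) x14408) x17810) x6146) x1770) x8332)
  (add (add (sub (sub (sub (sub (sub (add (add (sub (sub C x14902) x14894) x14828) x14864) x15008) x14738) x14414) x17816) x6152) x1776) x8338)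
  (sub (sub (sub (sub (sub (sub (add (add (add (add (sub C x14900) x14878) x14890) x14830) x14866) x15010) x14740) x14416) x17818) x6154) x8342)
  (add (add (sub (sub (sub (add (add (sub (add (add (add (add (sub C x14910) x14918) x14930) x14942) x14978) x14852) x14582) x15230) x14420) x17822) x6158) x1782) x8344)
  (sub (sub (sub (sub (add (add (sub (add (add (sub (sub C x14906) x14922) x14946) x14982) x14856) x14586) x15234) x14424) x17826) x6162) x1790)
  (add (add (sub (sub (sub (add (add (sub (sub (add (add (sub C x14920) x14906) x14930) x14936) x14864) x14594) x15242) x14432) x17834) x6170) x1794) x8356)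
  (sub (sub (sub (sub (add (add (sub (sub (sub (sub C x14918) x14926) x14938) x14866) x14596) x15244) x14434) x17836) x6172) x8360)
  (sub (sub (sub (sub (add (add (sub (sub (sub (add (add C x14926) x14930) x14910) x14958) x14868) x14598) x15246) x14436) x17838) x6174) x1802)
  (sub (sub (sub (sub (add (add (sub (sub (sub (add (add C x14922) x14930) x14920) x14962) x14872) x14602) x15250) x14440) x17842) x6178) x8366)
  (add (add (sub (sub (sub (add (add (sub (sub (add (add (add (add C x14922) x14926) x14906) x14918) x14966) x14876) x14606) x15254) x14444) x17846) x6182) x1806) x8368)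
  (add (add (sub (sub (sub (add (add (add (add (sub (sub (sub C x14938) x14942) x14918) x14828) x15044) x14612) x15260) x14450) x17852) x6188) x1812) x8374)
  (sub (sub (sub (sub (add (add (add (add (sub (sub (sub C x14936) x14950) x14920) x14830) x15046) x14614) x15262) x14452) x17854) x6190) x8378)
  (add (add (sub (sub (sub (add (add (add (add (add (add (sub (sub C x14946) x14936) x14906) x14978) x14834) x15050) x14618) x15266) x14456) x17858) x6194) x1818) x8380)
  (sub (sub (sub (sub (add (add (add (add (add (add (sub (sub C x14942) x14952) x14910) x14982) x14838) x15054) x14622) x15270) x14460) x17862) x6198) x1826)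
  (sub (sub (sub (sub (add (add (add (add (sub (sub (sub C x14952) x14938) x14968) x14842) x15058) x14626) x15274) x14464) x17866) x6202) x8390)
  (sub (sub (sub (sub (add (add (add (add (sub (sub (sub C x14950) x14946) x14970) x14844) x15060) x14628) x15276) x14466) x17868) x6204) x1832)
  (sub (sub (sub (sub (add (add (sub (sub (add (add (add (add C x14962) x14966) x14970) x14982) x14922) x15012) x14634) x15282) x14472) x17874) x6210) x1838)
  (sub (sub (sub (sub (add (add (sub (sub (sub (add (add C x14958) x14966) x14968) x14926) x15016) x14638) x15286) x14476) x17878) x6214) x8402)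
  (add (add (sub (sub (sub (add (add (sub (sub (sub (add (add C x14958) x14962) x14978) x14930) x15020) x14642) x15290) x14480) x17882) x6218) x1842) x8404)
  (sub (sub (sub (sub (add (add (sub (sub (sub (sub C x14970) x14962) x14950) x15022) x14644) x15292) x14482) x17884) x6220) x8408)
  (sub (sub (sub (sub (add (add (sub (sub (add (add (sub C x14968) x14958) x14982) x14952) x15024) x14646) x15294) x14484) x17886) x6222) x1850)
  (add (add (sub (sub (sub (add (add (sub (add (add (sub (sub C x14982) x14966) x14906) x14942) x15032) x14654) x15302) x14492) x17894) x6230) x1854) x8416)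
  (sub (sub (sub (sub (add (add (sub (add (add (add (add (sub C x14978) x14958) x14970) x14910) x14946) x15036) x14658) x15306) x14496) x17898) x6234) x1862)
  (sub (sub (sub (sub (sub (sub (add (add (add (add (sub C x14988) x14998) x15010) x15022) x15058) x14878) x15148) x14500) x17902) x6238) x8426)
  (sub (sub (sub (sub (sub (sub (add (add (sub (sub C x14986) x14994) x15024) x15060) x14880) x15150) x14502) x17904) x6240) x1868)
  (sub (sub (sub (sub (sub (sub (sub (sub (add (add C x14998) x15002) x14988) x15012) x14886) x15156) x14508) x17910) x6246) x1874)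
  (sub (sub (sub (sub (sub (sub (sub (add (add (add (add C x14994) x15002) x14986) x15010) x15016) x14890) x15160) x14512) x17914) x6250) x8438)
  (add (add (sub (sub (sub (sub (sub (sub (sub (add (add C x14994) x14998) x15008) x15020) x14894) x15164) x14516) x17918) x6254) x1878) x8440)
  (add (add (sub (sub (sub (sub (sub (sub (sub (sub C x15010) x15002) x15044) x14900) x15170) x14522) x17924) x6260) x1884) x8446)
  (sub (sub (sub (sub (sub (sub (sub (add (add (sub C x15008) x14986) x14998) x15046) x14902) x15172) x14524) x17926) x6262) x8450)
  (sub (sub (sub (sub (sub (sub (sub (add (add (add (add C x15016) x15020) x15024) x15036) x14994) x14958) x15174) x14526) x17928) x6264) x1892)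
  (sub (sub (sub (sub (sub (sub (sub (sub (add (add C x15012) x15020) x15022) x14998) x14962) x15178) x14530) x17932) x6268) x8456)
  (add (add (sub (sub (sub (sub (sub (sub (sub (add (add C x15012) x15016) x15032) x15002) x14966) x15182) x14534) x17936) x6272) x1896) x8458)
  (sub (sub (sub (sub (sub (sub (add (add (sub (sub C x15024) x15016) x14986) x15058) x14968) x15184) x14536) x17938) x6274) x8462)
  (sub (sub (sub (sub (sub (sub (add (add (add (add (sub C x15022) x15012) x15036) x14988) x15060) x14970) x15186) x14538) x17940) x6276) x1904)
  (add (add (sub (sub (sub (sub (sub (sub (sub (sub C x15036) x15020) x15050) x14978) x15194) x14546) x17948) x6284) x1908) x8470)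
  (sub (sub (sub (sub (sub (sub (sub (add (add (sub C x15032) x15012) x15024) x15054) x14982) x15198) x14550) x17952) x6288) x1916)
  (add (add (sub (sub (sub (sub (add (add (sub (sub (sub C x15046) x15050) x15008) x14828) x14936) x15206) x14558) x17960) x6296) x1920) x8482)
  (sub (sub (sub (sub (sub (add (add (sub (sub (sub C x15044) x15058) x15010) x14830) x14938) x15208) x14560) x17962) x6298) x8486)
  (add (add (sub (sub (sub (sub (add (add (sub (sub (sub C x15054) x15044) x15032) x14834) x14942) x15212) x14564) x17966) x6302) x1926) x8488)
  (sub (sub (sub (sub (sub (add (add (sub (sub (sub C x15050) x15060) x15036) x14838) x14946) x15216) x14568) x17970) x6306) x1934)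
  (sub (sub (sub (sub (sub (add (add (add (add (sub (sub C x15060) x15046) x14986) x15022) x14842) x14950) x15220) x14572) x17974) x6310) x8498)
  (sub (sub (sub (sub (sub (add (add (add (add (sub (sub C x15058) x15054) x14988) x15024) x14844) x14952) x15222) x14574) x17976) x6312) x1940)
  (sub (sub (sub (add (add (sub (add (add (add (add (add (add (add (add C x15070) x15074) x15078) x15090) x15102) x15138) x15174) x15282) x14742) x13122) x14094) x17982) x6318) x1946)
  (sub (sub (sub (add (add (sub (add (add (add (add (sub (add (add C x15066) x15074) x15076) x15106) x15142) x15178) x15286) x14746) x13126) x14098) x17986) x6322) x8510)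
  (add (add (sub (sub (add (add (sub (add (add (add (add (sub (add (add C x15066) x15070) x15086) x15110) x15146) x15182) x15290) x14750) x13130) x14102) x17990) x6326) x1950) x8512)
  (sub (sub (sub (add (add (sub (add (add (sub (sub (sub C x15078) x15070) x15094) x15184) x15292) x14752) x13132) x14104) x17992) x6328) x8516)
  (sub (sub (sub (add (add (sub (add (add (sub (add (add (sub C x15076) x15066) x15090) x15096) x15186) x15294) x14754) x13134) x14106) x17994) x6330) x1958)
  (add (add (sub (sub (add (add (sub (add (add (sub (sub (sub C x15090) x15074) x15122) x15194) x15302) x14762) x13142) x14114) x18002) x6338) x1962) x8524)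
  (sub (sub (sub (add (add (sub (add (add (sub (add (add (sub C x15086) x15066) x15078) x15126) x15198) x15306) x14766) x13146) x14118) x18006) x6342) x1970)
  (sub (sub (sub (add (add (sub (sub (sub (add (add (sub C x15096) x15106) x15118) x15076) x15148) x14770) x13150) x14122) x18010) x6346) x8534)
  (sub (sub (sub (add (add (sub (sub (sub (sub (sub C x15094) x15102) x15078) x15150) x14772) x13152) x14124) x18012) x6348) x1976)
  (sub (sub (sub (add (add (sub (sub (add (add (sub (add (add C x15106) x15110) x15096) x15066) x15138) x15156) x14778) x13158) x14130) x18018) x6354) x1982)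
  (sub (sub (sub (add (add (sub (sub (add (add (add (add (add (add C x15102) x15110) x15094) x15118) x15070) x15142) x15160) x14782) x13162) x14134) x18022) x6358) x8546)
  (add (add (sub (sub (add (add (sub (sub (add (add (sub (add (add C x15102) x15106) x15116) x15074) x15146) x15164) x14786) x13166) x14138) x18026) x6362) x1986) x8548)
  (add (add (sub (sub (add (add (sub (sub (sub (sub (sub C x15118) x15110) x15134) x15170) x14792) x13172) x14144) x18032) x6368) x1992) x8554)
  (sub (sub (sub (add (add (sub (sub (sub (add (add (sub C x15116) x15094) x15106) x15136) x15172) x14794) x13174) x14146) x18034) x6370) x8558)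
  (add (add (sub (sub (add (add (sub (sub (sub (add (add (sub C x15126) x15134) x15146) x15086) x15230) x14798) x13178) x14150) x18038) x6374) x1998) x8560)
  (sub (sub (sub (add (add (sub (sub (sub (sub (sub C x15122) x15138) x15090) x15234) x14802) x13182) x14154) x18042) x6378) x2006)
  (add (add (sub (sub (add (add (sub (sub (sub (add (add (sub C x15136) x15122) x15146) x15116) x15242) x14810) x13190) x14162) x18050) x6386) x2010) x8572)
  (sub (sub (sub (add (add (sub (sub (sub (sub (sub C x15134) x15142) x15118) x15244) x14812) x13192) x14164) x18052) x6388) x8576)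
  (sub (sub (sub (add (add (sub (sub (add (add (sub (add (add C x15142) x15146) x15126) x15066) x15102) x15246) x14814) x13194) x14166) x18054) x6390) x2018)
  (sub (sub (sub (add (add (sub (sub (add (add (sub (add (add C x15138) x15146) x15136) x15070) x15106) x15250) x14818) x13198) x14170) x18058) x6394) x8582)
  (add (add (sub (sub (add (add (sub (sub (add (add (add (add (add (add C x15138) x15142) x15122) x15134) x15074) x15110) x15254) x14822) x13202) x14174) x18062) x6398) x2022) x8584)
  (sub (sub (sub (add (add (sub (sub (add (add (add (add (sub C x15150) x15160) x15172) x15184) x15220) x15094) x14986) x13204) x14176) x18064) x6400) x8588)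
  (sub (sub (sub (add (add (sub (sub (add (add (sub (sub C x15148) x15156) x15186) x15222) x15096) x14988) x13206) x14178) x18066) x6402) x2030)
  (sub (sub (sub (add (add (sub (sub (sub (sub (add (add C x15160) x15164) x15150) x15174) x15102) x14994) x13212) x14184) x18072) x6408) x2036)
  (sub (sub (sub (add (add (sub (sub (sub (add (add (add (add C x15156) x15164) x15148) x15172) x15178) x15106) x14998) x13216) x14188) x18076) x6412) x8600)
  (add (add (sub (sub (add (add (sub (sub (sub (sub (add (add C x15156) x15160) x15170) x15182) x15110) x15002) x13220) x14192) x18080) x6416) x2040) x8602)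
  (add (add (sub (sub (add (add (sub (sub (sub (sub (sub C x15172) x15164) x15206) x15116) x15008) x13226) x14198) x18086) x6422) x2046) x8608)
  (sub (sub (sub (add (add (sub (sub (sub (add (add (sub C x15170) x15148) x15160) x15208) x15118) x15010) x13228) x14200) x18088) x6424) x8612)
  (sub (sub (sub (add (add (sub (add (add (sub (add (add (add (add C x15178) x15182) x15186) x15198) x15156) x15066) x15282) x15012) x13230) x14202) x18090) x6426) x2054)
  (sub (sub (sub (add (add (sub (add (add (sub (sub (add (add C x15174) x15182) x15184) x15160) x15070) x15286) x15016) x13234) x14206) x18094) x6430) x8618)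
  (add (add (sub (sub (add (add (sub (add (add (sub (sub (add (add C x15174) x15178) x15194) x15164) x15074) x15290) x15020) x13238) x14210) x18098) x6434) x2058) x8620)
  (sub (sub (sub (add (add (sub (add (add (add (add (sub (sub C x15186) x15178) x15148) x15220) x15076) x15292) x15022) x13240) x14212) x18100) x6436) x8624)
  (sub (sub (sub (add (add (sub (add (add (add (add (add (add (sub C x15184) x15174) x15198) x15150) x15222) x15078) x15294) x15024) x13242) x14214) x18102) x6438) x2066)
  (add (add (sub (sub (add (add (sub (add (add (sub (sub (sub C x15198) x15182) x15212) x15086) x15302) x15032) x13250) x14222) x18110) x6446) x2070) x8632)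
  (sub (sub (sub (add (add (sub (add (add (sub (add (add (sub C x15194) x15174) x15186) x15216) x15090) x15306) x15036) x13254) x14226) x18114) x6450) x2078)
  (add (add (sub (sub (add (add (sub (sub (sub (sub (sub C x15208) x15212) x15170) x15260) x15044) x13262) x14234) x18122) x6458) x2082) x8644)
  (sub (sub (sub (add (add (sub (sub (sub (sub (sub C x15206) x15220) x15172) x15262) x15046) x13264) x14236) x18124) x6460) x8648)
  (add (add (sub (sub (add (add (sub (sub (sub (sub (sub C x15216) x15206) x15194) x15266) x15050) x13268) x14240) x18128) x6464) x2088) x8650)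
  (sub (sub (sub (add (add (sub (sub (sub (sub (sub C x15212) x15222) x15198) x15270) x15054) x13272) x14244) x18132) x6468) x2096)
  (sub (sub (sub (add (add (sub (sub (add (add (sub (sub C x15222) x15208) x15148) x15184) x15274) x15058) x13276) x14248) x18136) x6472) x8660)
  (sub (sub (sub (add (add (sub (sub (add (add (sub (sub C x15220) x15216) x15150) x15186) x15276) x15060) x13278) x14250) x18138) x6474) x2102)
  (add (add (sub (sub (add (add (add (add (sub (add (add (add (add (sub C x15234) x15242) x15254) x15266) x15302) x15122) x14582) x14906) x13286) x14258) x18146) x6482) x2106) x8668)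
  (sub (sub (sub (add (add (add (add (sub (add (add (sub (sub C x15230) x15246) x15270) x15306) x15126) x14586) x14910) x13290) x14262) x18150) x6486) x2114)
  (add (add (sub (sub (add (add (add (add (sub (sub (add (add (sub C x15244) x15230) x15254) x15260) x15134) x14594) x14918) x13298) x14270) x18158) x6494) x2118) x8680)
  (sub (sub (sub (add (add (add (add (sub (sub (sub (sub C x15242) x15250) x15262) x15136) x14596) x14920) x13300) x14272) x18160) x6496) x8684)
  (sub (sub (sub (add (add (add (add (sub (sub (sub (add (add C x15250) x15254) x15234) x15282) x15138) x14598) x14922) x13302) x14274) x18162) x6498) x2126)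
  (sub (sub (sub (add (add (add (add (sub (sub (sub (add (add C x15246) x15254) x15244) x15286) x15142) x14602) x14926) x13306) x14278) x18166) x6502) x8690)
  (add (add (sub (sub (add (add (add (add (sub (sub (add (add (add (add C x15246) x15250) x15230) x15242) x15290) x15146) x14606) x14930) x13310) x14282) x18170) x6506) x2130) x8692)
  (add (add (sub (sub (add (add (add (add (sub (sub (sub (sub C x15262) x15266) x15242) x15206) x14612) x14936) x13316) x14288) x18176) x6512) x2136) x8698)
  (sub (sub (sub (add (add (add (add (sub (sub (sub (sub C x15260) x15274) x15244) x15208) x14614) x14938) x13318) x14290) x18178) x6514) x8702)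
  (add (add (sub (sub (add (add (add (add (sub (add (add (sub (sub C x15270) x15260) x15230) x15302) x15212) x14618) x14942) x13322) x14294) x18182) x6518) x2142) x8704)
  (sub (sub (sub (add (add (add (add (sub (add (add (sub (sub C x15266) x15276) x15234) x15306) x15216) x14622) x14946) x13326) x14298) x18186) x6522) x2150)
  (sub (sub (sub (add (add (add (add (sub (sub (sub (sub C x15276) x15262) x15292) x15220) x14626) x14950) x13330) x14302) x18190) x6526) x8714)
  (sub (sub (sub (add (add (add (add (sub (sub (sub (sub C x15274) x15270) x15294) x15222) x14628) x14952) x13332) x14304) x18192) x6528) x2156)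
  (sub (sub (sub (add (add (add (add (add (add (sub (add (add (add (add C x15286) x15290) x15294) x15306) x15246) x15066) x15174) x14634) x14958) x13338) x14310) x18198) x6534) x2162)
  (sub (sub (sub (add (add (add (add (add (add (sub (sub (add (add C x15282) x15290) x15292) x15250) x15070) x15178) x14638) x14962) x13342) x14314) x18202) x6538) x8726)
  (add (add (sub (sub (add (add (add (add (add (add (sub (sub (add (add C x15282) x15286) x15302) x15254) x15074) x15182) x14642) x14966) x13346) x14318) x18206) x6542) x2166) x8728)
  (sub (sub (sub (add (add (add (add (add (add (sub (sub (sub C x15294) x15286) x15274) x15076) x15184) x14644) x14968) x13348) x14320) x18208) x6544) x8732)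
  (sub (sub (sub (add (add (add (add (add (add (sub (add (add (sub C x15292) x15282) x15306) x15276) x15078) x15186) x14646) x14970) x13350) x14322) x18210) x6546) x2174)
  (add (add (sub (sub (add (add (add (add (add (add (add (add (sub (sub C x15306) x15290) x15230) x15266) x15086) x15194) x14654) x14978) x13358) x14330) x18218) x6554) x2178) x8740)
  (sub (sub (sub (add (add (add (add (add (add (add (add (add (add (sub C x15302) x15282) x15294) x15234) x15270) x15090) x15198) x14658) x14982) x13362) x14334) x18222) x6558) x2186)
  (sub (sub (sub (add (add (add (add (add (add (add (add (add (add (sub C x15312) x15322) x15334) x15346) x15382) x15418) x15526) x15634) x15958) x16282) x17254) x13852) x10936) x8750)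
  (sub (sub (sub (add (add (add (add (add (add (add (add (sub (sub C x15310) x15318) x15348) x15384) x15420) x15528) x15636) x15960) x16284) x17256) x13854) x10938) x2192)
  (sub (sub (sub (add (add (add (add (add (add (sub (sub (add (add C x15322) x15326) x15312) x15336) x15426) x15534) x15642) x15966) x16290) x17262) x13860) x10944) x2198)
  (sub (sub (sub (add (add (add (add (add (add (sub (add (add (add (add C x15318) x15326) x15310) x15334) x15340) x15430) x15538) x15646) x15970) x16294) x17266) x13864) x10948) x8762)
  (add (add (sub (sub (add (add (add (add (add (add (sub (sub (add (add C x15318) x15322) x15332) x15344) x15434) x15542) x15650) x15974) x16298) x17270) x13868) x10952) x2202) x8764)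
  (add (add (sub (sub (add (add (add (add (add (add (sub (sub (sub C x15334) x15326) x15368) x15440) x15548) x15656) x15980) x16304) x17276) x13874) x10958) x2208) x8770)
  (sub (sub (sub (add (add (add (add (add (add (sub (add (add (sub C x15332) x15310) x15322) x15370) x15442) x15550) x15658) x15982) x16306) x17278) x13876) x10960) x8774)
  (sub (sub (sub (add (add (add (add (sub (sub (add (add (add (add C x15340) x15344) x15348) x15360) x15318) x15390) x15660) x15984) x16308) x17280) x13878) x10962) x2216)
  (sub (sub (sub (add (add (add (add (sub (sub (sub (add (add C x15336) x15344) x15346) x15322) x15394) x15664) x15988) x16312) x17284) x13882) x10966) x8780)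
  (add (add (sub (sub (add (add (add (add (sub (sub (sub (add (add C x15336) x15340) x15356) x15326) x15398) x15668) x15992) x16316) x17288) x13886) x10970) x2220) x8782)
  (sub (sub (sub (add (add (add (add (sub (add (add (sub (sub C x15348) x15340) x15310) x15382) x15400) x15670) x15994) x16318) x17290) x13888) x10972) x8786)
  (sub (sub (sub (add (add (add (add (sub (add (add (add (add (sub C x15346) x15336) x15360) x15312) x15384) x15402) x15672) x15996) x16320) x17292) x13890) x10974) x2228)
  (add (add (sub (sub (add (add (add (add (sub (sub (sub (sub C x15360) x15344) x15374) x15410) x15680) x16004) x16328) x17300) x13898) x10982) x2232) x8794)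
  (sub (sub (sub (add (add (add (add (sub (sub (add (add (sub C x15356) x15336) x15348) x15378) x15414) x15684) x16008) x16332) x17304) x13902) x10986) x2240)
  (add (add (sub (sub (add (add (add (add (sub (sub (sub (sub C x15370) x15374) x15332) x15476) x15692) x16016) x16340) x17312) x13910) x10994) x2244) x8806)
  (sub (sub (sub (add (add (add (add (sub (sub (sub (sub C x15368) x15382) x15334) x15478) x15694) x16018) x16342) x17314) x13912) x10996) x8810)
  (add (add (sub (sub (add (add (add (add (sub (sub (sub (sub C x15378) x15368) x15356) x15482) x15698) x16022) x16346) x17318) x13916) x11000) x2250) x8812)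
  (sub (sub (sub (add (add (add (add (sub (sub (sub (sub C x15374) x15384) x15360) x15486) x15702) x16026) x16350) x17322) x13920) x11004) x2258)
  (sub (sub (sub (add (add (add (add (sub (add (add (sub (sub C x15384) x15370) x15310) x15346) x15490) x15706) x16030) x16354) x17326) x13924) x11008) x8822)
  (sub (sub (sub (add (add (add (add (sub (add (add (sub (sub C x15382) x15378) x15312) x15348) x15492) x15708) x16032) x16356) x17328) x13926) x11010) x2264)
  (sub (sub (sub (add (add (sub (sub (add (add (add (add (add (add C x15394) x15398) x15402) x15414) x15426) x15462) x15336) x15552) x16362) x17334) x13932) x11016) x2270)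
  (sub (sub (sub (add (add (sub (sub (add (add (sub (add (add C x15390) x15398) x15400) x15430) x15466) x15340) x15556) x16366) x17338) x13936) x11020) x8834)
  (add (add (sub (sub (add (add (sub (sub (add (add (sub (add (add C x15390) x15394) x15410) x15434) x15470) x15344) x15560) x16370) x17342) x13940) x11024) x2274) x8836)
  (sub (sub (sub (add (add (sub (sub (sub (sub (sub C x15402) x15394) x15418) x15346) x15562) x16372) x17344) x13942) x11026) x8840)
  (sub (sub (sub (add (add (sub (sub (sub (add (add (sub C x15400) x15390) x15414) x15420) x15348) x15564) x16374) x17346) x13944) x11028) x2282)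
  (add (add (sub (sub (add (add (sub (sub (sub (sub (sub C x15414) x15398) x15446) x15356) x15572) x16382) x17354) x13952) x11036) x2286) x8848)
  (sub (sub (sub (add (add (sub (sub (sub (add (add (sub C x15410) x15390) x15402) x15450) x15360) x15576) x16386) x17358) x13956) x11040) x2294)
  (sub (sub (sub (add (add (sub (add (add (sub (add (add (sub C x15420) x15430) x15442) x15400) x15310) x15526) x15580) x16390) x17362) x13960) x11044) x8858)
  (sub (sub (sub (add (add (sub (add (add (sub (sub (sub C x15418) x15426) x15402) x15312) x15528) x15582) x16392) x17364) x13962) x11046) x2300)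
  (sub (sub (sub (add (add (sub (add (add (add (add (sub (add (add C x15430) x15434) x15420) x15390) x15462) x15318) x15534) x15588) x16398) x17370) x13968) x11052) x2306)
  (sub (sub (sub (add (add (sub (add (add (add (add (add (add (add (add C x15426) x15434) x15418) x15442) x15394) x15466) x15322) x15538) x15592) x16402) x17374) x13972) x11056) x8870)
  (add (add (sub (sub (add (add (sub (add (add (add (add (sub (add (add C x15426) x15430) x15440) x15398) x15470) x15326) x15542) x15596) x16406) x17378) x13976) x11060) x2310) x8872)
  (add (add (sub (sub (add (add (sub (add (add (sub (sub (sub C x15442) x15434) x15458) x15332) x15548) x15602) x16412) x17384) x13982) x11066) x2316) x8878)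
  (sub (sub (sub (add (add (sub (add (add (sub (add (add (sub C x15440) x15418) x15430) x15460) x15334) x15550) x15604) x16414) x17386) x13984) x11068) x8882)
  (add (add (sub (sub (add (add (sub (sub (sub (add (add (sub C x15450) x15458) x15470) x15410) x15500) x15608) x16418) x17390) x13988) x11072) x2322) x8884)
  (sub (sub (sub (add (add (sub (sub (sub (sub (sub C x15446) x15462) x15414) x15504) x15612) x16422) x17394) x13992) x11076) x2330)
  (add (add (sub (sub (add (add (sub (sub (sub (add (add (sub C x15460) x15446) x15470) x15440) x15512) x15620) x16430) x17402) x14000) x11084) x2334) x8896)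
  (sub (sub (sub (add (add (sub (sub (sub (sub (sub C x15458) x15466) x15442) x15514) x15622) x16432) x17404) x14002) x11086) x8900)
  (sub (sub (sub (add (add (sub (sub (add (add (sub (add (add C x15466) x15470) x15450) x15390) x15426) x15516) x15624) x16434) x17406) x14004) x11088) x2342)
  (sub (sub (sub (add (add (sub (sub (add (add (sub (add (add C x15462) x15470) x15460) x15394) x15430) x15520) x15628) x16438) x17410) x14008) x11092) x8906)
  (add (add (sub (sub (add (add (sub (sub (add (add (add (add (add (add C x15462) x15466) x15446) x15458) x15398) x15434) x15524) x15632) x16442) x17414) x14012) x11096) x2346) x8908)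
  (add (add (sub (sub (add (add (sub (sub (add (add (sub (sub C x15478) x15482) x15512) x15548) x15368) x15800) x16448) x17420) x14018) x11102) x2352) x8914)
  (sub (sub (sub (add (add (sub (sub (add (add (sub (sub C x15476) x15490) x15514) x15550) x15370) x15802) x16450) x17422) x14020) x11104) x8918)
  (add (add (sub (sub (add (add (sub (sub (sub (sub (sub C x15486) x15476) x15500) x15374) x15806) x16454) x17426) x14024) x11108) x2358) x8920)
  (sub (sub (sub (add (add (sub (sub (sub (sub (sub C x15482) x15492) x15504) x15378) x15810) x16458) x17430) x14028) x11112) x2366)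
  (sub (sub (sub (add (add (sub (sub (sub (sub (sub C x15492) x15478) x15526) x15382) x15814) x16462) x17434) x14032) x11116) x8930)
  (sub (sub (sub (add (add (sub (sub (sub (sub (sub C x15490) x15486) x15528) x15384) x15816) x16464) x17436) x14034) x11118) x2372)
  (add (add (sub (sub (add (add (sub (sub (sub (add (add (sub C x15504) x15512) x15524) x15482) x15446) x15824) x16472) x17444) x14042) x11126) x2376) x8938)
  (sub (sub (sub (add (add (sub (sub (sub (sub (sub C x15500) x15516) x15486) x15450) x15828) x16476) x17448) x14046) x11130) x2384)
  (add (add (sub (sub (add (add (sub (sub (add (add (add (add (sub C x15514) x15500) x15524) x15476) x15548) x15458) x15836) x16484) x17456) x14054) x11138) x2388) x8950)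
  (sub (sub (sub (add (add (sub (sub (add (add (sub (sub C x15512) x15520) x15478) x15550) x15460) x15838) x16486) x17458) x14056) x11140) x8954)
  (sub (sub (sub (add (add (sub (sub (sub (sub (add (add C x15520) x15524) x15504) x15534) x15462) x15840) x16488) x17460) x14058) x11142) x2396)
  (sub (sub (sub (add (add (sub (sub (sub (sub (add (add C x15516) x15524) x15514) x15538) x15466) x15844) x16492) x17464) x14062) x11146) x8960)
  (add (add (sub (sub (add (add (sub (sub (sub (add (add (add (add C x15516) x15520) x15500) x15512) x15542) x15470) x15848) x16496) x17468) x14066) x11150) x2400) x8962)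
  (sub (sub (sub (add (add (sub (add (add (sub (add (add (sub C x15528) x15538) x15550) x15490) x15310) x15418) x15850) x16498) x17470) x14068) x11152) x8966)
  (sub (sub (sub (add (add (sub (add (add (sub (sub (sub C x15526) x15534) x15492) x15312) x15420) x15852) x16500) x17472) x14070) x11154) x2408)
  (sub (sub (sub (add (add (sub (add (add (sub (sub (add (add C x15538) x15542) x15528) x15516) x15318) x15426) x15858) x16506) x17478) x14076) x11160) x2414)
  (sub (sub (sub (add (add (sub (add (add (sub (add (add (add (add C x15534) x15542) x15526) x15550) x15520) x15322) x15430) x15862) x16510) x17482) x14080) x11164) x8978)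
  (add (add (sub (sub (add (add (sub (add (add (sub (sub (add (add C x15534) x15538) x15548) x15524) x15326) x15434) x15866) x16514) x17486) x14084) x11168) x2418) x8980)
  (add (add (sub (sub (add (add (sub (add (add (add (add (sub (sub C x15550) x15542) x15476) x15512) x15332) x15440) x15872) x16520) x17492) x14090) x11174) x2424) x8986)
  (sub (sub (sub (add (add (sub (add (add (add (add (add (add (sub C x15548) x15526) x15538) x15478) x15514) x15334) x15442) x15874) x16522) x17494) x14092) x11176) x8990)
  (sub (sub (sub (sub (sub (add (add (add (add (add (add (add (add C x15556) x15560) x15564) x15576) x15588) x15624) x15660) x15768) x15390) x16038) x14094) x11178) x2432)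
  (sub (sub (sub (sub (sub (add (add (add (add (sub (add (add C x15552) x15560) x15562) x15592) x15628) x15664) x15772) x15394) x16042) x14098) x11182) x8996)
  (add (add (sub (sub (sub (sub (add (add (add (add (sub (add (add C x15552) x15556) x15572) x15596) x15632) x15668) x15776) x15398) x16046) x14102) x11186) x2436) x8998)
  (sub (sub (sub (sub (sub (add (add (sub (sub (sub C x15564) x15556) x15580) x15670) x15778) x15400) x16048) x14104) x11188) x9002)
  (sub (sub (sub (sub (sub (add (add (sub (add (add (sub C x15562) x15552) x15576) x15582) x15672) x15780) x15402) x16050) x14106) x11190) x2444)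
  (add (add (sub (sub (sub (sub (add (add (sub (sub (sub C x15576) x15560) x15608) x15680) x15788) x15410) x16058) x14114) x11198) x2448) x9010)
  (sub (sub (sub (sub (sub (add (add (sub (add (add (sub C x15572) x15552) x15564) x15612) x15684) x15792) x15414) x16062) x14118) x11202) x2456)
  (sub (sub (sub (sub (sub (sub (sub (add (add (sub C x15582) x15592) x15604) x15562) x15634) x15418) x16066) x14122) x11206) x9020)
  (sub (sub (sub (sub (sub (sub (sub (sub (sub C x15580) x15588) x15564) x15636) x15420) x16068) x14124) x11208) x2462)
  (sub (sub (sub (sub (sub (sub (add (add (sub (add (add C x15592) x15596) x15582) x15552) x15624) x15642) x15426) x16074) x14130) x11214) x2468)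
  (sub (sub (sub (sub (sub (sub (add (add (add (add (add (add C x15588) x15596) x15580) x15604) x15556) x15628) x15646) x15430) x16078) x14134) x11218) x9032)
  (add (add (sub (sub (sub (sub (sub (add (add (sub (add (add C x15588) x15592) x15602) x15560) x15632) x15650) x15434) x16082) x14138) x11222) x2472) x9034)
  (add (add (sub (sub (sub (sub (sub (sub (sub (sub C x15604) x15596) x15620) x15656) x15440) x16088) x14144) x11228) x2478) x9040)
  (sub (sub (sub (sub (sub (sub (sub (add (add (sub C x15602) x15580) x15592) x15622) x15658) x15442) x16090) x14146) x11230) x9044)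
  (add (add (sub (sub (sub (sub (sub (sub (add (add (sub C x15612) x15620) x15632) x15572) x15716) x15446) x16094) x14150) x11234) x2484) x9046)
  (sub (sub (sub (sub (sub (sub (sub (sub (sub C x15608) x15624) x15576) x15720) x15450) x16098) x14154) x11238) x2492)
  (add (add (sub (sub (sub (sub (sub (sub (add (add (sub C x15622) x15608) x15632) x15602) x15728) x15458) x16106) x14162) x11246) x2496) x9058)
  (sub (sub (sub (sub (sub (sub (sub (sub (sub C x15620) x15628) x15604) x15730) x15460) x16108) x14164) x11248) x9062)
  (sub (sub (sub (sub (sub (sub (add (add (sub (add (add C x15628) x15632) x15612) x15552) x15588) x15732) x15462) x16110) x14166) x11250) x2504)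
  (sub (sub (sub (sub (sub (sub (add (add (sub (add (add C x15624) x15632) x15622) x15556) x15592) x15736) x15466) x16114) x14170) x11254) x9068)
  (add (add (sub (sub (sub (sub (sub (add (add (add (add (add (add C x15624) x15628) x15608) x15620) x15560) x15596) x15740) x15470) x16118) x14174) x11258) x2508) x9070)
  (sub (sub (sub (sub (add (add (sub (add (add (add (add (sub C x15636) x15646) x15658) x15670) x15706) x15580) x15310) x15958) x16120) x14176) x11260) x9074)
  (sub (sub (sub (sub (add (add (sub (add (add (sub (sub C x15634) x15642) x15672) x15708) x15582) x15312) x15960) x16122) x14178) x11262) x2516)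
  (sub (sub (sub (sub (add (add (sub (sub (sub (add (add C x15646) x15650) x15636) x15660) x15588) x15318) x15966) x16128) x14184) x11268) x2522)
  (sub (sub (sub (sub (add (add (sub (sub (add (add (add (add C x15642) x15650) x15634) x15658) x15664) x15592) x15322) x15970) x16132) x14188) x11272) x9086)
  (add (add (sub (sub (sub (add (add (sub (sub (sub (add (add C x15642) x15646) x15656) x15668) x15596) x15326) x15974) x16136) x14192) x11276) x2526) x9088)
  (add (add (sub (sub (sub (add (add (sub (sub (sub (sub C x15658) x15650) x15692) x15602) x15332) x15980) x16142) x14198) x11282) x2532) x9094)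
  (sub (sub (sub (sub (add (add (sub (sub (add (add (sub C x15656) x15634) x15646) x15694) x15604) x15334) x15982) x16144) x14200) x11284) x9098)
  (sub (sub (sub (sub (add (add (add (add (sub (add (add (add (add C x15664) x15668) x15672) x15684) x15642) x15552) x15768) x15336) x15984) x16146) x14202) x11286) x2540)
  (sub (sub (sub (sub (add (add (add (add (sub (sub (add (add C x15660) x15668) x15670) x15646) x15556) x15772) x15340) x15988) x16150) x14206) x11290) x9104)
  (add (add (sub (sub (sub (add (add (add (add (sub (sub (add (add C x15660) x15664) x15680) x15650) x15560) x15776) x15344) x15992) x16154) x14210) x11294) x2544) x9106)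
  (sub (sub (sub (sub (add (add (add (add (add (add (sub (sub C x15672) x15664) x15634) x15706) x15562) x15778) x15346) x15994) x16156) x14212) x11296) x9110)
  (sub (sub (sub (sub (add (add (add (add (add (add (add (add (sub C x15670) x15660) x15684) x15636) x15708) x15564) x15780) x15348) x15996) x16158) x14214) x11298) x2552)
  (add (add (sub (sub (sub (add (add (add (add (sub (sub (sub C x15684) x15668) x15698) x15572) x15788) x15356) x16004) x16166) x14222) x11306) x2556) x9118)
  (sub (sub (sub (sub (add (add (add (add (sub (add (add (sub C x15680) x15660) x15672) x15702) x15576) x15792) x15360) x16008) x16170) x14226) x11310) x2564)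
  (add (add (sub (sub (sub (add (add (sub (sub (sub (sub C x15694) x15698) x15656) x15746) x15368) x16016) x16178) x14234) x11318) x2568) x9130)
  (sub (sub (sub (sub (add (add (sub (sub (sub (sub C x15692) x15706) x15658) x15748) x15370) x16018) x16180) x14236) x11320) x9134)
  (add (add (sub (sub (sub (add (add (sub (sub (sub (sub C x15702) x15692) x15680) x15752) x15374) x16022) x16184) x14240) x11324) x2574) x9136)
  (sub (sub (sub (sub (add (add (sub (sub (sub (sub C x15698) x15708) x15684) x15756) x15378) x16026) x16188) x14244) x11328) x2582)
  (sub (sub (sub (sub (add (add (sub (add (add (sub (sub C x15708) x15694) x15634) x15670) x15760) x15382) x16030) x16192) x14248) x11332) x9146)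
  (sub (sub (sub (sub (add (add (sub (add (add (sub (sub C x15706) x15702) x15636) x15672) x15762) x15384) x16032) x16194) x14250) x11334) x2588)
  (add (add (sub (sub (sub (sub (sub (add (add (add (add (sub C x15720) x15728) x15740) x15752) x15788) x15608) x15878) x16202) x14258) x11342) x2592) x9154)
  (sub (sub (sub (sub (sub (sub (add (add (sub (sub C x15716) x15732) x15756) x15792) x15612) x15882) x16206) x14262) x11346) x2600)
  (add (add (sub (sub (sub (sub (sub (sub (add (add (sub C x15730) x15716) x15740) x15746) x15620) x15890) x16214) x14270) x11354) x2604) x9166)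
  (sub (sub (sub (sub (sub (sub (sub (sub (sub C x15728) x15736) x15748) x15622) x15892) x16216) x14272) x11356) x9170)
  (sub (sub (sub (sub (sub (sub (sub (sub (add (add C x15736) x15740) x15720) x15768) x15624) x15894) x16218) x14274) x11358) x2612)
  (sub (sub (sub (sub (sub (sub (sub (sub (add (add C x15732) x15740) x15730) x15772) x15628) x15898) x16222) x14278) x11362) x9176)
  (add (add (sub (sub (sub (sub (sub (sub (add (add (add (add C x15732) x15736) x15716) x15728) x15776) x15632) x15902) x16226) x14282) x11366) x2616) x9178)
  (add (add (sub (sub (sub (sub (sub (sub (sub (sub C x15748) x15752) x15728) x15692) x15908) x16232) x14288) x11372) x2622) x9184)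
  (sub (sub (sub (sub (sub (sub (sub (sub (sub C x15746) x15760) x15730) x15694) x15910) x16234) x14290) x11374) x9188)
  (add (add (sub (sub (sub (sub (sub (add (add (sub (sub C x15756) x15746) x15716) x15788) x15698) x15914) x16238) x14294) x11378) x2628) x9190)
  (sub (sub (sub (sub (sub (sub (add (add (sub (sub C x15752) x15762) x15720) x15792) x15702) x15918) x16242) x14298) x11382) x2636)
  (sub (sub (sub (sub (sub (sub (sub (sub (sub C x15762) x15748) x15778) x15706) x15922) x16246) x14302) x11386) x9200)
  (sub (sub (sub (sub (sub (sub (sub (sub (sub C x15760) x15756) x15780) x15708) x15924) x16248) x14304) x11388) x2642)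
  (sub (sub (sub (sub (sub (add (add (sub (add (add (add (add C x15772) x15776) x15780) x15792) x15732) x15552) x15660) x15930) x16254) x14310) x11394) x2648)
  (sub (sub (sub (sub (sub (add (add (sub (sub (add (add C x15768) x15776) x15778) x15736) x15556) x15664) x15934) x16258) x14314) x11398) x9212)
  (add (add (sub (sub (sub (sub (add (add (sub (sub (add (add C x15768) x15772) x15788) x15740) x15560) x15668) x15938) x16262) x14318) x11402) x2652) x9214)
  (sub (sub (sub (sub (sub (add (add (sub (sub (sub C x15780) x15772) x15760) x15562) x15670) x15940) x16264) x14320) x11404) x9218)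
  (sub (sub (sub (sub (sub (add (add (sub (add (add (sub C x15778) x15768) x15792) x15762) x15564) x15672) x15942) x16266) x14322) x11406) x2660)
  (add (add (sub (sub (sub (sub (add (add (add (add (sub (sub C x15792) x15776) x15716) x15752) x15572) x15680) x15950) x16274) x14330) x11414) x2664) x9226)
  (sub (sub (sub (sub (sub (add (add (add (add (add (add (sub C x15788) x15768) x15780) x15720) x15756) x15576) x15684) x15954) x16278) x14334) x11418) x2672)
  (add (add (sub (sub (sub (sub (add (add (add (add (sub (sub C x15802) x15806) x15836) x15872) x15908) x16016) x15476) x16772) x14342) x11426) x2676) x9238)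
  (sub (sub (sub (sub (sub (add (add (add (add (sub (sub C x15800) x15814) x15838) x15874) x15910) x16018) x15478) x16774) x14344) x11428) x9242)
  (add (add (sub (sub (sub (sub (add (add (sub (sub (sub C x15810) x15800) x15824) x15914) x16022) x15482) x16778) x14348) x11432) x2682) x9244)
  (sub (sub (sub (sub (sub (add (add (sub (sub (sub C x15806) x15816) x15828) x15918) x16026) x15486) x16782) x14352) x11436) x2690)
  (sub (sub (sub (sub (sub (add (add (sub (sub (sub C x15816) x15802) x15850) x15922) x16030) x15490) x16786) x14356) x11440) x9254)
  (sub (sub (sub (sub (sub (add (add (sub (sub (sub C x15814) x15810) x15852) x15924) x16032) x15492) x16788) x14358) x11442) x2696)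
  (add (add (sub (sub (sub (sub (sub (sub (add (add (sub C x15828) x15836) x15848) x15806) x15878) x15500) x16796) x14366) x11450) x2700) x9262)
  (sub (sub (sub (sub (sub (sub (sub (sub (sub C x15824) x15840) x15810) x15882) x15504) x16800) x14370) x11454) x2708)
  (add (add (sub (sub (sub (sub (sub (add (add (add (add (sub C x15838) x15824) x15848) x15800) x15872) x15890) x15512) x16808) x14378) x11462) x2712) x9274)
  (sub (sub (sub (sub (sub (sub (add (add (sub (sub C x15836) x15844) x15802) x15874) x15892) x15514) x16810) x14380) x11464) x9278)
  (sub (sub (sub (sub (sub (sub (sub (sub (add (add C x15844) x15848) x15828) x15858) x15894) x15516) x16812) x14382) x11466) x2720)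
  (sub (sub (sub (sub (sub (sub (sub (sub (add (add C x15840) x15848) x15838) x15862) x15898) x15520) x16816) x14386) x11470) x9284)
  (add (add (sub (sub (sub (sub (sub (sub (add (add (add (add C x15840) x15844) x15824) x15836) x15866) x15902) x15524) x16820) x14390) x11474) x2724) x9286)
  (sub (sub (sub (sub (sub (sub (sub (add (add (sub C x15852) x15862) x15874) x15814) x15958) x15526) x16822) x14392) x11476) x9290)
  (sub (sub (sub (sub (sub (sub (sub (sub (sub C x15850) x15858) x15816) x15960) x15528) x16824) x14394) x11478) x2732)
  (sub (sub (sub (sub (sub (sub (sub (sub (add (add C x15862) x15866) x15852) x15840) x15966) x15534) x16830) x14400) x11484) x2738)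
  (sub (sub (sub (sub (sub (sub (sub (add (add (add (add C x15858) x15866) x15850) x15874) x15844) x15970) x15538) x16834) x14404) x11488) x9302)
  (add (add (sub (sub (sub (sub (sub (sub (sub (add (add C x15858) x15862) x15872) x15848) x15974) x15542) x16838) x14408) x11492) x2742) x9304)
  (add (add (sub (sub (sub (sub (sub (add (add (sub (sub C x15874) x15866) x15800) x15836) x15980) x15548) x16844) x14414) x11498) x2748) x9310)
  (sub (sub (sub (sub (sub (sub (add (add (add (add (sub C x15872) x15850) x15862) x15802) x15838) x15982) x15550) x16846) x14416) x11500) x9314)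
  (add (add (sub (sub (sub (sub (sub (add (add (add (add (sub C x15882) x15890) x15902) x15914) x15950) x15824) x15716) x16850) x14420) x11504) x2754) x9316)
  (sub (sub (sub (sub (sub (sub (add (add (sub (sub C x15878) x15894) x15918) x15954) x15828) x15720) x16854) x14424) x11508) x2762)
  (add (add (sub (sub (sub (sub (sub (sub (add (add (sub C x15892) x15878) x15902) x15908) x15836) x15728) x16862) x14432) x11516) x2766) x9328)
  (sub (sub (sub (sub (sub (sub (sub (sub (sub C x15890) x15898) x15910) x15838) x15730) x16864) x14434) x11518) x9332)
  (sub (sub (sub (sub (sub (sub (sub (sub (add (add C x15898) x15902) x15882) x15930) x15840) x15732) x16866) x14436) x11520) x2774)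
  (sub (sub (sub (sub (sub (sub (sub (sub (add (add C x15894) x15902) x15892) x15934) x15844) x15736) x16870) x14440) x11524) x9338)
  (add (add (sub (sub (sub (sub (sub (sub (add (add (add (add C x15894) x15898) x15878) x15890) x15938) x15848) x15740) x16874) x14444) x11528) x2778) x9340)
  (add (add (sub (sub (sub (sub (add (add (sub (sub (sub C x15910) x15914) x15890) x15800) x16016) x15746) x16880) x14450) x11534) x2784) x9346)
  (sub (sub (sub (sub (sub (add (add (sub (sub (sub C x15908) x15922) x15892) x15802) x16018) x15748) x16882) x14452) x11536) x9350)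
  (add (add (sub (sub (sub (sub (add (add (add (add (sub (sub C x15918) x15908) x15878) x15950) x15806) x16022) x15752) x16886) x14456) x11540) x2790) x9352)
  (sub (sub (sub (sub (sub (add (add (add (add (sub (sub C x15914) x15924) x15882) x15954) x15810) x16026) x15756) x16890) x14460) x11544) x2798)
  (sub (sub (sub (sub (sub (add (add (sub (sub (sub C x15924) x15910) x15940) x15814) x16030) x15760) x16894) x14464) x11548) x9362)
  (sub (sub (sub (sub (sub (add (add (sub (sub (sub C x15922) x15918) x15942) x15816) x16032) x15762) x16896) x14466) x11550) x2804)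
  (sub (sub (sub (sub (sub (sub (sub (add (add (add (add C x15934) x15938) x15942) x15954) x15894) x15984) x15768) x16902) x14472) x11556) x2810)
  (sub (sub (sub (sub (sub (sub (sub (sub (add (add C x15930) x15938) x15940) x15898) x15988) x15772) x16906) x14476) x11560) x9374)
  (add (add (sub (sub (sub (sub (sub (sub (sub (add (add C x15930) x15934) x15950) x15902) x15992) x15776) x16910) x14480) x11564) x2814) x9376)
  (sub (sub (sub (sub (sub (sub (sub (sub (sub C x15942) x15934) x15922) x15994) x15778) x16912) x14482) x11566) x9380)
  (sub (sub (sub (sub (sub (sub (sub (add (add (sub C x15940) x15930) x15954) x15924) x15996) x15780) x16914) x14484) x11568) x2822)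
  (add (add (sub (sub (sub (sub (sub (add (add (sub (sub C x15954) x15938) x15878) x15914) x16004) x15788) x16922) x14492) x11576) x2826) x9388)
  (sub (sub (sub (sub (sub (sub (add (add (add (add (sub C x15950) x15930) x15942) x15882) x15918) x16008) x15792) x16926) x14496) x11580) x2834)
  (sub (sub (sub (sub (add (add (sub (add (add (add (add (sub C x15960) x15970) x15982) x15994) x16030) x15850) x15310) x15634) x16930) x14500) x11584) x9398)
  (sub (sub (sub (sub (add (add (sub (add (add (sub (sub C x15958) x15966) x15996) x16032) x15852) x15312) x15636) x16932) x14502) x11586) x2840)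
  (sub (sub (sub (sub (add (add (sub (sub (sub (add (add C x15970) x15974) x15960) x15984) x15858) x15318) x15642) x16938) x14508) x11592) x2846)
  (sub (sub (sub (sub (add (add (sub (sub (add (add (add (add C x15966) x15974) x15958) x15982) x15988) x15862) x15322) x15646) x16942) x14512) x11596) x9410)
  (add (add (sub (sub (sub (add (add (sub (sub (sub (add (add C x15966) x15970) x15980) x15992) x15866) x15326) x15650) x16946) x14516) x11600) x2850) x9412)
  (add (add (sub (sub (sub (add (add (sub (sub (sub (sub C x15982) x15974) x16016) x15872) x15332) x15656) x16952) x14522) x11606) x2856) x9418)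
  (sub (sub (sub (sub (add (add (sub (sub (add (add (sub C x15980) x15958) x15970) x16018) x15874) x15334) x15658) x16954) x14524) x11608) x9422)
  (sub (sub (sub (sub (add (add (sub (sub (add (add (add (add C x15988) x15992) x15996) x16008) x15966) x15930) x15336) x15660) x16956) x14526) x11610) x2864)
  (sub (sub (sub (sub (add (add (sub (sub (sub (add (add C x15984) x15992) x15994) x15970) x15934) x15340) x15664) x16960) x14530) x11614) x9428)
  (add (add (sub (sub (sub (add (add (sub (sub (sub (add (add C x15984) x15988) x16004) x15974) x15938) x15344) x15668) x16964) x14534) x11618) x2868) x9430)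
  (sub (sub (sub (sub (add (add (sub (add (add (sub (sub C x15996) x15988) x15958) x16030) x15940) x15346) x15670) x16966) x14536) x11620) x9434)
  (sub (sub (sub (sub (add (add (sub (add (add (add (add (sub C x15994) x15984) x16008) x15960) x16032) x15942) x15348) x15672) x16968) x14538) x11622) x2876)
  (add (add (sub (sub (sub (add (add (sub (sub (sub (sub C x16008) x15992) x16022) x15950) x15356) x15680) x16976) x14546) x11630) x2880) x9442)
  (sub (sub (sub (sub (add (add (sub (sub (add (add (sub C x16004) x15984) x15996) x16026) x15954) x15360) x15684) x16980) x14550) x11634) x2888)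
  (add (add (sub (sub (sub (add (add (add (add (sub (sub (sub C x16018) x16022) x15980) x15800) x15908) x15368) x15692) x16988) x14558) x11642) x2892) x9454)
  (sub (sub (sub (sub (add (add (add (add (sub (sub (sub C x16016) x16030) x15982) x15802) x15910) x15370) x15694) x16990) x14560) x11644) x9458)
  (add (add (sub (sub (sub (add (add (add (add (sub (sub (sub C x16026) x16016) x16004) x15806) x15914) x15374) x15698) x16994) x14564) x11648) x2898) x9460)
  (sub (sub (sub (sub (add (add (add (add (sub (sub (sub C x16022) x16032) x16008) x15810) x15918) x15378) x15702) x16998) x14568) x11652) x2906)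
  (sub (sub (sub (sub (add (add (add (add (add (add (sub (sub C x16032) x16018) x15958) x15994) x15814) x15922) x15382) x15706) x17002) x14572) x11656) x9470)
  (sub (sub (sub (sub (add (add (add (add (add (add (sub (sub C x16030) x16026) x15960) x15996) x15816) x15924) x15384) x15708) x17004) x14574) x11658) x2912)
  (sub (sub (add (add (sub (add (add (add (add (add (add (add (add (add (add C x16042) x16046) x16050) x16062) x16074) x16110) x16146) x16254) x16362) x16686) x15552) x13122) x18954) x11664) x2918)
  (sub (sub (add (add (sub (add (add (add (add (add (add (sub (add (add C x16038) x16046) x16048) x16078) x16114) x16150) x16258) x16366) x16690) x15556) x13126) x18958) x11668) x9482)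
  (add (add (sub (add (add (sub (add (add (add (add (add (add (sub (add (add C x16038) x16042) x16058) x16082) x16118) x16154) x16262) x16370) x16694) x15560) x13130) x18962) x11672) x2922) x9484)
  (sub (sub (add (add (sub (add (add (add (add (sub (sub (sub C x16050) x16042) x16066) x16156) x16264) x16372) x16696) x15562) x13132) x18964) x11674) x9488)
  (sub (sub (add (add (sub (add (add (add (add (sub (add (add (sub C x16048) x16038) x16062) x16068) x16158) x16266) x16374) x16698) x15564) x13134) x18966) x11676) x2930)
  (add (add (sub (add (add (sub (add (add (add (add (sub (sub (sub C x16062) x16046) x16094) x16166) x16274) x16382) x16706) x15572) x13142) x18974) x11684) x2934) x9496)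
  (sub (sub (add (add (sub (add (add (add (add (sub (add (add (sub C x16058) x16038) x16050) x16098) x16170) x16278) x16386) x16710) x15576) x13146) x18978) x11688) x2942)
  (sub (sub (add (add (sub (add (add (sub (sub (add (add (sub C x16068) x16078) x16090) x16048) x16120) x16390) x16714) x15580) x13150) x18982) x11692) x9506)
  (sub (sub (add (add (sub (add (add (sub (sub (sub (sub C x16066) x16074) x16050) x16122) x16392) x16716) x15582) x13152) x18984) x11694) x2948)
  (sub (sub (add (add (sub (add (add (sub (add (add (sub (add (add C x16078) x16082) x16068) x16038) x16110) x16128) x16398) x16722) x15588) x13158) x18990) x11700) x2954)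
  (sub (sub (add (add (sub (add (add (sub (add (add (add (add (add (add C x16074) x16082) x16066) x16090) x16042) x16114) x16132) x16402) x16726) x15592) x13162) x18994) x11704) x9518)
  (add (add (sub (add (add (sub (add (add (sub (add (add (sub (add (add C x16074) x16078) x16088) x16046) x16118) x16136) x16406) x16730) x15596) x13166) x18998) x11708) x2958) x9520)
  (add (add (sub (add (add (sub (add (add (sub (sub (sub (sub C x16090) x16082) x16106) x16142) x16412) x16736) x15602) x13172) x19004) x11714) x2964) x9526)
  (sub (sub (add (add (sub (add (add (sub (sub (add (add (sub C x16088) x16066) x16078) x16108) x16144) x16414) x16738) x15604) x13174) x19006) x11716) x9530)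
  (add (add (sub (add (add (sub (add (add (sub (sub (add (add (sub C x16098) x16106) x16118) x16058) x16202) x16418) x16742) x15608) x13178) x19010) x11720) x2970) x9532)
  (sub (sub (add (add (sub (add (add (sub (sub (sub (sub C x16094) x16110) x16062) x16206) x16422) x16746) x15612) x13182) x19014) x11724) x2978)
  (add (add (sub (add (add (sub (add (add (sub (sub (add (add (sub C x16108) x16094) x16118) x16088) x16214) x16430) x16754) x15620) x13190) x19022) x11732) x2982) x9544)
  (sub (sub (add (add (sub (add (add (sub (sub (sub (sub C x16106) x16114) x16090) x16216) x16432) x16756) x15622) x13192) x19024) x11734) x9548)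
  (sub (sub (add (add (sub (add (add (sub (add (add (sub (add (add C x16114) x16118) x16098) x16038) x16074) x16218) x16434) x16758) x15624) x13194) x19026) x11736) x2990)
  (sub (sub (add (add (sub (add (add (sub (add (add (sub (add (add C x16110) x16118) x16108) x16042) x16078) x16222) x16438) x16762) x15628) x13198) x19030) x11740) x9554)
  (add (add (sub (add (add (sub (add (add (sub (add (add (add (add (add (add C x16110) x16114) x16094) x16106) x16046) x16082) x16226) x16442) x16766) x15632) x13202) x19034) x11744) x2994) x9556)
  (sub (sub (add (add (sub (sub (sub (add (add (add (add (sub C x16122) x16132) x16144) x16156) x16192) x16066) x16282) x15634) x13204) x19036) x11746) x9560)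
  (sub (sub (add (add (sub (sub (sub (add (add (sub (sub C x16120) x16128) x16158) x16194) x16068) x16284) x15636) x13206) x19038) x11748) x3002)
  (sub (sub (add (add (sub (sub (sub (sub (sub (add (add C x16132) x16136) x16122) x16146) x16074) x16290) x15642) x13212) x19044) x11754) x3008)
  (sub (sub (add (add (sub (sub (sub (sub (add (add (add (add C x16128) x16136) x16120) x16144) x16150) x16078) x16294) x15646) x13216) x19048) x11758) x9572)
  (add (add (sub (add (add (sub (sub (sub (sub (sub (add (add C x16128) x16132) x16142) x16154) x16082) x16298) x15650) x13220) x19052) x11762) x3012) x9574)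
  (add (add (sub (add (add (sub (sub (sub (sub (sub (sub C x16144) x16136) x16178) x16088) x16304) x15656) x13226) x19058) x11768) x3018) x9580)
  (sub (sub (add (add (sub (sub (sub (sub (add (add (sub C x16142) x16120) x16132) x16180) x16090) x16306) x15658) x13228) x19060) x11770) x9584)
  (sub (sub (add (add (sub (sub (add (add (sub (add (add (add (add C x16150) x16154) x16158) x16170) x16128) x16038) x16254) x16308) x15660) x13230) x19062) x11772) x3026)
  (sub (sub (add (add (sub (sub (add (add (sub (sub (add (add C x16146) x16154) x16156) x16132) x16042) x16258) x16312) x15664) x13234) x19066) x11776) x9590)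
  (add (add (sub (add (add (sub (sub (add (add (sub (sub (add (add C x16146) x16150) x16166) x16136) x16046) x16262) x16316) x15668) x13238) x19070) x11780) x3030) x9592)
  (sub (sub (add (add (sub (sub (add (add (add (add (sub (sub C x16158) x16150) x16120) x16192) x16048) x16264) x16318) x15670) x13240) x19072) x11782) x9596)
  (sub (sub (add (add (sub (sub (add (add (add (add (add (add (sub C x16156) x16146) x16170) x16122) x16194) x16050) x16266) x16320) x15672) x13242) x19074) x11784) x3038)
  (add (add (sub (add (add (sub (sub (add (add (sub (sub (sub C x16170) x16154) x16184) x16058) x16274) x16328) x15680) x13250) x19082) x11792) x3042) x9604)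
  (sub (sub (add (add (sub (sub (add (add (sub (add (add (sub C x16166) x16146) x16158) x16188) x16062) x16278) x16332) x15684) x13254) x19086) x11796) x3050)
  (add (add (sub (add (add (sub (sub (sub (sub (sub (sub C x16180) x16184) x16142) x16232) x16340) x15692) x13262) x19094) x11804) x3054) x9616)
  (sub (sub (add (add (sub (sub (sub (sub (sub (sub C x16178) x16192) x16144) x16234) x16342) x15694) x13264) x19096) x11806) x9620)
  (add (add (sub (add (add (sub (sub (sub (sub (sub (sub C x16188) x16178) x16166) x16238) x16346) x15698) x13268) x19100) x11810) x3060) x9622)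
  (sub (sub (add (add (sub (sub (sub (sub (sub (sub C x16184) x16194) x16170) x16242) x16350) x15702) x13272) x19104) x11814) x3068)
  (sub (sub (add (add (sub (sub (sub (add (add (sub (sub C x16194) x16180) x16120) x16156) x16246) x16354) x15706) x13276) x19108) x11818) x9632)
  (sub (sub (add (add (sub (sub (sub (add (add (sub (sub C x16192) x16188) x16122) x16158) x16248) x16356) x15708) x13278) x19110) x11820) x3074)
  (add (add (sub (add (add (sub (sub (sub (add (add (add (add (sub C x16206) x16214) x16226) x16238) x16274) x16094) x16526) x15716) x13286) x19118) x11828) x3078) x9640)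
  (sub (sub (add (add (sub (sub (sub (add (add (sub (sub C x16202) x16218) x16242) x16278) x16098) x16530) x15720) x13290) x19122) x11832) x3086)
  (add (add (sub (add (add (sub (sub (sub (sub (add (add (sub C x16216) x16202) x16226) x16232) x16106) x16538) x15728) x13298) x19130) x11840) x3090) x9652)
  (sub (sub (add (add (sub (sub (sub (sub (sub (sub C x16214) x16222) x16234) x16108) x16540) x15730) x13300) x19132) x11842) x9656)
  (sub (sub (add (add (sub (sub (sub (sub (sub (add (add C x16222) x16226) x16206) x16254) x16110) x16542) x15732) x13302) x19134) x11844) x3098)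
  (sub (sub (add (add (sub (sub (sub (sub (sub (add (add C x16218) x16226) x16216) x16258) x16114) x16546) x15736) x13306) x19138) x11848) x9662)
  (add (add (sub (add (add (sub (sub (sub (sub (add (add (add (add C x16218) x16222) x16202) x16214) x16262) x16118) x16550) x15740) x13310) x19142) x11852) x3102) x9664)
  (add (add (sub (add (add (sub (sub (sub (sub (sub (sub C x16234) x16238) x16214) x16178) x16556) x15746) x13316) x19148) x11858) x3108) x9670)
  (sub (sub (add (add (sub (sub (sub (sub (sub (sub C x16232) x16246) x16216) x16180) x16558) x15748) x13318) x19150) x11860) x9674)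
  (add (add (sub (add (add (sub (sub (sub (add (add (sub (sub C x16242) x16232) x16202) x16274) x16184) x16562) x15752) x13322) x19154) x11864) x3114) x9676)
  (sub (sub (add (add (sub (sub (sub (add (add (sub (sub C x16238) x16248) x16206) x16278) x16188) x16566) x15756) x13326) x19158) x11868) x3122)
  (sub (sub (add (add (sub (sub (sub (sub (sub (sub C x16248) x16234) x16264) x16192) x16570) x15760) x13330) x19162) x11872) x9686)
  (sub (sub (add (add (sub (sub (sub (sub (sub (sub C x16246) x16242) x16266) x16194) x16572) x15762) x13332) x19164) x11874) x3128)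
  (sub (sub (add (add (sub (sub (add (add (sub (add (add (add (add C x16258) x16262) x16266) x16278) x16218) x16038) x16146) x16578) x15768) x13338) x19170) x11880) x3134)
  (sub (sub (add (add (sub (sub (add (add (sub (sub (add (add C x16254) x16262) x16264) x16222) x16042) x16150) x16582) x15772) x13342) x19174) x11884) x9698)
  (add (add (sub (add (add (sub (sub (add (add (sub (sub (add (add C x16254) x16258) x16274) x16226) x16046) x16154) x16586) x15776) x13346) x19178) x11888) x3138) x9700)
  (sub (sub (add (add (sub (sub (add (add (sub (sub (sub C x16266) x16258) x16246) x16048) x16156) x16588) x15778) x13348) x19180) x11890) x9704)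
  (sub (sub (add (add (sub (sub (add (add (sub (add (add (sub C x16264) x16254) x16278) x16248) x16050) x16158) x16590) x15780) x13350) x19182) x11892) x3146)
  (add (add (sub (add (add (sub (sub (add (add (add (add (sub (sub C x16278) x16262) x16202) x16238) x16058) x16166) x16598) x15788) x13358) x19190) x11900) x3150) x9712)
  (sub (sub (add (add (sub (sub (add (add (add (add (add (add (sub C x16274) x16254) x16266) x16206) x16242) x16062) x16170) x16602) x15792) x13362) x19194) x11904) x3158)
  (sub (sub (add (add (add (add (sub (add (add (add (add (add (add (sub C x16284) x16294) x16306) x16318) x16354) x16390) x16498) x16120) x15310) x17254) x13366) x19198) x11908) x9722)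
  (sub (sub (add (add (add (add (sub (add (add (add (add (sub (sub C x16282) x16290) x16320) x16356) x16392) x16500) x16122) x15312) x17256) x13368) x19200) x11910) x3164)
  (sub (sub (add (add (add (add (sub (add (add (sub (sub (add (add C x16294) x16298) x16284) x16308) x16398) x16506) x16128) x15318) x17262) x13374) x19206) x11916) x3170)
  (sub (sub (add (add (add (add (sub (add (add (sub (add (add (add (add C x16290) x16298) x16282) x16306) x16312) x16402) x16510) x16132) x15322) x17266) x13378) x19210) x11920) x9734)
  (add (add (sub (add (add (add (add (sub (add (add (sub (sub (add (add C x16290) x16294) x16304) x16316) x16406) x16514) x16136) x15326) x17270) x13382) x19214) x11924) x3174) x9736)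
  (add (add (sub (add (add (add (add (sub (add (add (sub (sub (sub C x16306) x16298) x16340) x16412) x16520) x16142) x15332) x17276) x13388) x19220) x11930) x3180) x9742)
  (sub (sub (add (add (add (add (sub (add (add (sub (add (add (sub C x16304) x16282) x16294) x16342) x16414) x16522) x16144) x15334) x17278) x13390) x19222) x11932) x9746)
  (sub (sub (add (add (add (add (sub (sub (sub (add (add (add (add C x16312) x16316) x16320) x16332) x16290) x16362) x16146) x15336) x17280) x13392) x19224) x11934) x3188)
  (sub (sub (add (add (add (add (sub (sub (sub (sub (add (add C x16308) x16316) x16318) x16294) x16366) x16150) x15340) x17284) x13396) x19228) x11938) x9752)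
  (add (add (sub (add (add (add (add (sub (sub (sub (sub (add (add C x16308) x16312) x16328) x16298) x16370) x16154) x15344) x17288) x13400) x19232) x11942) x3192) x9754)
  (sub (sub (add (add (add (add (sub (sub (add (add (sub (sub C x16320) x16312) x16282) x16354) x16372) x16156) x15346) x17290) x13402) x19234) x11944) x9758)
  (sub (sub (add (add (add (add (sub (sub (add (add (add (add (sub C x16318) x16308) x16332) x16284) x16356) x16374) x16158) x15348) x17292) x13404) x19236) x11946) x3200)
  (add (add (sub (add (add (add (add (sub (sub (sub (sub (sub C x16332) x16316) x16346) x16382) x16166) x15356) x17300) x13412) x19244) x11954) x3204) x9766)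
  (sub (sub (add (add (add (add (sub (sub (sub (add (add (sub C x16328) x16308) x16320) x16350) x16386) x16170) x15360) x17304) x13416) x19248) x11958) x3212)
  (add (add (sub (add (add (add (add (sub (sub (sub (sub (sub C x16342) x16346) x16304) x16448) x16178) x15368) x17312) x13424) x19256) x11966) x3216) x9778)
  (sub (sub (add (add (add (add (sub (sub (sub (sub (sub C x16340) x16354) x16306) x16450) x16180) x15370) x17314) x13426) x19258) x11968) x9782)
  (add (add (sub (add (add (add (add (sub (sub (sub (sub (sub C x16350) x16340) x16328) x16454) x16184) x15374) x17318) x13430) x19262) x11972) x3222) x9784)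
  (sub (sub (add (add (add (add (sub (sub (sub (sub (sub C x16346) x16356) x16332) x16458) x16188) x15378) x17322) x13434) x19266) x11976) x3230)
  (sub (sub (add (add (add (add (sub (sub (add (add (sub (sub C x16356) x16342) x16282) x16318) x16462) x16192) x15382) x17326) x13438) x19270) x11980) x9794)
  (sub (sub (add (add (add (add (sub (sub (add (add (sub (sub C x16354) x16350) x16284) x16320) x16464) x16194) x15384) x17328) x13440) x19272) x11982) x3236)
  (sub (sub (add (add (add (add (add (add (sub (add (add (add (add (add (add C x16366) x16370) x16374) x16386) x16398) x16434) x16308) x16038) x16686) x15390) x17334) x13446) x19278) x11988) x3242)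
  (sub (sub (add (add (add (add (add (add (sub (add (add (sub (add (add C x16362) x16370) x16372) x16402) x16438) x16312) x16042) x16690) x15394) x17338) x13450) x19282) x11992) x9806)
  (add (add (sub (add (add (add (add (add (add (sub (add (add (sub (add (add C x16362) x16366) x16382) x16406) x16442) x16316) x16046) x16694) x15398) x17342) x13454) x19286) x11996) x3246) x9808)
  (sub (sub (add (add (add (add (add (add (sub (sub (sub (sub C x16374) x16366) x16390) x16318) x16048) x16696) x15400) x17344) x13456) x19288) x11998) x9812)
  (sub (sub (add (add (add (add (add (add (sub (sub (add (add (sub C x16372) x16362) x16386) x16392) x16320) x16050) x16698) x15402) x17346) x13458) x19290) x12000) x3254)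
  (add (add (sub (add (add (add (add (add (add (sub (sub (sub (sub C x16386) x16370) x16418) x16328) x16058) x16706) x15410) x17354) x13466) x19298) x12008) x3258) x9820)
  (sub (sub (add (add (add (add (add (add (sub (sub (add (add (sub C x16382) x16362) x16374) x16422) x16332) x16062) x16710) x15414) x17358) x13470) x19302) x12012) x3266)
  (sub (sub (add (add (add (add (add (add (add (add (sub (add (add (sub C x16392) x16402) x16414) x16372) x16282) x16498) x16066) x16714) x15418) x17362) x13474) x19306) x12016) x9830)
  (sub (sub (add (add (add (add (add (add (add (add (sub (sub (sub C x16390) x16398) x16374) x16284) x16500) x16068) x16716) x15420) x17364) x13476) x19308) x12018) x3272)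
  (sub (sub (add (add (add (add (add (add (add (add (add (add (sub (add (add C x16402) x16406) x16392) x16362) x16434) x16290) x16506) x16074) x16722) x15426) x17370) x13482) x19314) x12024) x3278)
  (sub (sub (add (add (add (add (add (add (add (add (add (add (add (add (add (add C x16398) x16406) x16390) x16414) x16366) x16438) x16294) x16510) x16078) x16726) x15430) x17374) x13486) x19318) x12028) x9842)
  (add (add (sub (add (add (add (add (add (add (add (add (add (add (sub (add (add C x16398) x16402) x16412) x16370) x16442) x16298) x16514) x16082) x16730) x15434) x17378) x13490) x19322) x12032) x3282) x9844)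
  (add (add (sub (add (add (add (add (add (add (add (add (sub (sub (sub C x16414) x16406) x16430) x16304) x16520) x16088) x16736) x15440) x17384) x13496) x19328) x12038) x3288) x9850)
  (sub (sub (add (add (add (add (add (add (add (add (sub (add (add (sub C x16412) x16390) x16402) x16432) x16306) x16522) x16090) x16738) x15442) x17386) x13498) x19330) x12040) x9854)
  (add (add (sub (add (add (add (add (add (add (sub (sub (add (add (sub C x16422) x16430) x16442) x16382) x16472) x16094) x16742) x15446) x17390) x13502) x19334) x12044) x3294) x9856)
  (sub (sub (add (add (add (add (add (add (sub (sub (sub (sub C x16418) x16434) x16386) x16476) x16098) x16746) x15450) x17394) x13506) x19338) x12048) x3302)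
  (add (add (sub (add (add (add (add (add (add (sub (sub (add (add (sub C x16432) x16418) x16442) x16412) x16484) x16106) x16754) x15458) x17402) x13514) x19346) x12056) x3306) x9868)
  (sub (sub (add (add (add (add (add (add (sub (sub (sub (sub C x16430) x16438) x16414) x16486) x16108) x16756) x15460) x17404) x13516) x19348) x12058) x9872)
  (sub (sub (add (add (add (add (add (add (sub (add (add (sub (add (add C x16438) x16442) x16422) x16362) x16398) x16488) x16110) x16758) x15462) x17406) x13518) x19350) x12060) x3314)
  (sub (sub (add (add (add (add (add (add (sub (add (add (sub (add (add C x16434) x16442) x16432) x16366) x16402) x16492) x16114) x16762) x15466) x17410) x13522) x19354) x12064) x9878)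
  (add (add (sub (add (add (add (add (add (add (sub (add (add (add (add (add (add C x16434) x16438) x16418) x16430) x16370) x16406) x16496) x16118) x16766) x15470) x17414) x13526) x19358) x12068) x3318) x9880)
  (add (add (sub (add (add (add (add (sub (sub (add (add (sub (sub C x16450) x16454) x16484) x16520) x16340) x16610) x15476) x17420) x13532) x19364) x12074) x3324) x9886)
  (sub (sub (add (add (add (add (sub (sub (add (add (sub (sub C x16448) x16462) x16486) x16522) x16342) x16612) x15478) x17422) x13534) x19366) x12076) x9890)
  (add (add (sub (add (add (add (add (sub (sub (sub (sub (sub C x16458) x16448) x16472) x16346) x16616) x15482) x17426) x13538) x19370) x12080) x3330) x9892)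
  (sub (sub (add (add (add (add (sub (sub (sub (sub (sub C x16454) x16464) x16476) x16350) x16620) x15486) x17430) x13542) x19374) x12084) x3338)
  (sub (sub (add (add (add (add (sub (sub (sub (sub (sub C x16464) x16450) x16498) x16354) x16624) x15490) x17434) x13546) x19378) x12088) x9902)
  (sub (sub (add (add (add (add (sub (sub (sub (sub (sub C x16462) x16458) x16500) x16356) x16626) x15492) x17436) x13548) x19380) x12090) x3344)
  (add (add (sub (add (add (add (add (sub (sub (sub (add (add (sub C x16476) x16484) x16496) x16454) x16418) x16634) x15500) x17444) x13556) x19388) x12098) x3348) x9910)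
  (sub (sub (add (add (add (add (sub (sub (sub (sub (sub C x16472) x16488) x16458) x16422) x16638) x15504) x17448) x13560) x19392) x12102) x3356)
  (add (add (sub (add (add (add (add (sub (sub (add (add (add (add (sub C x16486) x16472) x16496) x16448) x16520) x16430) x16646) x15512) x17456) x13568) x19400) x12110) x3360) x9922)
  (sub (sub (add (add (add (add (sub (sub (add (add (sub (sub C x16484) x16492) x16450) x16522) x16432) x16648) x15514) x17458) x13570) x19402) x12112) x9926)
  (sub (sub (add (add (add (add (sub (sub (sub (sub (add (add C x16492) x16496) x16476) x16506) x16434) x16650) x15516) x17460) x13572) x19404) x12114) x3368)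
  (sub (sub (add (add (add (add (sub (sub (sub (sub (add (add C x16488) x16496) x16486) x16510) x16438) x16654) x15520) x17464) x13576) x19408) x12118) x9932)
  (add (add (sub (add (add (add (add (sub (sub (sub (add (add (add (add C x16488) x16492) x16472) x16484) x16514) x16442) x16658) x15524) x17468) x13580) x19412) x12122) x3372) x9934)
  (sub (sub (add (add (add (add (sub (add (add (sub (add (add (sub C x16500) x16510) x16522) x16462) x16282) x16390) x16660) x15526) x17470) x13582) x19414) x12124) x9938)
  (sub (sub (add (add (add (add (sub (add (add (sub (sub (sub C x16498) x16506) x16464) x16284) x16392) x16662) x15528) x17472) x13584) x19416) x12126) x3380)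
  (sub (sub (add (add (add (add (sub (add (add (sub (sub (add (add C x16510) x16514) x16500) x16488) x16290) x16398) x16668) x15534) x17478) x13590) x19422) x12132) x3386)
  (sub (sub (add (add (add (add (sub (add (add (sub (add (add (add (add C x16506) x16514) x16498) x16522) x16492) x16294) x16402) x16672) x15538) x17482) x13594) x19426) x12136) x9950)
  (add (add (sub (add (add (add (add (sub (add (add (sub (sub (add (add C x16506) x16510) x16520) x16496) x16298) x16406) x16676) x15542) x17486) x13598) x19430) x12140) x3390) x9952)
  (add (add (sub (add (add (add (add (sub (add (add (add (add (sub (sub C x16522) x16514) x16448) x16484) x16304) x16412) x16682) x15548) x17492) x13604) x19436) x12146) x3396) x9958)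
  (sub (sub (add (add (add (add (sub (add (add (add (add (add (add (sub C x16520) x16498) x16510) x16450) x16486) x16306) x16414) x16684) x15550) x17494) x13606) x19438) x12148) x9962)
  (add (add (sub (add (add (sub (sub (add (add (add (add (add (add (sub C x16530) x16538) x16550) x16562) x16598) x16634) x16742) x16202) x17012) x13610) x19442) x12152) x3402) x9964)
  (sub (sub (add (add (sub (sub (add (add (add (add (sub (sub C x16526) x16542) x16566) x16602) x16638) x16746) x16206) x17016) x13614) x19446) x12156) x3410)
  (add (add (sub (add (add (sub (sub (add (add (sub (add (add (sub C x16540) x16526) x16550) x16556) x16646) x16754) x16214) x17024) x13622) x19454) x12164) x3414) x9976)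
  (sub (sub (add (add (sub (sub (add (add (sub (sub (sub C x16538) x16546) x16558) x16648) x16756) x16216) x17026) x13624) x19456) x12166) x9980)
  (sub (sub (add (add (sub (sub (add (add (sub (sub (add (add C x16546) x16550) x16530) x16578) x16650) x16758) x16218) x17028) x13626) x19458) x12168) x3422)
  (sub (sub (add (add (sub (sub (add (add (sub (sub (add (add C x16542) x16550) x16540) x16582) x16654) x16762) x16222) x17032) x13630) x19462) x12172) x9986)
  (add (add (sub (add (add (sub (sub (add (add (sub (add (add (add (add C x16542) x16546) x16526) x16538) x16586) x16658) x16766) x16226) x17036) x13634) x19466) x12176) x3426) x9988)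
  (add (add (sub (add (add (sub (sub (sub (sub (sub (sub C x16558) x16562) x16538) x16610) x16232) x17042) x13640) x19472) x12182) x3432) x9994)
  (sub (sub (add (add (sub (sub (sub (sub (sub (sub C x16556) x16570) x16540) x16612) x16234) x17044) x13642) x19474) x12184) x9998)
  (add (add (sub (add (add (sub (sub (sub (add (add (sub (sub C x16566) x16556) x16526) x16598) x16616) x16238) x17048) x13646) x19478) x12188) x3438) x10000)
  (sub (sub (add (add (sub (sub (sub (add (add (sub (sub C x16562) x16572) x16530) x16602) x16620) x16242) x17052) x13650) x19482) x12192) x3446)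
  (sub (sub (add (add (sub (sub (sub (sub (sub (sub C x16572) x16558) x16588) x16624) x16246) x17056) x13654) x19486) x12196) x10010)
  (sub (sub (add (add (sub (sub (sub (sub (sub (sub C x16570) x16566) x16590) x16626) x16248) x17058) x13656) x19488) x12198) x3452)
  (sub (sub (add (add (sub (sub (sub (sub (add (add (add (add C x16582) x16586) x16590) x16602) x16542) x16686) x16254) x17064) x13662) x19494) x12204) x3458)
  (sub (sub (add (add (sub (sub (sub (sub (sub (add (add C x16578) x16586) x16588) x16546) x16690) x16258) x17068) x13666) x19498) x12208) x10022)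
  (add (add (sub (add (add (sub (sub (sub (sub (sub (add (add C x16578) x16582) x16598) x16550) x16694) x16262) x17072) x13670) x19502) x12212) x3462) x10024)
  (sub (sub (add (add (sub (sub (sub (sub (sub (sub C x16590) x16582) x16570) x16696) x16264) x17074) x13672) x19504) x12214) x10028)
  (sub (sub (add (add (sub (sub (sub (sub (add (add (sub C x16588) x16578) x16602) x16572) x16698) x16266) x17076) x13674) x19506) x12216) x3470)
  (add (add (sub (add (add (sub (sub (sub (add (add (sub (sub C x16602) x16586) x16526) x16562) x16706) x16274) x17084) x13682) x19514) x12224) x3474) x10036)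
  (sub (sub (add (add (sub (sub (sub (add (add (add (add (sub C x16598) x16578) x16590) x16530) x16566) x16710) x16278) x17088) x13686) x19518) x12228) x3482)
  (add (add (sub (add (add (sub (sub (sub (add (add (sub (sub C x16612) x16616) x16646) x16682) x16556) x16448) x17096) x13694) x19526) x12236) x3486) x10048)
  (sub (sub (add (add (sub (sub (sub (add (add (sub (sub C x16610) x16624) x16648) x16684) x16558) x16450) x17098) x13696) x19528) x12238) x10052)
  (add (add (sub (add (add (sub (sub (sub (sub (sub (sub C x16620) x16610) x16634) x16562) x16454) x17102) x13700) x19532) x12242) x3492) x10054)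
  (sub (sub (add (add (sub (sub (sub (sub (sub (sub C x16616) x16626) x16638) x16566) x16458) x17106) x13704) x19536) x12246) x3500)
  (sub (sub (add (add (sub (sub (sub (sub (sub (sub C x16626) x16612) x16660) x16570) x16462) x17110) x13708) x19540) x12250) x10064)
  (sub (sub (add (add (sub (sub (sub (sub (sub (sub C x16624) x16620) x16662) x16572) x16464) x17112) x13710) x19542) x12252) x3506)
  (add (add (sub (add (add (sub (sub (add (add (sub (add (add (sub C x16638) x16646) x16658) x16616) x16526) x16742) x16472) x17120) x13718) x19550) x12260) x3510) x10072)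
  (sub (sub (add (add (sub (sub (add (add (sub (sub (sub C x16634) x16650) x16620) x16530) x16746) x16476) x17124) x13722) x19554) x12264) x3518)
  (add (add (sub (add (add (sub (sub (add (add (add (add (add (add (sub C x16648) x16634) x16658) x16610) x16682) x16538) x16754) x16484) x17132) x13730) x19562) x12272) x3522) x10084)
  (sub (sub (add (add (sub (sub (add (add (add (add (sub (sub C x16646) x16654) x16612) x16684) x16540) x16756) x16486) x17134) x13732) x19564) x12274) x10088)
  (sub (sub (add (add (sub (sub (add (add (sub (sub (add (add C x16654) x16658) x16638) x16668) x16542) x16758) x16488) x17136) x13734) x19566) x12276) x3530)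
  (sub (sub (add (add (sub (sub (add (add (sub (sub (add (add C x16650) x16658) x16648) x16672) x16546) x16762) x16492) x17140) x13738) x19570) x12280) x10094)
  (add (add (sub (add (add (sub (sub (add (add (sub (add (add (add (add C x16650) x16654) x16634) x16646) x16676) x16550) x16766) x16496) x17144) x13742) x19574) x12284) x3534) x10096)
  (sub (sub (add (add (sub (sub (sub (sub (add (add (sub C x16662) x16672) x16684) x16624) x16714) x16498) x17146) x13744) x19576) x12286) x10100)
  (sub (sub (add (add (sub (sub (sub (sub (sub (sub C x16660) x16668) x16626) x16716) x16500) x17148) x13746) x19578) x12288) x3542)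
  (sub (sub (add (add (sub (sub (sub (sub (sub (add (add C x16672) x16676) x16662) x16650) x16722) x16506) x17154) x13752) x19584) x12294) x3548)
  (sub (sub (add (add (sub (sub (sub (sub (add (add (add (add C x16668) x16676) x16660) x16684) x16654) x16726) x16510) x17158) x13756) x19588) x12298) x10112)
  (add (add (sub (add (add (sub (sub (sub (sub (sub (add (add C x16668) x16672) x16682) x16658) x16730) x16514) x17162) x13760) x19592) x12302) x3552) x10114)
  (add (add (sub (add (add (sub (sub (sub (add (add (sub (sub C x16684) x16676) x16610) x16646) x16736) x16520) x17168) x13766) x19598) x12308) x3558) x10120)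
  (sub (sub (add (add (sub (sub (sub (add (add (add (add (sub C x16682) x16660) x16672) x16612) x16648) x16738) x16522) x17170) x13768) x19600) x12310) x10124)
  (sub (sub (add (add (sub (add (add (sub (add (add (add (add (add (add C x16690) x16694) x16698) x16710) x16722) x16758) x16578) x16038) x16362) x17172) x13770) x19602) x12312) x3566)
  (sub (sub (add (add (sub (add (add (sub (add (add (sub (add (add C x16686) x16694) x16696) x16726) x16762) x16582) x16042) x16366) x17176) x13774) x19606) x12316) x10130)
  (add (add (sub (add (add (sub (add (add (sub (add (add (sub (add (add C x16686) x16690) x16706) x16730) x16766) x16586) x16046) x16370) x17180) x13778) x19610) x12320) x3570) x10132)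
  (sub (sub (add (add (sub (add (add (sub (sub (sub (sub C x16698) x16690) x16714) x16588) x16048) x16372) x17182) x13780) x19612) x12322) x10136)
  (sub (sub (add (add (sub (add (add (sub (sub (add (add (sub C x16696) x16686) x16710) x16716) x16590) x16050) x16374) x17184) x13782) x19614) x12324) x3578)
  (add (add (sub (add (add (sub (add (add (sub (sub (sub (sub C x16710) x16694) x16742) x16598) x16058) x16382) x17192) x13790) x19622) x12332) x3582) x10144)
  (sub (sub (add (add (sub (add (add (sub (sub (add (add (sub C x16706) x16686) x16698) x16746) x16602) x16062) x16386) x17196) x13794) x19626) x12336) x3590)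
  (sub (sub (add (add (sub (add (add (sub (sub (add (add (sub C x16716) x16726) x16738) x16696) x16660) x16066) x16390) x17200) x13798) x19630) x12340) x10154)
  (sub (sub (add (add (sub (add (add (sub (sub (sub (sub C x16714) x16722) x16698) x16662) x16068) x16392) x17202) x13800) x19632) x12342) x3596)
  (sub (sub (add (add (sub (add (add (sub (add (add (sub (add (add C x16726) x16730) x16716) x16686) x16758) x16668) x16074) x16398) x17208) x13806) x19638) x12348) x3602)
  (sub (sub (add (add (sub (add (add (sub (add (add (add (add (add (add C x16722) x16730) x16714) x16738) x16690) x16762) x16672) x16078) x16402) x17212) x13810) x19642) x12352) x10166)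
  (add (add (sub (add (add (sub (add (add (sub (add (add (sub (add (add C x16722) x16726) x16736) x16694) x16766) x16676) x16082) x16406) x17216) x13814) x19646) x12356) x3606) x10168)
  (add (add (sub (add (add (sub (add (add (sub (sub (sub (sub C x16738) x16730) x16754) x16682) x16088) x16412) x17222) x13820) x19652) x12362) x3612) x10174)
  (sub (sub (add (add (sub (add (add (sub (sub (add (add (sub C x16736) x16714) x16726) x16756) x16684) x16090) x16414) x17224) x13822) x19654) x12364) x10178)
  (add (add (sub (add (add (sub (add (add (add (add (sub (add (add (sub C x16746) x16754) x16766) x16706) x16526) x16634) x16094) x16418) x17228) x13826) x19658) x12368) x3618) x10180)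
  (sub (sub (add (add (sub (add (add (add (add (sub (sub (sub C x16742) x16758) x16710) x16530) x16638) x16098) x16422) x17232) x13830) x19662) x12372) x3626)
  (add (add (sub (add (add (sub (add (add (add (add (sub (add (add (sub C x16756) x16742) x16766) x16736) x16538) x16646) x16106) x16430) x17240) x13838) x19670) x12380) x3630) x10192)
  (sub (sub (add (add (sub (add (add (add (add (sub (sub (sub C x16754) x16762) x16738) x16540) x16648) x16108) x16432) x17242) x13840) x19672) x12382) x10196)
  (sub (sub (add (add (sub (add (add (add (add (add (add (sub (add (add C x16762) x16766) x16746) x16686) x16722) x16542) x16650) x16110) x16434) x17244) x13842) x19674) x12384) x3638)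
  (sub (sub (add (add (sub (add (add (add (add (add (add (sub (add (add C x16758) x16766) x16756) x16690) x16726) x16546) x16654) x16114) x16438) x17248) x13846) x19678) x12388) x10202)
  (add (add (sub (add (add (sub (add (add (add (add (add (add (add (add (add (add C x16758) x16762) x16742) x16754) x16694) x16730) x16550) x16658) x16118) x16442) x17252) x13850) x19682) x12392) x3642) x10204)
  (add (add (sub (sub (sub (add (add (add (add (add (add (sub (sub C x16774) x16778) x16808) x16844) x16880) x16988) x17096) x17420) x15800) x18230) x12398) x3648) x10210)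
  (sub (sub (sub (sub (add (add (add (add (add (add (sub (sub C x16772) x16786) x16810) x16846) x16882) x16990) x17098) x17422) x15802) x18232) x12400) x10214)
  (add (add (sub (sub (sub (add (add (add (add (sub (sub (sub C x16782) x16772) x16796) x16886) x16994) x17102) x17426) x15806) x18236) x12404) x3654) x10216)
  (sub (sub (sub (sub (add (add (add (add (sub (sub (sub C x16778) x16788) x16800) x16890) x16998) x17106) x17430) x15810) x18240) x12408) x3662)
  (sub (sub (sub (sub (add (add (add (add (sub (sub (sub C x16788) x16774) x16822) x16894) x17002) x17110) x17434) x15814) x18244) x12412) x10226)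
  (sub (sub (sub (sub (add (add (add (add (sub (sub (sub C x16786) x16782) x16824) x16896) x17004) x17112) x17436) x15816) x18246) x12414) x3668)
  (add (add (sub (sub (sub (add (add (sub (sub (add (add (sub C x16800) x16808) x16820) x16778) x16850) x17120) x17444) x15824) x18254) x12422) x3672) x10234)
  (sub (sub (sub (sub (add (add (sub (sub (sub (sub C x16796) x16812) x16782) x16854) x17124) x17448) x15828) x18258) x12426) x3680)
  (add (add (sub (sub (sub (add (add (sub (add (add (add (add (sub C x16810) x16796) x16820) x16772) x16844) x16862) x17132) x17456) x15836) x18266) x12434) x3684) x10246)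
  (sub (sub (sub (sub (add (add (sub (add (add (sub (sub C x16808) x16816) x16774) x16846) x16864) x17134) x17458) x15838) x18268) x12436) x10250)
  (sub (sub (sub (sub (add (add (sub (sub (sub (add (add C x16816) x16820) x16800) x16830) x16866) x17136) x17460) x15840) x18270) x12438) x3692)
  (sub (sub (sub (sub (add (add (sub (sub (sub (add (add C x16812) x16820) x16810) x16834) x16870) x17140) x17464) x15844) x18274) x12442) x10256)
  (add (add (sub (sub (sub (add (add (sub (sub (add (add (add (add C x16812) x16816) x16796) x16808) x16838) x16874) x17144) x17468) x15848) x18278) x12446) x3696) x10258)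
  (sub (sub (sub (sub (add (add (sub (sub (add (add (sub C x16824) x16834) x16846) x16786) x16930) x17146) x17470) x15850) x18280) x12448) x10262)
  (sub (sub (sub (sub (add (add (sub (sub (sub (sub C x16822) x16830) x16788) x16932) x17148) x17472) x15852) x18282) x12450) x3704)
  (sub (sub (sub (sub (add (add (sub (sub (sub (add (add C x16834) x16838) x16824) x16812) x16938) x17154) x17478) x15858) x18288) x12456) x3710)
  (sub (sub (sub (sub (add (add (sub (sub (add (add (add (add C x16830) x16838) x16822) x16846) x16816) x16942) x17158) x17482) x15862) x18292) x12460) x10274)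
  (add (add (sub (sub (sub (add (add (sub (sub (sub (add (add C x16830) x16834) x16844) x16820) x16946) x17162) x17486) x15866) x18296) x12464) x3714) x10276)
  (add (add (sub (sub (sub (add (add (sub (add (add (sub (sub C x16846) x16838) x16772) x16808) x16952) x17168) x17492) x15872) x18302) x12470) x3720) x10282)
  (sub (sub (sub (sub (add (add (sub (add (add (add (add (sub C x16844) x16822) x16834) x16774) x16810) x16954) x17170) x17494) x15874) x18304) x12472) x10286)
  (add (add (sub (sub (sub (sub (sub (add (add (add (add (sub C x16854) x16862) x16874) x16886) x16922) x16796) x17012) x15878) x18308) x12476) x3726) x10288)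
  (sub (sub (sub (sub (sub (sub (add (add (sub (sub C x16850) x16866) x16890) x16926) x16800) x17016) x15882) x18312) x12480) x3734)
  (add (add (sub (sub (sub (sub (sub (sub (add (add (sub C x16864) x16850) x16874) x16880) x16808) x17024) x15890) x18320) x12488) x3738) x10300)
  (sub (sub (sub (sub (sub (sub (sub (sub (sub C x16862) x16870) x16882) x16810) x17026) x15892) x18322) x12490) x10304)
  (sub (sub (sub (sub (sub (sub (sub (sub (add (add C x16870) x16874) x16854) x16902) x16812) x17028) x15894) x18324) x12492) x3746)
  (sub (sub (sub (sub (sub (sub (sub (sub (add (add C x16866) x16874) x16864) x16906) x16816) x17032) x15898) x18328) x12496) x10310)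
  (add (add (sub (sub (sub (sub (sub (sub (add (add (add (add C x16866) x16870) x16850) x16862) x16910) x16820) x17036) x15902) x18332) x12500) x3750) x10312)
  (add (add (sub (sub (sub (sub (add (add (sub (sub (sub C x16882) x16886) x16862) x16772) x16988) x17042) x15908) x18338) x12506) x3756) x10318)
  (sub (sub (sub (sub (sub (add (add (sub (sub (sub C x16880) x16894) x16864) x16774) x16990) x17044) x15910) x18340) x12508) x10322)
  (add (add (sub (sub (sub (sub (add (add (add (add (sub (sub C x16890) x16880) x16850) x16922) x16778) x16994) x17048) x15914) x18344) x12512) x3762) x10324)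
  (sub (sub (sub (sub (sub (add (add (add (add (sub (sub C x16886) x16896) x16854) x16926) x16782) x16998) x17052) x15918) x18348) x12516) x3770)
  (sub (sub (sub (sub (sub (add (add (sub (sub (sub C x16896) x16882) x16912) x16786) x17002) x17056) x15922) x18352) x12520) x10334)
  (sub (sub (sub (sub (sub (add (add (sub (sub (sub C x16894) x16890) x16914) x16788) x17004) x17058) x15924) x18354) x12522) x3776)
  (sub (sub (sub (sub (sub (sub (sub (add (add (add (add C x16906) x16910) x16914) x16926) x16866) x16956) x17064) x15930) x18360) x12528) x3782)
  (sub (sub (sub (sub (sub (sub (sub (sub (add (add C x16902) x16910) x16912) x16870) x16960) x17068) x15934) x18364) x12532) x10346)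
  (add (add (sub (sub (sub (sub (sub (sub (sub (add (add C x16902) x16906) x16922) x16874) x16964) x17072) x15938) x18368) x12536) x3786) x10348)
  (sub (sub (sub (sub (sub (sub (sub (sub (sub C x16914) x16906) x16894) x16966) x17074) x15940) x18370) x12538) x10352)
  (sub (sub (sub (sub (sub (sub (sub (add (add (sub C x16912) x16902) x16926) x16896) x16968) x17076) x15942) x18372) x12540) x3794)
  (add (add (sub (sub (sub (sub (sub (add (add (sub (sub C x16926) x16910) x16850) x16886) x16976) x17084) x15950) x18380) x12548) x3798) x10360)
  (sub (sub (sub (sub (sub (sub (add (add (add (add (sub C x16922) x16902) x16914) x16854) x16890) x16980) x17088) x15954) x18384) x12552) x3806)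
  (sub (sub (sub (sub (sub (sub (add (add (add (add (sub C x16932) x16942) x16954) x16966) x17002) x16822) x17254) x15958) x18388) x12556) x10370)
  (sub (sub (sub (sub (sub (sub (add (add (sub (sub C x16930) x16938) x16968) x17004) x16824) x17256) x15960) x18390) x12558) x3812)
  (sub (sub (sub (sub (sub (sub (sub (sub (add (add C x16942) x16946) x16932) x16956) x16830) x17262) x15966) x18396) x12564) x3818)
  (sub (sub (sub (sub (sub (sub (sub (add (add (add (add C x16938) x16946) x16930) x16954) x16960) x16834) x17266) x15970) x18400) x12568) x10382)
  (add (add (sub (sub (sub (sub (sub (sub (sub (add (add C x16938) x16942) x16952) x16964) x16838) x17270) x15974) x18404) x12572) x3822) x10384)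
  (add (add (sub (sub (sub (sub (sub (sub (sub (sub C x16954) x16946) x16988) x16844) x17276) x15980) x18410) x12578) x3828) x10390)
  (sub (sub (sub (sub (sub (sub (sub (add (add (sub C x16952) x16930) x16942) x16990) x16846) x17278) x15982) x18412) x12580) x10394)
  (sub (sub (sub (sub (sub (sub (sub (add (add (add (add C x16960) x16964) x16968) x16980) x16938) x16902) x17280) x15984) x18414) x12582) x3836)
  (sub (sub (sub (sub (sub (sub (sub (sub (add (add C x16956) x16964) x16966) x16942) x16906) x17284) x15988) x18418) x12586) x10400)
  (add (add (sub (sub (sub (sub (sub (sub (sub (add (add C x16956) x16960) x16976) x16946) x16910) x17288) x15992) x18422) x12590) x3840) x10402)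
  (sub (sub (sub (sub (sub (sub (add (add (sub (sub C x16968) x16960) x16930) x17002) x16912) x17290) x15994) x18424) x12592) x10406)
  (sub (sub (sub (sub (sub (sub (add (add (add (add (sub C x16966) x16956) x16980) x16932) x17004) x16914) x17292) x15996) x18426) x12594) x3848)
  (add (add (sub (sub (sub (sub (sub (sub (sub (sub C x16980) x16964) x16994) x16922) x17300) x16004) x18434) x12602) x3852) x10414)
  (sub (sub (sub (sub (sub (sub (sub (add (add (sub C x16976) x16956) x16968) x16998) x16926) x17304) x16008) x18438) x12606) x3860)
  (add (add (sub (sub (sub (sub (add (add (sub (sub (sub C x16990) x16994) x16952) x16772) x16880) x17312) x16016) x18446) x12614) x3864) x10426)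
  (sub (sub (sub (sub (sub (add (add (sub (sub (sub C x16988) x17002) x16954) x16774) x16882) x17314) x16018) x18448) x12616) x10430)
  (add (add (sub (sub (sub (sub (add (add (sub (sub (sub C x16998) x16988) x16976) x16778) x16886) x17318) x16022) x18452) x12620) x3870) x10432)
  (sub (sub (sub (sub (sub (add (add (sub (sub (sub C x16994) x17004) x16980) x16782) x16890) x17322) x16026) x18456) x12624) x3878)
  (sub (sub (sub (sub (sub (add (add (add (add (sub (sub C x17004) x16990) x16930) x16966) x16786) x16894) x17326) x16030) x18460) x12628) x10442)
  (sub (sub (sub (sub (sub (add (add (add (add (sub (sub C x17002) x16998) x16932) x16968) x16788) x16896) x17328) x16032) x18462) x12630) x3884)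
  (add (add (sub (sub (sub (sub (add (add (add (add (add (add (sub C x17016) x17024) x17036) x17048) x17084) x17120) x17228) x16850) x16526) x18470) x12638) x3888) x10450)
  (sub (sub (sub (sub (sub (add (add (add (add (sub (sub C x17012) x17028) x17052) x17088) x17124) x17232) x16854) x16530) x18474) x12642) x3896)
  (add (add (sub (sub (sub (sub (add (add (sub (add (add (sub C x17026) x17012) x17036) x17042) x17132) x17240) x16862) x16538) x18482) x12650) x3900) x10462)
  (sub (sub (sub (sub (sub (add (add (sub (sub (sub C x17024) x17032) x17044) x17134) x17242) x16864) x16540) x18484) x12652) x10466)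
  (sub (sub (sub (sub (sub (add (add (sub (sub (add (add C x17032) x17036) x17016) x17064) x17136) x17244) x16866) x16542) x18486) x12654) x3908)
  (sub (sub (sub (sub (sub (add (add (sub (sub (add (add C x17028) x17036) x17026) x17068) x17140) x17248) x16870) x16546) x18490) x12658) x10472)
  (add (add (sub (sub (sub (sub (add (add (sub (add (add (add (add C x17028) x17032) x17012) x17024) x17072) x17144) x17252) x16874) x16550) x18494) x12662) x3912) x10474)
  (add (add (sub (sub (sub (sub (sub (sub (sub (sub C x17044) x17048) x17024) x17096) x16880) x16556) x18500) x12668) x3918) x10480)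
  (sub (sub (sub (sub (sub (sub (sub (sub (sub C x17042) x17056) x17026) x17098) x16882) x16558) x18502) x12670) x10484)
  (add (add (sub (sub (sub (sub (sub (add (add (sub (sub C x17052) x17042) x17012) x17084) x17102) x16886) x16562) x18506) x12674) x3924) x10486)
  (sub (sub (sub (sub (sub (sub (add (add (sub (sub C x17048) x17058) x17016) x17088) x17106) x16890) x16566) x18510) x12678) x3932)
  (sub (sub (sub (sub (sub (sub (sub (sub (sub C x17058) x17044) x17074) x17110) x16894) x16570) x18514) x12682) x10496)
  (sub (sub (sub (sub (sub (sub (sub (sub (sub C x17056) x17052) x17076) x17112) x16896) x16572) x18516) x12684) x3938)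
  (sub (sub (sub (sub (sub (sub (sub (add (add (add (add C x17068) x17072) x17076) x17088) x17028) x17172) x16902) x16578) x18522) x12690) x3944)
  (sub (sub (sub (sub (sub (sub (sub (sub (add (add C x17064) x17072) x17074) x17032) x17176) x16906) x16582) x18526) x12694) x10508)
  (add (add (sub (sub (sub (sub (sub (sub (sub (add (add C x17064) x17068) x17084) x17036) x17180) x16910) x16586) x18530) x12698) x3948) x10510)
  (sub (sub (sub (sub (sub (sub (sub (sub (sub C x17076) x17068) x17056) x17182) x16912) x16588) x18532) x12700) x10514)
  (sub (sub (sub (sub (sub (sub (sub (add (add (sub C x17074) x17064) x17088) x17058) x17184) x16914) x16590) x18534) x12702) x3956)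
  (add (add (sub (sub (sub (sub (sub (add (add (sub (sub C x17088) x17072) x17012) x17048) x17192) x16922) x16598) x18542) x12710) x3960) x10522)
  (sub (sub (sub (sub (sub (sub (add (add (add (add (sub C x17084) x17064) x17076) x17016) x17052) x17196) x16926) x16602) x18546) x12714) x3968)
  (add (add (sub (sub (sub (add (add (sub (add (add (sub (sub C x17098) x17102) x17132) x17168) x17042) x16772) x17420) x16610) x18554) x12722) x3972) x10534)
  (sub (sub (sub (sub (add (add (sub (add (add (sub (sub C x17096) x17110) x17134) x17170) x17044) x16774) x17422) x16612) x18556) x12724) x10538)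
  (add (add (sub (sub (sub (add (add (sub (sub (sub (sub C x17106) x17096) x17120) x17048) x16778) x17426) x16616) x18560) x12728) x3978) x10540)
  (sub (sub (sub (sub (add (add (sub (sub (sub (sub C x17102) x17112) x17124) x17052) x16782) x17430) x16620) x18564) x12732) x3986)
  (sub (sub (sub (sub (add (add (sub (sub (sub (sub C x17112) x17098) x17146) x17056) x16786) x17434) x16624) x18568) x12736) x10550)
  (sub (sub (sub (sub (add (add (sub (sub (sub (sub C x17110) x17106) x17148) x17058) x16788) x17436) x16626) x18570) x12738) x3992)
  (add (add (sub (sub (sub (add (add (add (add (sub (add (add (sub C x17124) x17132) x17144) x17102) x17012) x17228) x16796) x17444) x16634) x18578) x12746) x3996) x10558)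
  (sub (sub (sub (sub (add (add (add (add (sub (sub (sub C x17120) x17136) x17106) x17016) x17232) x16800) x17448) x16638) x18582) x12750) x4004)
  (add (add (sub (sub (sub (add (add (add (add (add (add (add (add (sub C x17134) x17120) x17144) x17096) x17168) x17024) x17240) x16808) x17456) x16646) x18590) x12758) x4008) x10570)
  (sub (sub (sub (sub (add (add (add (add (add (add (sub (sub C x17132) x17140) x17098) x17170) x17026) x17242) x16810) x17458) x16648) x18592) x12760) x10574)
  (sub (sub (sub (sub (add (add (add (add (sub (sub (add (add C x17140) x17144) x17124) x17154) x17028) x17244) x16812) x17460) x16650) x18594) x12762) x4016)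
  (sub (sub (sub (sub (add (add (add (add (sub (sub (add (add C x17136) x17144) x17134) x17158) x17032) x17248) x16816) x17464) x16654) x18598) x12766) x10580)
  (add (add (sub (sub (sub (add (add (add (add (sub (add (add (add (add C x17136) x17140) x17120) x17132) x17162) x17036) x17252) x16820) x17468) x16658) x18602) x12770) x4020) x10582)
  (sub (sub (sub (sub (add (add (sub (sub (add (add (sub C x17148) x17158) x17170) x17110) x17200) x16822) x17470) x16660) x18604) x12772) x10586)
  (sub (sub (sub (sub (add (add (sub (sub (sub (sub C x17146) x17154) x17112) x17202) x16824) x17472) x16662) x18606) x12774) x4028)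
  (sub (sub (sub (sub (add (add (sub (sub (sub (add (add C x17158) x17162) x17148) x17136) x17208) x16830) x17478) x16668) x18612) x12780) x4034)
  (sub (sub (sub (sub (add (add (sub (sub (add (add (add (add C x17154) x17162) x17146) x17170) x17140) x17212) x16834) x17482) x16672) x18616) x12784) x10598)
  (add (add (sub (sub (sub (add (add (sub (sub (sub (add (add C x17154) x17158) x17168) x17144) x17216) x16838) x17486) x16676) x18620) x12788) x4038) x10600)
  (add (add (sub (sub (sub (add (add (sub (add (add (sub (sub C x17170) x17162) x17096) x17132) x17222) x16844) x17492) x16682) x18626) x12794) x4044) x10606)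
  (sub (sub (sub (sub (add (add (sub (add (add (add (add (sub C x17168) x17146) x17158) x17098) x17134) x17224) x16846) x17494) x16684) x18628) x12796) x10610)
  (sub (sub (sub (sub (sub (sub (add (add (add (add (add (add C x17176) x17180) x17184) x17196) x17208) x17244) x17064) x17334) x16686) x18630) x12798) x4052)
  (sub (sub (sub (sub (sub (sub (add (add (sub (add (add C x17172) x17180) x17182) x17212) x17248) x17068) x17338) x16690) x18634) x12802) x10616)
  (add (add (sub (sub (sub (sub (sub (add (add (sub (add (add C x17172) x17176) x17192) x17216) x17252) x17072) x17342) x16694) x18638) x12806) x4056) x10618)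
  (sub (sub (sub (sub (sub (sub (sub (sub (sub C x17184) x17176) x17200) x17074) x17344) x16696) x18640) x12808) x10622)
  (sub (sub (sub (sub (sub (sub (sub (add (add (sub C x17182) x17172) x17196) x17202) x17076) x17346) x16698) x18642) x12810) x4064)
  (add (add (sub (sub (sub (sub (sub (sub (sub (sub C x17196) x17180) x17228) x17084) x17354) x16706) x18650) x12818) x4068) x10630)
  (sub (sub (sub (sub (sub (sub (sub (add (add (sub C x17192) x17172) x17184) x17232) x17088) x17358) x16710) x18654) x12822) x4076)
  (sub (sub (sub (sub (sub (sub (sub (add (add (sub C x17202) x17212) x17224) x17182) x17146) x17362) x16714) x18658) x12826) x10640)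
  (sub (sub (sub (sub (sub (sub (sub (sub (sub C x17200) x17208) x17184) x17148) x17364) x16716) x18660) x12828) x4082)
  (sub (sub (sub (sub (sub (sub (add (add (sub (add (add C x17212) x17216) x17202) x17172) x17244) x17154) x17370) x16722) x18666) x12834) x4088)
  (sub (sub (sub (sub (sub (sub (add (add (add (add (add (add C x17208) x17216) x17200) x17224) x17176) x17248) x17158) x17374) x16726) x18670) x12838) x10652)
  (add (add (sub (sub (sub (sub (sub (add (add (sub (add (add C x17208) x17212) x17222) x17180) x17252) x17162) x17378) x16730) x18674) x12842) x4092) x10654)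
  (add (add (sub (sub (sub (sub (sub (sub (sub (sub C x17224) x17216) x17240) x17168) x17384) x16736) x18680) x12848) x4098) x10660)
  (sub (sub (sub (sub (sub (sub (sub (add (add (sub C x17222) x17200) x17212) x17242) x17170) x17386) x16738) x18682) x12850) x10664)
  (add (add (sub (sub (sub (sub (add (add (sub (add (add (sub C x17232) x17240) x17252) x17192) x17012) x17120) x17390) x16742) x18686) x12854) x4104) x10666)
  (sub (sub (sub (sub (sub (add (add (sub (sub (sub C x17228) x17244) x17196) x17016) x17124) x17394) x16746) x18690) x12858) x4112)
  (add (add (sub (sub (sub (sub (add (add (sub (add (add (sub C x17242) x17228) x17252) x17222) x17024) x17132) x17402) x16754) x18698) x12866) x4116) x10678)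
  (sub (sub (sub (sub (sub (add (add (sub (sub (sub C x17240) x17248) x17224) x17026) x17134) x17404) x16756) x18700) x12868) x10682)
  (sub (sub (sub (sub (sub (add (add (add (add (sub (add (add C x17248) x17252) x17232) x17172) x17208) x17028) x17136) x17406) x16758) x18702) x12870) x4124)
  (sub (sub (sub (sub (sub (add (add (add (add (sub (add (add C x17244) x17252) x17242) x17176) x17212) x17032) x17140) x17410) x16762) x18706) x12874) x10688)
  (add (add (sub (sub (sub (sub (add (add (add (add (add (add (add (add C x17244) x17248) x17228) x17240) x17180) x17216) x17036) x17144) x17414) x16766) x18710) x12878) x4128) x10690)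
  (sub (sub (sub (add (add (sub (add (add (add (add (add (add (sub C x17256) x17266) x17278) x17290) x17326) x17362) x17470) x16930) x15310) x16282) x18712) x12880) x10694)
  (sub (sub (sub (add (add (sub (add (add (add (add (sub (sub C x17254) x17262) x17292) x17328) x17364) x17472) x16932) x15312) x16284) x18714) x12882) x4136)
  (sub (sub (sub (add (add (sub (add (add (sub (sub (add (add C x17266) x17270) x17256) x17280) x17370) x17478) x16938) x15318) x16290) x18720) x12888) x4142)
  (sub (sub (sub (add (add (sub (add (add (sub (add (add (add (add C x17262) x17270) x17254) x17278) x17284) x17374) x17482) x16942) x15322) x16294) x18724) x12892) x10706)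
  (add (add (sub (sub (add (add (sub (add (add (sub (sub (add (add C x17262) x17266) x17276) x17288) x17378) x17486) x16946) x15326) x16298) x18728) x12896) x4146) x10708)
  (add (add (sub (sub (add (add (sub (add (add (sub (sub (sub C x17278) x17270) x17312) x17384) x17492) x16952) x15332) x16304) x18734) x12902) x4152) x10714)
  (sub (sub (sub (add (add (sub (add (add (sub (add (add (sub C x17276) x17254) x17266) x17314) x17386) x17494) x16954) x15334) x16306) x18736) x12904) x10718)
  (sub (sub (sub (add (add (sub (sub (sub (add (add (add (add C x17284) x17288) x17292) x17304) x17262) x17334) x16956) x15336) x16308) x18738) x12906) x4160)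
  (sub (sub (sub (add (add (sub (sub (sub (sub (add (add C x17280) x17288) x17290) x17266) x17338) x16960) x15340) x16312) x18742) x12910) x10724)
  (add (add (sub (sub (add (add (sub (sub (sub (sub (add (add C x17280) x17284) x17300) x17270) x17342) x16964) x15344) x16316) x18746) x12914) x4164) x10726)
  (sub (sub (sub (add (add (sub (sub (add (add (sub (sub C x17292) x17284) x17254) x17326) x17344) x16966) x15346) x16318) x18748) x12916) x10730)
  (sub (sub (sub (add (add (sub (sub (add (add (add (add (sub C x17290) x17280) x17304) x17256) x17328) x17346) x16968) x15348) x16320) x18750) x12918) x4172)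
  (add (add (sub (sub (add (add (sub (sub (sub (sub (sub C x17304) x17288) x17318) x17354) x16976) x15356) x16328) x18758) x12926) x4176) x10738)
  (sub (sub (sub (add (add (sub (sub (sub (add (add (sub C x17300) x17280) x17292) x17322) x17358) x16980) x15360) x16332) x18762) x12930) x4184)
  (add (add (sub (sub (add (add (sub (sub (sub (sub (sub C x17314) x17318) x17276) x17420) x16988) x15368) x16340) x18770) x12938) x4188) x10750)
  (sub (sub (sub (add (add (sub (sub (sub (sub (sub C x17312) x17326) x17278) x17422) x16990) x15370) x16342) x18772) x12940) x10754)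
  (add (add (sub (sub (add (add (sub (sub (sub (sub (sub C x17322) x17312) x17300) x17426) x16994) x15374) x16346) x18776) x12944) x4194) x10756)
  (sub (sub (sub (add (add (sub (sub (sub (sub (sub C x17318) x17328) x17304) x17430) x16998) x15378) x16350) x18780) x12948) x4202)
  (sub (sub (sub (add (add (sub (sub (add (add (sub (sub C x17328) x17314) x17254) x17290) x17434) x17002) x15382) x16354) x18784) x12952) x10766)
  (sub (sub (sub (add (add (sub (sub (add (add (sub (sub C x17326) x17322) x17256) x17292) x17436) x17004) x15384) x16356) x18786) x12954) x4208)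
  (sub (sub (sub (add (add (sub (sub (add (add (add (add (add (add C x17338) x17342) x17346) x17358) x17370) x17406) x17280) x17172) x15390) x16362) x18792) x12960) x4214)
  (sub (sub (sub (add (add (sub (sub (add (add (sub (add (add C x17334) x17342) x17344) x17374) x17410) x17284) x17176) x15394) x16366) x18796) x12964) x10778)
  (add (add (sub (sub (add (add (sub (sub (add (add (sub (add (add C x17334) x17338) x17354) x17378) x17414) x17288) x17180) x15398) x16370) x18800) x12968) x4218) x10780)
  (sub (sub (sub (add (add (sub (sub (sub (sub (sub C x17346) x17338) x17362) x17290) x17182) x15400) x16372) x18802) x12970) x10784)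
  (sub (sub (sub (add (add (sub (sub (sub (add (add (sub C x17344) x17334) x17358) x17364) x17292) x17184) x15402) x16374) x18804) x12972) x4226)
  (add (add (sub (sub (add (add (sub (sub (sub (sub (sub C x17358) x17342) x17390) x17300) x17192) x15410) x16382) x18812) x12980) x4230) x10792)
  (sub (sub (sub (add (add (sub (sub (sub (add (add (sub C x17354) x17334) x17346) x17394) x17304) x17196) x15414) x16386) x18816) x12984) x4238)
  (sub (sub (sub (add (add (sub (add (add (sub (add (add (sub C x17364) x17374) x17386) x17344) x17254) x17470) x17200) x15418) x16390) x18820) x12988) x10802)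
  (sub (sub (sub (add (add (sub (add (add (sub (sub (sub C x17362) x17370) x17346) x17256) x17472) x17202) x15420) x16392) x18822) x12990) x4244)
  (sub (sub (sub (add (add (sub (add (add (add (add (sub (add (add C x17374) x17378) x17364) x17334) x17406) x17262) x17478) x17208) x15426) x16398) x18828) x12996) x4250)
  (sub (sub (sub (add (add (sub (add (add (add (add (add (add (add (add C x17370) x17378) x17362) x17386) x17338) x17410) x17266) x17482) x17212) x15430) x16402) x18832) x13000) x10814)
  (add (add (sub (sub (add (add (sub (add (add (add (add (sub (add (add C x17370) x17374) x17384) x17342) x17414) x17270) x17486) x17216) x15434) x16406) x18836) x13004) x4254) x10816)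
  (add (add (sub (sub (add (add (sub (add (add (sub (sub (sub C x17386) x17378) x17402) x17276) x17492) x17222) x15440) x16412) x18842) x13010) x4260) x10822)
  (sub (sub (sub (add (add (sub (add (add (sub (add (add (sub C x17384) x17362) x17374) x17404) x17278) x17494) x17224) x15442) x16414) x18844) x13012) x10826)
  (add (add (sub (sub (add (add (sub (sub (sub (add (add (sub C x17394) x17402) x17414) x17354) x17444) x17228) x15446) x16418) x18848) x13016) x4266) x10828)
  (sub (sub (sub (add (add (sub (sub (sub (sub (sub C x17390) x17406) x17358) x17448) x17232) x15450) x16422) x18852) x13020) x4274)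
  (add (add (sub (sub (add (add (sub (sub (sub (add (add (sub C x17404) x17390) x17414) x17384) x17456) x17240) x15458) x16430) x18860) x13028) x4278) x10840)
  (sub (sub (sub (add (add (sub (sub (sub (sub (sub C x17402) x17410) x17386) x17458) x17242) x15460) x16432) x18862) x13030) x10844)
  (sub (sub (sub (add (add (sub (sub (add (add (sub (add (add C x17410) x17414) x17394) x17334) x17370) x17460) x17244) x15462) x16434) x18864) x13032) x4286)
  (sub (sub (sub (add (add (sub (sub (add (add (sub (add (add C x17406) x17414) x17404) x17338) x17374) x17464) x17248) x15466) x16438) x18868) x13036) x10850)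
  (add (add (sub (sub (add (add (sub (sub (add (add (add (add (add (add C x17406) x17410) x17390) x17402) x17342) x17378) x17468) x17252) x15470) x16442) x18872) x13040) x4290) x10852)
  (add (add (sub (sub (add (add (add (add (sub (add (add (sub (sub C x17422) x17426) x17456) x17492) x17312) x16772) x17096) x15476) x16448) x18878) x13046) x4296) x10858)
  (sub (sub (sub (add (add (add (add (sub (add (add (sub (sub C x17420) x17434) x17458) x17494) x17314) x16774) x17098) x15478) x16450) x18880) x13048) x10862)
  (add (add (sub (sub (add (add (add (add (sub (sub (sub (sub C x17430) x17420) x17444) x17318) x16778) x17102) x15482) x16454) x18884) x13052) x4302) x10864)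
  (sub (sub (sub (add (add (add (add (sub (sub (sub (sub C x17426) x17436) x17448) x17322) x16782) x17106) x15486) x16458) x18888) x13056) x4310)
  (sub (sub (sub (add (add (add (add (sub (sub (sub (sub C x17436) x17422) x17470) x17326) x16786) x17110) x15490) x16462) x18892) x13060) x10874)
  (sub (sub (sub (add (add (add (add (sub (sub (sub (sub C x17434) x17430) x17472) x17328) x16788) x17112) x15492) x16464) x18894) x13062) x4316)
  (add (add (sub (sub (add (add (add (add (sub (sub (add (add (sub C x17448) x17456) x17468) x17426) x17390) x16796) x17120) x15500) x16472) x18902) x13070) x4320) x10882)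
  (sub (sub (sub (add (add (add (add (sub (sub (sub (sub C x17444) x17460) x17430) x17394) x16800) x17124) x15504) x16476) x18906) x13074) x4328)
  (add (add (sub (sub (add (add (add (add (sub (add (add (add (add (sub C x17458) x17444) x17468) x17420) x17492) x17402) x16808) x17132) x15512) x16484) x18914) x13082) x4332) x10894)
  (sub (sub (sub (add (add (add (add (sub (add (add (sub (sub C x17456) x17464) x17422) x17494) x17404) x16810) x17134) x15514) x16486) x18916) x13084) x10898)
  (sub (sub (sub (add (add (add (add (sub (sub (sub (add (add C x17464) x17468) x17448) x17478) x17406) x16812) x17136) x15516) x16488) x18918) x13086) x4340)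
  (sub (sub (sub (add (add (add (add (sub (sub (sub (add (add C x17460) x17468) x17458) x17482) x17410) x16816) x17140) x15520) x16492) x18922) x13090) x10904)
  (add (add (sub (sub (add (add (add (add (sub (sub (add (add (add (add C x17460) x17464) x17444) x17456) x17486) x17414) x16820) x17144) x15524) x16496) x18926) x13094) x4344) x10906)
  (sub (sub (sub (add (add (add (add (add (add (sub (add (add (sub C x17472) x17482) x17494) x17434) x17254) x17362) x16822) x17146) x15526) x16498) x18928) x13096) x10910)
  (sub (sub (sub (add (add (add (add (add (add (sub (sub (sub C x17470) x17478) x17436) x17256) x17364) x16824) x17148) x15528) x16500) x18930) x13098) x4352)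
  (sub (sub (sub (add (add (add (add (add (add (sub (sub (add (add C x17482) x17486) x17472) x17460) x17262) x17370) x16830) x17154) x15534) x16506) x18936) x13104) x4358)
  (sub (sub (sub (add (add (add (add (add (add (sub (add (add (add (add C x17478) x17486) x17470) x17494) x17464) x17266) x17374) x16834) x17158) x15538) x16510) x18940) x13108) x10922)
  (add (add (sub (sub (add (add (add (add (add (add (sub (sub (add (add C x17478) x17482) x17492) x17468) x17270) x17378) x16838) x17162) x15542) x16514) x18944) x13112) x4362) x10924)
  (add (add (sub (sub (add (add (add (add (add (add (add (add (sub (sub C x17494) x17486) x17420) x17456) x17276) x17384) x16844) x17168) x15548) x16520) x18950) x13118) x4368) x10930)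
  (sub (sub (sub (add (add (add (add (add (add (add (add (add (add (sub C x17492) x17470) x17482) x17422) x17458) x17278) x17386) x16846) x17170) x15550) x16522) x18952) x13120) x10934)
  (add (add (add (add (sub (add (add (add (add (add (add (add (add (add (add (sub C x17502) x17510) x17522) x17534) x17570) x17606) x17714) x17822) x18146) x18470) x19442) x14582) x2) x8750) x4374) x10936)
  (sub (add (add (sub (add (add (add (add (add (add (add (add (sub (sub C x17498) x17514) x17538) x17574) x17610) x17718) x17826) x18150) x18474) x19446) x14586) x6) x8754) x4382)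
  (add (add (add (add (sub (add (add (add (add (add (add (sub (add (add (sub C x17512) x17498) x17522) x17528) x17618) x17726) x17834) x18158) x18482) x19454) x14594) x14) x8762) x4386) x10948)
  (sub (add (add (sub (add (add (add (add (add (add (sub (sub (sub C x17510) x17518) x17530) x17620) x17728) x17836) x18160) x18484) x19456) x14596) x16) x8764) x10952)
  (sub (add (add (sub (add (add (add (add (add (add (sub (sub (add (add C x17518) x17522) x17502) x17550) x17622) x17730) x17838) x18162) x18486) x19458) x14598) x18) x8766) x4394)
  (sub (add (add (sub (add (add (add (add (add (add (sub (sub (add (add C x17514) x17522) x17512) x17554) x17626) x17734) x17842) x18166) x18490) x19462) x14602) x22) x8770) x10958)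
  (add (add (add (add (sub (add (add (add (add (add (add (sub (add (add (add (add C x17514) x17518) x17498) x17510) x17558) x17630) x17738) x17846) x18170) x18494) x19466) x14606) x26) x8774) x4398) x10960)
  (add (add (add (add (sub (add (add (add (add (sub (sub (sub (sub C x17530) x17534) x17510) x17582) x17852) x18176) x18500) x19472) x14612) x32) x8780) x4404) x10966)
  (sub (add (add (sub (add (add (add (add (sub (sub (sub (sub C x17528) x17542) x17512) x17584) x17854) x18178) x18502) x19474) x14614) x34) x8782) x10970)
  (add (add (add (add (sub (add (add (add (add (sub (add (add (sub (sub C x17538) x17528) x17498) x17570) x17588) x17858) x18182) x18506) x19478) x14618) x38) x8786) x4410) x10972)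
  (sub (add (add (sub (add (add (add (add (sub (add (add (sub (sub C x17534) x17544) x17502) x17574) x17592) x17862) x18186) x18510) x19482) x14622) x42) x8790) x4418)
  (sub (add (add (sub (add (add (add (add (sub (sub (sub (sub C x17544) x17530) x17560) x17596) x17866) x18190) x18514) x19486) x14626) x46) x8794) x10982)
  (sub (add (add (sub (add (add (add (add (sub (sub (sub (sub C x17542) x17538) x17562) x17598) x17868) x18192) x18516) x19488) x14628) x48) x8796) x4424)
  (sub (add (add (sub (add (add (add (add (sub (sub (add (add (add (add C x17554) x17558) x17562) x17574) x17514) x17658) x17874) x18198) x18522) x19494) x14634) x54) x8802) x4430)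
  (sub (add (add (sub (add (add (add (add (sub (sub (sub (add (add C x17550) x17558) x17560) x17518) x17662) x17878) x18202) x18526) x19498) x14638) x58) x8806) x10994)
  (add (add (add (add (sub (add (add (add (add (sub (sub (sub (add (add C x17550) x17554) x17570) x17522) x17666) x17882) x18206) x18530) x19502) x14642) x62) x8810) x4434) x10996)
  (sub (add (add (sub (add (add (add (add (sub (sub (sub (sub C x17562) x17554) x17542) x17668) x17884) x18208) x18532) x19504) x14644) x64) x8812) x11000)
  (sub (add (add (sub (add (add (add (add (sub (sub (add (add (sub C x17560) x17550) x17574) x17544) x17670) x17886) x18210) x18534) x19506) x14646) x66) x8814) x4442)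
  (add (add (add (add (sub (add (add (add (add (sub (add (add (sub (sub C x17574) x17558) x17498) x17534) x17678) x17894) x18218) x18542) x19514) x14654) x74) x8822) x4446) x11008)
  (sub (add (add (sub (add (add (add (add (sub (add (add (add (add (sub C x17570) x17550) x17562) x17502) x17538) x17682) x17898) x18222) x18546) x19518) x14658) x78) x8826) x4454)
  (add (add (add (add (sub (add (add (sub (sub (add (add (sub (sub C x17584) x17588) x17618) x17654) x17528) x17744) x18554) x19526) x14666) x86) x8834) x4458) x11020)
  (sub (add (add (sub (add (add (sub (sub (add (add (sub (sub C x17582) x17596) x17620) x17656) x17530) x17746) x18556) x19528) x14668) x88) x8836) x11024)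
  (add (add (add (add (sub (add (add (sub (sub (sub (sub (sub C x17592) x17582) x17606) x17534) x17750) x18560) x19532) x14672) x92) x8840) x4464) x11026)
  (sub (add (add (sub (add (add (sub (sub (sub (sub (sub C x17588) x17598) x17610) x17538) x17754) x18564) x19536) x14676) x96) x8844) x4472)
  (sub (add (add (sub (add (add (sub (sub (sub (sub (sub C x17598) x17584) x17632) x17542) x17758) x18568) x19540) x14680) x100) x8848) x11036)
  (sub (add (add (sub (add (add (sub (sub (sub (sub (sub C x17596) x17592) x17634) x17544) x17760) x18570) x19542) x14682) x102) x8850) x4478)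
  (add (add (add (add (sub (add (add (sub (add (add (sub (add (add (sub C x17610) x17618) x17630) x17588) x17498) x17714) x17768) x18578) x19550) x14690) x110) x8858) x4482) x11044)
  (sub (add (add (sub (add (add (sub (add (add (sub (sub (sub C x17606) x17622) x17592) x17502) x17718) x17772) x18582) x19554) x14694) x114) x8862) x4490)
  (add (add (add (add (sub (add (add (sub (add (add (add (add (add (add (sub C x17620) x17606) x17630) x17582) x17654) x17510) x17726) x17780) x18590) x19562) x14702) x122) x8870) x4494) x11056)
  (sub (add (add (sub (add (add (sub (add (add (add (add (sub (sub C x17618) x17626) x17584) x17656) x17512) x17728) x17782) x18592) x19564) x14704) x124) x8872) x11060)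
  (sub (add (add (sub (add (add (sub (add (add (sub (sub (add (add C x17626) x17630) x17610) x17640) x17514) x17730) x17784) x18594) x19566) x14706) x126) x8874) x4502)
  (sub (add (add (sub (add (add (sub (add (add (sub (sub (add (add C x17622) x17630) x17620) x17644) x17518) x17734) x17788) x18598) x19570) x14710) x130) x8878) x11066)
  (add (add (add (add (sub (add (add (sub (add (add (sub (add (add (add (add C x17622) x17626) x17606) x17618) x17648) x17522) x17738) x17792) x18602) x19574) x14714) x134) x8882) x4506) x11068)
  (sub (add (add (sub (add (add (sub (sub (sub (add (add (sub C x17634) x17644) x17656) x17596) x17686) x17794) x18604) x19576) x14716) x136) x8884) x11072)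
  (sub (add (add (sub (add (add (sub (sub (sub (sub (sub C x17632) x17640) x17598) x17688) x17796) x18606) x19578) x14718) x138) x8886) x4514)
  (sub (add (add (sub (add (add (sub (sub (sub (sub (add (add C x17644) x17648) x17634) x17622) x17694) x17802) x18612) x19584) x14724) x144) x8892) x4520)
  (sub (add (add (sub (add (add (sub (sub (sub (add (add (add (add C x17640) x17648) x17632) x17656) x17626) x17698) x17806) x18616) x19588) x14728) x148) x8896) x11084)
  (add (add (add (add (sub (add (add (sub (sub (sub (sub (add (add C x17640) x17644) x17654) x17630) x17702) x17810) x18620) x19592) x14732) x152) x8900) x4524) x11086)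
  (add (add (add (add (sub (add (add (sub (sub (add (add (sub (sub C x17656) x17648) x17582) x17618) x17708) x17816) x18626) x19598) x14738) x158) x8906) x4530) x11092)
  (sub (add (add (sub (add (add (sub (sub (add (add (add (add (sub C x17654) x17632) x17644) x17584) x17620) x17710) x17818) x18628) x19600) x14740) x160) x8908) x11096)
  (sub (add (add (sub (add (add (sub (sub (add (add (add (add (add (add C x17662) x17666) x17670) x17682) x17694) x17730) x17550) x17982) x18630) x19602) x14742) x162) x8910) x4538)
  (sub (add (add (sub (add (add (sub (sub (add (add (sub (add (add C x17658) x17666) x17668) x17698) x17734) x17554) x17986) x18634) x19606) x14746) x166) x8914) x11102)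
  (add (add (add (add (sub (add (add (sub (sub (add (add (sub (add (add C x17658) x17662) x17678) x17702) x17738) x17558) x17990) x18638) x19610) x14750) x170) x8918) x4542) x11104)
  (sub (add (add (sub (add (add (sub (sub (sub (sub (sub C x17670) x17662) x17686) x17560) x17992) x18640) x19612) x14752) x172) x8920) x11108)
  (sub (add (add (sub (add (add (sub (sub (sub (add (add (sub C x17668) x17658) x17682) x17688) x17562) x17994) x18642) x19614) x14754) x174) x8922) x4550)
  (add (add (add (add (sub (add (add (sub (sub (sub (sub (sub C x17682) x17666) x17714) x17570) x18002) x18650) x19622) x14762) x182) x8930) x4554) x11116)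
  (sub (add (add (sub (add (add (sub (sub (sub (add (add (sub C x17678) x17658) x17670) x17718) x17574) x18006) x18654) x19626) x14766) x186) x8934) x4562)
  (sub (add (add (sub (add (add (sub (sub (sub (add (add (sub C x17688) x17698) x17710) x17668) x17632) x18010) x18658) x19630) x14770) x190) x8938) x11126)
  (sub (add (add (sub (add (add (sub (sub (sub (sub (sub C x17686) x17694) x17670) x17634) x18012) x18660) x19632) x14772) x192) x8940) x4568)
  (sub (add (add (sub (add (add (sub (sub (add (add (sub (add (add C x17698) x17702) x17688) x17658) x17730) x17640) x18018) x18666) x19638) x14778) x198) x8946) x4574)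
  (sub (add (add (sub (add (add (sub (sub (add (add (add (add (add (add C x17694) x17702) x17686) x17710) x17662) x17734) x17644) x18022) x18670) x19642) x14782) x202) x8950) x11138)
  (add (add (add (add (sub (add (add (sub (sub (add (add (sub (add (add C x17694) x17698) x17708) x17666) x17738) x17648) x18026) x18674) x19646) x14786) x206) x8954) x4578) x11140)
  (add (add (add (add (sub (add (add (sub (sub (sub (sub (sub C x17710) x17702) x17726) x17654) x18032) x18680) x19652) x14792) x212) x8960) x4584) x11146)
  (sub (add (add (sub (add (add (sub (sub (sub (add (add (sub C x17708) x17686) x17698) x17728) x17656) x18034) x18682) x19654) x14794) x214) x8962) x11150)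
  (add (add (add (add (sub (add (add (sub (add (add (sub (add (add (sub C x17718) x17726) x17738) x17678) x17498) x17606) x18038) x18686) x19658) x14798) x218) x8966) x4590) x11152)
  (sub (add (add (sub (add (add (sub (add (add (sub (sub (sub C x17714) x17730) x17682) x17502) x17610) x18042) x18690) x19662) x14802) x222) x8970) x4598)
  (add (add (add (add (sub (add (add (sub (add (add (sub (add (add (sub C x17728) x17714) x17738) x17708) x17510) x17618) x18050) x18698) x19670) x14810) x230) x8978) x4602) x11164)
  (sub (add (add (sub (add (add (sub (add (add (sub (sub (sub C x17726) x17734) x17710) x17512) x17620) x18052) x18700) x19672) x14812) x232) x8980) x11168)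
  (sub (add (add (sub (add (add (sub (add (add (add (add (sub (add (add C x17734) x17738) x17718) x17658) x17694) x17514) x17622) x18054) x18702) x19674) x14814) x234) x8982) x4610)
  (sub (add (add (sub (add (add (sub (add (add (add (add (sub (add (add C x17730) x17738) x17728) x17662) x17698) x17518) x17626) x18058) x18706) x19678) x14818) x238) x8986) x11174)
  (add (add (add (add (sub (add (add (sub (add (add (add (add (add (add (add (add C x17730) x17734) x17714) x17726) x17666) x17702) x17522) x17630) x18062) x18710) x19682) x14822) x242) x8990) x4614) x11176)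
  (add (add (add (add (sub (sub (sub (add (add (add (add (sub (sub C x17746) x17750) x17780) x17816) x17852) x17960) x17582) x18230) x14828) x248) x8996) x4620) x11182)
  (sub (add (add (sub (sub (sub (add (add (add (add (sub (sub C x17744) x17758) x17782) x17818) x17854) x17962) x17584) x18232) x14830) x250) x8998) x11186)
  (add (add (add (add (sub (sub (sub (add (add (sub (sub (sub C x17754) x17744) x17768) x17858) x17966) x17588) x18236) x14834) x254) x9002) x4626) x11188)
  (sub (add (add (sub (sub (sub (add (add (sub (sub (sub C x17750) x17760) x17772) x17862) x17970) x17592) x18240) x14838) x258) x9006) x4634)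
  (sub (add (add (sub (sub (sub (add (add (sub (sub (sub C x17760) x17746) x17794) x17866) x17974) x17596) x18244) x14842) x262) x9010) x11198)
  (sub (add (add (sub (sub (sub (add (add (sub (sub (sub C x17758) x17754) x17796) x17868) x17976) x17598) x18246) x14844) x264) x9012) x4640)
  (add (add (add (add (sub (sub (sub (sub (sub (add (add (sub C x17772) x17780) x17792) x17750) x17822) x17606) x18254) x14852) x272) x9020) x4644) x11206)
  (sub (add (add (sub (sub (sub (sub (sub (sub (sub C x17768) x17784) x17754) x17826) x17610) x18258) x14856) x276) x9024) x4652)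
  (add (add (add (add (sub (sub (sub (sub (add (add (add (add (sub C x17782) x17768) x17792) x17744) x17816) x17834) x17618) x18266) x14864) x284) x9032) x4656) x11218)
  (sub (add (add (sub (sub (sub (sub (add (add (sub (sub C x17780) x17788) x17746) x17818) x17836) x17620) x18268) x14866) x286) x9034) x11222)
  (sub (add (add (sub (sub (sub (sub (sub (sub (add (add C x17788) x17792) x17772) x17802) x17838) x17622) x18270) x14868) x288) x9036) x4664)
  (sub (add (add (sub (sub (sub (sub (sub (sub (add (add C x17784) x17792) x17782) x17806) x17842) x17626) x18274) x14872) x292) x9040) x11228)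
  (add (add (add (add (sub (sub (sub (sub (sub (add (add (add (add C x17784) x17788) x17768) x17780) x17810) x17846) x17630) x18278) x14876) x296) x9044) x4668) x11230)
  (sub (add (add (sub (sub (sub (sub (sub (add (add (sub C x17796) x17806) x17818) x17758) x17902) x17632) x18280) x14878) x298) x9046) x11234)
  (sub (add (add (sub (sub (sub (sub (sub (sub (sub C x17794) x17802) x17760) x17904) x17634) x18282) x14880) x300) x9048) x4676)
  (sub (add (add (sub (sub (sub (sub (sub (sub (add (add C x17806) x17810) x17796) x17784) x17910) x17640) x18288) x14886) x306) x9054) x4682)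
  (sub (add (add (sub (sub (sub (sub (sub (add (add (add (add C x17802) x17810) x17794) x17818) x17788) x17914) x17644) x18292) x14890) x310) x9058) x11246)
  (add (add (add (add (sub (sub (sub (sub (sub (sub (add (add C x17802) x17806) x17816) x17792) x17918) x17648) x18296) x14894) x314) x9062) x4686) x11248)
  (add (add (add (add (sub (sub (sub (sub (add (add (sub (sub C x17818) x17810) x17744) x17780) x17924) x17654) x18302) x14900) x320) x9068) x4692) x11254)
  (sub (add (add (sub (sub (sub (sub (add (add (add (add (sub C x17816) x17794) x17806) x17746) x17782) x17926) x17656) x18304) x14902) x322) x9070) x11258)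
  (add (add (add (add (sub (sub (add (add (sub (add (add (add (add (sub C x17826) x17834) x17846) x17858) x17894) x17768) x17498) x18146) x18308) x14906) x326) x9074) x4698) x11260)
  (sub (add (add (sub (sub (add (add (sub (add (add (sub (sub C x17822) x17838) x17862) x17898) x17772) x17502) x18150) x18312) x14910) x330) x9078) x4706)
  (add (add (add (add (sub (sub (add (add (sub (sub (add (add (sub C x17836) x17822) x17846) x17852) x17780) x17510) x18158) x18320) x14918) x338) x9086) x4710) x11272)
  (sub (add (add (sub (sub (add (add (sub (sub (sub (sub C x17834) x17842) x17854) x17782) x17512) x18160) x18322) x14920) x340) x9088) x11276)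
  (sub (add (add (sub (sub (add (add (sub (sub (sub (add (add C x17842) x17846) x17826) x17874) x17784) x17514) x18162) x18324) x14922) x342) x9090) x4718)
  (sub (add (add (sub (sub (add (add (sub (sub (sub (add (add C x17838) x17846) x17836) x17878) x17788) x17518) x18166) x18328) x14926) x346) x9094) x11282)
  (add (add (add (add (sub (sub (add (add (sub (sub (add (add (add (add C x17838) x17842) x17822) x17834) x17882) x17792) x17522) x18170) x18332) x14930) x350) x9098) x4722) x11284)
  (add (add (add (add (sub (sub (add (add (add (add (sub (sub (sub C x17854) x17858) x17834) x17744) x17960) x17528) x18176) x18338) x14936) x356) x9104) x4728) x11290)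
  (sub (add (add (sub (sub (add (add (add (add (sub (sub (sub C x17852) x17866) x17836) x17746) x17962) x17530) x18178) x18340) x14938) x358) x9106) x11294)
  (add (add (add (add (sub (sub (add (add (add (add (add (add (sub (sub C x17862) x17852) x17822) x17894) x17750) x17966) x17534) x18182) x18344) x14942) x362) x9110) x4734) x11296)
  (sub (add (add (sub (sub (add (add (add (add (add (add (sub (sub C x17858) x17868) x17826) x17898) x17754) x17970) x17538) x18186) x18348) x14946) x366) x9114) x4742)
  (sub (add (add (sub (sub (add (add (add (add (sub (sub (sub C x17868) x17854) x17884) x17758) x17974) x17542) x18190) x18352) x14950) x370) x9118) x11306)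
  (sub (add (add (sub (sub (add (add (add (add (sub (sub (sub C x17866) x17862) x17886) x17760) x17976) x17544) x18192) x18354) x14952) x372) x9120) x4748)
  (sub (add (add (sub (sub (add (add (sub (sub (add (add (add (add C x17878) x17882) x17886) x17898) x17838) x17928) x17550) x18198) x18360) x14958) x378) x9126) x4754)
  (sub (add (add (sub (sub (add (add (sub (sub (sub (add (add C x17874) x17882) x17884) x17842) x17932) x17554) x18202) x18364) x14962) x382) x9130) x11318)
  (add (add (add (add (sub (sub (add (add (sub (sub (sub (add (add C x17874) x17878) x17894) x17846) x17936) x17558) x18206) x18368) x14966) x386) x9134) x4758) x11320)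
  (sub (add (add (sub (sub (add (add (sub (sub (sub (sub C x17886) x17878) x17866) x17938) x17560) x18208) x18370) x14968) x388) x9136) x11324)
  (sub (add (add (sub (sub (add (add (sub (sub (add (add (sub C x17884) x17874) x17898) x17868) x17940) x17562) x18210) x18372) x14970) x390) x9138) x4766)
  (add (add (add (add (sub (sub (add (add (sub (add (add (sub (sub C x17898) x17882) x17822) x17858) x17948) x17570) x18218) x18380) x14978) x398) x9146) x4770) x11332)
  (sub (add (add (sub (sub (add (add (sub (add (add (add (add (sub C x17894) x17874) x17886) x17826) x17862) x17952) x17574) x18222) x18384) x14982) x402) x9150) x4778)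
  (sub (add (add (sub (sub (sub (sub (add (add (add (add (sub C x17904) x17914) x17926) x17938) x17974) x17794) x18064) x18388) x14986) x406) x9154) x11342)
  (sub (add (add (sub (sub (sub (sub (add (add (sub (sub C x17902) x17910) x17940) x17976) x17796) x18066) x18390) x14988) x408) x9156) x4784)
  (sub (add (add (sub (sub (sub (sub (sub (sub (add (add C x17914) x17918) x17904) x17928) x17802) x18072) x18396) x14994) x414) x9162) x4790)
  (sub (add (add (sub (sub (sub (sub (sub (add (add (add (add C x17910) x17918) x17902) x17926) x17932) x17806) x18076) x18400) x14998) x418) x9166) x11354)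
  (add (add (add (add (sub (sub (sub (sub (sub (sub (add (add C x17910) x17914) x17924) x17936) x17810) x18080) x18404) x15002) x422) x9170) x4794) x11356)
  (add (add (add (add (sub (sub (sub (sub (sub (sub (sub C x17926) x17918) x17960) x17816) x18086) x18410) x15008) x428) x9176) x4800) x11362)
  (sub (add (add (sub (sub (sub (sub (sub (add (add (sub C x17924) x17902) x17914) x17962) x17818) x18088) x18412) x15010) x430) x9178) x11366)
  (sub (add (add (sub (sub (sub (sub (sub (add (add (add (add C x17932) x17936) x17940) x17952) x17910) x17874) x18090) x18414) x15012) x432) x9180) x4808)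
  (sub (add (add (sub (sub (sub (sub (sub (sub (add (add C x17928) x17936) x17938) x17914) x17878) x18094) x18418) x15016) x436) x9184) x11372)
  (add (add (add (add (sub (sub (sub (sub (sub (sub (add (add C x17928) x17932) x17948) x17918) x17882) x18098) x18422) x15020) x440) x9188) x4812) x11374)
  (sub (add (add (sub (sub (sub (sub (add (add (sub (sub C x17940) x17932) x17902) x17974) x17884) x18100) x18424) x15022) x442) x9190) x11378)
  (sub (add (add (sub (sub (sub (sub (add (add (add (add (sub C x17938) x17928) x17952) x17904) x17976) x17886) x18102) x18426) x15024) x444) x9192) x4820)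
  (add (add (add (add (sub (sub (sub (sub (sub (sub (sub C x17952) x17936) x17966) x17894) x18110) x18434) x15032) x452) x9200) x4824) x11386)
  (sub (add (add (sub (sub (sub (sub (sub (add (add (sub C x17948) x17928) x17940) x17970) x17898) x18114) x18438) x15036) x456) x9204) x4832)
  (add (add (add (add (sub (sub (sub (add (add (sub (sub (sub C x17962) x17966) x17924) x17744) x17852) x18122) x18446) x15044) x464) x9212) x4836) x11398)
  (sub (add (add (sub (sub (sub (add (add (sub (sub (sub C x17960) x17974) x17926) x17746) x17854) x18124) x18448) x15046) x466) x9214) x11402)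
  (add (add (add (add (sub (sub (sub (add (add (sub (sub (sub C x17970) x17960) x17948) x17750) x17858) x18128) x18452) x15050) x470) x9218) x4842) x11404)
  (sub (add (add (sub (sub (sub (add (add (sub (sub (sub C x17966) x17976) x17952) x17754) x17862) x18132) x18456) x15054) x474) x9222) x4850)
  (sub (add (add (sub (sub (sub (add (add (add (add (sub (sub C x17976) x17962) x17902) x17938) x17758) x17866) x18136) x18460) x15058) x478) x9226) x11414)
  (sub (add (add (sub (sub (sub (add (add (add (add (sub (sub C x17974) x17970) x17904) x17940) x17760) x17868) x18138) x18462) x15060) x480) x9228) x4856)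
  (sub (add (add (sub (sub (sub (add (add (add (add (add (add (add (add C x17986) x17990) x17994) x18006) x18018) x18054) x18090) x18198) x17658) x18954) x15066) x486) x9234) x4862)
  (sub (add (add (sub (sub (sub (add (add (add (add (sub (add (add C x17982) x17990) x17992) x18022) x18058) x18094) x18202) x17662) x18958) x15070) x490) x9238) x11426)
  (add (add (add (add (sub (sub (sub (add (add (add (add (sub (add (add C x17982) x17986) x18002) x18026) x18062) x18098) x18206) x17666) x18962) x15074) x494) x9242) x4866) x11428)
  (sub (add (add (sub (sub (sub (add (add (sub (sub (sub C x17994) x17986) x18010) x18100) x18208) x17668) x18964) x15076) x496) x9244) x11432)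
  (sub (add (add (sub (sub (sub (add (add (sub (add (add (sub C x17992) x17982) x18006) x18012) x18102) x18210) x17670) x18966) x15078) x498) x9246) x4874)
  (add (add (add (add (sub (sub (sub (add (add (sub (sub (sub C x18006) x17990) x18038) x18110) x18218) x17678) x18974) x15086) x506) x9254) x4878) x11440)
  (sub (add (add (sub (sub (sub (add (add (sub (add (add (sub C x18002) x17982) x17994) x18042) x18114) x18222) x17682) x18978) x15090) x510) x9258) x4886)
  (sub (add (add (sub (sub (sub (sub (sub (add (add (sub C x18012) x18022) x18034) x17992) x18064) x17686) x18982) x15094) x514) x9262) x11450)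
  (sub (add (add (sub (sub (sub (sub (sub (sub (sub C x18010) x18018) x17994) x18066) x17688) x18984) x15096) x516) x9264) x4892)
  (sub (add (add (sub (sub (sub (sub (add (add (sub (add (add C x18022) x18026) x18012) x17982) x18054) x18072) x17694) x18990) x15102) x522) x9270) x4898)
  (sub (add (add (sub (sub (sub (sub (add (add (add (add (add (add C x18018) x18026) x18010) x18034) x17986) x18058) x18076) x17698) x18994) x15106) x526) x9274) x11462)
  (add (add (add (add (sub (sub (sub (sub (add (add (sub (add (add C x18018) x18022) x18032) x17990) x18062) x18080) x17702) x18998) x15110) x530) x9278) x4902) x11464)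
  (add (add (add (add (sub (sub (sub (sub (sub (sub (sub C x18034) x18026) x18050) x18086) x17708) x19004) x15116) x536) x9284) x4908) x11470)
  (sub (add (add (sub (sub (sub (sub (sub (add (add (sub C x18032) x18010) x18022) x18052) x18088) x17710) x19006) x15118) x538) x9286) x11474)
  (add (add (add (add (sub (sub (sub (sub (sub (add (add (sub C x18042) x18050) x18062) x18002) x18146) x17714) x19010) x15122) x542) x9290) x4914) x11476)
  (sub (add (add (sub (sub (sub (sub (sub (sub (sub C x18038) x18054) x18006) x18150) x17718) x19014) x15126) x546) x9294) x4922)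
  (add (add (add (add (sub (sub (sub (sub (sub (add (add (sub C x18052) x18038) x18062) x18032) x18158) x17726) x19022) x15134) x554) x9302) x4926) x11488)
  (sub (add (add (sub (sub (sub (sub (sub (sub (sub C x18050) x18058) x18034) x18160) x17728) x19024) x15136) x556) x9304) x11492)
  (sub (add (add (sub (sub (sub (sub (add (add (sub (add (add C x18058) x18062) x18042) x17982) x18018) x18162) x17730) x19026) x15138) x558) x9306) x4934)
  (sub (add (add (sub (sub (sub (sub (add (add (sub (add (add C x18054) x18062) x18052) x17986) x18022) x18166) x17734) x19030) x15142) x562) x9310) x11498)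
  (add (add (add (add (sub (sub (sub (sub (add (add (add (add (add (add C x18054) x18058) x18038) x18050) x17990) x18026) x18170) x17738) x19034) x15146) x566) x9314) x4938) x11500)
  (sub (add (add (sub (sub (sub (sub (add (add (add (add (sub C x18066) x18076) x18088) x18100) x18136) x18010) x17902) x19036) x15148) x568) x9316) x11504)
  (sub (add (add (sub (sub (sub (sub (add (add (sub (sub C x18064) x18072) x18102) x18138) x18012) x17904) x19038) x15150) x570) x9318) x4946)
  (sub (add (add (sub (sub (sub (sub (sub (sub (add (add C x18076) x18080) x18066) x18090) x18018) x17910) x19044) x15156) x576) x9324) x4952)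
  (sub (add (add (sub (sub (sub (sub (sub (add (add (add (add C x18072) x18080) x18064) x18088) x18094) x18022) x17914) x19048) x15160) x580) x9328) x11516)
  (add (add (add (add (sub (sub (sub (sub (sub (sub (add (add C x18072) x18076) x18086) x18098) x18026) x17918) x19052) x15164) x584) x9332) x4956) x11518)
  (add (add (add (add (sub (sub (sub (sub (sub (sub (sub C x18088) x18080) x18122) x18032) x17924) x19058) x15170) x590) x9338) x4962) x11524)
  (sub (add (add (sub (sub (sub (sub (sub (add (add (sub C x18086) x18064) x18076) x18124) x18034) x17926) x19060) x15172) x592) x9340) x11528)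
  (sub (add (add (sub (sub (sub (add (add (sub (add (add (add (add C x18094) x18098) x18102) x18114) x18072) x17982) x18198) x17928) x19062) x15174) x594) x9342) x4970)
  (sub (add (add (sub (sub (sub (add (add (sub (sub (add (add C x18090) x18098) x18100) x18076) x17986) x18202) x17932) x19066) x15178) x598) x9346) x11534)
  (add (add (add (add (sub (sub (sub (add (add (sub (sub (add (add C x18090) x18094) x18110) x18080) x17990) x18206) x17936) x19070) x15182) x602) x9350) x4974) x11536)
  (sub (add (add (sub (sub (sub (add (add (add (add (sub (sub C x18102) x18094) x18064) x18136) x17992) x18208) x17938) x19072) x15184) x604) x9352) x11540)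
  (sub (add (add (sub (sub (sub (add (add (add (add (add (add (sub C x18100) x18090) x18114) x18066) x18138) x17994) x18210) x17940) x19074) x15186) x606) x9354) x4982)
  (add (add (add (add (sub (sub (sub (add (add (sub (sub (sub C x18114) x18098) x18128) x18002) x18218) x17948) x19082) x15194) x614) x9362) x4986) x11548)
  (sub (add (add (sub (sub (sub (add (add (sub (add (add (sub C x18110) x18090) x18102) x18132) x18006) x18222) x17952) x19086) x15198) x618) x9366) x4994)
  (add (add (add (add (sub (sub (sub (sub (sub (sub (sub C x18124) x18128) x18086) x18176) x17960) x19094) x15206) x626) x9374) x4998) x11560)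
  (sub (add (add (sub (sub (sub (sub (sub (sub (sub C x18122) x18136) x18088) x18178) x17962) x19096) x15208) x628) x9376) x11564)
  (add (add (add (add (sub (sub (sub (sub (sub (sub (sub C x18132) x18122) x18110) x18182) x17966) x19100) x15212) x632) x9380) x5004) x11566)
  (sub (add (add (sub (sub (sub (sub (sub (sub (sub C x18128) x18138) x18114) x18186) x17970) x19104) x15216) x636) x9384) x5012)
  (sub (add (add (sub (sub (sub (sub (add (add (sub (sub C x18138) x18124) x18064) x18100) x18190) x17974) x19108) x15220) x640) x9388) x11576)
  (sub (add (add (sub (sub (sub (sub (add (add (sub (sub C x18136) x18132) x18066) x18102) x18192) x17976) x19110) x15222) x642) x9390) x5018)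
  (add (add (add (add (sub (sub (add (add (sub (add (add (add (add (sub C x18150) x18158) x18170) x18182) x18218) x18038) x17498) x17822) x19118) x15230) x650) x9398) x5022) x11584)
  (sub (add (add (sub (sub (add (add (sub (add (add (sub (sub C x18146) x18162) x18186) x18222) x18042) x17502) x17826) x19122) x15234) x654) x9402) x5030)
  (add (add (add (add (sub (sub (add (add (sub (sub (add (add (sub C x18160) x18146) x18170) x18176) x18050) x17510) x17834) x19130) x15242) x662) x9410) x5034) x11596)
  (sub (add (add (sub (sub (add (add (sub (sub (sub (sub C x18158) x18166) x18178) x18052) x17512) x17836) x19132) x15244) x664) x9412) x11600)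
  (sub (add (add (sub (sub (add (add (sub (sub (sub (add (add C x18166) x18170) x18150) x18198) x18054) x17514) x17838) x19134) x15246) x666) x9414) x5042)
  (sub (add (add (sub (sub (add (add (sub (sub (sub (add (add C x18162) x18170) x18160) x18202) x18058) x17518) x17842) x19138) x15250) x670) x9418) x11606)
  (add (add (add (add (sub (sub (add (add (sub (sub (add (add (add (add C x18162) x18166) x18146) x18158) x18206) x18062) x17522) x17846) x19142) x15254) x674) x9422) x5046) x11608)
  (add (add (add (add (sub (sub (add (add (sub (sub (sub (sub C x18178) x18182) x18158) x18122) x17528) x17852) x19148) x15260) x680) x9428) x5052) x11614)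
  (sub (add (add (sub (sub (add (add (sub (sub (sub (sub C x18176) x18190) x18160) x18124) x17530) x17854) x19150) x15262) x682) x9430) x11618)
  (add (add (add (add (sub (sub (add (add (sub (add (add (sub (sub C x18186) x18176) x18146) x18218) x18128) x17534) x17858) x19154) x15266) x686) x9434) x5058) x11620)
  (sub (add (add (sub (sub (add (add (sub (add (add (sub (sub C x18182) x18192) x18150) x18222) x18132) x17538) x17862) x19158) x15270) x690) x9438) x5066)
  (sub (add (add (sub (sub (add (add (sub (sub (sub (sub C x18192) x18178) x18208) x18136) x17542) x17866) x19162) x15274) x694) x9442) x11630)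
  (sub (add (add (sub (sub (add (add (sub (sub (sub (sub C x18190) x18186) x18210) x18138) x17544) x17868) x19164) x15276) x696) x9444) x5072)
  (sub (add (add (sub (sub (add (add (add (add (sub (add (add (add (add C x18202) x18206) x18210) x18222) x18162) x17982) x18090) x17550) x17874) x19170) x15282) x702) x9450) x5078)
  (sub (add (add (sub (sub (add (add (add (add (sub (sub (add (add C x18198) x18206) x18208) x18166) x17986) x18094) x17554) x17878) x19174) x15286) x706) x9454) x11642)
  (add (add (add (add (sub (sub (add (add (add (add (sub (sub (add (add C x18198) x18202) x18218) x18170) x17990) x18098) x17558) x17882) x19178) x15290) x710) x9458) x5082) x11644)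
  (sub (add (add (sub (sub (add (add (add (add (sub (sub (sub C x18210) x18202) x18190) x17992) x18100) x17560) x17884) x19180) x15292) x712) x9460) x11648)
  (sub (add (add (sub (sub (add (add (add (add (sub (add (add (sub C x18208) x18198) x18222) x18192) x17994) x18102) x17562) x17886) x19182) x15294) x714) x9462) x5090)
  (add (add (add (add (sub (sub (add (add (add (add (add (add (sub (sub C x18222) x18206) x18146) x18182) x18002) x18110) x17570) x17894) x19190) x15302) x722) x9470) x5094) x11656)
  (sub (add (add (sub (sub (add (add (add (add (add (add (add (add (sub C x18218) x18198) x18210) x18150) x18186) x18006) x18114) x17574) x17898) x19194) x15306) x726) x9474) x5102)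
  (add (add (add (add (sub (sub (add (add (add (add (add (add (sub (sub C x18232) x18236) x18266) x18302) x18338) x18446) x18554) x18878) x17744) x16772) x734) x9482) x5106) x11668)
  (sub (add (add (sub (sub (add (add (add (add (add (add (sub (sub C x18230) x18244) x18268) x18304) x18340) x18448) x18556) x18880) x17746) x16774) x736) x9484) x11672)
  (add (add (add (add (sub (sub (add (add (add (add (sub (sub (sub C x18240) x18230) x18254) x18344) x18452) x18560) x18884) x17750) x16778) x740) x9488) x5112) x11674)
  (sub (add (add (sub (sub (add (add (add (add (sub (sub (sub C x18236) x18246) x18258) x18348) x18456) x18564) x18888) x17754) x16782) x744) x9492) x5120)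
  (sub (add (add (sub (sub (add (add (add (add (sub (sub (sub C x18246) x18232) x18280) x18352) x18460) x18568) x18892) x17758) x16786) x748) x9496) x11684)
  (sub (add (add (sub (sub (add (add (add (add (sub (sub (sub C x18244) x18240) x18282) x18354) x18462) x18570) x18894) x17760) x16788) x750) x9498) x5126)
  (add (add (add (add (sub (sub (add (add (sub (sub (add (add (sub C x18258) x18266) x18278) x18236) x18308) x18578) x18902) x17768) x16796) x758) x9506) x5130) x11692)
  (sub (add (add (sub (sub (add (add (sub (sub (sub (sub C x18254) x18270) x18240) x18312) x18582) x18906) x17772) x16800) x762) x9510) x5138)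
  (add (add (add (add (sub (sub (add (add (sub (add (add (add (add (sub C x18268) x18254) x18278) x18230) x18302) x18320) x18590) x18914) x17780) x16808) x770) x9518) x5142) x11704)
  (sub (add (add (sub (sub (add (add (sub (add (add (sub (sub C x18266) x18274) x18232) x18304) x18322) x18592) x18916) x17782) x16810) x772) x9520) x11708)
  (sub (add (add (sub (sub (add (add (sub (sub (sub (add (add C x18274) x18278) x18258) x18288) x18324) x18594) x18918) x17784) x16812) x774) x9522) x5150)
  (sub (add (add (sub (sub (add (add (sub (sub (sub (add (add C x18270) x18278) x18268) x18292) x18328) x18598) x18922) x17788) x16816) x778) x9526) x11714)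
  (add (add (add (add (sub (sub (add (add (sub (sub (add (add (add (add C x18270) x18274) x18254) x18266) x18296) x18332) x18602) x18926) x17792) x16820) x782) x9530) x5154) x11716)
  (sub (add (add (sub (sub (add (add (sub (sub (add (add (sub C x18282) x18292) x18304) x18244) x18388) x18604) x18928) x17794) x16822) x784) x9532) x11720)
  (sub (add (add (sub (sub (add (add (sub (sub (sub (sub C x18280) x18288) x18246) x18390) x18606) x18930) x17796) x16824) x786) x9534) x5162)
  (sub (add (add (sub (sub (add (add (sub (sub (sub (add (add C x18292) x18296) x18282) x18270) x18396) x18612) x18936) x17802) x16830) x792) x9540) x5168)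
  (sub (add (add (sub (sub (add (add (sub (sub (add (add (add (add C x18288) x18296) x18280) x18304) x18274) x18400) x18616) x18940) x17806) x16834) x796) x9544) x11732)
  (add (add (add (add (sub (sub (add (add (sub (sub (sub (add (add C x18288) x18292) x18302) x18278) x18404) x18620) x18944) x17810) x16838) x800) x9548) x5172) x11734)
  (add (add (add (add (sub (sub (add (add (sub (add (add (sub (sub C x18304) x18296) x18230) x18266) x18410) x18626) x18950) x17816) x16844) x806) x9554) x5178) x11740)
  (sub (add (add (sub (sub (add (add (sub (add (add (add (add (sub C x18302) x18280) x18292) x18232) x18268) x18412) x18628) x18952) x17818) x16846) x808) x9556) x11744)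
  (add (add (add (add (sub (sub (sub (sub (add (add (add (add (sub C x18312) x18320) x18332) x18344) x18380) x18254) x18470) x17822) x16850) x812) x9560) x5184) x11746)
  (sub (add (add (sub (sub (sub (sub (add (add (sub (sub C x18308) x18324) x18348) x18384) x18258) x18474) x17826) x16854) x816) x9564) x5192)
  (add (add (add (add (sub (sub (sub (sub (sub (add (add (sub C x18322) x18308) x18332) x18338) x18266) x18482) x17834) x16862) x824) x9572) x5196) x11758)
  (sub (add (add (sub (sub (sub (sub (sub (sub (sub C x18320) x18328) x18340) x18268) x18484) x17836) x16864) x826) x9574) x11762)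
  (sub (add (add (sub (sub (sub (sub (sub (sub (add (add C x18328) x18332) x18312) x18360) x18270) x18486) x17838) x16866) x828) x9576) x5204)
  (sub (add (add (sub (sub (sub (sub (sub (sub (add (add C x18324) x18332) x18322) x18364) x18274) x18490) x17842) x16870) x832) x9580) x11768)
  (add (add (add (add (sub (sub (sub (sub (sub (add (add (add (add C x18324) x18328) x18308) x18320) x18368) x18278) x18494) x17846) x16874) x836) x9584) x5208) x11770)
  (add (add (add (add (sub (sub (sub (add (add (sub (sub (sub C x18340) x18344) x18320) x18230) x18446) x18500) x17852) x16880) x842) x9590) x5214) x11776)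
  (sub (add (add (sub (sub (sub (add (add (sub (sub (sub C x18338) x18352) x18322) x18232) x18448) x18502) x17854) x16882) x844) x9592) x11780)
  (add (add (add (add (sub (sub (sub (add (add (add (add (sub (sub C x18348) x18338) x18308) x18380) x18236) x18452) x18506) x17858) x16886) x848) x9596) x5220) x11782)
  (sub (add (add (sub (sub (sub (add (add (add (add (sub (sub C x18344) x18354) x18312) x18384) x18240) x18456) x18510) x17862) x16890) x852) x9600) x5228)
  (sub (add (add (sub (sub (sub (add (add (sub (sub (sub C x18354) x18340) x18370) x18244) x18460) x18514) x17866) x16894) x856) x9604) x11792)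
  (sub (add (add (sub (sub (sub (add (add (sub (sub (sub C x18352) x18348) x18372) x18246) x18462) x18516) x17868) x16896) x858) x9606) x5234)
  (sub (add (add (sub (sub (sub (sub (sub (add (add (add (add C x18364) x18368) x18372) x18384) x18324) x18414) x18522) x17874) x16902) x864) x9612) x5240)
  (sub (add (add (sub (sub (sub (sub (sub (sub (add (add C x18360) x18368) x18370) x18328) x18418) x18526) x17878) x16906) x868) x9616) x11804)
  (add (add (add (add (sub (sub (sub (sub (sub (sub (add (add C x18360) x18364) x18380) x18332) x18422) x18530) x17882) x16910) x872) x9620) x5244) x11806)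
  (sub (add (add (sub (sub (sub (sub (sub (sub (sub C x18372) x18364) x18352) x18424) x18532) x17884) x16912) x874) x9622) x11810)
  (sub (add (add (sub (sub (sub (sub (sub (add (add (sub C x18370) x18360) x18384) x18354) x18426) x18534) x17886) x16914) x876) x9624) x5252)
  (add (add (add (add (sub (sub (sub (sub (add (add (sub (sub C x18384) x18368) x18308) x18344) x18434) x18542) x17894) x16922) x884) x9632) x5256) x11818)
  (sub (add (add (sub (sub (sub (sub (add (add (add (add (sub C x18380) x18360) x18372) x18312) x18348) x18438) x18546) x17898) x16926) x888) x9636) x5264)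
  (sub (add (add (sub (sub (sub (sub (add (add (add (add (sub C x18390) x18400) x18412) x18424) x18460) x18280) x18712) x17902) x16930) x892) x9640) x11828)
  (sub (add (add (sub (sub (sub (sub (add (add (sub (sub C x18388) x18396) x18426) x18462) x18282) x18714) x17904) x16932) x894) x9642) x5270)
  (sub (add (add (sub (sub (sub (sub (sub (sub (add (add C x18400) x18404) x18390) x18414) x18288) x18720) x17910) x16938) x900) x9648) x5276)
  (sub (add (add (sub (sub (sub (sub (sub (add (add (add (add C x18396) x18404) x18388) x18412) x18418) x18292) x18724) x17914) x16942) x904) x9652) x11840)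
  (add (add (add (add (sub (sub (sub (sub (sub (sub (add (add C x18396) x18400) x18410) x18422) x18296) x18728) x17918) x16946) x908) x9656) x5280) x11842)
  (add (add (add (add (sub (sub (sub (sub (sub (sub (sub C x18412) x18404) x18446) x18302) x18734) x17924) x16952) x914) x9662) x5286) x11848)
  (sub (add (add (sub (sub (sub (sub (sub (add (add (sub C x18410) x18388) x18400) x18448) x18304) x18736) x17926) x16954) x916) x9664) x11852)
  (sub (add (add (sub (sub (sub (sub (sub (add (add (add (add C x18418) x18422) x18426) x18438) x18396) x18360) x18738) x17928) x16956) x918) x9666) x5294)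
  (sub (add (add (sub (sub (sub (sub (sub (sub (add (add C x18414) x18422) x18424) x18400) x18364) x18742) x17932) x16960) x922) x9670) x11858)
  (add (add (add (add (sub (sub (sub (sub (sub (sub (add (add C x18414) x18418) x18434) x18404) x18368) x18746) x17936) x16964) x926) x9674) x5298) x11860)
  (sub (add (add (sub (sub (sub (sub (add (add (sub (sub C x18426) x18418) x18388) x18460) x18370) x18748) x17938) x16966) x928) x9676) x11864)
  (sub (add (add (sub (sub (sub (sub (add (add (add (add (sub C x18424) x18414) x18438) x18390) x18462) x18372) x18750) x17940) x16968) x930) x9678) x5306)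
  (add (add (add (add (sub (sub (sub (sub (sub (sub (sub C x18438) x18422) x18452) x18380) x18758) x17948) x16976) x938) x9686) x5310) x11872)
  (sub (add (add (sub (sub (sub (sub (sub (add (add (sub C x18434) x18414) x18426) x18456) x18384) x18762) x17952) x16980) x942) x9690) x5318)
  (add (add (add (add (sub (sub (sub (add (add (sub (sub (sub C x18448) x18452) x18410) x18230) x18338) x18770) x17960) x16988) x950) x9698) x5322) x11884)
  (sub (add (add (sub (sub (sub (add (add (sub (sub (sub C x18446) x18460) x18412) x18232) x18340) x18772) x17962) x16990) x952) x9700) x11888)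
  (add (add (add (add (sub (sub (sub (add (add (sub (sub (sub C x18456) x18446) x18434) x18236) x18344) x18776) x17966) x16994) x956) x9704) x5328) x11890)
  (sub (add (add (sub (sub (sub (add (add (sub (sub (sub C x18452) x18462) x18438) x18240) x18348) x18780) x17970) x16998) x960) x9708) x5336)
  (sub (add (add (sub (sub (sub (add (add (add (add (sub (sub C x18462) x18448) x18388) x18424) x18244) x18352) x18784) x17974) x17002) x964) x9712) x11900)
  (sub (add (add (sub (sub (sub (add (add (add (add (sub (sub C x18460) x18456) x18390) x18426) x18246) x18354) x18786) x17976) x17004) x966) x9714) x5342)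
  (add (add (add (add (sub (add (add (sub (add (add (add (add (add (add (sub C x18474) x18482) x18494) x18506) x18542) x18578) x18686) x18308) x17498) x19442) x17012) x974) x9722) x5346) x11908)
  (sub (add (add (sub (add (add (sub (add (add (add (add (sub (sub C x18470) x18486) x18510) x18546) x18582) x18690) x18312) x17502) x19446) x17016) x978) x9726) x5354)
  (add (add (add (add (sub (add (add (sub (add (add (sub (add (add (sub C x18484) x18470) x18494) x18500) x18590) x18698) x18320) x17510) x19454) x17024) x986) x9734) x5358) x11920)
  (sub (add (add (sub (add (add (sub (add (add (sub (sub (sub C x18482) x18490) x18502) x18592) x18700) x18322) x17512) x19456) x17026) x988) x9736) x11924)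
  (sub (add (add (sub (add (add (sub (add (add (sub (sub (add (add C x18490) x18494) x18474) x18522) x18594) x18702) x18324) x17514) x19458) x17028) x990) x9738) x5366)
  (sub (add (add (sub (add (add (sub (add (add (sub (sub (add (add C x18486) x18494) x18484) x18526) x18598) x18706) x18328) x17518) x19462) x17032) x994) x9742) x11930)
  (add (add (add (add (sub (add (add (sub (add (add (sub (add (add (add (add C x18486) x18490) x18470) x18482) x18530) x18602) x18710) x18332) x17522) x19466) x17036) x998) x9746) x5370) x11932)
  (add (add (add (add (sub (add (add (sub (sub (sub (sub (sub C x18502) x18506) x18482) x18554) x18338) x17528) x19472) x17042) x1004) x9752) x5376) x11938)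
  (sub (add (add (sub (add (add (sub (sub (sub (sub (sub C x18500) x18514) x18484) x18556) x18340) x17530) x19474) x17044) x1006) x9754) x11942)
  (add (add (add (add (sub (add (add (sub (sub (add (add (sub (sub C x18510) x18500) x18470) x18542) x18560) x18344) x17534) x19478) x17048) x1010) x9758) x5382) x11944)
  (sub (add (add (sub (add (add (sub (sub (add (add (sub (sub C x18506) x18516) x18474) x18546) x18564) x18348) x17538) x19482) x17052) x1014) x9762) x5390)
  (sub (add (add (sub (add (add (sub (sub (sub (sub (sub C x18516) x18502) x18532) x18568) x18352) x17542) x19486) x17056) x1018) x9766) x11954)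
  (sub (add (add (sub (add (add (sub (sub (sub (sub (sub C x18514) x18510) x18534) x18570) x18354) x17544) x19488) x17058) x1020) x9768) x5396)
  (sub (add (add (sub (add (add (sub (sub (sub (add (add (add (add C x18526) x18530) x18534) x18546) x18486) x18630) x18360) x17550) x19494) x17064) x1026) x9774) x5402)
  (sub (add (add (sub (add (add (sub (sub (sub (sub (add (add C x18522) x18530) x18532) x18490) x18634) x18364) x17554) x19498) x17068) x1030) x9778) x11966)
  (add (add (add (add (sub (add (add (sub (sub (sub (sub (add (add C x18522) x18526) x18542) x18494) x18638) x18368) x17558) x19502) x17072) x1034) x9782) x5406) x11968)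
  (sub (add (add (sub (add (add (sub (sub (sub (sub (sub C x18534) x18526) x18514) x18640) x18370) x17560) x19504) x17074) x1036) x9784) x11972)
  (sub (add (add (sub (add (add (sub (sub (sub (add (add (sub C x18532) x18522) x18546) x18516) x18642) x18372) x17562) x19506) x17076) x1038) x9786) x5414)
  (add (add (add (add (sub (add (add (sub (sub (add (add (sub (sub C x18546) x18530) x18470) x18506) x18650) x18380) x17570) x19514) x17084) x1046) x9794) x5418) x11980)
  (sub (add (add (sub (add (add (sub (sub (add (add (add (add (sub C x18542) x18522) x18534) x18474) x18510) x18654) x18384) x17574) x19518) x17088) x1050) x9798) x5426)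
  (add (add (add (add (sub (add (add (add (add (sub (add (add (sub (sub C x18556) x18560) x18590) x18626) x18500) x18230) x18878) x17582) x19526) x17096) x1058) x9806) x5430) x11992)
  (sub (add (add (sub (add (add (add (add (sub (add (add (sub (sub C x18554) x18568) x18592) x18628) x18502) x18232) x18880) x17584) x19528) x17098) x1060) x9808) x11996)
  (add (add (add (add (sub (add (add (add (add (sub (sub (sub (sub C x18564) x18554) x18578) x18506) x18236) x18884) x17588) x19532) x17102) x1064) x9812) x5436) x11998)
  (sub (add (add (sub (add (add (add (add (sub (sub (sub (sub C x18560) x18570) x18582) x18510) x18240) x18888) x17592) x19536) x17106) x1068) x9816) x5444)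
  (sub (add (add (sub (add (add (add (add (sub (sub (sub (sub C x18570) x18556) x18604) x18514) x18244) x18892) x17596) x19540) x17110) x1072) x9820) x12008)
  (sub (add (add (sub (add (add (add (add (sub (sub (sub (sub C x18568) x18564) x18606) x18516) x18246) x18894) x17598) x19542) x17112) x1074) x9822) x5450)
  (add (add (add (add (sub (add (add (add (add (add (add (sub (add (add (sub C x18582) x18590) x18602) x18560) x18470) x18686) x18254) x18902) x17606) x19550) x17120) x1082) x9830) x5454) x12016)
  (sub (add (add (sub (add (add (add (add (add (add (sub (sub (sub C x18578) x18594) x18564) x18474) x18690) x18258) x18906) x17610) x19554) x17124) x1086) x9834) x5462)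
  (add (add (add (add (sub (add (add (add (add (add (add (add (add (add (add (sub C x18592) x18578) x18602) x18554) x18626) x18482) x18698) x18266) x18914) x17618) x19562) x17132) x1094) x9842) x5466) x12028)
  (sub (add (add (sub (add (add (add (add (add (add (add (add (sub (sub C x18590) x18598) x18556) x18628) x18484) x18700) x18268) x18916) x17620) x19564) x17134) x1096) x9844) x12032)
  (sub (add (add (sub (add (add (add (add (add (add (sub (sub (add (add C x18598) x18602) x18582) x18612) x18486) x18702) x18270) x18918) x17622) x19566) x17136) x1098) x9846) x5474)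
  (sub (add (add (sub (add (add (add (add (add (add (sub (sub (add (add C x18594) x18602) x18592) x18616) x18490) x18706) x18274) x18922) x17626) x19570) x17140) x1102) x9850) x12038)
  (add (add (add (add (sub (add (add (add (add (add (add (sub (add (add (add (add C x18594) x18598) x18578) x18590) x18620) x18494) x18710) x18278) x18926) x17630) x19574) x17144) x1106) x9854) x5478) x12040)
  (sub (add (add (sub (add (add (add (add (sub (sub (add (add (sub C x18606) x18616) x18628) x18568) x18658) x18280) x18928) x17632) x19576) x17146) x1108) x9856) x12044)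
  (sub (add (add (sub (add (add (add (add (sub (sub (sub (sub C x18604) x18612) x18570) x18660) x18282) x18930) x17634) x19578) x17148) x1110) x9858) x5486)
  (sub (add (add (sub (add (add (add (add (sub (sub (sub (add (add C x18616) x18620) x18606) x18594) x18666) x18288) x18936) x17640) x19584) x17154) x1116) x9864) x5492)
  (sub (add (add (sub (add (add (add (add (sub (sub (add (add (add (add C x18612) x18620) x18604) x18628) x18598) x18670) x18292) x18940) x17644) x19588) x17158) x1120) x9868) x12056)
  (add (add (add (add (sub (add (add (add (add (sub (sub (sub (add (add C x18612) x18616) x18626) x18602) x18674) x18296) x18944) x17648) x19592) x17162) x1124) x9872) x5496) x12058)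
  (add (add (add (add (sub (add (add (add (add (sub (add (add (sub (sub C x18628) x18620) x18554) x18590) x18680) x18302) x18950) x17654) x19598) x17168) x1130) x9878) x5502) x12064)
  (sub (add (add (sub (add (add (add (add (sub (add (add (add (add (sub C x18626) x18604) x18616) x18556) x18592) x18682) x18304) x18952) x17656) x19600) x17170) x1132) x9880) x12068)
  (sub (add (add (sub (add (add (sub (sub (add (add (add (add (add (add C x18634) x18638) x18642) x18654) x18666) x18702) x18522) x18792) x17658) x19602) x17172) x1134) x9882) x5510)
  (sub (add (add (sub (add (add (sub (sub (add (add (sub (add (add C x18630) x18638) x18640) x18670) x18706) x18526) x18796) x17662) x19606) x17176) x1138) x9886) x12074)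
  (add (add (add (add (sub (add (add (sub (sub (add (add (sub (add (add C x18630) x18634) x18650) x18674) x18710) x18530) x18800) x17666) x19610) x17180) x1142) x9890) x5514) x12076)
  (sub (add (add (sub (add (add (sub (sub (sub (sub (sub C x18642) x18634) x18658) x18532) x18802) x17668) x19612) x17182) x1144) x9892) x12080)
  (sub (add (add (sub (add (add (sub (sub (sub (add (add (sub C x18640) x18630) x18654) x18660) x18534) x18804) x17670) x19614) x17184) x1146) x9894) x5522)
  (add (add (add (add (sub (add (add (sub (sub (sub (sub (sub C x18654) x18638) x18686) x18542) x18812) x17678) x19622) x17192) x1154) x9902) x5526) x12088)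
  (sub (add (add (sub (add (add (sub (sub (sub (add (add (sub C x18650) x18630) x18642) x18690) x18546) x18816) x17682) x19626) x17196) x1158) x9906) x5534)
  (sub (add (add (sub (add (add (sub (sub (sub (add (add (sub C x18660) x18670) x18682) x18640) x18604) x18820) x17686) x19630) x17200) x1162) x9910) x12098)
  (sub (add (add (sub (add (add (sub (sub (sub (sub (sub C x18658) x18666) x18642) x18606) x18822) x17688) x19632) x17202) x1164) x9912) x5540)
  (sub (add (add (sub (add (add (sub (sub (add (add (sub (add (add C x18670) x18674) x18660) x18630) x18702) x18612) x18828) x17694) x19638) x17208) x1170) x9918) x5546)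
  (sub (add (add (sub (add (add (sub (sub (add (add (add (add (add (add C x18666) x18674) x18658) x18682) x18634) x18706) x18616) x18832) x17698) x19642) x17212) x1174) x9922) x12110)
  (add (add (add (add (sub (add (add (sub (sub (add (add (sub (add (add C x18666) x18670) x18680) x18638) x18710) x18620) x18836) x17702) x19646) x17216) x1178) x9926) x5550) x12112)
  (add (add (add (add (sub (add (add (sub (sub (sub (sub (sub C x18682) x18674) x18698) x18626) x18842) x17708) x19652) x17222) x1184) x9932) x5556) x12118)
  (sub (add (add (sub (add (add (sub (sub (sub (add (add (sub C x18680) x18658) x18670) x18700) x18628) x18844) x17710) x19654) x17224) x1186) x9934) x12122)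
  (add (add (add (add (sub (add (add (sub (add (add (sub (add (add (sub C x18690) x18698) x18710) x18650) x18470) x18578) x18848) x17714) x19658) x17228) x1190) x9938) x5562) x12124)
  (sub (add (add (sub (add (add (sub (add (add (sub (sub (sub C x18686) x18702) x18654) x18474) x18582) x18852) x17718) x19662) x17232) x1194) x9942) x5570)
  (add (add (add (add (sub (add (add (sub (add (add (sub (add (add (sub C x18700) x18686) x18710) x18680) x18482) x18590) x18860) x17726) x19670) x17240) x1202) x9950) x5574) x12136)
  (sub (add (add (sub (add (add (sub (add (add (sub (sub (sub C x18698) x18706) x18682) x18484) x18592) x18862) x17728) x19672) x17242) x1204) x9952) x12140)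
  (sub (add (add (sub (add (add (sub (add (add (add (add (sub (add (add C x18706) x18710) x18690) x18630) x18666) x18486) x18594) x18864) x17730) x19674) x17244) x1206) x9954) x5582)
  (sub (add (add (sub (add (add (sub (add (add (add (add (sub (add (add C x18702) x18710) x18700) x18634) x18670) x18490) x18598) x18868) x17734) x19678) x17248) x1210) x9958) x12146)
  (add (add (add (add (sub (add (add (sub (add (add (add (add (add (add (add (add C x18702) x18706) x18686) x18698) x18638) x18674) x18494) x18602) x18872) x17738) x19682) x17252) x1214) x9962) x5586) x12148)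
  (sub (add (add (sub (sub (sub (add (add (add (add (add (add (sub C x18714) x18724) x18736) x18748) x18784) x18820) x18928) x18388) x19198) x17254) x1216) x9964) x12152)
  (sub (add (add (sub (sub (sub (add (add (add (add (sub (sub C x18712) x18720) x18750) x18786) x18822) x18930) x18390) x19200) x17256) x1218) x9966) x5594)
  (sub (add (add (sub (sub (sub (add (add (sub (sub (add (add C x18724) x18728) x18714) x18738) x18828) x18936) x18396) x19206) x17262) x1224) x9972) x5600)
  (sub (add (add (sub (sub (sub (add (add (sub (add (add (add (add C x18720) x18728) x18712) x18736) x18742) x18832) x18940) x18400) x19210) x17266) x1228) x9976) x12164)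
  (add (add (add (add (sub (sub (sub (add (add (sub (sub (add (add C x18720) x18724) x18734) x18746) x18836) x18944) x18404) x19214) x17270) x1232) x9980) x5604) x12166)
  (add (add (add (add (sub (sub (sub (add (add (sub (sub (sub C x18736) x18728) x18770) x18842) x18950) x18410) x19220) x17276) x1238) x9986) x5610) x12172)
  (sub (add (add (sub (sub (sub (add (add (sub (add (add (sub C x18734) x18712) x18724) x18772) x18844) x18952) x18412) x19222) x17278) x1240) x9988) x12176)
  (sub (add (add (sub (sub (sub (sub (sub (add (add (add (add C x18742) x18746) x18750) x18762) x18720) x18792) x18414) x19224) x17280) x1242) x9990) x5618)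
  (sub (add (add (sub (sub (sub (sub (sub (sub (add (add C x18738) x18746) x18748) x18724) x18796) x18418) x19228) x17284) x1246) x9994) x12182)
  (add (add (add (add (sub (sub (sub (sub (sub (sub (add (add C x18738) x18742) x18758) x18728) x18800) x18422) x19232) x17288) x1250) x9998) x5622) x12184)
  (sub (add (add (sub (sub (sub (sub (add (add (sub (sub C x18750) x18742) x18712) x18784) x18802) x18424) x19234) x17290) x1252) x10000) x12188)
  (sub (add (add (sub (sub (sub (sub (add (add (add (add (sub C x18748) x18738) x18762) x18714) x18786) x18804) x18426) x19236) x17292) x1254) x10002) x5630)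
  (add (add (add (add (sub (sub (sub (sub (sub (sub (sub C x18762) x18746) x18776) x18812) x18434) x19244) x17300) x1262) x10010) x5634) x12196)
  (sub (add (add (sub (sub (sub (sub (sub (add (add (sub C x18758) x18738) x18750) x18780) x18816) x18438) x19248) x17304) x1266) x10014) x5642)
  (add (add (add (add (sub (sub (sub (sub (sub (sub (sub C x18772) x18776) x18734) x18878) x18446) x19256) x17312) x1274) x10022) x5646) x12208)
  (sub (add (add (sub (sub (sub (sub (sub (sub (sub C x18770) x18784) x18736) x18880) x18448) x19258) x17314) x1276) x10024) x12212)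
  (add (add (add (add (sub (sub (sub (sub (sub (sub (sub C x18780) x18770) x18758) x18884) x18452) x19262) x17318) x1280) x10028) x5652) x12214)
  (sub (add (add (sub (sub (sub (sub (sub (sub (sub C x18776) x18786) x18762) x18888) x18456) x19266) x17322) x1284) x10032) x5660)
  (sub (add (add (sub (sub (sub (sub (add (add (sub (sub C x18786) x18772) x18712) x18748) x18892) x18460) x19270) x17326) x1288) x10036) x12224)
  (sub (add (add (sub (sub (sub (sub (add (add (sub (sub C x18784) x18780) x18714) x18750) x18894) x18462) x19272) x17328) x1290) x10038) x5666)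
  (sub (add (add (sub (sub (sub (sub (add (add (add (add (add (add C x18796) x18800) x18804) x18816) x18828) x18864) x18738) x18630) x19278) x17334) x1296) x10044) x5672)
  (sub (add (add (sub (sub (sub (sub (add (add (sub (add (add C x18792) x18800) x18802) x18832) x18868) x18742) x18634) x19282) x17338) x1300) x10048) x12236)
  (add (add (add (add (sub (sub (sub (sub (add (add (sub (add (add C x18792) x18796) x18812) x18836) x18872) x18746) x18638) x19286) x17342) x1304) x10052) x5676) x12238)
  (sub (add (add (sub (sub (sub (sub (sub (sub (sub C x18804) x18796) x18820) x18748) x18640) x19288) x17344) x1306) x10054) x12242)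
  (sub (add (add (sub (sub (sub (sub (sub (add (add (sub C x18802) x18792) x18816) x18822) x18750) x18642) x19290) x17346) x1308) x10056) x5684)
  (add (add (add (add (sub (sub (sub (sub (sub (sub (sub C x18816) x18800) x18848) x18758) x18650) x19298) x17354) x1316) x10064) x5688) x12250)
  (sub (add (add (sub (sub (sub (sub (sub (add (add (sub C x18812) x18792) x18804) x18852) x18762) x18654) x19302) x17358) x1320) x10068) x5696)
  (sub (add (add (sub (sub (sub (add (add (sub (add (add (sub C x18822) x18832) x18844) x18802) x18712) x18928) x18658) x19306) x17362) x1324) x10072) x12260)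
  (sub (add (add (sub (sub (sub (add (add (sub (sub (sub C x18820) x18828) x18804) x18714) x18930) x18660) x19308) x17364) x1326) x10074) x5702)
  (sub (add (add (sub (sub (sub (add (add (add (add (sub (add (add C x18832) x18836) x18822) x18792) x18864) x18720) x18936) x18666) x19314) x17370) x1332) x10080) x5708)
  (sub (add (add (sub (sub (sub (add (add (add (add (add (add (add (add C x18828) x18836) x18820) x18844) x18796) x18868) x18724) x18940) x18670) x19318) x17374) x1336) x10084) x12272)
  (add (add (add (add (sub (sub (sub (add (add (add (add (sub (add (add C x18828) x18832) x18842) x18800) x18872) x18728) x18944) x18674) x19322) x17378) x1340) x10088) x5712) x12274)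
  (add (add (add (add (sub (sub (sub (add (add (sub (sub (sub C x18844) x18836) x18860) x18734) x18950) x18680) x19328) x17384) x1346) x10094) x5718) x12280)
  (sub (add (add (sub (sub (sub (add (add (sub (add (add (sub C x18842) x18820) x18832) x18862) x18736) x18952) x18682) x19330) x17386) x1348) x10096) x12284)
  (add (add (add (add (sub (sub (sub (sub (sub (add (add (sub C x18852) x18860) x18872) x18812) x18902) x18686) x19334) x17390) x1352) x10100) x5724) x12286)
  (sub (add (add (sub (sub (sub (sub (sub (sub (sub C x18848) x18864) x18816) x18906) x18690) x19338) x17394) x1356) x10104) x5732)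
  (add (add (add (add (sub (sub (sub (sub (sub (add (add (sub C x18862) x18848) x18872) x18842) x18914) x18698) x19346) x17402) x1364) x10112) x5736) x12298)
  (sub (add (add (sub (sub (sub (sub (sub (sub (sub C x18860) x18868) x18844) x18916) x18700) x19348) x17404) x1366) x10114) x12302)
  (sub (add (add (sub (sub (sub (sub (add (add (sub (add (add C x18868) x18872) x18852) x18792) x18828) x18918) x18702) x19350) x17406) x1368) x10116) x5744)
  (sub (add (add (sub (sub (sub (sub (add (add (sub (add (add C x18864) x18872) x18862) x18796) x18832) x18922) x18706) x19354) x17410) x1372) x10120) x12308)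
  (add (add (add (add (sub (sub (sub (sub (add (add (add (add (add (add C x18864) x18868) x18848) x18860) x18800) x18836) x18926) x18710) x19358) x17414) x1376) x10124) x5748) x12310)
  (add (add (add (add (sub (sub (add (add (sub (add (add (sub (sub C x18880) x18884) x18914) x18950) x18770) x18230) x18554) x19364) x17420) x1382) x10130) x5754) x12316)
  (sub (add (add (sub (sub (add (add (sub (add (add (sub (sub C x18878) x18892) x18916) x18952) x18772) x18232) x18556) x19366) x17422) x1384) x10132) x12320)
  (add (add (add (add (sub (sub (add (add (sub (sub (sub (sub C x18888) x18878) x18902) x18776) x18236) x18560) x19370) x17426) x1388) x10136) x5760) x12322)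
  (sub (add (add (sub (sub (add (add (sub (sub (sub (sub C x18884) x18894) x18906) x18780) x18240) x18564) x19374) x17430) x1392) x10140) x5768)
  (sub (add (add (sub (sub (add (add (sub (sub (sub (sub C x18894) x18880) x18928) x18784) x18244) x18568) x19378) x17434) x1396) x10144) x12332)
  (sub (add (add (sub (sub (add (add (sub (sub (sub (sub C x18892) x18888) x18930) x18786) x18246) x18570) x19380) x17436) x1398) x10146) x5774)
  (add (add (add (add (sub (sub (add (add (sub (sub (add (add (sub C x18906) x18914) x18926) x18884) x18848) x18254) x18578) x19388) x17444) x1406) x10154) x5778) x12340)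
  (sub (add (add (sub (sub (add (add (sub (sub (sub (sub C x18902) x18918) x18888) x18852) x18258) x18582) x19392) x17448) x1410) x10158) x5786)
  (add (add (add (add (sub (sub (add (add (sub (add (add (add (add (sub C x18916) x18902) x18926) x18878) x18950) x18860) x18266) x18590) x19400) x17456) x1418) x10166) x5790) x12352)
  (sub (add (add (sub (sub (add (add (sub (add (add (sub (sub C x18914) x18922) x18880) x18952) x18862) x18268) x18592) x19402) x17458) x1420) x10168) x12356)
  (sub (add (add (sub (sub (add (add (sub (sub (sub (add (add C x18922) x18926) x18906) x18936) x18864) x18270) x18594) x19404) x17460) x1422) x10170) x5798)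
  (sub (add (add (sub (sub (add (add (sub (sub (sub (add (add C x18918) x18926) x18916) x18940) x18868) x18274) x18598) x19408) x17464) x1426) x10174) x12362)
  (add (add (add (add (sub (sub (add (add (sub (sub (add (add (add (add C x18918) x18922) x18902) x18914) x18944) x18872) x18278) x18602) x19412) x17468) x1430) x10178) x5802) x12364)
  (sub (add (add (sub (sub (add (add (add (add (sub (add (add (sub C x18930) x18940) x18952) x18892) x18712) x18820) x18280) x18604) x19414) x17470) x1432) x10180) x12368)
  (sub (add (add (sub (sub (add (add (add (add (sub (sub (sub C x18928) x18936) x18894) x18714) x18822) x18282) x18606) x19416) x17472) x1434) x10182) x5810)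
  (sub (add (add (sub (sub (add (add (add (add (sub (sub (add (add C x18940) x18944) x18930) x18918) x18720) x18828) x18288) x18612) x19422) x17478) x1440) x10188) x5816)
  (sub (add (add (sub (sub (add (add (add (add (sub (add (add (add (add C x18936) x18944) x18928) x18952) x18922) x18724) x18832) x18292) x18616) x19426) x17482) x1444) x10192) x12380)
  (add (add (add (add (sub (sub (add (add (add (add (sub (sub (add (add C x18936) x18940) x18950) x18926) x18728) x18836) x18296) x18620) x19430) x17486) x1448) x10196) x5820) x12382)
  (add (add (add (add (sub (sub (add (add (add (add (add (add (sub (sub C x18952) x18944) x18878) x18914) x18734) x18842) x18302) x18626) x19436) x17492) x1454) x10202) x5826) x12388)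
  (sub (add (add (sub (sub (add (add (add (add (add (add (add (add (sub C x18950) x18928) x18940) x18880) x18916) x18736) x18844) x18304) x18628) x19438) x17494) x1456) x10204) x12392)
  (sub (add (add (add (add (sub (add (add (add (add (add (add (add (add (add (add C x18958) x18962) x18966) x18978) x18990) x19026) x19062) x19170) x19278) x19602) x17982) x13122) x16038) x1458) x10206) x5834)
  (sub (add (add (add (add (sub (add (add (add (add (add (add (sub (add (add C x18954) x18962) x18964) x18994) x19030) x19066) x19174) x19282) x19606) x17986) x13126) x16042) x1462) x10210) x12398)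
  (add (add (add (add (add (add (sub (add (add (add (add (add (add (sub (add (add C x18954) x18958) x18974) x18998) x19034) x19070) x19178) x19286) x19610) x17990) x13130) x16046) x1466) x10214) x5838) x12400)
  (sub (add (add (add (add (sub (add (add (add (add (sub (sub (sub C x18966) x18958) x18982) x19072) x19180) x19288) x19612) x17992) x13132) x16048) x1468) x10216) x12404)
  (sub (add (add (add (add (sub (add (add (add (add (sub (add (add (sub C x18964) x18954) x18978) x18984) x19074) x19182) x19290) x19614) x17994) x13134) x16050) x1470) x10218) x5846)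
  (add (add (add (add (add (add (sub (add (add (add (add (sub (sub (sub C x18978) x18962) x19010) x19082) x19190) x19298) x19622) x18002) x13142) x16058) x1478) x10226) x5850) x12412)
  (sub (add (add (add (add (sub (add (add (add (add (sub (add (add (sub C x18974) x18954) x18966) x19014) x19086) x19194) x19302) x19626) x18006) x13146) x16062) x1482) x10230) x5858)
  (sub (add (add (add (add (sub (add (add (sub (sub (add (add (sub C x18984) x18994) x19006) x18964) x19036) x19306) x19630) x18010) x13150) x16066) x1486) x10234) x12422)
  (sub (add (add (add (add (sub (add (add (sub (sub (sub (sub C x18982) x18990) x18966) x19038) x19308) x19632) x18012) x13152) x16068) x1488) x10236) x5864)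
  (sub (add (add (add (add (sub (add (add (sub (add (add (sub (add (add C x18994) x18998) x18984) x18954) x19026) x19044) x19314) x19638) x18018) x13158) x16074) x1494) x10242) x5870)
  (sub (add (add (add (add (sub (add (add (sub (add (add (add (add (add (add C x18990) x18998) x18982) x19006) x18958) x19030) x19048) x19318) x19642) x18022) x13162) x16078) x1498) x10246) x12434)
  (add (add (add (add (add (add (sub (add (add (sub (add (add (sub (add (add C x18990) x18994) x19004) x18962) x19034) x19052) x19322) x19646) x18026) x13166) x16082) x1502) x10250) x5874) x12436)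
  (add (add (add (add (add (add (sub (add (add (sub (sub (sub (sub C x19006) x18998) x19022) x19058) x19328) x19652) x18032) x13172) x16088) x1508) x10256) x5880) x12442)
  (sub (add (add (add (add (sub (add (add (sub (sub (add (add (sub C x19004) x18982) x18994) x19024) x19060) x19330) x19654) x18034) x13174) x16090) x1510) x10258) x12446)
  (add (add (add (add (add (add (sub (add (add (sub (sub (add (add (sub C x19014) x19022) x19034) x18974) x19118) x19334) x19658) x18038) x13178) x16094) x1514) x10262) x5886) x12448)
  (sub (add (add (add (add (sub (add (add (sub (sub (sub (sub C x19010) x19026) x18978) x19122) x19338) x19662) x18042) x13182) x16098) x1518) x10266) x5894)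
  (add (add (add (add (add (add (sub (add (add (sub (sub (add (add (sub C x19024) x19010) x19034) x19004) x19130) x19346) x19670) x18050) x13190) x16106) x1526) x10274) x5898) x12460)
  (sub (add (add (add (add (sub (add (add (sub (sub (sub (sub C x19022) x19030) x19006) x19132) x19348) x19672) x18052) x13192) x16108) x1528) x10276) x12464)
  (sub (add (add (add (add (sub (add (add (sub (add (add (sub (add (add C x19030) x19034) x19014) x18954) x18990) x19134) x19350) x19674) x18054) x13194) x16110) x1530) x10278) x5906)
  (sub (add (add (add (add (sub (add (add (sub (add (add (sub (add (add C x19026) x19034) x19024) x18958) x18994) x19138) x19354) x19678) x18058) x13198) x16114) x1534) x10282) x12470)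
  (add (add (add (add (add (add (sub (add (add (sub (add (add (add (add (add (add C x19026) x19030) x19010) x19022) x18962) x18998) x19142) x19358) x19682) x18062) x13202) x16118) x1538) x10286) x5910) x12472)
  (sub (add (add (add (add (sub (sub (sub (add (add (add (add (sub C x19038) x19048) x19060) x19072) x19108) x18982) x19198) x18064) x13204) x16120) x1540) x10288) x12476)
  (sub (add (add (add (add (sub (sub (sub (add (add (sub (sub C x19036) x19044) x19074) x19110) x18984) x19200) x18066) x13206) x16122) x1542) x10290) x5918)
  (sub (add (add (add (add (sub (sub (sub (sub (sub (add (add C x19048) x19052) x19038) x19062) x18990) x19206) x18072) x13212) x16128) x1548) x10296) x5924)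
  (sub (add (add (add (add (sub (sub (sub (sub (add (add (add (add C x19044) x19052) x19036) x19060) x19066) x18994) x19210) x18076) x13216) x16132) x1552) x10300) x12488)
  (add (add (add (add (add (add (sub (sub (sub (sub (sub (add (add C x19044) x19048) x19058) x19070) x18998) x19214) x18080) x13220) x16136) x1556) x10304) x5928) x12490)
  (add (add (add (add (add (add (sub (sub (sub (sub (sub (sub C x19060) x19052) x19094) x19004) x19220) x18086) x13226) x16142) x1562) x10310) x5934) x12496)
  (sub (add (add (add (add (sub (sub (sub (sub (add (add (sub C x19058) x19036) x19048) x19096) x19006) x19222) x18088) x13228) x16144) x1564) x10312) x12500)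
  (sub (add (add (add (add (sub (sub (add (add (sub (add (add (add (add C x19066) x19070) x19074) x19086) x19044) x18954) x19170) x19224) x18090) x13230) x16146) x1566) x10314) x5942)
  (sub (add (add (add (add (sub (sub (add (add (sub (sub (add (add C x19062) x19070) x19072) x19048) x18958) x19174) x19228) x18094) x13234) x16150) x1570) x10318) x12506)
  (add (add (add (add (add (add (sub (sub (add (add (sub (sub (add (add C x19062) x19066) x19082) x19052) x18962) x19178) x19232) x18098) x13238) x16154) x1574) x10322) x5946) x12508)
  (sub (add (add (add (add (sub (sub (add (add (add (add (sub (sub C x19074) x19066) x19036) x19108) x18964) x19180) x19234) x18100) x13240) x16156) x1576) x10324) x12512)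
  (sub (add (add (add (add (sub (sub (add (add (add (add (add (add (sub C x19072) x19062) x19086) x19038) x19110) x18966) x19182) x19236) x18102) x13242) x16158) x1578) x10326) x5954)
  (add (add (add (add (add (add (sub (sub (add (add (sub (sub (sub C x19086) x19070) x19100) x18974) x19190) x19244) x18110) x13250) x16166) x1586) x10334) x5958) x12520)
  (sub (add (add (add (add (sub (sub (add (add (sub (add (add (sub C x19082) x19062) x19074) x19104) x18978) x19194) x19248) x18114) x13254) x16170) x1590) x10338) x5966)
  (add (add (add (add (add (add (sub (sub (sub (sub (sub (sub C x19096) x19100) x19058) x19148) x19256) x18122) x13262) x16178) x1598) x10346) x5970) x12532)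
  (sub (add (add (add (add (sub (sub (sub (sub (sub (sub C x19094) x19108) x19060) x19150) x19258) x18124) x13264) x16180) x1600) x10348) x12536)
  (add (add (add (add (add (add (sub (sub (sub (sub (sub (sub C x19104) x19094) x19082) x19154) x19262) x18128) x13268) x16184) x1604) x10352) x5976) x12538)
  (sub (add (add (add (add (sub (sub (sub (sub (sub (sub C x19100) x19110) x19086) x19158) x19266) x18132) x13272) x16188) x1608) x10356) x5984)
  (sub (add (add (add (add (sub (sub (sub (add (add (sub (sub C x19110) x19096) x19036) x19072) x19162) x19270) x18136) x13276) x16192) x1612) x10360) x12548)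
  (sub (add (add (add (add (sub (sub (sub (add (add (sub (sub C x19108) x19104) x19038) x19074) x19164) x19272) x18138) x13278) x16194) x1614) x10362) x5990)
  (add (add (add (add (add (add (sub (sub (sub (add (add (add (add (sub C x19122) x19130) x19142) x19154) x19190) x19010) x19442) x18146) x13286) x16202) x1622) x10370) x5994) x12556)
  (sub (add (add (add (add (sub (sub (sub (add (add (sub (sub C x19118) x19134) x19158) x19194) x19014) x19446) x18150) x13290) x16206) x1626) x10374) x6002)
  (add (add (add (add (add (add (sub (sub (sub (sub (add (add (sub C x19132) x19118) x19142) x19148) x19022) x19454) x18158) x13298) x16214) x1634) x10382) x6006) x12568)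
  (sub (add (add (add (add (sub (sub (sub (sub (sub (sub C x19130) x19138) x19150) x19024) x19456) x18160) x13300) x16216) x1636) x10384) x12572)
  (sub (add (add (add (add (sub (sub (sub (sub (sub (add (add C x19138) x19142) x19122) x19170) x19026) x19458) x18162) x13302) x16218) x1638) x10386) x6014)
  (sub (add (add (add (add (sub (sub (sub (sub (sub (add (add C x19134) x19142) x19132) x19174) x19030) x19462) x18166) x13306) x16222) x1642) x10390) x12578)
  (add (add (add (add (add (add (sub (sub (sub (sub (add (add (add (add C x19134) x19138) x19118) x19130) x19178) x19034) x19466) x18170) x13310) x16226) x1646) x10394) x6018) x12580)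
  (add (add (add (add (add (add (sub (sub (sub (sub (sub (sub C x19150) x19154) x19130) x19094) x19472) x18176) x13316) x16232) x1652) x10400) x6024) x12586)
  (sub (add (add (add (add (sub (sub (sub (sub (sub (sub C x19148) x19162) x19132) x19096) x19474) x18178) x13318) x16234) x1654) x10402) x12590)
  (add (add (add (add (add (add (sub (sub (sub (add (add (sub (sub C x19158) x19148) x19118) x19190) x19100) x19478) x18182) x13322) x16238) x1658) x10406) x6030) x12592)
  (sub (add (add (add (add (sub (sub (sub (add (add (sub (sub C x19154) x19164) x19122) x19194) x19104) x19482) x18186) x13326) x16242) x1662) x10410) x6038)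
  (sub (add (add (add (add (sub (sub (sub (sub (sub (sub C x19164) x19150) x19180) x19108) x19486) x18190) x13330) x16246) x1666) x10414) x12602)
  (sub (add (add (add (add (sub (sub (sub (sub (sub (sub C x19162) x19158) x19182) x19110) x19488) x18192) x13332) x16248) x1668) x10416) x6044)
  (sub (add (add (add (add (sub (sub (add (add (sub (add (add (add (add C x19174) x19178) x19182) x19194) x19134) x18954) x19062) x19494) x18198) x13338) x16254) x1674) x10422) x6050)
  (sub (add (add (add (add (sub (sub (add (add (sub (sub (add (add C x19170) x19178) x19180) x19138) x18958) x19066) x19498) x18202) x13342) x16258) x1678) x10426) x12614)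
  (add (add (add (add (add (add (sub (sub (add (add (sub (sub (add (add C x19170) x19174) x19190) x19142) x18962) x19070) x19502) x18206) x13346) x16262) x1682) x10430) x6054) x12616)
  (sub (add (add (add (add (sub (sub (add (add (sub (sub (sub C x19182) x19174) x19162) x18964) x19072) x19504) x18208) x13348) x16264) x1684) x10432) x12620)
  (sub (add (add (add (add (sub (sub (add (add (sub (add (add (sub C x19180) x19170) x19194) x19164) x18966) x19074) x19506) x18210) x13350) x16266) x1686) x10434) x6062)
  (add (add (add (add (add (add (sub (sub (add (add (add (add (sub (sub C x19194) x19178) x19118) x19154) x18974) x19082) x19514) x18218) x13358) x16274) x1694) x10442) x6066) x12628)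
  (sub (add (add (add (add (sub (sub (add (add (add (add (add (add (sub C x19190) x19170) x19182) x19122) x19158) x18978) x19086) x19518) x18222) x13362) x16278) x1698) x10446) x6074)
  (sub (add (add (add (add (sub (sub (add (add (add (add (add (add (sub C x19200) x19210) x19222) x19234) x19270) x19306) x19414) x19036) x18712) x13366) x16282) x1702) x10450) x12638)
  (sub (add (add (add (add (sub (sub (add (add (add (add (sub (sub C x19198) x19206) x19236) x19272) x19308) x19416) x19038) x18714) x13368) x16284) x1704) x10452) x6080)
  (sub (add (add (add (add (sub (sub (add (add (sub (sub (add (add C x19210) x19214) x19200) x19224) x19314) x19422) x19044) x18720) x13374) x16290) x1710) x10458) x6086)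
  (sub (add (add (add (add (sub (sub (add (add (sub (add (add (add (add C x19206) x19214) x19198) x19222) x19228) x19318) x19426) x19048) x18724) x13378) x16294) x1714) x10462) x12650)
  (add (add (add (add (add (add (sub (sub (add (add (sub (sub (add (add C x19206) x19210) x19220) x19232) x19322) x19430) x19052) x18728) x13382) x16298) x1718) x10466) x6090) x12652)
  (add (add (add (add (add (add (sub (sub (add (add (sub (sub (sub C x19222) x19214) x19256) x19328) x19436) x19058) x18734) x13388) x16304) x1724) x10472) x6096) x12658)
  (sub (add (add (add (add (sub (sub (add (add (sub (add (add (sub C x19220) x19198) x19210) x19258) x19330) x19438) x19060) x18736) x13390) x16306) x1726) x10474) x12662)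
  (sub (add (add (add (add (sub (sub (sub (sub (add (add (add (add C x19228) x19232) x19236) x19248) x19206) x19278) x19062) x18738) x13392) x16308) x1728) x10476) x6104)
  (sub (add (add (add (add (sub (sub (sub (sub (sub (add (add C x19224) x19232) x19234) x19210) x19282) x19066) x18742) x13396) x16312) x1732) x10480) x12668)
  (add (add (add (add (add (add (sub (sub (sub (sub (sub (add (add C x19224) x19228) x19244) x19214) x19286) x19070) x18746) x13400) x16316) x1736) x10484) x6108) x12670)
  (sub (add (add (add (add (sub (sub (sub (add (add (sub (sub C x19236) x19228) x19198) x19270) x19288) x19072) x18748) x13402) x16318) x1738) x10486) x12674)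
  (sub (add (add (add (add (sub (sub (sub (add (add (add (add (sub C x19234) x19224) x19248) x19200) x19272) x19290) x19074) x18750) x13404) x16320) x1740) x10488) x6116)
  (add (add (add (add (add (add (sub (sub (sub (sub (sub (sub C x19248) x19232) x19262) x19298) x19082) x18758) x13412) x16328) x1748) x10496) x6120) x12682)
  (sub (add (add (add (add (sub (sub (sub (sub (add (add (sub C x19244) x19224) x19236) x19266) x19302) x19086) x18762) x13416) x16332) x1752) x10500) x6128)
  (add (add (add (add (add (add (sub (sub (sub (sub (sub (sub C x19258) x19262) x19220) x19364) x19094) x18770) x13424) x16340) x1760) x10508) x6132) x12694)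
  (sub (add (add (add (add (sub (sub (sub (sub (sub (sub C x19256) x19270) x19222) x19366) x19096) x18772) x13426) x16342) x1762) x10510) x12698)
  (add (add (add (add (add (add (sub (sub (sub (sub (sub (sub C x19266) x19256) x19244) x19370) x19100) x18776) x13430) x16346) x1766) x10514) x6138) x12700)
  (sub (add (add (add (add (sub (sub (sub (sub (sub (sub C x19262) x19272) x19248) x19374) x19104) x18780) x13434) x16350) x1770) x10518) x6146)
  (sub (add (add (add (add (sub (sub (sub (add (add (sub (sub C x19272) x19258) x19198) x19234) x19378) x19108) x18784) x13438) x16354) x1774) x10522) x12710)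
  (sub (add (add (add (add (sub (sub (sub (add (add (sub (sub C x19270) x19266) x19200) x19236) x19380) x19110) x18786) x13440) x16356) x1776) x10524) x6152)
  (sub (add (add (add (add (sub (add (add (sub (add (add (add (add (add (add C x19282) x19286) x19290) x19302) x19314) x19350) x19224) x18954) x19602) x18792) x13446) x16362) x1782) x10530) x6158)
  (sub (add (add (add (add (sub (add (add (sub (add (add (sub (add (add C x19278) x19286) x19288) x19318) x19354) x19228) x18958) x19606) x18796) x13450) x16366) x1786) x10534) x12722)
  (add (add (add (add (add (add (sub (add (add (sub (add (add (sub (add (add C x19278) x19282) x19298) x19322) x19358) x19232) x18962) x19610) x18800) x13454) x16370) x1790) x10538) x6162) x12724)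
  (sub (add (add (add (add (sub (add (add (sub (sub (sub (sub C x19290) x19282) x19306) x19234) x18964) x19612) x18802) x13456) x16372) x1792) x10540) x12728)
  (sub (add (add (add (add (sub (add (add (sub (sub (add (add (sub C x19288) x19278) x19302) x19308) x19236) x18966) x19614) x18804) x13458) x16374) x1794) x10542) x6170)
  (add (add (add (add (add (add (sub (add (add (sub (sub (sub (sub C x19302) x19286) x19334) x19244) x18974) x19622) x18812) x13466) x16382) x1802) x10550) x6174) x12736)
  (sub (add (add (add (add (sub (add (add (sub (sub (add (add (sub C x19298) x19278) x19290) x19338) x19248) x18978) x19626) x18816) x13470) x16386) x1806) x10554) x6182)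
  (sub (add (add (add (add (sub (add (add (add (add (sub (add (add (sub C x19308) x19318) x19330) x19288) x19198) x19414) x18982) x19630) x18820) x13474) x16390) x1810) x10558) x12746)
  (sub (add (add (add (add (sub (add (add (add (add (sub (sub (sub C x19306) x19314) x19290) x19200) x19416) x18984) x19632) x18822) x13476) x16392) x1812) x10560) x6188)
  (sub (add (add (add (add (sub (add (add (add (add (add (add (sub (add (add C x19318) x19322) x19308) x19278) x19350) x19206) x19422) x18990) x19638) x18828) x13482) x16398) x1818) x10566) x6194)
  (sub (add (add (add (add (sub (add (add (add (add (add (add (add (add (add (add C x19314) x19322) x19306) x19330) x19282) x19354) x19210) x19426) x18994) x19642) x18832) x13486) x16402) x1822) x10570) x12758)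
  (add (add (add (add (add (add (sub (add (add (add (add (add (add (sub (add (add C x19314) x19318) x19328) x19286) x19358) x19214) x19430) x18998) x19646) x18836) x13490) x16406) x1826) x10574) x6198) x12760)
  (add (add (add (add (add (add (sub (add (add (add (add (sub (sub (sub C x19330) x19322) x19346) x19220) x19436) x19004) x19652) x18842) x13496) x16412) x1832) x10580) x6204) x12766)
  (sub (add (add (add (add (sub (add (add (add (add (sub (add (add (sub C x19328) x19306) x19318) x19348) x19222) x19438) x19006) x19654) x18844) x13498) x16414) x1834) x10582) x12770)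
  (add (add (add (add (add (add (sub (add (add (sub (sub (add (add (sub C x19338) x19346) x19358) x19298) x19388) x19010) x19658) x18848) x13502) x16418) x1838) x10586) x6210) x12772)
  (sub (add (add (add (add (sub (add (add (sub (sub (sub (sub C x19334) x19350) x19302) x19392) x19014) x19662) x18852) x13506) x16422) x1842) x10590) x6218)
  (add (add (add (add (add (add (sub (add (add (sub (sub (add (add (sub C x19348) x19334) x19358) x19328) x19400) x19022) x19670) x18860) x13514) x16430) x1850) x10598) x6222) x12784)
  (sub (add (add (add (add (sub (add (add (sub (sub (sub (sub C x19346) x19354) x19330) x19402) x19024) x19672) x18862) x13516) x16432) x1852) x10600) x12788)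
  (sub (add (add (add (add (sub (add (add (sub (add (add (sub (add (add C x19354) x19358) x19338) x19278) x19314) x19404) x19026) x19674) x18864) x13518) x16434) x1854) x10602) x6230)
  (sub (add (add (add (add (sub (add (add (sub (add (add (sub (add (add C x19350) x19358) x19348) x19282) x19318) x19408) x19030) x19678) x18868) x13522) x16438) x1858) x10606) x12794)
  (add (add (add (add (add (add (sub (add (add (sub (add (add (add (add (add (add C x19350) x19354) x19334) x19346) x19286) x19322) x19412) x19034) x19682) x18872) x13526) x16442) x1862) x10610) x6234) x12796)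
  (add (add (add (add (add (add (sub (sub (sub (add (add (sub (sub C x19366) x19370) x19400) x19436) x19256) x19526) x18878) x13532) x16448) x1868) x10616) x6240) x12802)
  (sub (add (add (add (add (sub (sub (sub (add (add (sub (sub C x19364) x19378) x19402) x19438) x19258) x19528) x18880) x13534) x16450) x1870) x10618) x12806)
  (add (add (add (add (add (add (sub (sub (sub (sub (sub (sub C x19374) x19364) x19388) x19262) x19532) x18884) x13538) x16454) x1874) x10622) x6246) x12808)
  (sub (add (add (add (add (sub (sub (sub (sub (sub (sub C x19370) x19380) x19392) x19266) x19536) x18888) x13542) x16458) x1878) x10626) x6254)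
  (sub (add (add (add (add (sub (sub (sub (sub (sub (sub C x19380) x19366) x19414) x19270) x19540) x18892) x13546) x16462) x1882) x10630) x12818)
  (sub (add (add (add (add (sub (sub (sub (sub (sub (sub C x19378) x19374) x19416) x19272) x19542) x18894) x13548) x16464) x1884) x10632) x6260)
  (add (add (add (add (add (add (sub (sub (sub (sub (add (add (sub C x19392) x19400) x19412) x19370) x19334) x19550) x18902) x13556) x16472) x1892) x10640) x6264) x12826)
  (sub (add (add (add (add (sub (sub (sub (sub (sub (sub C x19388) x19404) x19374) x19338) x19554) x18906) x13560) x16476) x1896) x10644) x6272)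
  (add (add (add (add (add (add (sub (sub (sub (add (add (add (add (sub C x19402) x19388) x19412) x19364) x19436) x19346) x19562) x18914) x13568) x16484) x1904) x10652) x6276) x12838)
  (sub (add (add (add (add (sub (sub (sub (add (add (sub (sub C x19400) x19408) x19366) x19438) x19348) x19564) x18916) x13570) x16486) x1906) x10654) x12842)
  (sub (add (add (add (add (sub (sub (sub (sub (sub (add (add C x19408) x19412) x19392) x19422) x19350) x19566) x18918) x13572) x16488) x1908) x10656) x6284)
  (sub (add (add (add (add (sub (sub (sub (sub (sub (add (add C x19404) x19412) x19402) x19426) x19354) x19570) x18922) x13576) x16492) x1912) x10660) x12848)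
  (add (add (add (add (add (add (sub (sub (sub (sub (add (add (add (add C x19404) x19408) x19388) x19400) x19430) x19358) x19574) x18926) x13580) x16496) x1916) x10664) x6288) x12850)
  (sub (add (add (add (add (sub (sub (add (add (sub (add (add (sub C x19416) x19426) x19438) x19378) x19198) x19306) x19576) x18928) x13582) x16498) x1918) x10666) x12854)
  (sub (add (add (add (add (sub (sub (add (add (sub (sub (sub C x19414) x19422) x19380) x19200) x19308) x19578) x18930) x13584) x16500) x1920) x10668) x6296)
  (sub (add (add (add (add (sub (sub (add (add (sub (sub (add (add C x19426) x19430) x19416) x19404) x19206) x19314) x19584) x18936) x13590) x16506) x1926) x10674) x6302)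
  (sub (add (add (add (add (sub (sub (add (add (sub (add (add (add (add C x19422) x19430) x19414) x19438) x19408) x19210) x19318) x19588) x18940) x13594) x16510) x1930) x10678) x12866)
  (add (add (add (add (add (add (sub (sub (add (add (sub (sub (add (add C x19422) x19426) x19436) x19412) x19214) x19322) x19592) x18944) x13598) x16514) x1934) x10682) x6306) x12868)
  (add (add (add (add (add (add (sub (sub (add (add (add (add (sub (sub C x19438) x19430) x19364) x19400) x19220) x19328) x19598) x18950) x13604) x16520) x1940) x10688) x6312) x12874)
  (sub (add (add (add (add (sub (sub (add (add (add (add (add (add (sub C x19436) x19414) x19426) x19366) x19402) x19222) x19330) x19600) x18952) x13606) x16522) x1942) x10690) x12878)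
  (add (add (add (add (add (add (add (add (sub (add (add (add (add (add (add (sub C x19446) x19454) x19466) x19478) x19514) x19550) x19658) x19118) x17498) x18470) x13610) x16526) x1946) x10694) x6318) x12880)
  (sub (add (add (add (add (add (add (sub (add (add (add (add (sub (sub C x19442) x19458) x19482) x19518) x19554) x19662) x19122) x17502) x18474) x13614) x16530) x1950) x10698) x6326)
  (add (add (add (add (add (add (add (add (sub (add (add (sub (add (add (sub C x19456) x19442) x19466) x19472) x19562) x19670) x19130) x17510) x18482) x13622) x16538) x1958) x10706) x6330) x12892)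
  (sub (add (add (add (add (add (add (sub (add (add (sub (sub (sub C x19454) x19462) x19474) x19564) x19672) x19132) x17512) x18484) x13624) x16540) x1960) x10708) x12896)
  (sub (add (add (add (add (add (add (sub (add (add (sub (sub (add (add C x19462) x19466) x19446) x19494) x19566) x19674) x19134) x17514) x18486) x13626) x16542) x1962) x10710) x6338)
  (sub (add (add (add (add (add (add (sub (add (add (sub (sub (add (add C x19458) x19466) x19456) x19498) x19570) x19678) x19138) x17518) x18490) x13630) x16546) x1966) x10714) x12902)
  (add (add (add (add (add (add (add (add (sub (add (add (sub (add (add (add (add C x19458) x19462) x19442) x19454) x19502) x19574) x19682) x19142) x17522) x18494) x13634) x16550) x1970) x10718) x6342) x12904)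
  (add (add (add (add (add (add (add (add (sub (sub (sub (sub (sub C x19474) x19478) x19454) x19526) x19148) x17528) x18500) x13640) x16556) x1976) x10724) x6348) x12910)
  (sub (add (add (add (add (add (add (sub (sub (sub (sub (sub C x19472) x19486) x19456) x19528) x19150) x17530) x18502) x13642) x16558) x1978) x10726) x12914)
  (add (add (add (add (add (add (add (add (sub (sub (add (add (sub (sub C x19482) x19472) x19442) x19514) x19532) x19154) x17534) x18506) x13646) x16562) x1982) x10730) x6354) x12916)
  (sub (add (add (add (add (add (add (sub (sub (add (add (sub (sub C x19478) x19488) x19446) x19518) x19536) x19158) x17538) x18510) x13650) x16566) x1986) x10734) x6362)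
  (sub (add (add (add (add (add (add (sub (sub (sub (sub (sub C x19488) x19474) x19504) x19540) x19162) x17542) x18514) x13654) x16570) x1990) x10738) x12926)
  (sub (add (add (add (add (add (add (sub (sub (sub (sub (sub C x19486) x19482) x19506) x19542) x19164) x17544) x18516) x13656) x16572) x1992) x10740) x6368)
  (sub (add (add (add (add (add (add (sub (sub (sub (add (add (add (add C x19498) x19502) x19506) x19518) x19458) x19602) x19170) x17550) x18522) x13662) x16578) x1998) x10746) x6374)
  (sub (add (add (add (add (add (add (sub (sub (sub (sub (add (add C x19494) x19502) x19504) x19462) x19606) x19174) x17554) x18526) x13666) x16582) x2002) x10750) x12938)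
  (add (add (add (add (add (add (add (add (sub (sub (sub (sub (add (add C x19494) x19498) x19514) x19466) x19610) x19178) x17558) x18530) x13670) x16586) x2006) x10754) x6378) x12940)
  (sub (add (add (add (add (add (add (sub (sub (sub (sub (sub C x19506) x19498) x19486) x19612) x19180) x17560) x18532) x13672) x16588) x2008) x10756) x12944)
  (sub (add (add (add (add (add (add (sub (sub (sub (add (add (sub C x19504) x19494) x19518) x19488) x19614) x19182) x17562) x18534) x13674) x16590) x2010) x10758) x6386)
  (add (add (add (add (add (add (add (add (sub (sub (add (add (sub (sub C x19518) x19502) x19442) x19478) x19622) x19190) x17570) x18542) x13682) x16598) x2018) x10766) x6390) x12952)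
  (sub (add (add (add (add (add (add (sub (sub (add (add (add (add (sub C x19514) x19494) x19506) x19446) x19482) x19626) x19194) x17574) x18546) x13686) x16602) x2022) x10770) x6398)
  (add (add (add (add (add (add (add (add (sub (sub (add (add (sub (sub C x19528) x19532) x19562) x19598) x19472) x19364) x17582) x18554) x13694) x16610) x2030) x10778) x6402) x12964)
  (sub (add (add (add (add (add (add (sub (sub (add (add (sub (sub C x19526) x19540) x19564) x19600) x19474) x19366) x17584) x18556) x13696) x16612) x2032) x10780) x12968)
  (add (add (add (add (add (add (add (add (sub (sub (sub (sub (sub C x19536) x19526) x19550) x19478) x19370) x17588) x18560) x13700) x16616) x2036) x10784) x6408) x12970)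
  (sub (add (add (add (add (add (add (sub (sub (sub (sub (sub C x19532) x19542) x19554) x19482) x19374) x17592) x18564) x13704) x16620) x2040) x10788) x6416)
  (sub (add (add (add (add (add (add (sub (sub (sub (sub (sub C x19542) x19528) x19576) x19486) x19378) x17596) x18568) x13708) x16624) x2044) x10792) x12980)
  (sub (add (add (add (add (add (add (sub (sub (sub (sub (sub C x19540) x19536) x19578) x19488) x19380) x17598) x18570) x13710) x16626) x2046) x10794) x6422)
  (add (add (add (add (add (add (add (add (sub (add (add (sub (add (add (sub C x19554) x19562) x19574) x19532) x19442) x19658) x19388) x17606) x18578) x13718) x16634) x2054) x10802) x6426) x12988)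
  (sub (add (add (add (add (add (add (sub (add (add (sub (sub (sub C x19550) x19566) x19536) x19446) x19662) x19392) x17610) x18582) x13722) x16638) x2058) x10806) x6434)
  (add (add (add (add (add (add (add (add (sub (add (add (add (add (add (add (sub C x19564) x19550) x19574) x19526) x19598) x19454) x19670) x19400) x17618) x18590) x13730) x16646) x2066) x10814) x6438) x13000)
  (sub (add (add (add (add (add (add (sub (add (add (add (add (sub (sub C x19562) x19570) x19528) x19600) x19456) x19672) x19402) x17620) x18592) x13732) x16648) x2068) x10816) x13004)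
  (sub (add (add (add (add (add (add (sub (add (add (sub (sub (add (add C x19570) x19574) x19554) x19584) x19458) x19674) x19404) x17622) x18594) x13734) x16650) x2070) x10818) x6446)
  (sub (add (add (add (add (add (add (sub (add (add (sub (sub (add (add C x19566) x19574) x19564) x19588) x19462) x19678) x19408) x17626) x18598) x13738) x16654) x2074) x10822) x13010)
  (add (add (add (add (add (add (add (add (sub (add (add (sub (add (add (add (add C x19566) x19570) x19550) x19562) x19592) x19466) x19682) x19412) x17630) x18602) x13742) x16658) x2078) x10826) x6450) x13012)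
  (sub (add (add (add (add (add (add (sub (sub (sub (add (add (sub C x19578) x19588) x19600) x19540) x19630) x19414) x17632) x18604) x13744) x16660) x2080) x10828) x13016)
  (sub (add (add (add (add (add (add (sub (sub (sub (sub (sub C x19576) x19584) x19542) x19632) x19416) x17634) x18606) x13746) x16662) x2082) x10830) x6458)
  (sub (add (add (add (add (add (add (sub (sub (sub (sub (add (add C x19588) x19592) x19578) x19566) x19638) x19422) x17640) x18612) x13752) x16668) x2088) x10836) x6464)
  (sub (add (add (add (add (add (add (sub (sub (sub (add (add (add (add C x19584) x19592) x19576) x19600) x19570) x19642) x19426) x17644) x18616) x13756) x16672) x2092) x10840) x13028)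
  (add (add (add (add (add (add (add (add (sub (sub (sub (sub (add (add C x19584) x19588) x19598) x19574) x19646) x19430) x17648) x18620) x13760) x16676) x2096) x10844) x6468) x13030)
  (add (add (add (add (add (add (add (add (sub (sub (add (add (sub (sub C x19600) x19592) x19526) x19562) x19652) x19436) x17654) x18626) x13766) x16682) x2102) x10850) x6474) x13036)
  (sub (add (add (add (add (add (add (sub (sub (add (add (add (add (sub C x19598) x19576) x19588) x19528) x19564) x19654) x19438) x17656) x18628) x13768) x16684) x2104) x10852) x13040)
  (sub (add (add (add (add (add (add (add (add (sub (add (add (add (add (add (add C x19606) x19610) x19614) x19626) x19638) x19674) x19494) x18954) x19278) x17658) x18630) x13770) x16686) x2106) x10854) x6482)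
  (sub (add (add (add (add (add (add (add (add (sub (add (add (sub (add (add C x19602) x19610) x19612) x19642) x19678) x19498) x18958) x19282) x17662) x18634) x13774) x16690) x2110) x10858) x13046)
  (add (add (add (add (add (add (add (add (add (add (sub (add (add (sub (add (add C x19602) x19606) x19622) x19646) x19682) x19502) x18962) x19286) x17666) x18638) x13778) x16694) x2114) x10862) x6486) x13048)
  (sub (add (add (add (add (add (add (add (add (sub (sub (sub (sub C x19614) x19606) x19630) x19504) x18964) x19288) x17668) x18640) x13780) x16696) x2116) x10864) x13052)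
  (sub (add (add (add (add (add (add (add (add (sub (sub (add (add (sub C x19612) x19602) x19626) x19632) x19506) x18966) x19290) x17670) x18642) x13782) x16698) x2118) x10866) x6494)
  (add (add (add (add (add (add (add (add (add (add (sub (sub (sub (sub C x19626) x19610) x19658) x19514) x18974) x19298) x17678) x18650) x13790) x16706) x2126) x10874) x6498) x13060)
  (sub (add (add (add (add (add (add (add (add (sub (sub (add (add (sub C x19622) x19602) x19614) x19662) x19518) x18978) x19302) x17682) x18654) x13794) x16710) x2130) x10878) x6506)
  (sub (add (add (add (add (add (add (add (add (sub (sub (add (add (sub C x19632) x19642) x19654) x19612) x19576) x18982) x19306) x17686) x18658) x13798) x16714) x2134) x10882) x13070)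
  (sub (add (add (add (add (add (add (add (add (sub (sub (sub (sub C x19630) x19638) x19614) x19578) x18984) x19308) x17688) x18660) x13800) x16716) x2136) x10884) x6512)
  (sub (add (add (add (add (add (add (add (add (sub (add (add (sub (add (add C x19642) x19646) x19632) x19602) x19674) x19584) x18990) x19314) x17694) x18666) x13806) x16722) x2142) x10890) x6518)
  (sub (add (add (add (add (add (add (add (add (sub (add (add (add (add (add (add C x19638) x19646) x19630) x19654) x19606) x19678) x19588) x18994) x19318) x17698) x18670) x13810) x16726) x2146) x10894) x13082)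
  (add (add (add (add (add (add (add (add (add (add (sub (add (add (sub (add (add C x19638) x19642) x19652) x19610) x19682) x19592) x18998) x19322) x17702) x18674) x13814) x16730) x2150) x10898) x6522) x13084)
  (add (add (add (add (add (add (add (add (add (add (sub (sub (sub (sub C x19654) x19646) x19670) x19598) x19004) x19328) x17708) x18680) x13820) x16736) x2156) x10904) x6528) x13090)
  (sub (add (add (add (add (add (add (add (add (sub (sub (add (add (sub C x19652) x19630) x19642) x19672) x19600) x19006) x19330) x17710) x18682) x13822) x16738) x2158) x10906) x13094)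
  (add (add (add (add (add (add (add (add (add (add (add (add (sub (add (add (sub C x19662) x19670) x19682) x19622) x19442) x19550) x19010) x19334) x17714) x18686) x13826) x16742) x2162) x10910) x6534) x13096)
  (sub (add (add (add (add (add (add (add (add (add (add (sub (sub (sub C x19658) x19674) x19626) x19446) x19554) x19014) x19338) x17718) x18690) x13830) x16746) x2166) x10914) x6542)
  (add (add (add (add (add (add (add (add (add (add (add (add (sub (add (add (sub C x19672) x19658) x19682) x19652) x19454) x19562) x19022) x19346) x17726) x18698) x13838) x16754) x2174) x10922) x6546) x13108)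
  (sub (add (add (add (add (add (add (add (add (add (add (sub (sub (sub C x19670) x19678) x19654) x19456) x19564) x19024) x19348) x17728) x18700) x13840) x16756) x2176) x10924) x13112)
  (sub (add (add (add (add (add (add (add (add (add (add (add (add (sub (add (add C x19678) x19682) x19662) x19602) x19638) x19458) x19566) x19026) x19350) x17730) x18702) x13842) x16758) x2178) x10926) x6554)
  (sub (add (add (add (add (add (add (add (add (add (add (add (add (sub (add (add C x19674) x19682) x19672) x19606) x19642) x19462) x19570) x19030) x19354) x17734) x18706) x13846) x16762) x2182) x10930) x13118)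
  (add (add (add (add (add (add (add (add (add (add (add (add (add (add (add (add (add (add C x19674) x19678) x19658) x19670) x19610) x19646) x19466) x19574) x19034) x19358) x17738) x18710) x13850) x16766) x2186) x10934) x6558) x13120))
  (chk [x2, x14, x16, x26, x32, x34, x38, x62, x86, x88, x92, x100,
  x110, x122, x124, x130, x134, x152, x158, x160, x170, x182, x206, x212,
  x242, x248, x254, x262, x272, x284, x286, x292, x296, x310, x314, x320,
  x322, x326, x338, x340, x346, x350, x358, x386, x398, x422, x428, x430,
  x440, x452, x464, x470, x494, x506, x530, x536, x554, x566, x584, x590,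
  x602, x674, x758, x772, x782, x800, x824, x826, x832, x836, x842, x844,
  x868, x872, x874, x884, x908, x914, x916, x922, x926, x938, x950, x952,
  x956, x964, x986, x988, x998, x1034, x1046, x1142, x1154, x1178, x1214, x1232,
  x1238, x1240, x1250, x1262, x1274, x1276, x1280, x1304, x1316, x1346, x1348, x1352,
  x1364, x1366, x1376, x1388, x1406, x1430, x1448, x1454, x1456, x1514, x1526, x1538,
  x1556, x1562, x1598, x1604, x1646, x1652, x1682, x1694, x1736, x1760, x1862, x1916,
  x1934, x1940, x1970, x2006, x2078, x2096, x2186, x2462, x2492, x2612, x2672, x2708,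
  x2720, x2732, x2834, x2888, x3806, x3860, x3878, x3884, x3968, x4076, x4112, x4124,
  x4184, x4202, x4238, x4274, x4922, x5012, x5018, x5102, x5660, x6074, x6398, x19682])

noncomputable def RK : Nat := nat_lit 0x4ce218fe17ba161c13ee139a1394133a10b2108e106a1058101c10100fec0f800f2c0f260f140ede0b480b120aac0aa00a940a700a3409bc099e088a0830081e07d607b20794078e077c074606e006c8069e06920674066e0644063e061a0614060205f605ea05b005ae05a80596057e056c05600556055405480544054205240518050004fc04fa04ee04e204d804d604d004be049a048204760416040a03e603dc03da03c403bc03b803b603aa039e039a03940392038c0374036a03680364034c034a03440340033a03380320030e030402f602a2025a024e02480236022a0218021201fa01ee01d601d001c401b801ae01ac01a6018e01820166015e015a01540152014601420140013a013601280124011e011c0110010600fe00f800f200d400ce00b600aa00a0009e009800860082007c007a006e0064005c00580056003e002600220020001a0010000e0002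

noncomputable def CK : Nat := nat_lit 0x100120012001200120012001200120012001200120012001200240024001200120024002400120024002400240024001200120024002400120012001200120012001200120024002400120012002400120024002400240012002400240024001200120006001200240024002400120024002400120024002400240024002400120024001200240024002400240024002400120024002400240024002400120012001200120024002400240024002400120024002400240024001200240024001200240024002400240012002400240024001200240024002400240024002400240024002400120024002400240024002400240024002400240012002400240024002400120024002400240024002400240024001200240024002400240012001200240012002400120024002400240012002400120024001200240024002400240024002400240012001200240012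

noncomputable def H : Nat := nat_lit 0x46740000000000003a3f0000000000003a3e000044cb00003a5d000000000000000000000000000044ca0000000000003a5c00000000000045a3000044f5000000000000000000003a690000000000000a2700000000000027ae000000000000000000003bee0000311400000000000045a200000000000044f40000000000000000000000000000311500003bef00003a6800000000000027af0000000000000a260000460f000045d900000000000000000000450100000000000018130000000000002e6e000000000000000000003d9e000030a800003a75000000000000323b00000000000036de0000184900000a5d00000000000000000000000000002ea500000000000027e500000000000000000000000000003e76000040270000000000003dd50000000000003c2500000000000030de000031200000000000000000000000000000460e00000000000045d8000000000000000000000000000030a900003d9f000045000000000000002e6f000000000000181200000000000000000000402600003e7700000000000030df00000000000031210000000000003dd400003c24000000000000000000003a7400000000000036df000000000000323a00002ea4000027e4000000000000000000000000000018480000000000000a5c0000000000004615000046510000000000000000000045e500000000000019c30000000000002fb2000000000000000000003e0a0000303c0000450d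0000000000003457000000000000374a000035c500001873000000000000000000000000000041950000000000002ece00000000000000000000000000003ee2000040930000000000003fe40000000000003dfe000000000000384c000030b4000000000000000000003a7b000000000000388f0000000000003966000034990000327d0000000000000000000000000000378d00000000000037210000000000001a0500001855000000000000000000000a69000000000000014b0000000000000709000000000000000000000dc9000011950000000000002ff50000000000002eb100000000000000000000000000001b4900001d65000027f1000000000000252700000000000006c60000000000000000000041d6000042af0000000000003f250000000000003eb900000000000040d50000406900000000000000000000000000003e4d0000000000003de100000000000000000000000000000f970000240d00003c310000000000001d230000000000000d8600003066000030d200000000000000000000312c00000000000011530000000000001b06000000000000000000000f6c00000840000000000000461400000000000046500000000000000000000000000000303d00003e0b000045e40000000000002fb300000000000019c200000000000000000000409200003ee3000000000000384d00000000000030b50000000000003fe500003dff00000000000000000000450c000000000000374b00000000000034560000419400002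ecf000000000000000000000000000035c40000000000001872000000000000000000000000000042ae000041d700000000000040d400000000000040680000000000003f2400003eb80000000000000000000000000000306700000000000030d30000000000000000000000000000084100000f6d0000312d0000000000001b07000000000000115200003e4c00003de0000000000000000000003c300000000000000d870000000000001d2200000000000000000000240c00000f9600003a7a0000000000003967000000000000388e0000378c0000372000000000000000000000000000003498000000000000327c0000000000002ff400002eb00000000000000000000027f000000000000006c70000000000002526000000000000000000001d6400001b480000000000001a0400000000000018540000000000000000000000000000119400000dc800000a680000000000000708000000000000014a000045a90000462100000000000000000000465d00000000000019e1000000000000301e000000000000000000003e2800002fd0000045eb000000000000352f00000000000037b60000355900001a2300000000000000000000000000004129000000000000301200000000000000000000000000003f4e000040ff0000000000003f780000000000003e6a00000000000037e00000304800000000000000000000450700000000000038fb00000000000039d200004387000034b7000000000000000000000000000043f20000000000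0037aa0000000000003577000035d100000000000000000000186700000000000002fb00000000000012cd000000000000000000001fe100002635000000000000414600000000000041a10000000000000000000000000000214f00003b1700002ec2000000000000259300000000000007320000000000000000000042420000431b00000000000045360000000000003f420000000000004494000040f300000000000000000000000000003f970000000000003ff00000000000000000000000000000143b0000233500003df20000000000001ed30000000000000e5e000037fe000038580000000000000000000030c0000000000000122b0000000000001b72000000000000000000000f00000007d400003a6f00000000000038a100000000000039780000392b000038dd00000000000000000000000000003a0300000000000039b5000000000000357d000034a5000000000000000000003289000000000000087700000000000027420000000000000000000032f500002d1e0000000000003805000000000000379900000000000000000000000000002953000036550000372d000000000000266b000000000000094e000019ff00001a1100000000000000000000186100000000000015f7000000000000171d0000000000000000000018cd000019a500000a6f00000000000008c5000000000000099d0000034900000199000000000000000000000000000007810000000000000715000000000000000000000000000013510000149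50000000000000ead0000000000000dd50000000000001279000011a10000000000000000000000000000306d000000000000300100000000000000000000000000002869000029ad00002ebd0000000000002b7b00000000000016ce000000000000000000002065000022150000000000001bc10000000000001b550000000000001f2100001d710000000000000000000027f600000000000026b90000000000002791000025e100002575000000000000000000000000000012ea0000000000000726000000000000000000000000000041e9000042c000000000000042720000000000004225000000000000434a000042fd00000000000000000000000000003f9d0000000000003f3100000000000000000000000000001549000022c900003ec500000000000021c700000000000013020000414d000040e1000000000000000000004075000000000000144700000000000020160000000000000000000023a0000015b40000000000003e470000000000003e5900000000000000000000000000002ef900003c5b00003ded000000000000295f000000000000187e0000000000000000000023bf000022e70000000000000f1f0000000000000f8b000000000000235300002419000000000000000000003c36000000000000360700000000000032a600003b6500001d8300000000000000000000000000001ffe0000000000000de60000000000002fee0000305a0000000000000000000030c60000000000001957000000000000281a0000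00000000000000002f1600002f64000031320000000000002d00000000000000293400002653000011b3000000000000000000000000000021300000000000001b6600000000000000000000000000001566000015d2000000000000141c0000000000000f7800000000000007f20000084c000000000000000000000000000045a8000000000000462000000000000000000000000000002fd100003e290000465c000000000000301f00000000000019e00000000000000000000040fe00003f4f00000000000037e100000000000030490000000000003f7900003e6b0000000000000000000045ea00000000000037b7000000000000352e0000412800003013000000000000000000000000000035580000000000001a220000000000000000000000000000431a00004243000000000000449500000000000040f2000000000000453700003f43000000000000000000000000000037ff0000000000003859000000000000000000000000000007d500000f01000030c10000000000001b73000000000000122a00003f9600003ff1000000000000000000003df30000000000000e5f0000000000001ed20000000000000000000023340000143a0000450600000000000039d300000000000038fa000043f3000037ab0000000000000000000000000000438600000000000034b60000000000004147000041a0000000000000000000002ec300000000000007330000000000002592000000000000000000003b160000214e00000000000035760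0000000000035d00000000000000000000000000000263400001fe00000186600000000000012cc00000000000002fa0000000000000000000042c1000041e8000000000000434b00000000000042fc0000000000004273000042240000000000000000000000000000414c00000000000040e0000000000000000000000000000015b5000023a1000040740000000000002017000000000000144600003f9c00003f30000000000000000000003ec4000000000000130300000000000021c60000000000000000000022c8000015480000000000002fef000000000000305b00000000000000000000000000002f6500002f17000030c7000000000000281b00000000000019560000000000000000000015d30000156700000000000007f3000000000000084d000000000000141d00000f7900000000000000000000313300000000000029350000000000002d010000213100001b670000000000000000000000000000265200000000000011b20000000000003e4600003e58000000000000000000003dec000000000000187f000000000000295e000000000000000000003c5a00002ef800003c3700000000000032a7000000000000360600001fff00000de700000000000000000000000000003b640000000000001d82000000000000000000000000000022e6000023be000000000000235200000000000024180000000000000f1e00000f8a000000000000000000003a6e000000000000397900000000000038a000003a02000039b4000000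0000000000000000000000392a00000000000038dc00000000000038040000379800000000000000000000372c000000000000094f000000000000266a00000000000000000000365400002952000000000000357c00000000000034a400000000000000000000000000002d1f000032f400003288000000000000274300000000000008760000306c00003000000000000000000000002ebc00000000000016cf0000000000002b7a0000000000000000000029ac00002868000027f7000000000000279000000000000026b8000012eb00000727000000000000000000000000000025e0000000000000257400000000000000000000000000002214000020640000000000001f200000000000001d700000000000001bc000001b54000000000000000000000000000019fe0000000000001a10000000000000000000000000000019a4000018cc00001860000000000000171c00000000000015f600000000000000000000149400001350000000000000127800000000000011a00000000000000eac00000dd4000000000000000000000a6e000000000000099c00000000000008c4000007800000071400000000000000000000000000000348000000000000019800000000000044d1000045b50000000000000000000046270000000000001831000000000000308a000000000000000000003dbc00002e8c00004657000000000000359b000000000000382200003481000019ed000000000000000000000000000040bd000000000000307e000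00000000000000000000000003fba0000416b0000000000003f0c0000000000003e34000000000000377400002fdc0000000000000000000045df000000000000354100000000000037c80000439f0000358f0000000000000000000000000000445e0000000000003816000000000000393100003565000000000000000000001a1700000000000003310000000000001261000000000000000000001f09000025c9000000000000435100000000000041350000000000000000000000000000236b00003b4d0000300600000000000025ff000000000000079e000000000000000000003f6100004110000000000000454f0000000000003fae000000000000440b0000415f000000000000000000000000000042780000000000003f84000000000000000000000000000014050000211900003e5e0000000000001fab0000000000000eca00003a08000037ec00000000000000000000305400000000000012970000000000001ba8000000000000000000000e9400000768000044fb0000000000003469000000000000375c000043a5000039190000000000000000000000000000441000000000000039f0000000000000438d000043e10000000000000000000034ab00000000000008e30000000000002701000000000000000000003bad00002e20000000000000448f000000000000444d00000000000000000000000000002ac100003b830000379e00000000000026d700000000000009ba000034930000356b0000000000000000000035d7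00000000000016630000000000002c520000000000000000000034ff00002db40000185b00000000000016a500000000000017ef000009250000035b000000000000000000000000000014f500000000000012d900000000000000000000000000002a0d00002c2900000000000022750000000000001fed000000000000271900002641000000000000000000000000000040ce000000000000413a00000000000000000000000000002a5500003d51000041a60000000000002be7000000000000173a000000000000000000003d0900003d7b00000000000020d700000000000021430000000000003bc500003b77000000000000000000002eb60000000000002dde0000000000002d7200002e38000025f300000000000000000000000000001506000000000000079200000000000000000000000000003ef5000040a4000000000000455500000000000042610000000000004465000043380000000000000000000000000000453c000000000000459100000000000000000000000000001399000020ad00003f360000000000002233000000000000136e000043f9000044a00000000000000000000040e700000000000014b3000000000000208200000000000000000000225c000014dc0000000000003f1f0000000000003f8b00000000000000000000000000002b2d00003cc700003ff700000000000029cb00000000000018ea000000000000000000002b5700002a7f00000000000013c3000000000000142f0000000000002ad900002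341000000000000000000003de600000000000034d5000000000000331200003bd700001f33000000000000000000000000000022860000000000000ebe0000000000003786000037f200000000000000000000385e00000000000017c5000000000000288600000000000000000000335400002d48000030cc0000000000002c9400000000000028c80000272b0000128b000000000000000000000000000020c40000000000001bd20000000000000000000000000000192c0000177c00000000000013b00000000000000f0c00000000000009fc000007e0000000000000000000003a63000000000000324d00000000000036f00000347b000038ad0000000000000000000000000000376f000000000000398400000000000035530000391f0000000000000000000038e300000000000008a1000000000000269500000000000000000000362b00002cdc00000000000037db00000000000039f700000000000000000000000000002911000032cb000039ba000000000000276c0000000000000978000035bf000035890000000000000000000034b100000000000016810000000000002d9600000000000000000000351d00002c700000328300000000000031630000000000003217000016b7000008d700000000000000000000000000002d6100000000000027a2000000000000000000000000000033d90000340f000000000000336d00000000000033010000000000002ca600002d12000000000000000000000000000038470000000000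003811000000000000000000000000000028a500003337000037a50000000000002d2b00000000000017a6000000000000000000003697000033a300000000000028db000000000000294700000000000034e70000366100000000000000000000372600000000000031e100000000000031ce00002dcc000026cb000000000000000000000000000017dc00000000000009ae0000000000001843000019f3000000000000000000001a1d000000000000161500000000000019870000000000000000000018af000016ff0000186d00000000000016930000000000001801000016bd000016510000000000000000000000000000179500000000000017290000000000000000000000000000191b0000176b000000000000194500000000000018d900000000000017d7000019b1000000000000000000000a6300000000000008b3000000000000098b0000091f000008d1000000000000000000000000000009f700000000000009a900000000000003430000035500000000000000000000019f000000000000000700000000000000cd000000000000000000000211000002e900000000000007f9000000000000078d000000000000000000000000000003c1000004990000072100000000000005710000000000000582000000000000000000001579000015e500000000000013c9000000000000135d000000000000150d000014a100000000000000000000000000000f250000000000000eb900000000000000000000000000000aed00000b5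900000de10000000000000c310000000000000c42000012f1000012850000000000000000000011ad0000000000000fa30000000000001069000000000000000000000e280000064e00000000000030e500000000000030790000000000000000000000000000283900002f350000300d0000000000002f470000000000001974000000000000000000002a9100002b6900000000000028e100000000000028750000000000002a25000029b9000000000000000000002ec90000000000002d850000000000002df100002c4100002bd500000000000000000000000000002cad000000000000172e000000000000000000000000000022f9000023d100000000000020dd0000000000002071000000000000228d0000222100000000000000000000000000001bbb0000000000001bcd0000000000000000000000000000043300000bbf00001b610000000000001a2f000000000000100e0000200500001f2d000000000000000000001d7d0000000000000bd70000000000001bde000000000000000000001de900000d0e000027ea000000000000277e00000000000026a600002731000026c500000000000000000000000000002712000000000000279d0000000000002659000025ed00000000000000000000257b0000000000000517000000000000244e000000000000000000001cf800001afa000000000000127200000000000012de0000000000000000000000000000112800000d5c0000071a000000000000069c00000000000000720000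00000000000000003e89000040380000000000003f0600000000000041f500000000000040b6000042cc00000000000000000000000000003f7200000000000042660000000000000000000000000000132d000020410000422a0000000000002377000000000000151e000041220000433e000000000000000000004303000000000000158b000000000000229e0000000000000000000021f0000014700000000000003fde0000000000003fa9000000000000000000000000000029e900003ce500003f3d0000000000002b0f00000000000019080000000000000000000033b5000036a9000000000000193f00000000000015550000000000002a6d000022d5000000000000000000003ebe0000000000003391000000000000337e00003d690000222700000000000000000000000000002a1e0000000000001362000000000000418e000041590000000000000000000040ed00000000000017590000000000002a36000000000000000000003d3200002c040000406f00000000000033eb000000000000367200002c3b000014a700000000000000000000000000003d1a0000000000002076000000000000000000000000000033c6000034200000000000002b4400000000000023ac000000000000178e000015c000000000000000000000000000003dcf0000000000003e3b0000000000000000000000000000297d00003c7900003e650000000000002edb000000000000189c000000000000000000003d8d00003cf700000000000033670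000000000002f050000000000003d2100003cb5000000000000000000003df9000000000000332500000000000034c200003d63000029bf000000000000000000000000000034ec00000000000018de0000000000000000000000000000220300002053000000000000226f00000000000023b300000000000020bf000022db00000000000000000000000000000ea70000000000000f1300000000000000000000000000000283000004ed00000f7f0000000000000bad0000000000000e3b0000212b0000234700000000000000000000241f0000000000000aff0000000000001d8e000000000000000000002184000010da00003c2a00000000000032b9000000000000361800003bdd0000366700000000000000000000000000003bbe00000000000033060000000000003b5f00003b71000000000000000000001d77000000000000043f0000000000001d0b000000000000000000003aaa00001caa0000000000001f1a0000000000001ff200000000000000000000000000001eae00001f7400000dda0000000000000d6e00000000000001b600002e9e00002fe200000000000000000000304e00000000000016ed000000000000284a00000000000000000000298e00002b98000030ba0000000000002c8200000000000028b600002dc6000019b700000000000000000000000000002a66000000000000287a000000000000000000000000000029fa00002c160000000000002b3e0000000000002f0a0000000000002d5a00002f70000000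0000000000000031260000000000002cee000000000000292200002e3200002d0c00000000000000000000000000002ad2000000000000294000000000000025db000026470000000000000000000011a7000000000000028f000000000000113b000000000000000000001e9d000025080000000000002358000000000000213c00000000000000000000000000001e4800001c9800001b5a0000000000001ae8000000000000036600000000000000000000133e0000148200000000000013aa000000000000155a00000000000014ee000015c60000000000000000000000000000141600000000000014280000000000000000000000000000120c000010c800000f840000000000000cfc0000000000000a920000077a000007e6000000000000000000000852000000000000063c00000000000004200000000000000000000002700000012c00000000000044d000000000000045b400000000000000000000000000002e8d00003dbd00004626000000000000308b000000000000183000000000000000000000416a00003fbb00000000000037750000000000002fdd0000000000003f0d00003e350000000000000000000046560000000000003823000000000000359a000040bc0000307f0000000000000000000000000000348000000000000019ec0000000000000000000000000000411100003f60000000000000440a000000000000415e000000000000454e00003faf00000000000000000000000000003a0900000000000037ed000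0000000000000000000000000076900000e95000030550000000000001ba900000000000012960000427900003f85000000000000000000003e5f0000000000000ecb0000000000001faa00000000000000000000211800001404000045de00000000000037c900000000000035400000445f000038170000000000000000000000000000439e000000000000358e000000000000435000004134000000000000000000003007000000000000079f00000000000025fe000000000000000000003b4c0000236a00000000000039300000000000003564000000000000000000000000000025c800001f0800001a16000000000000126000000000000003300000000000000000000040a500003ef400000000000044640000000000004339000000000000455400004260000000000000000000000000000043f800000000000044a1000000000000000000000000000014dd0000225d000040e6000000000000208300000000000014b20000453d00004590000000000000000000003f37000000000000136f00000000000022320000000000000000000020ac00001398000000000000378700000000000037f300000000000000000000000000002d49000033550000385f000000000000288700000000000017c400000000000000000000177d0000192d00000000000009fd00000000000007e100000000000013b100000f0d0000000000000000000030cd00000000000028c90000000000002c95000020c500001bd3000000000000000000000000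0000272a000000000000128a0000000000003f1e00003f8a000000000000000000003ff600000000000018eb00000000000029ca000000000000000000003cc600002b2c00003de7000000000000331300000000000034d40000228700000ebf00000000000000000000000000003bd60000000000001f3200000000000000000000000000002a7e00002b560000000000002ad8000000000000234000000000000013c20000142e0000000000000000000044fa000000000000375d000000000000346800004411000039f1000000000000000000000000000043a40000000000003918000000000000448e0000444c00000000000000000000379f00000000000009bb00000000000026d6000000000000000000003b8200002ac0000000000000438c00000000000043e000000000000000000000000000002e2100003bac000034aa000000000000270000000000000008e2000040cf0000413b0000000000000000000041a7000000000000173b0000000000002be6000000000000000000003d5000002a5400002eb70000000000002d730000000000002ddf000015070000079300000000000000000000000000002e3900000000000025f200000000000000000000000000003d7a00003d080000000000003bc40000000000003b7600000000000020d60000214200000000000000000000000000003492000000000000356a00000000000000000000000000002db5000034fe000035d60000000000002c5300000000000016620000000000000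00000002c2800002a0c00000000000027180000000000002640000000000000227400001fec00000000000000000000185a00000000000017ee00000000000016a4000014f4000012d800000000000000000000000000000924000000000000035a0000000000000000000000000000403900003e8800000000000040b700000000000042cd0000000000003f07000041f400000000000000000000000000004123000000000000433f00000000000000000000000000001471000021f100004302000000000000229f000000000000158a00003f730000426700000000000000000000422b000000000000151f00000000000023760000000000000000000020400000132c000000000000418f000000000000415800000000000000000000000000002c0500003d33000040ec0000000000002a370000000000001758000000000000000000003421000033c7000000000000178f00000000000015c10000000000002b45000023ad00000000000000000000406e000000000000367300000000000033ea00003d1b0000207700000000000000000000000000002c3a00000000000014a60000000000003fdf00003fa8000000000000000000003f3c00000000000019090000000000002b0e000000000000000000003ce4000029e800003ebf000000000000337f000000000000339000002a1f0000136300000000000000000000000000003d680000000000002226000000000000000000000000000036a8000033b40000000000002a6c0000000000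0022d4000000000000193e0000155400000000000000000000000000002e9f0000000000002fe300000000000000000000000000002b990000298f0000304f000000000000284b00000000000016ec000000000000000000002c17000029fb0000000000002d5b0000000000002f710000000000002b3f00002f0b0000000000000000000030bb00000000000028b70000000000002c8300002a670000287b00000000000000000000000000002dc700000000000019b6000000000000000000000000000014830000133f00000000000014ef00000000000015c700000000000013ab0000155b0000000000000000000000000000077b00000000000007e70000000000000000000000000000012d00000271000008530000000000000421000000000000063d0000141700001429000000000000000000000f850000000000000a930000000000000cfd0000000000000000000010c90000120d0000312700000000000029230000000000002cef00002ad30000294100000000000000000000000000002e330000000000002d0d00000000000023590000213d000000000000000000001b5b00000000000003670000000000001ae9000000000000000000001c9900001e4900000000000025da00000000000026460000000000000000000000000000250900001e9c000011a6000000000000113a000000000000028e00003dce00003e3a000000000000000000003e64000000000000189d0000000000002eda000000000000000000003c780000297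c00003df800000000000034c30000000000003324000034ed000018df00000000000000000000000000003d6200000000000029be00000000000000000000000000003cf600003d8c0000000000003d200000000000003cb4000000000000336600002f04000000000000000000003c2b000000000000361900000000000032b800003bbf0000330700000000000000000000000000003bdc00000000000036660000000000001f1b00001ff3000000000000000000000ddb00000000000001b70000000000000d6f000000000000000000001f7500001eaf0000000000003b5e0000000000003b7000000000000000000000000000001cab00003aab00001d760000000000001d0a000000000000043e0000000000000000000020520000220200000000000020be00000000000022da000000000000226e000023b20000000000000000000000000000212a0000000000002346000000000000000000000000000010db000021850000241e0000000000001d8f0000000000000afe00000ea600000f12000000000000000000000f7e0000000000000e3a0000000000000bac0000000000000000000004ec0000028200003a6200000000000036f1000000000000324c0000376e000039850000000000000000000000000000347a00000000000038ac00000000000037da000039f60000000000000000000039bb0000000000000979000000000000276d0000000000000000000032ca000029100000000000003552000000000000391e000000000000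00000000000000002cdd0000362a000038e2000000000000269400000000000008a000003846000038100000000000000000000037a400000000000017a70000000000002d2a000000000000000000003336000028a40000372700000000000031cf00000000000031e0000017dd000009af00000000000000000000000000002dcd00000000000026ca000000000000000000000000000033a20000369600000000000034e6000000000000366000000000000028da00002946000000000000000000000000000035be000000000000358800000000000000000000000000002c710000351c000034b00000000000002d97000000000000168000000000000000000000340e000033d80000000000002ca70000000000002d13000000000000336c000033000000000000000000000032820000000000003216000000000000316200002d60000027a3000000000000000000000000000016b600000000000008d600000000000030e40000307800000000000000000000300c00000000000019750000000000002f46000000000000000000002f340000283800002ec80000000000002df00000000000002d8400002cac0000172f00000000000000000000000000002c400000000000002bd400000000000000000000000000002b6800002a900000000000002a2400000000000029b800000000000028e0000028740000000000000000000027eb00000000000026a7000000000000277f000027130000279c000000000000000000000000000027300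0000000000026c40000000000001273000012df00000000000000000000071b0000000000000073000000000000069d000000000000000000000d5d00001129000000000000265800000000000025ec00000000000000000000000000001afb00001cf90000257a000000000000244f00000000000005160000000000000000000023d0000022f8000000000000228c000000000000222000000000000020dc00002070000000000000000000000000000020040000000000001f2c00000000000000000000000000000d0f00001de800001d7c0000000000001bdf0000000000000bd600001bba00001bcc000000000000000000001b60000000000000100f0000000000001a2e000000000000000000000bbe00000432000000000000184200000000000019f2000000000000000000000000000016fe000018ae00001a1c0000000000001986000000000000161400000000000000000000176a0000191a00000000000017d600000000000019b00000000000001944000018d800000000000000000000186c000000000000180000000000000016920000179400001728000000000000000000000000000016bc0000000000001650000000000000000000000000000015e400001578000000000000150c00000000000014a000000000000013c80000135c000000000000000000000000000012f000000000000012840000000000000000000000000000064f00000e29000011ac00000000000010680000000000000fa200000f2400000eb8000000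000000000000000de00000000000000c430000000000000c30000000000000000000000b5800000aec00000a62000000000000098a00000000000008b2000009f6000009a80000000000000000000000000000091e00000000000008d000000000000007f80000078c00000000000000000000072000000000000005830000000000000570000000000000000000000498000003c000000000000003420000000000000354000000000000000000000000000002e8000002100000019e00000000000000cc000000000000000600003a45000044d70000000000000000000045af0000000000000a3300000000000030f6000000000000000000003bfb000027bb0000461b000000000000181f000000000000309c000032470000183d0000000000000000000000000000403300000000000030ea00000000000000000000000000003dab00002e7b0000000000003e830000000000003dc800000000000036eb00002e9800000000000000000000460900000000000019cf000000000000303000003463000035b90000000000000000000000000000409f0000000000003840000000000000389b0000348d0000000000000000000019f900000000000001570000000000001189000000000000000000001d590000253300000000000042bb00000000000040c90000000000000000000000000000240100001d2f00003072000000000000115f000000000000080a000000000000000000003e1700002fbf0000000000003eef0000000000003fd9000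000000000375700004188000000000000000000000000000041e30000000000003f1800000000000000000000000000000f6100001b1300003e400000000000000d930000000000000f360000397300003780000000000000000000002fe800000000000006d30000000000001b3c000000000000000000000dbc000006fc0000459d00000000000019d50000000000002fc40000353b0000354d0000000000000000000000000000410b00000000000037d400000000000039010000439300000000000000000000358300000000000003070000000000002629000000000000000000003b230000259f000000000000432000000000000044880000000000000000000000000000232900001edf0000380a000000000000123700000000000007c8000038950000393700000000000000000000357100000000000008830000000000002cbe0000000000000000000036490000267700001a0b00000000000016030000000000001999000008b90000033d00000000000000000000000000001489000000000000126d000000000000000000000000000029a100002b8700000000000022090000000000001f1500000000000026ad000025d5000000000000000000000000000042b40000000000004356000000000000000000000000000022bd000021d300004141000000000000145300000000000015a8000000000000000000003c670000296b00000000000022f3000000000000235f000000000000361300003b59000000000000000000002ffa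00000000000019630000000000002f5800002cf40000265f000000000000000000000000000015de00000000000007fe00000000000000000000000000003e1d0000302b0000000000003f5b0000000000003f6d00000000000037c30000411c00000000000000000000000000004248000000000000454300000000000000000000000000000ef500001b7f00003fa20000000000000e6b00000000000013da000039d9000043ff000000000000000000004153000000000000073f00000000000020ee000000000000000000001fd4000012c000000000000041dc000000000000427f000000000000000000000000000023950000202300003f90000000000000130f000000000000153c000000000000000000002f230000282700000000000015730000000000001411000000000000292900002125000000000000000000003e52000000000000188b0000000000002eec000032b30000200b000000000000000000000000000023ca0000000000000f2a000000000000396d00003a0e0000000000000000000037f8000000000000095b00000000000028f20000000000000000000032e80000274f0000306000000000000016db000000000000285c00002784000012f7000000000000000000000000000020580000000000001bb4000000000000000000000000000018c00000171000000000000013440000000000000ea00000000000000990000007740000000000000000000044c500000000000018250000000000002e80000035a100003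4750000000000000000000000000000417000000000000037680000000000003535000043ab000000000000000000003925000000000000032500000000000025bd000000000000000000003b410000260b000000000000410400000000000044170000000000000000000000000000210d00001fb7000039fc00000000000012a3000000000000075c0000345d0000439900000000000000000000438100000000000008ef0000000000002e02000000000000000000003b8f000026e30000349f000000000000166f0000000000002da8000016990000091900000000000000000000000000002c1d000000000000270d00000000000000000000000000003d4500002bf30000000000003d870000000000003bb90000000000002dea00002e2c000000000000000000000000000040980000000000004459000000000000000000000000000020a10000223f000043ed00000000000014bf00000000000014d0000000000000000000003cd3000029d70000000000002a8b0000000000002acd00000000000034c900003be300000000000000000000379200000000000017b90000000000002d3c00002c88000027370000000000000000000000000000177000000000000009f000000000000032410000348700000000000000000000355f00000000000008950000000000002cd00000000000000000000032d700002760000035cb00000000000016750000000000002c6400003169000016c30000000000000000000000000000341b0000000000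002cb20000000000000000000000000000334300002d3700000000000033af00000000000034f300000000000031d500002dc000000000000000000000184f0000000000001609000000000000170b0000169f000016b10000000000000000000000000000177700000000000017e300000000000008bf0000092b00000000000000000000034f000000000000001300000000000002dd00000000000000000000048d0000056500000000000015d9000000000000150100000000000000000000000000000b4d00000c25000012e50000000000000faf00000000000005ee000000000000000000002f2900002f530000000000002b5d0000000000002a190000000000002d7900002c35000000000000000000000000000023c5000000000000228100000000000000000000000000000bcb00001a3b00001ff90000000000000be30000000000000cae0000278a0000272500000000000000000000264d00000000000005230000000000001a9a000000000000000000000d5000000690000000000000402c00000000000040c200000000000000000000000000002035000023830000412e00000000000015970000000000001464000000000000000000003cd900002b1b000000000000369d0000000000002a61000000000000338500003d5d00000000000000000000419a000000000000174d0000000000002bf8000033f100002c4700000000000000000000000000003414000000000000179a00000000000000000000000000003c6d00002ee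70000000000003d030000000000003d15000000000000331900003d6f0000000000000000000000000000205f00000000000020cb000000000000000000000000000004e100000ba1000021370000000000000b0b000000000000107a000032ad00003bd1000000000000000000003b6b000000000000044b0000000000001c4a000000000000000000001f6800000d7a00002eaa00000000000016e10000000000002b8c00002c8e00002dd200000000000000000000000000002c220000000000002d660000000000002cfa00002e3e0000000000000000000025e7000000000000029b00000000000024ba000000000000000000001c8c00001adc000000000000148e00000000000014fa000000000000000000000000000010bc00000cf000000786000000000000063000000000000000de000000000000000000003db1000030970000000000003fc00000000000003f010000000000003829000040b000000000000000000000000000003f54000000000000455a00000000000000000000000000000e8900001b9d0000426d0000000000000ed700000000000013f8000037bd0000446b00000000000000000000434400000000000007ab000000000000230a000000000000000000001efc000012540000000000003ee80000000000004548000000000000000000000000000022510000208f00004531000000000000137b000000000000138c00000000000000000000334900002893000000000000192100000000000013a5000000000000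28bd000020b9000000000000000000003f2a00000000000018f70000000000002b200000331f0000229300000000000000000000000000002b6200000000000013ce00000000000037510000440500000000000000000000449a00000000000009c70000000000002aa2000000000000000000003ba0000026f4000040db00000000000017470000000000002a4800002d7f0000151300000000000000000000000000003cfc00000000000020e20000000000000000000000000000350a00002c5f0000000000002a00000000000000226800000000000017fa000014e800000000000000000000000000003e7c0000000000003f13000000000000000000000000000021e5000022ab00003f7f000000000000152b0000000000001320000000000000000000003d3f00002a4300000000000033d30000000000002b39000000000000367900003d27000000000000000000003feb00000000000018fd00000000000029dc0000338b00002a2b000000000000000000000000000033a8000000000000194a0000000000000000000000000000299b000028570000000000002a070000000000002b4b00000000000028c300002a730000000000000000000000000000134b00000000000013b70000000000000000000000000000026500000415000014230000000000000a9f00000000000011be0000292f00002adf00000000000000000000234d00000000000003730000000000001dfa000000000000000000001e900000114600003dda000000000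00018910000000000002970000034cf000034e100000000000000000000000000003d800000000000003372000000000000360d00003bcb000000000000000000001f2700000000000001c30000000000001ebb000000000000000000003ab700001d16000000000000220e000000000000227a0000000000000000000000000000217900001d9b00000eb20000000000000e460000000000000222000036e50000377a0000000000000000000037e6000000000000096d0000000000002904000000000000000000003636000026880000385200000000000017b30000000000002898000031db000017d1000000000000000000000000000036a200000000000028e60000000000000000000000000000351000002da300000000000033cc0000000000003360000000000000321c00002d540000000000000000000030d80000000000001969000000000000282c00002de400002ca000000000000000000000000000002a8400000000000028d400000000000026b30000271f00000000000000000000127f000000000000007f000000000000111d000000000000000000001ced0000245b00000000000022ec00000000000020d000000000000000000000000000001ddc00001beb00001bc6000000000000101b00000000000003d20000000000000000000018ba000019920000000000001926000000000000193800000000000017f4000017880000000000000000000000000000156c00000000000013bc00000000000000000000000000000e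1d0000105c00000f180000000000000c4f0000000000000ae00000099600000a020000000000000000000007ec000000000000058f00000000000003b4000000000000000000000204000000c000003a390000000000000a3900000000000027c00000182b0000325300000000000000000000000000002e8700000000000036f700000000000019db0000346f0000000000000000000038a70000000000000163000000000000253f000000000000000000001d3b0000116b0000000000002fcb000000000000376300000000000000000000000000001b1f00000d9f0000397f00000000000006df00000000000006f0000019c9000035470000000000000000000038f5000000000000031300000000000025ab000000000000000000001eeb0000124300003889000000000000088f00000000000026830000160f000008ad00000000000000000000000000002b9300000000000026a1000000000000000000000000000021df0000145f0000000000002977000000000000361f000000000000196f00002ce80000000000000000000000000000303700000000000037cf00000000000000000000000000001b8b00000e77000039cd000000000000074b00000000000012b400000000000000000000202f0000131b0000000000002833000000000000291d0000000000001897000032bf0000000000000000000039610000000000000967000000000000275b000016e700002778000000000000000000000000000017040000000000000984000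00000000018190000359500000000000000000000352900000000000003190000000000002617000000000000000000001fc3000012af0000345100000000000008f500000000000026ef0000167b0000168d00000000000000000000000000002bff0000000000002df60000000000000000000000000000224b000014cb00000000000029e300000000000034bd00000000000017ad00002c7c00000000000000000000323500000000000008890000000000002754000016690000315d00000000000000000000000000002d4300000000000031c900000000000015fd000016ab0000000000000000000008cb000000000000001f0000000000000559000000000000000000000c1900000fbb0000000000002f5f0000000000002d6d00000000000000000000000000001a4700000bef00002796000000000000052f000000000000065a00000000000000000000238f000015a30000000000002b2700000000000033790000000000001741000033e500000000000000000000000000002ef3000000000000330d00000000000000000000000000000b9500000b17000032a100000000000004570000000000000d1a000016d500002c9a000000000000000000002d0600000000000002a70000000000001ad0000000000000000000000ce40000062400000000000030a3000000000000381d00000000000000000000000000001b9100000ee3000037b100000000000007b7000000000000124800000000000000000000209b0000138700000000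0000289f00000000000028b100000000000019030000332b00000000000000000000374500000000000009cd00000000000026e80000175300002d8b00000000000000000000000000002c6b0000000000001806000000000000000000000000000022b7000015370000000000002a4f000000000000366d00000000000018f1000033970000000000000000000000000000286300000000000028cf0000000000000000000000000000040900000aab0000293b000000000000037f00000000000010e600001885000034db00000000000000000000360100000000000001cf0000000000001cb6000000000000000000001da700000e52000036d90000000000000961000000000000267c000017bf000031e700000000000000000000000000002daf0000000000003210000000000000195d00002dd80000000000000000000026bf000000000000008b0000000000002467000000000000000000001bf700001027000000000000199e00000000000017e80000000000000000000000000000105000000c5b000009a2000000000000059b00000000000000b400000a2d000018370000000000000000000019e700000000000001690000000000001177000000000000000000000dab000006eb000019bd000000000000031f000000000000124f0000089b0000161b0000000000000000000000000000146b000000000000197b00000000000000000000000000000e8300000757000000000000132700000000000018a3000000000000097300001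6f300000000000000000000180d000000000000030d00000000000012bb000008e900001687000000000000000000000000000014d700000000000017a1000000000000087d0000165d0000000000000000000015f1000000000000002b0000000000000fc7000000000000000000000bfb0000053b00000000000015af000000000000173500000000000000000000000000000b2300000463000016c900000000000002b30000000000000618000000000000000000000eef000007c30000000000001393000000000000190f00000000000009c10000175f0000000000000000000000000000154300000000000018e500000000000000000000000000000ab70000038b0000187900000000000001db0000000000000df200000955000017cb00000000000000000000195100000000000000970000000000001033000000000000000000000c67000005a700000a21000000000000015d00000000000006f70000032b000008a700000000000000000000000000000763000000000000097f0000000000000301000008dd0000000000000000000008710000000000000031000000000000054700000000000000000000046f000002bf00000000000007cf00000000000009b500000000000000000000000000000397000001e70000094900000000000000a300000000000005ac00000151000003370000000000000000000002f5000000000000002500000000000002cb0000000000000000000001f3000000af00000145000000000000001900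000000000000bb0000000d00000001000000000000000000000000000000d9000000000000006d0000000000000000000000000000025f000000e5000000000000021d00000000000001b100000000000000790000028900000000000000000000000000000805000000000000079900000000000000000000000000000403000002530000072d00000000000000f1000000000000061f0000000000000000000004a50000022900000000000003cd000000000000036100000000000001bd000004390000000000000000000006c1000000000000008500000000000006550000029500000511000000000000000000000000000005e9000000000000057d00000000000000000000000000000f5b0000081100000000000013ff000000000000151900000000000007a500001585000000000000000000000000000013d5000000000000136900000000000000000000000000000abd000003f7000012fd000000000000024700000000000011dc00000739000014ad00000000000000000000144100000000000000fd000000000000109f000000000000000000000cd3000006130000000000000f310000000000000ec500000000000000000000000000000b8f000004b100000e5900000000000002350000000000000ded000000000000000000000b65000003d90000000000000ae70000000000000a8d000000000000036d00000af9000000000000000000000d8100000000000001c90000000000000d150000044500000bd1000000000000000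00000000000000ca90000000000000c3d00000000000006cd000012910000000000000000000012250000000000000091000000000000110b000000000000000000000d3f000006610000114d00000000000002a100000000000010e10000051d00000f9d00000000000000000000000000001075000000000000100900000000000000000000000000000e17000005f500000000000011b90000000000000e34000000000000058900000642000000000000000000000000000030f1000000000000308500000000000000000000000000001b2500000f4f00003019000000000000081d0000000000001170000000000000000000002107000013f3000000000000290b0000000000002845000000000000152500002ed5000000000000000000002fad00000000000007b100000000000026100000159100002f4100000000000000000000000000002cd7000000000000198000000000000000000000000000002323000013e10000000000002a9d0000000000002a31000000000000137500002b09000000000000000000000000000028ed00000000000028810000000000000000000000000000039d00000ac90000281500000000000003eb000000000000110400001309000029c5000000000000000000002959000000000000023b0000000000001e66000000000000000000001e13000011d700002e69000000000000074500000000000025a4000014b900002d2500000000000000000000000000002dfd0000000000002d91000000000000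144d00002be1000000000000000000002b7500000000000000f700000000000024d3000000000000000000001c63000010930000000000002cb90000000000002c4d00000000000000000000000000001ab300000cc700001722000000000000060700000000000002c40000000000000000000023dd00000f3d000000000000230500000000000022990000000000000ed100002371000000000000000000000000000020e9000000000000207d00000000000000000000000000000b2900000b830000201100000000000004bd000000000000109800000e650000222d0000000000000000000021c100000000000002410000000000002155000000000000000000001db800000df90000000000001b430000000000001baf00000000000000000000000000001a4d00000b7100001b6d00000000000003e5000000000000102c000000000000000000000b4700000adb00000000000003bb00000000000004270000000000000a9900000bb3000000000000000000001b0100000000000003790000000000001ad700000b0500001a2900000000000000000000000000001a95000000000000106e0000000000000d8d00001fa5000000000000000000001ecd00000000000001d50000000000001e61000000000000000000001f3900000d2100001d1d00000000000004510000000000001cb100000bdd00000c3700000000000000000000000000001c450000000000001bd900000000000000000000000000001dd600000cb50000000000001df50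000000000001d890000000000000c4900000d020000000000000000000027a900000000000006d900000000000025380000129d00002772000000000000000000000000000025c2000000000000269a0000000000001231000026d1000000000000000000002665000000000000009d0000000000002479000000000000000000001ccf000010ff000000000000262e000000000000270600000000000000000000000000001ab900000d330000273d000000000000066d000000000000054000001159000025f900000000000000000000258d00000000000002ad00000000000024cc000000000000000000001e7f000010ed000025210000000000000529000000000000246000000fa900000577000000000000000000000000000024b5000000000000244900000000000000000000000000002173000010810000000000001eb40000000000001d04000000000000101500001aee0000000000000000000000000000118e00000000000012660000000000000000000000000000104a00000e0b000012d200000000000006010000000000000fc00000000000000000000010b6000011c5000000000000112200000000000011340000000000000e4000000d6800000000000000000000070e0000000000000595000000000000055e00000636000006a2000000000000000000000000000002e200000000000000d200000000000000000000000000003c01000030fd0000000000003db60000000000003e8e00000000000030910000403e000000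00000000000000000000003e220000000000003efa00000000000000000000000000000db100001b31000041ee0000000000000f430000000000000f5400003025000040aa0000000000000000000042c6000000000000081700000000000023e2000000000000000000001d4c0000117c0000000000003e100000000000003f6600000000000000000000000000001fc9000020fb0000423d00000000000013e70000000000000ee80000000000000000000032dd000028ff00000000000018b5000000000000133900000000000028510000204d0000000000000000000041d10000000000001531000000000000238800002ee1000023d700000000000000000000000000002f2e000000000000157e0000000000002fb90000411600000000000000000000431500000000000007bd000000000000231c000000000000000000003b2e0000261c000042a9000000000000159d00000000000022b000002f4d000015eb00000000000000000000000000003c7200000000000022fe0000000000000000000000000000363c00002ccb000000000000299400000000000021fc000000000000198c0000147c00000000000000000000000000003da40000000000003fb500000000000000000000000000001ef10000231700003f4900000000000013ed0000000000000e7c000000000000000000003b9500002aa9000000000000351700000000000029f50000000000002a3d00003cf1000000000000000000003edd000000000000138100000000000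0224400002b1500002b6f0000000000000000000000000000333c000000000000191400000000000000000000000000003643000028f9000000000000350500000000000033c1000000000000288d000036af000000000000000000000000000018c70000000000001933000000000000000000000000000001f9000003a9000015610000000000000ad50000000000000e100000282100002a790000000000000000000022e100000000000003df0000000000001dd1000000000000000000001ce00000111000003e71000000000000131500000000000021d8000029d10000339d00000000000000000000000000003d4a00000000000033de000000000000296500003d7500000000000000000000221b000000000000022f000000000000216c000000000000000000003ac200001ec600000000000029a60000000000002a1200000000000000000000000000001e8500001e070000135600000000000011cb000000000000025800002e75000041650000000000000000000040f900000000000007510000000000002100000000000000000000003b34000025b00000408d00000000000014c5000000000000209400002d310000176500000000000000000000000000003cde0000000000002a9600000000000000000000000000003b9a00002e090000000000003d380000000000003d920000000000002d9d00002c100000000000000000000040210000000000001459000000000000202800002bed00003409000000000000000000000000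00003ccc00000000000036900000000000002b8100002c2f00000000000000000000149b00000000000000eb00000000000010b1000000000000000000001c81000024c70000000000003c600000000000003d0e00000000000000000000000000001f5d00001c570000206a000000000000108700000000000004aa0000000000000000000032e200002cc5000000000000334e00000000000033ba0000000000002c590000342600000000000000000000000000002f1c0000000000002b5000000000000000000000000000000d4500001aa7000023b80000000000000cbb0000000000000b6a00001716000017820000000000000000000015cc00000000000005fb0000000000000b40000000000000000000000480000002d00000000000003bf40000000000003dc300000000000000000000000000001d41000023e900003e2f0000000000000f490000000000000da4000000000000000000003b3b000023110000000000003631000000000000298900000000000022a500003c7f000000000000000000003e050000000000000edd0000000000001fbc0000237d00002f3b000000000000000000000000000032d000000000000018a800000000000000000000000000003b29000020f50000000000003ba70000000000003d2d000000000000208900003ceb000000000000000000000000000032ef000000000000335b0000000000000000000000000000047500000b3500002f110000000000000b770000000000000d380000201d00003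cc1000000000000000000003c5500000000000004b70000000000001f3e000000000000000000001c74000010a400003d990000000000000e710000000000001ee4000022390000333100000000000000000000000000003b88000000000000352200000000000021cd00003d570000000000000000000029b3000000000000024d0000000000001e78000000000000000000003acf00002161000000000000364e00000000000034f800000000000000000000000000001cd500001dc4000018d20000000000000e0500000000000001ec000000000000000000001d5300001b370000000000001f0300000000000021f70000000000001ba30000204700000000000000000000000000001fdb000000000000226300000000000000000000000000000c0100001a59000023a70000000000000b7d0000000000000ccc00001b79000020b30000000000000000000022cf00000000000003f10000000000001dbf000000000000000000001c08000010380000000000000dc30000000000000e9b00000000000000000000000000000c1300000b3b00000f070000000000000acf0000000000000c60000000000000000000000487000003af000000000000020b0000000000000277000000000000041b000004f3000000000000000000000f730000000000000aa50000000000000ceb00000ba700000bb900000000000000000000000000000d570000000000000e2f0000000000001b0d0000211f00000000000000000000233b000000000000038500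00000000001e0c000000000000000000001c7b00001acb000024130000000000000b110000000000001da000001a3500000b5f00000000000000000000000000001f6f0000000000001dee00000000000000000000000000001ce700001aa10000000000001e97000000000000218b0000000000001062000010ce000000000000000000003be90000000000000d990000000000001d3400001fb1000032c500000000000000000000000000003b4600000000000036240000000000001ed900003b7d00000000000000000000365b00000000000001e10000000000001cc8000000000000000000003ad500001e6d0000000000003b1c0000000000003bb200000000000000000000000000001c6900001f45000032fa0000000000000d2d000000000000046800001d2900003b53000000000000000000003b11000000000000045d0000000000001c5c000000000000000000003ac800001cbd00001d6b0000000000000be90000000000001bf000000c2b0000049f00000000000000000000000000001c930000000000001cff00000000000000000000000000003abd00001c510000000000003ab00000000000003aa50000000000001be500001c9e00000000000000000000000000001d5e0000000000001f0e00000000000000000000000000001bfd00001dca00001fe60000000000000cc10000000000000bf4000000000000000000001c8600001e010000000000001cf20000000000001ea20000000000001d9500001f7a000000000000000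000000dce0000000000000c550000000000000c1e00000cf600000d6200000000000000000000000000000492000000000000021600000000000027b500002e92000000000000000000002fd600000000000006e50000000000001b2a000000000000000000001d46000025440000304200000000000012a90000000000001b9600002766000016f90000000000000000000000000000203a000000000000283e00000000000000000000000000001ef6000025b600000000000021ea0000000000002982000000000000268e00002b9e0000000000000000000030ae000000000000123d0000000000001b84000026dd00002c76000000000000000000000000000020a600000000000028aa000000000000267100002dba0000000000000000000019ab00000000000000a90000000000001045000000000000000000001c020000247200000000000022c20000000000002a5a00000000000000000000000000001db200001cc30000286e00000000000010f300000000000003fc000000000000000000001fce00002622000000000000225600000000000029ee00000000000026fa00002c0a0000000000000000000000000000239a0000000000002b3200000000000000000000000000000cd900001ac500002efe0000000000000d270000000000000b880000274900002d4e000000000000000000002f6a00000000000006670000000000001a52000000000000000000000c0c0000054c0000311a00000000000011650000000000001b180000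260500002ce2000000000000000000000000000021120000000000002916000000000000259900002e26000000000000000000002d1800000000000002b90000000000001abe000000000000000000001c6e000024d8000000000000232e0000000000002ac600000000000000000000000000001e1900001e730000294c00000000000010f900000000000003900000252d000025cf00000000000000000000263b00000000000005350000000000001aac000000000000000000001cda0000246c0000119b0000000000000fb500000000000010570000056b000002ef000000000000000000000000000010c3000000000000112f00000000000000000000000000001e8a000024c1000000000000217e0000000000001ea900000000000024550000250e00000000000000000000000000002406000000000000236400000000000000000000000000001dad0000216700002148000000000000108d0000000000000b1c000000000000000000001f6200001ec00000000000001de30000000000001e4f0000000000001d1000001ca4000000000000000000001b4e00000000000010210000000000001a4000001ae200001af400000000000000000000000000000b5200000000000003c600000000000000000000000000000db6000011820000000000000e8e0000000000001332000000000000125a0000147600000000000000000000000000000efa000000000000139e00000000000000000000000000000c6d0000103e0000154e000000000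0000dff0000000000000ac2000012c6000014e20000000000000000000015ba000000000000060d0000000000000b2e000000000000000000000c0600000fcc0000000000000f66000000000000140a00000000000000000000000000000cde000010aa0000143400000000000011d10000000000000ab0000000000000000000000d4a000011160000000000000e2200000000000012130000000000001140000010d4000000000000000000000f900000000000000e4c0000000000000b9a00000d7400000d0800000000000000000000000000000bc40000000000000af200000000000007020000076e0000000000000000000007da00000000000005a100000000000003a200000000000000000000047a0000055200000846000000000000062a000000000000040e0000069600000648000000000000000000000000000004e6000000000000042c000000000000000000000000000001fe000002d6000000000000026a000000000000027c00000000000000c60000013200000000000000000000000000003a4400000000000044d6000000000000000000000000000027ba00003bfa000045ae00000000000030f70000000000000a32000000000000000000002e7a00003daa00000000000036ea0000000000002e990000000000003e8200003dc900000000000000000000461a000000000000309d000000000000181e00004032000030eb00000000000000000000000000003246000000000000183c00000000000000000000000000002f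be00003e16000000000000375600000000000041890000000000003eee00003fd8000000000000000000000000000039720000000000003781000000000000000000000000000006fd00000dbd00002fe90000000000001b3d00000000000006d2000041e200003f19000000000000000000003e410000000000000f370000000000000d92000000000000000000001b1200000f6000004608000000000000303100000000000019ce0000409e000038410000000000000000000000000000346200000000000035b800000000000042ba000040c8000000000000000000003073000000000000080b000000000000115e000000000000000000001d2e00002400000000000000389a000000000000348c0000000000000000000000000000253200001d58000019f80000000000001188000000000000015600000000000000000000302a00003e1c00000000000037c2000000000000411d0000000000003f5a00003f6c000000000000000000000000000039d800000000000043fe000000000000000000000000000012c100001fd50000415200000000000020ef000000000000073e0000424900004542000000000000000000003fa300000000000013db0000000000000e6a000000000000000000001b7e00000ef4000000000000396c0000000000003a0f0000000000000000000000000000274e000032e9000037f900000000000028f3000000000000095a000000000000000000001711000018c100000000000009910000000000000775000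000000000134500000ea1000000000000000000003061000000000000285d00000000000016da0000205900001bb50000000000000000000000000000278500000000000012f600000000000041dd0000427e000000000000000000003f91000000000000153d000000000000130e0000000000000000000020220000239400003e530000000000002eed000000000000188a000023cb00000f2b000000000000000000000000000032b2000000000000200a0000000000000000000000000000282600002f220000000000002928000000000000212400000000000015720000141000000000000000000000459c0000000000002fc500000000000019d40000410a000037d50000000000000000000000000000353a000000000000354c00000000000043210000448900000000000000000000380b00000000000007c90000000000001236000000000000000000001ede00002328000000000000390000000000000043920000000000000000000000000000259e00003b220000358200000000000026280000000000000306000042b50000435700000000000000000000414000000000000015a900000000000014520000000000000000000021d2000022bc00002ffb0000000000002f590000000000001962000015df000007ff00000000000000000000000000002cf5000000000000265e0000000000000000000000000000296a00003c6600000000000036120000000000003b5800000000000022f20000235e000000000000000000000000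0000389400000000000039360000000000000000000000000000267600003648000035700000000000002cbf0000000000000882000000000000000000002b86000029a000000000000026ac00000000000025d4000000000000220800001f14000000000000000000001a0a00000000000019980000000000001602000014880000126c000000000000000000000000000008b8000000000000033c0000000000000000000000000000309600003db0000000000000382800000000000040b10000000000003fc100003f00000000000000000000000000000037bc000000000000446a0000000000000000000000000000125500001efd00004345000000000000230b00000000000007aa00003f550000455b00000000000000000000426c00000000000013f90000000000000ed6000000000000000000001b9c00000e8800000000000037500000000000004404000000000000000000000000000026f500003ba10000449b0000000000002aa300000000000009c6000000000000000000002c5e0000350b00000000000017fb00000000000014e90000000000002a01000022690000000000000000000040da0000000000002a49000000000000174600003cfd000020e300000000000000000000000000002d7e00000000000015120000000000003ee900004549000000000000000000004530000000000000138d000000000000137a00000000000000000000208e0000225000003f2b0000000000002b2100000000000018f600002b6300001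3cf0000000000000000000000000000331e0000000000002292000000000000000000000000000028920000334800000000000028bc00000000000020b80000000000001920000013a4000000000000000000000000000036e4000000000000377b0000000000000000000000000000268900003637000037e70000000000002905000000000000096c000000000000000000002da200003511000000000000321d0000000000002d5500000000000033cd00003361000000000000000000003853000000000000289900000000000017b2000036a3000028e7000000000000000000000000000031da00000000000017d000000000000000000000000000001993000018bb00000000000017f50000000000001789000000000000192700001939000000000000000000000000000009970000000000000a03000000000000000000000000000000c100000205000007ed00000000000003b5000000000000058e0000156d000013bd000000000000000000000f190000000000000ae10000000000000c4e00000000000000000000105d00000e1c000030d9000000000000282d000000000000196800002a85000028d500000000000000000000000000002de50000000000002ca100000000000022ed000020d1000000000000000000001bc700000000000003d3000000000000101a000000000000000000001bea00001ddd00000000000026b2000000000000271e0000000000000000000000000000245a00001cec0000127e000000000000111c00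0000000000007e00003e7d00003f12000000000000000000003f7e0000000000001321000000000000152a0000000000000000000022aa000021e400003fea00000000000029dd00000000000018fc000033a90000194b0000000000000000000000000000338a0000000000002a2a00000000000000000000000000002a4200003d3e00000000000036780000000000003d2600000000000033d200002b38000000000000000000003ddb0000000000002971000000000000189000003d8100003373000000000000000000000000000034ce00000000000034e0000000000000220f0000227b000000000000000000000eb300000000000002230000000000000e47000000000000000000001d9a00002178000000000000360c0000000000003bca00000000000000000000000000001d1700003ab600001f260000000000001eba00000000000001c20000000000000000000028560000299a00000000000028c20000000000002a720000000000002a0600002b4a0000000000000000000000000000292e0000000000002ade0000000000000000000000000000114700001e910000234c0000000000001dfb00000000000003720000134a000013b600000000000000000000142200000000000011bf0000000000000a9e00000000000000000000041400000264000044c40000000000002e8100000000000018240000417100003769000000000000000000000000000035a00000000000003474000000000000410500004416000000000000000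0000039fd000000000000075d00000000000012a2000000000000000000001fb60000210c000000000000353400000000000043aa0000000000000000000000000000260a00003b400000392400000000000025bc000000000000032400004099000044580000000000000000000043ec00000000000014d100000000000014be00000000000000000000223e000020a0000037930000000000002d3d00000000000017b800001771000009f100000000000000000000000000002c890000000000002736000000000000000000000000000029d600003cd200000000000034c80000000000003be20000000000002a8a00002acc0000000000000000000000000000345c0000000000004398000000000000000000000000000026e200003b8e000043800000000000002e0300000000000008ee000000000000000000002bf200003d440000000000002deb0000000000002e2d0000000000003d8600003bb800000000000000000000349e0000000000002da9000000000000166e00002c1c0000270c000000000000000000000000000016980000000000000918000000000000402d000040c300000000000000000000412f00000000000014650000000000001596000000000000000000002382000020340000419b0000000000002bf9000000000000174c000034150000179b000000000000000000000000000033f00000000000002c4600000000000000000000000000002b1a00003cd800000000000033840000000000003d5c000000000000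369c00002a60000000000000000000002eab0000000000002b8d00000000000016e000002c2300002d6700000000000000000000000000002c8f0000000000002dd3000000000000148f000014fb00000000000000000000078700000000000000df0000000000000631000000000000000000000cf1000010bd0000000000002cfb0000000000002e3f00000000000000000000000000001add00001c8d000025e600000000000024bb000000000000029a000000000000000000002ee600003c6c00000000000033180000000000003d6e0000000000003d0200003d14000000000000000000000000000032ac0000000000003bd000000000000000000000000000000d7b00001f6900003b6a0000000000001c4b000000000000044a0000205e000020ca000000000000000000002136000000000000107b0000000000000b0a000000000000000000000ba0000004e00000000000003240000000000000348600000000000000000000000000002761000032d60000355e0000000000002cd10000000000000894000000000000000000002d360000334200000000000031d40000000000002dc100000000000033ae000034f20000000000000000000035ca0000000000002c6500000000000016740000341a00002cb30000000000000000000000000000316800000000000016c200000000000000000000000000002f5200002f280000000000002d780000000000002c340000000000002b5c00002a180000000000000000000000000000278b0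0000000000027240000000000000000000000000000069100000d510000264c0000000000001a9b0000000000000522000023c400002280000000000000000000001ff80000000000000caf0000000000000be2000000000000000000001a3a00000bca0000184e000000000000170a000000000000160800001776000017e20000000000000000000000000000169e00000000000016b000000000000015d8000015000000000000000000000012e400000000000005ef0000000000000fae000000000000000000000c2400000b4c00000000000008be000000000000092a000000000000000000000000000005640000048c0000034e00000000000002dc00000000000000120000000000000000000030fc00003c000000000000003090000000000000403f0000000000003db700003e8f0000000000000000000000000000302400000000000040ab0000000000000000000000000000117d00001d4d000042c700000000000023e3000000000000081600003e2300003efb0000000000000000000041ef0000000000000f550000000000000f42000000000000000000001b3000000db00000000000002fb800000000000041170000000000000000000000000000261d00003b2f00004314000000000000231d00000000000007bc000000000000000000002cca0000363d000000000000198d000000000000147d0000000000002995000021fd0000000000000000000042a800000000000022b1000000000000159c00003c73000022ff000000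00000000000000000000002f4c00000000000015ea0000000000003e1100003f6700000000000000000000423c0000000000000ee900000000000013e60000000000000000000020fa00001fc8000041d00000000000002389000000000000153000002f2f0000157f00000000000000000000000000002ee000000000000023d6000000000000000000000000000028fe000032dc0000000000002850000000000000204c00000000000018b40000133800000000000000000000000000002e740000000000004164000000000000000000000000000025b100003b35000040f800000000000021010000000000000750000000000000000000002e0800003b9b0000000000002d9c0000000000002c110000000000003d3900003d9300000000000000000000408c000000000000209500000000000014c400003cdf00002a9700000000000000000000000000002d30000000000000176400000000000000000000000000002cc4000032e30000000000002c580000000000003427000000000000334f000033bb000000000000000000000000000017170000000000001783000000000000000000000000000002d100000481000015cd0000000000000b4100000000000005fa00002f1d00002b510000000000000000000023b90000000000000b6b0000000000000cba000000000000000000001aa600000d44000040200000000000002029000000000000145800003ccd0000369100000000000000000000000000002bec0000000000003408000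0000000003c6100003d0f00000000000000000000206b00000000000004ab0000000000001086000000000000000000001c5600001f5c0000000000002b800000000000002c2e000000000000000000000000000024c600001c800000149a00000000000010b000000000000000ea00003da500003fb4000000000000000000003f480000000000000e7d00000000000013ec00000000000000000000231600001ef000003edc000000000000224500000000000013800000333d0000191500000000000000000000000000002b140000000000002b6e00000000000000000000000000002aa800003b940000000000002a3c0000000000003cf00000000000003516000029f4000000000000000000003e7000000000000021d9000000000000131400003d4b000033df000000000000000000000000000029d0000000000000339c00000000000029a700002a13000000000000000000001357000000000000025900000000000011ca000000000000000000001e0600001e8400000000000029640000000000003d7400000000000000000000000000001ec700003ac30000221a000000000000216d000000000000022e0000000000000000000028f800003642000000000000288c00000000000036ae0000000000003504000033c0000000000000000000000000000028200000000000002a780000000000000000000000000000111100001ce1000022e00000000000001dd000000000000003de000018c600001932000000000000000000001560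0000000000000e110000000000000ad40000000000000000000003a8000001f800000000000027b40000000000002e930000000000000000000000000000254500001d4700002fd70000000000001b2b00000000000006e40000000000000000000025b700001ef7000000000000268f0000000000002b9f00000000000021eb000029830000000000000000000030430000000000001b9700000000000012a80000203b0000283f0000000000000000000000000000276700000000000016f80000000000000000000000000000262300001fcf00000000000026fb0000000000002c0b0000000000002257000029ef000000000000000000000000000027480000000000002d4f0000000000000000000000000000054d00000c0d00002f6b0000000000001a5300000000000006660000239b00002b33000000000000000000002eff0000000000000b890000000000000d26000000000000000000001ac400000cd8000030af0000000000001b85000000000000123c000020a7000028ab000000000000000000000000000026dc0000000000002c7700000000000022c300002a5b00000000000000000000286f00000000000003fd00000000000010f2000000000000000000001cc200001db300000000000026700000000000002dbb0000000000000000000000000000247300001c03000019aa000000000000104400000000000000a800000000000000000000118300000db7000000000000125b00000000000014770000000000000e8f00001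333000000000000000000000000000012c700000000000014e300000000000000000000000000000fcd00000c07000015bb0000000000000b2f000000000000060c00000efb0000139f00000000000000000000154f0000000000000ac30000000000000dfe00000000000000000000103f00000c6c0000000000000703000000000000076f000000000000000000000000000005530000047b000007db00000000000003a300000000000005a00000000000000000000002d7000001ff00000000000000c70000000000000133000000000000026b0000027d000000000000000000000847000000000000040f000000000000062b000004e70000042d0000000000000000000000000000069700000000000006490000000000000f670000140b0000000000000000000014350000000000000ab100000000000011d00000000000000000000010ab00000cdf00000f910000000000000b9b0000000000000e4d00000bc500000af300000000000000000000000000000d750000000000000d090000000000000000000000000000111700000d4b000000000000114100000000000010d50000000000000e230000121200000000000000000000311b0000000000001b1900000000000011640000211300002917000000000000000000000000000026040000000000002ce3000000000000232f00002ac700000000000000000000294d000000000000039100000000000010f8000000000000000000001e7200001e1800000000000025980000000000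002e27000000000000000000000000000024d900001c6f00002d190000000000001abf00000000000002b800002407000023650000000000000000000021490000000000000b1d000000000000108c00000000000000000000216600001dac00001b4f0000000000001a41000000000000102000000b53000003c700000000000000000000000000001ae30000000000001af500000000000000000000000000001ec100001f630000000000001d110000000000001ca50000000000001de200001e4e0000000000000000000000000000252c00000000000025ce0000000000000000000000000000246d00001cdb0000263a0000000000001aad00000000000005340000000000000000000024c000001e8b0000000000002454000000000000250f000000000000217f00001ea800000000000000000000119a00000000000010560000000000000fb4000010c20000112e0000000000000000000000000000056a00000000000002ee0000000000003bf500003dc2000000000000000000003e2e0000000000000da50000000000000f480000000000000000000023e800001d4000003e040000000000001fbd0000000000000edc000032d1000018a90000000000000000000000000000237c0000000000002f3a0000000000000000000000000000231000003b3a00000000000022a40000000000003c7e000000000000363000002988000000000000000000003d980000000000001ee50000000000000e7000003b8900003523000000000000000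000000000000022380000000000003330000000000000364f000034f90000000000000000000018d300000000000001ed0000000000000e04000000000000000000001dc500001cd400000000000021cc0000000000003d560000000000000000000000000000216000003ace000029b20000000000001e79000000000000024c0000000000000000000020f400003b2800000000000020880000000000003cea0000000000003ba600003d2c0000000000000000000000000000201c0000000000003cc0000000000000000000000000000010a500001c7500003c540000000000001f3f00000000000004b6000032ee0000335a000000000000000000002f100000000000000d390000000000000b76000000000000000000000b340000047400003be80000000000001d350000000000000d9800003b470000362500000000000000000000000000001fb000000000000032c40000000000003b1d00003bb30000000000000000000032fb00000000000004690000000000000d2c000000000000000000001f4400001c680000000000001ed80000000000003b7c00000000000000000000000000001e6c00003ad40000365a0000000000001cc900000000000001e000001d5f00001f0f000000000000000000001fe70000000000000bf50000000000000cc0000000000000000000001dcb00001bfc00000dcf0000000000000c1f0000000000000c54000004930000021700000000000000000000000000000cf70000000000000d63000000000000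00000000000000001e0000001c870000000000001d940000000000001f7b0000000000001cf300001ea300000000000000000000000000001d280000000000003b5200000000000000000000000000001cbc00003ac900003b100000000000001c5d000000000000045c000000000000000000001c5000003abc0000000000001be40000000000001c9f0000000000003ab100003aa4000000000000000000001d6a0000000000001bf10000000000000be800001c9200001cfe00000000000000000000000000000c2a000000000000049e00000000000000000000000000001b3600001d520000000000001ba200000000000020460000000000001f02000021f600000000000000000000000000001b7800000000000020b20000000000000000000000000000103900001c09000022ce0000000000001dbe00000000000003f000001fda000022620000000000000000000023a60000000000000ccd0000000000000b7c000000000000000000001a5800000c000000000000001b0c000000000000211e00000000000000000000000000001aca00001c7a0000233a0000000000001e0d0000000000000384000000000000000000001aa000001ce6000000000000106300000000000010cf0000000000001e960000218a0000000000000000000024120000000000001da10000000000000b1000001f6e00001def00000000000000000000000000001a340000000000000b5e0000000000000dc200000e9a000000000000000000000f06000000000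0000c610000000000000ace000000000000000000000b3a00000c1200000f720000000000000cea0000000000000aa400000d5600000e2e00000000000000000000000000000ba60000000000000bb8000000000000000000000000000003ae00000486000000000000041a00000000000004f2000000000000020a00000276000000000000000000003a3800000000000027c10000000000000a3800002e86000036f60000000000000000000000000000182a00000000000032520000000000002fca0000376200000000000000000000397e00000000000006f100000000000006de000000000000000000000d9e00001b1e00000000000019da000000000000346e0000000000000000000000000000116a00001d3a000038a6000000000000253e000000000000016200003036000037ce0000000000000000000039cc00000000000012b5000000000000074a000000000000000000000e7600001b8a00003960000000000000275a00000000000009660000170500000985000000000000000000000000000016e600000000000027790000000000000000000000000000131a0000202e000000000000189600000000000032be00000000000028320000291c000000000000000000000000000019c800000000000035460000000000000000000000000000124200001eea000038f400000000000025aa000000000000031200000000000000000000145e000021de000000000000196e0000000000002ce900000000000029760000361e000000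0000000000000038880000000000002682000000000000088e00002b92000026a00000000000000000000000000000160e00000000000008ac00000000000030a20000381c0000000000000000000037b0000000000000124900000000000007b6000000000000000000000ee200001b900000374400000000000026e900000000000009cc00002c6a00001807000000000000000000000000000017520000000000002d8a000000000000000000000000000013860000209a0000000000001902000000000000332a000000000000289e000028b00000000000000000000036d8000000000000267d000000000000096000002dae00003211000000000000000000000000000017be00000000000031e6000000000000199f000017e90000000000000000000009a300000000000000b5000000000000059a000000000000000000000c5a00001051000000000000195c0000000000002dd90000000000000000000000000000102600001bf6000026be0000000000002466000000000000008a000000000000000000001536000022b600000000000018f000000000000033960000000000002a4e0000366c0000000000000000000000000000188400000000000034da00000000000000000000000000000e5300001da6000036000000000000001cb700000000000001ce00002862000028ce00000000000000000000293a00000000000010e7000000000000037e000000000000000000000aaa0000040800000000000018180000000000003594000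000000000000000000000000012ae00001fc200003528000000000000261600000000000003180000000000000000000014ca0000224a00000000000017ac0000000000002c7d00000000000029e2000034bc00000000000000000000345000000000000026ee00000000000008f400002bfe00002df70000000000000000000000000000167a000000000000168c000000000000000000000000000015a20000238e000000000000174000000000000033e40000000000002b2600003378000000000000000000000000000016d40000000000002c9b0000000000000000000000000000062500000ce500002d070000000000001ad100000000000002a600002ef20000330c0000000000000000000032a00000000000000d1b0000000000000456000000000000000000000b1600000b94000032340000000000002755000000000000088800002d42000031c800000000000000000000000000001668000000000000315c0000000000002f5e00002d6c000000000000000000002797000000000000065b000000000000052e000000000000000000000bee00001a4600000000000015fc00000000000016aa00000000000000000000000000000fba00000c18000008ca0000000000000558000000000000001e000030f0000030840000000000000000000030180000000000001171000000000000081c000000000000000000000f4e00001b2400002fac000000000000261100000000000007b000002cd600001981000000000000000000000000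000015900000000000002f40000000000000000000000000000013f20000210600000000000015240000000000002ed4000000000000290a00002844000000000000000000002e6800000000000025a5000000000000074400002dfc00002d90000000000000000000000000000014b80000000000002d240000000000002cb800002c4c00000000000000000000172300000000000002c50000000000000606000000000000000000000cc600001ab2000000000000144c0000000000002be00000000000000000000000000000109200001c6200002b7400000000000024d200000000000000f60000000000000000000013e00000232200000000000013740000000000002b080000000000002a9c00002a300000000000000000000000000000130800000000000029c4000000000000000000000000000011d600001e12000029580000000000001e67000000000000023a000028ec00002880000000000000000000002814000000000000110500000000000003ea000000000000000000000ac80000039c000027a8000000000000253900000000000006d8000025c30000269b0000000000000000000000000000129c0000000000002773000000000000262f0000270700000000000000000000273c0000000000000541000000000000066c000000000000000000000d3200001ab8000000000000123000000000000026d0000000000000000000000000000010fe00001cce000026640000000000002478000000000000009c0000118f00001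2670000000000000000000012d30000000000000fc10000000000000600000000000000000000000e0a0000104b0000070f000000000000055f0000000000000594000002e3000000d30000000000000000000000000000063700000000000006a3000000000000000000000000000011c4000010b70000000000000e410000000000000d690000000000001123000011350000000000000000000000000000115800000000000025f8000000000000000000000000000010ec00001e7e0000258c00000000000024cd00000000000002ac0000000000000000000010800000217200000000000010140000000000001aef0000000000001eb500001d0500000000000000000000252000000000000024610000000000000528000024b40000244800000000000000000000000000000fa8000000000000057600000000000000000000000000000f3c000023dc0000000000000ed0000000000000237000000000000023040000229800000000000000000000000000000e64000000000000222c00000000000000000000000000000df800001db9000021c000000000000021540000000000000240000020e80000207c000000000000000000002010000000000000109900000000000004bc000000000000000000000b8200000b280000000000000d8c0000000000001fa400000000000000000000000000000d2000001f3800001ecc0000000000001e6000000000000001d4000000000000000000000cb400001dd70000000000000c480000000000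000d030000000000001df400001d88000000000000000000001d1c0000000000001cb0000000000000045000001c4400001bd800000000000000000000000000000bdc0000000000000c360000000000001b4200001bae000000000000000000001b6c000000000000102d00000000000003e4000000000000000000000b7000001a4c00001b000000000000001ad6000000000000037800001a940000106f00000000000000000000000000000b040000000000001a2800000000000000000000000000000ada00000b460000000000000a980000000000000bb200000000000003ba0000042600000000000000000000000000000a2c0000000000001836000000000000000000000000000006ea00000daa000019e60000000000001176000000000000016800000000000000000000075600000e82000000000000097200000000000016f20000000000001326000018a20000000000000000000019bc000000000000124e000000000000031e0000146a0000197a0000000000000000000000000000089a000000000000161a000000000000000000000000000007c200000eee00000000000009c0000000000000175e00000000000013920000190e0000000000000000000000000000095400000000000017ca000000000000000000000000000005a600000c66000019500000000000001032000000000000009600001542000018e40000000000000000000018780000000000000df300000000000001da00000000000000000000038a00000ab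60000180c00000000000012ba000000000000030c000014d6000017a0000000000000000000000000000008e8000000000000168600000000000015ae000017340000000000000000000016c8000000000000061900000000000002b200000000000000000000046200000b22000000000000087c000000000000165c0000000000000000000000000000053a00000bfa000015f00000000000000fc6000000000000002a00000000000000000000081000000f5a00000000000007a4000000000000158400000000000013fe000015180000000000000000000000000000073800000000000014ac0000000000000000000000000000061200000cd200001440000000000000109e00000000000000fc000013d4000013680000000000000000000012fc00000000000011dd00000000000002460000000000000000000003f600000abc00000000000006cc00000000000012900000000000000000000000000000066000000d3e00001224000000000000110a00000000000000900000000000000000000005f400000e160000000000000588000000000000064300000000000011b800000e3500000000000000000000114c00000000000010e000000000000002a000001074000010080000000000000000000000000000051c0000000000000f9c0000000000000f3000000ec4000000000000000000000e580000000000000dec00000000000002340000000000000000000004b000000b8e00000d800000000000000d1400000000000001c80000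0ca800000c3c000000000000000000000000000004440000000000000bd0000000000000000000000000000003d800000b64000000000000036c0000000000000af80000000000000ae600000a8c000000000000000000000a2000000000000006f6000000000000015c000007620000097e0000000000000000000000000000032a00000000000008a600000000000007ce000009b400000000000000000000094800000000000005ad00000000000000a20000000000000000000001e600000396000000000000030000000000000008dc000000000000000000000000000002be0000046e0000087000000000000005460000000000000030000008040000079800000000000000000000072c000000000000061e00000000000000f000000000000000000000025200000402000006c000000000000006540000000000000084000005e80000057c00000000000000000000000000000294000000000000051000000000000000000000000000000228000004a400000000000001bc000000000000043800000000000003cc00000360000000000000000000000000000001500000000000000336000000000000000000000000000000ae000001f2000002f400000000000002ca00000000000000240000000000000000000000e40000025e00000000000000780000000000000288000000000000021c000001b000000000000000000000014400000000000000ba0000000000000018000000d80000006c0000000000000000000000000000000c000000000000000000000000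

theorem spec : Spec 8 false idx RK 168 G := fun _ _ _ _ => by eq_refl

theorem cover : cov 9 false H RK CK 168 3 = true := by decide +kernel

end S9x1

end Vale.Agent.P348.MomK
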