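import Vale.Agent.P348.MomK

/-! Generated kernel computation of sector moments. -/

open Nat (add sub)

set_option maxRecDepth 1000000
set_option maxHeartbeats 0
set_option linter.unusedVariables false

namespace Vale.Agent.P348.MomK

namespace S9x4

noncomputable def idx : List Nat :=
  [nat_lit 0, nat_lit 4, nat_lit 8, nat_lit 10, nat_lit 12, nat_lit 20, nat_lit 24, nat_lit 28,
  nat_lit 30, nat_lit 36, nat_lit 40, nat_lit 44, nat_lit 50, nat_lit 52, nat_lit 56, nat_lit 60,
  nat_lit 68, nat_lit 70, nat_lit 72, nat_lit 76, nat_lit 80, nat_lit 82, nat_lit 84, nat_lit 90,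
  nat_lit 94, nat_lit 98, nat_lit 104, nat_lit 106, nat_lit 108, nat_lit 112, nat_lit 116, nat_lit 118,
  nat_lit 120, nat_lit 128, nat_lit 132, nat_lit 140, nat_lit 142, nat_lit 146, nat_lit 150, nat_lit 154,
  nat_lit 156, nat_lit 164, nat_lit 168, nat_lit 176, nat_lit 178, nat_lit 180, nat_lit 184, nat_lit 188,
  nat_lit 194, nat_lit 196, nat_lit 200, nat_lit 204, nat_lit 208, nat_lit 210, nat_lit 216, nat_lit 220,
  nat_lit 224, nat_lit 226, nat_lit 228, nat_lit 236, nat_lit 240, nat_lit 244, nat_lit 246, nat_lit 252,
  nat_lit 256, nat_lit 260, nat_lit 266, nat_lit 268, nat_lit 270, nat_lit 274, nat_lit 278, nat_lit 280,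
  nat_lit 282, nat_lit 290, nat_lit 294, nat_lit 302, nat_lit 304, nat_lit 308, nat_lit 312, nat_lit 316,
  nat_lit 318, nat_lit 324, nat_lit 328, nat_lit 332, nat_lit 334, nat_lit 336, nat_lit 344, nat_lit 348,
  nat_lit 352, nat_lit 354, nat_lit 360, nat_lit 364, nat_lit 368, nat_lit 374, nat_lit 376, nat_lit 380,
  nat_lit 384, nat_lit 392, nat_lit 394, nat_lit 396, nat_lit 400, nat_lit 404, nat_lit 410, nat_lit 412,
  nat_lit 416, nat_lit 420, nat_lit 424, nat_lit 426, nat_lit 434, nat_lit 438, nat_lit 446, nat_lit 448,
  nat_lit 450, nat_lit 454, nat_lit 458, nat_lit 460, nat_lit 462, nat_lit 468, nat_lit 472, nat_lit 476,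
  nat_lit 482, nat_lit 484, nat_lit 488, nat_lit 492, nat_lit 500, nat_lit 502, nat_lit 504, nat_lit 508,
  nat_lit 512, nat_lit 518, nat_lit 520, nat_lit 524, nat_lit 528, nat_lit 532, nat_lit 534, nat_lit 540,
  nat_lit 544, nat_lit 548, nat_lit 550, nat_lit 552, nat_lit 560, nat_lit 564, nat_lit 572, nat_lit 574,
  nat_lit 578, nat_lit 582, nat_lit 586, nat_lit 588, nat_lit 596, nat_lit 600, nat_lit 608, nat_lit 610,
  nat_lit 612, nat_lit 616, nat_lit 620, nat_lit 622, nat_lit 624, nat_lit 630, nat_lit 634, nat_lit 638,
  nat_lit 644, nat_lit 646, nat_lit 648, nat_lit 652, nat_lit 656, nat_lit 658, nat_lit 660, nat_lit 668,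
  nat_lit 672, nat_lit 676, nat_lit 678, nat_lit 684, nat_lit 688, nat_lit 692, nat_lit 698, nat_lit 700,
  nat_lit 704, nat_lit 708, nat_lit 716, nat_lit 718, nat_lit 720, nat_lit 724, nat_lit 728, nat_lit 730,
  nat_lit 732, nat_lit 738, nat_lit 742, nat_lit 746, nat_lit 752, nat_lit 754, nat_lit 756, nat_lit 760,
  nat_lit 764, nat_lit 766, nat_lit 768, nat_lit 776, nat_lit 780, nat_lit 788, nat_lit 790, nat_lit 794,
  nat_lit 798, nat_lit 802, nat_lit 804, nat_lit 810, nat_lit 814, nat_lit 818, nat_lit 820, nat_lit 822,
  nat_lit 830, nat_lit 834, nat_lit 838, nat_lit 840, nat_lit 846, nat_lit 850, nat_lit 854, nat_lit 860,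
  nat_lit 862, nat_lit 866, nat_lit 870, nat_lit 878, nat_lit 880, nat_lit 882, nat_lit 886, nat_lit 890,
  nat_lit 896, nat_lit 898, nat_lit 902, nat_lit 906, nat_lit 910, nat_lit 912, nat_lit 920, nat_lit 924,
  nat_lit 932, nat_lit 934, nat_lit 936, nat_lit 940, nat_lit 944, nat_lit 946, nat_lit 948, nat_lit 954,
  nat_lit 958, nat_lit 962, nat_lit 968, nat_lit 970, nat_lit 972, nat_lit 976, nat_lit 980, nat_lit 982,
  nat_lit 984, nat_lit 992, nat_lit 996, nat_lit 1000, nat_lit 1002, nat_lit 1008, nat_lit 1012, nat_lit 1016,
  nat_lit 1022, nat_lit 1024, nat_lit 1028, nat_lit 1032, nat_lit 1040, nat_lit 1042, nat_lit 1044, nat_lit 1048,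
  nat_lit 1052, nat_lit 1054, nat_lit 1056, nat_lit 1062, nat_lit 1066, nat_lit 1070, nat_lit 1076, nat_lit 1078,
  nat_lit 1080, nat_lit 1084, nat_lit 1088, nat_lit 1090, nat_lit 1092, nat_lit 1100, nat_lit 1104, nat_lit 1112,
  nat_lit 1114, nat_lit 1118, nat_lit 1122, nat_lit 1126, nat_lit 1128, nat_lit 1136, nat_lit 1140, nat_lit 1148,
  nat_lit 1150, nat_lit 1152, nat_lit 1156, nat_lit 1160, nat_lit 1166, nat_lit 1168, nat_lit 1172, nat_lit 1176,
  nat_lit 1180, nat_lit 1182, nat_lit 1188, nat_lit 1192, nat_lit 1196, nat_lit 1198, nat_lit 1200, nat_lit 1208,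
  nat_lit 1212, nat_lit 1220, nat_lit 1222, nat_lit 1226, nat_lit 1230, nat_lit 1234, nat_lit 1236, nat_lit 1244,
  nat_lit 1248, nat_lit 1256, nat_lit 1258, nat_lit 1260, nat_lit 1264, nat_lit 1268, nat_lit 1270, nat_lit 1272,
  nat_lit 1278, nat_lit 1282, nat_lit 1286, nat_lit 1292, nat_lit 1294, nat_lit 1298, nat_lit 1302, nat_lit 1310,
  nat_lit 1312, nat_lit 1314, nat_lit 1318, nat_lit 1322, nat_lit 1328, nat_lit 1330, nat_lit 1334, nat_lit 1338,
  nat_lit 1342, nat_lit 1344, nat_lit 1350, nat_lit 1354, nat_lit 1358, nat_lit 1360, nat_lit 1362, nat_lit 1370,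
  nat_lit 1374, nat_lit 1378, nat_lit 1380, nat_lit 1386, nat_lit 1390, nat_lit 1394, nat_lit 1400, nat_lit 1402,
  nat_lit 1404, nat_lit 1408, nat_lit 1412, nat_lit 1414, nat_lit 1416, nat_lit 1424, nat_lit 1428, nat_lit 1436,
  nat_lit 1438, nat_lit 1442, nat_lit 1446, nat_lit 1450, nat_lit 1452, nat_lit 1460, nat_lit 1464, nat_lit 1472,
  nat_lit 1474, nat_lit 1476, nat_lit 1480, nat_lit 1484, nat_lit 1490, nat_lit 1492, nat_lit 1496, nat_lit 1500,
  nat_lit 1504, nat_lit 1506, nat_lit 1512, nat_lit 1516, nat_lit 1520, nat_lit 1522, nat_lit 1524, nat_lit 1532,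
  nat_lit 1536, nat_lit 1544, nat_lit 1546, nat_lit 1550, nat_lit 1554, nat_lit 1558, nat_lit 1560, nat_lit 1568,
  nat_lit 1572, nat_lit 1580, nat_lit 1582, nat_lit 1584, nat_lit 1588, nat_lit 1592, nat_lit 1594, nat_lit 1596,
  nat_lit 1602, nat_lit 1606, nat_lit 1610, nat_lit 1616, nat_lit 1618, nat_lit 1620, nat_lit 1624, nat_lit 1628,
  nat_lit 1630, nat_lit 1632, nat_lit 1640, nat_lit 1644, nat_lit 1648, nat_lit 1650, nat_lit 1656, nat_lit 1660,
  nat_lit 1664, nat_lit 1670, nat_lit 1672, nat_lit 1676, nat_lit 1680, nat_lit 1688, nat_lit 1690, nat_lit 1692,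
  nat_lit 1696, nat_lit 1700, nat_lit 1706, nat_lit 1708, nat_lit 1712, nat_lit 1716, nat_lit 1720, nat_lit 1722,
  nat_lit 1730, nat_lit 1734, nat_lit 1742, nat_lit 1744, nat_lit 1746, nat_lit 1750, nat_lit 1754, nat_lit 1756,
  nat_lit 1758, nat_lit 1764, nat_lit 1768, nat_lit 1772, nat_lit 1778, nat_lit 1780, nat_lit 1784, nat_lit 1788,
  nat_lit 1796, nat_lit 1798, nat_lit 1800, nat_lit 1804, nat_lit 1808, nat_lit 1814, nat_lit 1816, nat_lit 1820,
  nat_lit 1824, nat_lit 1828, nat_lit 1830, nat_lit 1836, nat_lit 1840, nat_lit 1844, nat_lit 1846, nat_lit 1848,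
  nat_lit 1856, nat_lit 1860, nat_lit 1864, nat_lit 1866, nat_lit 1872, nat_lit 1876, nat_lit 1880, nat_lit 1886,
  nat_lit 1888, nat_lit 1890, nat_lit 1894, nat_lit 1898, nat_lit 1900, nat_lit 1902, nat_lit 1910, nat_lit 1914,
  nat_lit 1922, nat_lit 1924, nat_lit 1928, nat_lit 1932, nat_lit 1936, nat_lit 1938, nat_lit 1944, nat_lit 1948,
  nat_lit 1952, nat_lit 1954, nat_lit 1956, nat_lit 1964, nat_lit 1968, nat_lit 1972, nat_lit 1974, nat_lit 1980,
  nat_lit 1984, nat_lit 1988, nat_lit 1994, nat_lit 1996, nat_lit 2000, nat_lit 2004, nat_lit 2012, nat_lit 2014,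
  nat_lit 2016, nat_lit 2020, nat_lit 2024, nat_lit 2026, nat_lit 2028, nat_lit 2034, nat_lit 2038, nat_lit 2042,
  nat_lit 2048, nat_lit 2050, nat_lit 2052, nat_lit 2056, nat_lit 2060, nat_lit 2062, nat_lit 2064, nat_lit 2072,
  nat_lit 2076, nat_lit 2084, nat_lit 2086, nat_lit 2090, nat_lit 2094, nat_lit 2098, nat_lit 2100, nat_lit 2108,
  nat_lit 2112, nat_lit 2120, nat_lit 2122, nat_lit 2124, nat_lit 2128, nat_lit 2132, nat_lit 2138, nat_lit 2140,
  nat_lit 2144, nat_lit 2148, nat_lit 2152, nat_lit 2154, nat_lit 2160, nat_lit 2164, nat_lit 2168, nat_lit 2170,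
  nat_lit 2172, nat_lit 2180, nat_lit 2184, nat_lit 2188, nat_lit 2190, nat_lit 2196, nat_lit 2200, nat_lit 2204,
  nat_lit 2210, nat_lit 2212, nat_lit 2214, nat_lit 2218, nat_lit 2222, nat_lit 2224, nat_lit 2226, nat_lit 2234,
  nat_lit 2238, nat_lit 2246, nat_lit 2248, nat_lit 2252, nat_lit 2256, nat_lit 2260, nat_lit 2262, nat_lit 2268,
  nat_lit 2272, nat_lit 2276, nat_lit 2278, nat_lit 2280, nat_lit 2288, nat_lit 2292, nat_lit 2296, nat_lit 2298,
  nat_lit 2304, nat_lit 2308, nat_lit 2312, nat_lit 2318, nat_lit 2320, nat_lit 2324, nat_lit 2328, nat_lit 2336,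
  nat_lit 2338, nat_lit 2340, nat_lit 2344, nat_lit 2348, nat_lit 2354, nat_lit 2356, nat_lit 2360, nat_lit 2364,
  nat_lit 2368, nat_lit 2370, nat_lit 2378, nat_lit 2382, nat_lit 2390, nat_lit 2392, nat_lit 2394, nat_lit 2398,
  nat_lit 2402, nat_lit 2404, nat_lit 2406, nat_lit 2412, nat_lit 2416, nat_lit 2420, nat_lit 2426, nat_lit 2428,
  nat_lit 2430, nat_lit 2434, nat_lit 2438, nat_lit 2440, nat_lit 2442, nat_lit 2450, nat_lit 2454, nat_lit 2458,
  nat_lit 2460, nat_lit 2466, nat_lit 2470, nat_lit 2474, nat_lit 2480, nat_lit 2482, nat_lit 2486, nat_lit 2490,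
  nat_lit 2498, nat_lit 2500, nat_lit 2502, nat_lit 2506, nat_lit 2510, nat_lit 2512, nat_lit 2514, nat_lit 2520,
  nat_lit 2524, nat_lit 2528, nat_lit 2534, nat_lit 2536, nat_lit 2538, nat_lit 2542, nat_lit 2546, nat_lit 2548,
  nat_lit 2550, nat_lit 2558, nat_lit 2562, nat_lit 2570, nat_lit 2572, nat_lit 2576, nat_lit 2580, nat_lit 2584,
  nat_lit 2586, nat_lit 2594, nat_lit 2598, nat_lit 2606, nat_lit 2608, nat_lit 2610, nat_lit 2614, nat_lit 2618,
  nat_lit 2624, nat_lit 2626, nat_lit 2630, nat_lit 2634, nat_lit 2638, nat_lit 2640, nat_lit 2646, nat_lit 2650,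
  nat_lit 2654, nat_lit 2656, nat_lit 2658, nat_lit 2666, nat_lit 2670, nat_lit 2678, nat_lit 2680, nat_lit 2684,
  nat_lit 2688, nat_lit 2692, nat_lit 2694, nat_lit 2702, nat_lit 2706, nat_lit 2714, nat_lit 2716, nat_lit 2718,
  nat_lit 2722, nat_lit 2726, nat_lit 2728, nat_lit 2730, nat_lit 2736, nat_lit 2740, nat_lit 2744, nat_lit 2750,
  nat_lit 2752, nat_lit 2756, nat_lit 2760, nat_lit 2768, nat_lit 2770, nat_lit 2772, nat_lit 2776, nat_lit 2780,
  nat_lit 2786, nat_lit 2788, nat_lit 2792, nat_lit 2796, nat_lit 2800, nat_lit 2802, nat_lit 2808, nat_lit 2812,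
  nat_lit 2816, nat_lit 2818, nat_lit 2820, nat_lit 2828, nat_lit 2832, nat_lit 2836, nat_lit 2838, nat_lit 2844,
  nat_lit 2848, nat_lit 2852, nat_lit 2858, nat_lit 2860, nat_lit 2862, nat_lit 2866, nat_lit 2870, nat_lit 2872,
  nat_lit 2874, nat_lit 2882, nat_lit 2886, nat_lit 2894, nat_lit 2896, nat_lit 2900, nat_lit 2904, nat_lit 2908,
  nat_lit 2910, nat_lit 2916, nat_lit 2920, nat_lit 2924, nat_lit 2926, nat_lit 2928, nat_lit 2936, nat_lit 2940,
  nat_lit 2944, nat_lit 2946, nat_lit 2952, nat_lit 2956, nat_lit 2960, nat_lit 2966, nat_lit 2968, nat_lit 2972,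
  nat_lit 2976, nat_lit 2984, nat_lit 2986, nat_lit 2988, nat_lit 2992, nat_lit 2996, nat_lit 2998, nat_lit 3000,
  nat_lit 3006, nat_lit 3010, nat_lit 3014, nat_lit 3020, nat_lit 3022, nat_lit 3024, nat_lit 3028, nat_lit 3032,
  nat_lit 3034, nat_lit 3036, nat_lit 3044, nat_lit 3048, nat_lit 3056, nat_lit 3058, nat_lit 3062, nat_lit 3066,
  nat_lit 3070, nat_lit 3072, nat_lit 3080, nat_lit 3084, nat_lit 3092, nat_lit 3094, nat_lit 3096, nat_lit 3100,
  nat_lit 3104, nat_lit 3110, nat_lit 3112, nat_lit 3116, nat_lit 3120, nat_lit 3124, nat_lit 3126, nat_lit 3132,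
  nat_lit 3136, nat_lit 3140, nat_lit 3142, nat_lit 3144, nat_lit 3152, nat_lit 3156, nat_lit 3160, nat_lit 3162,
  nat_lit 3168, nat_lit 3172, nat_lit 3176, nat_lit 3182, nat_lit 3184, nat_lit 3186, nat_lit 3190, nat_lit 3194,
  nat_lit 3196, nat_lit 3198, nat_lit 3206, nat_lit 3210, nat_lit 3218, nat_lit 3220, nat_lit 3224, nat_lit 3228,
  nat_lit 3232, nat_lit 3234, nat_lit 3240, nat_lit 3244, nat_lit 3248, nat_lit 3250, nat_lit 3252, nat_lit 3260,
  nat_lit 3264, nat_lit 3268, nat_lit 3270, nat_lit 3276, nat_lit 3280, nat_lit 3284, nat_lit 3290, nat_lit 3292,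
  nat_lit 3296, nat_lit 3300, nat_lit 3308, nat_lit 3310, nat_lit 3312, nat_lit 3316, nat_lit 3320, nat_lit 3326,
  nat_lit 3328, nat_lit 3332, nat_lit 3336, nat_lit 3340, nat_lit 3342, nat_lit 3350, nat_lit 3354, nat_lit 3362,
  nat_lit 3364, nat_lit 3366, nat_lit 3370, nat_lit 3374, nat_lit 3376, nat_lit 3378, nat_lit 3384, nat_lit 3388,
  nat_lit 3392, nat_lit 3398, nat_lit 3400, nat_lit 3404, nat_lit 3408, nat_lit 3416, nat_lit 3418, nat_lit 3420,
  nat_lit 3424, nat_lit 3428, nat_lit 3434, nat_lit 3436, nat_lit 3440, nat_lit 3444, nat_lit 3448, nat_lit 3450,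
  nat_lit 3456, nat_lit 3460, nat_lit 3464, nat_lit 3466, nat_lit 3468, nat_lit 3476, nat_lit 3480, nat_lit 3488,
  nat_lit 3490, nat_lit 3494, nat_lit 3498, nat_lit 3502, nat_lit 3504, nat_lit 3512, nat_lit 3516, nat_lit 3524,
  nat_lit 3526, nat_lit 3528, nat_lit 3532, nat_lit 3536, nat_lit 3538, nat_lit 3540, nat_lit 3546, nat_lit 3550,
  nat_lit 3554, nat_lit 3560, nat_lit 3562, nat_lit 3564, nat_lit 3568, nat_lit 3572, nat_lit 3574, nat_lit 3576,
  nat_lit 3584, nat_lit 3588, nat_lit 3592, nat_lit 3594, nat_lit 3600, nat_lit 3604, nat_lit 3608, nat_lit 3614,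
  nat_lit 3616, nat_lit 3620, nat_lit 3624, nat_lit 3632, nat_lit 3634, nat_lit 3636, nat_lit 3640, nat_lit 3644,
  nat_lit 3650, nat_lit 3652, nat_lit 3656, nat_lit 3660, nat_lit 3664, nat_lit 3666, nat_lit 3674, nat_lit 3678,
  nat_lit 3686, nat_lit 3688, nat_lit 3690, nat_lit 3694, nat_lit 3698, nat_lit 3700, nat_lit 3702, nat_lit 3708,
  nat_lit 3712, nat_lit 3716, nat_lit 3722, nat_lit 3724, nat_lit 3728, nat_lit 3732, nat_lit 3740, nat_lit 3742,
  nat_lit 3744, nat_lit 3748, nat_lit 3752, nat_lit 3758, nat_lit 3760, nat_lit 3764, nat_lit 3768, nat_lit 3772,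
  nat_lit 3774, nat_lit 3780, nat_lit 3784, nat_lit 3788, nat_lit 3790, nat_lit 3792, nat_lit 3800, nat_lit 3804,
  nat_lit 3808, nat_lit 3810, nat_lit 3816, nat_lit 3820, nat_lit 3824, nat_lit 3830, nat_lit 3832, nat_lit 3834,
  nat_lit 3838, nat_lit 3842, nat_lit 3844, nat_lit 3846, nat_lit 3854, nat_lit 3858, nat_lit 3866, nat_lit 3868,
  nat_lit 3872, nat_lit 3876, nat_lit 3880, nat_lit 3882, nat_lit 3890, nat_lit 3894, nat_lit 3902, nat_lit 3904,
  nat_lit 3906, nat_lit 3910, nat_lit 3914, nat_lit 3920, nat_lit 3922, nat_lit 3926, nat_lit 3930, nat_lit 3934,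
  nat_lit 3936, nat_lit 3942, nat_lit 3946, nat_lit 3950, nat_lit 3952, nat_lit 3954, nat_lit 3962, nat_lit 3966,
  nat_lit 3974, nat_lit 3976, nat_lit 3980, nat_lit 3984, nat_lit 3988, nat_lit 3990, nat_lit 3998, nat_lit 4002,
  nat_lit 4010, nat_lit 4012, nat_lit 4014, nat_lit 4018, nat_lit 4022, nat_lit 4024, nat_lit 4026, nat_lit 4032,
  nat_lit 4036, nat_lit 4040, nat_lit 4046, nat_lit 4048, nat_lit 4050, nat_lit 4054, nat_lit 4058, nat_lit 4060,
  nat_lit 4062, nat_lit 4070, nat_lit 4074, nat_lit 4078, nat_lit 4080, nat_lit 4086, nat_lit 4090, nat_lit 4094,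
  nat_lit 4100, nat_lit 4102, nat_lit 4106, nat_lit 4110, nat_lit 4118, nat_lit 4120, nat_lit 4122, nat_lit 4126,
  nat_lit 4130, nat_lit 4132, nat_lit 4134, nat_lit 4140, nat_lit 4144, nat_lit 4148, nat_lit 4154, nat_lit 4156,
  nat_lit 4158, nat_lit 4162, nat_lit 4166, nat_lit 4168, nat_lit 4170, nat_lit 4178, nat_lit 4182, nat_lit 4190,
  nat_lit 4192, nat_lit 4196, nat_lit 4200, nat_lit 4204, nat_lit 4206, nat_lit 4212, nat_lit 4216, nat_lit 4220,
  nat_lit 4222, nat_lit 4224, nat_lit 4232, nat_lit 4236, nat_lit 4240, nat_lit 4242, nat_lit 4248, nat_lit 4252,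
  nat_lit 4256, nat_lit 4262, nat_lit 4264, nat_lit 4268, nat_lit 4272, nat_lit 4280, nat_lit 4282, nat_lit 4284,
  nat_lit 4288, nat_lit 4292, nat_lit 4298, nat_lit 4300, nat_lit 4304, nat_lit 4308, nat_lit 4312, nat_lit 4314,
  nat_lit 4322, nat_lit 4326, nat_lit 4334, nat_lit 4336, nat_lit 4338, nat_lit 4342, nat_lit 4346, nat_lit 4348,
  nat_lit 4350, nat_lit 4356, nat_lit 4360, nat_lit 4364, nat_lit 4370, nat_lit 4372, nat_lit 4376, nat_lit 4380,
  nat_lit 4388, nat_lit 4390, nat_lit 4392, nat_lit 4396, nat_lit 4400, nat_lit 4406, nat_lit 4408, nat_lit 4412,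
  nat_lit 4416, nat_lit 4420, nat_lit 4422, nat_lit 4428, nat_lit 4432, nat_lit 4436, nat_lit 4438, nat_lit 4440,
  nat_lit 4448, nat_lit 4452, nat_lit 4460, nat_lit 4462, nat_lit 4466, nat_lit 4470, nat_lit 4474, nat_lit 4476,
  nat_lit 4484, nat_lit 4488, nat_lit 4496, nat_lit 4498, nat_lit 4500, nat_lit 4504, nat_lit 4508, nat_lit 4510,
  nat_lit 4512, nat_lit 4518, nat_lit 4522, nat_lit 4526, nat_lit 4532, nat_lit 4534, nat_lit 4536, nat_lit 4540,
  nat_lit 4544, nat_lit 4546, nat_lit 4548, nat_lit 4556, nat_lit 4560, nat_lit 4564, nat_lit 4566, nat_lit 4572,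
  nat_lit 4576, nat_lit 4580, nat_lit 4586, nat_lit 4588, nat_lit 4592, nat_lit 4596, nat_lit 4604, nat_lit 4606,
  nat_lit 4608, nat_lit 4612, nat_lit 4616, nat_lit 4622, nat_lit 4624, nat_lit 4628, nat_lit 4632, nat_lit 4636,
  nat_lit 4638, nat_lit 4646, nat_lit 4650, nat_lit 4658, nat_lit 4660, nat_lit 4662, nat_lit 4666, nat_lit 4670,
  nat_lit 4672, nat_lit 4674, nat_lit 4680, nat_lit 4684, nat_lit 4688, nat_lit 4694, nat_lit 4696, nat_lit 4700,
  nat_lit 4704, nat_lit 4712, nat_lit 4714, nat_lit 4716, nat_lit 4720, nat_lit 4724, nat_lit 4730, nat_lit 4732,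
  nat_lit 4736, nat_lit 4740, nat_lit 4744, nat_lit 4746, nat_lit 4752, nat_lit 4756, nat_lit 4760, nat_lit 4762,
  nat_lit 4764, nat_lit 4772, nat_lit 4776, nat_lit 4780, nat_lit 4782, nat_lit 4788, nat_lit 4792, nat_lit 4796,
  nat_lit 4802, nat_lit 4804, nat_lit 4806, nat_lit 4810, nat_lit 4814, nat_lit 4816, nat_lit 4818, nat_lit 4826,
  nat_lit 4830, nat_lit 4838, nat_lit 4840, nat_lit 4844, nat_lit 4848, nat_lit 4852, nat_lit 4854, nat_lit 4860,
  nat_lit 4864, nat_lit 4868, nat_lit 4870, nat_lit 4872, nat_lit 4880, nat_lit 4884, nat_lit 4888, nat_lit 4890,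
  nat_lit 4896, nat_lit 4900, nat_lit 4904, nat_lit 4910, nat_lit 4912, nat_lit 4916, nat_lit 4920, nat_lit 4928,
  nat_lit 4930, nat_lit 4932, nat_lit 4936, nat_lit 4940, nat_lit 4942, nat_lit 4944, nat_lit 4950, nat_lit 4954,
  nat_lit 4958, nat_lit 4964, nat_lit 4966, nat_lit 4968, nat_lit 4972, nat_lit 4976, nat_lit 4978, nat_lit 4980,
  nat_lit 4988, nat_lit 4992, nat_lit 5000, nat_lit 5002, nat_lit 5006, nat_lit 5010, nat_lit 5014, nat_lit 5016,
  nat_lit 5024, nat_lit 5028, nat_lit 5036, nat_lit 5038, nat_lit 5040, nat_lit 5044, nat_lit 5048, nat_lit 5054,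
  nat_lit 5056, nat_lit 5060, nat_lit 5064, nat_lit 5068, nat_lit 5070, nat_lit 5076, nat_lit 5080, nat_lit 5084,
  nat_lit 5086, nat_lit 5088, nat_lit 5096, nat_lit 5100, nat_lit 5108, nat_lit 5110, nat_lit 5114, nat_lit 5118,
  nat_lit 5122, nat_lit 5124, nat_lit 5132, nat_lit 5136, nat_lit 5144, nat_lit 5146, nat_lit 5148, nat_lit 5152,
  nat_lit 5156, nat_lit 5158, nat_lit 5160, nat_lit 5166, nat_lit 5170, nat_lit 5174, nat_lit 5180, nat_lit 5182,
  nat_lit 5186, nat_lit 5190, nat_lit 5198, nat_lit 5200, nat_lit 5202, nat_lit 5206, nat_lit 5210, nat_lit 5216,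
  nat_lit 5218, nat_lit 5222, nat_lit 5226, nat_lit 5230, nat_lit 5232, nat_lit 5238, nat_lit 5242, nat_lit 5246,
  nat_lit 5248, nat_lit 5250, nat_lit 5258, nat_lit 5262, nat_lit 5266, nat_lit 5268, nat_lit 5274, nat_lit 5278,
  nat_lit 5282, nat_lit 5288, nat_lit 5290, nat_lit 5292, nat_lit 5296, nat_lit 5300, nat_lit 5302, nat_lit 5304,
  nat_lit 5312, nat_lit 5316, nat_lit 5324, nat_lit 5326, nat_lit 5330, nat_lit 5334, nat_lit 5338, nat_lit 5340,
  nat_lit 5348, nat_lit 5352, nat_lit 5360, nat_lit 5362, nat_lit 5364, nat_lit 5368, nat_lit 5372, nat_lit 5378,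
  nat_lit 5380, nat_lit 5384, nat_lit 5388, nat_lit 5392, nat_lit 5394, nat_lit 5400, nat_lit 5404, nat_lit 5408,
  nat_lit 5410, nat_lit 5412, nat_lit 5420, nat_lit 5424, nat_lit 5432, nat_lit 5434, nat_lit 5438, nat_lit 5442,
  nat_lit 5446, nat_lit 5448, nat_lit 5456, nat_lit 5460, nat_lit 5468, nat_lit 5470, nat_lit 5472, nat_lit 5476,
  nat_lit 5480, nat_lit 5482, nat_lit 5484, nat_lit 5490, nat_lit 5494, nat_lit 5498, nat_lit 5504, nat_lit 5506,
  nat_lit 5508, nat_lit 5512, nat_lit 5516, nat_lit 5518, nat_lit 5520, nat_lit 5528, nat_lit 5532, nat_lit 5536,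
  nat_lit 5538, nat_lit 5544, nat_lit 5548, nat_lit 5552, nat_lit 5558, nat_lit 5560, nat_lit 5564, nat_lit 5568,
  nat_lit 5576, nat_lit 5578, nat_lit 5580, nat_lit 5584, nat_lit 5588, nat_lit 5590, nat_lit 5592, nat_lit 5598,
  nat_lit 5602, nat_lit 5606, nat_lit 5612, nat_lit 5614, nat_lit 5616, nat_lit 5620, nat_lit 5624, nat_lit 5626,
  nat_lit 5628, nat_lit 5636, nat_lit 5640, nat_lit 5648, nat_lit 5650, nat_lit 5654, nat_lit 5658, nat_lit 5662,
  nat_lit 5664, nat_lit 5670, nat_lit 5674, nat_lit 5678, nat_lit 5680, nat_lit 5682, nat_lit 5690, nat_lit 5694,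
  nat_lit 5698, nat_lit 5700, nat_lit 5706, nat_lit 5710, nat_lit 5714, nat_lit 5720, nat_lit 5722, nat_lit 5726,
  nat_lit 5730, nat_lit 5738, nat_lit 5740, nat_lit 5742, nat_lit 5746, nat_lit 5750, nat_lit 5756, nat_lit 5758,
  nat_lit 5762, nat_lit 5766, nat_lit 5770, nat_lit 5772, nat_lit 5780, nat_lit 5784, nat_lit 5792, nat_lit 5794,
  nat_lit 5796, nat_lit 5800, nat_lit 5804, nat_lit 5806, nat_lit 5808, nat_lit 5814, nat_lit 5818, nat_lit 5822,
  nat_lit 5828, nat_lit 5830, nat_lit 5832, nat_lit 5836, nat_lit 5840, nat_lit 5842, nat_lit 5844, nat_lit 5852,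
  nat_lit 5856, nat_lit 5860, nat_lit 5862, nat_lit 5868, nat_lit 5872, nat_lit 5876, nat_lit 5882, nat_lit 5884,
  nat_lit 5888, nat_lit 5892, nat_lit 5900, nat_lit 5902, nat_lit 5904, nat_lit 5908, nat_lit 5912, nat_lit 5914,
  nat_lit 5916, nat_lit 5922, nat_lit 5926, nat_lit 5930, nat_lit 5936, nat_lit 5938, nat_lit 5940, nat_lit 5944,
  nat_lit 5948, nat_lit 5950, nat_lit 5952, nat_lit 5960, nat_lit 5964, nat_lit 5972, nat_lit 5974, nat_lit 5978,
  nat_lit 5982, nat_lit 5986, nat_lit 5988, nat_lit 5996, nat_lit 6000, nat_lit 6008, nat_lit 6010, nat_lit 6012,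
  nat_lit 6016, nat_lit 6020, nat_lit 6026, nat_lit 6028, nat_lit 6032, nat_lit 6036, nat_lit 6040, nat_lit 6042,
  nat_lit 6048, nat_lit 6052, nat_lit 6056, nat_lit 6058, nat_lit 6060, nat_lit 6068, nat_lit 6072, nat_lit 6076,
  nat_lit 6078, nat_lit 6084, nat_lit 6088, nat_lit 6092, nat_lit 6098, nat_lit 6100, nat_lit 6102, nat_lit 6106,
  nat_lit 6110, nat_lit 6112, nat_lit 6114, nat_lit 6122, nat_lit 6126, nat_lit 6134, nat_lit 6136, nat_lit 6140,
  nat_lit 6144, nat_lit 6148, nat_lit 6150, nat_lit 6156, nat_lit 6160, nat_lit 6164, nat_lit 6166, nat_lit 6168,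
  nat_lit 6176, nat_lit 6180, nat_lit 6184, nat_lit 6186, nat_lit 6192, nat_lit 6196, nat_lit 6200, nat_lit 6206,
  nat_lit 6208, nat_lit 6212, nat_lit 6216, nat_lit 6224, nat_lit 6226, nat_lit 6228, nat_lit 6232, nat_lit 6236,
  nat_lit 6242, nat_lit 6244, nat_lit 6248, nat_lit 6252, nat_lit 6256, nat_lit 6258, nat_lit 6266, nat_lit 6270,
  nat_lit 6278, nat_lit 6280, nat_lit 6282, nat_lit 6286, nat_lit 6290, nat_lit 6292, nat_lit 6294, nat_lit 6300,
  nat_lit 6304, nat_lit 6308, nat_lit 6314, nat_lit 6316, nat_lit 6320, nat_lit 6324, nat_lit 6332, nat_lit 6334,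
  nat_lit 6336, nat_lit 6340, nat_lit 6344, nat_lit 6350, nat_lit 6352, nat_lit 6356, nat_lit 6360, nat_lit 6364,
  nat_lit 6366, nat_lit 6372, nat_lit 6376, nat_lit 6380, nat_lit 6382, nat_lit 6384, nat_lit 6392, nat_lit 6396,
  nat_lit 6404, nat_lit 6406, nat_lit 6410, nat_lit 6414, nat_lit 6418, nat_lit 6420, nat_lit 6428, nat_lit 6432,
  nat_lit 6440, nat_lit 6442, nat_lit 6444, nat_lit 6448, nat_lit 6452, nat_lit 6454, nat_lit 6456, nat_lit 6462,
  nat_lit 6466, nat_lit 6470, nat_lit 6476, nat_lit 6478, nat_lit 6480, nat_lit 6484, nat_lit 6488, nat_lit 6490,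
  nat_lit 6492, nat_lit 6500, nat_lit 6504, nat_lit 6508, nat_lit 6510, nat_lit 6516, nat_lit 6520, nat_lit 6524,
  nat_lit 6530, nat_lit 6532, nat_lit 6536, nat_lit 6540, nat_lit 6548, nat_lit 6550, nat_lit 6552, nat_lit 6556,
  nat_lit 6560, nat_lit 6562, nat_lit 6564, nat_lit 6570, nat_lit 6574, nat_lit 6578, nat_lit 6584, nat_lit 6586,
  nat_lit 6588, nat_lit 6592, nat_lit 6596, nat_lit 6598, nat_lit 6600, nat_lit 6608, nat_lit 6612, nat_lit 6620,
  nat_lit 6622, nat_lit 6626, nat_lit 6630, nat_lit 6634, nat_lit 6636, nat_lit 6642, nat_lit 6646, nat_lit 6650,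
  nat_lit 6652, nat_lit 6654, nat_lit 6662, nat_lit 6666, nat_lit 6670, nat_lit 6672, nat_lit 6678, nat_lit 6682,
  nat_lit 6686, nat_lit 6692, nat_lit 6694, nat_lit 6698, nat_lit 6702, nat_lit 6710, nat_lit 6712, nat_lit 6714,
  nat_lit 6718, nat_lit 6722, nat_lit 6728, nat_lit 6730, nat_lit 6734, nat_lit 6738, nat_lit 6742, nat_lit 6744,
  nat_lit 6752, nat_lit 6756, nat_lit 6764, nat_lit 6766, nat_lit 6768, nat_lit 6772, nat_lit 6776, nat_lit 6778,
  nat_lit 6780, nat_lit 6786, nat_lit 6790, nat_lit 6794, nat_lit 6800, nat_lit 6802, nat_lit 6804, nat_lit 6808,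
  nat_lit 6812, nat_lit 6814, nat_lit 6816, nat_lit 6824, nat_lit 6828, nat_lit 6832, nat_lit 6834, nat_lit 6840,
  nat_lit 6844, nat_lit 6848, nat_lit 6854, nat_lit 6856, nat_lit 6860, nat_lit 6864, nat_lit 6872, nat_lit 6874,
  nat_lit 6876, nat_lit 6880, nat_lit 6884, nat_lit 6886, nat_lit 6888, nat_lit 6894, nat_lit 6898, nat_lit 6902,
  nat_lit 6908, nat_lit 6910, nat_lit 6912, nat_lit 6916, nat_lit 6920, nat_lit 6922, nat_lit 6924, nat_lit 6932,
  nat_lit 6936, nat_lit 6944, nat_lit 6946, nat_lit 6950, nat_lit 6954, nat_lit 6958, nat_lit 6960, nat_lit 6968,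
  nat_lit 6972, nat_lit 6980, nat_lit 6982, nat_lit 6984, nat_lit 6988, nat_lit 6992, nat_lit 6998, nat_lit 7000,
  nat_lit 7004, nat_lit 7008, nat_lit 7012, nat_lit 7014, nat_lit 7020, nat_lit 7024, nat_lit 7028, nat_lit 7030,
  nat_lit 7032, nat_lit 7040, nat_lit 7044, nat_lit 7052, nat_lit 7054, nat_lit 7058, nat_lit 7062, nat_lit 7066,
  nat_lit 7068, nat_lit 7076, nat_lit 7080, nat_lit 7088, nat_lit 7090, nat_lit 7092, nat_lit 7096, nat_lit 7100,
  nat_lit 7102, nat_lit 7104, nat_lit 7110, nat_lit 7114, nat_lit 7118, nat_lit 7124, nat_lit 7126, nat_lit 7130,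
  nat_lit 7134, nat_lit 7142, nat_lit 7144, nat_lit 7146, nat_lit 7150, nat_lit 7154, nat_lit 7160, nat_lit 7162,
  nat_lit 7166, nat_lit 7170, nat_lit 7174, nat_lit 7176, nat_lit 7182, nat_lit 7186, nat_lit 7190, nat_lit 7192,
  nat_lit 7194, nat_lit 7202, nat_lit 7206, nat_lit 7210, nat_lit 7212, nat_lit 7218, nat_lit 7222, nat_lit 7226,
  nat_lit 7232, nat_lit 7234, nat_lit 7236, nat_lit 7240, nat_lit 7244, nat_lit 7246, nat_lit 7248, nat_lit 7256,
  nat_lit 7260, nat_lit 7268, nat_lit 7270, nat_lit 7274, nat_lit 7278, nat_lit 7282, nat_lit 7284, nat_lit 7290,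
  nat_lit 7294, nat_lit 7298, nat_lit 7300, nat_lit 7302, nat_lit 7310, nat_lit 7314, nat_lit 7318, nat_lit 7320,
  nat_lit 7326, nat_lit 7330, nat_lit 7334, nat_lit 7340, nat_lit 7342, nat_lit 7346, nat_lit 7350, nat_lit 7358,
  nat_lit 7360, nat_lit 7362, nat_lit 7366, nat_lit 7370, nat_lit 7372, nat_lit 7374, nat_lit 7380, nat_lit 7384,
  nat_lit 7388, nat_lit 7394, nat_lit 7396, nat_lit 7398, nat_lit 7402, nat_lit 7406, nat_lit 7408, nat_lit 7410,
  nat_lit 7418, nat_lit 7422, nat_lit 7430, nat_lit 7432, nat_lit 7436, nat_lit 7440, nat_lit 7444, nat_lit 7446,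
  nat_lit 7454, nat_lit 7458, nat_lit 7466, nat_lit 7468, nat_lit 7470, nat_lit 7474, nat_lit 7478, nat_lit 7484,
  nat_lit 7486, nat_lit 7490, nat_lit 7494, nat_lit 7498, nat_lit 7500, nat_lit 7506, nat_lit 7510, nat_lit 7514,
  nat_lit 7516, nat_lit 7518, nat_lit 7526, nat_lit 7530, nat_lit 7534, nat_lit 7536, nat_lit 7542, nat_lit 7546,
  nat_lit 7550, nat_lit 7556, nat_lit 7558, nat_lit 7560, nat_lit 7564, nat_lit 7568, nat_lit 7570, nat_lit 7572,
  nat_lit 7580, nat_lit 7584, nat_lit 7592, nat_lit 7594, nat_lit 7598, nat_lit 7602, nat_lit 7606, nat_lit 7608,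
  nat_lit 7614, nat_lit 7618, nat_lit 7622, nat_lit 7624, nat_lit 7626, nat_lit 7634, nat_lit 7638, nat_lit 7642,
  nat_lit 7644, nat_lit 7650, nat_lit 7654, nat_lit 7658, nat_lit 7664, nat_lit 7666, nat_lit 7670, nat_lit 7674,
  nat_lit 7682, nat_lit 7684, nat_lit 7686, nat_lit 7690, nat_lit 7694, nat_lit 7700, nat_lit 7702, nat_lit 7706,
  nat_lit 7710, nat_lit 7714, nat_lit 7716, nat_lit 7724, nat_lit 7728, nat_lit 7736, nat_lit 7738, nat_lit 7740,
  nat_lit 7744, nat_lit 7748, nat_lit 7750, nat_lit 7752, nat_lit 7758, nat_lit 7762, nat_lit 7766, nat_lit 7772,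
  nat_lit 7774, nat_lit 7778, nat_lit 7782, nat_lit 7790, nat_lit 7792, nat_lit 7794, nat_lit 7798, nat_lit 7802,
  nat_lit 7808, nat_lit 7810, nat_lit 7814, nat_lit 7818, nat_lit 7822, nat_lit 7824, nat_lit 7830, nat_lit 7834,
  nat_lit 7838, nat_lit 7840, nat_lit 7842, nat_lit 7850, nat_lit 7854, nat_lit 7862, nat_lit 7864, nat_lit 7868,
  nat_lit 7872, nat_lit 7876, nat_lit 7878, nat_lit 7886, nat_lit 7890, nat_lit 7898, nat_lit 7900, nat_lit 7902,
  nat_lit 7906, nat_lit 7910, nat_lit 7912, nat_lit 7914, nat_lit 7920, nat_lit 7924, nat_lit 7928, nat_lit 7934,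
  nat_lit 7936, nat_lit 7938, nat_lit 7942, nat_lit 7946, nat_lit 7948, nat_lit 7950, nat_lit 7958, nat_lit 7962,
  nat_lit 7966, nat_lit 7968, nat_lit 7974, nat_lit 7978, nat_lit 7982, nat_lit 7988, nat_lit 7990, nat_lit 7994,
  nat_lit 7998, nat_lit 8006, nat_lit 8008, nat_lit 8010, nat_lit 8014, nat_lit 8018, nat_lit 8024, nat_lit 8026,
  nat_lit 8030, nat_lit 8034, nat_lit 8038, nat_lit 8040, nat_lit 8048, nat_lit 8052, nat_lit 8060, nat_lit 8062,
  nat_lit 8064, nat_lit 8068, nat_lit 8072, nat_lit 8074, nat_lit 8076, nat_lit 8082, nat_lit 8086, nat_lit 8090,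
  nat_lit 8096, nat_lit 8098, nat_lit 8102, nat_lit 8106, nat_lit 8114, nat_lit 8116, nat_lit 8118, nat_lit 8122,
  nat_lit 8126, nat_lit 8132, nat_lit 8134, nat_lit 8138, nat_lit 8142, nat_lit 8146, nat_lit 8148, nat_lit 8154,
  nat_lit 8158, nat_lit 8162, nat_lit 8164, nat_lit 8166, nat_lit 8174, nat_lit 8178, nat_lit 8182, nat_lit 8184,
  nat_lit 8190, nat_lit 8194, nat_lit 8198, nat_lit 8204, nat_lit 8206, nat_lit 8208, nat_lit 8212, nat_lit 8216,
  nat_lit 8218, nat_lit 8220, nat_lit 8228, nat_lit 8232, nat_lit 8240, nat_lit 8242, nat_lit 8246, nat_lit 8250,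
  nat_lit 8254, nat_lit 8256, nat_lit 8264, nat_lit 8268, nat_lit 8276, nat_lit 8278, nat_lit 8280, nat_lit 8284,
  nat_lit 8288, nat_lit 8294, nat_lit 8296, nat_lit 8300, nat_lit 8304, nat_lit 8308, nat_lit 8310, nat_lit 8316,
  nat_lit 8320, nat_lit 8324, nat_lit 8326, nat_lit 8328, nat_lit 8336, nat_lit 8340, nat_lit 8348, nat_lit 8350,
  nat_lit 8354, nat_lit 8358, nat_lit 8362, nat_lit 8364, nat_lit 8372, nat_lit 8376, nat_lit 8384, nat_lit 8386,
  nat_lit 8388, nat_lit 8392, nat_lit 8396, nat_lit 8398, nat_lit 8400, nat_lit 8406, nat_lit 8410, nat_lit 8414,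
  nat_lit 8420, nat_lit 8422, nat_lit 8424, nat_lit 8428, nat_lit 8432, nat_lit 8434, nat_lit 8436, nat_lit 8444,
  nat_lit 8448, nat_lit 8452, nat_lit 8454, nat_lit 8460, nat_lit 8464, nat_lit 8468, nat_lit 8474, nat_lit 8476,
  nat_lit 8480, nat_lit 8484, nat_lit 8492, nat_lit 8494, nat_lit 8496, nat_lit 8500, nat_lit 8504, nat_lit 8506,
  nat_lit 8508, nat_lit 8514, nat_lit 8518, nat_lit 8522, nat_lit 8528, nat_lit 8530, nat_lit 8532, nat_lit 8536,
  nat_lit 8540, nat_lit 8542, nat_lit 8544, nat_lit 8552, nat_lit 8556, nat_lit 8564, nat_lit 8566, nat_lit 8570,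
  nat_lit 8574, nat_lit 8578, nat_lit 8580, nat_lit 8586, nat_lit 8590, nat_lit 8594, nat_lit 8596, nat_lit 8598,
  nat_lit 8606, nat_lit 8610, nat_lit 8614, nat_lit 8616, nat_lit 8622, nat_lit 8626, nat_lit 8630, nat_lit 8636,
  nat_lit 8638, nat_lit 8642, nat_lit 8646, nat_lit 8654, nat_lit 8656, nat_lit 8658, nat_lit 8662, nat_lit 8666,
  nat_lit 8672, nat_lit 8674, nat_lit 8678, nat_lit 8682, nat_lit 8686, nat_lit 8688, nat_lit 8696, nat_lit 8700,
  nat_lit 8708, nat_lit 8710, nat_lit 8712, nat_lit 8716, nat_lit 8720, nat_lit 8722, nat_lit 8724, nat_lit 8730,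
  nat_lit 8734, nat_lit 8738, nat_lit 8744, nat_lit 8746, nat_lit 8748, nat_lit 8752, nat_lit 8756, nat_lit 8758,
  nat_lit 8760, nat_lit 8768, nat_lit 8772, nat_lit 8776, nat_lit 8778, nat_lit 8784, nat_lit 8788, nat_lit 8792,
  nat_lit 8798, nat_lit 8800, nat_lit 8804, nat_lit 8808, nat_lit 8816, nat_lit 8818, nat_lit 8820, nat_lit 8824,
  nat_lit 8828, nat_lit 8830, nat_lit 8832, nat_lit 8838, nat_lit 8842, nat_lit 8846, nat_lit 8852, nat_lit 8854,
  nat_lit 8856, nat_lit 8860, nat_lit 8864, nat_lit 8866, nat_lit 8868, nat_lit 8876, nat_lit 8880, nat_lit 8888,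
  nat_lit 8890, nat_lit 8894, nat_lit 8898, nat_lit 8902, nat_lit 8904, nat_lit 8912, nat_lit 8916, nat_lit 8924,
  nat_lit 8926, nat_lit 8928, nat_lit 8932, nat_lit 8936, nat_lit 8942, nat_lit 8944, nat_lit 8948, nat_lit 8952,
  nat_lit 8956, nat_lit 8958, nat_lit 8964, nat_lit 8968, nat_lit 8972, nat_lit 8974, nat_lit 8976, nat_lit 8984,
  nat_lit 8988, nat_lit 8992, nat_lit 8994, nat_lit 9000, nat_lit 9004, nat_lit 9008, nat_lit 9014, nat_lit 9016,
  nat_lit 9018, nat_lit 9022, nat_lit 9026, nat_lit 9028, nat_lit 9030, nat_lit 9038, nat_lit 9042, nat_lit 9050,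
  nat_lit 9052, nat_lit 9056, nat_lit 9060, nat_lit 9064, nat_lit 9066, nat_lit 9072, nat_lit 9076, nat_lit 9080,
  nat_lit 9082, nat_lit 9084, nat_lit 9092, nat_lit 9096, nat_lit 9100, nat_lit 9102, nat_lit 9108, nat_lit 9112,
  nat_lit 9116, nat_lit 9122, nat_lit 9124, nat_lit 9128, nat_lit 9132, nat_lit 9140, nat_lit 9142, nat_lit 9144,
  nat_lit 9148, nat_lit 9152, nat_lit 9158, nat_lit 9160, nat_lit 9164, nat_lit 9168, nat_lit 9172, nat_lit 9174,
  nat_lit 9182, nat_lit 9186, nat_lit 9194, nat_lit 9196, nat_lit 9198, nat_lit 9202, nat_lit 9206, nat_lit 9208,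
  nat_lit 9210, nat_lit 9216, nat_lit 9220, nat_lit 9224, nat_lit 9230, nat_lit 9232, nat_lit 9236, nat_lit 9240,
  nat_lit 9248, nat_lit 9250, nat_lit 9252, nat_lit 9256, nat_lit 9260, nat_lit 9266, nat_lit 9268, nat_lit 9272,
  nat_lit 9276, nat_lit 9280, nat_lit 9282, nat_lit 9288, nat_lit 9292, nat_lit 9296, nat_lit 9298, nat_lit 9300,
  nat_lit 9308, nat_lit 9312, nat_lit 9320, nat_lit 9322, nat_lit 9326, nat_lit 9330, nat_lit 9334, nat_lit 9336,
  nat_lit 9344, nat_lit 9348, nat_lit 9356, nat_lit 9358, nat_lit 9360, nat_lit 9364, nat_lit 9368, nat_lit 9370,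
  nat_lit 9372, nat_lit 9378, nat_lit 9382, nat_lit 9386, nat_lit 9392, nat_lit 9394, nat_lit 9396, nat_lit 9400,
  nat_lit 9404, nat_lit 9406, nat_lit 9408, nat_lit 9416, nat_lit 9420, nat_lit 9424, nat_lit 9426, nat_lit 9432,
  nat_lit 9436, nat_lit 9440, nat_lit 9446, nat_lit 9448, nat_lit 9452, nat_lit 9456, nat_lit 9464, nat_lit 9466,
  nat_lit 9468, nat_lit 9472, nat_lit 9476, nat_lit 9478, nat_lit 9480, nat_lit 9486, nat_lit 9490, nat_lit 9494,
  nat_lit 9500, nat_lit 9502, nat_lit 9504, nat_lit 9508, nat_lit 9512, nat_lit 9514, nat_lit 9516, nat_lit 9524,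
  nat_lit 9528, nat_lit 9536, nat_lit 9538, nat_lit 9542, nat_lit 9546, nat_lit 9550, nat_lit 9552, nat_lit 9558,
  nat_lit 9562, nat_lit 9566, nat_lit 9568, nat_lit 9570, nat_lit 9578, nat_lit 9582, nat_lit 9586, nat_lit 9588,
  nat_lit 9594, nat_lit 9598, nat_lit 9602, nat_lit 9608, nat_lit 9610, nat_lit 9614, nat_lit 9618, nat_lit 9626,
  nat_lit 9628, nat_lit 9630, nat_lit 9634, nat_lit 9638, nat_lit 9644, nat_lit 9646, nat_lit 9650, nat_lit 9654,
  nat_lit 9658, nat_lit 9660, nat_lit 9668, nat_lit 9672, nat_lit 9680, nat_lit 9682, nat_lit 9684, nat_lit 9688,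
  nat_lit 9692, nat_lit 9694, nat_lit 9696, nat_lit 9702, nat_lit 9706, nat_lit 9710, nat_lit 9716, nat_lit 9718,
  nat_lit 9720, nat_lit 9724, nat_lit 9728, nat_lit 9730, nat_lit 9732, nat_lit 9740, nat_lit 9744, nat_lit 9748,
  nat_lit 9750, nat_lit 9756, nat_lit 9760, nat_lit 9764, nat_lit 9770, nat_lit 9772, nat_lit 9776, nat_lit 9780,
  nat_lit 9788, nat_lit 9790, nat_lit 9792, nat_lit 9796, nat_lit 9800, nat_lit 9802, nat_lit 9804, nat_lit 9810,
  nat_lit 9814, nat_lit 9818, nat_lit 9824, nat_lit 9826, nat_lit 9828, nat_lit 9832, nat_lit 9836, nat_lit 9838,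
  nat_lit 9840, nat_lit 9848, nat_lit 9852, nat_lit 9860, nat_lit 9862, nat_lit 9866, nat_lit 9870, nat_lit 9874,
  nat_lit 9876, nat_lit 9884, nat_lit 9888, nat_lit 9896, nat_lit 9898, nat_lit 9900, nat_lit 9904, nat_lit 9908,
  nat_lit 9914, nat_lit 9916, nat_lit 9920, nat_lit 9924, nat_lit 9928, nat_lit 9930, nat_lit 9936, nat_lit 9940,
  nat_lit 9944, nat_lit 9946, nat_lit 9948, nat_lit 9956, nat_lit 9960, nat_lit 9968, nat_lit 9970, nat_lit 9974,
  nat_lit 9978, nat_lit 9982, nat_lit 9984, nat_lit 9992, nat_lit 9996, nat_lit 10004, nat_lit 10006, nat_lit 10008,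
  nat_lit 10012, nat_lit 10016, nat_lit 10018, nat_lit 10020, nat_lit 10026, nat_lit 10030, nat_lit 10034, nat_lit 10040,
  nat_lit 10042, nat_lit 10046, nat_lit 10050, nat_lit 10058, nat_lit 10060, nat_lit 10062, nat_lit 10066, nat_lit 10070,
  nat_lit 10076, nat_lit 10078, nat_lit 10082, nat_lit 10086, nat_lit 10090, nat_lit 10092, nat_lit 10098, nat_lit 10102,
  nat_lit 10106, nat_lit 10108, nat_lit 10110, nat_lit 10118, nat_lit 10122, nat_lit 10126, nat_lit 10128, nat_lit 10134,
  nat_lit 10138, nat_lit 10142, nat_lit 10148, nat_lit 10150, nat_lit 10152, nat_lit 10156, nat_lit 10160, nat_lit 10162,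
  nat_lit 10164, nat_lit 10172, nat_lit 10176, nat_lit 10184, nat_lit 10186, nat_lit 10190, nat_lit 10194, nat_lit 10198,
  nat_lit 10200, nat_lit 10208, nat_lit 10212, nat_lit 10220, nat_lit 10222, nat_lit 10224, nat_lit 10228, nat_lit 10232,
  nat_lit 10238, nat_lit 10240, nat_lit 10244, nat_lit 10248, nat_lit 10252, nat_lit 10254, nat_lit 10260, nat_lit 10264,
  nat_lit 10268, nat_lit 10270, nat_lit 10272, nat_lit 10280, nat_lit 10284, nat_lit 10292, nat_lit 10294, nat_lit 10298,
  nat_lit 10302, nat_lit 10306, nat_lit 10308, nat_lit 10316, nat_lit 10320, nat_lit 10328, nat_lit 10330, nat_lit 10332,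
  nat_lit 10336, nat_lit 10340, nat_lit 10342, nat_lit 10344, nat_lit 10350, nat_lit 10354, nat_lit 10358, nat_lit 10364,
  nat_lit 10366, nat_lit 10368, nat_lit 10372, nat_lit 10376, nat_lit 10378, nat_lit 10380, nat_lit 10388, nat_lit 10392,
  nat_lit 10396, nat_lit 10398, nat_lit 10404, nat_lit 10408, nat_lit 10412, nat_lit 10418, nat_lit 10420, nat_lit 10424,
  nat_lit 10428, nat_lit 10436, nat_lit 10438, nat_lit 10440, nat_lit 10444, nat_lit 10448, nat_lit 10454, nat_lit 10456,
  nat_lit 10460, nat_lit 10464, nat_lit 10468, nat_lit 10470, nat_lit 10478, nat_lit 10482, nat_lit 10490, nat_lit 10492,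
  nat_lit 10494, nat_lit 10498, nat_lit 10502, nat_lit 10504, nat_lit 10506, nat_lit 10512, nat_lit 10516, nat_lit 10520,
  nat_lit 10526, nat_lit 10528, nat_lit 10532, nat_lit 10536, nat_lit 10544, nat_lit 10546, nat_lit 10548, nat_lit 10552,
  nat_lit 10556, nat_lit 10562, nat_lit 10564, nat_lit 10568, nat_lit 10572, nat_lit 10576, nat_lit 10578, nat_lit 10584,
  nat_lit 10588, nat_lit 10592, nat_lit 10594, nat_lit 10596, nat_lit 10604, nat_lit 10608, nat_lit 10612, nat_lit 10614,
  nat_lit 10620, nat_lit 10624, nat_lit 10628, nat_lit 10634, nat_lit 10636, nat_lit 10638, nat_lit 10642, nat_lit 10646,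
  nat_lit 10648, nat_lit 10650, nat_lit 10658, nat_lit 10662, nat_lit 10670, nat_lit 10672, nat_lit 10676, nat_lit 10680,
  nat_lit 10684, nat_lit 10686, nat_lit 10692, nat_lit 10696, nat_lit 10700, nat_lit 10702, nat_lit 10704, nat_lit 10712,
  nat_lit 10716, nat_lit 10720, nat_lit 10722, nat_lit 10728, nat_lit 10732, nat_lit 10736, nat_lit 10742, nat_lit 10744,
  nat_lit 10748, nat_lit 10752, nat_lit 10760, nat_lit 10762, nat_lit 10764, nat_lit 10768, nat_lit 10772, nat_lit 10774,
  nat_lit 10776, nat_lit 10782, nat_lit 10786, nat_lit 10790, nat_lit 10796, nat_lit 10798, nat_lit 10800, nat_lit 10804,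
  nat_lit 10808, nat_lit 10810, nat_lit 10812, nat_lit 10820, nat_lit 10824, nat_lit 10832, nat_lit 10834, nat_lit 10838,
  nat_lit 10842, nat_lit 10846, nat_lit 10848, nat_lit 10856, nat_lit 10860, nat_lit 10868, nat_lit 10870, nat_lit 10872,
  nat_lit 10876, nat_lit 10880, nat_lit 10886, nat_lit 10888, nat_lit 10892, nat_lit 10896, nat_lit 10900, nat_lit 10902,
  nat_lit 10908, nat_lit 10912, nat_lit 10916, nat_lit 10918, nat_lit 10920, nat_lit 10928, nat_lit 10932, nat_lit 10940,
  nat_lit 10942, nat_lit 10946, nat_lit 10950, nat_lit 10954, nat_lit 10956, nat_lit 10964, nat_lit 10968, nat_lit 10976,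
  nat_lit 10978, nat_lit 10980, nat_lit 10984, nat_lit 10988, nat_lit 10990, nat_lit 10992, nat_lit 10998, nat_lit 11002,
  nat_lit 11006, nat_lit 11012, nat_lit 11014, nat_lit 11018, nat_lit 11022, nat_lit 11030, nat_lit 11032, nat_lit 11034,
  nat_lit 11038, nat_lit 11042, nat_lit 11048, nat_lit 11050, nat_lit 11054, nat_lit 11058, nat_lit 11062, nat_lit 11064,
  nat_lit 11070, nat_lit 11074, nat_lit 11078, nat_lit 11080, nat_lit 11082, nat_lit 11090, nat_lit 11094, nat_lit 11098,
  nat_lit 11100, nat_lit 11106, nat_lit 11110, nat_lit 11114, nat_lit 11120, nat_lit 11122, nat_lit 11124, nat_lit 11128,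
  nat_lit 11132, nat_lit 11134, nat_lit 11136, nat_lit 11144, nat_lit 11148, nat_lit 11156, nat_lit 11158, nat_lit 11162,
  nat_lit 11166, nat_lit 11170, nat_lit 11172, nat_lit 11180, nat_lit 11184, nat_lit 11192, nat_lit 11194, nat_lit 11196,
  nat_lit 11200, nat_lit 11204, nat_lit 11210, nat_lit 11212, nat_lit 11216, nat_lit 11220, nat_lit 11224, nat_lit 11226,
  nat_lit 11232, nat_lit 11236, nat_lit 11240, nat_lit 11242, nat_lit 11244, nat_lit 11252, nat_lit 11256, nat_lit 11264,
  nat_lit 11266, nat_lit 11270, nat_lit 11274, nat_lit 11278, nat_lit 11280, nat_lit 11288, nat_lit 11292, nat_lit 11300,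
  nat_lit 11302, nat_lit 11304, nat_lit 11308, nat_lit 11312, nat_lit 11314, nat_lit 11316, nat_lit 11322, nat_lit 11326,
  nat_lit 11330, nat_lit 11336, nat_lit 11338, nat_lit 11340, nat_lit 11344, nat_lit 11348, nat_lit 11350, nat_lit 11352,
  nat_lit 11360, nat_lit 11364, nat_lit 11368, nat_lit 11370, nat_lit 11376, nat_lit 11380, nat_lit 11384, nat_lit 11390,
  nat_lit 11392, nat_lit 11396, nat_lit 11400, nat_lit 11408, nat_lit 11410, nat_lit 11412, nat_lit 11416, nat_lit 11420,
  nat_lit 11422, nat_lit 11424, nat_lit 11430, nat_lit 11434, nat_lit 11438, nat_lit 11444, nat_lit 11446, nat_lit 11448,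
  nat_lit 11452, nat_lit 11456, nat_lit 11458, nat_lit 11460, nat_lit 11468, nat_lit 11472, nat_lit 11480, nat_lit 11482,
  nat_lit 11486, nat_lit 11490, nat_lit 11494, nat_lit 11496, nat_lit 11502, nat_lit 11506, nat_lit 11510, nat_lit 11512,
  nat_lit 11514, nat_lit 11522, nat_lit 11526, nat_lit 11530, nat_lit 11532, nat_lit 11538, nat_lit 11542, nat_lit 11546,
  nat_lit 11552, nat_lit 11554, nat_lit 11558, nat_lit 11562, nat_lit 11570, nat_lit 11572, nat_lit 11574, nat_lit 11578,
  nat_lit 11582, nat_lit 11588, nat_lit 11590, nat_lit 11594, nat_lit 11598, nat_lit 11602, nat_lit 11604, nat_lit 11612,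
  nat_lit 11616, nat_lit 11624, nat_lit 11626, nat_lit 11628, nat_lit 11632, nat_lit 11636, nat_lit 11638, nat_lit 11640,
  nat_lit 11646, nat_lit 11650, nat_lit 11654, nat_lit 11660, nat_lit 11662, nat_lit 11666, nat_lit 11670, nat_lit 11678,
  nat_lit 11680, nat_lit 11682, nat_lit 11686, nat_lit 11690, nat_lit 11696, nat_lit 11698, nat_lit 11702, nat_lit 11706,
  nat_lit 11710, nat_lit 11712, nat_lit 11718, nat_lit 11722, nat_lit 11726, nat_lit 11728, nat_lit 11730, nat_lit 11738,
  nat_lit 11742, nat_lit 11750, nat_lit 11752, nat_lit 11756, nat_lit 11760, nat_lit 11764, nat_lit 11766, nat_lit 11774,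
  nat_lit 11778, nat_lit 11786, nat_lit 11788, nat_lit 11790, nat_lit 11794, nat_lit 11798, nat_lit 11800, nat_lit 11802,
  nat_lit 11808, nat_lit 11812, nat_lit 11816, nat_lit 11822, nat_lit 11824, nat_lit 11826, nat_lit 11830, nat_lit 11834,
  nat_lit 11836, nat_lit 11838, nat_lit 11846, nat_lit 11850, nat_lit 11854, nat_lit 11856, nat_lit 11862, nat_lit 11866,
  nat_lit 11870, nat_lit 11876, nat_lit 11878, nat_lit 11882, nat_lit 11886, nat_lit 11894, nat_lit 11896, nat_lit 11898,
  nat_lit 11902, nat_lit 11906, nat_lit 11912, nat_lit 11914, nat_lit 11918, nat_lit 11922, nat_lit 11926, nat_lit 11928,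
  nat_lit 11936, nat_lit 11940, nat_lit 11948, nat_lit 11950, nat_lit 11952, nat_lit 11956, nat_lit 11960, nat_lit 11962,
  nat_lit 11964, nat_lit 11970, nat_lit 11974, nat_lit 11978, nat_lit 11984, nat_lit 11986, nat_lit 11990, nat_lit 11994,
  nat_lit 12002, nat_lit 12004, nat_lit 12006, nat_lit 12010, nat_lit 12014, nat_lit 12020, nat_lit 12022, nat_lit 12026,
  nat_lit 12030, nat_lit 12034, nat_lit 12036, nat_lit 12042, nat_lit 12046, nat_lit 12050, nat_lit 12052, nat_lit 12054,
  nat_lit 12062, nat_lit 12066, nat_lit 12070, nat_lit 12072, nat_lit 12078, nat_lit 12082, nat_lit 12086, nat_lit 12092,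
  nat_lit 12094, nat_lit 12096, nat_lit 12100, nat_lit 12104, nat_lit 12106, nat_lit 12108, nat_lit 12116, nat_lit 12120,
  nat_lit 12128, nat_lit 12130, nat_lit 12134, nat_lit 12138, nat_lit 12142, nat_lit 12144, nat_lit 12150, nat_lit 12154,
  nat_lit 12158, nat_lit 12160, nat_lit 12162, nat_lit 12170, nat_lit 12174, nat_lit 12178, nat_lit 12180, nat_lit 12186,
  nat_lit 12190, nat_lit 12194, nat_lit 12200, nat_lit 12202, nat_lit 12206, nat_lit 12210, nat_lit 12218, nat_lit 12220,
  nat_lit 12222, nat_lit 12226, nat_lit 12230, nat_lit 12232, nat_lit 12234, nat_lit 12240, nat_lit 12244, nat_lit 12248,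
  nat_lit 12254, nat_lit 12256, nat_lit 12258, nat_lit 12262, nat_lit 12266, nat_lit 12268, nat_lit 12270, nat_lit 12278,
  nat_lit 12282, nat_lit 12290, nat_lit 12292, nat_lit 12296, nat_lit 12300, nat_lit 12304, nat_lit 12306, nat_lit 12314,
  nat_lit 12318, nat_lit 12326, nat_lit 12328, nat_lit 12330, nat_lit 12334, nat_lit 12338, nat_lit 12344, nat_lit 12346,
  nat_lit 12350, nat_lit 12354, nat_lit 12358, nat_lit 12360, nat_lit 12366, nat_lit 12370, nat_lit 12374, nat_lit 12376,
  nat_lit 12378, nat_lit 12386, nat_lit 12390, nat_lit 12394, nat_lit 12396, nat_lit 12402, nat_lit 12406, nat_lit 12410,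
  nat_lit 12416, nat_lit 12418, nat_lit 12420, nat_lit 12424, nat_lit 12428, nat_lit 12430, nat_lit 12432, nat_lit 12440,
  nat_lit 12444, nat_lit 12452, nat_lit 12454, nat_lit 12458, nat_lit 12462, nat_lit 12466, nat_lit 12468, nat_lit 12474,
  nat_lit 12478, nat_lit 12482, nat_lit 12484, nat_lit 12486, nat_lit 12494, nat_lit 12498, nat_lit 12502, nat_lit 12504,
  nat_lit 12510, nat_lit 12514, nat_lit 12518, nat_lit 12524, nat_lit 12526, nat_lit 12530, nat_lit 12534, nat_lit 12542,
  nat_lit 12544, nat_lit 12546, nat_lit 12550, nat_lit 12554, nat_lit 12560, nat_lit 12562, nat_lit 12566, nat_lit 12570,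
  nat_lit 12574, nat_lit 12576, nat_lit 12584, nat_lit 12588, nat_lit 12596, nat_lit 12598, nat_lit 12600, nat_lit 12604,
  nat_lit 12608, nat_lit 12610, nat_lit 12612, nat_lit 12618, nat_lit 12622, nat_lit 12626, nat_lit 12632, nat_lit 12634,
  nat_lit 12636, nat_lit 12640, nat_lit 12644, nat_lit 12646, nat_lit 12648, nat_lit 12656, nat_lit 12660, nat_lit 12664,
  nat_lit 12666, nat_lit 12672, nat_lit 12676, nat_lit 12680, nat_lit 12686, nat_lit 12688, nat_lit 12692, nat_lit 12696,
  nat_lit 12704, nat_lit 12706, nat_lit 12708, nat_lit 12712, nat_lit 12716, nat_lit 12718, nat_lit 12720, nat_lit 12726,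
  nat_lit 12730, nat_lit 12734, nat_lit 12740, nat_lit 12742, nat_lit 12744, nat_lit 12748, nat_lit 12752, nat_lit 12754,
  nat_lit 12756, nat_lit 12764, nat_lit 12768, nat_lit 12776, nat_lit 12778, nat_lit 12782, nat_lit 12786, nat_lit 12790,
  nat_lit 12792, nat_lit 12800, nat_lit 12804, nat_lit 12812, nat_lit 12814, nat_lit 12816, nat_lit 12820, nat_lit 12824,
  nat_lit 12830, nat_lit 12832, nat_lit 12836, nat_lit 12840, nat_lit 12844, nat_lit 12846, nat_lit 12852, nat_lit 12856,
  nat_lit 12860, nat_lit 12862, nat_lit 12864, nat_lit 12872, nat_lit 12876, nat_lit 12884, nat_lit 12886, nat_lit 12890,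
  nat_lit 12894, nat_lit 12898, nat_lit 12900, nat_lit 12908, nat_lit 12912, nat_lit 12920, nat_lit 12922, nat_lit 12924,
  nat_lit 12928, nat_lit 12932, nat_lit 12934, nat_lit 12936, nat_lit 12942, nat_lit 12946, nat_lit 12950, nat_lit 12956,
  nat_lit 12958, nat_lit 12962, nat_lit 12966, nat_lit 12974, nat_lit 12976, nat_lit 12978, nat_lit 12982, nat_lit 12986,
  nat_lit 12992, nat_lit 12994, nat_lit 12998, nat_lit 13002, nat_lit 13006, nat_lit 13008, nat_lit 13014, nat_lit 13018,
  nat_lit 13022, nat_lit 13024, nat_lit 13026, nat_lit 13034, nat_lit 13038, nat_lit 13042, nat_lit 13044, nat_lit 13050,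
  nat_lit 13054, nat_lit 13058, nat_lit 13064, nat_lit 13066, nat_lit 13068, nat_lit 13072, nat_lit 13076, nat_lit 13078,
  nat_lit 13080, nat_lit 13088, nat_lit 13092, nat_lit 13100, nat_lit 13102, nat_lit 13106, nat_lit 13110, nat_lit 13114,
  nat_lit 13116, nat_lit 13124, nat_lit 13128, nat_lit 13136, nat_lit 13138, nat_lit 13140, nat_lit 13144, nat_lit 13148,
  nat_lit 13154, nat_lit 13156, nat_lit 13160, nat_lit 13164, nat_lit 13168, nat_lit 13170, nat_lit 13176, nat_lit 13180,
  nat_lit 13184, nat_lit 13186, nat_lit 13188, nat_lit 13196, nat_lit 13200, nat_lit 13208, nat_lit 13210, nat_lit 13214,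
  nat_lit 13218, nat_lit 13222, nat_lit 13224, nat_lit 13232, nat_lit 13236, nat_lit 13244, nat_lit 13246, nat_lit 13248,
  nat_lit 13252, nat_lit 13256, nat_lit 13258, nat_lit 13260, nat_lit 13266, nat_lit 13270, nat_lit 13274, nat_lit 13280,
  nat_lit 13282, nat_lit 13284, nat_lit 13288, nat_lit 13292, nat_lit 13294, nat_lit 13296, nat_lit 13304, nat_lit 13308,
  nat_lit 13312, nat_lit 13314, nat_lit 13320, nat_lit 13324, nat_lit 13328, nat_lit 13334, nat_lit 13336, nat_lit 13340,
  nat_lit 13344, nat_lit 13352, nat_lit 13354, nat_lit 13356, nat_lit 13360, nat_lit 13364, nat_lit 13370, nat_lit 13372,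
  nat_lit 13376, nat_lit 13380, nat_lit 13384, nat_lit 13386, nat_lit 13394, nat_lit 13398, nat_lit 13406, nat_lit 13408,
  nat_lit 13410, nat_lit 13414, nat_lit 13418, nat_lit 13420, nat_lit 13422, nat_lit 13428, nat_lit 13432, nat_lit 13436,
  nat_lit 13442, nat_lit 13444, nat_lit 13448, nat_lit 13452, nat_lit 13460, nat_lit 13462, nat_lit 13464, nat_lit 13468,
  nat_lit 13472, nat_lit 13478, nat_lit 13480, nat_lit 13484, nat_lit 13488, nat_lit 13492, nat_lit 13494, nat_lit 13500,
  nat_lit 13504, nat_lit 13508, nat_lit 13510, nat_lit 13512, nat_lit 13520, nat_lit 13524, nat_lit 13528, nat_lit 13530,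
  nat_lit 13536, nat_lit 13540, nat_lit 13544, nat_lit 13550, nat_lit 13552, nat_lit 13554, nat_lit 13558, nat_lit 13562,
  nat_lit 13564, nat_lit 13566, nat_lit 13574, nat_lit 13578, nat_lit 13586, nat_lit 13588, nat_lit 13592, nat_lit 13596,
  nat_lit 13600, nat_lit 13602, nat_lit 13608, nat_lit 13612, nat_lit 13616, nat_lit 13618, nat_lit 13620, nat_lit 13628,
  nat_lit 13632, nat_lit 13636, nat_lit 13638, nat_lit 13644, nat_lit 13648, nat_lit 13652, nat_lit 13658, nat_lit 13660,
  nat_lit 13664, nat_lit 13668, nat_lit 13676, nat_lit 13678, nat_lit 13680, nat_lit 13684, nat_lit 13688, nat_lit 13690,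
  nat_lit 13692, nat_lit 13698, nat_lit 13702, nat_lit 13706, nat_lit 13712, nat_lit 13714, nat_lit 13716, nat_lit 13720,
  nat_lit 13724, nat_lit 13726, nat_lit 13728, nat_lit 13736, nat_lit 13740, nat_lit 13748, nat_lit 13750, nat_lit 13754,
  nat_lit 13758, nat_lit 13762, nat_lit 13764, nat_lit 13772, nat_lit 13776, nat_lit 13784, nat_lit 13786, nat_lit 13788,
  nat_lit 13792, nat_lit 13796, nat_lit 13802, nat_lit 13804, nat_lit 13808, nat_lit 13812, nat_lit 13816, nat_lit 13818,
  nat_lit 13824, nat_lit 13828, nat_lit 13832, nat_lit 13834, nat_lit 13836, nat_lit 13844, nat_lit 13848, nat_lit 13856,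
  nat_lit 13858, nat_lit 13862, nat_lit 13866, nat_lit 13870, nat_lit 13872, nat_lit 13880, nat_lit 13884, nat_lit 13892,
  nat_lit 13894, nat_lit 13896, nat_lit 13900, nat_lit 13904, nat_lit 13906, nat_lit 13908, nat_lit 13914, nat_lit 13918,
  nat_lit 13922, nat_lit 13928, nat_lit 13930, nat_lit 13934, nat_lit 13938, nat_lit 13946, nat_lit 13948, nat_lit 13950,
  nat_lit 13954, nat_lit 13958, nat_lit 13964, nat_lit 13966, nat_lit 13970, nat_lit 13974, nat_lit 13978, nat_lit 13980,
  nat_lit 13986, nat_lit 13990, nat_lit 13994, nat_lit 13996, nat_lit 13998, nat_lit 14006, nat_lit 14010, nat_lit 14014,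
  nat_lit 14016, nat_lit 14022, nat_lit 14026, nat_lit 14030, nat_lit 14036, nat_lit 14038, nat_lit 14040, nat_lit 14044,
  nat_lit 14048, nat_lit 14050, nat_lit 14052, nat_lit 14060, nat_lit 14064, nat_lit 14072, nat_lit 14074, nat_lit 14078,
  nat_lit 14082, nat_lit 14086, nat_lit 14088, nat_lit 14096, nat_lit 14100, nat_lit 14108, nat_lit 14110, nat_lit 14112,
  nat_lit 14116, nat_lit 14120, nat_lit 14126, nat_lit 14128, nat_lit 14132, nat_lit 14136, nat_lit 14140, nat_lit 14142,
  nat_lit 14148, nat_lit 14152, nat_lit 14156, nat_lit 14158, nat_lit 14160, nat_lit 14168, nat_lit 14172, nat_lit 14180,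
  nat_lit 14182, nat_lit 14186, nat_lit 14190, nat_lit 14194, nat_lit 14196, nat_lit 14204, nat_lit 14208, nat_lit 14216,
  nat_lit 14218, nat_lit 14220, nat_lit 14224, nat_lit 14228, nat_lit 14230, nat_lit 14232, nat_lit 14238, nat_lit 14242,
  nat_lit 14246, nat_lit 14252, nat_lit 14254, nat_lit 14256, nat_lit 14260, nat_lit 14264, nat_lit 14266, nat_lit 14268,
  nat_lit 14276, nat_lit 14280, nat_lit 14284, nat_lit 14286, nat_lit 14292, nat_lit 14296, nat_lit 14300, nat_lit 14306,
  nat_lit 14308, nat_lit 14312, nat_lit 14316, nat_lit 14324, nat_lit 14326, nat_lit 14328, nat_lit 14332, nat_lit 14336,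
  nat_lit 14338, nat_lit 14340, nat_lit 14346, nat_lit 14350, nat_lit 14354, nat_lit 14360, nat_lit 14362, nat_lit 14364,
  nat_lit 14368, nat_lit 14372, nat_lit 14374, nat_lit 14376, nat_lit 14384, nat_lit 14388, nat_lit 14396, nat_lit 14398,
  nat_lit 14402, nat_lit 14406, nat_lit 14410, nat_lit 14412, nat_lit 14418, nat_lit 14422, nat_lit 14426, nat_lit 14428,
  nat_lit 14430, nat_lit 14438, nat_lit 14442, nat_lit 14446, nat_lit 14448, nat_lit 14454, nat_lit 14458, nat_lit 14462,
  nat_lit 14468, nat_lit 14470, nat_lit 14474, nat_lit 14478, nat_lit 14486, nat_lit 14488, nat_lit 14490, nat_lit 14494,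
  nat_lit 14498, nat_lit 14504, nat_lit 14506, nat_lit 14510, nat_lit 14514, nat_lit 14518, nat_lit 14520, nat_lit 14528,
  nat_lit 14532, nat_lit 14540, nat_lit 14542, nat_lit 14544, nat_lit 14548, nat_lit 14552, nat_lit 14554, nat_lit 14556,
  nat_lit 14562, nat_lit 14566, nat_lit 14570, nat_lit 14576, nat_lit 14578, nat_lit 14580, nat_lit 14584, nat_lit 14588,
  nat_lit 14590, nat_lit 14592, nat_lit 14600, nat_lit 14604, nat_lit 14608, nat_lit 14610, nat_lit 14616, nat_lit 14620,
  nat_lit 14624, nat_lit 14630, nat_lit 14632, nat_lit 14636, nat_lit 14640, nat_lit 14648, nat_lit 14650, nat_lit 14652,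
  nat_lit 14656, nat_lit 14660, nat_lit 14662, nat_lit 14664, nat_lit 14670, nat_lit 14674, nat_lit 14678, nat_lit 14684,
  nat_lit 14686, nat_lit 14688, nat_lit 14692, nat_lit 14696, nat_lit 14698, nat_lit 14700, nat_lit 14708, nat_lit 14712,
  nat_lit 14720, nat_lit 14722, nat_lit 14726, nat_lit 14730, nat_lit 14734, nat_lit 14736, nat_lit 14744, nat_lit 14748,
  nat_lit 14756, nat_lit 14758, nat_lit 14760, nat_lit 14764, nat_lit 14768, nat_lit 14774, nat_lit 14776, nat_lit 14780,
  nat_lit 14784, nat_lit 14788, nat_lit 14790, nat_lit 14796, nat_lit 14800, nat_lit 14804, nat_lit 14806, nat_lit 14808,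
  nat_lit 14816, nat_lit 14820, nat_lit 14824, nat_lit 14826, nat_lit 14832, nat_lit 14836, nat_lit 14840, nat_lit 14846,
  nat_lit 14848, nat_lit 14850, nat_lit 14854, nat_lit 14858, nat_lit 14860, nat_lit 14862, nat_lit 14870, nat_lit 14874,
  nat_lit 14882, nat_lit 14884, nat_lit 14888, nat_lit 14892, nat_lit 14896, nat_lit 14898, nat_lit 14904, nat_lit 14908,
  nat_lit 14912, nat_lit 14914, nat_lit 14916, nat_lit 14924, nat_lit 14928, nat_lit 14932, nat_lit 14934, nat_lit 14940,
  nat_lit 14944, nat_lit 14948, nat_lit 14954, nat_lit 14956, nat_lit 14960, nat_lit 14964, nat_lit 14972, nat_lit 14974,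
  nat_lit 14976, nat_lit 14980, nat_lit 14984, nat_lit 14990, nat_lit 14992, nat_lit 14996, nat_lit 15000, nat_lit 15004,
  nat_lit 15006, nat_lit 15014, nat_lit 15018, nat_lit 15026, nat_lit 15028, nat_lit 15030, nat_lit 15034, nat_lit 15038,
  nat_lit 15040, nat_lit 15042, nat_lit 15048, nat_lit 15052, nat_lit 15056, nat_lit 15062, nat_lit 15064, nat_lit 15068,
  nat_lit 15072, nat_lit 15080, nat_lit 15082, nat_lit 15084, nat_lit 15088, nat_lit 15092, nat_lit 15098, nat_lit 15100,
  nat_lit 15104, nat_lit 15108, nat_lit 15112, nat_lit 15114, nat_lit 15120, nat_lit 15124, nat_lit 15128, nat_lit 15130,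
  nat_lit 15132, nat_lit 15140, nat_lit 15144, nat_lit 15152, nat_lit 15154, nat_lit 15158, nat_lit 15162, nat_lit 15166,
  nat_lit 15168, nat_lit 15176, nat_lit 15180, nat_lit 15188, nat_lit 15190, nat_lit 15192, nat_lit 15196, nat_lit 15200,
  nat_lit 15202, nat_lit 15204, nat_lit 15210, nat_lit 15214, nat_lit 15218, nat_lit 15224, nat_lit 15226, nat_lit 15228,
  nat_lit 15232, nat_lit 15236, nat_lit 15238, nat_lit 15240, nat_lit 15248, nat_lit 15252, nat_lit 15256, nat_lit 15258,
  nat_lit 15264, nat_lit 15268, nat_lit 15272, nat_lit 15278, nat_lit 15280, nat_lit 15284, nat_lit 15288, nat_lit 15296,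
  nat_lit 15298, nat_lit 15300, nat_lit 15304, nat_lit 15308, nat_lit 15314, nat_lit 15316, nat_lit 15320, nat_lit 15324,
  nat_lit 15328, nat_lit 15330, nat_lit 15338, nat_lit 15342, nat_lit 15350, nat_lit 15352, nat_lit 15354, nat_lit 15358,
  nat_lit 15362, nat_lit 15364, nat_lit 15366, nat_lit 15372, nat_lit 15376, nat_lit 15380, nat_lit 15386, nat_lit 15388,
  nat_lit 15392, nat_lit 15396, nat_lit 15404, nat_lit 15406, nat_lit 15408, nat_lit 15412, nat_lit 15416, nat_lit 15422,
  nat_lit 15424, nat_lit 15428, nat_lit 15432, nat_lit 15436, nat_lit 15438, nat_lit 15444, nat_lit 15448, nat_lit 15452,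
  nat_lit 15454, nat_lit 15456, nat_lit 15464, nat_lit 15468, nat_lit 15472, nat_lit 15474, nat_lit 15480, nat_lit 15484,
  nat_lit 15488, nat_lit 15494, nat_lit 15496, nat_lit 15498, nat_lit 15502, nat_lit 15506, nat_lit 15508, nat_lit 15510,
  nat_lit 15518, nat_lit 15522, nat_lit 15530, nat_lit 15532, nat_lit 15536, nat_lit 15540, nat_lit 15544, nat_lit 15546,
  nat_lit 15554, nat_lit 15558, nat_lit 15566, nat_lit 15568, nat_lit 15570, nat_lit 15574, nat_lit 15578, nat_lit 15584,
  nat_lit 15586, nat_lit 15590, nat_lit 15594, nat_lit 15598, nat_lit 15600, nat_lit 15606, nat_lit 15610, nat_lit 15614,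
  nat_lit 15616, nat_lit 15618, nat_lit 15626, nat_lit 15630, nat_lit 15638, nat_lit 15640, nat_lit 15644, nat_lit 15648,
  nat_lit 15652, nat_lit 15654, nat_lit 15662, nat_lit 15666, nat_lit 15674, nat_lit 15676, nat_lit 15678, nat_lit 15682,
  nat_lit 15686, nat_lit 15688, nat_lit 15690, nat_lit 15696, nat_lit 15700, nat_lit 15704, nat_lit 15710, nat_lit 15712,
  nat_lit 15714, nat_lit 15718, nat_lit 15722, nat_lit 15724, nat_lit 15726, nat_lit 15734, nat_lit 15738, nat_lit 15742,
  nat_lit 15744, nat_lit 15750, nat_lit 15754, nat_lit 15758, nat_lit 15764, nat_lit 15766, nat_lit 15770, nat_lit 15774,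
  nat_lit 15782, nat_lit 15784, nat_lit 15786, nat_lit 15790, nat_lit 15794, nat_lit 15796, nat_lit 15798, nat_lit 15804,
  nat_lit 15808, nat_lit 15812, nat_lit 15818, nat_lit 15820, nat_lit 15822, nat_lit 15826, nat_lit 15830, nat_lit 15832,
  nat_lit 15834, nat_lit 15842, nat_lit 15846, nat_lit 15854, nat_lit 15856, nat_lit 15860, nat_lit 15864, nat_lit 15868,
  nat_lit 15870, nat_lit 15876, nat_lit 15880, nat_lit 15884, nat_lit 15886, nat_lit 15888, nat_lit 15896, nat_lit 15900,
  nat_lit 15904, nat_lit 15906, nat_lit 15912, nat_lit 15916, nat_lit 15920, nat_lit 15926, nat_lit 15928, nat_lit 15932,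
  nat_lit 15936, nat_lit 15944, nat_lit 15946, nat_lit 15948, nat_lit 15952, nat_lit 15956, nat_lit 15962, nat_lit 15964,
  nat_lit 15968, nat_lit 15972, nat_lit 15976, nat_lit 15978, nat_lit 15986, nat_lit 15990, nat_lit 15998, nat_lit 16000,
  nat_lit 16002, nat_lit 16006, nat_lit 16010, nat_lit 16012, nat_lit 16014, nat_lit 16020, nat_lit 16024, nat_lit 16028,
  nat_lit 16034, nat_lit 16036, nat_lit 16040, nat_lit 16044, nat_lit 16052, nat_lit 16054, nat_lit 16056, nat_lit 16060,
  nat_lit 16064, nat_lit 16070, nat_lit 16072, nat_lit 16076, nat_lit 16080, nat_lit 16084, nat_lit 16086, nat_lit 16092,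
  nat_lit 16096, nat_lit 16100, nat_lit 16102, nat_lit 16104, nat_lit 16112, nat_lit 16116, nat_lit 16124, nat_lit 16126,
  nat_lit 16130, nat_lit 16134, nat_lit 16138, nat_lit 16140, nat_lit 16148, nat_lit 16152, nat_lit 16160, nat_lit 16162,
  nat_lit 16164, nat_lit 16168, nat_lit 16172, nat_lit 16174, nat_lit 16176, nat_lit 16182, nat_lit 16186, nat_lit 16190,
  nat_lit 16196, nat_lit 16198, nat_lit 16200, nat_lit 16204, nat_lit 16208, nat_lit 16210, nat_lit 16212, nat_lit 16220,
  nat_lit 16224, nat_lit 16228, nat_lit 16230, nat_lit 16236, nat_lit 16240, nat_lit 16244, nat_lit 16250, nat_lit 16252,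
  nat_lit 16256, nat_lit 16260, nat_lit 16268, nat_lit 16270, nat_lit 16272, nat_lit 16276, nat_lit 16280, nat_lit 16286,
  nat_lit 16288, nat_lit 16292, nat_lit 16296, nat_lit 16300, nat_lit 16302, nat_lit 16310, nat_lit 16314, nat_lit 16322,
  nat_lit 16324, nat_lit 16326, nat_lit 16330, nat_lit 16334, nat_lit 16336, nat_lit 16338, nat_lit 16344, nat_lit 16348,
  nat_lit 16352, nat_lit 16358, nat_lit 16360, nat_lit 16364, nat_lit 16368, nat_lit 16376, nat_lit 16378, nat_lit 16380,
  nat_lit 16384, nat_lit 16388, nat_lit 16394, nat_lit 16396, nat_lit 16400, nat_lit 16404, nat_lit 16408, nat_lit 16410,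
  nat_lit 16416, nat_lit 16420, nat_lit 16424, nat_lit 16426, nat_lit 16428, nat_lit 16436, nat_lit 16440, nat_lit 16444,
  nat_lit 16446, nat_lit 16452, nat_lit 16456, nat_lit 16460, nat_lit 16466, nat_lit 16468, nat_lit 16470, nat_lit 16474,
  nat_lit 16478, nat_lit 16480, nat_lit 16482, nat_lit 16490, nat_lit 16494, nat_lit 16502, nat_lit 16504, nat_lit 16508,
  nat_lit 16512, nat_lit 16516, nat_lit 16518, nat_lit 16524, nat_lit 16528, nat_lit 16532, nat_lit 16534, nat_lit 16536,
  nat_lit 16544, nat_lit 16548, nat_lit 16552, nat_lit 16554, nat_lit 16560, nat_lit 16564, nat_lit 16568, nat_lit 16574,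
  nat_lit 16576, nat_lit 16580, nat_lit 16584, nat_lit 16592, nat_lit 16594, nat_lit 16596, nat_lit 16600, nat_lit 16604,
  nat_lit 16606, nat_lit 16608, nat_lit 16614, nat_lit 16618, nat_lit 16622, nat_lit 16628, nat_lit 16630, nat_lit 16632,
  nat_lit 16636, nat_lit 16640, nat_lit 16642, nat_lit 16644, nat_lit 16652, nat_lit 16656, nat_lit 16664, nat_lit 16666,
  nat_lit 16670, nat_lit 16674, nat_lit 16678, nat_lit 16680, nat_lit 16688, nat_lit 16692, nat_lit 16700, nat_lit 16702,
  nat_lit 16704, nat_lit 16708, nat_lit 16712, nat_lit 16718, nat_lit 16720, nat_lit 16724, nat_lit 16728, nat_lit 16732,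
  nat_lit 16734, nat_lit 16740, nat_lit 16744, nat_lit 16748, nat_lit 16750, nat_lit 16752, nat_lit 16760, nat_lit 16764,
  nat_lit 16768, nat_lit 16770, nat_lit 16776, nat_lit 16780, nat_lit 16784, nat_lit 16790, nat_lit 16792, nat_lit 16794,
  nat_lit 16798, nat_lit 16802, nat_lit 16804, nat_lit 16806, nat_lit 16814, nat_lit 16818, nat_lit 16826, nat_lit 16828,
  nat_lit 16832, nat_lit 16836, nat_lit 16840, nat_lit 16842, nat_lit 16848, nat_lit 16852, nat_lit 16856, nat_lit 16858,
  nat_lit 16860, nat_lit 16868, nat_lit 16872, nat_lit 16876, nat_lit 16878, nat_lit 16884, nat_lit 16888, nat_lit 16892,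
  nat_lit 16898, nat_lit 16900, nat_lit 16904, nat_lit 16908, nat_lit 16916, nat_lit 16918, nat_lit 16920, nat_lit 16924,
  nat_lit 16928, nat_lit 16934, nat_lit 16936, nat_lit 16940, nat_lit 16944, nat_lit 16948, nat_lit 16950, nat_lit 16958,
  nat_lit 16962, nat_lit 16970, nat_lit 16972, nat_lit 16974, nat_lit 16978, nat_lit 16982, nat_lit 16984, nat_lit 16986,
  nat_lit 16992, nat_lit 16996, nat_lit 17000, nat_lit 17006, nat_lit 17008, nat_lit 17010, nat_lit 17014, nat_lit 17018,
  nat_lit 17020, nat_lit 17022, nat_lit 17030, nat_lit 17034, nat_lit 17038, nat_lit 17040, nat_lit 17046, nat_lit 17050,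
  nat_lit 17054, nat_lit 17060, nat_lit 17062, nat_lit 17066, nat_lit 17070, nat_lit 17078, nat_lit 17080, nat_lit 17082,
  nat_lit 17086, nat_lit 17090, nat_lit 17092, nat_lit 17094, nat_lit 17100, nat_lit 17104, nat_lit 17108, nat_lit 17114,
  nat_lit 17116, nat_lit 17118, nat_lit 17122, nat_lit 17126, nat_lit 17128, nat_lit 17130, nat_lit 17138, nat_lit 17142,
  nat_lit 17150, nat_lit 17152, nat_lit 17156, nat_lit 17160, nat_lit 17164, nat_lit 17166, nat_lit 17174, nat_lit 17178,
  nat_lit 17186, nat_lit 17188, nat_lit 17190, nat_lit 17194, nat_lit 17198, nat_lit 17204, nat_lit 17206, nat_lit 17210,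
  nat_lit 17214, nat_lit 17218, nat_lit 17220, nat_lit 17226, nat_lit 17230, nat_lit 17234, nat_lit 17236, nat_lit 17238,
  nat_lit 17246, nat_lit 17250, nat_lit 17258, nat_lit 17260, nat_lit 17264, nat_lit 17268, nat_lit 17272, nat_lit 17274,
  nat_lit 17282, nat_lit 17286, nat_lit 17294, nat_lit 17296, nat_lit 17298, nat_lit 17302, nat_lit 17306, nat_lit 17308,
  nat_lit 17310, nat_lit 17316, nat_lit 17320, nat_lit 17324, nat_lit 17330, nat_lit 17332, nat_lit 17336, nat_lit 17340,
  nat_lit 17348, nat_lit 17350, nat_lit 17352, nat_lit 17356, nat_lit 17360, nat_lit 17366, nat_lit 17368, nat_lit 17372,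
  nat_lit 17376, nat_lit 17380, nat_lit 17382, nat_lit 17388, nat_lit 17392, nat_lit 17396, nat_lit 17398, nat_lit 17400,
  nat_lit 17408, nat_lit 17412, nat_lit 17416, nat_lit 17418, nat_lit 17424, nat_lit 17428, nat_lit 17432, nat_lit 17438,
  nat_lit 17440, nat_lit 17442, nat_lit 17446, nat_lit 17450, nat_lit 17452, nat_lit 17454, nat_lit 17462, nat_lit 17466,
  nat_lit 17474, nat_lit 17476, nat_lit 17480, nat_lit 17484, nat_lit 17488, nat_lit 17490, nat_lit 17496, nat_lit 17500,
  nat_lit 17504, nat_lit 17506, nat_lit 17508, nat_lit 17516, nat_lit 17520, nat_lit 17524, nat_lit 17526, nat_lit 17532,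
  nat_lit 17536, nat_lit 17540, nat_lit 17546, nat_lit 17548, nat_lit 17552, nat_lit 17556, nat_lit 17564, nat_lit 17566,
  nat_lit 17568, nat_lit 17572, nat_lit 17576, nat_lit 17578, nat_lit 17580, nat_lit 17586, nat_lit 17590, nat_lit 17594,
  nat_lit 17600, nat_lit 17602, nat_lit 17604, nat_lit 17608, nat_lit 17612, nat_lit 17614, nat_lit 17616, nat_lit 17624,
  nat_lit 17628, nat_lit 17636, nat_lit 17638, nat_lit 17642, nat_lit 17646, nat_lit 17650, nat_lit 17652, nat_lit 17660,
  nat_lit 17664, nat_lit 17672, nat_lit 17674, nat_lit 17676, nat_lit 17680, nat_lit 17684, nat_lit 17690, nat_lit 17692,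
  nat_lit 17696, nat_lit 17700, nat_lit 17704, nat_lit 17706, nat_lit 17712, nat_lit 17716, nat_lit 17720, nat_lit 17722,
  nat_lit 17724, nat_lit 17732, nat_lit 17736, nat_lit 17740, nat_lit 17742, nat_lit 17748, nat_lit 17752, nat_lit 17756,
  nat_lit 17762, nat_lit 17764, nat_lit 17766, nat_lit 17770, nat_lit 17774, nat_lit 17776, nat_lit 17778, nat_lit 17786,
  nat_lit 17790, nat_lit 17798, nat_lit 17800, nat_lit 17804, nat_lit 17808, nat_lit 17812, nat_lit 17814, nat_lit 17820,
  nat_lit 17824, nat_lit 17828, nat_lit 17830, nat_lit 17832, nat_lit 17840, nat_lit 17844, nat_lit 17848, nat_lit 17850,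
  nat_lit 17856, nat_lit 17860, nat_lit 17864, nat_lit 17870, nat_lit 17872, nat_lit 17876, nat_lit 17880, nat_lit 17888,
  nat_lit 17890, nat_lit 17892, nat_lit 17896, nat_lit 17900, nat_lit 17906, nat_lit 17908, nat_lit 17912, nat_lit 17916,
  nat_lit 17920, nat_lit 17922, nat_lit 17930, nat_lit 17934, nat_lit 17942, nat_lit 17944, nat_lit 17946, nat_lit 17950,
  nat_lit 17954, nat_lit 17956, nat_lit 17958, nat_lit 17964, nat_lit 17968, nat_lit 17972, nat_lit 17978, nat_lit 17980,
  nat_lit 17984, nat_lit 17988, nat_lit 17996, nat_lit 17998, nat_lit 18000, nat_lit 18004, nat_lit 18008, nat_lit 18014,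
  nat_lit 18016, nat_lit 18020, nat_lit 18024, nat_lit 18028, nat_lit 18030, nat_lit 18036, nat_lit 18040, nat_lit 18044,
  nat_lit 18046, nat_lit 18048, nat_lit 18056, nat_lit 18060, nat_lit 18068, nat_lit 18070, nat_lit 18074, nat_lit 18078,
  nat_lit 18082, nat_lit 18084, nat_lit 18092, nat_lit 18096, nat_lit 18104, nat_lit 18106, nat_lit 18108, nat_lit 18112,
  nat_lit 18116, nat_lit 18118, nat_lit 18120, nat_lit 18126, nat_lit 18130, nat_lit 18134, nat_lit 18140, nat_lit 18142,
  nat_lit 18144, nat_lit 18148, nat_lit 18152, nat_lit 18154, nat_lit 18156, nat_lit 18164, nat_lit 18168, nat_lit 18172,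
  nat_lit 18174, nat_lit 18180, nat_lit 18184, nat_lit 18188, nat_lit 18194, nat_lit 18196, nat_lit 18200, nat_lit 18204,
  nat_lit 18212, nat_lit 18214, nat_lit 18216, nat_lit 18220, nat_lit 18224, nat_lit 18226, nat_lit 18228, nat_lit 18234,
  nat_lit 18238, nat_lit 18242, nat_lit 18248, nat_lit 18250, nat_lit 18252, nat_lit 18256, nat_lit 18260, nat_lit 18262,
  nat_lit 18264, nat_lit 18272, nat_lit 18276, nat_lit 18284, nat_lit 18286, nat_lit 18290, nat_lit 18294, nat_lit 18298,
  nat_lit 18300, nat_lit 18306, nat_lit 18310, nat_lit 18314, nat_lit 18316, nat_lit 18318, nat_lit 18326, nat_lit 18330,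
  nat_lit 18334, nat_lit 18336, nat_lit 18342, nat_lit 18346, nat_lit 18350, nat_lit 18356, nat_lit 18358, nat_lit 18362,
  nat_lit 18366, nat_lit 18374, nat_lit 18376, nat_lit 18378, nat_lit 18382, nat_lit 18386, nat_lit 18392, nat_lit 18394,
  nat_lit 18398, nat_lit 18402, nat_lit 18406, nat_lit 18408, nat_lit 18416, nat_lit 18420, nat_lit 18428, nat_lit 18430,
  nat_lit 18432, nat_lit 18436, nat_lit 18440, nat_lit 18442, nat_lit 18444, nat_lit 18450, nat_lit 18454, nat_lit 18458,
  nat_lit 18464, nat_lit 18466, nat_lit 18468, nat_lit 18472, nat_lit 18476, nat_lit 18478, nat_lit 18480, nat_lit 18488,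
  nat_lit 18492, nat_lit 18496, nat_lit 18498, nat_lit 18504, nat_lit 18508, nat_lit 18512, nat_lit 18518, nat_lit 18520,
  nat_lit 18524, nat_lit 18528, nat_lit 18536, nat_lit 18538, nat_lit 18540, nat_lit 18544, nat_lit 18548, nat_lit 18550,
  nat_lit 18552, nat_lit 18558, nat_lit 18562, nat_lit 18566, nat_lit 18572, nat_lit 18574, nat_lit 18576, nat_lit 18580,
  nat_lit 18584, nat_lit 18586, nat_lit 18588, nat_lit 18596, nat_lit 18600, nat_lit 18608, nat_lit 18610, nat_lit 18614,
  nat_lit 18618, nat_lit 18622, nat_lit 18624, nat_lit 18632, nat_lit 18636, nat_lit 18644, nat_lit 18646, nat_lit 18648,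
  nat_lit 18652, nat_lit 18656, nat_lit 18662, nat_lit 18664, nat_lit 18668, nat_lit 18672, nat_lit 18676, nat_lit 18678,
  nat_lit 18684, nat_lit 18688, nat_lit 18692, nat_lit 18694, nat_lit 18696, nat_lit 18704, nat_lit 18708, nat_lit 18716,
  nat_lit 18718, nat_lit 18722, nat_lit 18726, nat_lit 18730, nat_lit 18732, nat_lit 18740, nat_lit 18744, nat_lit 18752,
  nat_lit 18754, nat_lit 18756, nat_lit 18760, nat_lit 18764, nat_lit 18766, nat_lit 18768, nat_lit 18774, nat_lit 18778,
  nat_lit 18782, nat_lit 18788, nat_lit 18790, nat_lit 18794, nat_lit 18798, nat_lit 18806, nat_lit 18808, nat_lit 18810,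
  nat_lit 18814, nat_lit 18818, nat_lit 18824, nat_lit 18826, nat_lit 18830, nat_lit 18834, nat_lit 18838, nat_lit 18840,
  nat_lit 18846, nat_lit 18850, nat_lit 18854, nat_lit 18856, nat_lit 18858, nat_lit 18866, nat_lit 18870, nat_lit 18874,
  nat_lit 18876, nat_lit 18882, nat_lit 18886, nat_lit 18890, nat_lit 18896, nat_lit 18898, nat_lit 18900, nat_lit 18904,
  nat_lit 18908, nat_lit 18910, nat_lit 18912, nat_lit 18920, nat_lit 18924, nat_lit 18932, nat_lit 18934, nat_lit 18938,
  nat_lit 18942, nat_lit 18946, nat_lit 18948, nat_lit 18956, nat_lit 18960, nat_lit 18968, nat_lit 18970, nat_lit 18972,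
  nat_lit 18976, nat_lit 18980, nat_lit 18986, nat_lit 18988, nat_lit 18992, nat_lit 18996, nat_lit 19000, nat_lit 19002,
  nat_lit 19008, nat_lit 19012, nat_lit 19016, nat_lit 19018, nat_lit 19020, nat_lit 19028, nat_lit 19032, nat_lit 19040,
  nat_lit 19042, nat_lit 19046, nat_lit 19050, nat_lit 19054, nat_lit 19056, nat_lit 19064, nat_lit 19068, nat_lit 19076,
  nat_lit 19078, nat_lit 19080, nat_lit 19084, nat_lit 19088, nat_lit 19090, nat_lit 19092, nat_lit 19098, nat_lit 19102,
  nat_lit 19106, nat_lit 19112, nat_lit 19114, nat_lit 19116, nat_lit 19120, nat_lit 19124, nat_lit 19126, nat_lit 19128,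
  nat_lit 19136, nat_lit 19140, nat_lit 19144, nat_lit 19146, nat_lit 19152, nat_lit 19156, nat_lit 19160, nat_lit 19166,
  nat_lit 19168, nat_lit 19172, nat_lit 19176, nat_lit 19184, nat_lit 19186, nat_lit 19188, nat_lit 19192, nat_lit 19196,
  nat_lit 19202, nat_lit 19204, nat_lit 19208, nat_lit 19212, nat_lit 19216, nat_lit 19218, nat_lit 19226, nat_lit 19230,
  nat_lit 19238, nat_lit 19240, nat_lit 19242, nat_lit 19246, nat_lit 19250, nat_lit 19252, nat_lit 19254, nat_lit 19260,
  nat_lit 19264, nat_lit 19268, nat_lit 19274, nat_lit 19276, nat_lit 19280, nat_lit 19284, nat_lit 19292, nat_lit 19294,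
  nat_lit 19296, nat_lit 19300, nat_lit 19304, nat_lit 19310, nat_lit 19312, nat_lit 19316, nat_lit 19320, nat_lit 19324,
  nat_lit 19326, nat_lit 19332, nat_lit 19336, nat_lit 19340, nat_lit 19342, nat_lit 19344, nat_lit 19352, nat_lit 19356,
  nat_lit 19360, nat_lit 19362, nat_lit 19368, nat_lit 19372, nat_lit 19376, nat_lit 19382, nat_lit 19384, nat_lit 19386,
  nat_lit 19390, nat_lit 19394, nat_lit 19396, nat_lit 19398, nat_lit 19406, nat_lit 19410, nat_lit 19418, nat_lit 19420,
  nat_lit 19424, nat_lit 19428, nat_lit 19432, nat_lit 19434, nat_lit 19440, nat_lit 19444, nat_lit 19448, nat_lit 19450,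
  nat_lit 19452, nat_lit 19460, nat_lit 19464, nat_lit 19468, nat_lit 19470, nat_lit 19476, nat_lit 19480, nat_lit 19484,
  nat_lit 19490, nat_lit 19492, nat_lit 19496, nat_lit 19500, nat_lit 19508, nat_lit 19510, nat_lit 19512, nat_lit 19516,
  nat_lit 19520, nat_lit 19522, nat_lit 19524, nat_lit 19530, nat_lit 19534, nat_lit 19538, nat_lit 19544, nat_lit 19546,
  nat_lit 19548, nat_lit 19552, nat_lit 19556, nat_lit 19558, nat_lit 19560, nat_lit 19568, nat_lit 19572, nat_lit 19580,
  nat_lit 19582, nat_lit 19586, nat_lit 19590, nat_lit 19594, nat_lit 19596, nat_lit 19604, nat_lit 19608, nat_lit 19616,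
  nat_lit 19618, nat_lit 19620, nat_lit 19624, nat_lit 19628, nat_lit 19634, nat_lit 19636, nat_lit 19640, nat_lit 19644,
  nat_lit 19648, nat_lit 19650, nat_lit 19656, nat_lit 19660, nat_lit 19664, nat_lit 19666, nat_lit 19668, nat_lit 19676,
  nat_lit 19680]

def TT : Type :=
  Nat → Nat → Nat → Nat → Nat → Nat → Nat → Nat → Nat → Nat → Nat → Nat → Nat → Nat → Nat → Nat →
  Nat → Nat → Nat → Nat → Nat → Nat → Nat → Nat → Nat → Nat → Nat → Nat → Nat → Nat → Nat → Nat →
  Nat → Nat → Nat → Nat → Nat → Nat → Nat → Nat → Nat → Nat → Nat → Nat → Nat → Nat → Nat → Nat →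
  Nat → Nat → Nat → Nat → Nat → Nat → Nat → Nat → Nat → Nat → Nat → Nat → Nat → Nat → Nat → Nat →
  Nat → Nat → Nat → Nat → Nat → Nat → Nat → Nat → Nat → Nat → Nat → Nat → Nat → Nat → Nat → Nat →
  Nat → Nat → Nat → Nat → Nat → Nat → Nat → Nat → Nat → Nat → Nat → Nat → Nat → Nat → Nat → Nat →
  Nat → Nat → Nat → Nat → Nat → Nat → Nat → Nat → Nat → Nat → Nat → Nat → Nat → Nat → Nat → Nat →
  Nat → Nat → Nat → Nat → Nat → Nat → Nat → Nat → Nat → Nat → Nat → Nat → Nat → Nat → Nat → Nat →
  Nat → Nat → Nat → Nat → Nat → Nat → Nat → Nat → Nat → Nat → Nat → Nat → Nat → Nat → Nat → Nat →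
  Nat → Nat → Nat → Nat → Nat → Nat → Nat → Nat → Nat → Nat → Nat → Nat → Nat → Nat → Nat → Nat →
  Nat → Nat → Nat → Nat → Nat → Nat → Nat → Nat → Nat → Nat → Nat → Nat → Nat → Nat → Nat → Nat →
  Nat → Nat → Nat → Nat → Nat → Nat → Nat → Nat → Nat → Nat → Nat → Nat → Nat → Nat → Nat → Nat →
  Nat → Nat → Nat → Nat → Nat → Nat → Nat → Nat → Nat → Nat → Nat → Nat → Nat → Nat → Nat → Nat →
  Nat → Nat → Nat → Nat → Nat → Nat → Nat → Nat → Nat → Nat → Nat → Nat → Nat → Nat → Nat → Nat →
  Nat → Nat → Nat → Nat → Nat → Nat → Nat → Nat → Nat → Nat → Nat → Nat → Nat → Nat → Nat → Nat →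
  Nat → Nat → Nat → Nat → Nat → Nat → Nat → Nat → Nat → Nat → Nat → Nat → Nat → Nat → Nat → Nat →
  Nat → Nat → Nat → Nat → Nat → Nat → Nat → Nat → Nat → Nat → Nat → Nat → Nat → Nat → Nat → Nat →
  Nat → Nat → Nat → Nat → Nat → Nat → Nat → Nat → Nat → Nat → Nat → Nat → Nat → Nat → Nat → Nat →
  Nat → Nat → Nat → Nat → Nat → Nat → Nat → Nat → Nat → Nat → Nat → Nat → Nat → Nat → Nat → Nat →
  Nat → Nat → Nat → Nat → Nat → Nat → Nat → Nat → Nat → Nat → Nat → Nat → Nat → Nat → Nat → Nat →
  Nat → Nat → Nat → Nat → Nat → Nat → Nat → Nat → Nat → Nat → Nat → Nat → Nat → Nat → Nat → Nat →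
  Nat → Nat → Nat → Nat → Nat → Nat → Nat → Nat → Nat → Nat → Nat → Nat → Nat → Nat → Nat → Nat →
  Nat → Nat → Nat → Nat → Nat → Nat → Nat → Nat → Nat → Nat → Nat → Nat → Nat → Nat → Nat → Nat →
  Nat → Nat → Nat → Nat → Nat → Nat → Nat → Nat → Nat → Nat → Nat → Nat → Nat → Nat → Nat → Nat →
  Nat → Nat → Nat → Nat → Nat → Nat → Nat → Nat → Nat → Nat → Nat → Nat → Nat → Nat → Nat → Nat →
  Nat → Nat → Nat → Nat → Nat → Nat → Nat → Nat → Nat → Nat → Nat → Nat → Nat → Nat → Nat → Nat →
  Nat → Nat → Nat → Nat → Nat → Nat → Nat → Nat → Nat → Nat → Nat → Nat → Nat → Nat → Nat → Nat →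
  Nat → Nat → Nat → Nat → Nat → Nat → Nat → Nat → Nat → Nat → Nat → Nat → Nat → Nat → Nat → Nat →
  Nat → Nat → Nat → Nat → Nat → Nat → Nat → Nat → Nat → Nat → Nat → Nat → Nat → Nat → Nat → Nat →
  Nat → Nat → Nat → Nat → Nat → Nat → Nat → Nat → Nat → Nat → Nat → Nat → Nat → Nat → Nat → Nat →
  Nat → Nat → Nat → Nat → Nat → Nat → Nat → Nat → Nat → Nat → Nat → Nat → Nat → Nat → Nat → Nat →
  Nat → Nat → Nat → Nat → Nat → Nat → Nat → Nat → Nat → Nat → Nat → Nat → Nat → Nat → Nat → Nat →
  Nat → Nat → Nat → Nat → Nat → Nat → Nat → Nat → Nat → Nat → Nat → Nat → Nat → Nat → Nat → Nat →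
  Nat → Nat → Nat → Nat → Nat → Nat → Nat → Nat → Nat → Nat → Nat → Nat → Nat → Nat → Nat → Nat →
  Nat → Nat → Nat → Nat → Nat → Nat → Nat → Nat → Nat → Nat → Nat → Nat → Nat → Nat → Nat → Nat →
  Nat → Nat → Nat → Nat → Nat → Nat → Nat → Nat → Nat → Nat → Nat → Nat → Nat → Nat → Nat → Nat →
  Nat → Nat → Nat → Nat → Nat → Nat → Nat → Nat → Nat → Nat → Nat → Nat → Nat → Nat → Nat → Nat →
  Nat → Nat → Nat → Nat → Nat → Nat → Nat → Nat → Nat → Nat → Nat → Nat → Nat → Nat → Nat → Nat →
  Nat → Nat → Nat → Nat → Nat → Nat → Nat → Nat → Nat → Nat → Nat → Nat → Nat → Nat → Nat → Nat →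
  Nat → Nat → Nat → Nat → Nat → Nat → Nat → Nat → Nat → Nat → Nat → Nat → Nat → Nat → Nat → Nat →
  Nat → Nat → Nat → Nat → Nat → Nat → Nat → Nat → Nat → Nat → Nat → Nat → Nat → Nat → Nat → Nat →
  Nat → Nat → Nat → Nat → Nat → Nat → Nat → Nat → Nat → Nat → Nat → Nat → Nat → Nat → Nat → Nat →
  Nat → Nat → Nat → Nat → Nat → Nat → Nat → Nat → Nat → Nat → Nat → Nat → Nat → Nat → Nat → Nat →
  Nat → Nat → Nat → Nat → Nat → Nat → Nat → Nat → Nat → Nat → Nat → Nat → Nat → Nat → Nat → Nat →
  Nat → Nat → Nat → Nat → Nat → Nat → Nat → Nat → Nat → Nat → Nat → Nat → Nat → Nat → Nat → Nat →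
  Nat → Nat → Nat → Nat → Nat → Nat → Nat → Nat → Nat → Nat → Nat → Nat → Nat → Nat → Nat → Nat →
  Nat → Nat → Nat → Nat → Nat → Nat → Nat → Nat → Nat → Nat → Nat → Nat → Nat → Nat → Nat → Nat →
  Nat → Nat → Nat → Nat → Nat → Nat → Nat → Nat → Nat → Nat → Nat → Nat → Nat → Nat → Nat → Nat →
  Nat → Nat → Nat → Nat → Nat → Nat → Nat → Nat → Nat → Nat → Nat → Nat → Nat → Nat → Nat → Nat →
  Nat → Nat → Nat → Nat → Nat → Nat → Nat → Nat → Nat → Nat → Nat → Nat → Nat → Nat → Nat → Nat →
  Nat → Nat → Nat → Nat → Nat → Nat → Nat → Nat → Nat → Nat → Nat → Nat → Nat → Nat → Nat → Nat →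
  Nat → Nat → Nat → Nat → Nat → Nat → Nat → Nat → Nat → Nat → Nat → Nat → Nat → Nat → Nat → Nat →
  Nat → Nat → Nat → Nat → Nat → Nat → Nat → Nat → Nat → Nat → Nat → Nat → Nat → Nat → Nat → Nat →
  Nat → Nat → Nat → Nat → Nat → Nat → Nat → Nat → Nat → Nat → Nat → Nat → Nat → Nat → Nat → Nat →
  Nat → Nat → Nat → Nat → Nat → Nat → Nat → Nat → Nat → Nat → Nat → Nat → Nat → Nat → Nat → Nat →
  Nat → Nat → Nat → Nat → Nat → Nat → Nat → Nat → Nat → Nat → Nat → Nat → Nat → Nat → Nat → Nat →
  Nat → Nat → Nat → Nat → Nat → Nat → Nat → Nat → Nat → Nat → Nat → Nat → Nat → Nat → Nat → Nat →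
  Nat → Nat → Nat → Nat → Nat → Nat → Nat → Nat → Nat → Nat → Nat → Nat → Nat → Nat → Nat → Nat →
  Nat → Nat → Nat → Nat → Nat → Nat → Nat → Nat → Nat → Nat → Nat → Nat → Nat → Nat → Nat → Nat →
  Nat → Nat → Nat → Nat → Nat → Nat → Nat → Nat → Nat → Nat → Nat → Nat → Nat → Nat → Nat → Nat →
  Nat → Nat → Nat → Nat → Nat → Nat → Nat → Nat → Nat → Nat → Nat → Nat → Nat → Nat → Nat → Nat →
  Nat → Nat → Nat → Nat → Nat → Nat → Nat → Nat → Nat → Nat → Nat → Nat → Nat → Nat → Nat → Nat →
  Nat → Nat → Nat → Nat → Nat → Nat → Nat → Nat → Nat → Nat → Nat → Nat → Nat → Nat → Nat → Nat →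
  Nat → Nat → Nat → Nat → Nat → Nat → Nat → Nat → Nat → Nat → Nat → Nat → Nat → Nat → Nat → Nat →
  Nat → Nat → Nat → Nat → Nat → Nat → Nat → Nat → Nat → Nat → Nat → Nat → Nat → Nat → Nat → Nat →
  Nat → Nat → Nat → Nat → Nat → Nat → Nat → Nat → Nat → Nat → Nat → Nat → Nat → Nat → Nat → Nat →
  Nat → Nat → Nat → Nat → Nat → Nat → Nat → Nat → Nat → Nat → Nat → Nat → Nat → Nat → Nat → Nat →
  Nat → Nat → Nat → Nat → Nat → Nat → Nat → Nat → Nat → Nat → Nat → Nat → Nat → Nat → Nat → Nat →
  Nat → Nat → Nat → Nat → Nat → Nat → Nat → Nat → Nat → Nat → Nat → Nat → Nat → Nat → Nat → Nat →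
  Nat → Nat → Nat → Nat → Nat → Nat → Nat → Nat → Nat → Nat → Nat → Nat → Nat → Nat → Nat → Nat →
  Nat → Nat → Nat → Nat → Nat → Nat → Nat → Nat → Nat → Nat → Nat → Nat → Nat → Nat → Nat → Nat →
  Nat → Nat → Nat → Nat → Nat → Nat → Nat → Nat → Nat → Nat → Nat → Nat → Nat → Nat → Nat → Nat →
  Nat → Nat → Nat → Nat → Nat → Nat → Nat → Nat → Nat → Nat → Nat → Nat → Nat → Nat → Nat → Nat →
  Nat → Nat → Nat → Nat → Nat → Nat → Nat → Nat → Nat → Nat → Nat → Nat → Nat → Nat → Nat → Nat →
  Nat → Nat → Nat → Nat → Nat → Nat → Nat → Nat → Nat → Nat → Nat → Nat → Nat → Nat → Nat → Nat →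
  Nat → Nat → Nat → Nat → Nat → Nat → Nat → Nat → Nat → Nat → Nat → Nat → Nat → Nat → Nat → Nat →
  Nat → Nat → Nat → Nat → Nat → Nat → Nat → Nat → Nat → Nat → Nat → Nat → Nat → Nat → Nat → Nat →
  Nat → Nat → Nat → Nat → Nat → Nat → Nat → Nat → Nat → Nat → Nat → Nat → Nat → Nat → Nat → Nat →
  Nat → Nat → Nat → Nat → Nat → Nat → Nat → Nat → Nat → Nat → Nat → Nat → Nat → Nat → Nat → Nat →
  Nat → Nat → Nat → Nat → Nat → Nat → Nat → Nat → Nat → Nat → Nat → Nat → Nat → Nat → Nat → Nat →
  Nat → Nat → Nat → Nat → Nat → Nat → Nat → Nat → Nat → Nat → Nat → Nat → Nat → Nat → Nat → Nat →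
  Nat → Nat → Nat → Nat → Nat → Nat → Nat → Nat → Nat → Nat → Nat → Nat → Nat → Nat → Nat → Nat →
  Nat → Nat → Nat → Nat → Nat → Nat → Nat → Nat → Nat → Nat → Nat → Nat → Nat → Nat → Nat → Nat →
  Nat → Nat → Nat → Nat → Nat → Nat → Nat → Nat → Nat → Nat → Nat → Nat → Nat → Nat → Nat → Nat →
  Nat → Nat → Nat → Nat → Nat → Nat → Nat → Nat → Nat → Nat → Nat → Nat → Nat → Nat → Nat → Nat →
  Nat → Nat → Nat → Nat → Nat → Nat → Nat → Nat → Nat → Nat → Nat → Nat → Nat → Nat → Nat → Nat →
  Nat → Nat → Nat → Nat → Nat → Nat → Nat → Nat → Nat → Nat → Nat → Nat → Nat → Nat → Nat → Nat →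
  Nat → Nat → Nat → Nat → Nat → Nat → Nat → Nat → Nat → Nat → Nat → Nat → Nat → Nat → Nat → Nat →
  Nat → Nat → Nat → Nat → Nat → Nat → Nat → Nat → Nat → Nat → Nat → Nat → Nat → Nat → Nat → Nat →
  Nat → Nat → Nat → Nat → Nat → Nat → Nat → Nat → Nat → Nat → Nat → Nat → Nat → Nat → Nat → Nat →
  Nat → Nat → Nat → Nat → Nat → Nat → Nat → Nat → Nat → Nat → Nat → Nat → Nat → Nat → Nat → Nat →
  Nat → Nat → Nat → Nat → Nat → Nat → Nat → Nat → Nat → Nat → Nat → Nat → Nat → Nat → Nat → Nat →
  Nat → Nat → Nat → Nat → Nat → Nat → Nat → Nat → Nat → Nat → Nat → Nat → Nat → Nat → Nat → Nat →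
  Nat → Nat → Nat → Nat → Nat → Nat → Nat → Nat → Nat → Nat → Nat → Nat → Nat → Nat → Nat → Nat →
  Nat → Nat → Nat → Nat → Nat → Nat → Nat → Nat → Nat → Nat → Nat → Nat → Nat → Nat → Nat → Nat →
  Nat → Nat → Nat → Nat → Nat → Nat → Nat → Nat → Nat → Nat → Nat → Nat → Nat → Nat → Nat → Nat →
  Nat → Nat → Nat → Nat → Nat → Nat → Nat → Nat → Nat → Nat → Nat → Nat → Nat → Nat → Nat → Nat →
  Nat → Nat → Nat → Nat → Nat → Nat → Nat → Nat → Nat → Nat → Nat → Nat → Nat → Nat → Nat → Nat →
  Nat → Nat → Nat → Nat → Nat → Nat → Nat → Nat → Nat → Nat → Nat → Nat → Nat → Nat → Nat → Nat →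
  Nat → Nat → Nat → Nat → Nat → Nat → Nat → Nat → Nat → Nat → Nat → Nat → Nat → Nat → Nat → Nat →
  Nat → Nat → Nat → Nat → Nat → Nat → Nat → Nat → Nat → Nat → Nat → Nat → Nat → Nat → Nat → Nat →
  Nat → Nat → Nat → Nat → Nat → Nat → Nat → Nat → Nat → Nat → Nat → Nat → Nat → Nat → Nat → Nat →
  Nat → Nat → Nat → Nat → Nat → Nat → Nat → Nat → Nat → Nat → Nat → Nat → Nat → Nat → Nat → Nat →
  Nat → Nat → Nat → Nat → Nat → Nat → Nat → Nat → Nat → Nat → Nat → Nat → Nat → Nat → Nat → Nat →
  Nat → Nat → Nat → Nat → Nat → Nat → Nat → Nat → Nat → Nat → Nat → Nat → Nat → Nat → Nat → Nat →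
  Nat → Nat → Nat → Nat → Nat → Nat → Nat → Nat → Nat → Nat → Nat → Nat → Nat → Nat → Nat → Nat →
  Nat → Nat → Nat → Nat → Nat → Nat → Nat → Nat → Nat → Nat → Nat → Nat → Nat → Nat → Nat → Nat →
  Nat → Nat → Nat → Nat → Nat → Nat → Nat → Nat → Nat → Nat → Nat → Nat → Nat → Nat → Nat → Nat →
  Nat → Nat → Nat → Nat → Nat → Nat → Nat → Nat → Nat → Nat → Nat → Nat → Nat → Nat → Nat → Nat →
  Nat → Nat → Nat → Nat → Nat → Nat → Nat → Nat → Nat → Nat → Nat → Nat → Nat → Nat → Nat → Nat →
  Nat → Nat → Nat → Nat → Nat → Nat → Nat → Nat → Nat → Nat → Nat → Nat → Nat → Nat → Nat → Nat →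
  Nat → Nat → Nat → Nat → Nat → Nat → Nat → Nat → Nat → Nat → Nat → Nat → Nat → Nat → Nat → Nat →
  Nat → Nat → Nat → Nat → Nat → Nat → Nat → Nat → Nat → Nat → Nat → Nat → Nat → Nat → Nat → Nat →
  Nat → Nat → Nat → Nat → Nat → Nat → Nat → Nat → Nat → Nat → Nat → Nat → Nat → Nat → Nat → Nat →
  Nat → Nat → Nat → Nat → Nat → Nat → Nat → Nat → Nat → Nat → Nat → Nat → Nat → Nat → Nat → Nat →
  Nat → Nat → Nat → Nat → Nat → Nat → Nat → Nat → Nat → Nat → Nat → Nat → Nat → Nat → Nat → Nat →
  Nat → Nat → Nat → Nat → Nat → Nat → Nat → Nat → Nat → Nat → Nat → Nat → Nat → Nat → Nat → Nat →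
  Nat → Nat → Nat → Nat → Nat → Nat → Nat → Nat → Nat → Nat → Nat → Nat → Nat → Nat → Nat → Nat →
  Nat → Nat → Nat → Nat → Nat → Nat → Nat → Nat → Nat → Nat → Nat → Nat → Nat → Nat → Nat → Nat →
  Nat → Nat → Nat → Nat → Nat → Nat → Nat → Nat → Nat → Nat → Nat → Nat → Nat → Nat → Nat → Nat →
  Nat → Nat → Nat → Nat → Nat → Nat → Nat → Nat → Nat → Nat → Nat → Nat → Nat → Nat → Nat → Nat →
  Nat → Nat → Nat → Nat → Nat → Nat → Nat → Nat → Nat → Nat → Nat → Nat → Nat → Nat → Nat → Nat →
  Nat → Nat → Nat → Nat → Nat → Nat → Nat → Nat → Nat → Nat → Nat → Nat → Nat → Nat → Nat → Nat →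
  Nat → Nat → Nat → Nat → Nat → Nat → Nat → Nat → Nat → Nat → Nat → Nat → Nat → Nat → Nat → Nat →
  Nat → Nat → Nat → Nat → Nat → Nat → Nat → Nat → Nat → Nat → Nat → Nat → Nat → Nat → Nat → Nat →
  Nat → Nat → Nat → Nat → Nat → Nat → Nat → Nat → Nat → Nat → Nat → Nat → Nat → Nat → Nat → Nat →
  Nat → Nat → Nat → Nat → Nat → Nat → Nat → Nat → Nat → Nat → Nat → Nat → Nat → Nat → Nat → Nat →
  Nat → Nat → Nat → Nat → Nat → Nat → Nat → Nat → Nat → Nat → Nat → Nat → Nat → Nat → Nat → Nat →
  Nat → Nat → Nat → Nat → Nat → Nat → Nat → Nat → Nat → Nat → Nat → Nat → Nat → Nat → Nat → Nat →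
  Nat → Nat → Nat → Nat → Nat → Nat → Nat → Nat → Nat → Nat → Nat → Nat → Nat → Nat → Nat → Nat →
  Nat → Nat → Nat → Nat → Nat → Nat → Nat → Nat → Nat → Nat → Nat → Nat → Nat → Nat → Nat → Nat →
  Nat → Nat → Nat → Nat → Nat → Nat → Nat → Nat → Nat → Nat → Nat → Nat → Nat → Nat → Nat → Nat →
  Nat → Nat → Nat → Nat → Nat → Nat → Nat → Nat → Nat → Nat → Nat → Nat → Nat → Nat → Nat → Nat →
  Nat → Nat → Nat → Nat → Nat → Nat → Nat → Nat → Nat → Nat → Nat → Nat → Nat → Nat → Nat → Nat →
  Nat → Nat → Nat → Nat → Nat → Nat → Nat → Nat → Nat → Nat → Nat → Nat → Nat → Nat → Nat → Nat →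
  Nat → Nat → Nat → Nat → Nat → Nat → Nat → Nat → Nat → Nat → Nat → Nat → Nat → Nat → Nat → Nat →
  Nat → Nat → Nat → Nat → Nat → Nat → Nat → Nat → Nat → Nat → Nat → Nat → Nat → Nat → Nat → Nat →
  Nat → Nat → Nat → Nat → Nat → Nat → Nat → Nat → Nat → Nat → Nat → Nat → Nat → Nat → Nat → Nat →
  Nat → Nat → Nat → Nat → Nat → Nat → Nat → Nat → Nat → Nat → Nat → Nat → Nat → Nat → Nat → Nat →
  Nat → Nat → Nat → Nat → Nat → Nat → Nat → Nat → Nat → Nat → Nat → Nat → Nat → Nat → Nat → Nat →
  Nat → Nat → Nat → Nat → Nat → Nat → Nat → Nat → Nat → Nat → Nat → Nat → Nat → Nat → Nat → Nat →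
  Nat → Nat → Nat → Nat → Nat → Nat → Nat → Nat → Nat → Nat → Nat → Nat → Nat → Nat → Nat → Nat →
  Nat → Nat → Nat → Nat → Nat → Nat → Nat → Nat → Nat → Nat → Nat → Nat → Nat → Nat → Nat → Nat →
  Nat → Nat → Nat → Nat → Nat → Nat → Nat → Nat → Nat → Nat → Nat → Nat → Nat → Nat → Nat → Nat →
  Nat → Nat → Nat → Nat → Nat → Nat → Nat → Nat → Nat → Nat → Nat → Nat → Nat → Nat → Nat → Nat →
  Nat → Nat → Nat → Nat → Nat → Nat → Nat → Nat → Nat → Nat → Nat → Nat → Nat → Nat → Nat → Nat →
  Nat → Nat → Nat → Nat → Nat → Nat → Nat → Nat → Nat → Nat → Nat → Nat → Nat → Nat → Nat → Nat →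
  Nat → Nat → Nat → Nat → Nat → Nat → Nat → Nat → Nat → Nat → Nat → Nat → Nat → Nat → Nat → Nat →
  Nat → Nat → Nat → Nat → Nat → Nat → Nat → Nat → Nat → Nat → Nat → Nat → Nat → Nat → Nat → Nat →
  Nat → Nat → Nat → Nat → Nat → Nat → Nat → Nat → Nat → Nat → Nat → Nat → Nat → Nat → Nat → Nat →
  Nat → Nat → Nat → Nat → Nat → Nat → Nat → Nat → Nat → Nat → Nat → Nat → Nat → Nat → Nat → Nat →
  Nat → Nat → Nat → Nat → Nat → Nat → Nat → Nat → Nat → Nat → Nat → Nat → Nat → Nat → Nat → Nat →
  Nat → Nat → Nat → Nat → Nat → Nat → Nat → Nat → Nat → Nat → Nat → Nat → Nat → Nat → Nat → Nat →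
  Nat → Nat → Nat → Nat → Nat → Nat → Nat → Nat → Nat → Nat → Nat → Nat → Nat → Nat → Nat → Nat →
  Nat → Nat → Nat → Nat → Nat → Nat → Nat → Nat → Nat → Nat → Nat → Nat → Nat → Nat → Nat → Nat →
  Nat → Nat → Nat → Nat → Nat → Nat → Nat → Nat → Nat → Nat → Nat → Nat → Nat → Nat → Nat → Nat →
  Nat → Nat → Nat → Nat → Nat → Nat → Nat → Nat → Nat → Nat → Nat → Nat → Nat → Nat → Nat → Nat →
  Nat → Nat → Nat → Nat → Nat → Nat → Nat → Nat → Nat → Nat → Nat → Nat → Nat → Nat → Nat → Nat →
  Nat → Nat → Nat → Nat → Nat → Nat → Nat → Nat → Nat → Nat → Nat → Nat → Nat → Nat → Nat → Nat →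
  Nat → Nat → Nat → Nat → Nat → Nat → Nat → Nat → Nat → Nat → Nat → Nat → Nat → Nat → Nat → Nat →
  Nat → Nat → Nat → Nat → Nat → Nat → Nat → Nat → Nat → Nat → Nat → Nat → Nat → Nat → Nat → Nat →
  Nat → Nat → Nat → Nat → Nat → Nat → Nat → Nat → Nat → Nat → Nat → Nat → Nat → Nat → Nat → Nat →
  Nat → Nat → Nat → Nat → Nat → Nat → Nat → Nat → Nat → Nat → Nat → Nat → Nat → Nat → Nat → Nat →
  Nat → Nat → Nat → Nat → Nat → Nat → Nat → Nat → Nat → Nat → Nat → Nat → Nat → Nat → Nat → Nat →
  Nat → Nat → Nat → Nat → Nat → Nat → Nat → Nat → Nat → Nat → Nat → Nat → Nat → Nat → Nat → Nat →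
  Nat → Nat → Nat → Nat → Nat → Nat → Nat → Nat → Nat → Nat → Nat → Nat → Nat → Nat → Nat → Nat →
  Nat → Nat → Nat → Nat → Nat → Nat → Nat → Nat → Nat → Nat → Nat → Nat → Nat → Nat → Nat → Nat →
  Nat → Nat → Nat → Nat → Nat → Nat → Nat → Nat → Nat → Nat → Nat → Nat → Nat → Nat → Nat → Nat →
  Nat → Nat → Nat → Nat → Nat → Nat → Nat → Nat → Nat → Nat → Nat → Nat → Nat → Nat → Nat → Nat →
  Nat → Nat → Nat → Nat → Nat → Nat → Nat → Nat → Nat → Nat → Nat → Nat → Nat → Nat → Nat → Nat →
  Nat → Nat → Nat → Nat → Nat → Nat → Nat → Nat → Nat → Nat → Nat → Nat → Nat → Nat → Nat → Nat →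
  Nat → Nat → Nat → Nat → Nat → Nat → Nat → Nat → Nat → Nat → Nat → Nat → Nat → Nat → Nat → Nat →
  Nat → Nat → Nat → Nat → Nat → Nat → Nat → Nat → Nat → Nat → Nat → Nat → Nat → Nat → Nat → Nat →
  Nat → Nat → Nat → Nat → Nat → Nat → Nat → Nat → Nat → Nat → Nat → Nat → Nat → Nat → Nat → Nat →
  Nat → Nat → Nat → Nat → Nat → Nat → Nat → Nat → Nat → Nat → Nat → Nat → Nat → Nat → Nat → Nat →
  Nat → Nat → Nat → Nat → Nat → Nat → Nat → Nat → Nat → Nat → Nat → Nat → Nat → Nat → Nat → Nat →
  Nat → Nat → Nat → Nat → Nat → Nat → Nat → Nat → Nat → Nat → Nat → Nat → Nat → Nat → Nat → Nat →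
  Nat → Nat → Nat → Nat → Nat → Nat → Nat → Nat → Nat → Nat → Nat → Nat → Nat → Nat → Nat → Nat →
  Nat → Nat → Nat → Nat → Nat → Nat → Nat → Nat → Nat → Nat → Nat → Nat → Nat → Nat → Nat → Nat →
  Nat → Nat → Nat → Nat → Nat → Nat → Nat → Nat → Nat → Nat → Nat → Nat → Nat → Nat → Nat → Nat →
  Nat → Nat → Nat → Nat → Nat → Nat → Nat → Nat → Nat → Nat → Nat → Nat → Nat → Nat → Nat → Nat →
  Nat → Nat → Nat → Nat → Nat → Nat → Nat → Nat → Nat → Nat → Nat → Nat → Nat → Nat → Nat → Nat →
  Nat → Nat → Nat → Nat → Nat → Nat → Nat → Nat → Nat → Nat → Nat → Nat → Nat → Nat → Nat → Nat →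
  Nat → Nat → Nat → Nat → Nat → Nat → Nat → Nat → Nat → Nat → Nat → Nat → Nat → Nat → Nat → Nat →
  Nat → Nat → Nat → Nat → Nat → Nat → Nat → Nat → Nat → Nat → Nat → Nat → Nat → Nat → Nat → Nat →
  Nat → Nat → Nat → Nat → Nat → Nat → Nat → Nat → Nat → Nat → Nat → Nat → Nat → Nat → Nat → Nat →
  Nat → Nat → Nat → Nat → Nat → Nat → Nat → Nat → Nat → Nat → Nat → Nat → Nat → Nat → Nat → Nat →
  Nat → Nat → Nat → Nat → Nat → Nat → Nat → Nat → Nat → Nat → Nat → Nat → Nat → Nat → Nat → Nat →
  Nat → Nat → Nat → Nat → Nat → Nat → Nat → Nat → Nat → Nat → Nat → Nat → Nat → Nat → Nat → Nat →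
  Nat → Nat → Nat → Nat → Nat → Nat → Nat → Nat → Nat → Nat → Nat → Nat → Nat → Nat → Nat → Nat →
  Nat → Nat → Nat → Nat → Nat → Nat → Nat → Nat → Nat → Nat → Nat → Nat → Nat → Nat → Nat → Nat →
  Nat → Nat → Nat → Nat → Nat → Nat → Nat → Nat → Nat → Nat → Nat → Nat → Nat → Nat → Nat → Nat →
  Nat → Nat → Nat → Nat → Nat → Nat → Nat → Nat → Nat → Nat → Nat → Nat → Nat → Nat → Nat → Nat →
  Nat → Nat → Nat → Nat → Nat → Nat → Nat → Nat → Nat → Nat → Nat → Nat → Nat → Nat → Nat → Nat →
  Nat → Nat → Nat → Nat → Nat → Nat → Nat → Nat → Nat → Nat → Nat → Nat → Nat → Nat → Nat → Nat →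
  Nat → Nat → Nat → Nat → Nat → Nat → Nat → Nat → Nat → Nat → Nat → Nat → Nat → Nat → Nat → Nat →
  Nat → Nat → Nat → Nat → Nat → Nat → Nat → Nat → Nat → Nat → Nat → Nat → Nat → Nat → Nat → Nat →
  Nat → Nat → Nat → Nat → Nat → Nat → Nat → Nat → Nat → Nat → Nat → Nat → Nat → Nat → Nat → Nat →
  Nat → Nat → Nat → Nat → Nat → Nat → Nat → Nat → Nat → Nat → Nat → Nat → Nat → Nat → Nat → Nat →
  Nat → Nat → Nat → Nat → Nat → Nat → Nat → Nat → Nat → Nat → Nat → Nat → Nat → Nat → Nat → Nat →
  Nat → Nat → Nat → Nat → Nat → Nat → Nat → Nat → Nat → Nat → Nat → Nat → Nat → Nat → Nat → Nat →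
  Nat → Nat → Nat → Nat → Nat → Nat → Nat → Nat → Nat → Nat → Nat → Nat → Nat → Nat → Nat → Nat →
  Nat → Nat → Nat → Nat → Nat → Nat → Nat → Nat → Nat → Nat → Nat → Nat → Nat → Nat → Nat → Nat →
  Nat → Nat → Nat → Nat → Nat → Nat → Nat → Nat → Nat → Nat → Nat → Nat → Nat → Nat → Nat → Nat →
  Nat → Nat → Nat → Nat → Nat → Nat → Nat → Nat → Nat → Nat → Nat → Nat → Nat → Nat → Nat → Nat →
  Nat → Nat → Nat → Nat → Nat → Nat → Nat → Nat → Nat → Nat → Nat → Nat → Nat → Nat → Nat → Nat →
  Nat → Nat → Nat → Nat → Nat → Nat → Nat → Nat → Nat → Nat → Nat → Nat → Nat → Nat → Nat → Nat →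
  Nat → Nat → Nat → Nat → Nat → Nat → Nat → Nat → Nat → Nat → Nat → Nat → Nat → Nat → Nat → Nat →
  Nat → Nat → Nat → Nat → Nat → Nat → Nat → Nat → Nat → Nat → Nat → Nat → Nat → Nat → Nat → Nat →
  Nat → Nat → Nat → Nat → Nat → Nat → Nat → Nat → Nat → Nat → Nat → Nat → Nat → Nat → Nat → Nat →
  Nat → Nat → Nat → Nat → Nat → Nat → Nat → Nat → Nat → Nat → Nat → Nat → Nat → Nat → Nat → Nat →
  Nat → Nat → Nat → Nat → Nat → Nat → Nat → Nat → Nat → Nat → Nat → Nat → Nat → Nat → Nat → Nat →
  Nat → Nat → Nat → Nat → Nat → Nat → Nat → Nat → Nat → Nat → Nat → Nat → Nat → Nat → Nat → Nat →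
  Nat → Nat → Nat → Nat → Nat → Nat → Nat → Nat → Nat → Nat → Nat → Nat → Nat → Nat → Nat → Nat →
  Nat → Nat → Nat → Nat → Nat → Nat → Nat → Nat → Nat → Nat → Nat → Nat → Nat → Nat → Nat → Nat →
  Nat → Nat → Nat → Nat → Nat → Nat → Nat → Nat → Nat → Nat → Nat → Nat → Nat → Nat → Nat → Nat →
  Nat → Nat → Nat → Nat → Nat → Nat → Nat → Nat → Nat → Nat → Nat → Nat → Nat → Nat → Nat → Nat →
  Nat → Nat → Nat → Nat → Nat → Nat → Nat → Nat → Nat → Nat → Nat → Nat → Nat → Nat → Nat → Nat →
  Nat → Nat → Nat → Nat → Nat → Nat → Nat → Nat → Nat → Nat → Nat → Nat → Nat → Nat → Nat → Nat →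
  Nat → Nat → Nat → Nat → Nat → Nat → Nat → Nat → Nat → Nat → Nat → Nat → Nat → Nat → Nat → Nat →
  Nat → Nat → Nat → Nat → Nat → Nat → Nat → Nat → Nat → Nat → Nat → Nat → Nat → Nat → Nat → Nat →
  Nat → Nat → Nat → Nat → Nat → Nat → Nat → Nat → Nat → Nat → Nat → Nat → Nat → Nat → Nat → Nat →
  Nat → Nat → Nat → Nat → Nat → Nat → Nat → Nat → Nat → Nat → Nat → Nat → Nat → Nat → Nat → Nat →
  Nat → Nat → Nat → Nat → Nat → Nat → Nat → Nat → Nat → Nat → Nat → Nat → Nat → Nat → Nat → Nat →
  Nat → Nat → Nat → Nat → Nat → Nat → Nat → Nat → Nat → Nat → Nat → Nat → Nat → Nat → Nat → Nat →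
  Nat → Nat → Nat → Nat → Nat → Nat → Nat → Nat → Nat → Nat → Nat → Nat → Nat → Nat → Nat → Nat →
  Nat → Nat → Nat → Nat → Nat → Nat → Nat → Nat → Nat → Nat → Nat → Nat → Nat → Nat → Nat → Nat →
  Nat → Nat → Nat → Nat → Nat → Nat → Nat → Nat → Nat → Nat → Nat → Nat → Nat → Nat → Nat → Nat →
  Nat → Nat → Nat → Nat → Nat → Nat → Nat → Nat → Nat → Nat → Nat → Nat → Nat → Nat → Nat → Nat →
  Nat → Nat → Nat → Nat → Nat → Nat → Nat → Nat → Nat → Nat → Nat → Nat → Nat → Nat → Nat → Nat →
  Nat → Nat → Nat → Nat → Nat → Nat → Nat → Nat → Nat → Nat → Nat → Nat → Nat → Nat → Nat → Nat →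
  Nat → Nat → Nat → Nat → Nat → Nat → Nat → Nat → Nat → Nat → Nat → Nat → Nat → Nat → Nat → Nat →
  Nat → Nat → Nat → Nat → Nat → Nat → Nat → Nat → Nat → Nat → Nat → Nat → Nat → Nat → Nat → Nat →
  Nat → Nat → Nat → Nat → Nat → Nat → Nat → Nat → Nat → Nat → Nat → Nat → Nat → Nat → Nat → Nat →
  Nat → Nat → Nat → Nat → Nat → Nat → Nat → Nat → Nat → Nat → Nat → Nat → Nat → Nat → Nat → Nat →
  Nat → Nat → Nat → Nat → Nat → Nat → Nat → Nat → Nat → Nat → Nat → Nat → Nat → Nat → Nat → Nat →
  Nat → Nat → Nat → Nat → Nat → Nat → Nat → Nat → Nat → Nat → Nat → Nat → Nat → Nat → Nat → Nat →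
  Nat → Nat → Nat → Nat → Nat → Nat → Nat → Nat → Nat → Nat → Nat → Nat → Nat → Nat → Nat → Nat →
  Nat → Nat → Nat → Nat → Nat → Nat → Nat → Nat → Nat → Nat → Nat → Nat → Nat → Nat → Nat → Nat →
  Nat → Nat → Nat → Nat → Nat → Nat → Nat → Nat → Nat → Nat → Nat → Nat → Nat → Nat → Nat → Nat →
  Nat → Nat → Nat → Nat → Nat → Nat → Nat → Nat → Nat → Nat → Nat → Nat → Nat → Nat → Nat → Nat →
  Nat → Nat → Nat → Nat → Nat → Nat → Nat → Nat → Nat → Nat → Nat → Nat → Nat → Nat → Nat → Nat →
  Nat → Nat → Nat → Nat → Nat → Nat → Nat → Nat → Nat → Nat → Nat → Nat → Nat → Nat → Nat → Nat →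
  Nat → Nat → Nat → Nat → Nat → Nat → Nat → Nat → Nat → Nat → Nat → Nat → Nat → Nat → Nat → Nat →
  Nat → Nat → Nat → Nat → Nat → Nat → Nat → Nat → Nat → Nat → Nat → Nat → Nat → Nat → Nat → Nat →
  Nat → Nat → Nat → Nat → Nat → Nat → Nat → Nat → Nat → Nat → Nat → Nat → Nat → Nat → Nat → Nat →
  Nat → Nat → Nat → Nat → Nat → Nat → Nat → Nat → Nat → Nat → Nat → Nat → Nat → Nat → Nat → Nat →
  Nat → Nat → Nat → Nat → Nat → Nat → Nat → Nat → Nat → Nat → Nat → Nat → Nat → Nat → Nat → Nat →
  Nat → Nat → Nat → Nat → Nat → Nat → Nat → Nat → Nat → Nat → Nat → Nat → Nat → Nat → Nat → Nat →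
  Nat → Nat → Nat → Nat → Nat → Nat → Nat → Nat → Nat → Nat → Nat → Nat → Nat → Nat → Nat → Nat →
  Nat → Nat → Nat → Nat → Nat → Nat → Nat → Nat → Nat → Nat → Nat → Nat → Nat → Nat → Nat → Nat →
  Nat → Nat → Nat → Nat → Nat → Nat → Nat → Nat → Nat → Nat → Nat → Nat → Nat → Nat → Nat → Nat →
  Nat → Nat → Nat → Nat → Nat → Nat → Nat → Nat → Nat → Nat → Nat → Nat → Nat → Nat → Nat → Nat →
  Nat → Nat → Nat → Nat → Nat → Nat → Nat → Nat → Nat → Nat → Nat → Nat → Nat → Nat → Nat → Nat →
  Nat → Nat → Nat → Nat → Nat → Nat → Nat → Nat → Nat → Nat → Nat → Nat → Nat → Nat → Nat → Nat →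
  Nat → Nat → Nat → Nat → Nat → Nat → Nat → Nat → Nat → Nat → Nat → Nat → Nat → Nat → Nat → Nat →
  Nat → Nat → Nat → Nat → Nat → Nat → Nat → Nat → Nat → Nat → Nat → Nat → Nat → Nat → Nat → Nat →
  Nat → Nat → Nat → Nat → Nat → Nat → Nat → Nat → Nat → Nat → Nat → Nat → Nat → Nat → Nat → Nat →
  Nat → Nat → Nat → Nat → Nat → Nat → Nat → Nat → Nat → Nat → Nat → Nat → Nat → Nat → Nat → Nat →
  Nat → Nat → Nat → Nat → Nat → Nat → Nat → Nat → Nat → Nat → Nat → Nat → Nat → Nat → Nat → Nat →
  Nat → Nat → Nat → Nat → Nat → Nat → Nat → Nat → Nat → Nat → Nat → Nat → Nat → Nat → Nat → Nat →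
  Nat → Nat → Nat → Nat → Nat → Nat → Nat → Nat → Nat → Nat → Nat → Nat → Nat → Nat → Nat → Nat →
  Nat → Nat → Nat → Nat → Nat → Nat → Nat → Nat → Nat → Nat → Nat → Nat → Nat → Nat → Nat → Nat →
  Nat → Nat → Nat → Nat → Nat → Nat → Nat → Nat → Nat → Nat → Nat → Nat → Nat → Nat → Nat → Nat →
  Nat → Nat → Nat → Nat → Nat → Nat → Nat → Nat → Nat → Nat → Nat → Nat → Nat → Nat → Nat → Nat →
  Nat → Nat → Nat → Nat → Nat → Nat → Nat → Nat → Nat → Nat → Nat → Nat → Nat → Nat → Nat → Nat →
  Nat → Nat → Nat → Nat → Nat → Nat → Nat → Nat → Nat → Nat → Nat → Nat → Nat → Nat → Nat → Nat →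
  Nat → Nat → Nat → Nat → Nat → Nat → Nat → Nat → Nat → Nat → Nat → Nat → Nat → Nat → Nat → Nat →
  Nat → Nat → Nat → Nat → Nat → Nat → Nat → Nat → Nat → Nat → Nat → Nat → Nat → Nat → Nat → Nat →
  Nat → Nat → Nat → Nat → Nat → Nat → Nat → Nat → Nat → Nat → Nat → Nat → Nat → Nat → Nat → Nat →
  Nat → Nat → Nat → Nat → Nat → Nat → Nat → Nat → Nat → Nat → Nat → Nat → Nat → Nat → Nat → Nat →
  Nat → Nat → Nat → Nat → Nat → Nat → Nat → Nat → Nat → Nat → Nat → Nat → Nat → Nat → Nat → Nat →
  Nat → Nat → Nat → Nat → Nat → Nat → Nat → Nat → Nat → Nat → Nat → Nat → Nat → Nat → Nat → Nat →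
  Nat → Nat → Nat → Nat → Nat → Nat → Nat → Nat → Nat → Nat → Nat → Nat → Nat → Nat → Nat → Nat →
  Nat → Nat → Nat → Nat → Nat → Nat → Nat → Nat → Nat → Nat → Nat → Nat → Nat → Nat → Nat → Nat →
  Nat → Nat → Nat → Nat → Nat → Nat → Nat → Nat → Nat → Nat → Nat → Nat → Nat → Nat → Nat → Nat →
  Nat → Nat → Nat → Nat → Nat → Nat → Nat → Nat → Nat → Nat → Nat → Nat → Nat → Nat → Nat → Nat →
  Nat → Nat → Nat → Nat → Nat → Nat → Nat → Nat → Nat → Nat → Nat → Nat → Nat → Nat → Nat → Nat →
  Nat → Nat → Nat → Nat → Nat → Nat → Nat → Nat → Nat → Nat → Nat → Nat → Nat → Nat → Nat → Nat →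
  Nat → Nat → Nat → Nat → Nat → Nat → Nat → Nat → Nat → Nat → Nat → Nat → Nat → Nat → Nat → Nat →
  Nat → Nat → Nat → Nat → Nat → Nat → Nat → Nat → Nat → Nat → Nat → Nat → Nat → Nat → Nat → Nat →
  Nat → Nat → Nat → Nat → Nat → Nat → Nat → Nat → Nat → Nat → Nat → Nat → Nat → Nat → Nat → Nat →
  Nat → Nat → Nat → Nat → Nat → Nat → Nat → Nat → Nat → Nat → Nat → Nat → Nat → Nat → Nat → Nat →
  Nat → Nat → Nat → Nat → Nat → Nat → Nat → Nat → Nat → Nat → Nat → Nat → Nat → Nat → Nat → Nat →
  Nat → Nat → Nat → Nat → Nat → Nat → Nat → Nat → Nat → Nat → Nat → Nat → Nat → Nat → Nat → Nat →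
  Nat → Nat → Nat → Nat → Nat → Nat → Nat → Nat → Nat → Nat → Nat → Nat → Nat → Nat → Nat → Nat →
  Nat → Nat → Nat → Nat → Nat → Nat → Nat → Nat → Nat → Nat → Nat → Nat → Nat → Nat → Nat → Nat →
  Nat → Nat → Nat → Nat → Nat → Nat → Nat → Nat → Nat → Nat → Nat → Nat → Nat → Nat → Nat → Nat →
  Nat → Nat → Nat → Nat → Nat → Nat → Nat → Nat → Nat → Nat → Nat → Nat → Nat → Nat → Nat → Nat →
  Nat → Nat → Nat → Nat → Nat → Nat → Nat → Nat → Nat → Nat → Nat → Nat → Nat → Nat → Nat → Nat →
  Nat → Nat → Nat → Nat → Nat → Nat → Nat → Nat → Nat → Nat → Nat → Nat → Nat → Nat → Nat → Nat →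
  Nat → Nat → Nat → Nat → Nat → Nat → Nat → Nat → Nat → Nat → Nat → Nat → Nat → Nat → Nat → Nat →
  Nat → Nat → Nat → Nat → Nat → Nat → Nat → Nat → Nat → Nat → Nat → Nat → Nat → Nat → Nat → Nat →
  Nat → Nat → Nat → Nat → Nat → Nat → Nat → Nat → Nat → Nat → Nat → Nat → Nat → Nat → Nat → Nat →
  Nat → Nat → Nat → Nat → Nat → Nat → Nat → Nat → Nat → Nat → Nat → Nat → Nat → Nat → Nat → Nat →
  Nat → Nat → Nat → Nat → Nat → Nat → Nat → Nat → Nat → Nat → Nat → Nat → Nat → Nat → Nat → Nat →
  Nat → Nat → Nat → Nat → Nat → Nat → Nat → Nat → Nat → Nat → Nat → Nat → Nat → Nat → Nat → Nat →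
  Nat → Nat → Nat → Nat → Nat → Nat → Nat → Nat → Nat → Nat → Nat → Nat → Nat → Nat → Nat → Nat →
  Nat → Nat → Nat → Nat → Nat → Nat → Nat → Nat → Nat → Nat → Nat → Nat → Nat → Nat → Nat → Nat →
  Nat → Nat → Nat → Nat → Nat → Nat → Nat → Nat → Nat → Nat → Nat → Nat → Nat → Nat → Nat → Nat →
  Nat → Nat → Nat → Nat → Nat → Nat → Nat → Nat → Nat → Nat → Nat → Nat → Nat → Nat → Nat → Nat →
  Nat → Nat → Nat → Nat → Nat → Nat → Nat → Nat → Nat → Nat → Nat → Nat → Nat → Nat → Nat → Nat →
  Nat → Nat → Nat → Nat → Nat → Nat → Nat → Nat → Nat → Nat → Nat → Nat → Nat → Nat → Nat → Nat →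
  Nat → Nat → Nat → Nat → Nat → Nat → Nat → Nat → Nat → Nat → Nat → Nat → Nat → Nat → Nat → Nat →
  Nat → Nat → Nat → Nat → Nat → Nat → Nat → Nat → Nat → Nat → Nat → Nat → Nat → Nat → Nat → Nat →
  Nat → Nat → Nat → Nat → Nat → Nat → Nat → Nat → Nat → Nat → Nat → Nat → Nat → Nat → Nat → Nat →
  Nat → Nat → Nat → Nat → Nat → Nat → Nat → Nat → Nat → Nat → Nat → Nat → Nat → Nat → Nat → Nat →
  Nat → Nat → Nat → Nat → Nat → Nat → Nat → Nat → Nat → Bool

noncomputable def base : TT :=
  fun _ _ _ _ _ _ _ _ _ _ _ _ _ _ _ _ _ _ _ _ _ _ _ _ _ _ _ _ _ _ _ _ _ _ _ _ _ _ _ _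
  _ _ _ _ _ _ _ _ _ _ _ _ _ _ _ _ _ _ _ _ _ _ _ _ _ _ _ _ _ _ _ _ _ _ _ _ _ _ _ _
  _ _ _ _ _ _ _ _ _ _ _ _ _ _ _ _ _ _ _ _ _ _ _ _ _ _ _ _ _ _ _ _ _ _ _ _ _ _ _ _
  _ _ _ _ _ _ _ _ _ _ _ _ _ _ _ _ _ _ _ _ _ _ _ _ _ _ _ _ _ _ _ _ _ _ _ _ _ _ _ _
  _ _ _ _ _ _ _ _ _ _ _ _ _ _ _ _ _ _ _ _ _ _ _ _ _ _ _ _ _ _ _ _ _ _ _ _ _ _ _ _
  _ _ _ _ _ _ _ _ _ _ _ _ _ _ _ _ _ _ _ _ _ _ _ _ _ _ _ _ _ _ _ _ _ _ _ _ _ _ _ _
  _ _ _ _ _ _ _ _ _ _ _ _ _ _ _ _ _ _ _ _ _ _ _ _ _ _ _ _ _ _ _ _ _ _ _ _ _ _ _ _
  _ _ _ _ _ _ _ _ _ _ _ _ _ _ _ _ _ _ _ _ _ _ _ _ _ _ _ _ _ _ _ _ _ _ _ _ _ _ _ _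
  _ _ _ _ _ _ _ _ _ _ _ _ _ _ _ _ _ _ _ _ _ _ _ _ _ _ _ _ _ _ _ _ _ _ _ _ _ _ _ _
  _ _ _ _ _ _ _ _ _ _ _ _ _ _ _ _ _ _ _ _ _ _ _ _ _ _ _ _ _ _ _ _ _ _ _ _ _ _ _ _
  _ _ _ _ _ _ _ _ _ _ _ _ _ _ _ _ _ _ _ _ _ _ _ _ _ _ _ _ _ _ _ _ _ _ _ _ _ _ _ _
  _ _ _ _ _ _ _ _ _ _ _ _ _ _ _ _ _ _ _ _ _ _ _ _ _ _ _ _ _ _ _ _ _ _ _ _ _ _ _ _
  _ _ _ _ _ _ _ _ _ _ _ _ _ _ _ _ _ _ _ _ _ _ _ _ _ _ _ _ _ _ _ _ _ _ _ _ _ _ _ _
  _ _ _ _ _ _ _ _ _ _ _ _ _ _ _ _ _ _ _ _ _ _ _ _ _ _ _ _ _ _ _ _ _ _ _ _ _ _ _ _
  _ _ _ _ _ _ _ _ _ _ _ _ _ _ _ _ _ _ _ _ _ _ _ _ _ _ _ _ _ _ _ _ _ _ _ _ _ _ _ _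
  _ _ _ _ _ _ _ _ _ _ _ _ _ _ _ _ _ _ _ _ _ _ _ _ _ _ _ _ _ _ _ _ _ _ _ _ _ _ _ _
  _ _ _ _ _ _ _ _ _ _ _ _ _ _ _ _ _ _ _ _ _ _ _ _ _ _ _ _ _ _ _ _ _ _ _ _ _ _ _ _
  _ _ _ _ _ _ _ _ _ _ _ _ _ _ _ _ _ _ _ _ _ _ _ _ _ _ _ _ _ _ _ _ _ _ _ _ _ _ _ _
  _ _ _ _ _ _ _ _ _ _ _ _ _ _ _ _ _ _ _ _ _ _ _ _ _ _ _ _ _ _ _ _ _ _ _ _ _ _ _ _
  _ _ _ _ _ _ _ _ _ _ _ _ _ _ _ _ _ _ _ _ _ _ _ _ _ _ _ _ _ _ _ _ _ _ _ _ _ _ _ _
  _ _ _ _ _ _ _ _ _ _ _ _ _ _ _ _ _ _ _ _ _ _ _ _ _ _ _ _ _ _ _ _ _ _ _ _ _ _ _ _
  _ _ _ _ _ _ _ _ _ _ _ _ _ _ _ _ _ _ _ _ _ _ _ _ _ _ _ _ _ _ _ _ _ _ _ _ _ _ _ _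
  _ _ _ _ _ _ _ _ _ _ _ _ _ _ _ _ _ _ _ _ _ _ _ _ _ _ _ _ _ _ _ _ _ _ _ _ _ _ _ _
  _ _ _ _ _ _ _ _ _ _ _ _ _ _ _ _ _ _ _ _ _ _ _ _ _ _ _ _ _ _ _ _ _ _ _ _ _ _ _ _
  _ _ _ _ _ _ _ _ _ _ _ _ _ _ _ _ _ _ _ _ _ _ _ _ _ _ _ _ _ _ _ _ _ _ _ _ _ _ _ _
  _ _ _ _ _ _ _ _ _ _ _ _ _ _ _ _ _ _ _ _ _ _ _ _ _ _ _ _ _ _ _ _ _ _ _ _ _ _ _ _
  _ _ _ _ _ _ _ _ _ _ _ _ _ _ _ _ _ _ _ _ _ _ _ _ _ _ _ _ _ _ _ _ _ _ _ _ _ _ _ _
  _ _ _ _ _ _ _ _ _ _ _ _ _ _ _ _ _ _ _ _ _ _ _ _ _ _ _ _ _ _ _ _ _ _ _ _ _ _ _ _
  _ _ _ _ _ _ _ _ _ _ _ _ _ _ _ _ _ _ _ _ _ _ _ _ _ _ _ _ _ _ _ _ _ _ _ _ _ _ _ _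
  _ _ _ _ _ _ _ _ _ _ _ _ _ _ _ _ _ _ _ _ _ _ _ _ _ _ _ _ _ _ _ _ _ _ _ _ _ _ _ _
  _ _ _ _ _ _ _ _ _ _ _ _ _ _ _ _ _ _ _ _ _ _ _ _ _ _ _ _ _ _ _ _ _ _ _ _ _ _ _ _
  _ _ _ _ _ _ _ _ _ _ _ _ _ _ _ _ _ _ _ _ _ _ _ _ _ _ _ _ _ _ _ _ _ _ _ _ _ _ _ _
  _ _ _ _ _ _ _ _ _ _ _ _ _ _ _ _ _ _ _ _ _ _ _ _ _ _ _ _ _ _ _ _ _ _ _ _ _ _ _ _
  _ _ _ _ _ _ _ _ _ _ _ _ _ _ _ _ _ _ _ _ _ _ _ _ _ _ _ _ _ _ _ _ _ _ _ _ _ _ _ _
  _ _ _ _ _ _ _ _ _ _ _ _ _ _ _ _ _ _ _ _ _ _ _ _ _ _ _ _ _ _ _ _ _ _ _ _ _ _ _ _
  _ _ _ _ _ _ _ _ _ _ _ _ _ _ _ _ _ _ _ _ _ _ _ _ _ _ _ _ _ _ _ _ _ _ _ _ _ _ _ _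
  _ _ _ _ _ _ _ _ _ _ _ _ _ _ _ _ _ _ _ _ _ _ _ _ _ _ _ _ _ _ _ _ _ _ _ _ _ _ _ _
  _ _ _ _ _ _ _ _ _ _ _ _ _ _ _ _ _ _ _ _ _ _ _ _ _ _ _ _ _ _ _ _ _ _ _ _ _ _ _ _
  _ _ _ _ _ _ _ _ _ _ _ _ _ _ _ _ _ _ _ _ _ _ _ _ _ _ _ _ _ _ _ _ _ _ _ _ _ _ _ _
  _ _ _ _ _ _ _ _ _ _ _ _ _ _ _ _ _ _ _ _ _ _ _ _ _ _ _ _ _ _ _ _ _ _ _ _ _ _ _ _
  _ _ _ _ _ _ _ _ _ _ _ _ _ _ _ _ _ _ _ _ _ _ _ _ _ _ _ _ _ _ _ _ _ _ _ _ _ _ _ _
  _ _ _ _ _ _ _ _ _ _ _ _ _ _ _ _ _ _ _ _ _ _ _ _ _ _ _ _ _ _ _ _ _ _ _ _ _ _ _ _
  _ _ _ _ _ _ _ _ _ _ _ _ _ _ _ _ _ _ _ _ _ _ _ _ _ _ _ _ _ _ _ _ _ _ _ _ _ _ _ _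
  _ _ _ _ _ _ _ _ _ _ _ _ _ _ _ _ _ _ _ _ _ _ _ _ _ _ _ _ _ _ _ _ _ _ _ _ _ _ _ _
  _ _ _ _ _ _ _ _ _ _ _ _ _ _ _ _ _ _ _ _ _ _ _ _ _ _ _ _ _ _ _ _ _ _ _ _ _ _ _ _
  _ _ _ _ _ _ _ _ _ _ _ _ _ _ _ _ _ _ _ _ _ _ _ _ _ _ _ _ _ _ _ _ _ _ _ _ _ _ _ _
  _ _ _ _ _ _ _ _ _ _ _ _ _ _ _ _ _ _ _ _ _ _ _ _ _ _ _ _ _ _ _ _ _ _ _ _ _ _ _ _
  _ _ _ _ _ _ _ _ _ _ _ _ _ _ _ _ _ _ _ _ _ _ _ _ _ _ _ _ _ _ _ _ _ _ _ _ _ _ _ _
  _ _ _ _ _ _ _ _ _ _ _ _ _ _ _ _ _ _ _ _ _ _ _ _ _ _ _ _ _ _ _ _ _ _ _ _ _ _ _ _
  _ _ _ _ _ _ _ _ _ _ _ _ _ _ _ _ _ _ _ _ _ _ _ _ _ _ _ _ _ _ _ _ _ _ _ _ _ _ _ _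
  _ _ _ _ _ _ _ _ _ _ _ _ _ _ _ _ _ _ _ _ _ _ _ _ _ _ _ _ _ _ _ _ _ _ _ _ _ _ _ _
  _ _ _ _ _ _ _ _ _ _ _ _ _ _ _ _ _ _ _ _ _ _ _ _ _ _ _ _ _ _ _ _ _ _ _ _ _ _ _ _
  _ _ _ _ _ _ _ _ _ _ _ _ _ _ _ _ _ _ _ _ _ _ _ _ _ _ _ _ _ _ _ _ _ _ _ _ _ _ _ _
  _ _ _ _ _ _ _ _ _ _ _ _ _ _ _ _ _ _ _ _ _ _ _ _ _ _ _ _ _ _ _ _ _ _ _ _ _ _ _ _
  _ _ _ _ _ _ _ _ _ _ _ _ _ _ _ _ _ _ _ _ _ _ _ _ _ _ _ _ _ _ _ _ _ _ _ _ _ _ _ _
  _ _ _ _ _ _ _ _ _ _ _ _ _ _ _ _ _ _ _ _ _ _ _ _ _ _ _ _ _ _ _ _ _ _ _ _ _ _ _ _
  _ _ _ _ _ _ _ _ _ _ _ _ _ _ _ _ _ _ _ _ _ _ _ _ _ _ _ _ _ _ _ _ _ _ _ _ _ _ _ _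
  _ _ _ _ _ _ _ _ _ _ _ _ _ _ _ _ _ _ _ _ _ _ _ _ _ _ _ _ _ _ _ _ _ _ _ _ _ _ _ _
  _ _ _ _ _ _ _ _ _ _ _ _ _ _ _ _ _ _ _ _ _ _ _ _ _ _ _ _ _ _ _ _ _ _ _ _ _ _ _ _
  _ _ _ _ _ _ _ _ _ _ _ _ _ _ _ _ _ _ _ _ _ _ _ _ _ _ _ _ _ _ _ _ _ _ _ _ _ _ _ _
  _ _ _ _ _ _ _ _ _ _ _ _ _ _ _ _ _ _ _ _ _ _ _ _ _ _ _ _ _ _ _ _ _ _ _ _ _ _ _ _
  _ _ _ _ _ _ _ _ _ _ _ _ _ _ _ _ _ _ _ _ _ _ _ _ _ _ _ _ _ _ _ _ _ _ _ _ _ _ _ _
  _ _ _ _ _ _ _ _ _ _ _ _ _ _ _ _ _ _ _ _ _ _ _ _ _ _ _ _ _ _ _ _ _ _ _ _ _ _ _ _
  _ _ _ _ _ _ _ _ _ _ _ _ _ _ _ _ _ _ _ _ _ _ _ _ _ _ _ _ _ _ _ _ _ _ _ _ _ _ _ _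
  _ _ _ _ _ _ _ _ _ _ _ _ _ _ _ _ _ _ _ _ _ _ _ _ _ _ _ _ _ _ _ _ _ _ _ _ _ _ _ _
  _ _ _ _ _ _ _ _ _ _ _ _ _ _ _ _ _ _ _ _ _ _ _ _ _ _ _ _ _ _ _ _ _ _ _ _ _ _ _ _
  _ _ _ _ _ _ _ _ _ _ _ _ _ _ _ _ _ _ _ _ _ _ _ _ _ _ _ _ _ _ _ _ _ _ _ _ _ _ _ _
  _ _ _ _ _ _ _ _ _ _ _ _ _ _ _ _ _ _ _ _ _ _ _ _ _ _ _ _ _ _ _ _ _ _ _ _ _ _ _ _
  _ _ _ _ _ _ _ _ _ _ _ _ _ _ _ _ _ _ _ _ _ _ _ _ _ _ _ _ _ _ _ _ _ _ _ _ _ _ _ _
  _ _ _ _ _ _ _ _ _ _ _ _ _ _ _ _ _ _ _ _ _ _ _ _ _ _ _ _ _ _ _ _ _ _ _ _ _ _ _ _
  _ _ _ _ _ _ _ _ _ _ _ _ _ _ _ _ _ _ _ _ _ _ _ _ _ _ _ _ _ _ _ _ _ _ _ _ _ _ _ _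
  _ _ _ _ _ _ _ _ _ _ _ _ _ _ _ _ _ _ _ _ _ _ _ _ _ _ _ _ _ _ _ _ _ _ _ _ _ _ _ _
  _ _ _ _ _ _ _ _ _ _ _ _ _ _ _ _ _ _ _ _ _ _ _ _ _ _ _ _ _ _ _ _ _ _ _ _ _ _ _ _
  _ _ _ _ _ _ _ _ _ _ _ _ _ _ _ _ _ _ _ _ _ _ _ _ _ _ _ _ _ _ _ _ _ _ _ _ _ _ _ _
  _ _ _ _ _ _ _ _ _ _ _ _ _ _ _ _ _ _ _ _ _ _ _ _ _ _ _ _ _ _ _ _ _ _ _ _ _ _ _ _
  _ _ _ _ _ _ _ _ _ _ _ _ _ _ _ _ _ _ _ _ _ _ _ _ _ _ _ _ _ _ _ _ _ _ _ _ _ _ _ _
  _ _ _ _ _ _ _ _ _ _ _ _ _ _ _ _ _ _ _ _ _ _ _ _ _ _ _ _ _ _ _ _ _ _ _ _ _ _ _ _
  _ _ _ _ _ _ _ _ _ _ _ _ _ _ _ _ _ _ _ _ _ _ _ _ _ _ _ _ _ _ _ _ _ _ _ _ _ _ _ _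
  _ _ _ _ _ _ _ _ _ _ _ _ _ _ _ _ _ _ _ _ _ _ _ _ _ _ _ _ _ _ _ _ _ _ _ _ _ _ _ _
  _ _ _ _ _ _ _ _ _ _ _ _ _ _ _ _ _ _ _ _ _ _ _ _ _ _ _ _ _ _ _ _ _ _ _ _ _ _ _ _
  _ _ _ _ _ _ _ _ _ _ _ _ _ _ _ _ _ _ _ _ _ _ _ _ _ _ _ _ _ _ _ _ _ _ _ _ _ _ _ _
  _ _ _ _ _ _ _ _ _ _ _ _ _ _ _ _ _ _ _ _ _ _ _ _ _ _ _ _ _ _ _ _ _ _ _ _ _ _ _ _
  _ _ _ _ _ _ _ _ _ _ _ _ _ _ _ _ _ _ _ _ _ _ _ _ _ _ _ _ _ _ _ _ _ _ _ _ _ _ _ _
  _ _ _ _ _ _ _ _ _ _ _ _ _ _ _ _ _ _ _ _ _ _ _ _ _ _ _ _ _ _ _ _ _ _ _ _ _ _ _ _
  _ _ _ _ _ _ _ _ _ _ _ _ _ _ _ _ _ _ _ _ _ _ _ _ _ _ _ _ _ _ _ _ _ _ _ _ _ _ _ _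
  _ _ _ _ _ _ _ _ _ _ _ _ _ _ _ _ _ _ _ _ _ _ _ _ _ _ _ _ _ _ _ _ _ _ _ _ _ _ _ _
  _ _ _ _ _ _ _ _ _ _ _ _ _ _ _ _ _ _ _ _ _ _ _ _ _ _ _ _ _ _ _ _ _ _ _ _ _ _ _ _
  _ _ _ _ _ _ _ _ _ _ _ _ _ _ _ _ _ _ _ _ _ _ _ _ _ _ _ _ _ _ _ _ _ _ _ _ _ _ _ _
  _ _ _ _ _ _ _ _ _ _ _ _ _ _ _ _ _ _ _ _ _ _ _ _ _ _ _ _ _ _ _ _ _ _ _ _ _ _ _ _
  _ _ _ _ _ _ _ _ _ _ _ _ _ _ _ _ _ _ _ _ _ _ _ _ _ _ _ _ _ _ _ _ _ _ _ _ _ _ _ _
  _ _ _ _ _ _ _ _ _ _ _ _ _ _ _ _ _ _ _ _ _ _ _ _ _ _ _ _ _ _ _ _ _ _ _ _ _ _ _ _
  _ _ _ _ _ _ _ _ _ _ _ _ _ _ _ _ _ _ _ _ _ _ _ _ _ _ _ _ _ _ _ _ _ _ _ _ _ _ _ _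
  _ _ _ _ _ _ _ _ _ _ _ _ _ _ _ _ _ _ _ _ _ _ _ _ _ _ _ _ _ _ _ _ _ _ _ _ _ _ _ _
  _ _ _ _ _ _ _ _ _ _ _ _ _ _ _ _ _ _ _ _ _ _ _ _ _ _ _ _ _ _ _ _ _ _ _ _ _ _ _ _
  _ _ _ _ _ _ _ _ _ _ _ _ _ _ _ _ _ _ _ _ _ _ _ _ _ _ _ _ _ _ _ _ _ _ _ _ _ _ _ _
  _ _ _ _ _ _ _ _ _ _ _ _ _ _ _ _ _ _ _ _ _ _ _ _ _ _ _ _ _ _ _ _ _ _ _ _ _ _ _ _
  _ _ _ _ _ _ _ _ _ _ _ _ _ _ _ _ _ _ _ _ _ _ _ _ _ _ _ _ _ _ _ _ _ _ _ _ _ _ _ _
  _ _ _ _ _ _ _ _ _ _ _ _ _ _ _ _ _ _ _ _ _ _ _ _ _ _ _ _ _ _ _ _ _ _ _ _ _ _ _ _
  _ _ _ _ _ _ _ _ _ _ _ _ _ _ _ _ _ _ _ _ _ _ _ _ _ _ _ _ _ _ _ _ _ _ _ _ _ _ _ _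
  _ _ _ _ _ _ _ _ _ _ _ _ _ _ _ _ _ _ _ _ _ _ _ _ _ _ _ _ _ _ _ _ _ _ _ _ _ _ _ _
  _ _ _ _ _ _ _ _ _ _ _ _ _ _ _ _ _ _ _ _ _ _ _ _ _ _ _ _ _ _ _ _ _ _ _ _ _ _ _ _
  _ _ _ _ _ _ _ _ _ _ _ _ _ _ _ _ _ _ _ _ _ _ _ _ _ _ _ _ _ _ _ _ _ _ _ _ _ _ _ _
  _ _ _ _ _ _ _ _ _ _ _ _ _ _ _ _ _ _ _ _ _ _ _ _ _ _ _ _ _ _ _ _ _ _ _ _ _ _ _ _
  _ _ _ _ _ _ _ _ _ _ _ _ _ _ _ _ _ _ _ _ _ _ _ _ _ _ _ _ _ _ _ _ _ _ _ _ _ _ _ _
  _ _ _ _ _ _ _ _ _ _ _ _ _ _ _ _ _ _ _ _ _ _ _ _ _ _ _ _ _ _ _ _ _ _ _ _ _ _ _ _
  _ _ _ _ _ _ _ _ _ _ _ _ _ _ _ _ _ _ _ _ _ _ _ _ _ _ _ _ _ _ _ _ _ _ _ _ _ _ _ _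
  _ _ _ _ _ _ _ _ _ _ _ _ _ _ _ _ _ _ _ _ _ _ _ _ _ _ _ _ _ _ _ _ _ _ _ _ _ _ _ _
  _ _ _ _ _ _ _ _ _ _ _ _ _ _ _ _ _ _ _ _ _ _ _ _ _ _ _ _ _ _ _ _ _ _ _ _ _ _ _ _
  _ _ _ _ _ _ _ _ _ _ _ _ _ _ _ _ _ _ _ _ _ _ _ _ _ _ _ _ _ _ _ _ _ _ _ _ _ _ _ _
  _ _ _ _ _ _ _ _ _ _ _ _ _ _ _ _ _ _ _ _ _ _ _ _ _ _ _ _ _ _ _ _ _ _ _ _ _ _ _ _
  _ _ _ _ _ _ _ _ _ _ _ _ _ _ _ _ _ _ _ _ _ _ _ _ _ _ _ _ _ _ _ _ _ _ _ _ _ _ _ _
  _ _ _ _ _ _ _ _ _ _ _ _ _ _ _ _ _ _ _ _ _ _ _ _ _ _ _ _ _ _ _ _ _ _ _ _ _ _ _ _
  _ _ _ _ _ _ _ _ _ _ _ _ _ _ _ _ _ _ _ _ _ _ _ _ _ _ _ _ _ _ _ _ _ _ _ _ _ _ _ _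
  _ _ _ _ _ _ _ _ _ _ _ _ _ _ _ _ _ _ _ _ _ _ _ _ _ _ _ _ _ _ _ _ _ _ _ _ _ _ _ _
  _ _ _ _ _ _ _ _ _ _ _ _ _ _ _ _ _ _ _ _ _ _ _ _ _ _ _ _ _ _ _ _ _ _ _ _ _ _ _ _
  _ _ _ _ _ _ _ _ _ _ _ _ _ _ _ _ _ _ _ _ _ _ _ _ _ _ _ _ _ _ _ _ _ _ _ _ _ _ _ _
  _ _ _ _ _ _ _ _ _ _ _ _ _ _ _ _ _ _ _ _ _ _ _ _ _ _ _ _ _ _ _ _ _ _ _ _ _ _ _ _
  _ _ _ _ _ _ _ _ _ _ _ _ _ _ _ _ _ _ _ _ _ _ _ _ _ _ _ _ _ _ _ _ _ _ _ _ _ _ _ _
  _ _ _ _ _ _ _ _ _ _ _ _ _ _ _ _ _ _ _ _ _ _ _ _ _ _ _ _ _ _ _ _ _ _ _ _ _ _ _ _
  _ _ _ _ _ _ _ _ _ _ _ _ _ _ _ _ _ _ _ _ _ _ _ _ _ _ _ _ _ _ _ _ _ _ _ _ _ _ _ _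
  _ _ _ _ _ _ _ _ _ _ _ _ _ _ _ _ _ _ _ _ _ _ _ _ _ _ _ _ _ _ _ _ _ _ _ _ _ _ _ _
  _ _ _ _ _ _ _ _ _ _ _ _ _ _ _ _ _ _ _ _ _ _ _ _ _ _ _ _ _ _ _ _ _ _ _ _ _ _ _ _
  _ _ _ _ _ _ _ _ _ _ _ _ _ _ _ _ _ _ _ _ _ _ _ _ _ _ _ _ _ _ _ _ _ _ _ _ _ _ _ _
  _ => true

noncomputable def G (chk : List Nat → Bool) (C : Nat) (k : TT) : TT :=
  fun x0 x4 x8 x10 x12 x20 x24 x28 x30 x36 x40 x44 x50 x52 x56 x60
  x68 x70 x72 x76 x80 x82 x84 x90 x94 x98 x104 x106 x108 x112 x116 x118
  x120 x128 x132 x140 x142 x146 x150 x154 x156 x164 x168 x176 x178 x180 x184 x188
  x194 x196 x200 x204 x208 x210 x216 x220 x224 x226 x228 x236 x240 x244 x246 x252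
  x256 x260 x266 x268 x270 x274 x278 x280 x282 x290 x294 x302 x304 x308 x312 x316
  x318 x324 x328 x332 x334 x336 x344 x348 x352 x354 x360 x364 x368 x374 x376 x380
  x384 x392 x394 x396 x400 x404 x410 x412 x416 x420 x424 x426 x434 x438 x446 x448
  x450 x454 x458 x460 x462 x468 x472 x476 x482 x484 x488 x492 x500 x502 x504 x508
  x512 x518 x520 x524 x528 x532 x534 x540 x544 x548 x550 x552 x560 x564 x572 x574
  x578 x582 x586 x588 x596 x600 x608 x610 x612 x616 x620 x622 x624 x630 x634 x638
  x644 x646 x648 x652 x656 x658 x660 x668 x672 x676 x678 x684 x688 x692 x698 x700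
  x704 x708 x716 x718 x720 x724 x728 x730 x732 x738 x742 x746 x752 x754 x756 x760
  x764 x766 x768 x776 x780 x788 x790 x794 x798 x802 x804 x810 x814 x818 x820 x822
  x830 x834 x838 x840 x846 x850 x854 x860 x862 x866 x870 x878 x880 x882 x886 x890
  x896 x898 x902 x906 x910 x912 x920 x924 x932 x934 x936 x940 x944 x946 x948 x954
  x958 x962 x968 x970 x972 x976 x980 x982 x984 x992 x996 x1000 x1002 x1008 x1012 x1016
  x1022 x1024 x1028 x1032 x1040 x1042 x1044 x1048 x1052 x1054 x1056 x1062 x1066 x1070 x1076 x1078
  x1080 x1084 x1088 x1090 x1092 x1100 x1104 x1112 x1114 x1118 x1122 x1126 x1128 x1136 x1140 x1148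
  x1150 x1152 x1156 x1160 x1166 x1168 x1172 x1176 x1180 x1182 x1188 x1192 x1196 x1198 x1200 x1208
  x1212 x1220 x1222 x1226 x1230 x1234 x1236 x1244 x1248 x1256 x1258 x1260 x1264 x1268 x1270 x1272
  x1278 x1282 x1286 x1292 x1294 x1298 x1302 x1310 x1312 x1314 x1318 x1322 x1328 x1330 x1334 x1338
  x1342 x1344 x1350 x1354 x1358 x1360 x1362 x1370 x1374 x1378 x1380 x1386 x1390 x1394 x1400 x1402
  x1404 x1408 x1412 x1414 x1416 x1424 x1428 x1436 x1438 x1442 x1446 x1450 x1452 x1460 x1464 x1472
  x1474 x1476 x1480 x1484 x1490 x1492 x1496 x1500 x1504 x1506 x1512 x1516 x1520 x1522 x1524 x1532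
  x1536 x1544 x1546 x1550 x1554 x1558 x1560 x1568 x1572 x1580 x1582 x1584 x1588 x1592 x1594 x1596
  x1602 x1606 x1610 x1616 x1618 x1620 x1624 x1628 x1630 x1632 x1640 x1644 x1648 x1650 x1656 x1660
  x1664 x1670 x1672 x1676 x1680 x1688 x1690 x1692 x1696 x1700 x1706 x1708 x1712 x1716 x1720 x1722
  x1730 x1734 x1742 x1744 x1746 x1750 x1754 x1756 x1758 x1764 x1768 x1772 x1778 x1780 x1784 x1788
  x1796 x1798 x1800 x1804 x1808 x1814 x1816 x1820 x1824 x1828 x1830 x1836 x1840 x1844 x1846 x1848
  x1856 x1860 x1864 x1866 x1872 x1876 x1880 x1886 x1888 x1890 x1894 x1898 x1900 x1902 x1910 x1914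
  x1922 x1924 x1928 x1932 x1936 x1938 x1944 x1948 x1952 x1954 x1956 x1964 x1968 x1972 x1974 x1980
  x1984 x1988 x1994 x1996 x2000 x2004 x2012 x2014 x2016 x2020 x2024 x2026 x2028 x2034 x2038 x2042
  x2048 x2050 x2052 x2056 x2060 x2062 x2064 x2072 x2076 x2084 x2086 x2090 x2094 x2098 x2100 x2108
  x2112 x2120 x2122 x2124 x2128 x2132 x2138 x2140 x2144 x2148 x2152 x2154 x2160 x2164 x2168 x2170
  x2172 x2180 x2184 x2188 x2190 x2196 x2200 x2204 x2210 x2212 x2214 x2218 x2222 x2224 x2226 x2234
  x2238 x2246 x2248 x2252 x2256 x2260 x2262 x2268 x2272 x2276 x2278 x2280 x2288 x2292 x2296 x2298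
  x2304 x2308 x2312 x2318 x2320 x2324 x2328 x2336 x2338 x2340 x2344 x2348 x2354 x2356 x2360 x2364
  x2368 x2370 x2378 x2382 x2390 x2392 x2394 x2398 x2402 x2404 x2406 x2412 x2416 x2420 x2426 x2428
  x2430 x2434 x2438 x2440 x2442 x2450 x2454 x2458 x2460 x2466 x2470 x2474 x2480 x2482 x2486 x2490
  x2498 x2500 x2502 x2506 x2510 x2512 x2514 x2520 x2524 x2528 x2534 x2536 x2538 x2542 x2546 x2548
  x2550 x2558 x2562 x2570 x2572 x2576 x2580 x2584 x2586 x2594 x2598 x2606 x2608 x2610 x2614 x2618
  x2624 x2626 x2630 x2634 x2638 x2640 x2646 x2650 x2654 x2656 x2658 x2666 x2670 x2678 x2680 x2684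
  x2688 x2692 x2694 x2702 x2706 x2714 x2716 x2718 x2722 x2726 x2728 x2730 x2736 x2740 x2744 x2750
  x2752 x2756 x2760 x2768 x2770 x2772 x2776 x2780 x2786 x2788 x2792 x2796 x2800 x2802 x2808 x2812
  x2816 x2818 x2820 x2828 x2832 x2836 x2838 x2844 x2848 x2852 x2858 x2860 x2862 x2866 x2870 x2872
  x2874 x2882 x2886 x2894 x2896 x2900 x2904 x2908 x2910 x2916 x2920 x2924 x2926 x2928 x2936 x2940
  x2944 x2946 x2952 x2956 x2960 x2966 x2968 x2972 x2976 x2984 x2986 x2988 x2992 x2996 x2998 x3000
  x3006 x3010 x3014 x3020 x3022 x3024 x3028 x3032 x3034 x3036 x3044 x3048 x3056 x3058 x3062 x3066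
  x3070 x3072 x3080 x3084 x3092 x3094 x3096 x3100 x3104 x3110 x3112 x3116 x3120 x3124 x3126 x3132
  x3136 x3140 x3142 x3144 x3152 x3156 x3160 x3162 x3168 x3172 x3176 x3182 x3184 x3186 x3190 x3194
  x3196 x3198 x3206 x3210 x3218 x3220 x3224 x3228 x3232 x3234 x3240 x3244 x3248 x3250 x3252 x3260
  x3264 x3268 x3270 x3276 x3280 x3284 x3290 x3292 x3296 x3300 x3308 x3310 x3312 x3316 x3320 x3326
  x3328 x3332 x3336 x3340 x3342 x3350 x3354 x3362 x3364 x3366 x3370 x3374 x3376 x3378 x3384 x3388
  x3392 x3398 x3400 x3404 x3408 x3416 x3418 x3420 x3424 x3428 x3434 x3436 x3440 x3444 x3448 x3450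
  x3456 x3460 x3464 x3466 x3468 x3476 x3480 x3488 x3490 x3494 x3498 x3502 x3504 x3512 x3516 x3524
  x3526 x3528 x3532 x3536 x3538 x3540 x3546 x3550 x3554 x3560 x3562 x3564 x3568 x3572 x3574 x3576
  x3584 x3588 x3592 x3594 x3600 x3604 x3608 x3614 x3616 x3620 x3624 x3632 x3634 x3636 x3640 x3644
  x3650 x3652 x3656 x3660 x3664 x3666 x3674 x3678 x3686 x3688 x3690 x3694 x3698 x3700 x3702 x3708
  x3712 x3716 x3722 x3724 x3728 x3732 x3740 x3742 x3744 x3748 x3752 x3758 x3760 x3764 x3768 x3772
  x3774 x3780 x3784 x3788 x3790 x3792 x3800 x3804 x3808 x3810 x3816 x3820 x3824 x3830 x3832 x3834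
  x3838 x3842 x3844 x3846 x3854 x3858 x3866 x3868 x3872 x3876 x3880 x3882 x3890 x3894 x3902 x3904
  x3906 x3910 x3914 x3920 x3922 x3926 x3930 x3934 x3936 x3942 x3946 x3950 x3952 x3954 x3962 x3966
  x3974 x3976 x3980 x3984 x3988 x3990 x3998 x4002 x4010 x4012 x4014 x4018 x4022 x4024 x4026 x4032
  x4036 x4040 x4046 x4048 x4050 x4054 x4058 x4060 x4062 x4070 x4074 x4078 x4080 x4086 x4090 x4094
  x4100 x4102 x4106 x4110 x4118 x4120 x4122 x4126 x4130 x4132 x4134 x4140 x4144 x4148 x4154 x4156
  x4158 x4162 x4166 x4168 x4170 x4178 x4182 x4190 x4192 x4196 x4200 x4204 x4206 x4212 x4216 x4220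
  x4222 x4224 x4232 x4236 x4240 x4242 x4248 x4252 x4256 x4262 x4264 x4268 x4272 x4280 x4282 x4284
  x4288 x4292 x4298 x4300 x4304 x4308 x4312 x4314 x4322 x4326 x4334 x4336 x4338 x4342 x4346 x4348
  x4350 x4356 x4360 x4364 x4370 x4372 x4376 x4380 x4388 x4390 x4392 x4396 x4400 x4406 x4408 x4412
  x4416 x4420 x4422 x4428 x4432 x4436 x4438 x4440 x4448 x4452 x4460 x4462 x4466 x4470 x4474 x4476
  x4484 x4488 x4496 x4498 x4500 x4504 x4508 x4510 x4512 x4518 x4522 x4526 x4532 x4534 x4536 x4540
  x4544 x4546 x4548 x4556 x4560 x4564 x4566 x4572 x4576 x4580 x4586 x4588 x4592 x4596 x4604 x4606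
  x4608 x4612 x4616 x4622 x4624 x4628 x4632 x4636 x4638 x4646 x4650 x4658 x4660 x4662 x4666 x4670
  x4672 x4674 x4680 x4684 x4688 x4694 x4696 x4700 x4704 x4712 x4714 x4716 x4720 x4724 x4730 x4732
  x4736 x4740 x4744 x4746 x4752 x4756 x4760 x4762 x4764 x4772 x4776 x4780 x4782 x4788 x4792 x4796
  x4802 x4804 x4806 x4810 x4814 x4816 x4818 x4826 x4830 x4838 x4840 x4844 x4848 x4852 x4854 x4860
  x4864 x4868 x4870 x4872 x4880 x4884 x4888 x4890 x4896 x4900 x4904 x4910 x4912 x4916 x4920 x4928
  x4930 x4932 x4936 x4940 x4942 x4944 x4950 x4954 x4958 x4964 x4966 x4968 x4972 x4976 x4978 x4980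
  x4988 x4992 x5000 x5002 x5006 x5010 x5014 x5016 x5024 x5028 x5036 x5038 x5040 x5044 x5048 x5054
  x5056 x5060 x5064 x5068 x5070 x5076 x5080 x5084 x5086 x5088 x5096 x5100 x5108 x5110 x5114 x5118
  x5122 x5124 x5132 x5136 x5144 x5146 x5148 x5152 x5156 x5158 x5160 x5166 x5170 x5174 x5180 x5182
  x5186 x5190 x5198 x5200 x5202 x5206 x5210 x5216 x5218 x5222 x5226 x5230 x5232 x5238 x5242 x5246
  x5248 x5250 x5258 x5262 x5266 x5268 x5274 x5278 x5282 x5288 x5290 x5292 x5296 x5300 x5302 x5304
  x5312 x5316 x5324 x5326 x5330 x5334 x5338 x5340 x5348 x5352 x5360 x5362 x5364 x5368 x5372 x5378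
  x5380 x5384 x5388 x5392 x5394 x5400 x5404 x5408 x5410 x5412 x5420 x5424 x5432 x5434 x5438 x5442
  x5446 x5448 x5456 x5460 x5468 x5470 x5472 x5476 x5480 x5482 x5484 x5490 x5494 x5498 x5504 x5506
  x5508 x5512 x5516 x5518 x5520 x5528 x5532 x5536 x5538 x5544 x5548 x5552 x5558 x5560 x5564 x5568
  x5576 x5578 x5580 x5584 x5588 x5590 x5592 x5598 x5602 x5606 x5612 x5614 x5616 x5620 x5624 x5626
  x5628 x5636 x5640 x5648 x5650 x5654 x5658 x5662 x5664 x5670 x5674 x5678 x5680 x5682 x5690 x5694
  x5698 x5700 x5706 x5710 x5714 x5720 x5722 x5726 x5730 x5738 x5740 x5742 x5746 x5750 x5756 x5758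
  x5762 x5766 x5770 x5772 x5780 x5784 x5792 x5794 x5796 x5800 x5804 x5806 x5808 x5814 x5818 x5822
  x5828 x5830 x5832 x5836 x5840 x5842 x5844 x5852 x5856 x5860 x5862 x5868 x5872 x5876 x5882 x5884
  x5888 x5892 x5900 x5902 x5904 x5908 x5912 x5914 x5916 x5922 x5926 x5930 x5936 x5938 x5940 x5944
  x5948 x5950 x5952 x5960 x5964 x5972 x5974 x5978 x5982 x5986 x5988 x5996 x6000 x6008 x6010 x6012
  x6016 x6020 x6026 x6028 x6032 x6036 x6040 x6042 x6048 x6052 x6056 x6058 x6060 x6068 x6072 x6076
  x6078 x6084 x6088 x6092 x6098 x6100 x6102 x6106 x6110 x6112 x6114 x6122 x6126 x6134 x6136 x6140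
  x6144 x6148 x6150 x6156 x6160 x6164 x6166 x6168 x6176 x6180 x6184 x6186 x6192 x6196 x6200 x6206
  x6208 x6212 x6216 x6224 x6226 x6228 x6232 x6236 x6242 x6244 x6248 x6252 x6256 x6258 x6266 x6270
  x6278 x6280 x6282 x6286 x6290 x6292 x6294 x6300 x6304 x6308 x6314 x6316 x6320 x6324 x6332 x6334
  x6336 x6340 x6344 x6350 x6352 x6356 x6360 x6364 x6366 x6372 x6376 x6380 x6382 x6384 x6392 x6396
  x6404 x6406 x6410 x6414 x6418 x6420 x6428 x6432 x6440 x6442 x6444 x6448 x6452 x6454 x6456 x6462
  x6466 x6470 x6476 x6478 x6480 x6484 x6488 x6490 x6492 x6500 x6504 x6508 x6510 x6516 x6520 x6524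
  x6530 x6532 x6536 x6540 x6548 x6550 x6552 x6556 x6560 x6562 x6564 x6570 x6574 x6578 x6584 x6586
  x6588 x6592 x6596 x6598 x6600 x6608 x6612 x6620 x6622 x6626 x6630 x6634 x6636 x6642 x6646 x6650
  x6652 x6654 x6662 x6666 x6670 x6672 x6678 x6682 x6686 x6692 x6694 x6698 x6702 x6710 x6712 x6714
  x6718 x6722 x6728 x6730 x6734 x6738 x6742 x6744 x6752 x6756 x6764 x6766 x6768 x6772 x6776 x6778
  x6780 x6786 x6790 x6794 x6800 x6802 x6804 x6808 x6812 x6814 x6816 x6824 x6828 x6832 x6834 x6840
  x6844 x6848 x6854 x6856 x6860 x6864 x6872 x6874 x6876 x6880 x6884 x6886 x6888 x6894 x6898 x6902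
  x6908 x6910 x6912 x6916 x6920 x6922 x6924 x6932 x6936 x6944 x6946 x6950 x6954 x6958 x6960 x6968
  x6972 x6980 x6982 x6984 x6988 x6992 x6998 x7000 x7004 x7008 x7012 x7014 x7020 x7024 x7028 x7030
  x7032 x7040 x7044 x7052 x7054 x7058 x7062 x7066 x7068 x7076 x7080 x7088 x7090 x7092 x7096 x7100
  x7102 x7104 x7110 x7114 x7118 x7124 x7126 x7130 x7134 x7142 x7144 x7146 x7150 x7154 x7160 x7162
  x7166 x7170 x7174 x7176 x7182 x7186 x7190 x7192 x7194 x7202 x7206 x7210 x7212 x7218 x7222 x7226
  x7232 x7234 x7236 x7240 x7244 x7246 x7248 x7256 x7260 x7268 x7270 x7274 x7278 x7282 x7284 x7290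
  x7294 x7298 x7300 x7302 x7310 x7314 x7318 x7320 x7326 x7330 x7334 x7340 x7342 x7346 x7350 x7358
  x7360 x7362 x7366 x7370 x7372 x7374 x7380 x7384 x7388 x7394 x7396 x7398 x7402 x7406 x7408 x7410
  x7418 x7422 x7430 x7432 x7436 x7440 x7444 x7446 x7454 x7458 x7466 x7468 x7470 x7474 x7478 x7484
  x7486 x7490 x7494 x7498 x7500 x7506 x7510 x7514 x7516 x7518 x7526 x7530 x7534 x7536 x7542 x7546
  x7550 x7556 x7558 x7560 x7564 x7568 x7570 x7572 x7580 x7584 x7592 x7594 x7598 x7602 x7606 x7608
  x7614 x7618 x7622 x7624 x7626 x7634 x7638 x7642 x7644 x7650 x7654 x7658 x7664 x7666 x7670 x7674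
  x7682 x7684 x7686 x7690 x7694 x7700 x7702 x7706 x7710 x7714 x7716 x7724 x7728 x7736 x7738 x7740
  x7744 x7748 x7750 x7752 x7758 x7762 x7766 x7772 x7774 x7778 x7782 x7790 x7792 x7794 x7798 x7802
  x7808 x7810 x7814 x7818 x7822 x7824 x7830 x7834 x7838 x7840 x7842 x7850 x7854 x7862 x7864 x7868
  x7872 x7876 x7878 x7886 x7890 x7898 x7900 x7902 x7906 x7910 x7912 x7914 x7920 x7924 x7928 x7934
  x7936 x7938 x7942 x7946 x7948 x7950 x7958 x7962 x7966 x7968 x7974 x7978 x7982 x7988 x7990 x7994
  x7998 x8006 x8008 x8010 x8014 x8018 x8024 x8026 x8030 x8034 x8038 x8040 x8048 x8052 x8060 x8062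
  x8064 x8068 x8072 x8074 x8076 x8082 x8086 x8090 x8096 x8098 x8102 x8106 x8114 x8116 x8118 x8122
  x8126 x8132 x8134 x8138 x8142 x8146 x8148 x8154 x8158 x8162 x8164 x8166 x8174 x8178 x8182 x8184
  x8190 x8194 x8198 x8204 x8206 x8208 x8212 x8216 x8218 x8220 x8228 x8232 x8240 x8242 x8246 x8250
  x8254 x8256 x8264 x8268 x8276 x8278 x8280 x8284 x8288 x8294 x8296 x8300 x8304 x8308 x8310 x8316
  x8320 x8324 x8326 x8328 x8336 x8340 x8348 x8350 x8354 x8358 x8362 x8364 x8372 x8376 x8384 x8386
  x8388 x8392 x8396 x8398 x8400 x8406 x8410 x8414 x8420 x8422 x8424 x8428 x8432 x8434 x8436 x8444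
  x8448 x8452 x8454 x8460 x8464 x8468 x8474 x8476 x8480 x8484 x8492 x8494 x8496 x8500 x8504 x8506
  x8508 x8514 x8518 x8522 x8528 x8530 x8532 x8536 x8540 x8542 x8544 x8552 x8556 x8564 x8566 x8570
  x8574 x8578 x8580 x8586 x8590 x8594 x8596 x8598 x8606 x8610 x8614 x8616 x8622 x8626 x8630 x8636
  x8638 x8642 x8646 x8654 x8656 x8658 x8662 x8666 x8672 x8674 x8678 x8682 x8686 x8688 x8696 x8700
  x8708 x8710 x8712 x8716 x8720 x8722 x8724 x8730 x8734 x8738 x8744 x8746 x8748 x8752 x8756 x8758
  x8760 x8768 x8772 x8776 x8778 x8784 x8788 x8792 x8798 x8800 x8804 x8808 x8816 x8818 x8820 x8824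
  x8828 x8830 x8832 x8838 x8842 x8846 x8852 x8854 x8856 x8860 x8864 x8866 x8868 x8876 x8880 x8888
  x8890 x8894 x8898 x8902 x8904 x8912 x8916 x8924 x8926 x8928 x8932 x8936 x8942 x8944 x8948 x8952
  x8956 x8958 x8964 x8968 x8972 x8974 x8976 x8984 x8988 x8992 x8994 x9000 x9004 x9008 x9014 x9016
  x9018 x9022 x9026 x9028 x9030 x9038 x9042 x9050 x9052 x9056 x9060 x9064 x9066 x9072 x9076 x9080
  x9082 x9084 x9092 x9096 x9100 x9102 x9108 x9112 x9116 x9122 x9124 x9128 x9132 x9140 x9142 x9144
  x9148 x9152 x9158 x9160 x9164 x9168 x9172 x9174 x9182 x9186 x9194 x9196 x9198 x9202 x9206 x9208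
  x9210 x9216 x9220 x9224 x9230 x9232 x9236 x9240 x9248 x9250 x9252 x9256 x9260 x9266 x9268 x9272
  x9276 x9280 x9282 x9288 x9292 x9296 x9298 x9300 x9308 x9312 x9320 x9322 x9326 x9330 x9334 x9336
  x9344 x9348 x9356 x9358 x9360 x9364 x9368 x9370 x9372 x9378 x9382 x9386 x9392 x9394 x9396 x9400
  x9404 x9406 x9408 x9416 x9420 x9424 x9426 x9432 x9436 x9440 x9446 x9448 x9452 x9456 x9464 x9466
  x9468 x9472 x9476 x9478 x9480 x9486 x9490 x9494 x9500 x9502 x9504 x9508 x9512 x9514 x9516 x9524
  x9528 x9536 x9538 x9542 x9546 x9550 x9552 x9558 x9562 x9566 x9568 x9570 x9578 x9582 x9586 x9588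
  x9594 x9598 x9602 x9608 x9610 x9614 x9618 x9626 x9628 x9630 x9634 x9638 x9644 x9646 x9650 x9654
  x9658 x9660 x9668 x9672 x9680 x9682 x9684 x9688 x9692 x9694 x9696 x9702 x9706 x9710 x9716 x9718
  x9720 x9724 x9728 x9730 x9732 x9740 x9744 x9748 x9750 x9756 x9760 x9764 x9770 x9772 x9776 x9780
  x9788 x9790 x9792 x9796 x9800 x9802 x9804 x9810 x9814 x9818 x9824 x9826 x9828 x9832 x9836 x9838
  x9840 x9848 x9852 x9860 x9862 x9866 x9870 x9874 x9876 x9884 x9888 x9896 x9898 x9900 x9904 x9908
  x9914 x9916 x9920 x9924 x9928 x9930 x9936 x9940 x9944 x9946 x9948 x9956 x9960 x9968 x9970 x9974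
  x9978 x9982 x9984 x9992 x9996 x10004 x10006 x10008 x10012 x10016 x10018 x10020 x10026 x10030 x10034 x10040
  x10042 x10046 x10050 x10058 x10060 x10062 x10066 x10070 x10076 x10078 x10082 x10086 x10090 x10092 x10098 x10102
  x10106 x10108 x10110 x10118 x10122 x10126 x10128 x10134 x10138 x10142 x10148 x10150 x10152 x10156 x10160 x10162
  x10164 x10172 x10176 x10184 x10186 x10190 x10194 x10198 x10200 x10208 x10212 x10220 x10222 x10224 x10228 x10232
  x10238 x10240 x10244 x10248 x10252 x10254 x10260 x10264 x10268 x10270 x10272 x10280 x10284 x10292 x10294 x10298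
  x10302 x10306 x10308 x10316 x10320 x10328 x10330 x10332 x10336 x10340 x10342 x10344 x10350 x10354 x10358 x10364
  x10366 x10368 x10372 x10376 x10378 x10380 x10388 x10392 x10396 x10398 x10404 x10408 x10412 x10418 x10420 x10424
  x10428 x10436 x10438 x10440 x10444 x10448 x10454 x10456 x10460 x10464 x10468 x10470 x10478 x10482 x10490 x10492
  x10494 x10498 x10502 x10504 x10506 x10512 x10516 x10520 x10526 x10528 x10532 x10536 x10544 x10546 x10548 x10552
  x10556 x10562 x10564 x10568 x10572 x10576 x10578 x10584 x10588 x10592 x10594 x10596 x10604 x10608 x10612 x10614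
  x10620 x10624 x10628 x10634 x10636 x10638 x10642 x10646 x10648 x10650 x10658 x10662 x10670 x10672 x10676 x10680
  x10684 x10686 x10692 x10696 x10700 x10702 x10704 x10712 x10716 x10720 x10722 x10728 x10732 x10736 x10742 x10744
  x10748 x10752 x10760 x10762 x10764 x10768 x10772 x10774 x10776 x10782 x10786 x10790 x10796 x10798 x10800 x10804
  x10808 x10810 x10812 x10820 x10824 x10832 x10834 x10838 x10842 x10846 x10848 x10856 x10860 x10868 x10870 x10872
  x10876 x10880 x10886 x10888 x10892 x10896 x10900 x10902 x10908 x10912 x10916 x10918 x10920 x10928 x10932 x10940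
  x10942 x10946 x10950 x10954 x10956 x10964 x10968 x10976 x10978 x10980 x10984 x10988 x10990 x10992 x10998 x11002
  x11006 x11012 x11014 x11018 x11022 x11030 x11032 x11034 x11038 x11042 x11048 x11050 x11054 x11058 x11062 x11064
  x11070 x11074 x11078 x11080 x11082 x11090 x11094 x11098 x11100 x11106 x11110 x11114 x11120 x11122 x11124 x11128
  x11132 x11134 x11136 x11144 x11148 x11156 x11158 x11162 x11166 x11170 x11172 x11180 x11184 x11192 x11194 x11196
  x11200 x11204 x11210 x11212 x11216 x11220 x11224 x11226 x11232 x11236 x11240 x11242 x11244 x11252 x11256 x11264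
  x11266 x11270 x11274 x11278 x11280 x11288 x11292 x11300 x11302 x11304 x11308 x11312 x11314 x11316 x11322 x11326
  x11330 x11336 x11338 x11340 x11344 x11348 x11350 x11352 x11360 x11364 x11368 x11370 x11376 x11380 x11384 x11390
  x11392 x11396 x11400 x11408 x11410 x11412 x11416 x11420 x11422 x11424 x11430 x11434 x11438 x11444 x11446 x11448
  x11452 x11456 x11458 x11460 x11468 x11472 x11480 x11482 x11486 x11490 x11494 x11496 x11502 x11506 x11510 x11512
  x11514 x11522 x11526 x11530 x11532 x11538 x11542 x11546 x11552 x11554 x11558 x11562 x11570 x11572 x11574 x11578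
  x11582 x11588 x11590 x11594 x11598 x11602 x11604 x11612 x11616 x11624 x11626 x11628 x11632 x11636 x11638 x11640
  x11646 x11650 x11654 x11660 x11662 x11666 x11670 x11678 x11680 x11682 x11686 x11690 x11696 x11698 x11702 x11706
  x11710 x11712 x11718 x11722 x11726 x11728 x11730 x11738 x11742 x11750 x11752 x11756 x11760 x11764 x11766 x11774
  x11778 x11786 x11788 x11790 x11794 x11798 x11800 x11802 x11808 x11812 x11816 x11822 x11824 x11826 x11830 x11834
  x11836 x11838 x11846 x11850 x11854 x11856 x11862 x11866 x11870 x11876 x11878 x11882 x11886 x11894 x11896 x11898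
  x11902 x11906 x11912 x11914 x11918 x11922 x11926 x11928 x11936 x11940 x11948 x11950 x11952 x11956 x11960 x11962
  x11964 x11970 x11974 x11978 x11984 x11986 x11990 x11994 x12002 x12004 x12006 x12010 x12014 x12020 x12022 x12026
  x12030 x12034 x12036 x12042 x12046 x12050 x12052 x12054 x12062 x12066 x12070 x12072 x12078 x12082 x12086 x12092
  x12094 x12096 x12100 x12104 x12106 x12108 x12116 x12120 x12128 x12130 x12134 x12138 x12142 x12144 x12150 x12154
  x12158 x12160 x12162 x12170 x12174 x12178 x12180 x12186 x12190 x12194 x12200 x12202 x12206 x12210 x12218 x12220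
  x12222 x12226 x12230 x12232 x12234 x12240 x12244 x12248 x12254 x12256 x12258 x12262 x12266 x12268 x12270 x12278
  x12282 x12290 x12292 x12296 x12300 x12304 x12306 x12314 x12318 x12326 x12328 x12330 x12334 x12338 x12344 x12346
  x12350 x12354 x12358 x12360 x12366 x12370 x12374 x12376 x12378 x12386 x12390 x12394 x12396 x12402 x12406 x12410
  x12416 x12418 x12420 x12424 x12428 x12430 x12432 x12440 x12444 x12452 x12454 x12458 x12462 x12466 x12468 x12474
  x12478 x12482 x12484 x12486 x12494 x12498 x12502 x12504 x12510 x12514 x12518 x12524 x12526 x12530 x12534 x12542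
  x12544 x12546 x12550 x12554 x12560 x12562 x12566 x12570 x12574 x12576 x12584 x12588 x12596 x12598 x12600 x12604
  x12608 x12610 x12612 x12618 x12622 x12626 x12632 x12634 x12636 x12640 x12644 x12646 x12648 x12656 x12660 x12664
  x12666 x12672 x12676 x12680 x12686 x12688 x12692 x12696 x12704 x12706 x12708 x12712 x12716 x12718 x12720 x12726
  x12730 x12734 x12740 x12742 x12744 x12748 x12752 x12754 x12756 x12764 x12768 x12776 x12778 x12782 x12786 x12790
  x12792 x12800 x12804 x12812 x12814 x12816 x12820 x12824 x12830 x12832 x12836 x12840 x12844 x12846 x12852 x12856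
  x12860 x12862 x12864 x12872 x12876 x12884 x12886 x12890 x12894 x12898 x12900 x12908 x12912 x12920 x12922 x12924
  x12928 x12932 x12934 x12936 x12942 x12946 x12950 x12956 x12958 x12962 x12966 x12974 x12976 x12978 x12982 x12986
  x12992 x12994 x12998 x13002 x13006 x13008 x13014 x13018 x13022 x13024 x13026 x13034 x13038 x13042 x13044 x13050
  x13054 x13058 x13064 x13066 x13068 x13072 x13076 x13078 x13080 x13088 x13092 x13100 x13102 x13106 x13110 x13114
  x13116 x13124 x13128 x13136 x13138 x13140 x13144 x13148 x13154 x13156 x13160 x13164 x13168 x13170 x13176 x13180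
  x13184 x13186 x13188 x13196 x13200 x13208 x13210 x13214 x13218 x13222 x13224 x13232 x13236 x13244 x13246 x13248
  x13252 x13256 x13258 x13260 x13266 x13270 x13274 x13280 x13282 x13284 x13288 x13292 x13294 x13296 x13304 x13308
  x13312 x13314 x13320 x13324 x13328 x13334 x13336 x13340 x13344 x13352 x13354 x13356 x13360 x13364 x13370 x13372
  x13376 x13380 x13384 x13386 x13394 x13398 x13406 x13408 x13410 x13414 x13418 x13420 x13422 x13428 x13432 x13436
  x13442 x13444 x13448 x13452 x13460 x13462 x13464 x13468 x13472 x13478 x13480 x13484 x13488 x13492 x13494 x13500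
  x13504 x13508 x13510 x13512 x13520 x13524 x13528 x13530 x13536 x13540 x13544 x13550 x13552 x13554 x13558 x13562
  x13564 x13566 x13574 x13578 x13586 x13588 x13592 x13596 x13600 x13602 x13608 x13612 x13616 x13618 x13620 x13628
  x13632 x13636 x13638 x13644 x13648 x13652 x13658 x13660 x13664 x13668 x13676 x13678 x13680 x13684 x13688 x13690
  x13692 x13698 x13702 x13706 x13712 x13714 x13716 x13720 x13724 x13726 x13728 x13736 x13740 x13748 x13750 x13754
  x13758 x13762 x13764 x13772 x13776 x13784 x13786 x13788 x13792 x13796 x13802 x13804 x13808 x13812 x13816 x13818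
  x13824 x13828 x13832 x13834 x13836 x13844 x13848 x13856 x13858 x13862 x13866 x13870 x13872 x13880 x13884 x13892
  x13894 x13896 x13900 x13904 x13906 x13908 x13914 x13918 x13922 x13928 x13930 x13934 x13938 x13946 x13948 x13950
  x13954 x13958 x13964 x13966 x13970 x13974 x13978 x13980 x13986 x13990 x13994 x13996 x13998 x14006 x14010 x14014
  x14016 x14022 x14026 x14030 x14036 x14038 x14040 x14044 x14048 x14050 x14052 x14060 x14064 x14072 x14074 x14078
  x14082 x14086 x14088 x14096 x14100 x14108 x14110 x14112 x14116 x14120 x14126 x14128 x14132 x14136 x14140 x14142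
  x14148 x14152 x14156 x14158 x14160 x14168 x14172 x14180 x14182 x14186 x14190 x14194 x14196 x14204 x14208 x14216
  x14218 x14220 x14224 x14228 x14230 x14232 x14238 x14242 x14246 x14252 x14254 x14256 x14260 x14264 x14266 x14268
  x14276 x14280 x14284 x14286 x14292 x14296 x14300 x14306 x14308 x14312 x14316 x14324 x14326 x14328 x14332 x14336
  x14338 x14340 x14346 x14350 x14354 x14360 x14362 x14364 x14368 x14372 x14374 x14376 x14384 x14388 x14396 x14398
  x14402 x14406 x14410 x14412 x14418 x14422 x14426 x14428 x14430 x14438 x14442 x14446 x14448 x14454 x14458 x14462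
  x14468 x14470 x14474 x14478 x14486 x14488 x14490 x14494 x14498 x14504 x14506 x14510 x14514 x14518 x14520 x14528
  x14532 x14540 x14542 x14544 x14548 x14552 x14554 x14556 x14562 x14566 x14570 x14576 x14578 x14580 x14584 x14588
  x14590 x14592 x14600 x14604 x14608 x14610 x14616 x14620 x14624 x14630 x14632 x14636 x14640 x14648 x14650 x14652
  x14656 x14660 x14662 x14664 x14670 x14674 x14678 x14684 x14686 x14688 x14692 x14696 x14698 x14700 x14708 x14712
  x14720 x14722 x14726 x14730 x14734 x14736 x14744 x14748 x14756 x14758 x14760 x14764 x14768 x14774 x14776 x14780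
  x14784 x14788 x14790 x14796 x14800 x14804 x14806 x14808 x14816 x14820 x14824 x14826 x14832 x14836 x14840 x14846
  x14848 x14850 x14854 x14858 x14860 x14862 x14870 x14874 x14882 x14884 x14888 x14892 x14896 x14898 x14904 x14908
  x14912 x14914 x14916 x14924 x14928 x14932 x14934 x14940 x14944 x14948 x14954 x14956 x14960 x14964 x14972 x14974
  x14976 x14980 x14984 x14990 x14992 x14996 x15000 x15004 x15006 x15014 x15018 x15026 x15028 x15030 x15034 x15038
  x15040 x15042 x15048 x15052 x15056 x15062 x15064 x15068 x15072 x15080 x15082 x15084 x15088 x15092 x15098 x15100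
  x15104 x15108 x15112 x15114 x15120 x15124 x15128 x15130 x15132 x15140 x15144 x15152 x15154 x15158 x15162 x15166
  x15168 x15176 x15180 x15188 x15190 x15192 x15196 x15200 x15202 x15204 x15210 x15214 x15218 x15224 x15226 x15228
  x15232 x15236 x15238 x15240 x15248 x15252 x15256 x15258 x15264 x15268 x15272 x15278 x15280 x15284 x15288 x15296
  x15298 x15300 x15304 x15308 x15314 x15316 x15320 x15324 x15328 x15330 x15338 x15342 x15350 x15352 x15354 x15358
  x15362 x15364 x15366 x15372 x15376 x15380 x15386 x15388 x15392 x15396 x15404 x15406 x15408 x15412 x15416 x15422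
  x15424 x15428 x15432 x15436 x15438 x15444 x15448 x15452 x15454 x15456 x15464 x15468 x15472 x15474 x15480 x15484
  x15488 x15494 x15496 x15498 x15502 x15506 x15508 x15510 x15518 x15522 x15530 x15532 x15536 x15540 x15544 x15546
  x15554 x15558 x15566 x15568 x15570 x15574 x15578 x15584 x15586 x15590 x15594 x15598 x15600 x15606 x15610 x15614
  x15616 x15618 x15626 x15630 x15638 x15640 x15644 x15648 x15652 x15654 x15662 x15666 x15674 x15676 x15678 x15682
  x15686 x15688 x15690 x15696 x15700 x15704 x15710 x15712 x15714 x15718 x15722 x15724 x15726 x15734 x15738 x15742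
  x15744 x15750 x15754 x15758 x15764 x15766 x15770 x15774 x15782 x15784 x15786 x15790 x15794 x15796 x15798 x15804
  x15808 x15812 x15818 x15820 x15822 x15826 x15830 x15832 x15834 x15842 x15846 x15854 x15856 x15860 x15864 x15868
  x15870 x15876 x15880 x15884 x15886 x15888 x15896 x15900 x15904 x15906 x15912 x15916 x15920 x15926 x15928 x15932
  x15936 x15944 x15946 x15948 x15952 x15956 x15962 x15964 x15968 x15972 x15976 x15978 x15986 x15990 x15998 x16000
  x16002 x16006 x16010 x16012 x16014 x16020 x16024 x16028 x16034 x16036 x16040 x16044 x16052 x16054 x16056 x16060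
  x16064 x16070 x16072 x16076 x16080 x16084 x16086 x16092 x16096 x16100 x16102 x16104 x16112 x16116 x16124 x16126
  x16130 x16134 x16138 x16140 x16148 x16152 x16160 x16162 x16164 x16168 x16172 x16174 x16176 x16182 x16186 x16190
  x16196 x16198 x16200 x16204 x16208 x16210 x16212 x16220 x16224 x16228 x16230 x16236 x16240 x16244 x16250 x16252
  x16256 x16260 x16268 x16270 x16272 x16276 x16280 x16286 x16288 x16292 x16296 x16300 x16302 x16310 x16314 x16322
  x16324 x16326 x16330 x16334 x16336 x16338 x16344 x16348 x16352 x16358 x16360 x16364 x16368 x16376 x16378 x16380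
  x16384 x16388 x16394 x16396 x16400 x16404 x16408 x16410 x16416 x16420 x16424 x16426 x16428 x16436 x16440 x16444
  x16446 x16452 x16456 x16460 x16466 x16468 x16470 x16474 x16478 x16480 x16482 x16490 x16494 x16502 x16504 x16508
  x16512 x16516 x16518 x16524 x16528 x16532 x16534 x16536 x16544 x16548 x16552 x16554 x16560 x16564 x16568 x16574
  x16576 x16580 x16584 x16592 x16594 x16596 x16600 x16604 x16606 x16608 x16614 x16618 x16622 x16628 x16630 x16632
  x16636 x16640 x16642 x16644 x16652 x16656 x16664 x16666 x16670 x16674 x16678 x16680 x16688 x16692 x16700 x16702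
  x16704 x16708 x16712 x16718 x16720 x16724 x16728 x16732 x16734 x16740 x16744 x16748 x16750 x16752 x16760 x16764
  x16768 x16770 x16776 x16780 x16784 x16790 x16792 x16794 x16798 x16802 x16804 x16806 x16814 x16818 x16826 x16828
  x16832 x16836 x16840 x16842 x16848 x16852 x16856 x16858 x16860 x16868 x16872 x16876 x16878 x16884 x16888 x16892
  x16898 x16900 x16904 x16908 x16916 x16918 x16920 x16924 x16928 x16934 x16936 x16940 x16944 x16948 x16950 x16958
  x16962 x16970 x16972 x16974 x16978 x16982 x16984 x16986 x16992 x16996 x17000 x17006 x17008 x17010 x17014 x17018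
  x17020 x17022 x17030 x17034 x17038 x17040 x17046 x17050 x17054 x17060 x17062 x17066 x17070 x17078 x17080 x17082
  x17086 x17090 x17092 x17094 x17100 x17104 x17108 x17114 x17116 x17118 x17122 x17126 x17128 x17130 x17138 x17142
  x17150 x17152 x17156 x17160 x17164 x17166 x17174 x17178 x17186 x17188 x17190 x17194 x17198 x17204 x17206 x17210
  x17214 x17218 x17220 x17226 x17230 x17234 x17236 x17238 x17246 x17250 x17258 x17260 x17264 x17268 x17272 x17274
  x17282 x17286 x17294 x17296 x17298 x17302 x17306 x17308 x17310 x17316 x17320 x17324 x17330 x17332 x17336 x17340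
  x17348 x17350 x17352 x17356 x17360 x17366 x17368 x17372 x17376 x17380 x17382 x17388 x17392 x17396 x17398 x17400
  x17408 x17412 x17416 x17418 x17424 x17428 x17432 x17438 x17440 x17442 x17446 x17450 x17452 x17454 x17462 x17466
  x17474 x17476 x17480 x17484 x17488 x17490 x17496 x17500 x17504 x17506 x17508 x17516 x17520 x17524 x17526 x17532
  x17536 x17540 x17546 x17548 x17552 x17556 x17564 x17566 x17568 x17572 x17576 x17578 x17580 x17586 x17590 x17594
  x17600 x17602 x17604 x17608 x17612 x17614 x17616 x17624 x17628 x17636 x17638 x17642 x17646 x17650 x17652 x17660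
  x17664 x17672 x17674 x17676 x17680 x17684 x17690 x17692 x17696 x17700 x17704 x17706 x17712 x17716 x17720 x17722
  x17724 x17732 x17736 x17740 x17742 x17748 x17752 x17756 x17762 x17764 x17766 x17770 x17774 x17776 x17778 x17786
  x17790 x17798 x17800 x17804 x17808 x17812 x17814 x17820 x17824 x17828 x17830 x17832 x17840 x17844 x17848 x17850
  x17856 x17860 x17864 x17870 x17872 x17876 x17880 x17888 x17890 x17892 x17896 x17900 x17906 x17908 x17912 x17916
  x17920 x17922 x17930 x17934 x17942 x17944 x17946 x17950 x17954 x17956 x17958 x17964 x17968 x17972 x17978 x17980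
  x17984 x17988 x17996 x17998 x18000 x18004 x18008 x18014 x18016 x18020 x18024 x18028 x18030 x18036 x18040 x18044
  x18046 x18048 x18056 x18060 x18068 x18070 x18074 x18078 x18082 x18084 x18092 x18096 x18104 x18106 x18108 x18112
  x18116 x18118 x18120 x18126 x18130 x18134 x18140 x18142 x18144 x18148 x18152 x18154 x18156 x18164 x18168 x18172
  x18174 x18180 x18184 x18188 x18194 x18196 x18200 x18204 x18212 x18214 x18216 x18220 x18224 x18226 x18228 x18234
  x18238 x18242 x18248 x18250 x18252 x18256 x18260 x18262 x18264 x18272 x18276 x18284 x18286 x18290 x18294 x18298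
  x18300 x18306 x18310 x18314 x18316 x18318 x18326 x18330 x18334 x18336 x18342 x18346 x18350 x18356 x18358 x18362
  x18366 x18374 x18376 x18378 x18382 x18386 x18392 x18394 x18398 x18402 x18406 x18408 x18416 x18420 x18428 x18430
  x18432 x18436 x18440 x18442 x18444 x18450 x18454 x18458 x18464 x18466 x18468 x18472 x18476 x18478 x18480 x18488
  x18492 x18496 x18498 x18504 x18508 x18512 x18518 x18520 x18524 x18528 x18536 x18538 x18540 x18544 x18548 x18550
  x18552 x18558 x18562 x18566 x18572 x18574 x18576 x18580 x18584 x18586 x18588 x18596 x18600 x18608 x18610 x18614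
  x18618 x18622 x18624 x18632 x18636 x18644 x18646 x18648 x18652 x18656 x18662 x18664 x18668 x18672 x18676 x18678
  x18684 x18688 x18692 x18694 x18696 x18704 x18708 x18716 x18718 x18722 x18726 x18730 x18732 x18740 x18744 x18752
  x18754 x18756 x18760 x18764 x18766 x18768 x18774 x18778 x18782 x18788 x18790 x18794 x18798 x18806 x18808 x18810
  x18814 x18818 x18824 x18826 x18830 x18834 x18838 x18840 x18846 x18850 x18854 x18856 x18858 x18866 x18870 x18874
  x18876 x18882 x18886 x18890 x18896 x18898 x18900 x18904 x18908 x18910 x18912 x18920 x18924 x18932 x18934 x18938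
  x18942 x18946 x18948 x18956 x18960 x18968 x18970 x18972 x18976 x18980 x18986 x18988 x18992 x18996 x19000 x19002
  x19008 x19012 x19016 x19018 x19020 x19028 x19032 x19040 x19042 x19046 x19050 x19054 x19056 x19064 x19068 x19076
  x19078 x19080 x19084 x19088 x19090 x19092 x19098 x19102 x19106 x19112 x19114 x19116 x19120 x19124 x19126 x19128
  x19136 x19140 x19144 x19146 x19152 x19156 x19160 x19166 x19168 x19172 x19176 x19184 x19186 x19188 x19192 x19196
  x19202 x19204 x19208 x19212 x19216 x19218 x19226 x19230 x19238 x19240 x19242 x19246 x19250 x19252 x19254 x19260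
  x19264 x19268 x19274 x19276 x19280 x19284 x19292 x19294 x19296 x19300 x19304 x19310 x19312 x19316 x19320 x19324
  x19326 x19332 x19336 x19340 x19342 x19344 x19352 x19356 x19360 x19362 x19368 x19372 x19376 x19382 x19384 x19386
  x19390 x19394 x19396 x19398 x19406 x19410 x19418 x19420 x19424 x19428 x19432 x19434 x19440 x19444 x19448 x19450
  x19452 x19460 x19464 x19468 x19470 x19476 x19480 x19484 x19490 x19492 x19496 x19500 x19508 x19510 x19512 x19516
  x19520 x19522 x19524 x19530 x19534 x19538 x19544 x19546 x19548 x19552 x19556 x19558 x19560 x19568 x19572 x19580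
  x19582 x19586 x19590 x19594 x19596 x19604 x19608 x19616 x19618 x19620 x19624 x19628 x19634 x19636 x19640 x19644
  x19648 x19650 x19656 x19660 x19664 x19666 x19668 x19676 x19680 =>
  Bool.rec false (k
  (sub (add (add (add (add (add (add (add (add (add (add (add (add (add (add (add (add (add C x4) x8) x12) x24) x36) x72) x108) x216) x324) x648) x972) x1944) x2916) x5832) x8748) x17496) x6562) x13124)
  (sub (add (add (add (add (add (add (add (add (add (add (add (add (sub (add (add C x0) x8) x10) x40) x76) x112) x220) x328) x652) x976) x1948) x2920) x5836) x8752) x17500) x6564)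
  (add (add (add (add (add (add (add (add (add (add (add (add (add (sub (add (add C x0) x4) x20) x44) x80) x116) x224) x332) x656) x980) x1952) x2924) x5840) x8756) x17504) x13128)
  (sub (add (add (add (add (add (add (add (add (add (add (sub (sub (sub C x12) x4) x28) x118) x226) x334) x658) x982) x1954) x2926) x5842) x8758) x17506) x6570)
  (sub (add (add (add (add (add (add (add (add (add (add (add (sub (add (add (sub C x10) x0) x24) x30) x120) x228) x336) x660) x984) x1956) x2928) x5844) x8760) x17508) x6574) x13136)
  (add (add (add (add (add (add (add (add (add (add (add (sub (sub (sub C x24) x8) x56) x128) x236) x344) x668) x992) x1964) x2936) x5852) x8768) x17516) x13140)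
  (sub (add (add (add (add (add (add (add (add (add (add (add (sub (add (add (sub C x20) x0) x12) x60) x132) x240) x348) x672) x996) x1968) x2940) x5856) x8772) x17520) x6586) x13148)
  (sub (add (add (add (add (add (add (add (add (sub (sub (add (add (sub C x30) x40) x52) x10) x82) x352) x676) x1000) x1972) x2944) x5860) x8776) x17524) x6588)
  (sub (add (add (add (add (add (add (add (add (add (sub (sub (sub (sub C x28) x36) x12) x84) x354) x678) x1002) x1974) x2946) x5862) x8778) x17526) x6592) x13154)
  (sub (add (add (add (add (add (add (add (add (add (sub (add (add (sub (add (add C x40) x44) x30) x0) x72) x90) x360) x684) x1008) x1980) x2952) x5868) x8784) x17532) x6598) x13160)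
  (sub (add (add (add (add (add (add (add (add (sub (add (add (add (add (add (add C x36) x44) x28) x52) x4) x76) x94) x364) x688) x1012) x1984) x2956) x5872) x8788) x17536) x6600)
  (add (add (add (add (add (add (add (add (add (sub (add (add (sub (add (add C x36) x40) x50) x8) x80) x98) x368) x692) x1016) x1988) x2960) x5876) x8792) x17540) x13164)
  (add (add (add (add (add (add (add (add (add (sub (sub (sub (sub C x52) x44) x68) x104) x374) x698) x1022) x1994) x2966) x5882) x8798) x17546) x13170)
  (sub (add (add (add (add (add (add (add (add (sub (sub (add (add (sub C x50) x28) x40) x70) x106) x376) x700) x1024) x1996) x2968) x5884) x8800) x17548) x6612)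
  (add (add (add (add (add (add (add (add (add (sub (sub (add (add (sub C x60) x68) x80) x20) x164) x380) x704) x1028) x2000) x2972) x5888) x8804) x17552) x13176)
  (sub (add (add (add (add (add (add (add (add (add (sub (sub (sub (sub C x56) x72) x24) x168) x384) x708) x1032) x2004) x2976) x5892) x8808) x17556) x6622) x13184)
  (add (add (add (add (add (add (add (add (add (sub (sub (add (add (sub C x70) x56) x80) x50) x176) x392) x716) x1040) x2012) x2984) x5900) x8816) x17564) x13188)
  (sub (add (add (add (add (add (add (add (add (sub (sub (sub (sub C x68) x76) x52) x178) x394) x718) x1042) x2014) x2986) x5902) x8818) x17566) x6630)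
  (sub (add (add (add (add (add (add (add (add (add (sub (add (add (sub (add (add C x76) x80) x60) x0) x36) x180) x396) x720) x1044) x2016) x2988) x5904) x8820) x17568) x6634) x13196)
  (sub (add (add (add (add (add (add (add (add (sub (add (add (sub (add (add C x72) x80) x70) x4) x40) x184) x400) x724) x1048) x2020) x2992) x5908) x8824) x17572) x6636)
  (add (add (add (add (add (add (add (add (add (sub (add (add (add (add (add (add C x72) x76) x56) x68) x8) x44) x188) x404) x728) x1052) x2024) x2996) x5912) x8828) x17576) x13200)
  (sub (add (add (add (add (add (add (sub (sub (add (add (add (add (sub C x84) x94) x106) x118) x154) x28) x244) x1054) x2026) x2998) x5914) x8830) x17578) x6642)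
  (sub (add (add (add (add (add (add (add (sub (sub (add (add (sub (sub C x82) x90) x120) x156) x30) x246) x1056) x2028) x3000) x5916) x8832) x17580) x6646) x13208)
  (sub (add (add (add (add (add (add (add (sub (sub (sub (sub (add (add C x94) x98) x84) x108) x36) x252) x1062) x2034) x3006) x5922) x8838) x17586) x6652) x13214)
  (sub (add (add (add (add (add (add (sub (sub (sub (add (add (add (add C x90) x98) x82) x106) x112) x40) x256) x1066) x2038) x3010) x5926) x8842) x17590) x6654)
  (add (add (add (add (add (add (add (sub (sub (sub (sub (add (add C x90) x94) x104) x116) x44) x260) x1070) x2042) x3014) x5930) x8846) x17594) x13218)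
  (add (add (add (add (add (add (add (sub (sub (sub (sub (sub C x106) x98) x140) x50) x266) x1076) x2048) x3020) x5936) x8852) x17600) x13224)
  (sub (add (add (add (add (add (add (sub (sub (sub (add (add (sub C x104) x82) x94) x142) x52) x268) x1078) x2050) x3022) x5938) x8854) x17602) x6666)
  (sub (add (add (add (add (add (add (add (sub (add (add (sub (add (add (add (add C x112) x116) x120) x132) x90) x0) x216) x270) x1080) x2052) x3024) x5940) x8856) x17604) x6670) x13232)
  (sub (add (add (add (add (add (add (sub (add (add (sub (sub (add (add C x108) x116) x118) x94) x4) x220) x274) x1084) x2056) x3028) x5944) x8860) x17608) x6672)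
  (add (add (add (add (add (add (add (sub (add (add (sub (sub (add (add C x108) x112) x128) x98) x8) x224) x278) x1088) x2060) x3032) x5948) x8864) x17612) x13236)
  (sub (add (add (add (add (add (add (sub (add (add (add (add (sub (sub C x120) x112) x82) x154) x10) x226) x280) x1090) x2062) x3034) x5950) x8866) x17614) x6678)
  (sub (add (add (add (add (add (add (add (sub (add (add (add (add (add (add (sub C x118) x108) x132) x84) x156) x12) x228) x282) x1092) x2064) x3036) x5952) x8868) x17616) x6682) x13244)
  (add (add (add (add (add (add (add (sub (add (add (sub (sub (sub C x132) x116) x146) x20) x236) x290) x1100) x2072) x3044) x5960) x8876) x17624) x13248)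
  (sub (add (add (add (add (add (add (add (sub (add (add (sub (add (add (sub C x128) x108) x120) x150) x24) x240) x294) x1104) x2076) x3048) x5964) x8880) x17628) x6694) x13256)
  (add (add (add (add (add (add (add (sub (sub (sub (sub (sub C x142) x146) x104) x194) x302) x1112) x2084) x3056) x5972) x8888) x17636) x13260)
  (sub (add (add (add (add (add (add (sub (sub (sub (sub (sub C x140) x154) x106) x196) x304) x1114) x2086) x3058) x5974) x8890) x17638) x6702)
  (add (add (add (add (add (add (add (sub (sub (sub (sub (sub C x150) x140) x128) x200) x308) x1118) x2090) x3062) x5978) x8894) x17642) x13266)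
  (sub (add (add (add (add (add (add (add (sub (sub (sub (sub (sub C x146) x156) x132) x204) x312) x1122) x2094) x3066) x5982) x8898) x17646) x6712) x13274)
  (sub (add (add (add (add (add (add (sub (sub (add (add (sub (sub C x156) x142) x82) x118) x208) x316) x1126) x2098) x3070) x5986) x8902) x17650) x6714)
  (sub (add (add (add (add (add (add (add (sub (sub (add (add (sub (sub C x154) x150) x84) x120) x210) x318) x1128) x2100) x3072) x5988) x8904) x17652) x6718) x13280)
  (add (add (add (add (add (add (add (sub (sub (add (add (add (add (sub C x168) x176) x188) x200) x236) x56) x488) x1136) x2108) x3080) x5996) x8912) x17660) x13284)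
  (sub (add (add (add (add (add (add (add (sub (sub (add (add (sub (sub C x164) x180) x204) x240) x60) x492) x1140) x2112) x3084) x6000) x8916) x17664) x6730) x13292)
  (add (add (add (add (add (add (add (sub (sub (sub (add (add (sub C x178) x164) x188) x194) x68) x500) x1148) x2120) x3092) x6008) x8924) x17672) x13296)
  (sub (add (add (add (add (add (add (sub (sub (sub (sub (sub C x176) x184) x196) x70) x502) x1150) x2122) x3094) x6010) x8926) x17674) x6738)
  (sub (add (add (add (add (add (add (add (sub (sub (sub (sub (add (add C x184) x188) x168) x216) x72) x504) x1152) x2124) x3096) x6012) x8928) x17676) x6742) x13304)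
  (sub (add (add (add (add (add (add (sub (sub (sub (sub (add (add C x180) x188) x178) x220) x76) x508) x1156) x2128) x3100) x6016) x8932) x17680) x6744)
  (add (add (add (add (add (add (add (sub (sub (sub (add (add (add (add C x180) x184) x164) x176) x224) x80) x512) x1160) x2132) x3104) x6020) x8936) x17684) x13308)
  (add (add (add (add (add (add (add (sub (sub (sub (sub (sub C x196) x200) x176) x140) x518) x1166) x2138) x3110) x6026) x8942) x17690) x13314)
  (sub (add (add (add (add (add (add (sub (sub (sub (sub (sub C x194) x208) x178) x142) x520) x1168) x2140) x3112) x6028) x8944) x17692) x6756)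
  (add (add (add (add (add (add (add (sub (sub (add (add (sub (sub C x204) x194) x164) x236) x146) x524) x1172) x2144) x3116) x6032) x8948) x17696) x13320)
  (sub (add (add (add (add (add (add (add (sub (sub (add (add (sub (sub C x200) x210) x168) x240) x150) x528) x1176) x2148) x3120) x6036) x8952) x17700) x6766) x13328)
  (sub (add (add (add (add (add (add (sub (sub (sub (sub (sub C x210) x196) x226) x154) x532) x1180) x2152) x3124) x6040) x8956) x17704) x6768)
  (sub (add (add (add (add (add (add (add (sub (sub (sub (sub (sub C x208) x204) x228) x156) x534) x1182) x2154) x3126) x6042) x8958) x17706) x6772) x13334)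
  (sub (add (add (add (add (add (add (add (sub (add (add (sub (add (add (add (add C x220) x224) x228) x240) x180) x0) x108) x540) x1188) x2160) x3132) x6048) x8964) x17712) x6778) x13340)
  (sub (add (add (add (add (add (add (sub (add (add (sub (sub (add (add C x216) x224) x226) x184) x4) x112) x544) x1192) x2164) x3136) x6052) x8968) x17716) x6780)
  (add (add (add (add (add (add (add (sub (add (add (sub (sub (add (add C x216) x220) x236) x188) x8) x116) x548) x1196) x2168) x3140) x6056) x8972) x17720) x13344)
  (sub (add (add (add (add (add (add (sub (add (add (sub (sub (sub C x228) x220) x208) x10) x118) x550) x1198) x2170) x3142) x6058) x8974) x17722) x6786)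
  (sub (add (add (add (add (add (add (add (sub (add (add (sub (add (add (sub C x226) x216) x240) x210) x12) x120) x552) x1200) x2172) x3144) x6060) x8976) x17724) x6790) x13352)
  (add (add (add (add (add (add (add (sub (add (add (add (add (sub (sub C x240) x224) x164) x200) x20) x128) x560) x1208) x2180) x3152) x6068) x8984) x17732) x13356)
  (sub (add (add (add (add (add (add (add (sub (add (add (add (add (add (add (sub C x236) x216) x228) x168) x204) x24) x132) x564) x1212) x2184) x3156) x6072) x8988) x17736) x6802) x13364)
  (sub (add (add (add (add (sub (sub (add (add (add (add (add (add (sub C x246) x256) x268) x280) x316) x352) x460) x82) x730) x3160) x6076) x8992) x17740) x6804)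
  (sub (add (add (add (add (add (sub (sub (add (add (add (add (sub (sub C x244) x252) x282) x318) x354) x462) x84) x732) x3162) x6078) x8994) x17742) x6808) x13370)
  (sub (add (add (add (add (add (sub (sub (add (add (sub (sub (add (add C x256) x260) x246) x270) x360) x468) x90) x738) x3168) x6084) x9000) x17748) x6814) x13376)
  (sub (add (add (add (add (sub (sub (add (add (sub (add (add (add (add C x252) x260) x244) x268) x274) x364) x472) x94) x742) x3172) x6088) x9004) x17752) x6816)
  (add (add (add (add (add (sub (sub (add (add (sub (sub (add (add C x252) x256) x266) x278) x368) x476) x98) x746) x3176) x6092) x9008) x17756) x13380)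
  (add (add (add (add (add (sub (sub (add (add (sub (sub (sub C x268) x260) x302) x374) x482) x104) x752) x3182) x6098) x9014) x17762) x13386)
  (sub (add (add (add (add (sub (sub (add (add (sub (add (add (sub C x266) x244) x256) x304) x376) x484) x106) x754) x3184) x6100) x9016) x17764) x6828)
  (sub (add (add (add (add (add (sub (sub (sub (sub (add (add (add (add C x274) x278) x282) x294) x252) x324) x108) x756) x3186) x6102) x9018) x17766) x6832) x13394)
  (sub (add (add (add (add (sub (sub (sub (sub (sub (add (add C x270) x278) x280) x256) x328) x112) x760) x3190) x6106) x9022) x17770) x6834)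
  (add (add (add (add (add (sub (sub (sub (sub (sub (add (add C x270) x274) x290) x260) x332) x116) x764) x3194) x6110) x9026) x17774) x13398)
  (sub (add (add (add (add (sub (sub (sub (add (add (sub (sub C x282) x274) x244) x316) x334) x118) x766) x3196) x6112) x9028) x17776) x6840)
  (sub (add (add (add (add (add (sub (sub (sub (add (add (add (add (sub C x280) x270) x294) x246) x318) x336) x120) x768) x3198) x6114) x9030) x17778) x6844) x13406)
  (add (add (add (add (add (sub (sub (sub (sub (sub (sub C x294) x278) x308) x344) x128) x776) x3206) x6122) x9038) x17786) x13410)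
  (sub (add (add (add (add (add (sub (sub (sub (sub (add (add (sub C x290) x270) x282) x312) x348) x132) x780) x3210) x6126) x9042) x17790) x6856) x13418)
  (add (add (add (add (add (sub (sub (sub (sub (sub (sub C x304) x308) x266) x410) x140) x788) x3218) x6134) x9050) x17798) x13422)
  (sub (add (add (add (add (sub (sub (sub (sub (sub (sub C x302) x316) x268) x412) x142) x790) x3220) x6136) x9052) x17800) x6864)
  (add (add (add (add (add (sub (sub (sub (sub (sub (sub C x312) x302) x290) x416) x146) x794) x3224) x6140) x9056) x17804) x13428)
  (sub (add (add (add (add (add (sub (sub (sub (sub (sub (sub C x308) x318) x294) x420) x150) x798) x3228) x6144) x9060) x17808) x6874) x13436)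
  (sub (add (add (add (add (sub (sub (sub (add (add (sub (sub C x318) x304) x244) x280) x424) x154) x802) x3232) x6148) x9064) x17812) x6876)
  (sub (add (add (add (add (add (sub (sub (sub (add (add (sub (sub C x316) x312) x246) x282) x426) x156) x804) x3234) x6150) x9066) x17814) x6880) x13442)
  (sub (add (add (add (add (add (sub (add (add (sub (add (add (add (add (add (add C x328) x332) x336) x348) x360) x396) x270) x0) x648) x810) x3240) x6156) x9072) x17820) x6886) x13448)
  (sub (add (add (add (add (sub (add (add (sub (add (add (sub (add (add C x324) x332) x334) x364) x400) x274) x4) x652) x814) x3244) x6160) x9076) x17824) x6888)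
  (add (add (add (add (add (sub (add (add (sub (add (add (sub (add (add C x324) x328) x344) x368) x404) x278) x8) x656) x818) x3248) x6164) x9080) x17828) x13452)
  (sub (add (add (add (add (sub (add (add (sub (sub (sub (sub C x336) x328) x352) x280) x10) x658) x820) x3250) x6166) x9082) x17830) x6894)
  (sub (add (add (add (add (add (sub (add (add (sub (sub (add (add (sub C x334) x324) x348) x354) x282) x12) x660) x822) x3252) x6168) x9084) x17832) x6898) x13460)
  (add (add (add (add (add (sub (add (add (sub (sub (sub (sub C x348) x332) x380) x290) x20) x668) x830) x3260) x6176) x9092) x17840) x13464)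
  (sub (add (add (add (add (add (sub (add (add (sub (sub (add (add (sub C x344) x324) x336) x384) x294) x24) x672) x834) x3264) x6180) x9096) x17844) x6910) x13472)
  (sub (add (add (add (add (sub (add (add (add (add (sub (add (add (sub C x354) x364) x376) x334) x244) x460) x28) x676) x838) x3268) x6184) x9100) x17848) x6912)
  (sub (add (add (add (add (add (sub (add (add (add (add (sub (sub (sub C x352) x360) x336) x246) x462) x30) x678) x840) x3270) x6186) x9102) x17850) x6916) x13478)
  (sub (add (add (add (add (add (sub (add (add (add (add (add (add (sub (add (add C x364) x368) x354) x324) x396) x252) x468) x36) x684) x846) x3276) x6192) x9108) x17856) x6922) x13484)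
  (sub (add (add (add (add (sub (add (add (add (add (add (add (add (add (add (add C x360) x368) x352) x376) x328) x400) x256) x472) x40) x688) x850) x3280) x6196) x9112) x17860) x6924)
  (add (add (add (add (add (sub (add (add (add (add (add (add (sub (add (add C x360) x364) x374) x332) x404) x260) x476) x44) x692) x854) x3284) x6200) x9116) x17864) x13488)
  (add (add (add (add (add (sub (add (add (add (add (sub (sub (sub C x376) x368) x392) x266) x482) x50) x698) x860) x3290) x6206) x9122) x17870) x13494)
  (sub (add (add (add (add (sub (add (add (add (add (sub (add (add (sub C x374) x352) x364) x394) x268) x484) x52) x700) x862) x3292) x6208) x9124) x17872) x6936)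
  (add (add (add (add (add (sub (add (add (sub (sub (add (add (sub C x384) x392) x404) x344) x434) x56) x704) x866) x3296) x6212) x9128) x17876) x13500)
  (sub (add (add (add (add (add (sub (add (add (sub (sub (sub (sub C x380) x396) x348) x438) x60) x708) x870) x3300) x6216) x9132) x17880) x6946) x13508)
  (add (add (add (add (add (sub (add (add (sub (sub (add (add (sub C x394) x380) x404) x374) x446) x68) x716) x878) x3308) x6224) x9140) x17888) x13512)
  (sub (add (add (add (add (sub (add (add (sub (sub (sub (sub C x392) x400) x376) x448) x70) x718) x880) x3310) x6226) x9142) x17890) x6954)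
  (sub (add (add (add (add (add (sub (add (add (sub (add (add (sub (add (add C x400) x404) x384) x324) x360) x450) x72) x720) x882) x3312) x6228) x9144) x17892) x6958) x13520)
  (sub (add (add (add (add (sub (add (add (sub (add (add (sub (add (add C x396) x404) x394) x328) x364) x454) x76) x724) x886) x3316) x6232) x9148) x17896) x6960)
  (add (add (add (add (add (sub (add (add (sub (add (add (add (add (add (add C x396) x400) x380) x392) x332) x368) x458) x80) x728) x890) x3320) x6236) x9152) x17900) x13524)
  (add (add (add (add (add (sub (sub (sub (add (add (sub (sub C x412) x416) x446) x482) x302) x572) x896) x3326) x6242) x9158) x17906) x13530)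
  (sub (add (add (add (add (sub (sub (sub (add (add (sub (sub C x410) x424) x448) x484) x304) x574) x898) x3328) x6244) x9160) x17908) x6972)
  (add (add (add (add (add (sub (sub (sub (sub (sub (sub C x420) x410) x434) x308) x578) x902) x3332) x6248) x9164) x17912) x13536)
  (sub (add (add (add (add (add (sub (sub (sub (sub (sub (sub C x416) x426) x438) x312) x582) x906) x3336) x6252) x9168) x17916) x6982) x13544)
  (sub (add (add (add (add (sub (sub (sub (sub (sub (sub C x426) x412) x460) x316) x586) x910) x3340) x6256) x9172) x17920) x6984)
  (sub (add (add (add (add (add (sub (sub (sub (sub (sub (sub C x424) x420) x462) x318) x588) x912) x3342) x6258) x9174) x17922) x6988) x13550)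
  (add (add (add (add (add (sub (sub (sub (sub (add (add (sub C x438) x446) x458) x416) x380) x596) x920) x3350) x6266) x9182) x17930) x13554)
  (sub (add (add (add (add (add (sub (sub (sub (sub (sub (sub C x434) x450) x420) x384) x600) x924) x3354) x6270) x9186) x17934) x7000) x13562)
  (add (add (add (add (add (sub (sub (sub (add (add (add (add (sub C x448) x434) x458) x410) x482) x392) x608) x932) x3362) x6278) x9194) x17942) x13566)
  (sub (add (add (add (add (sub (sub (sub (add (add (sub (sub C x446) x454) x412) x484) x394) x610) x934) x3364) x6280) x9196) x17944) x7008)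
  (sub (add (add (add (add (add (sub (sub (sub (sub (sub (add (add C x454) x458) x438) x468) x396) x612) x936) x3366) x6282) x9198) x17946) x7012) x13574)
  (sub (add (add (add (add (sub (sub (sub (sub (sub (add (add C x450) x458) x448) x472) x400) x616) x940) x3370) x6286) x9202) x17950) x7014)
  (add (add (add (add (add (sub (sub (sub (sub (add (add (add (add C x450) x454) x434) x446) x476) x404) x620) x944) x3374) x6290) x9206) x17954) x13578)
  (sub (add (add (add (add (sub (sub (add (add (sub (add (add (sub C x462) x472) x484) x424) x244) x352) x622) x946) x3376) x6292) x9208) x17956) x7020)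
  (sub (add (add (add (add (add (sub (sub (add (add (sub (sub (sub C x460) x468) x426) x246) x354) x624) x948) x3378) x6294) x9210) x17958) x7024) x13586)
  (sub (add (add (add (add (add (sub (sub (add (add (sub (sub (add (add C x472) x476) x462) x450) x252) x360) x630) x954) x3384) x6300) x9216) x17964) x7030) x13592)
  (sub (add (add (add (add (sub (sub (add (add (sub (add (add (add (add C x468) x476) x460) x484) x454) x256) x364) x634) x958) x3388) x6304) x9220) x17968) x7032)
  (add (add (add (add (add (sub (sub (add (add (sub (sub (add (add C x468) x472) x482) x458) x260) x368) x638) x962) x3392) x6308) x9224) x17972) x13596)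
  (add (add (add (add (add (sub (sub (add (add (add (add (sub (sub C x484) x476) x410) x446) x266) x374) x644) x968) x3398) x6314) x9230) x17978) x13602)
  (sub (add (add (add (add (sub (sub (add (add (add (add (add (add (sub C x482) x460) x472) x412) x448) x268) x376) x646) x970) x3400) x6316) x9232) x17980) x7044)
  (add (add (add (add (add (sub (sub (add (add (add (add (add (add (sub C x492) x500) x512) x524) x560) x596) x704) x164) x1460) x3404) x6320) x9236) x17984) x13608)
  (sub (add (add (add (add (add (sub (sub (add (add (add (add (sub (sub C x488) x504) x528) x564) x600) x708) x168) x1464) x3408) x6324) x9240) x17988) x7054) x13616)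
  (add (add (add (add (add (sub (sub (add (add (sub (add (add (sub C x502) x488) x512) x518) x608) x716) x176) x1472) x3416) x6332) x9248) x17996) x13620)
  (sub (add (add (add (add (sub (sub (add (add (sub (sub (sub C x500) x508) x520) x610) x718) x178) x1474) x3418) x6334) x9250) x17998) x7062)
  (sub (add (add (add (add (add (sub (sub (add (add (sub (sub (add (add C x508) x512) x492) x540) x612) x720) x180) x1476) x3420) x6336) x9252) x18000) x7066) x13628)
  (sub (add (add (add (add (sub (sub (add (add (sub (sub (add (add C x504) x512) x502) x544) x616) x724) x184) x1480) x3424) x6340) x9256) x18004) x7068)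
  (add (add (add (add (add (sub (sub (add (add (sub (add (add (add (add C x504) x508) x488) x500) x548) x620) x728) x188) x1484) x3428) x6344) x9260) x18008) x13632)
  (add (add (add (add (add (sub (sub (sub (sub (sub (sub C x520) x524) x500) x572) x194) x1490) x3434) x6350) x9266) x18014) x13638)
  (sub (add (add (add (add (sub (sub (sub (sub (sub (sub C x518) x532) x502) x574) x196) x1492) x3436) x6352) x9268) x18016) x7080)
  (add (add (add (add (add (sub (sub (sub (add (add (sub (sub C x528) x518) x488) x560) x578) x200) x1496) x3440) x6356) x9272) x18020) x13644)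
  (sub (add (add (add (add (add (sub (sub (sub (add (add (sub (sub C x524) x534) x492) x564) x582) x204) x1500) x3444) x6360) x9276) x18024) x7090) x13652)
  (sub (add (add (add (add (sub (sub (sub (sub (sub (sub C x534) x520) x550) x586) x208) x1504) x3448) x6364) x9280) x18028) x7092)
  (sub (add (add (add (add (add (sub (sub (sub (sub (sub (sub C x532) x528) x552) x588) x210) x1506) x3450) x6366) x9282) x18030) x7096) x13658)
  (sub (add (add (add (add (add (sub (sub (sub (sub (add (add (add (add C x544) x548) x552) x564) x504) x648) x216) x1512) x3456) x6372) x9288) x18036) x7102) x13664)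
  (sub (add (add (add (add (sub (sub (sub (sub (sub (add (add C x540) x548) x550) x508) x652) x220) x1516) x3460) x6376) x9292) x18040) x7104)
  (add (add (add (add (add (sub (sub (sub (sub (sub (add (add C x540) x544) x560) x512) x656) x224) x1520) x3464) x6380) x9296) x18044) x13668)
  (sub (add (add (add (add (sub (sub (sub (sub (sub (sub C x552) x544) x532) x658) x226) x1522) x3466) x6382) x9298) x18046) x7110)
  (sub (add (add (add (add (add (sub (sub (sub (sub (add (add (sub C x550) x540) x564) x534) x660) x228) x1524) x3468) x6384) x9300) x18048) x7114) x13676)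
  (add (add (add (add (add (sub (sub (sub (add (add (sub (sub C x564) x548) x488) x524) x668) x236) x1532) x3476) x6392) x9308) x18056) x13680)
  (sub (add (add (add (add (add (sub (sub (sub (add (add (add (add (sub C x560) x540) x552) x492) x528) x672) x240) x1536) x3480) x6396) x9312) x18060) x7126) x13688)
  (add (add (add (add (add (sub (sub (sub (add (add (sub (sub C x574) x578) x608) x644) x518) x410) x1544) x3488) x6404) x9320) x18068) x13692)
  (sub (add (add (add (add (sub (sub (sub (add (add (sub (sub C x572) x586) x610) x646) x520) x412) x1546) x3490) x6406) x9322) x18070) x7134)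
  (add (add (add (add (add (sub (sub (sub (sub (sub (sub C x582) x572) x596) x524) x416) x1550) x3494) x6410) x9326) x18074) x13698)
  (sub (add (add (add (add (add (sub (sub (sub (sub (sub (sub C x578) x588) x600) x528) x420) x1554) x3498) x6414) x9330) x18078) x7144) x13706)
  (sub (add (add (add (add (sub (sub (sub (sub (sub (sub C x588) x574) x622) x532) x424) x1558) x3502) x6418) x9334) x18082) x7146)
  (sub (add (add (add (add (add (sub (sub (sub (sub (sub (sub C x586) x582) x624) x534) x426) x1560) x3504) x6420) x9336) x18084) x7150) x13712)
  (add (add (add (add (add (sub (sub (add (add (sub (add (add (sub C x600) x608) x620) x578) x488) x704) x434) x1568) x3512) x6428) x9344) x18092) x13716)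
  (sub (add (add (add (add (add (sub (sub (add (add (sub (sub (sub C x596) x612) x582) x492) x708) x438) x1572) x3516) x6432) x9348) x18096) x7162) x13724)
  (add (add (add (add (add (sub (sub (add (add (add (add (add (add (sub C x610) x596) x620) x572) x644) x500) x716) x446) x1580) x3524) x6440) x9356) x18104) x13728)
  (sub (add (add (add (add (sub (sub (add (add (add (add (sub (sub C x608) x616) x574) x646) x502) x718) x448) x1582) x3526) x6442) x9358) x18106) x7170)
  (sub (add (add (add (add (add (sub (sub (add (add (sub (sub (add (add C x616) x620) x600) x630) x504) x720) x450) x1584) x3528) x6444) x9360) x18108) x7174) x13736)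
  (sub (add (add (add (add (sub (sub (add (add (sub (sub (add (add C x612) x620) x610) x634) x508) x724) x454) x1588) x3532) x6448) x9364) x18112) x7176)
  (add (add (add (add (add (sub (sub (add (add (sub (add (add (add (add C x612) x616) x596) x608) x638) x512) x728) x458) x1592) x3536) x6452) x9368) x18116) x13740)
  (sub (add (add (add (add (sub (sub (sub (sub (add (add (sub C x624) x634) x646) x586) x676) x460) x1594) x3538) x6454) x9370) x18118) x7182)
  (sub (add (add (add (add (add (sub (sub (sub (sub (sub (sub C x622) x630) x588) x678) x462) x1596) x3540) x6456) x9372) x18120) x7186) x13748)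
  (sub (add (add (add (add (add (sub (sub (sub (sub (sub (add (add C x634) x638) x624) x612) x684) x468) x1602) x3546) x6462) x9378) x18126) x7192) x13754)
  (sub (add (add (add (add (sub (sub (sub (sub (add (add (add (add C x630) x638) x622) x646) x616) x688) x472) x1606) x3550) x6466) x9382) x18130) x7194)
  (add (add (add (add (add (sub (sub (sub (sub (sub (add (add C x630) x634) x644) x620) x692) x476) x1610) x3554) x6470) x9386) x18134) x13758)
  (add (add (add (add (add (sub (sub (sub (add (add (sub (sub C x646) x638) x572) x608) x698) x482) x1616) x3560) x6476) x9392) x18140) x13764)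
  (sub (add (add (add (add (sub (sub (sub (add (add (add (add (sub C x644) x622) x634) x574) x610) x700) x484) x1618) x3562) x6478) x9394) x18142) x7206)
  (sub (add (add (add (add (add (sub (add (add (sub (add (add (add (add (add (add C x652) x656) x660) x672) x684) x720) x540) x0) x324) x1620) x3564) x6480) x9396) x18144) x7210) x13772)
  (sub (add (add (add (add (sub (add (add (sub (add (add (sub (add (add C x648) x656) x658) x688) x724) x544) x4) x328) x1624) x3568) x6484) x9400) x18148) x7212)
  (add (add (add (add (add (sub (add (add (sub (add (add (sub (add (add C x648) x652) x668) x692) x728) x548) x8) x332) x1628) x3572) x6488) x9404) x18152) x13776)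
  (sub (add (add (add (add (sub (add (add (sub (sub (sub (sub C x660) x652) x676) x550) x10) x334) x1630) x3574) x6490) x9406) x18154) x7218)
  (sub (add (add (add (add (add (sub (add (add (sub (sub (add (add (sub C x658) x648) x672) x678) x552) x12) x336) x1632) x3576) x6492) x9408) x18156) x7222) x13784)
  (add (add (add (add (add (sub (add (add (sub (sub (sub (sub C x672) x656) x704) x560) x20) x344) x1640) x3584) x6500) x9416) x18164) x13788)
  (sub (add (add (add (add (add (sub (add (add (sub (sub (add (add (sub C x668) x648) x660) x708) x564) x24) x348) x1644) x3588) x6504) x9420) x18168) x7234) x13796)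
  (sub (add (add (add (add (sub (add (add (sub (sub (add (add (sub C x678) x688) x700) x658) x622) x28) x352) x1648) x3592) x6508) x9424) x18172) x7236)
  (sub (add (add (add (add (add (sub (add (add (sub (sub (sub (sub C x676) x684) x660) x624) x30) x354) x1650) x3594) x6510) x9426) x18174) x7240) x13802)
  (sub (add (add (add (add (add (sub (add (add (sub (add (add (sub (add (add C x688) x692) x678) x648) x720) x630) x36) x360) x1656) x3600) x6516) x9432) x18180) x7246) x13808)
  (sub (add (add (add (add (sub (add (add (sub (add (add (add (add (add (add C x684) x692) x676) x700) x652) x724) x634) x40) x364) x1660) x3604) x6520) x9436) x18184) x7248)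
  (add (add (add (add (add (sub (add (add (sub (add (add (sub (add (add C x684) x688) x698) x656) x728) x638) x44) x368) x1664) x3608) x6524) x9440) x18188) x13812)
  (add (add (add (add (add (sub (add (add (sub (sub (sub (sub C x700) x692) x716) x644) x50) x374) x1670) x3614) x6530) x9446) x18194) x13818)
  (sub (add (add (add (add (sub (add (add (sub (sub (add (add (sub C x698) x676) x688) x718) x646) x52) x376) x1672) x3616) x6532) x9448) x18196) x7260)
  (add (add (add (add (add (sub (add (add (add (add (sub (add (add (sub C x708) x716) x728) x668) x488) x596) x56) x380) x1676) x3620) x6536) x9452) x18200) x13824)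
  (sub (add (add (add (add (add (sub (add (add (add (add (sub (sub (sub C x704) x720) x672) x492) x600) x60) x384) x1680) x3624) x6540) x9456) x18204) x7270) x13832)
  (add (add (add (add (add (sub (add (add (add (add (sub (add (add (sub C x718) x704) x728) x698) x500) x608) x68) x392) x1688) x3632) x6548) x9464) x18212) x13836)
  (sub (add (add (add (add (sub (add (add (add (add (sub (sub (sub C x716) x724) x700) x502) x610) x70) x394) x1690) x3634) x6550) x9466) x18214) x7278)
  (sub (add (add (add (add (add (sub (add (add (add (add (add (add (sub (add (add C x724) x728) x708) x648) x684) x504) x612) x72) x396) x1692) x3636) x6552) x9468) x18216) x7282) x13844)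
  (sub (add (add (add (add (sub (add (add (add (add (add (add (sub (add (add C x720) x728) x718) x652) x688) x508) x616) x76) x400) x1696) x3640) x6556) x9472) x18220) x7284)
  (add (add (add (add (add (sub (add (add (add (add (add (add (add (add (add (add C x720) x724) x704) x716) x656) x692) x512) x620) x80) x404) x1700) x3644) x6560) x9476) x18224) x13848)
  (sub (add (add (sub (sub (add (add (add (add (add (add (add (add (sub C x732) x742) x754) x766) x802) x838) x946) x1054) x1378) x244) x2188) x9478) x18226) x7290)
  (sub (add (add (add (sub (sub (add (add (add (add (add (add (sub (sub C x730) x738) x768) x804) x840) x948) x1056) x1380) x246) x2190) x9480) x18228) x7294) x13856)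
  (sub (add (add (add (sub (sub (add (add (add (add (sub (sub (add (add C x742) x746) x732) x756) x846) x954) x1062) x1386) x252) x2196) x9486) x18234) x7300) x13862)
  (sub (add (add (sub (sub (add (add (add (add (sub (add (add (add (add C x738) x746) x730) x754) x760) x850) x958) x1066) x1390) x256) x2200) x9490) x18238) x7302)
  (add (add (add (sub (sub (add (add (add (add (sub (sub (add (add C x738) x742) x752) x764) x854) x962) x1070) x1394) x260) x2204) x9494) x18242) x13866)
  (add (add (add (sub (sub (add (add (add (add (sub (sub (sub C x754) x746) x788) x860) x968) x1076) x1400) x266) x2210) x9500) x18248) x13872)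
  (sub (add (add (sub (sub (add (add (add (add (sub (add (add (sub C x752) x730) x742) x790) x862) x970) x1078) x1402) x268) x2212) x9502) x18250) x7314)
  (sub (add (add (add (sub (sub (add (add (sub (sub (add (add (add (add C x760) x764) x768) x780) x738) x810) x1080) x1404) x270) x2214) x9504) x18252) x7318) x13880)
  (sub (add (add (sub (sub (add (add (sub (sub (sub (add (add C x756) x764) x766) x742) x814) x1084) x1408) x274) x2218) x9508) x18256) x7320)
  (add (add (add (sub (sub (add (add (sub (sub (sub (add (add C x756) x760) x776) x746) x818) x1088) x1412) x278) x2222) x9512) x18260) x13884)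
  (sub (add (add (sub (sub (add (add (sub (add (add (sub (sub C x768) x760) x730) x802) x820) x1090) x1414) x280) x2224) x9514) x18262) x7326)
  (sub (add (add (add (sub (sub (add (add (sub (add (add (add (add (sub C x766) x756) x780) x732) x804) x822) x1092) x1416) x282) x2226) x9516) x18264) x7330) x13892)
  (add (add (add (sub (sub (add (add (sub (sub (sub (sub C x780) x764) x794) x830) x1100) x1424) x290) x2234) x9524) x18272) x13896)
  (sub (add (add (add (sub (sub (add (add (sub (sub (add (add (sub C x776) x756) x768) x798) x834) x1104) x1428) x294) x2238) x9528) x18276) x7342) x13904)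
  (add (add (add (sub (sub (add (add (sub (sub (sub (sub C x790) x794) x752) x896) x1112) x1436) x302) x2246) x9536) x18284) x13908)
  (sub (add (add (sub (sub (add (add (sub (sub (sub (sub C x788) x802) x754) x898) x1114) x1438) x304) x2248) x9538) x18286) x7350)
  (add (add (add (sub (sub (add (add (sub (sub (sub (sub C x798) x788) x776) x902) x1118) x1442) x308) x2252) x9542) x18290) x13914)
  (sub (add (add (add (sub (sub (add (add (sub (sub (sub (sub C x794) x804) x780) x906) x1122) x1446) x312) x2256) x9546) x18294) x7360) x13922)
  (sub (add (add (sub (sub (add (add (sub (add (add (sub (sub C x804) x790) x730) x766) x910) x1126) x1450) x316) x2260) x9550) x18298) x7362)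
  (sub (add (add (add (sub (sub (add (add (sub (add (add (sub (sub C x802) x798) x732) x768) x912) x1128) x1452) x318) x2262) x9552) x18300) x7366) x13928)
  (sub (add (add (add (sub (sub (sub (sub (add (add (add (add (add (add C x814) x818) x822) x834) x846) x882) x756) x972) x324) x2268) x9558) x18306) x7372) x13934)
  (sub (add (add (sub (sub (sub (sub (add (add (sub (add (add C x810) x818) x820) x850) x886) x760) x976) x328) x2272) x9562) x18310) x7374)
  (add (add (add (sub (sub (sub (sub (add (add (sub (add (add C x810) x814) x830) x854) x890) x764) x980) x332) x2276) x9566) x18314) x13938)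
  (sub (add (add (sub (sub (sub (sub (sub (sub (sub C x822) x814) x838) x766) x982) x334) x2278) x9568) x18316) x7380)
  (sub (add (add (add (sub (sub (sub (sub (sub (add (add (sub C x820) x810) x834) x840) x768) x984) x336) x2280) x9570) x18318) x7384) x13946)
  (add (add (add (sub (sub (sub (sub (sub (sub (sub C x834) x818) x866) x776) x992) x344) x2288) x9578) x18326) x13950)
  (sub (add (add (add (sub (sub (sub (sub (sub (add (add (sub C x830) x810) x822) x870) x780) x996) x348) x2292) x9582) x18330) x7396) x13958)
  (sub (add (add (sub (sub (sub (add (add (sub (add (add (sub C x840) x850) x862) x820) x730) x946) x1000) x352) x2296) x9586) x18334) x7398)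
  (sub (add (add (add (sub (sub (sub (add (add (sub (sub (sub C x838) x846) x822) x732) x948) x1002) x354) x2298) x9588) x18336) x7402) x13964)
  (sub (add (add (add (sub (sub (sub (add (add (add (add (sub (add (add C x850) x854) x840) x810) x882) x738) x954) x1008) x360) x2304) x9594) x18342) x7408) x13970)
  (sub (add (add (sub (sub (sub (add (add (add (add (add (add (add (add C x846) x854) x838) x862) x814) x886) x742) x958) x1012) x364) x2308) x9598) x18346) x7410)
  (add (add (add (sub (sub (sub (add (add (add (add (sub (add (add C x846) x850) x860) x818) x890) x746) x962) x1016) x368) x2312) x9602) x18350) x13974)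
  (add (add (add (sub (sub (sub (add (add (sub (sub (sub C x862) x854) x878) x752) x968) x1022) x374) x2318) x9608) x18356) x13980)
  (sub (add (add (sub (sub (sub (add (add (sub (add (add (sub C x860) x838) x850) x880) x754) x970) x1024) x376) x2320) x9610) x18358) x7422)
  (add (add (add (sub (sub (sub (sub (sub (add (add (sub C x870) x878) x890) x830) x920) x1028) x380) x2324) x9614) x18362) x13986)
  (sub (add (add (add (sub (sub (sub (sub (sub (sub (sub C x866) x882) x834) x924) x1032) x384) x2328) x9618) x18366) x7432) x13994)
  (add (add (add (sub (sub (sub (sub (sub (add (add (sub C x880) x866) x890) x860) x932) x1040) x392) x2336) x9626) x18374) x13998)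
  (sub (add (add (sub (sub (sub (sub (sub (sub (sub C x878) x886) x862) x934) x1042) x394) x2338) x9628) x18376) x7440)
  (sub (add (add (add (sub (sub (sub (sub (add (add (sub (add (add C x886) x890) x870) x810) x846) x936) x1044) x396) x2340) x9630) x18378) x7444) x14006)
  (sub (add (add (sub (sub (sub (sub (add (add (sub (add (add C x882) x890) x880) x814) x850) x940) x1048) x400) x2344) x9634) x18382) x7446)
  (add (add (add (sub (sub (sub (sub (add (add (add (add (add (add C x882) x886) x866) x878) x818) x854) x944) x1052) x404) x2348) x9638) x18386) x14010)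
  (add (add (add (sub (sub (sub (sub (add (add (sub (sub C x898) x902) x932) x968) x788) x1220) x410) x2354) x9644) x18392) x14016)
  (sub (add (add (sub (sub (sub (sub (add (add (sub (sub C x896) x910) x934) x970) x790) x1222) x412) x2356) x9646) x18394) x7458)
  (add (add (add (sub (sub (sub (sub (sub (sub (sub C x906) x896) x920) x794) x1226) x416) x2360) x9650) x18398) x14022)
  (sub (add (add (add (sub (sub (sub (sub (sub (sub (sub C x902) x912) x924) x798) x1230) x420) x2364) x9654) x18402) x7468) x14030)
  (sub (add (add (sub (sub (sub (sub (sub (sub (sub C x912) x898) x946) x802) x1234) x424) x2368) x9658) x18406) x7470)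
  (sub (add (add (add (sub (sub (sub (sub (sub (sub (sub C x910) x906) x948) x804) x1236) x426) x2370) x9660) x18408) x7474) x14036)
  (add (add (add (sub (sub (sub (sub (sub (add (add (sub C x924) x932) x944) x902) x866) x1244) x434) x2378) x9668) x18416) x14040)
  (sub (add (add (add (sub (sub (sub (sub (sub (sub (sub C x920) x936) x906) x870) x1248) x438) x2382) x9672) x18420) x7486) x14048)
  (add (add (add (sub (sub (sub (sub (add (add (add (add (sub C x934) x920) x944) x896) x968) x878) x1256) x446) x2390) x9680) x18428) x14052)
  (sub (add (add (sub (sub (sub (sub (add (add (sub (sub C x932) x940) x898) x970) x880) x1258) x448) x2392) x9682) x18430) x7494)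
  (sub (add (add (add (sub (sub (sub (sub (sub (sub (add (add C x940) x944) x924) x954) x882) x1260) x450) x2394) x9684) x18432) x7498) x14060)
  (sub (add (add (sub (sub (sub (sub (sub (sub (add (add C x936) x944) x934) x958) x886) x1264) x454) x2398) x9688) x18436) x7500)
  (add (add (add (sub (sub (sub (sub (sub (add (add (add (add C x936) x940) x920) x932) x962) x890) x1268) x458) x2402) x9692) x18440) x14064)
  (sub (add (add (sub (sub (sub (add (add (sub (add (add (sub C x948) x958) x970) x910) x730) x838) x1270) x460) x2404) x9694) x18442) x7506)
  (sub (add (add (add (sub (sub (sub (add (add (sub (sub (sub C x946) x954) x912) x732) x840) x1272) x462) x2406) x9696) x18444) x7510) x14072)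
  (sub (add (add (add (sub (sub (sub (add (add (sub (sub (add (add C x958) x962) x948) x936) x738) x846) x1278) x468) x2412) x9702) x18450) x7516) x14078)
  (sub (add (add (sub (sub (sub (add (add (sub (add (add (add (add C x954) x962) x946) x970) x940) x742) x850) x1282) x472) x2416) x9706) x18454) x7518)
  (add (add (add (sub (sub (sub (add (add (sub (sub (add (add C x954) x958) x968) x944) x746) x854) x1286) x476) x2420) x9710) x18458) x14082)
  (add (add (add (sub (sub (sub (add (add (add (add (sub (sub C x970) x962) x896) x932) x752) x860) x1292) x482) x2426) x9716) x18464) x14088)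
  (sub (add (add (sub (sub (sub (add (add (add (add (add (add (sub C x968) x946) x958) x898) x934) x754) x862) x1294) x484) x2428) x9718) x18466) x7530)
  (sub (add (add (add (sub (add (add (sub (add (add (add (add (add (add (add (add C x976) x980) x984) x996) x1008) x1044) x1080) x1188) x810) x0) x1944) x2430) x9720) x18468) x7534) x14096)
  (sub (add (add (sub (add (add (sub (add (add (add (add (sub (add (add C x972) x980) x982) x1012) x1048) x1084) x1192) x814) x4) x1948) x2434) x9724) x18472) x7536)
  (add (add (add (sub (add (add (sub (add (add (add (add (sub (add (add C x972) x976) x992) x1016) x1052) x1088) x1196) x818) x8) x1952) x2438) x9728) x18476) x14100)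
  (sub (add (add (sub (add (add (sub (add (add (sub (sub (sub C x984) x976) x1000) x1090) x1198) x820) x10) x1954) x2440) x9730) x18478) x7542)
  (sub (add (add (add (sub (add (add (sub (add (add (sub (add (add (sub C x982) x972) x996) x1002) x1092) x1200) x822) x12) x1956) x2442) x9732) x18480) x7546) x14108)
  (add (add (add (sub (add (add (sub (add (add (sub (sub (sub C x996) x980) x1028) x1100) x1208) x830) x20) x1964) x2450) x9740) x18488) x14112)
  (sub (add (add (add (sub (add (add (sub (add (add (sub (add (add (sub C x992) x972) x984) x1032) x1104) x1212) x834) x24) x1968) x2454) x9744) x18492) x7558) x14120)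
  (sub (add (add (sub (add (add (sub (sub (sub (add (add (sub C x1002) x1012) x1024) x982) x1054) x838) x28) x1972) x2458) x9748) x18496) x7560)
  (sub (add (add (add (sub (add (add (sub (sub (sub (sub (sub C x1000) x1008) x984) x1056) x840) x30) x1974) x2460) x9750) x18498) x7564) x14126)
  (sub (add (add (add (sub (add (add (sub (sub (add (add (sub (add (add C x1012) x1016) x1002) x972) x1044) x1062) x846) x36) x1980) x2466) x9756) x18504) x7570) x14132)
  (sub (add (add (sub (add (add (sub (sub (add (add (add (add (add (add C x1008) x1016) x1000) x1024) x976) x1048) x1066) x850) x40) x1984) x2470) x9760) x18508) x7572)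
  (add (add (add (sub (add (add (sub (sub (add (add (sub (add (add C x1008) x1012) x1022) x980) x1052) x1070) x854) x44) x1988) x2474) x9764) x18512) x14136)
  (add (add (add (sub (add (add (sub (sub (sub (sub (sub C x1024) x1016) x1040) x1076) x860) x50) x1994) x2480) x9770) x18518) x14142)
  (sub (add (add (sub (add (add (sub (sub (sub (add (add (sub C x1022) x1000) x1012) x1042) x1078) x862) x52) x1996) x2482) x9772) x18520) x7584)
  (add (add (add (sub (add (add (sub (sub (sub (add (add (sub C x1032) x1040) x1052) x992) x1136) x866) x56) x2000) x2486) x9776) x18524) x14148)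
  (sub (add (add (add (sub (add (add (sub (sub (sub (sub (sub C x1028) x1044) x996) x1140) x870) x60) x2004) x2490) x9780) x18528) x7594) x14156)
  (add (add (add (sub (add (add (sub (sub (sub (add (add (sub C x1042) x1028) x1052) x1022) x1148) x878) x68) x2012) x2498) x9788) x18536) x14160)
  (sub (add (add (sub (add (add (sub (sub (sub (sub (sub C x1040) x1048) x1024) x1150) x880) x70) x2014) x2500) x9790) x18538) x7602)
  (sub (add (add (add (sub (add (add (sub (sub (add (add (sub (add (add C x1048) x1052) x1032) x972) x1008) x1152) x882) x72) x2016) x2502) x9792) x18540) x7606) x14168)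
  (sub (add (add (sub (add (add (sub (sub (add (add (sub (add (add C x1044) x1052) x1042) x976) x1012) x1156) x886) x76) x2020) x2506) x9796) x18544) x7608)
  (add (add (add (sub (add (add (sub (sub (add (add (add (add (add (add C x1044) x1048) x1028) x1040) x980) x1016) x1160) x890) x80) x2024) x2510) x9800) x18548) x14172)
  (sub (add (add (sub (add (add (add (add (sub (add (add (add (add (sub C x1056) x1066) x1078) x1090) x1126) x1000) x730) x1378) x82) x2026) x2512) x9802) x18550) x7614)
  (sub (add (add (add (sub (add (add (add (add (sub (add (add (sub (sub C x1054) x1062) x1092) x1128) x1002) x732) x1380) x84) x2028) x2514) x9804) x18552) x7618) x14180)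
  (sub (add (add (add (sub (add (add (add (add (sub (sub (sub (add (add C x1066) x1070) x1056) x1080) x1008) x738) x1386) x90) x2034) x2520) x9810) x18558) x7624) x14186)
  (sub (add (add (sub (add (add (add (add (sub (sub (add (add (add (add C x1062) x1070) x1054) x1078) x1084) x1012) x742) x1390) x94) x2038) x2524) x9814) x18562) x7626)
  (add (add (add (sub (add (add (add (add (sub (sub (sub (add (add C x1062) x1066) x1076) x1088) x1016) x746) x1394) x98) x2042) x2528) x9818) x18566) x14190)
  (add (add (add (sub (add (add (add (add (sub (sub (sub (sub C x1078) x1070) x1112) x1022) x752) x1400) x104) x2048) x2534) x9824) x18572) x14196)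
  (sub (add (add (sub (add (add (add (add (sub (sub (add (add (sub C x1076) x1054) x1066) x1114) x1024) x754) x1402) x106) x2050) x2536) x9826) x18574) x7638)
  (sub (add (add (add (sub (add (add (add (add (add (add (sub (add (add (add (add C x1084) x1088) x1092) x1104) x1062) x972) x1188) x756) x1404) x108) x2052) x2538) x9828) x18576) x7642) x14204)
  (sub (add (add (sub (add (add (add (add (add (add (sub (sub (add (add C x1080) x1088) x1090) x1066) x976) x1192) x760) x1408) x112) x2056) x2542) x9832) x18580) x7644)
  (add (add (add (sub (add (add (add (add (add (add (sub (sub (add (add C x1080) x1084) x1100) x1070) x980) x1196) x764) x1412) x116) x2060) x2546) x9836) x18584) x14208)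
  (sub (add (add (sub (add (add (add (add (add (add (add (add (sub (sub C x1092) x1084) x1054) x1126) x982) x1198) x766) x1414) x118) x2062) x2548) x9838) x18586) x7650)
  (sub (add (add (add (sub (add (add (add (add (add (add (add (add (add (add (sub C x1090) x1080) x1104) x1056) x1128) x984) x1200) x768) x1416) x120) x2064) x2550) x9840) x18588) x7654) x14216)
  (add (add (add (sub (add (add (add (add (add (add (sub (sub (sub C x1104) x1088) x1118) x992) x1208) x776) x1424) x128) x2072) x2558) x9848) x18596) x14220)
  (sub (add (add (add (sub (add (add (add (add (add (add (sub (add (add (sub C x1100) x1080) x1092) x1122) x996) x1212) x780) x1428) x132) x2076) x2562) x9852) x18600) x7666) x14228)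
  (add (add (add (sub (add (add (add (add (sub (sub (sub (sub C x1114) x1118) x1076) x1166) x788) x1436) x140) x2084) x2570) x9860) x18608) x14232)
  (sub (add (add (sub (add (add (add (add (sub (sub (sub (sub C x1112) x1126) x1078) x1168) x790) x1438) x142) x2086) x2572) x9862) x18610) x7674)
  (add (add (add (sub (add (add (add (add (sub (sub (sub (sub C x1122) x1112) x1100) x1172) x794) x1442) x146) x2090) x2576) x9866) x18614) x14238)
  (sub (add (add (add (sub (add (add (add (add (sub (sub (sub (sub C x1118) x1128) x1104) x1176) x798) x1446) x150) x2094) x2580) x9870) x18618) x7684) x14246)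
  (sub (add (add (sub (add (add (add (add (sub (add (add (sub (sub C x1128) x1114) x1054) x1090) x1180) x802) x1450) x154) x2098) x2584) x9874) x18622) x7686)
  (sub (add (add (add (sub (add (add (add (add (sub (add (add (sub (sub C x1126) x1122) x1056) x1092) x1182) x804) x1452) x156) x2100) x2586) x9876) x18624) x7690) x14252)
  (add (add (add (sub (add (add (sub (sub (add (add (add (add (sub C x1140) x1148) x1160) x1172) x1208) x1028) x1298) x164) x2108) x2594) x9884) x18632) x14256)
  (sub (add (add (add (sub (add (add (sub (sub (add (add (sub (sub C x1136) x1152) x1176) x1212) x1032) x1302) x168) x2112) x2598) x9888) x18636) x7702) x14264)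
  (add (add (add (sub (add (add (sub (sub (sub (add (add (sub C x1150) x1136) x1160) x1166) x1040) x1310) x176) x2120) x2606) x9896) x18644) x14268)
  (sub (add (add (sub (add (add (sub (sub (sub (sub (sub C x1148) x1156) x1168) x1042) x1312) x178) x2122) x2608) x9898) x18646) x7710)
  (sub (add (add (add (sub (add (add (sub (sub (sub (sub (add (add C x1156) x1160) x1140) x1188) x1044) x1314) x180) x2124) x2610) x9900) x18648) x7714) x14276)
  (sub (add (add (sub (add (add (sub (sub (sub (sub (add (add C x1152) x1160) x1150) x1192) x1048) x1318) x184) x2128) x2614) x9904) x18652) x7716)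
  (add (add (add (sub (add (add (sub (sub (sub (add (add (add (add C x1152) x1156) x1136) x1148) x1196) x1052) x1322) x188) x2132) x2618) x9908) x18656) x14280)
  (add (add (add (sub (add (add (sub (sub (sub (sub (sub C x1168) x1172) x1148) x1112) x1328) x194) x2138) x2624) x9914) x18662) x14286)
  (sub (add (add (sub (add (add (sub (sub (sub (sub (sub C x1166) x1180) x1150) x1114) x1330) x196) x2140) x2626) x9916) x18664) x7728)
  (add (add (add (sub (add (add (sub (sub (add (add (sub (sub C x1176) x1166) x1136) x1208) x1118) x1334) x200) x2144) x2630) x9920) x18668) x14292)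
  (sub (add (add (add (sub (add (add (sub (sub (add (add (sub (sub C x1172) x1182) x1140) x1212) x1122) x1338) x204) x2148) x2634) x9924) x18672) x7738) x14300)
  (sub (add (add (sub (add (add (sub (sub (sub (sub (sub C x1182) x1168) x1198) x1126) x1342) x208) x2152) x2638) x9928) x18676) x7740)
  (sub (add (add (add (sub (add (add (sub (sub (sub (sub (sub C x1180) x1176) x1200) x1128) x1344) x210) x2154) x2640) x9930) x18678) x7744) x14306)
  (sub (add (add (add (sub (add (add (sub (add (add (sub (add (add (add (add C x1192) x1196) x1200) x1212) x1152) x972) x1080) x1350) x216) x2160) x2646) x9936) x18684) x7750) x14312)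
  (sub (add (add (sub (add (add (sub (add (add (sub (sub (add (add C x1188) x1196) x1198) x1156) x976) x1084) x1354) x220) x2164) x2650) x9940) x18688) x7752)
  (add (add (add (sub (add (add (sub (add (add (sub (sub (add (add C x1188) x1192) x1208) x1160) x980) x1088) x1358) x224) x2168) x2654) x9944) x18692) x14316)
  (sub (add (add (sub (add (add (sub (add (add (sub (sub (sub C x1200) x1192) x1180) x982) x1090) x1360) x226) x2170) x2656) x9946) x18694) x7758)
  (sub (add (add (add (sub (add (add (sub (add (add (sub (add (add (sub C x1198) x1188) x1212) x1182) x984) x1092) x1362) x228) x2172) x2658) x9948) x18696) x7762) x14324)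
  (add (add (add (sub (add (add (sub (add (add (add (add (sub (sub C x1212) x1196) x1136) x1172) x992) x1100) x1370) x236) x2180) x2666) x9956) x18704) x14328)
  (sub (add (add (add (sub (add (add (sub (add (add (add (add (add (add (sub C x1208) x1188) x1200) x1140) x1176) x996) x1104) x1374) x240) x2184) x2670) x9960) x18708) x7774) x14336)
  (add (add (add (sub (sub (sub (add (add (add (add (sub (sub C x1222) x1226) x1256) x1292) x1328) x1436) x896) x1706) x2678) x9968) x18716) x14340)
  (sub (add (add (sub (sub (sub (add (add (add (add (sub (sub C x1220) x1234) x1258) x1294) x1330) x1438) x898) x1708) x2680) x9970) x18718) x7782)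
  (add (add (add (sub (sub (sub (add (add (sub (sub (sub C x1230) x1220) x1244) x1334) x1442) x902) x1712) x2684) x9974) x18722) x14346)
  (sub (add (add (add (sub (sub (sub (add (add (sub (sub (sub C x1226) x1236) x1248) x1338) x1446) x906) x1716) x2688) x9978) x18726) x7792) x14354)
  (sub (add (add (sub (sub (sub (add (add (sub (sub (sub C x1236) x1222) x1270) x1342) x1450) x910) x1720) x2692) x9982) x18730) x7794)
  (sub (add (add (add (sub (sub (sub (add (add (sub (sub (sub C x1234) x1230) x1272) x1344) x1452) x912) x1722) x2694) x9984) x18732) x7798) x14360)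
  (add (add (add (sub (sub (sub (sub (sub (add (add (sub C x1248) x1256) x1268) x1226) x1298) x920) x1730) x2702) x9992) x18740) x14364)
  (sub (add (add (add (sub (sub (sub (sub (sub (sub (sub C x1244) x1260) x1230) x1302) x924) x1734) x2706) x9996) x18744) x7810) x14372)
  (add (add (add (sub (sub (sub (sub (add (add (add (add (sub C x1258) x1244) x1268) x1220) x1292) x1310) x932) x1742) x2714) x10004) x18752) x14376)
  (sub (add (add (sub (sub (sub (sub (add (add (sub (sub C x1256) x1264) x1222) x1294) x1312) x934) x1744) x2716) x10006) x18754) x7818)
  (sub (add (add (add (sub (sub (sub (sub (sub (sub (add (add C x1264) x1268) x1248) x1278) x1314) x936) x1746) x2718) x10008) x18756) x7822) x14384)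
  (sub (add (add (sub (sub (sub (sub (sub (sub (add (add C x1260) x1268) x1258) x1282) x1318) x940) x1750) x2722) x10012) x18760) x7824)
  (add (add (add (sub (sub (sub (sub (sub (add (add (add (add C x1260) x1264) x1244) x1256) x1286) x1322) x944) x1754) x2726) x10016) x18764) x14388)
  (sub (add (add (sub (sub (sub (sub (sub (add (add (sub C x1272) x1282) x1294) x1234) x1378) x946) x1756) x2728) x10018) x18766) x7830)
  (sub (add (add (add (sub (sub (sub (sub (sub (sub (sub C x1270) x1278) x1236) x1380) x948) x1758) x2730) x10020) x18768) x7834) x14396)
  (sub (add (add (add (sub (sub (sub (sub (sub (sub (add (add C x1282) x1286) x1272) x1260) x1386) x954) x1764) x2736) x10026) x18774) x7840) x14402)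
  (sub (add (add (sub (sub (sub (sub (sub (add (add (add (add C x1278) x1286) x1270) x1294) x1264) x1390) x958) x1768) x2740) x10030) x18778) x7842)
  (add (add (add (sub (sub (sub (sub (sub (sub (add (add C x1278) x1282) x1292) x1268) x1394) x962) x1772) x2744) x10034) x18782) x14406)
  (add (add (add (sub (sub (sub (sub (add (add (sub (sub C x1294) x1286) x1220) x1256) x1400) x968) x1778) x2750) x10040) x18788) x14412)
  (sub (add (add (sub (sub (sub (sub (add (add (add (add (sub C x1292) x1270) x1282) x1222) x1258) x1402) x970) x1780) x2752) x10042) x18790) x7854)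
  (add (add (add (sub (sub (sub (sub (add (add (add (add (sub C x1302) x1310) x1322) x1334) x1370) x1244) x1136) x1784) x2756) x10046) x18794) x14418)
  (sub (add (add (add (sub (sub (sub (sub (add (add (sub (sub C x1298) x1314) x1338) x1374) x1248) x1140) x1788) x2760) x10050) x18798) x7864) x14426)
  (add (add (add (sub (sub (sub (sub (sub (add (add (sub C x1312) x1298) x1322) x1328) x1256) x1148) x1796) x2768) x10058) x18806) x14430)
  (sub (add (add (sub (sub (sub (sub (sub (sub (sub C x1310) x1318) x1330) x1258) x1150) x1798) x2770) x10060) x18808) x7872)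
  (sub (add (add (add (sub (sub (sub (sub (sub (sub (add (add C x1318) x1322) x1302) x1350) x1260) x1152) x1800) x2772) x10062) x18810) x7876) x14438)
  (sub (add (add (sub (sub (sub (sub (sub (sub (add (add C x1314) x1322) x1312) x1354) x1264) x1156) x1804) x2776) x10066) x18814) x7878)
  (add (add (add (sub (sub (sub (sub (sub (add (add (add (add C x1314) x1318) x1298) x1310) x1358) x1268) x1160) x1808) x2780) x10070) x18818) x14442)
  (add (add (add (sub (sub (sub (add (add (sub (sub (sub C x1330) x1334) x1310) x1220) x1436) x1166) x1814) x2786) x10076) x18824) x14448)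
  (sub (add (add (sub (sub (sub (add (add (sub (sub (sub C x1328) x1342) x1312) x1222) x1438) x1168) x1816) x2788) x10078) x18826) x7890)
  (add (add (add (sub (sub (sub (add (add (add (add (sub (sub C x1338) x1328) x1298) x1370) x1226) x1442) x1172) x1820) x2792) x10082) x18830) x14454)
  (sub (add (add (add (sub (sub (sub (add (add (add (add (sub (sub C x1334) x1344) x1302) x1374) x1230) x1446) x1176) x1824) x2796) x10086) x18834) x7900) x14462)
  (sub (add (add (sub (sub (sub (add (add (sub (sub (sub C x1344) x1330) x1360) x1234) x1450) x1180) x1828) x2800) x10090) x18838) x7902)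
  (sub (add (add (add (sub (sub (sub (add (add (sub (sub (sub C x1342) x1338) x1362) x1236) x1452) x1182) x1830) x2802) x10092) x18840) x7906) x14468)
  (sub (add (add (add (sub (sub (sub (sub (sub (add (add (add (add C x1354) x1358) x1362) x1374) x1314) x1404) x1188) x1836) x2808) x10098) x18846) x7912) x14474)
  (sub (add (add (sub (sub (sub (sub (sub (sub (add (add C x1350) x1358) x1360) x1318) x1408) x1192) x1840) x2812) x10102) x18850) x7914)
  (add (add (add (sub (sub (sub (sub (sub (sub (add (add C x1350) x1354) x1370) x1322) x1412) x1196) x1844) x2816) x10106) x18854) x14478)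
  (sub (add (add (sub (sub (sub (sub (sub (sub (sub C x1362) x1354) x1342) x1414) x1198) x1846) x2818) x10108) x18856) x7920)
  (sub (add (add (add (sub (sub (sub (sub (sub (add (add (sub C x1360) x1350) x1374) x1344) x1416) x1200) x1848) x2820) x10110) x18858) x7924) x14486)
  (add (add (add (sub (sub (sub (sub (add (add (sub (sub C x1374) x1358) x1298) x1334) x1424) x1208) x1856) x2828) x10118) x18866) x14490)
  (sub (add (add (add (sub (sub (sub (sub (add (add (add (add (sub C x1370) x1350) x1362) x1302) x1338) x1428) x1212) x1860) x2832) x10122) x18870) x7936) x14498)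
  (sub (add (add (sub (sub (add (add (sub (add (add (add (add (sub C x1380) x1390) x1402) x1414) x1450) x1270) x730) x1054) x1864) x2836) x10126) x18874) x7938)
  (sub (add (add (add (sub (sub (add (add (sub (add (add (sub (sub C x1378) x1386) x1416) x1452) x1272) x732) x1056) x1866) x2838) x10128) x18876) x7942) x14504)
  (sub (add (add (add (sub (sub (add (add (sub (sub (sub (add (add C x1390) x1394) x1380) x1404) x1278) x738) x1062) x1872) x2844) x10134) x18882) x7948) x14510)
  (sub (add (add (sub (sub (add (add (sub (sub (add (add (add (add C x1386) x1394) x1378) x1402) x1408) x1282) x742) x1066) x1876) x2848) x10138) x18886) x7950)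
  (add (add (add (sub (sub (add (add (sub (sub (sub (add (add C x1386) x1390) x1400) x1412) x1286) x746) x1070) x1880) x2852) x10142) x18890) x14514)
  (add (add (add (sub (sub (add (add (sub (sub (sub (sub C x1402) x1394) x1436) x1292) x752) x1076) x1886) x2858) x10148) x18896) x14520)
  (sub (add (add (sub (sub (add (add (sub (sub (add (add (sub C x1400) x1378) x1390) x1438) x1294) x754) x1078) x1888) x2860) x10150) x18898) x7962)
  (sub (add (add (add (sub (sub (add (add (sub (sub (add (add (add (add C x1408) x1412) x1416) x1428) x1386) x1350) x756) x1080) x1890) x2862) x10152) x18900) x7966) x14528)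
  (sub (add (add (sub (sub (add (add (sub (sub (sub (add (add C x1404) x1412) x1414) x1390) x1354) x760) x1084) x1894) x2866) x10156) x18904) x7968)
  (add (add (add (sub (sub (add (add (sub (sub (sub (add (add C x1404) x1408) x1424) x1394) x1358) x764) x1088) x1898) x2870) x10160) x18908) x14532)
  (sub (add (add (sub (sub (add (add (sub (add (add (sub (sub C x1416) x1408) x1378) x1450) x1360) x766) x1090) x1900) x2872) x10162) x18910) x7974)
  (sub (add (add (add (sub (sub (add (add (sub (add (add (add (add (sub C x1414) x1404) x1428) x1380) x1452) x1362) x768) x1092) x1902) x2874) x10164) x18912) x7978) x14540)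
  (add (add (add (sub (sub (add (add (sub (sub (sub (sub C x1428) x1412) x1442) x1370) x776) x1100) x1910) x2882) x10172) x18920) x14544)
  (sub (add (add (add (sub (sub (add (add (sub (sub (add (add (sub C x1424) x1404) x1416) x1446) x1374) x780) x1104) x1914) x2886) x10176) x18924) x7990) x14552)
  (add (add (add (sub (sub (add (add (add (add (sub (sub (sub C x1438) x1442) x1400) x1220) x1328) x788) x1112) x1922) x2894) x10184) x18932) x14556)
  (sub (add (add (sub (sub (add (add (add (add (sub (sub (sub C x1436) x1450) x1402) x1222) x1330) x790) x1114) x1924) x2896) x10186) x18934) x7998)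
  (add (add (add (sub (sub (add (add (add (add (sub (sub (sub C x1446) x1436) x1424) x1226) x1334) x794) x1118) x1928) x2900) x10190) x18938) x14562)
  (sub (add (add (add (sub (sub (add (add (add (add (sub (sub (sub C x1442) x1452) x1428) x1230) x1338) x798) x1122) x1932) x2904) x10194) x18942) x8008) x14570)
  (sub (add (add (sub (sub (add (add (add (add (add (add (sub (sub C x1452) x1438) x1378) x1414) x1234) x1342) x802) x1126) x1936) x2908) x10198) x18946) x8010)
  (sub (add (add (add (sub (sub (add (add (add (add (add (add (sub (sub C x1450) x1446) x1380) x1416) x1236) x1344) x804) x1128) x1938) x2910) x10200) x18948) x8014) x14576)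
  (add (add (add (sub (sub (add (add (add (add (add (add (add (add (sub C x1464) x1472) x1484) x1496) x1532) x1568) x1676) x1784) x2108) x488) x4376) x10208) x18956) x14580)
  (sub (add (add (add (sub (sub (add (add (add (add (add (add (sub (sub C x1460) x1476) x1500) x1536) x1572) x1680) x1788) x2112) x492) x4380) x10212) x18960) x8026) x14588)
  (add (add (add (sub (sub (add (add (add (add (sub (add (add (sub C x1474) x1460) x1484) x1490) x1580) x1688) x1796) x2120) x500) x4388) x10220) x18968) x14592)
  (sub (add (add (sub (sub (add (add (add (add (sub (sub (sub C x1472) x1480) x1492) x1582) x1690) x1798) x2122) x502) x4390) x10222) x18970) x8034)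
  (sub (add (add (add (sub (sub (add (add (add (add (sub (sub (add (add C x1480) x1484) x1464) x1512) x1584) x1692) x1800) x2124) x504) x4392) x10224) x18972) x8038) x14600)
  (sub (add (add (sub (sub (add (add (add (add (sub (sub (add (add C x1476) x1484) x1474) x1516) x1588) x1696) x1804) x2128) x508) x4396) x10228) x18976) x8040)
  (add (add (add (sub (sub (add (add (add (add (sub (add (add (add (add C x1476) x1480) x1460) x1472) x1520) x1592) x1700) x1808) x2132) x512) x4400) x10232) x18980) x14604)
  (add (add (add (sub (sub (add (add (sub (sub (sub (sub C x1492) x1496) x1472) x1544) x1814) x2138) x518) x4406) x10238) x18986) x14610)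
  (sub (add (add (sub (sub (add (add (sub (sub (sub (sub C x1490) x1504) x1474) x1546) x1816) x2140) x520) x4408) x10240) x18988) x8052)
  (add (add (add (sub (sub (add (add (sub (add (add (sub (sub C x1500) x1490) x1460) x1532) x1550) x1820) x2144) x524) x4412) x10244) x18992) x14616)
  (sub (add (add (add (sub (sub (add (add (sub (add (add (sub (sub C x1496) x1506) x1464) x1536) x1554) x1824) x2148) x528) x4416) x10248) x18996) x8062) x14624)
  (sub (add (add (sub (sub (add (add (sub (sub (sub (sub C x1506) x1492) x1522) x1558) x1828) x2152) x532) x4420) x10252) x19000) x8064)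
  (sub (add (add (add (sub (sub (add (add (sub (sub (sub (sub C x1504) x1500) x1524) x1560) x1830) x2154) x534) x4422) x10254) x19002) x8068) x14630)
  (sub (add (add (add (sub (sub (add (add (sub (sub (add (add (add (add C x1516) x1520) x1524) x1536) x1476) x1620) x1836) x2160) x540) x4428) x10260) x19008) x8074) x14636)
  (sub (add (add (sub (sub (add (add (sub (sub (sub (add (add C x1512) x1520) x1522) x1480) x1624) x1840) x2164) x544) x4432) x10264) x19012) x8076)
  (add (add (add (sub (sub (add (add (sub (sub (sub (add (add C x1512) x1516) x1532) x1484) x1628) x1844) x2168) x548) x4436) x10268) x19016) x14640)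
  (sub (add (add (sub (sub (add (add (sub (sub (sub (sub C x1524) x1516) x1504) x1630) x1846) x2170) x550) x4438) x10270) x19018) x8082)
  (sub (add (add (add (sub (sub (add (add (sub (sub (add (add (sub C x1522) x1512) x1536) x1506) x1632) x1848) x2172) x552) x4440) x10272) x19020) x8086) x14648)
  (add (add (add (sub (sub (add (add (sub (add (add (sub (sub C x1536) x1520) x1460) x1496) x1640) x1856) x2180) x560) x4448) x10280) x19028) x14652)
  (sub (add (add (add (sub (sub (add (add (sub (add (add (add (add (sub C x1532) x1512) x1524) x1464) x1500) x1644) x1860) x2184) x564) x4452) x10284) x19032) x8098) x14660)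
  (add (add (add (sub (sub (sub (sub (add (add (sub (sub C x1546) x1550) x1580) x1616) x1490) x1706) x572) x4460) x10292) x19040) x14664)
  (sub (add (add (sub (sub (sub (sub (add (add (sub (sub C x1544) x1558) x1582) x1618) x1492) x1708) x574) x4462) x10294) x19042) x8106)
  (add (add (add (sub (sub (sub (sub (sub (sub (sub C x1554) x1544) x1568) x1496) x1712) x578) x4466) x10298) x19046) x14670)
  (sub (add (add (add (sub (sub (sub (sub (sub (sub (sub C x1550) x1560) x1572) x1500) x1716) x582) x4470) x10302) x19050) x8116) x14678)
  (sub (add (add (sub (sub (sub (sub (sub (sub (sub C x1560) x1546) x1594) x1504) x1720) x586) x4474) x10306) x19054) x8118)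
  (sub (add (add (add (sub (sub (sub (sub (sub (sub (sub C x1558) x1554) x1596) x1506) x1722) x588) x4476) x10308) x19056) x8122) x14684)
  (add (add (add (sub (sub (sub (add (add (sub (add (add (sub C x1572) x1580) x1592) x1550) x1460) x1676) x1730) x596) x4484) x10316) x19064) x14688)
  (sub (add (add (add (sub (sub (sub (add (add (sub (sub (sub C x1568) x1584) x1554) x1464) x1680) x1734) x600) x4488) x10320) x19068) x8134) x14696)
  (add (add (add (sub (sub (sub (add (add (add (add (add (add (sub C x1582) x1568) x1592) x1544) x1616) x1472) x1688) x1742) x608) x4496) x10328) x19076) x14700)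
  (sub (add (add (sub (sub (sub (add (add (add (add (sub (sub C x1580) x1588) x1546) x1618) x1474) x1690) x1744) x610) x4498) x10330) x19078) x8142)
  (sub (add (add (add (sub (sub (sub (add (add (sub (sub (add (add C x1588) x1592) x1572) x1602) x1476) x1692) x1746) x612) x4500) x10332) x19080) x8146) x14708)
  (sub (add (add (sub (sub (sub (add (add (sub (sub (add (add C x1584) x1592) x1582) x1606) x1480) x1696) x1750) x616) x4504) x10336) x19084) x8148)
  (add (add (add (sub (sub (sub (add (add (sub (add (add (add (add C x1584) x1588) x1568) x1580) x1610) x1484) x1700) x1754) x620) x4508) x10340) x19088) x14712)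
  (sub (add (add (sub (sub (sub (sub (sub (add (add (sub C x1596) x1606) x1618) x1558) x1648) x1756) x622) x4510) x10342) x19090) x8154)
  (sub (add (add (add (sub (sub (sub (sub (sub (sub (sub C x1594) x1602) x1560) x1650) x1758) x624) x4512) x10344) x19092) x8158) x14720)
  (sub (add (add (add (sub (sub (sub (sub (sub (sub (add (add C x1606) x1610) x1596) x1584) x1656) x1764) x630) x4518) x10350) x19098) x8164) x14726)
  (sub (add (add (sub (sub (sub (sub (sub (add (add (add (add C x1602) x1610) x1594) x1618) x1588) x1660) x1768) x634) x4522) x10354) x19102) x8166)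
  (add (add (add (sub (sub (sub (sub (sub (sub (add (add C x1602) x1606) x1616) x1592) x1664) x1772) x638) x4526) x10358) x19106) x14730)
  (add (add (add (sub (sub (sub (sub (add (add (sub (sub C x1618) x1610) x1544) x1580) x1670) x1778) x644) x4532) x10364) x19112) x14736)
  (sub (add (add (sub (sub (sub (sub (add (add (add (add (sub C x1616) x1594) x1606) x1546) x1582) x1672) x1780) x646) x4534) x10366) x19114) x8178)
  (sub (add (add (add (sub (sub (sub (sub (add (add (add (add (add (add C x1624) x1628) x1632) x1644) x1656) x1692) x1512) x1944) x648) x4536) x10368) x19116) x8182) x14744)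
  (sub (add (add (sub (sub (sub (sub (add (add (sub (add (add C x1620) x1628) x1630) x1660) x1696) x1516) x1948) x652) x4540) x10372) x19120) x8184)
  (add (add (add (sub (sub (sub (sub (add (add (sub (add (add C x1620) x1624) x1640) x1664) x1700) x1520) x1952) x656) x4544) x10376) x19124) x14748)
  (sub (add (add (sub (sub (sub (sub (sub (sub (sub C x1632) x1624) x1648) x1522) x1954) x658) x4546) x10378) x19126) x8190)
  (sub (add (add (add (sub (sub (sub (sub (sub (add (add (sub C x1630) x1620) x1644) x1650) x1524) x1956) x660) x4548) x10380) x19128) x8194) x14756)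
  (add (add (add (sub (sub (sub (sub (sub (sub (sub C x1644) x1628) x1676) x1532) x1964) x668) x4556) x10388) x19136) x14760)
  (sub (add (add (add (sub (sub (sub (sub (sub (add (add (sub C x1640) x1620) x1632) x1680) x1536) x1968) x672) x4560) x10392) x19140) x8206) x14768)
  (sub (add (add (sub (sub (sub (sub (sub (add (add (sub C x1650) x1660) x1672) x1630) x1594) x1972) x676) x4564) x10396) x19144) x8208)
  (sub (add (add (add (sub (sub (sub (sub (sub (sub (sub C x1648) x1656) x1632) x1596) x1974) x678) x4566) x10398) x19146) x8212) x14774)
  (sub (add (add (add (sub (sub (sub (sub (add (add (sub (add (add C x1660) x1664) x1650) x1620) x1692) x1602) x1980) x684) x4572) x10404) x19152) x8218) x14780)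
  (sub (add (add (sub (sub (sub (sub (add (add (add (add (add (add C x1656) x1664) x1648) x1672) x1624) x1696) x1606) x1984) x688) x4576) x10408) x19156) x8220)
  (add (add (add (sub (sub (sub (sub (add (add (sub (add (add C x1656) x1660) x1670) x1628) x1700) x1610) x1988) x692) x4580) x10412) x19160) x14784)
  (add (add (add (sub (sub (sub (sub (sub (sub (sub C x1672) x1664) x1688) x1616) x1994) x698) x4586) x10418) x19166) x14790)
  (sub (add (add (sub (sub (sub (sub (sub (add (add (sub C x1670) x1648) x1660) x1690) x1618) x1996) x700) x4588) x10420) x19168) x8232)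
  (add (add (add (sub (sub (sub (add (add (sub (add (add (sub C x1680) x1688) x1700) x1640) x1460) x1568) x2000) x704) x4592) x10424) x19172) x14796)
  (sub (add (add (add (sub (sub (sub (add (add (sub (sub (sub C x1676) x1692) x1644) x1464) x1572) x2004) x708) x4596) x10428) x19176) x8242) x14804)
  (add (add (add (sub (sub (sub (add (add (sub (add (add (sub C x1690) x1676) x1700) x1670) x1472) x1580) x2012) x716) x4604) x10436) x19184) x14808)
  (sub (add (add (sub (sub (sub (add (add (sub (sub (sub C x1688) x1696) x1672) x1474) x1582) x2014) x718) x4606) x10438) x19186) x8250)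
  (sub (add (add (add (sub (sub (sub (add (add (add (add (sub (add (add C x1696) x1700) x1680) x1620) x1656) x1476) x1584) x2016) x720) x4608) x10440) x19188) x8254) x14816)
  (sub (add (add (sub (sub (sub (add (add (add (add (sub (add (add C x1692) x1700) x1690) x1624) x1660) x1480) x1588) x2020) x724) x4612) x10444) x19192) x8256)
  (add (add (add (sub (sub (sub (add (add (add (add (add (add (add (add C x1692) x1696) x1676) x1688) x1628) x1664) x1484) x1592) x2024) x728) x4616) x10448) x19196) x14820)
  (add (add (add (sub (sub (sub (add (add (add (add (sub (sub C x1708) x1712) x1742) x1778) x1814) x1922) x1544) x1220) x4622) x10454) x19202) x14826)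
  (sub (add (add (sub (sub (sub (add (add (add (add (sub (sub C x1706) x1720) x1744) x1780) x1816) x1924) x1546) x1222) x4624) x10456) x19204) x8268)
  (add (add (add (sub (sub (sub (add (add (sub (sub (sub C x1716) x1706) x1730) x1820) x1928) x1550) x1226) x4628) x10460) x19208) x14832)
  (sub (add (add (add (sub (sub (sub (add (add (sub (sub (sub C x1712) x1722) x1734) x1824) x1932) x1554) x1230) x4632) x10464) x19212) x8278) x14840)
  (sub (add (add (sub (sub (sub (add (add (sub (sub (sub C x1722) x1708) x1756) x1828) x1936) x1558) x1234) x4636) x10468) x19216) x8280)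
  (sub (add (add (add (sub (sub (sub (add (add (sub (sub (sub C x1720) x1716) x1758) x1830) x1938) x1560) x1236) x4638) x10470) x19218) x8284) x14846)
  (add (add (add (sub (sub (sub (sub (sub (add (add (sub C x1734) x1742) x1754) x1712) x1784) x1568) x1244) x4646) x10478) x19226) x14850)
  (sub (add (add (add (sub (sub (sub (sub (sub (sub (sub C x1730) x1746) x1716) x1788) x1572) x1248) x4650) x10482) x19230) x8296) x14858)
  (add (add (add (sub (sub (sub (sub (add (add (add (add (sub C x1744) x1730) x1754) x1706) x1778) x1796) x1580) x1256) x4658) x10490) x19238) x14862)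
  (sub (add (add (sub (sub (sub (sub (add (add (sub (sub C x1742) x1750) x1708) x1780) x1798) x1582) x1258) x4660) x10492) x19240) x8304)
  (sub (add (add (add (sub (sub (sub (sub (sub (sub (add (add C x1750) x1754) x1734) x1764) x1800) x1584) x1260) x4662) x10494) x19242) x8308) x14870)
  (sub (add (add (sub (sub (sub (sub (sub (sub (add (add C x1746) x1754) x1744) x1768) x1804) x1588) x1264) x4666) x10498) x19246) x8310)
  (add (add (add (sub (sub (sub (sub (sub (add (add (add (add C x1746) x1750) x1730) x1742) x1772) x1808) x1592) x1268) x4670) x10502) x19250) x14874)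
  (sub (add (add (sub (sub (sub (sub (sub (add (add (sub C x1758) x1768) x1780) x1720) x1864) x1594) x1270) x4672) x10504) x19252) x8316)
  (sub (add (add (add (sub (sub (sub (sub (sub (sub (sub C x1756) x1764) x1722) x1866) x1596) x1272) x4674) x10506) x19254) x8320) x14882)
  (sub (add (add (add (sub (sub (sub (sub (sub (sub (add (add C x1768) x1772) x1758) x1746) x1872) x1602) x1278) x4680) x10512) x19260) x8326) x14888)
  (sub (add (add (sub (sub (sub (sub (sub (add (add (add (add C x1764) x1772) x1756) x1780) x1750) x1876) x1606) x1282) x4684) x10516) x19264) x8328)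
  (add (add (add (sub (sub (sub (sub (sub (sub (add (add C x1764) x1768) x1778) x1754) x1880) x1610) x1286) x4688) x10520) x19268) x14892)
  (add (add (add (sub (sub (sub (sub (add (add (sub (sub C x1780) x1772) x1706) x1742) x1886) x1616) x1292) x4694) x10526) x19274) x14898)
  (sub (add (add (sub (sub (sub (sub (add (add (add (add (sub C x1778) x1756) x1768) x1708) x1744) x1888) x1618) x1294) x4696) x10528) x19276) x8340)
  (add (add (add (sub (sub (add (add (sub (add (add (add (add (sub C x1788) x1796) x1808) x1820) x1856) x1730) x1460) x2108) x1298) x4700) x10532) x19280) x14904)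
  (sub (add (add (add (sub (sub (add (add (sub (add (add (sub (sub C x1784) x1800) x1824) x1860) x1734) x1464) x2112) x1302) x4704) x10536) x19284) x8350) x14912)
  (add (add (add (sub (sub (add (add (sub (sub (add (add (sub C x1798) x1784) x1808) x1814) x1742) x1472) x2120) x1310) x4712) x10544) x19292) x14916)
  (sub (add (add (sub (sub (add (add (sub (sub (sub (sub C x1796) x1804) x1816) x1744) x1474) x2122) x1312) x4714) x10546) x19294) x8358)
  (sub (add (add (add (sub (sub (add (add (sub (sub (sub (add (add C x1804) x1808) x1788) x1836) x1746) x1476) x2124) x1314) x4716) x10548) x19296) x8362) x14924)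
  (sub (add (add (sub (sub (add (add (sub (sub (sub (add (add C x1800) x1808) x1798) x1840) x1750) x1480) x2128) x1318) x4720) x10552) x19300) x8364)
  (add (add (add (sub (sub (add (add (sub (sub (add (add (add (add C x1800) x1804) x1784) x1796) x1844) x1754) x1484) x2132) x1322) x4724) x10556) x19304) x14928)
  (add (add (add (sub (sub (add (add (add (add (sub (sub (sub C x1816) x1820) x1796) x1706) x1922) x1490) x2138) x1328) x4730) x10562) x19310) x14934)
  (sub (add (add (sub (sub (add (add (add (add (sub (sub (sub C x1814) x1828) x1798) x1708) x1924) x1492) x2140) x1330) x4732) x10564) x19312) x8376)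
  (add (add (add (sub (sub (add (add (add (add (add (add (sub (sub C x1824) x1814) x1784) x1856) x1712) x1928) x1496) x2144) x1334) x4736) x10568) x19316) x14940)
  (sub (add (add (add (sub (sub (add (add (add (add (add (add (sub (sub C x1820) x1830) x1788) x1860) x1716) x1932) x1500) x2148) x1338) x4740) x10572) x19320) x8386) x14948)
  (sub (add (add (sub (sub (add (add (add (add (sub (sub (sub C x1830) x1816) x1846) x1720) x1936) x1504) x2152) x1342) x4744) x10576) x19324) x8388)
  (sub (add (add (add (sub (sub (add (add (add (add (sub (sub (sub C x1828) x1824) x1848) x1722) x1938) x1506) x2154) x1344) x4746) x10578) x19326) x8392) x14954)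
  (sub (add (add (add (sub (sub (add (add (sub (sub (add (add (add (add C x1840) x1844) x1848) x1860) x1800) x1890) x1512) x2160) x1350) x4752) x10584) x19332) x8398) x14960)
  (sub (add (add (sub (sub (add (add (sub (sub (sub (add (add C x1836) x1844) x1846) x1804) x1894) x1516) x2164) x1354) x4756) x10588) x19336) x8400)
  (add (add (add (sub (sub (add (add (sub (sub (sub (add (add C x1836) x1840) x1856) x1808) x1898) x1520) x2168) x1358) x4760) x10592) x19340) x14964)
  (sub (add (add (sub (sub (add (add (sub (sub (sub (sub C x1848) x1840) x1828) x1900) x1522) x2170) x1360) x4762) x10594) x19342) x8406)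
  (sub (add (add (add (sub (sub (add (add (sub (sub (add (add (sub C x1846) x1836) x1860) x1830) x1902) x1524) x2172) x1362) x4764) x10596) x19344) x8410) x14972)
  (add (add (add (sub (sub (add (add (sub (add (add (sub (sub C x1860) x1844) x1784) x1820) x1910) x1532) x2180) x1370) x4772) x10604) x19352) x14976)
  (sub (add (add (add (sub (sub (add (add (sub (add (add (add (add (sub C x1856) x1836) x1848) x1788) x1824) x1914) x1536) x2184) x1374) x4776) x10608) x19356) x8422) x14984)
  (sub (add (add (sub (sub (sub (sub (add (add (add (add (sub C x1866) x1876) x1888) x1900) x1936) x1756) x2026) x1378) x4780) x10612) x19360) x8424)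
  (sub (add (add (add (sub (sub (sub (sub (add (add (sub (sub C x1864) x1872) x1902) x1938) x1758) x2028) x1380) x4782) x10614) x19362) x8428) x14990)
  (sub (add (add (add (sub (sub (sub (sub (sub (sub (add (add C x1876) x1880) x1866) x1890) x1764) x2034) x1386) x4788) x10620) x19368) x8434) x14996)
  (sub (add (add (sub (sub (sub (sub (sub (add (add (add (add C x1872) x1880) x1864) x1888) x1894) x1768) x2038) x1390) x4792) x10624) x19372) x8436)
  (add (add (add (sub (sub (sub (sub (sub (sub (add (add C x1872) x1876) x1886) x1898) x1772) x2042) x1394) x4796) x10628) x19376) x15000)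
  (add (add (add (sub (sub (sub (sub (sub (sub (sub C x1888) x1880) x1922) x1778) x2048) x1400) x4802) x10634) x19382) x15006)
  (sub (add (add (sub (sub (sub (sub (sub (add (add (sub C x1886) x1864) x1876) x1924) x1780) x2050) x1402) x4804) x10636) x19384) x8448)
  (sub (add (add (add (sub (sub (sub (sub (sub (add (add (add (add C x1894) x1898) x1902) x1914) x1872) x1836) x2052) x1404) x4806) x10638) x19386) x8452) x15014)
  (sub (add (add (sub (sub (sub (sub (sub (sub (add (add C x1890) x1898) x1900) x1876) x1840) x2056) x1408) x4810) x10642) x19390) x8454)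
  (add (add (add (sub (sub (sub (sub (sub (sub (add (add C x1890) x1894) x1910) x1880) x1844) x2060) x1412) x4814) x10646) x19394) x15018)
  (sub (add (add (sub (sub (sub (sub (add (add (sub (sub C x1902) x1894) x1864) x1936) x1846) x2062) x1414) x4816) x10648) x19396) x8460)
  (sub (add (add (add (sub (sub (sub (sub (add (add (add (add (sub C x1900) x1890) x1914) x1866) x1938) x1848) x2064) x1416) x4818) x10650) x19398) x8464) x15026)
  (add (add (add (sub (sub (sub (sub (sub (sub (sub C x1914) x1898) x1928) x1856) x2072) x1424) x4826) x10658) x19406) x15030)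
  (sub (add (add (add (sub (sub (sub (sub (sub (add (add (sub C x1910) x1890) x1902) x1932) x1860) x2076) x1428) x4830) x10662) x19410) x8476) x15038)
  (add (add (add (sub (sub (sub (add (add (sub (sub (sub C x1924) x1928) x1886) x1706) x1814) x2084) x1436) x4838) x10670) x19418) x15042)
  (sub (add (add (sub (sub (sub (add (add (sub (sub (sub C x1922) x1936) x1888) x1708) x1816) x2086) x1438) x4840) x10672) x19420) x8484)
  (add (add (add (sub (sub (sub (add (add (sub (sub (sub C x1932) x1922) x1910) x1712) x1820) x2090) x1442) x4844) x10676) x19424) x15048)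
  (sub (add (add (add (sub (sub (sub (add (add (sub (sub (sub C x1928) x1938) x1914) x1716) x1824) x2094) x1446) x4848) x10680) x19428) x8494) x15056)
  (sub (add (add (sub (sub (sub (add (add (add (add (sub (sub C x1938) x1924) x1864) x1900) x1720) x1828) x2098) x1450) x4852) x10684) x19432) x8496)
  (sub (add (add (add (sub (sub (sub (add (add (add (add (sub (sub C x1936) x1932) x1866) x1902) x1722) x1830) x2100) x1452) x4854) x10686) x19434) x8500) x15062)
  (sub (add (add (add (sub (add (add (sub (add (add (add (add (add (add (add (add C x1948) x1952) x1956) x1968) x1980) x2016) x2052) x2160) x1620) x0) x972) x4860) x10692) x19440) x8506) x15068)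
  (sub (add (add (sub (add (add (sub (add (add (add (add (sub (add (add C x1944) x1952) x1954) x1984) x2020) x2056) x2164) x1624) x4) x976) x4864) x10696) x19444) x8508)
  (add (add (add (sub (add (add (sub (add (add (add (add (sub (add (add C x1944) x1948) x1964) x1988) x2024) x2060) x2168) x1628) x8) x980) x4868) x10700) x19448) x15072)
  (sub (add (add (sub (add (add (sub (add (add (sub (sub (sub C x1956) x1948) x1972) x2062) x2170) x1630) x10) x982) x4870) x10702) x19450) x8514)
  (sub (add (add (add (sub (add (add (sub (add (add (sub (add (add (sub C x1954) x1944) x1968) x1974) x2064) x2172) x1632) x12) x984) x4872) x10704) x19452) x8518) x15080)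
  (add (add (add (sub (add (add (sub (add (add (sub (sub (sub C x1968) x1952) x2000) x2072) x2180) x1640) x20) x992) x4880) x10712) x19460) x15084)
  (sub (add (add (add (sub (add (add (sub (add (add (sub (add (add (sub C x1964) x1944) x1956) x2004) x2076) x2184) x1644) x24) x996) x4884) x10716) x19464) x8530) x15092)
  (sub (add (add (sub (add (add (sub (sub (sub (add (add (sub C x1974) x1984) x1996) x1954) x2026) x1648) x28) x1000) x4888) x10720) x19468) x8532)
  (sub (add (add (add (sub (add (add (sub (sub (sub (sub (sub C x1972) x1980) x1956) x2028) x1650) x30) x1002) x4890) x10722) x19470) x8536) x15098)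
  (sub (add (add (add (sub (add (add (sub (sub (add (add (sub (add (add C x1984) x1988) x1974) x1944) x2016) x2034) x1656) x36) x1008) x4896) x10728) x19476) x8542) x15104)
  (sub (add (add (sub (add (add (sub (sub (add (add (add (add (add (add C x1980) x1988) x1972) x1996) x1948) x2020) x2038) x1660) x40) x1012) x4900) x10732) x19480) x8544)
  (add (add (add (sub (add (add (sub (sub (add (add (sub (add (add C x1980) x1984) x1994) x1952) x2024) x2042) x1664) x44) x1016) x4904) x10736) x19484) x15108)
  (add (add (add (sub (add (add (sub (sub (sub (sub (sub C x1996) x1988) x2012) x2048) x1670) x50) x1022) x4910) x10742) x19490) x15114)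
  (sub (add (add (sub (add (add (sub (sub (sub (add (add (sub C x1994) x1972) x1984) x2014) x2050) x1672) x52) x1024) x4912) x10744) x19492) x8556)
  (add (add (add (sub (add (add (sub (sub (sub (add (add (sub C x2004) x2012) x2024) x1964) x2108) x1676) x56) x1028) x4916) x10748) x19496) x15120)
  (sub (add (add (add (sub (add (add (sub (sub (sub (sub (sub C x2000) x2016) x1968) x2112) x1680) x60) x1032) x4920) x10752) x19500) x8566) x15128)
  (add (add (add (sub (add (add (sub (sub (sub (add (add (sub C x2014) x2000) x2024) x1994) x2120) x1688) x68) x1040) x4928) x10760) x19508) x15132)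
  (sub (add (add (sub (add (add (sub (sub (sub (sub (sub C x2012) x2020) x1996) x2122) x1690) x70) x1042) x4930) x10762) x19510) x8574)
  (sub (add (add (add (sub (add (add (sub (sub (add (add (sub (add (add C x2020) x2024) x2004) x1944) x1980) x2124) x1692) x72) x1044) x4932) x10764) x19512) x8578) x15140)
  (sub (add (add (sub (add (add (sub (sub (add (add (sub (add (add C x2016) x2024) x2014) x1948) x1984) x2128) x1696) x76) x1048) x4936) x10768) x19516) x8580)
  (add (add (add (sub (add (add (sub (sub (add (add (add (add (add (add C x2016) x2020) x2000) x2012) x1952) x1988) x2132) x1700) x80) x1052) x4940) x10772) x19520) x15144)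
  (sub (add (add (sub (add (add (sub (sub (add (add (add (add (sub C x2028) x2038) x2050) x2062) x2098) x1972) x1864) x82) x1054) x4942) x10774) x19522) x8586)
  (sub (add (add (add (sub (add (add (sub (sub (add (add (sub (sub C x2026) x2034) x2064) x2100) x1974) x1866) x84) x1056) x4944) x10776) x19524) x8590) x15152)
  (sub (add (add (add (sub (add (add (sub (sub (sub (sub (add (add C x2038) x2042) x2028) x2052) x1980) x1872) x90) x1062) x4950) x10782) x19530) x8596) x15158)
  (sub (add (add (sub (add (add (sub (sub (sub (add (add (add (add C x2034) x2042) x2026) x2050) x2056) x1984) x1876) x94) x1066) x4954) x10786) x19534) x8598)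
  (add (add (add (sub (add (add (sub (sub (sub (sub (add (add C x2034) x2038) x2048) x2060) x1988) x1880) x98) x1070) x4958) x10790) x19538) x15162)
  (add (add (add (sub (add (add (sub (sub (sub (sub (sub C x2050) x2042) x2084) x1994) x1886) x104) x1076) x4964) x10796) x19544) x15168)
  (sub (add (add (sub (add (add (sub (sub (sub (add (add (sub C x2048) x2026) x2038) x2086) x1996) x1888) x106) x1078) x4966) x10798) x19546) x8610)
  (sub (add (add (add (sub (add (add (sub (add (add (sub (add (add (add (add C x2056) x2060) x2064) x2076) x2034) x1944) x2160) x1890) x108) x1080) x4968) x10800) x19548) x8614) x15176)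
  (sub (add (add (sub (add (add (sub (add (add (sub (sub (add (add C x2052) x2060) x2062) x2038) x1948) x2164) x1894) x112) x1084) x4972) x10804) x19552) x8616)
  (add (add (add (sub (add (add (sub (add (add (sub (sub (add (add C x2052) x2056) x2072) x2042) x1952) x2168) x1898) x116) x1088) x4976) x10808) x19556) x15180)
  (sub (add (add (sub (add (add (sub (add (add (add (add (sub (sub C x2064) x2056) x2026) x2098) x1954) x2170) x1900) x118) x1090) x4978) x10810) x19558) x8622)
  (sub (add (add (add (sub (add (add (sub (add (add (add (add (add (add (sub C x2062) x2052) x2076) x2028) x2100) x1956) x2172) x1902) x120) x1092) x4980) x10812) x19560) x8626) x15188)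
  (add (add (add (sub (add (add (sub (add (add (sub (sub (sub C x2076) x2060) x2090) x1964) x2180) x1910) x128) x1100) x4988) x10820) x19568) x15192)
  (sub (add (add (add (sub (add (add (sub (add (add (sub (add (add (sub C x2072) x2052) x2064) x2094) x1968) x2184) x1914) x132) x1104) x4992) x10824) x19572) x8638) x15200)
  (add (add (add (sub (add (add (sub (sub (sub (sub (sub C x2086) x2090) x2048) x2138) x1922) x140) x1112) x5000) x10832) x19580) x15204)
  (sub (add (add (sub (add (add (sub (sub (sub (sub (sub C x2084) x2098) x2050) x2140) x1924) x142) x1114) x5002) x10834) x19582) x8646)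
  (add (add (add (sub (add (add (sub (sub (sub (sub (sub C x2094) x2084) x2072) x2144) x1928) x146) x1118) x5006) x10838) x19586) x15210)
  (sub (add (add (add (sub (add (add (sub (sub (sub (sub (sub C x2090) x2100) x2076) x2148) x1932) x150) x1122) x5010) x10842) x19590) x8656) x15218)
  (sub (add (add (sub (add (add (sub (sub (add (add (sub (sub C x2100) x2086) x2026) x2062) x2152) x1936) x154) x1126) x5014) x10846) x19594) x8658)
  (sub (add (add (add (sub (add (add (sub (sub (add (add (sub (sub C x2098) x2094) x2028) x2064) x2154) x1938) x156) x1128) x5016) x10848) x19596) x8662) x15224)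
  (add (add (add (sub (add (add (add (add (sub (add (add (add (add (sub C x2112) x2120) x2132) x2144) x2180) x2000) x1460) x1784) x164) x1136) x5024) x10856) x19604) x15228)
  (sub (add (add (add (sub (add (add (add (add (sub (add (add (sub (sub C x2108) x2124) x2148) x2184) x2004) x1464) x1788) x168) x1140) x5028) x10860) x19608) x8674) x15236)
  (add (add (add (sub (add (add (add (add (sub (sub (add (add (sub C x2122) x2108) x2132) x2138) x2012) x1472) x1796) x176) x1148) x5036) x10868) x19616) x15240)
  (sub (add (add (sub (add (add (add (add (sub (sub (sub (sub C x2120) x2128) x2140) x2014) x1474) x1798) x178) x1150) x5038) x10870) x19618) x8682)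
  (sub (add (add (add (sub (add (add (add (add (sub (sub (sub (add (add C x2128) x2132) x2112) x2160) x2016) x1476) x1800) x180) x1152) x5040) x10872) x19620) x8686) x15248)
  (sub (add (add (sub (add (add (add (add (sub (sub (sub (add (add C x2124) x2132) x2122) x2164) x2020) x1480) x1804) x184) x1156) x5044) x10876) x19624) x8688)
  (add (add (add (sub (add (add (add (add (sub (sub (add (add (add (add C x2124) x2128) x2108) x2120) x2168) x2024) x1484) x1808) x188) x1160) x5048) x10880) x19628) x15252)
  (add (add (add (sub (add (add (add (add (sub (sub (sub (sub C x2140) x2144) x2120) x2084) x1490) x1814) x194) x1166) x5054) x10886) x19634) x15258)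
  (sub (add (add (sub (add (add (add (add (sub (sub (sub (sub C x2138) x2152) x2122) x2086) x1492) x1816) x196) x1168) x5056) x10888) x19636) x8700)
  (add (add (add (sub (add (add (add (add (sub (add (add (sub (sub C x2148) x2138) x2108) x2180) x2090) x1496) x1820) x200) x1172) x5060) x10892) x19640) x15264)
  (sub (add (add (add (sub (add (add (add (add (sub (add (add (sub (sub C x2144) x2154) x2112) x2184) x2094) x1500) x1824) x204) x1176) x5064) x10896) x19644) x8710) x15272)
  (sub (add (add (sub (add (add (add (add (sub (sub (sub (sub C x2154) x2140) x2170) x2098) x1504) x1828) x208) x1180) x5068) x10900) x19648) x8712)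
  (sub (add (add (add (sub (add (add (add (add (sub (sub (sub (sub C x2152) x2148) x2172) x2100) x1506) x1830) x210) x1182) x5070) x10902) x19650) x8716) x15278)
  (sub (add (add (add (sub (add (add (add (add (add (add (sub (add (add (add (add C x2164) x2168) x2172) x2184) x2124) x1944) x2052) x1512) x1836) x216) x1188) x5076) x10908) x19656) x8722) x15284)
  (sub (add (add (sub (add (add (add (add (add (add (sub (sub (add (add C x2160) x2168) x2170) x2128) x1948) x2056) x1516) x1840) x220) x1192) x5080) x10912) x19660) x8724)
  (add (add (add (sub (add (add (add (add (add (add (sub (sub (add (add C x2160) x2164) x2180) x2132) x1952) x2060) x1520) x1844) x224) x1196) x5084) x10916) x19664) x15288)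
  (sub (add (add (sub (add (add (add (add (add (add (sub (sub (sub C x2172) x2164) x2152) x1954) x2062) x1522) x1846) x226) x1198) x5086) x10918) x19666) x8730)
  (sub (add (add (add (sub (add (add (add (add (add (add (sub (add (add (sub C x2170) x2160) x2184) x2154) x1956) x2064) x1524) x1848) x228) x1200) x5088) x10920) x19668) x8734) x15296)
  (add (add (add (sub (add (add (add (add (add (add (add (add (sub (sub C x2184) x2168) x2108) x2144) x1964) x2072) x1532) x1856) x236) x1208) x5096) x10928) x19676) x15300)
  (sub (add (add (add (sub (add (add (add (add (add (add (add (add (add (add (sub C x2180) x2160) x2172) x2112) x2148) x1968) x2076) x1536) x1860) x240) x1212) x5100) x10932) x19680) x8746) x15308)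
  (sub (sub (sub (add (add (add (add (add (add (add (add (add (add (sub C x2190) x2200) x2212) x2224) x2260) x2296) x2404) x2512) x2836) x3160) x4132) x730) x6562) x8748)
  (sub (add (sub (sub (add (add (add (add (add (add (add (add (sub (sub C x2188) x2196) x2226) x2262) x2298) x2406) x2514) x2838) x3162) x4134) x732) x6564) x8752) x15314)
  (sub (add (sub (sub (add (add (add (add (add (add (sub (sub (add (add C x2200) x2204) x2190) x2214) x2304) x2412) x2520) x2844) x3168) x4140) x738) x6570) x8758) x15320)
  (sub (sub (sub (add (add (add (add (add (add (sub (add (add (add (add C x2196) x2204) x2188) x2212) x2218) x2308) x2416) x2524) x2848) x3172) x4144) x742) x6574) x8760)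
  (add (sub (sub (add (add (add (add (add (add (sub (sub (add (add C x2196) x2200) x2210) x2222) x2312) x2420) x2528) x2852) x3176) x4148) x746) x6578) x15324)
  (add (sub (sub (add (add (add (add (add (add (sub (sub (sub C x2212) x2204) x2246) x2318) x2426) x2534) x2858) x3182) x4154) x752) x6584) x15330)
  (sub (sub (sub (add (add (add (add (add (add (sub (add (add (sub C x2210) x2188) x2200) x2248) x2320) x2428) x2536) x2860) x3184) x4156) x754) x6586) x8772)
  (sub (add (sub (sub (add (add (add (add (sub (sub (add (add (add (add C x2218) x2222) x2226) x2238) x2196) x2268) x2538) x2862) x3186) x4158) x756) x6588) x8776) x15338)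
  (sub (sub (sub (add (add (add (add (sub (sub (sub (add (add C x2214) x2222) x2224) x2200) x2272) x2542) x2866) x3190) x4162) x760) x6592) x8778)
  (add (sub (sub (add (add (add (add (sub (sub (sub (add (add C x2214) x2218) x2234) x2204) x2276) x2546) x2870) x3194) x4166) x764) x6596) x15342)
  (sub (sub (sub (add (add (add (add (sub (add (add (sub (sub C x2226) x2218) x2188) x2260) x2278) x2548) x2872) x3196) x4168) x766) x6598) x8784)
  (sub (add (sub (sub (add (add (add (add (sub (add (add (add (add (sub C x2224) x2214) x2238) x2190) x2262) x2280) x2550) x2874) x3198) x4170) x768) x6600) x8788) x15350)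
  (add (sub (sub (add (add (add (add (sub (sub (sub (sub C x2238) x2222) x2252) x2288) x2558) x2882) x3206) x4178) x776) x6608) x15354)
  (sub (add (sub (sub (add (add (add (add (sub (sub (add (add (sub C x2234) x2214) x2226) x2256) x2292) x2562) x2886) x3210) x4182) x780) x6612) x8800) x15362)
  (add (sub (sub (add (add (add (add (sub (sub (sub (sub C x2248) x2252) x2210) x2354) x2570) x2894) x3218) x4190) x788) x6620) x15366)
  (sub (sub (sub (add (add (add (add (sub (sub (sub (sub C x2246) x2260) x2212) x2356) x2572) x2896) x3220) x4192) x790) x6622) x8808)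
  (add (sub (sub (add (add (add (add (sub (sub (sub (sub C x2256) x2246) x2234) x2360) x2576) x2900) x3224) x4196) x794) x6626) x15372)
  (sub (add (sub (sub (add (add (add (add (sub (sub (sub (sub C x2252) x2262) x2238) x2364) x2580) x2904) x3228) x4200) x798) x6630) x8818) x15380)
  (sub (sub (sub (add (add (add (add (sub (add (add (sub (sub C x2262) x2248) x2188) x2224) x2368) x2584) x2908) x3232) x4204) x802) x6634) x8820)
  (sub (add (sub (sub (add (add (add (add (sub (add (add (sub (sub C x2260) x2256) x2190) x2226) x2370) x2586) x2910) x3234) x4206) x804) x6636) x8824) x15386)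
  (sub (add (sub (sub (add (add (sub (sub (add (add (add (add (add (add C x2272) x2276) x2280) x2292) x2304) x2340) x2214) x2430) x3240) x4212) x810) x6642) x8830) x15392)
  (sub (sub (sub (add (add (sub (sub (add (add (sub (add (add C x2268) x2276) x2278) x2308) x2344) x2218) x2434) x3244) x4216) x814) x6646) x8832)
  (add (sub (sub (add (add (sub (sub (add (add (sub (add (add C x2268) x2272) x2288) x2312) x2348) x2222) x2438) x3248) x4220) x818) x6650) x15396)
  (sub (sub (sub (add (add (sub (sub (sub (sub (sub C x2280) x2272) x2296) x2224) x2440) x3250) x4222) x820) x6652) x8838)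
  (sub (add (sub (sub (add (add (sub (sub (sub (add (add (sub C x2278) x2268) x2292) x2298) x2226) x2442) x3252) x4224) x822) x6654) x8842) x15404)
  (add (sub (sub (add (add (sub (sub (sub (sub (sub C x2292) x2276) x2324) x2234) x2450) x3260) x4232) x830) x6662) x15408)
  (sub (add (sub (sub (add (add (sub (sub (sub (add (add (sub C x2288) x2268) x2280) x2328) x2238) x2454) x3264) x4236) x834) x6666) x8854) x15416)
  (sub (sub (sub (add (add (sub (add (add (sub (add (add (sub C x2298) x2308) x2320) x2278) x2188) x2404) x2458) x3268) x4240) x838) x6670) x8856)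
  (sub (add (sub (sub (add (add (sub (add (add (sub (sub (sub C x2296) x2304) x2280) x2190) x2406) x2460) x3270) x4242) x840) x6672) x8860) x15422)
  (sub (add (sub (sub (add (add (sub (add (add (add (add (sub (add (add C x2308) x2312) x2298) x2268) x2340) x2196) x2412) x2466) x3276) x4248) x846) x6678) x8866) x15428)
  (sub (sub (sub (add (add (sub (add (add (add (add (add (add (add (add C x2304) x2312) x2296) x2320) x2272) x2344) x2200) x2416) x2470) x3280) x4252) x850) x6682) x8868)
  (add (sub (sub (add (add (sub (add (add (add (add (sub (add (add C x2304) x2308) x2318) x2276) x2348) x2204) x2420) x2474) x3284) x4256) x854) x6686) x15432)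
  (add (sub (sub (add (add (sub (add (add (sub (sub (sub C x2320) x2312) x2336) x2210) x2426) x2480) x3290) x4262) x860) x6692) x15438)
  (sub (sub (sub (add (add (sub (add (add (sub (add (add (sub C x2318) x2296) x2308) x2338) x2212) x2428) x2482) x3292) x4264) x862) x6694) x8880)
  (add (sub (sub (add (add (sub (sub (sub (add (add (sub C x2328) x2336) x2348) x2288) x2378) x2486) x3296) x4268) x866) x6698) x15444)
  (sub (add (sub (sub (add (add (sub (sub (sub (sub (sub C x2324) x2340) x2292) x2382) x2490) x3300) x4272) x870) x6702) x8890) x15452)
  (add (sub (sub (add (add (sub (sub (sub (add (add (sub C x2338) x2324) x2348) x2318) x2390) x2498) x3308) x4280) x878) x6710) x15456)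
  (sub (sub (sub (add (add (sub (sub (sub (sub (sub C x2336) x2344) x2320) x2392) x2500) x3310) x4282) x880) x6712) x8898)
  (sub (add (sub (sub (add (add (sub (sub (add (add (sub (add (add C x2344) x2348) x2328) x2268) x2304) x2394) x2502) x3312) x4284) x882) x6714) x8902) x15464)
  (sub (sub (sub (add (add (sub (sub (add (add (sub (add (add C x2340) x2348) x2338) x2272) x2308) x2398) x2506) x3316) x4288) x886) x6718) x8904)
  (add (sub (sub (add (add (sub (sub (add (add (add (add (add (add C x2340) x2344) x2324) x2336) x2276) x2312) x2402) x2510) x3320) x4292) x890) x6722) x15468)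
  (add (sub (sub (add (add (sub (sub (add (add (sub (sub C x2356) x2360) x2390) x2426) x2246) x2678) x3326) x4298) x896) x6728) x15474)
  (sub (sub (sub (add (add (sub (sub (add (add (sub (sub C x2354) x2368) x2392) x2428) x2248) x2680) x3328) x4300) x898) x6730) x8916)
  (add (sub (sub (add (add (sub (sub (sub (sub (sub C x2364) x2354) x2378) x2252) x2684) x3332) x4304) x902) x6734) x15480)
  (sub (add (sub (sub (add (add (sub (sub (sub (sub (sub C x2360) x2370) x2382) x2256) x2688) x3336) x4308) x906) x6738) x8926) x15488)
  (sub (sub (sub (add (add (sub (sub (sub (sub (sub C x2370) x2356) x2404) x2260) x2692) x3340) x4312) x910) x6742) x8928)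
  (sub (add (sub (sub (add (add (sub (sub (sub (sub (sub C x2368) x2364) x2406) x2262) x2694) x3342) x4314) x912) x6744) x8932) x15494)
  (add (sub (sub (add (add (sub (sub (sub (add (add (sub C x2382) x2390) x2402) x2360) x2324) x2702) x3350) x4322) x920) x6752) x15498)
  (sub (add (sub (sub (add (add (sub (sub (sub (sub (sub C x2378) x2394) x2364) x2328) x2706) x3354) x4326) x924) x6756) x8944) x15506)
  (add (sub (sub (add (add (sub (sub (add (add (add (add (sub C x2392) x2378) x2402) x2354) x2426) x2336) x2714) x3362) x4334) x932) x6764) x15510)
  (sub (sub (sub (add (add (sub (sub (add (add (sub (sub C x2390) x2398) x2356) x2428) x2338) x2716) x3364) x4336) x934) x6766) x8952)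
  (sub (add (sub (sub (add (add (sub (sub (sub (sub (add (add C x2398) x2402) x2382) x2412) x2340) x2718) x3366) x4338) x936) x6768) x8956) x15518)
  (sub (sub (sub (add (add (sub (sub (sub (sub (add (add C x2394) x2402) x2392) x2416) x2344) x2722) x3370) x4342) x940) x6772) x8958)
  (add (sub (sub (add (add (sub (sub (sub (add (add (add (add C x2394) x2398) x2378) x2390) x2420) x2348) x2726) x3374) x4346) x944) x6776) x15522)
  (sub (sub (sub (add (add (sub (add (add (sub (add (add (sub C x2406) x2416) x2428) x2368) x2188) x2296) x2728) x3376) x4348) x946) x6778) x8964)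
  (sub (add (sub (sub (add (add (sub (add (add (sub (sub (sub C x2404) x2412) x2370) x2190) x2298) x2730) x3378) x4350) x948) x6780) x8968) x15530)
  (sub (add (sub (sub (add (add (sub (add (add (sub (sub (add (add C x2416) x2420) x2406) x2394) x2196) x2304) x2736) x3384) x4356) x954) x6786) x8974) x15536)
  (sub (sub (sub (add (add (sub (add (add (sub (add (add (add (add C x2412) x2420) x2404) x2428) x2398) x2200) x2308) x2740) x3388) x4360) x958) x6790) x8976)
  (add (sub (sub (add (add (sub (add (add (sub (sub (add (add C x2412) x2416) x2426) x2402) x2204) x2312) x2744) x3392) x4364) x962) x6794) x15540)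
  (add (sub (sub (add (add (sub (add (add (add (add (sub (sub C x2428) x2420) x2354) x2390) x2210) x2318) x2750) x3398) x4370) x968) x6800) x15546)
  (sub (sub (sub (add (add (sub (add (add (add (add (add (add (sub C x2426) x2404) x2416) x2356) x2392) x2212) x2320) x2752) x3400) x4372) x970) x6802) x8988)
  (sub (add (sub (sub (sub (sub (add (add (add (add (add (add (add (add C x2434) x2438) x2442) x2454) x2466) x2502) x2538) x2646) x2268) x2916) x972) x6804) x8992) x15554)
  (sub (sub (sub (sub (sub (add (add (add (add (sub (add (add C x2430) x2438) x2440) x2470) x2506) x2542) x2650) x2272) x2920) x976) x6808) x8994)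
  (add (sub (sub (sub (sub (add (add (add (add (sub (add (add C x2430) x2434) x2450) x2474) x2510) x2546) x2654) x2276) x2924) x980) x6812) x15558)
  (sub (sub (sub (sub (sub (add (add (sub (sub (sub C x2442) x2434) x2458) x2548) x2656) x2278) x2926) x982) x6814) x9000)
  (sub (add (sub (sub (sub (sub (add (add (sub (add (add (sub C x2440) x2430) x2454) x2460) x2550) x2658) x2280) x2928) x984) x6816) x9004) x15566)
  (add (sub (sub (sub (sub (add (add (sub (sub (sub C x2454) x2438) x2486) x2558) x2666) x2288) x2936) x992) x6824) x15570)
  (sub (add (sub (sub (sub (sub (add (add (sub (add (add (sub C x2450) x2430) x2442) x2490) x2562) x2670) x2292) x2940) x996) x6828) x9016) x15578)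
  (sub (sub (sub (sub (sub (sub (sub (add (add (sub C x2460) x2470) x2482) x2440) x2512) x2296) x2944) x1000) x6832) x9018)
  (sub (add (sub (sub (sub (sub (sub (sub (sub (sub C x2458) x2466) x2442) x2514) x2298) x2946) x1002) x6834) x9022) x15584)
  (sub (add (sub (sub (sub (sub (sub (add (add (sub (add (add C x2470) x2474) x2460) x2430) x2502) x2520) x2304) x2952) x1008) x6840) x9028) x15590)
  (sub (sub (sub (sub (sub (sub (add (add (add (add (add (add C x2466) x2474) x2458) x2482) x2434) x2506) x2524) x2308) x2956) x1012) x6844) x9030)
  (add (sub (sub (sub (sub (sub (add (add (sub (add (add C x2466) x2470) x2480) x2438) x2510) x2528) x2312) x2960) x1016) x6848) x15594)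
  (add (sub (sub (sub (sub (sub (sub (sub (sub C x2482) x2474) x2498) x2534) x2318) x2966) x1022) x6854) x15600)
  (sub (sub (sub (sub (sub (sub (sub (add (add (sub C x2480) x2458) x2470) x2500) x2536) x2320) x2968) x1024) x6856) x9042)
  (add (sub (sub (sub (sub (sub (sub (add (add (sub C x2490) x2498) x2510) x2450) x2594) x2324) x2972) x1028) x6860) x15606)
  (sub (add (sub (sub (sub (sub (sub (sub (sub (sub C x2486) x2502) x2454) x2598) x2328) x2976) x1032) x6864) x9052) x15614)
  (add (sub (sub (sub (sub (sub (sub (add (add (sub C x2500) x2486) x2510) x2480) x2606) x2336) x2984) x1040) x6872) x15618)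
  (sub (sub (sub (sub (sub (sub (sub (sub (sub C x2498) x2506) x2482) x2608) x2338) x2986) x1042) x6874) x9060)
  (sub (add (sub (sub (sub (sub (sub (add (add (sub (add (add C x2506) x2510) x2490) x2430) x2466) x2610) x2340) x2988) x1044) x6876) x9064) x15626)
  (sub (sub (sub (sub (sub (sub (add (add (sub (add (add C x2502) x2510) x2500) x2434) x2470) x2614) x2344) x2992) x1048) x6880) x9066)
  (add (sub (sub (sub (sub (sub (add (add (add (add (add (add C x2502) x2506) x2486) x2498) x2438) x2474) x2618) x2348) x2996) x1052) x6884) x15630)
  (sub (sub (sub (sub (add (add (sub (add (add (add (add (sub C x2514) x2524) x2536) x2548) x2584) x2458) x2188) x2836) x2998) x1054) x6886) x9072)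
  (sub (add (sub (sub (sub (add (add (sub (add (add (sub (sub C x2512) x2520) x2550) x2586) x2460) x2190) x2838) x3000) x1056) x6888) x9076) x15638)
  (sub (add (sub (sub (sub (add (add (sub (sub (sub (add (add C x2524) x2528) x2514) x2538) x2466) x2196) x2844) x3006) x1062) x6894) x9082) x15644)
  (sub (sub (sub (sub (add (add (sub (sub (add (add (add (add C x2520) x2528) x2512) x2536) x2542) x2470) x2200) x2848) x3010) x1066) x6898) x9084)
  (add (sub (sub (sub (add (add (sub (sub (sub (add (add C x2520) x2524) x2534) x2546) x2474) x2204) x2852) x3014) x1070) x6902) x15648)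
  (add (sub (sub (sub (add (add (sub (sub (sub (sub C x2536) x2528) x2570) x2480) x2210) x2858) x3020) x1076) x6908) x15654)
  (sub (sub (sub (sub (add (add (sub (sub (add (add (sub C x2534) x2512) x2524) x2572) x2482) x2212) x2860) x3022) x1078) x6910) x9096)
  (sub (add (sub (sub (sub (add (add (add (add (sub (add (add (add (add C x2542) x2546) x2550) x2562) x2520) x2430) x2646) x2214) x2862) x3024) x1080) x6912) x9100) x15662)
  (sub (sub (sub (sub (add (add (add (add (sub (sub (add (add C x2538) x2546) x2548) x2524) x2434) x2650) x2218) x2866) x3028) x1084) x6916) x9102)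
  (add (sub (sub (sub (add (add (add (add (sub (sub (add (add C x2538) x2542) x2558) x2528) x2438) x2654) x2222) x2870) x3032) x1088) x6920) x15666)
  (sub (sub (sub (sub (add (add (add (add (add (add (sub (sub C x2550) x2542) x2512) x2584) x2440) x2656) x2224) x2872) x3034) x1090) x6922) x9108)
  (sub (add (sub (sub (sub (add (add (add (add (add (add (add (add (sub C x2548) x2538) x2562) x2514) x2586) x2442) x2658) x2226) x2874) x3036) x1092) x6924) x9112) x15674)
  (add (sub (sub (sub (add (add (add (add (sub (sub (sub C x2562) x2546) x2576) x2450) x2666) x2234) x2882) x3044) x1100) x6932) x15678)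
  (sub (add (sub (sub (sub (add (add (add (add (sub (add (add (sub C x2558) x2538) x2550) x2580) x2454) x2670) x2238) x2886) x3048) x1104) x6936) x9124) x15686)
  (add (sub (sub (sub (add (add (sub (sub (sub (sub C x2572) x2576) x2534) x2624) x2246) x2894) x3056) x1112) x6944) x15690)
  (sub (sub (sub (sub (add (add (sub (sub (sub (sub C x2570) x2584) x2536) x2626) x2248) x2896) x3058) x1114) x6946) x9132)
  (add (sub (sub (sub (add (add (sub (sub (sub (sub C x2580) x2570) x2558) x2630) x2252) x2900) x3062) x1118) x6950) x15696)
  (sub (add (sub (sub (sub (add (add (sub (sub (sub (sub C x2576) x2586) x2562) x2634) x2256) x2904) x3066) x1122) x6954) x9142) x15704)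
  (sub (sub (sub (sub (add (add (sub (add (add (sub (sub C x2586) x2572) x2512) x2548) x2638) x2260) x2908) x3070) x1126) x6958) x9144)
  (sub (add (sub (sub (sub (add (add (sub (add (add (sub (sub C x2584) x2580) x2514) x2550) x2640) x2262) x2910) x3072) x1128) x6960) x9148) x15710)
  (add (sub (sub (sub (sub (sub (add (add (add (add (sub C x2598) x2606) x2618) x2630) x2666) x2486) x2756) x3080) x1136) x6968) x15714)
  (sub (add (sub (sub (sub (sub (sub (add (add (sub (sub C x2594) x2610) x2634) x2670) x2490) x2760) x3084) x1140) x6972) x9160) x15722)
  (add (sub (sub (sub (sub (sub (sub (add (add (sub C x2608) x2594) x2618) x2624) x2498) x2768) x3092) x1148) x6980) x15726)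
  (sub (sub (sub (sub (sub (sub (sub (sub (sub C x2606) x2614) x2626) x2500) x2770) x3094) x1150) x6982) x9168)
  (sub (add (sub (sub (sub (sub (sub (sub (sub (add (add C x2614) x2618) x2598) x2646) x2502) x2772) x3096) x1152) x6984) x9172) x15734)
  (sub (sub (sub (sub (sub (sub (sub (sub (add (add C x2610) x2618) x2608) x2650) x2506) x2776) x3100) x1156) x6988) x9174)
  (add (sub (sub (sub (sub (sub (sub (add (add (add (add C x2610) x2614) x2594) x2606) x2654) x2510) x2780) x3104) x1160) x6992) x15738)
  (add (sub (sub (sub (sub (sub (sub (sub (sub C x2626) x2630) x2606) x2570) x2786) x3110) x1166) x6998) x15744)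
  (sub (sub (sub (sub (sub (sub (sub (sub (sub C x2624) x2638) x2608) x2572) x2788) x3112) x1168) x7000) x9186)
  (add (sub (sub (sub (sub (sub (add (add (sub (sub C x2634) x2624) x2594) x2666) x2576) x2792) x3116) x1172) x7004) x15750)
  (sub (add (sub (sub (sub (sub (sub (add (add (sub (sub C x2630) x2640) x2598) x2670) x2580) x2796) x3120) x1176) x7008) x9196) x15758)
  (sub (sub (sub (sub (sub (sub (sub (sub (sub C x2640) x2626) x2656) x2584) x2800) x3124) x1180) x7012) x9198)
  (sub (add (sub (sub (sub (sub (sub (sub (sub (sub C x2638) x2634) x2658) x2586) x2802) x3126) x1182) x7014) x9202) x15764)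
  (sub (add (sub (sub (sub (sub (add (add (sub (add (add (add (add C x2650) x2654) x2658) x2670) x2610) x2430) x2538) x2808) x3132) x1188) x7020) x9208) x15770)
  (sub (sub (sub (sub (sub (add (add (sub (sub (add (add C x2646) x2654) x2656) x2614) x2434) x2542) x2812) x3136) x1192) x7024) x9210)
  (add (sub (sub (sub (sub (add (add (sub (sub (add (add C x2646) x2650) x2666) x2618) x2438) x2546) x2816) x3140) x1196) x7028) x15774)
  (sub (sub (sub (sub (sub (add (add (sub (sub (sub C x2658) x2650) x2638) x2440) x2548) x2818) x3142) x1198) x7030) x9216)
  (sub (add (sub (sub (sub (sub (add (add (sub (add (add (sub C x2656) x2646) x2670) x2640) x2442) x2550) x2820) x3144) x1200) x7032) x9220) x15782)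
  (add (sub (sub (sub (sub (add (add (add (add (sub (sub C x2670) x2654) x2594) x2630) x2450) x2558) x2828) x3152) x1208) x7040) x15786)
  (sub (add (sub (sub (sub (sub (add (add (add (add (add (add (sub C x2666) x2646) x2658) x2598) x2634) x2454) x2562) x2832) x3156) x1212) x7044) x9232) x15794)
  (add (sub (sub (sub (sub (add (add (add (add (sub (sub C x2680) x2684) x2714) x2750) x2786) x2894) x2354) x3650) x1220) x7052) x15798)
  (sub (sub (sub (sub (sub (add (add (add (add (sub (sub C x2678) x2692) x2716) x2752) x2788) x2896) x2356) x3652) x1222) x7054) x9240)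
  (add (sub (sub (sub (sub (add (add (sub (sub (sub C x2688) x2678) x2702) x2792) x2900) x2360) x3656) x1226) x7058) x15804)
  (sub (add (sub (sub (sub (sub (add (add (sub (sub (sub C x2684) x2694) x2706) x2796) x2904) x2364) x3660) x1230) x7062) x9250) x15812)
  (sub (sub (sub (sub (sub (add (add (sub (sub (sub C x2694) x2680) x2728) x2800) x2908) x2368) x3664) x1234) x7066) x9252)
  (sub (add (sub (sub (sub (sub (add (add (sub (sub (sub C x2692) x2688) x2730) x2802) x2910) x2370) x3666) x1236) x7068) x9256) x15818)
  (add (sub (sub (sub (sub (sub (sub (add (add (sub C x2706) x2714) x2726) x2684) x2756) x2378) x3674) x1244) x7076) x15822)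
  (sub (add (sub (sub (sub (sub (sub (sub (sub (sub C x2702) x2718) x2688) x2760) x2382) x3678) x1248) x7080) x9268) x15830)
  (add (sub (sub (sub (sub (sub (add (add (add (add (sub C x2716) x2702) x2726) x2678) x2750) x2768) x2390) x3686) x1256) x7088) x15834)
  (sub (sub (sub (sub (sub (sub (add (add (sub (sub C x2714) x2722) x2680) x2752) x2770) x2392) x3688) x1258) x7090) x9276)
  (sub (add (sub (sub (sub (sub (sub (sub (sub (add (add C x2722) x2726) x2706) x2736) x2772) x2394) x3690) x1260) x7092) x9280) x15842)
  (sub (sub (sub (sub (sub (sub (sub (sub (add (add C x2718) x2726) x2716) x2740) x2776) x2398) x3694) x1264) x7096) x9282)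
  (add (sub (sub (sub (sub (sub (sub (add (add (add (add C x2718) x2722) x2702) x2714) x2744) x2780) x2402) x3698) x1268) x7100) x15846)
  (sub (sub (sub (sub (sub (sub (sub (add (add (sub C x2730) x2740) x2752) x2692) x2836) x2404) x3700) x1270) x7102) x9288)
  (sub (add (sub (sub (sub (sub (sub (sub (sub (sub C x2728) x2736) x2694) x2838) x2406) x3702) x1272) x7104) x9292) x15854)
  (sub (add (sub (sub (sub (sub (sub (sub (sub (add (add C x2740) x2744) x2730) x2718) x2844) x2412) x3708) x1278) x7110) x9298) x15860)
  (sub (sub (sub (sub (sub (sub (sub (add (add (add (add C x2736) x2744) x2728) x2752) x2722) x2848) x2416) x3712) x1282) x7114) x9300)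
  (add (sub (sub (sub (sub (sub (sub (sub (add (add C x2736) x2740) x2750) x2726) x2852) x2420) x3716) x1286) x7118) x15864)
  (add (sub (sub (sub (sub (sub (add (add (sub (sub C x2752) x2744) x2678) x2714) x2858) x2426) x3722) x1292) x7124) x15870)
  (sub (sub (sub (sub (sub (sub (add (add (add (add (sub C x2750) x2728) x2740) x2680) x2716) x2860) x2428) x3724) x1294) x7126) x9312)
  (add (sub (sub (sub (sub (sub (add (add (add (add (sub C x2760) x2768) x2780) x2792) x2828) x2702) x2594) x3728) x1298) x7130) x15876)
  (sub (add (sub (sub (sub (sub (sub (add (add (sub (sub C x2756) x2772) x2796) x2832) x2706) x2598) x3732) x1302) x7134) x9322) x15884)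
  (add (sub (sub (sub (sub (sub (sub (add (add (sub C x2770) x2756) x2780) x2786) x2714) x2606) x3740) x1310) x7142) x15888)
  (sub (sub (sub (sub (sub (sub (sub (sub (sub C x2768) x2776) x2788) x2716) x2608) x3742) x1312) x7144) x9330)
  (sub (add (sub (sub (sub (sub (sub (sub (sub (add (add C x2776) x2780) x2760) x2808) x2718) x2610) x3744) x1314) x7146) x9334) x15896)
  (sub (sub (sub (sub (sub (sub (sub (sub (add (add C x2772) x2780) x2770) x2812) x2722) x2614) x3748) x1318) x7150) x9336)
  (add (sub (sub (sub (sub (sub (sub (add (add (add (add C x2772) x2776) x2756) x2768) x2816) x2726) x2618) x3752) x1322) x7154) x15900)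
  (add (sub (sub (sub (sub (add (add (sub (sub (sub C x2788) x2792) x2768) x2678) x2894) x2624) x3758) x1328) x7160) x15906)
  (sub (sub (sub (sub (sub (add (add (sub (sub (sub C x2786) x2800) x2770) x2680) x2896) x2626) x3760) x1330) x7162) x9348)
  (add (sub (sub (sub (sub (add (add (add (add (sub (sub C x2796) x2786) x2756) x2828) x2684) x2900) x2630) x3764) x1334) x7166) x15912)
  (sub (add (sub (sub (sub (sub (add (add (add (add (sub (sub C x2792) x2802) x2760) x2832) x2688) x2904) x2634) x3768) x1338) x7170) x9358) x15920)
  (sub (sub (sub (sub (sub (add (add (sub (sub (sub C x2802) x2788) x2818) x2692) x2908) x2638) x3772) x1342) x7174) x9360)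
  (sub (add (sub (sub (sub (sub (add (add (sub (sub (sub C x2800) x2796) x2820) x2694) x2910) x2640) x3774) x1344) x7176) x9364) x15926)
  (sub (add (sub (sub (sub (sub (sub (sub (add (add (add (add C x2812) x2816) x2820) x2832) x2772) x2862) x2646) x3780) x1350) x7182) x9370) x15932)
  (sub (sub (sub (sub (sub (sub (sub (sub (add (add C x2808) x2816) x2818) x2776) x2866) x2650) x3784) x1354) x7186) x9372)
  (add (sub (sub (sub (sub (sub (sub (sub (add (add C x2808) x2812) x2828) x2780) x2870) x2654) x3788) x1358) x7190) x15936)
  (sub (sub (sub (sub (sub (sub (sub (sub (sub C x2820) x2812) x2800) x2872) x2656) x3790) x1360) x7192) x9378)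
  (sub (add (sub (sub (sub (sub (sub (sub (add (add (sub C x2818) x2808) x2832) x2802) x2874) x2658) x3792) x1362) x7194) x9382) x15944)
  (add (sub (sub (sub (sub (sub (add (add (sub (sub C x2832) x2816) x2756) x2792) x2882) x2666) x3800) x1370) x7202) x15948)
  (sub (add (sub (sub (sub (sub (sub (add (add (add (add (sub C x2828) x2808) x2820) x2760) x2796) x2886) x2670) x3804) x1374) x7206) x9394) x15956)
  (sub (sub (sub (sub (add (add (sub (add (add (add (add (sub C x2838) x2848) x2860) x2872) x2908) x2728) x2188) x2512) x3808) x1378) x7210) x9396)
  (sub (add (sub (sub (sub (add (add (sub (add (add (sub (sub C x2836) x2844) x2874) x2910) x2730) x2190) x2514) x3810) x1380) x7212) x9400) x15962)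
  (sub (add (sub (sub (sub (add (add (sub (sub (sub (add (add C x2848) x2852) x2838) x2862) x2736) x2196) x2520) x3816) x1386) x7218) x9406) x15968)
  (sub (sub (sub (sub (add (add (sub (sub (add (add (add (add C x2844) x2852) x2836) x2860) x2866) x2740) x2200) x2524) x3820) x1390) x7222) x9408)
  (add (sub (sub (sub (add (add (sub (sub (sub (add (add C x2844) x2848) x2858) x2870) x2744) x2204) x2528) x3824) x1394) x7226) x15972)
  (add (sub (sub (sub (add (add (sub (sub (sub (sub C x2860) x2852) x2894) x2750) x2210) x2534) x3830) x1400) x7232) x15978)
  (sub (sub (sub (sub (add (add (sub (sub (add (add (sub C x2858) x2836) x2848) x2896) x2752) x2212) x2536) x3832) x1402) x7234) x9420)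
  (sub (add (sub (sub (sub (add (add (sub (sub (add (add (add (add C x2866) x2870) x2874) x2886) x2844) x2808) x2214) x2538) x3834) x1404) x7236) x9424) x15986)
  (sub (sub (sub (sub (add (add (sub (sub (sub (add (add C x2862) x2870) x2872) x2848) x2812) x2218) x2542) x3838) x1408) x7240) x9426)
  (add (sub (sub (sub (add (add (sub (sub (sub (add (add C x2862) x2866) x2882) x2852) x2816) x2222) x2546) x3842) x1412) x7244) x15990)
  (sub (sub (sub (sub (add (add (sub (add (add (sub (sub C x2874) x2866) x2836) x2908) x2818) x2224) x2548) x3844) x1414) x7246) x9432)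
  (sub (add (sub (sub (sub (add (add (sub (add (add (add (add (sub C x2872) x2862) x2886) x2838) x2910) x2820) x2226) x2550) x3846) x1416) x7248) x9436) x15998)
  (add (sub (sub (sub (add (add (sub (sub (sub (sub C x2886) x2870) x2900) x2828) x2234) x2558) x3854) x1424) x7256) x16002)
  (sub (add (sub (sub (sub (add (add (sub (sub (add (add (sub C x2882) x2862) x2874) x2904) x2832) x2238) x2562) x3858) x1428) x7260) x9448) x16010)
  (add (sub (sub (sub (add (add (add (add (sub (sub (sub C x2896) x2900) x2858) x2678) x2786) x2246) x2570) x3866) x1436) x7268) x16014)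
  (sub (sub (sub (sub (add (add (add (add (sub (sub (sub C x2894) x2908) x2860) x2680) x2788) x2248) x2572) x3868) x1438) x7270) x9456)
  (add (sub (sub (sub (add (add (add (add (sub (sub (sub C x2904) x2894) x2882) x2684) x2792) x2252) x2576) x3872) x1442) x7274) x16020)
  (sub (add (sub (sub (sub (add (add (add (add (sub (sub (sub C x2900) x2910) x2886) x2688) x2796) x2256) x2580) x3876) x1446) x7278) x9466) x16028)
  (sub (sub (sub (sub (add (add (add (add (add (add (sub (sub C x2910) x2896) x2836) x2872) x2692) x2800) x2260) x2584) x3880) x1450) x7282) x9468)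
  (sub (add (sub (sub (sub (add (add (add (add (add (add (sub (sub C x2908) x2904) x2838) x2874) x2694) x2802) x2262) x2586) x3882) x1452) x7284) x9472) x16034)
  (sub (add (sub (add (add (sub (add (add (add (add (add (add (add (add (add (add C x2920) x2924) x2928) x2940) x2952) x2988) x3024) x3132) x3240) x3564) x2430) x0) x5832) x7290) x9478) x16040)
  (sub (sub (add (add (sub (add (add (add (add (add (add (sub (add (add C x2916) x2924) x2926) x2956) x2992) x3028) x3136) x3244) x3568) x2434) x4) x5836) x7294) x9480)
  (add (sub (add (add (sub (add (add (add (add (add (add (sub (add (add C x2916) x2920) x2936) x2960) x2996) x3032) x3140) x3248) x3572) x2438) x8) x5840) x7298) x16044)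
  (sub (sub (add (add (sub (add (add (add (add (sub (sub (sub C x2928) x2920) x2944) x3034) x3142) x3250) x3574) x2440) x10) x5842) x7300) x9486)
  (sub (add (sub (add (add (sub (add (add (add (add (sub (add (add (sub C x2926) x2916) x2940) x2946) x3036) x3144) x3252) x3576) x2442) x12) x5844) x7302) x9490) x16052)
  (add (sub (add (add (sub (add (add (add (add (sub (sub (sub C x2940) x2924) x2972) x3044) x3152) x3260) x3584) x2450) x20) x5852) x7310) x16056)
  (sub (add (sub (add (add (sub (add (add (add (add (sub (add (add (sub C x2936) x2916) x2928) x2976) x3048) x3156) x3264) x3588) x2454) x24) x5856) x7314) x9502) x16064)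
  (sub (sub (add (add (sub (add (add (sub (sub (add (add (sub C x2946) x2956) x2968) x2926) x2998) x3268) x3592) x2458) x28) x5860) x7318) x9504)
  (sub (add (sub (add (add (sub (add (add (sub (sub (sub (sub C x2944) x2952) x2928) x3000) x3270) x3594) x2460) x30) x5862) x7320) x9508) x16070)
  (sub (add (sub (add (add (sub (add (add (sub (add (add (sub (add (add C x2956) x2960) x2946) x2916) x2988) x3006) x3276) x3600) x2466) x36) x5868) x7326) x9514) x16076)
  (sub (sub (add (add (sub (add (add (sub (add (add (add (add (add (add C x2952) x2960) x2944) x2968) x2920) x2992) x3010) x3280) x3604) x2470) x40) x5872) x7330) x9516)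
  (add (sub (add (add (sub (add (add (sub (add (add (sub (add (add C x2952) x2956) x2966) x2924) x2996) x3014) x3284) x3608) x2474) x44) x5876) x7334) x16080)
  (add (sub (add (add (sub (add (add (sub (sub (sub (sub C x2968) x2960) x2984) x3020) x3290) x3614) x2480) x50) x5882) x7340) x16086)
  (sub (sub (add (add (sub (add (add (sub (sub (add (add (sub C x2966) x2944) x2956) x2986) x3022) x3292) x3616) x2482) x52) x5884) x7342) x9528)
  (add (sub (add (add (sub (add (add (sub (sub (add (add (sub C x2976) x2984) x2996) x2936) x3080) x3296) x3620) x2486) x56) x5888) x7346) x16092)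
  (sub (add (sub (add (add (sub (add (add (sub (sub (sub (sub C x2972) x2988) x2940) x3084) x3300) x3624) x2490) x60) x5892) x7350) x9538) x16100)
  (add (sub (add (add (sub (add (add (sub (sub (add (add (sub C x2986) x2972) x2996) x2966) x3092) x3308) x3632) x2498) x68) x5900) x7358) x16104)
  (sub (sub (add (add (sub (add (add (sub (sub (sub (sub C x2984) x2992) x2968) x3094) x3310) x3634) x2500) x70) x5902) x7360) x9546)
  (sub (add (sub (add (add (sub (add (add (sub (add (add (sub (add (add C x2992) x2996) x2976) x2916) x2952) x3096) x3312) x3636) x2502) x72) x5904) x7362) x9550) x16112)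
  (sub (sub (add (add (sub (add (add (sub (add (add (sub (add (add C x2988) x2996) x2986) x2920) x2956) x3100) x3316) x3640) x2506) x76) x5908) x7366) x9552)
  (add (sub (add (add (sub (add (add (sub (add (add (add (add (add (add C x2988) x2992) x2972) x2984) x2924) x2960) x3104) x3320) x3644) x2510) x80) x5912) x7370) x16116)
  (sub (sub (add (add (sub (sub (sub (add (add (add (add (sub C x3000) x3010) x3022) x3034) x3070) x2944) x3160) x2512) x82) x5914) x7372) x9558)
  (sub (add (sub (add (add (sub (sub (sub (add (add (sub (sub C x2998) x3006) x3036) x3072) x2946) x3162) x2514) x84) x5916) x7374) x9562) x16124)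
  (sub (add (sub (add (add (sub (sub (sub (sub (sub (add (add C x3010) x3014) x3000) x3024) x2952) x3168) x2520) x90) x5922) x7380) x9568) x16130)
  (sub (sub (add (add (sub (sub (sub (sub (add (add (add (add C x3006) x3014) x2998) x3022) x3028) x2956) x3172) x2524) x94) x5926) x7384) x9570)
  (add (sub (add (add (sub (sub (sub (sub (sub (add (add C x3006) x3010) x3020) x3032) x2960) x3176) x2528) x98) x5930) x7388) x16134)
  (add (sub (add (add (sub (sub (sub (sub (sub (sub C x3022) x3014) x3056) x2966) x3182) x2534) x104) x5936) x7394) x16140)
  (sub (sub (add (add (sub (sub (sub (sub (add (add (sub C x3020) x2998) x3010) x3058) x2968) x3184) x2536) x106) x5938) x7396) x9582)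
  (sub (add (sub (add (add (sub (sub (add (add (sub (add (add (add (add C x3028) x3032) x3036) x3048) x3006) x2916) x3132) x3186) x2538) x108) x5940) x7398) x9586) x16148)
  (sub (sub (add (add (sub (sub (add (add (sub (sub (add (add C x3024) x3032) x3034) x3010) x2920) x3136) x3190) x2542) x112) x5944) x7402) x9588)
  (add (sub (add (add (sub (sub (add (add (sub (sub (add (add C x3024) x3028) x3044) x3014) x2924) x3140) x3194) x2546) x116) x5948) x7406) x16152)
  (sub (sub (add (add (sub (sub (add (add (add (add (sub (sub C x3036) x3028) x2998) x3070) x2926) x3142) x3196) x2548) x118) x5950) x7408) x9594)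
  (sub (add (sub (add (add (sub (sub (add (add (add (add (add (add (sub C x3034) x3024) x3048) x3000) x3072) x2928) x3144) x3198) x2550) x120) x5952) x7410) x9598) x16160)
  (add (sub (add (add (sub (sub (add (add (sub (sub (sub C x3048) x3032) x3062) x2936) x3152) x3206) x2558) x128) x5960) x7418) x16164)
  (sub (add (sub (add (add (sub (sub (add (add (sub (add (add (sub C x3044) x3024) x3036) x3066) x2940) x3156) x3210) x2562) x132) x5964) x7422) x9610) x16172)
  (add (sub (add (add (sub (sub (sub (sub (sub (sub C x3058) x3062) x3020) x3110) x3218) x2570) x140) x5972) x7430) x16176)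
  (sub (sub (add (add (sub (sub (sub (sub (sub (sub C x3056) x3070) x3022) x3112) x3220) x2572) x142) x5974) x7432) x9618)
  (add (sub (add (add (sub (sub (sub (sub (sub (sub C x3066) x3056) x3044) x3116) x3224) x2576) x146) x5978) x7436) x16182)
  (sub (add (sub (add (add (sub (sub (sub (sub (sub (sub C x3062) x3072) x3048) x3120) x3228) x2580) x150) x5982) x7440) x9628) x16190)
  (sub (sub (add (add (sub (sub (sub (add (add (sub (sub C x3072) x3058) x2998) x3034) x3124) x3232) x2584) x154) x5986) x7444) x9630)
  (sub (add (sub (add (add (sub (sub (sub (add (add (sub (sub C x3070) x3066) x3000) x3036) x3126) x3234) x2586) x156) x5988) x7446) x9634) x16196)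
  (add (sub (add (add (sub (sub (sub (add (add (add (add (sub C x3084) x3092) x3104) x3116) x3152) x2972) x3404) x2594) x164) x5996) x7454) x16200)
  (sub (add (sub (add (add (sub (sub (sub (add (add (sub (sub C x3080) x3096) x3120) x3156) x2976) x3408) x2598) x168) x6000) x7458) x9646) x16208)
  (add (sub (add (add (sub (sub (sub (sub (add (add (sub C x3094) x3080) x3104) x3110) x2984) x3416) x2606) x176) x6008) x7466) x16212)
  (sub (sub (add (add (sub (sub (sub (sub (sub (sub C x3092) x3100) x3112) x2986) x3418) x2608) x178) x6010) x7468) x9654)
  (sub (add (sub (add (add (sub (sub (sub (sub (sub (add (add C x3100) x3104) x3084) x3132) x2988) x3420) x2610) x180) x6012) x7470) x9658) x16220)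
  (sub (sub (add (add (sub (sub (sub (sub (sub (add (add C x3096) x3104) x3094) x3136) x2992) x3424) x2614) x184) x6016) x7474) x9660)
  (add (sub (add (add (sub (sub (sub (sub (add (add (add (add C x3096) x3100) x3080) x3092) x3140) x2996) x3428) x2618) x188) x6020) x7478) x16224)
  (add (sub (add (add (sub (sub (sub (sub (sub (sub C x3112) x3116) x3092) x3056) x3434) x2624) x194) x6026) x7484) x16230)
  (sub (sub (add (add (sub (sub (sub (sub (sub (sub C x3110) x3124) x3094) x3058) x3436) x2626) x196) x6028) x7486) x9672)
  (add (sub (add (add (sub (sub (sub (add (add (sub (sub C x3120) x3110) x3080) x3152) x3062) x3440) x2630) x200) x6032) x7490) x16236)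
  (sub (add (sub (add (add (sub (sub (sub (add (add (sub (sub C x3116) x3126) x3084) x3156) x3066) x3444) x2634) x204) x6036) x7494) x9682) x16244)
  (sub (sub (add (add (sub (sub (sub (sub (sub (sub C x3126) x3112) x3142) x3070) x3448) x2638) x208) x6040) x7498) x9684)
  (sub (add (sub (add (add (sub (sub (sub (sub (sub (sub C x3124) x3120) x3144) x3072) x3450) x2640) x210) x6042) x7500) x9688) x16250)
  (sub (add (sub (add (add (sub (sub (add (add (sub (add (add (add (add C x3136) x3140) x3144) x3156) x3096) x2916) x3024) x3456) x2646) x216) x6048) x7506) x9694) x16256)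
  (sub (sub (add (add (sub (sub (add (add (sub (sub (add (add C x3132) x3140) x3142) x3100) x2920) x3028) x3460) x2650) x220) x6052) x7510) x9696)
  (add (sub (add (add (sub (sub (add (add (sub (sub (add (add C x3132) x3136) x3152) x3104) x2924) x3032) x3464) x2654) x224) x6056) x7514) x16260)
  (sub (sub (add (add (sub (sub (add (add (sub (sub (sub C x3144) x3136) x3124) x2926) x3034) x3466) x2656) x226) x6058) x7516) x9702)
  (sub (add (sub (add (add (sub (sub (add (add (sub (add (add (sub C x3142) x3132) x3156) x3126) x2928) x3036) x3468) x2658) x228) x6060) x7518) x9706) x16268)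
  (add (sub (add (add (sub (sub (add (add (add (add (sub (sub C x3156) x3140) x3080) x3116) x2936) x3044) x3476) x2666) x236) x6068) x7526) x16272)
  (sub (add (sub (add (add (sub (sub (add (add (add (add (add (add (sub C x3152) x3132) x3144) x3084) x3120) x2940) x3048) x3480) x2670) x240) x6072) x7530) x9718) x16280)
  (sub (sub (add (add (add (add (sub (add (add (add (add (add (add (sub C x3162) x3172) x3184) x3196) x3232) x3268) x3376) x2998) x2188) x4132) x244) x6076) x7534) x9720)
  (sub (add (sub (add (add (add (add (sub (add (add (add (add (sub (sub C x3160) x3168) x3198) x3234) x3270) x3378) x3000) x2190) x4134) x246) x6078) x7536) x9724) x16286)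
  (sub (add (sub (add (add (add (add (sub (add (add (sub (sub (add (add C x3172) x3176) x3162) x3186) x3276) x3384) x3006) x2196) x4140) x252) x6084) x7542) x9730) x16292)
  (sub (sub (add (add (add (add (sub (add (add (sub (add (add (add (add C x3168) x3176) x3160) x3184) x3190) x3280) x3388) x3010) x2200) x4144) x256) x6088) x7546) x9732)
  (add (sub (add (add (add (add (sub (add (add (sub (sub (add (add C x3168) x3172) x3182) x3194) x3284) x3392) x3014) x2204) x4148) x260) x6092) x7550) x16296)
  (add (sub (add (add (add (add (sub (add (add (sub (sub (sub C x3184) x3176) x3218) x3290) x3398) x3020) x2210) x4154) x266) x6098) x7556) x16302)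
  (sub (sub (add (add (add (add (sub (add (add (sub (add (add (sub C x3182) x3160) x3172) x3220) x3292) x3400) x3022) x2212) x4156) x268) x6100) x7558) x9744)
  (sub (add (sub (add (add (add (add (sub (sub (sub (add (add (add (add C x3190) x3194) x3198) x3210) x3168) x3240) x3024) x2214) x4158) x270) x6102) x7560) x9748) x16310)
  (sub (sub (add (add (add (add (sub (sub (sub (sub (add (add C x3186) x3194) x3196) x3172) x3244) x3028) x2218) x4162) x274) x6106) x7564) x9750)
  (add (sub (add (add (add (add (sub (sub (sub (sub (add (add C x3186) x3190) x3206) x3176) x3248) x3032) x2222) x4166) x278) x6110) x7568) x16314)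
  (sub (sub (add (add (add (add (sub (sub (add (add (sub (sub C x3198) x3190) x3160) x3232) x3250) x3034) x2224) x4168) x280) x6112) x7570) x9756)
  (sub (add (sub (add (add (add (add (sub (sub (add (add (add (add (sub C x3196) x3186) x3210) x3162) x3234) x3252) x3036) x2226) x4170) x282) x6114) x7572) x9760) x16322)
  (add (sub (add (add (add (add (sub (sub (sub (sub (sub C x3210) x3194) x3224) x3260) x3044) x2234) x4178) x290) x6122) x7580) x16326)
  (sub (add (sub (add (add (add (add (sub (sub (sub (add (add (sub C x3206) x3186) x3198) x3228) x3264) x3048) x2238) x4182) x294) x6126) x7584) x9772) x16334)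
  (add (sub (add (add (add (add (sub (sub (sub (sub (sub C x3220) x3224) x3182) x3326) x3056) x2246) x4190) x302) x6134) x7592) x16338)
  (sub (sub (add (add (add (add (sub (sub (sub (sub (sub C x3218) x3232) x3184) x3328) x3058) x2248) x4192) x304) x6136) x7594) x9780)
  (add (sub (add (add (add (add (sub (sub (sub (sub (sub C x3228) x3218) x3206) x3332) x3062) x2252) x4196) x308) x6140) x7598) x16344)
  (sub (add (sub (add (add (add (add (sub (sub (sub (sub (sub C x3224) x3234) x3210) x3336) x3066) x2256) x4200) x312) x6144) x7602) x9790) x16352)
  (sub (sub (add (add (add (add (sub (sub (add (add (sub (sub C x3234) x3220) x3160) x3196) x3340) x3070) x2260) x4204) x316) x6148) x7606) x9792)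
  (sub (add (sub (add (add (add (add (sub (sub (add (add (sub (sub C x3232) x3228) x3162) x3198) x3342) x3072) x2262) x4206) x318) x6150) x7608) x9796) x16358)
  (sub (add (sub (add (add (add (add (add (add (sub (add (add (add (add (add (add C x3244) x3248) x3252) x3264) x3276) x3312) x3186) x2916) x3564) x2268) x4212) x324) x6156) x7614) x9802) x16364)
  (sub (sub (add (add (add (add (add (add (sub (add (add (sub (add (add C x3240) x3248) x3250) x3280) x3316) x3190) x2920) x3568) x2272) x4216) x328) x6160) x7618) x9804)
  (add (sub (add (add (add (add (add (add (sub (add (add (sub (add (add C x3240) x3244) x3260) x3284) x3320) x3194) x2924) x3572) x2276) x4220) x332) x6164) x7622) x16368)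
  (sub (sub (add (add (add (add (add (add (sub (sub (sub (sub C x3252) x3244) x3268) x3196) x2926) x3574) x2278) x4222) x334) x6166) x7624) x9810)
  (sub (add (sub (add (add (add (add (add (add (sub (sub (add (add (sub C x3250) x3240) x3264) x3270) x3198) x2928) x3576) x2280) x4224) x336) x6168) x7626) x9814) x16376)
  (add (sub (add (add (add (add (add (add (sub (sub (sub (sub C x3264) x3248) x3296) x3206) x2936) x3584) x2288) x4232) x344) x6176) x7634) x16380)
  (sub (add (sub (add (add (add (add (add (add (sub (sub (add (add (sub C x3260) x3240) x3252) x3300) x3210) x2940) x3588) x2292) x4236) x348) x6180) x7638) x9826) x16388)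
  (sub (sub (add (add (add (add (add (add (add (add (sub (add (add (sub C x3270) x3280) x3292) x3250) x3160) x3376) x2944) x3592) x2296) x4240) x352) x6184) x7642) x9828)
  (sub (add (sub (add (add (add (add (add (add (add (add (sub (sub (sub C x3268) x3276) x3252) x3162) x3378) x2946) x3594) x2298) x4242) x354) x6186) x7644) x9832) x16394)
  (sub (add (sub (add (add (add (add (add (add (add (add (add (add (sub (add (add C x3280) x3284) x3270) x3240) x3312) x3168) x3384) x2952) x3600) x2304) x4248) x360) x6192) x7650) x9838) x16400)
  (sub (sub (add (add (add (add (add (add (add (add (add (add (add (add (add (add C x3276) x3284) x3268) x3292) x3244) x3316) x3172) x3388) x2956) x3604) x2308) x4252) x364) x6196) x7654) x9840)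
  (add (sub (add (add (add (add (add (add (add (add (add (add (sub (add (add C x3276) x3280) x3290) x3248) x3320) x3176) x3392) x2960) x3608) x2312) x4256) x368) x6200) x7658) x16404)
  (add (sub (add (add (add (add (add (add (add (add (sub (sub (sub C x3292) x3284) x3308) x3182) x3398) x2966) x3614) x2318) x4262) x374) x6206) x7664) x16410)
  (sub (sub (add (add (add (add (add (add (add (add (sub (add (add (sub C x3290) x3268) x3280) x3310) x3184) x3400) x2968) x3616) x2320) x4264) x376) x6208) x7666) x9852)
  (add (sub (add (add (add (add (add (add (sub (sub (add (add (sub C x3300) x3308) x3320) x3260) x3350) x2972) x3620) x2324) x4268) x380) x6212) x7670) x16416)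
  (sub (add (sub (add (add (add (add (add (add (sub (sub (sub (sub C x3296) x3312) x3264) x3354) x2976) x3624) x2328) x4272) x384) x6216) x7674) x9862) x16424)
  (add (sub (add (add (add (add (add (add (sub (sub (add (add (sub C x3310) x3296) x3320) x3290) x3362) x2984) x3632) x2336) x4280) x392) x6224) x7682) x16428)
  (sub (sub (add (add (add (add (add (add (sub (sub (sub (sub C x3308) x3316) x3292) x3364) x2986) x3634) x2338) x4282) x394) x6226) x7684) x9870)
  (sub (add (sub (add (add (add (add (add (add (sub (add (add (sub (add (add C x3316) x3320) x3300) x3240) x3276) x3366) x2988) x3636) x2340) x4284) x396) x6228) x7686) x9874) x16436)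
  (sub (sub (add (add (add (add (add (add (sub (add (add (sub (add (add C x3312) x3320) x3310) x3244) x3280) x3370) x2992) x3640) x2344) x4288) x400) x6232) x7690) x9876)
  (add (sub (add (add (add (add (add (add (sub (add (add (add (add (add (add C x3312) x3316) x3296) x3308) x3248) x3284) x3374) x2996) x3644) x2348) x4292) x404) x6236) x7694) x16440)
  (add (sub (add (add (add (add (sub (sub (add (add (sub (sub C x3328) x3332) x3362) x3398) x3218) x3488) x2354) x4298) x410) x6242) x7700) x16446)
  (sub (sub (add (add (add (add (sub (sub (add (add (sub (sub C x3326) x3340) x3364) x3400) x3220) x3490) x2356) x4300) x412) x6244) x7702) x9888)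
  (add (sub (add (add (add (add (sub (sub (sub (sub (sub C x3336) x3326) x3350) x3224) x3494) x2360) x4304) x416) x6248) x7706) x16452)
  (sub (add (sub (add (add (add (add (sub (sub (sub (sub (sub C x3332) x3342) x3354) x3228) x3498) x2364) x4308) x420) x6252) x7710) x9898) x16460)
  (sub (sub (add (add (add (add (sub (sub (sub (sub (sub C x3342) x3328) x3376) x3232) x3502) x2368) x4312) x424) x6256) x7714) x9900)
  (sub (add (sub (add (add (add (add (sub (sub (sub (sub (sub C x3340) x3336) x3378) x3234) x3504) x2370) x4314) x426) x6258) x7716) x9904) x16466)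
  (add (sub (add (add (add (add (sub (sub (sub (add (add (sub C x3354) x3362) x3374) x3332) x3296) x3512) x2378) x4322) x434) x6266) x7724) x16470)
  (sub (add (sub (add (add (add (add (sub (sub (sub (sub (sub C x3350) x3366) x3336) x3300) x3516) x2382) x4326) x438) x6270) x7728) x9916) x16478)
  (add (sub (add (add (add (add (sub (sub (add (add (add (add (sub C x3364) x3350) x3374) x3326) x3398) x3308) x3524) x2390) x4334) x446) x6278) x7736) x16482)
  (sub (sub (add (add (add (add (sub (sub (add (add (sub (sub C x3362) x3370) x3328) x3400) x3310) x3526) x2392) x4336) x448) x6280) x7738) x9924)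
  (sub (add (sub (add (add (add (add (sub (sub (sub (sub (add (add C x3370) x3374) x3354) x3384) x3312) x3528) x2394) x4338) x450) x6282) x7740) x9928) x16490)
  (sub (sub (add (add (add (add (sub (sub (sub (sub (add (add C x3366) x3374) x3364) x3388) x3316) x3532) x2398) x4342) x454) x6286) x7744) x9930)
  (add (sub (add (add (add (add (sub (sub (sub (add (add (add (add C x3366) x3370) x3350) x3362) x3392) x3320) x3536) x2402) x4346) x458) x6290) x7748) x16494)
  (sub (sub (add (add (add (add (sub (add (add (sub (add (add (sub C x3378) x3388) x3400) x3340) x3160) x3268) x3538) x2404) x4348) x460) x6292) x7750) x9936)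
  (sub (add (sub (add (add (add (add (sub (add (add (sub (sub (sub C x3376) x3384) x3342) x3162) x3270) x3540) x2406) x4350) x462) x6294) x7752) x9940) x16502)
  (sub (add (sub (add (add (add (add (sub (add (add (sub (sub (add (add C x3388) x3392) x3378) x3366) x3168) x3276) x3546) x2412) x4356) x468) x6300) x7758) x9946) x16508)
  (sub (sub (add (add (add (add (sub (add (add (sub (add (add (add (add C x3384) x3392) x3376) x3400) x3370) x3172) x3280) x3550) x2416) x4360) x472) x6304) x7762) x9948)
  (add (sub (add (add (add (add (sub (add (add (sub (sub (add (add C x3384) x3388) x3398) x3374) x3176) x3284) x3554) x2420) x4364) x476) x6308) x7766) x16512)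
  (add (sub (add (add (add (add (sub (add (add (add (add (sub (sub C x3400) x3392) x3326) x3362) x3182) x3290) x3560) x2426) x4370) x482) x6314) x7772) x16518)
  (sub (sub (add (add (add (add (sub (add (add (add (add (add (add (sub C x3398) x3376) x3388) x3328) x3364) x3184) x3292) x3562) x2428) x4372) x484) x6316) x7774) x9960)
  (add (sub (add (add (sub (sub (add (add (add (add (add (add (sub C x3408) x3416) x3428) x3440) x3476) x3512) x3620) x3080) x3890) x488) x6320) x7778) x16524)
  (sub (add (sub (add (add (sub (sub (add (add (add (add (sub (sub C x3404) x3420) x3444) x3480) x3516) x3624) x3084) x3894) x492) x6324) x7782) x9970) x16532)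
  (add (sub (add (add (sub (sub (add (add (sub (add (add (sub C x3418) x3404) x3428) x3434) x3524) x3632) x3092) x3902) x500) x6332) x7790) x16536)
  (sub (sub (add (add (sub (sub (add (add (sub (sub (sub C x3416) x3424) x3436) x3526) x3634) x3094) x3904) x502) x6334) x7792) x9978)
  (sub (add (sub (add (add (sub (sub (add (add (sub (sub (add (add C x3424) x3428) x3408) x3456) x3528) x3636) x3096) x3906) x504) x6336) x7794) x9982) x16544)
  (sub (sub (add (add (sub (sub (add (add (sub (sub (add (add C x3420) x3428) x3418) x3460) x3532) x3640) x3100) x3910) x508) x6340) x7798) x9984)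
  (add (sub (add (add (sub (sub (add (add (sub (add (add (add (add C x3420) x3424) x3404) x3416) x3464) x3536) x3644) x3104) x3914) x512) x6344) x7802) x16548)
  (add (sub (add (add (sub (sub (sub (sub (sub (sub C x3436) x3440) x3416) x3488) x3110) x3920) x518) x6350) x7808) x16554)
  (sub (sub (add (add (sub (sub (sub (sub (sub (sub C x3434) x3448) x3418) x3490) x3112) x3922) x520) x6352) x7810) x9996)
  (add (sub (add (add (sub (sub (sub (add (add (sub (sub C x3444) x3434) x3404) x3476) x3494) x3116) x3926) x524) x6356) x7814) x16560)
  (sub (add (sub (add (add (sub (sub (sub (add (add (sub (sub C x3440) x3450) x3408) x3480) x3498) x3120) x3930) x528) x6360) x7818) x10006) x16568)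
  (sub (sub (add (add (sub (sub (sub (sub (sub (sub C x3450) x3436) x3466) x3502) x3124) x3934) x532) x6364) x7822) x10008)
  (sub (add (sub (add (add (sub (sub (sub (sub (sub (sub C x3448) x3444) x3468) x3504) x3126) x3936) x534) x6366) x7824) x10012) x16574)
  (sub (add (sub (add (add (sub (sub (sub (sub (add (add (add (add C x3460) x3464) x3468) x3480) x3420) x3564) x3132) x3942) x540) x6372) x7830) x10018) x16580)
  (sub (sub (add (add (sub (sub (sub (sub (sub (add (add C x3456) x3464) x3466) x3424) x3568) x3136) x3946) x544) x6376) x7834) x10020)
  (add (sub (add (add (sub (sub (sub (sub (sub (add (add C x3456) x3460) x3476) x3428) x3572) x3140) x3950) x548) x6380) x7838) x16584)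
  (sub (sub (add (add (sub (sub (sub (sub (sub (sub C x3468) x3460) x3448) x3574) x3142) x3952) x550) x6382) x7840) x10026)
  (sub (add (sub (add (add (sub (sub (sub (sub (add (add (sub C x3466) x3456) x3480) x3450) x3576) x3144) x3954) x552) x6384) x7842) x10030) x16592)
  (add (sub (add (add (sub (sub (sub (add (add (sub (sub C x3480) x3464) x3404) x3440) x3584) x3152) x3962) x560) x6392) x7850) x16596)
  (sub (add (sub (add (add (sub (sub (sub (add (add (add (add (sub C x3476) x3456) x3468) x3408) x3444) x3588) x3156) x3966) x564) x6396) x7854) x10042) x16604)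
  (add (sub (add (add (sub (sub (sub (add (add (sub (sub C x3490) x3494) x3524) x3560) x3434) x3326) x3974) x572) x6404) x7862) x16608)
  (sub (sub (add (add (sub (sub (sub (add (add (sub (sub C x3488) x3502) x3526) x3562) x3436) x3328) x3976) x574) x6406) x7864) x10050)
  (add (sub (add (add (sub (sub (sub (sub (sub (sub C x3498) x3488) x3512) x3440) x3332) x3980) x578) x6410) x7868) x16614)
  (sub (add (sub (add (add (sub (sub (sub (sub (sub (sub C x3494) x3504) x3516) x3444) x3336) x3984) x582) x6414) x7872) x10060) x16622)
  (sub (sub (add (add (sub (sub (sub (sub (sub (sub C x3504) x3490) x3538) x3448) x3340) x3988) x586) x6418) x7876) x10062)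
  (sub (add (sub (add (add (sub (sub (sub (sub (sub (sub C x3502) x3498) x3540) x3450) x3342) x3990) x588) x6420) x7878) x10066) x16628)
  (add (sub (add (add (sub (sub (add (add (sub (add (add (sub C x3516) x3524) x3536) x3494) x3404) x3620) x3350) x3998) x596) x6428) x7886) x16632)
  (sub (add (sub (add (add (sub (sub (add (add (sub (sub (sub C x3512) x3528) x3498) x3408) x3624) x3354) x4002) x600) x6432) x7890) x10078) x16640)
  (add (sub (add (add (sub (sub (add (add (add (add (add (add (sub C x3526) x3512) x3536) x3488) x3560) x3416) x3632) x3362) x4010) x608) x6440) x7898) x16644)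
  (sub (sub (add (add (sub (sub (add (add (add (add (sub (sub C x3524) x3532) x3490) x3562) x3418) x3634) x3364) x4012) x610) x6442) x7900) x10086)
  (sub (add (sub (add (add (sub (sub (add (add (sub (sub (add (add C x3532) x3536) x3516) x3546) x3420) x3636) x3366) x4014) x612) x6444) x7902) x10090) x16652)
  (sub (sub (add (add (sub (sub (add (add (sub (sub (add (add C x3528) x3536) x3526) x3550) x3424) x3640) x3370) x4018) x616) x6448) x7906) x10092)
  (add (sub (add (add (sub (sub (add (add (sub (add (add (add (add C x3528) x3532) x3512) x3524) x3554) x3428) x3644) x3374) x4022) x620) x6452) x7910) x16656)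
  (sub (sub (add (add (sub (sub (sub (sub (add (add (sub C x3540) x3550) x3562) x3502) x3592) x3376) x4024) x622) x6454) x7912) x10098)
  (sub (add (sub (add (add (sub (sub (sub (sub (sub (sub C x3538) x3546) x3504) x3594) x3378) x4026) x624) x6456) x7914) x10102) x16664)
  (sub (add (sub (add (add (sub (sub (sub (sub (sub (add (add C x3550) x3554) x3540) x3528) x3600) x3384) x4032) x630) x6462) x7920) x10108) x16670)
  (sub (sub (add (add (sub (sub (sub (sub (add (add (add (add C x3546) x3554) x3538) x3562) x3532) x3604) x3388) x4036) x634) x6466) x7924) x10110)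
  (add (sub (add (add (sub (sub (sub (sub (sub (add (add C x3546) x3550) x3560) x3536) x3608) x3392) x4040) x638) x6470) x7928) x16674)
  (add (sub (add (add (sub (sub (sub (add (add (sub (sub C x3562) x3554) x3488) x3524) x3614) x3398) x4046) x644) x6476) x7934) x16680)
  (sub (sub (add (add (sub (sub (sub (add (add (add (add (sub C x3560) x3538) x3550) x3490) x3526) x3616) x3400) x4048) x646) x6478) x7936) x10122)
  (sub (add (sub (add (add (sub (add (add (sub (add (add (add (add (add (add C x3568) x3572) x3576) x3588) x3600) x3636) x3456) x2916) x3240) x4050) x648) x6480) x7938) x10126) x16688)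
  (sub (sub (add (add (sub (add (add (sub (add (add (sub (add (add C x3564) x3572) x3574) x3604) x3640) x3460) x2920) x3244) x4054) x652) x6484) x7942) x10128)
  (add (sub (add (add (sub (add (add (sub (add (add (sub (add (add C x3564) x3568) x3584) x3608) x3644) x3464) x2924) x3248) x4058) x656) x6488) x7946) x16692)
  (sub (sub (add (add (sub (add (add (sub (sub (sub (sub C x3576) x3568) x3592) x3466) x2926) x3250) x4060) x658) x6490) x7948) x10134)
  (sub (add (sub (add (add (sub (add (add (sub (sub (add (add (sub C x3574) x3564) x3588) x3594) x3468) x2928) x3252) x4062) x660) x6492) x7950) x10138) x16700)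
  (add (sub (add (add (sub (add (add (sub (sub (sub (sub C x3588) x3572) x3620) x3476) x2936) x3260) x4070) x668) x6500) x7958) x16704)
  (sub (add (sub (add (add (sub (add (add (sub (sub (add (add (sub C x3584) x3564) x3576) x3624) x3480) x2940) x3264) x4074) x672) x6504) x7962) x10150) x16712)
  (sub (sub (add (add (sub (add (add (sub (sub (add (add (sub C x3594) x3604) x3616) x3574) x3538) x2944) x3268) x4078) x676) x6508) x7966) x10152)
  (sub (add (sub (add (add (sub (add (add (sub (sub (sub (sub C x3592) x3600) x3576) x3540) x2946) x3270) x4080) x678) x6510) x7968) x10156) x16718)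
  (sub (add (sub (add (add (sub (add (add (sub (add (add (sub (add (add C x3604) x3608) x3594) x3564) x3636) x3546) x2952) x3276) x4086) x684) x6516) x7974) x10162) x16724)
  (sub (sub (add (add (sub (add (add (sub (add (add (add (add (add (add C x3600) x3608) x3592) x3616) x3568) x3640) x3550) x2956) x3280) x4090) x688) x6520) x7978) x10164)
  (add (sub (add (add (sub (add (add (sub (add (add (sub (add (add C x3600) x3604) x3614) x3572) x3644) x3554) x2960) x3284) x4094) x692) x6524) x7982) x16728)
  (add (sub (add (add (sub (add (add (sub (sub (sub (sub C x3616) x3608) x3632) x3560) x2966) x3290) x4100) x698) x6530) x7988) x16734)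
  (sub (sub (add (add (sub (add (add (sub (sub (add (add (sub C x3614) x3592) x3604) x3634) x3562) x2968) x3292) x4102) x700) x6532) x7990) x10176)
  (add (sub (add (add (sub (add (add (add (add (sub (add (add (sub C x3624) x3632) x3644) x3584) x3404) x3512) x2972) x3296) x4106) x704) x6536) x7994) x16740)
  (sub (add (sub (add (add (sub (add (add (add (add (sub (sub (sub C x3620) x3636) x3588) x3408) x3516) x2976) x3300) x4110) x708) x6540) x7998) x10186) x16748)
  (add (sub (add (add (sub (add (add (add (add (sub (add (add (sub C x3634) x3620) x3644) x3614) x3416) x3524) x2984) x3308) x4118) x716) x6548) x8006) x16752)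
  (sub (sub (add (add (sub (add (add (add (add (sub (sub (sub C x3632) x3640) x3616) x3418) x3526) x2986) x3310) x4120) x718) x6550) x8008) x10194)
  (sub (add (sub (add (add (sub (add (add (add (add (add (add (sub (add (add C x3640) x3644) x3624) x3564) x3600) x3420) x3528) x2988) x3312) x4122) x720) x6552) x8010) x10198) x16760)
  (sub (sub (add (add (sub (add (add (add (add (add (add (sub (add (add C x3636) x3644) x3634) x3568) x3604) x3424) x3532) x2992) x3316) x4126) x724) x6556) x8014) x10200)
  (add (sub (add (add (sub (add (add (add (add (add (add (add (add (add (add C x3636) x3640) x3620) x3632) x3572) x3608) x3428) x3536) x2996) x3320) x4130) x728) x6560) x8018) x16764)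
  (add (sub (sub (sub (add (add (add (add (add (add (sub (sub C x3652) x3656) x3686) x3722) x3758) x3866) x3974) x4298) x2678) x5108) x8024) x16770)
  (sub (sub (sub (sub (add (add (add (add (add (add (sub (sub C x3650) x3664) x3688) x3724) x3760) x3868) x3976) x4300) x2680) x5110) x8026) x10212)
  (add (sub (sub (sub (add (add (add (add (sub (sub (sub C x3660) x3650) x3674) x3764) x3872) x3980) x4304) x2684) x5114) x8030) x16776)
  (sub (add (sub (sub (sub (add (add (add (add (sub (sub (sub C x3656) x3666) x3678) x3768) x3876) x3984) x4308) x2688) x5118) x8034) x10222) x16784)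
  (sub (sub (sub (sub (add (add (add (add (sub (sub (sub C x3666) x3652) x3700) x3772) x3880) x3988) x4312) x2692) x5122) x8038) x10224)
  (sub (add (sub (sub (sub (add (add (add (add (sub (sub (sub C x3664) x3660) x3702) x3774) x3882) x3990) x4314) x2694) x5124) x8040) x10228) x16790)
  (add (sub (sub (sub (add (add (sub (sub (add (add (sub C x3678) x3686) x3698) x3656) x3728) x3998) x4322) x2702) x5132) x8048) x16794)
  (sub (add (sub (sub (sub (add (add (sub (sub (sub (sub C x3674) x3690) x3660) x3732) x4002) x4326) x2706) x5136) x8052) x10240) x16802)
  (add (sub (sub (sub (add (add (sub (add (add (add (add (sub C x3688) x3674) x3698) x3650) x3722) x3740) x4010) x4334) x2714) x5144) x8060) x16806)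
  (sub (sub (sub (sub (add (add (sub (add (add (sub (sub C x3686) x3694) x3652) x3724) x3742) x4012) x4336) x2716) x5146) x8062) x10248)
  (sub (add (sub (sub (sub (add (add (sub (sub (sub (add (add C x3694) x3698) x3678) x3708) x3744) x4014) x4338) x2718) x5148) x8064) x10252) x16814)
  (sub (sub (sub (sub (add (add (sub (sub (sub (add (add C x3690) x3698) x3688) x3712) x3748) x4018) x4342) x2722) x5152) x8068) x10254)
  (add (sub (sub (sub (add (add (sub (sub (add (add (add (add C x3690) x3694) x3674) x3686) x3716) x3752) x4022) x4346) x2726) x5156) x8072) x16818)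
  (sub (sub (sub (sub (add (add (sub (sub (add (add (sub C x3702) x3712) x3724) x3664) x3808) x4024) x4348) x2728) x5158) x8074) x10260)
  (sub (add (sub (sub (sub (add (add (sub (sub (sub (sub C x3700) x3708) x3666) x3810) x4026) x4350) x2730) x5160) x8076) x10264) x16826)
  (sub (add (sub (sub (sub (add (add (sub (sub (sub (add (add C x3712) x3716) x3702) x3690) x3816) x4032) x4356) x2736) x5166) x8082) x10270) x16832)
  (sub (sub (sub (sub (add (add (sub (sub (add (add (add (add C x3708) x3716) x3700) x3724) x3694) x3820) x4036) x4360) x2740) x5170) x8086) x10272)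
  (add (sub (sub (sub (add (add (sub (sub (sub (add (add C x3708) x3712) x3722) x3698) x3824) x4040) x4364) x2744) x5174) x8090) x16836)
  (add (sub (sub (sub (add (add (sub (add (add (sub (sub C x3724) x3716) x3650) x3686) x3830) x4046) x4370) x2750) x5180) x8096) x16842)
  (sub (sub (sub (sub (add (add (sub (add (add (add (add (sub C x3722) x3700) x3712) x3652) x3688) x3832) x4048) x4372) x2752) x5182) x8098) x10284)
  (add (sub (sub (sub (sub (sub (add (add (add (add (sub C x3732) x3740) x3752) x3764) x3800) x3674) x3890) x2756) x5186) x8102) x16848)
  (sub (add (sub (sub (sub (sub (sub (add (add (sub (sub C x3728) x3744) x3768) x3804) x3678) x3894) x2760) x5190) x8106) x10294) x16856)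
  (add (sub (sub (sub (sub (sub (sub (add (add (sub C x3742) x3728) x3752) x3758) x3686) x3902) x2768) x5198) x8114) x16860)
  (sub (sub (sub (sub (sub (sub (sub (sub (sub C x3740) x3748) x3760) x3688) x3904) x2770) x5200) x8116) x10302)
  (sub (add (sub (sub (sub (sub (sub (sub (sub (add (add C x3748) x3752) x3732) x3780) x3690) x3906) x2772) x5202) x8118) x10306) x16868)
  (sub (sub (sub (sub (sub (sub (sub (sub (add (add C x3744) x3752) x3742) x3784) x3694) x3910) x2776) x5206) x8122) x10308)
  (add (sub (sub (sub (sub (sub (sub (add (add (add (add C x3744) x3748) x3728) x3740) x3788) x3698) x3914) x2780) x5210) x8126) x16872)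
  (add (sub (sub (sub (sub (add (add (sub (sub (sub C x3760) x3764) x3740) x3650) x3866) x3920) x2786) x5216) x8132) x16878)
  (sub (sub (sub (sub (sub (add (add (sub (sub (sub C x3758) x3772) x3742) x3652) x3868) x3922) x2788) x5218) x8134) x10320)
  (add (sub (sub (sub (sub (add (add (add (add (sub (sub C x3768) x3758) x3728) x3800) x3656) x3872) x3926) x2792) x5222) x8138) x16884)
  (sub (add (sub (sub (sub (sub (add (add (add (add (sub (sub C x3764) x3774) x3732) x3804) x3660) x3876) x3930) x2796) x5226) x8142) x10330) x16892)
  (sub (sub (sub (sub (sub (add (add (sub (sub (sub C x3774) x3760) x3790) x3664) x3880) x3934) x2800) x5230) x8146) x10332)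
  (sub (add (sub (sub (sub (sub (add (add (sub (sub (sub C x3772) x3768) x3792) x3666) x3882) x3936) x2802) x5232) x8148) x10336) x16898)
  (sub (add (sub (sub (sub (sub (sub (sub (add (add (add (add C x3784) x3788) x3792) x3804) x3744) x3834) x3942) x2808) x5238) x8154) x10342) x16904)
  (sub (sub (sub (sub (sub (sub (sub (sub (add (add C x3780) x3788) x3790) x3748) x3838) x3946) x2812) x5242) x8158) x10344)
  (add (sub (sub (sub (sub (sub (sub (sub (add (add C x3780) x3784) x3800) x3752) x3842) x3950) x2816) x5246) x8162) x16908)
  (sub (sub (sub (sub (sub (sub (sub (sub (sub C x3792) x3784) x3772) x3844) x3952) x2818) x5248) x8164) x10350)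
  (sub (add (sub (sub (sub (sub (sub (sub (add (add (sub C x3790) x3780) x3804) x3774) x3846) x3954) x2820) x5250) x8166) x10354) x16916)
  (add (sub (sub (sub (sub (sub (add (add (sub (sub C x3804) x3788) x3728) x3764) x3854) x3962) x2828) x5258) x8174) x16920)
  (sub (add (sub (sub (sub (sub (sub (add (add (add (add (sub C x3800) x3780) x3792) x3732) x3768) x3858) x3966) x2832) x5262) x8178) x10366) x16928)
  (sub (sub (sub (sub (sub (sub (add (add (add (add (sub C x3810) x3820) x3832) x3844) x3880) x3700) x4132) x2836) x5266) x8182) x10368)
  (sub (add (sub (sub (sub (sub (sub (add (add (sub (sub C x3808) x3816) x3846) x3882) x3702) x4134) x2838) x5268) x8184) x10372) x16934)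
  (sub (add (sub (sub (sub (sub (sub (sub (sub (add (add C x3820) x3824) x3810) x3834) x3708) x4140) x2844) x5274) x8190) x10378) x16940)
  (sub (sub (sub (sub (sub (sub (sub (add (add (add (add C x3816) x3824) x3808) x3832) x3838) x3712) x4144) x2848) x5278) x8194) x10380)
  (add (sub (sub (sub (sub (sub (sub (sub (add (add C x3816) x3820) x3830) x3842) x3716) x4148) x2852) x5282) x8198) x16944)
  (add (sub (sub (sub (sub (sub (sub (sub (sub C x3832) x3824) x3866) x3722) x4154) x2858) x5288) x8204) x16950)
  (sub (sub (sub (sub (sub (sub (sub (add (add (sub C x3830) x3808) x3820) x3868) x3724) x4156) x2860) x5290) x8206) x10392)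
  (sub (add (sub (sub (sub (sub (sub (sub (add (add (add (add C x3838) x3842) x3846) x3858) x3816) x3780) x4158) x2862) x5292) x8208) x10396) x16958)
  (sub (sub (sub (sub (sub (sub (sub (sub (add (add C x3834) x3842) x3844) x3820) x3784) x4162) x2866) x5296) x8212) x10398)
  (add (sub (sub (sub (sub (sub (sub (sub (add (add C x3834) x3838) x3854) x3824) x3788) x4166) x2870) x5300) x8216) x16962)
  (sub (sub (sub (sub (sub (sub (add (add (sub (sub C x3846) x3838) x3808) x3880) x3790) x4168) x2872) x5302) x8218) x10404)
  (sub (add (sub (sub (sub (sub (sub (add (add (add (add (sub C x3844) x3834) x3858) x3810) x3882) x3792) x4170) x2874) x5304) x8220) x10408) x16970)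
  (add (sub (sub (sub (sub (sub (sub (sub (sub C x3858) x3842) x3872) x3800) x4178) x2882) x5312) x8228) x16974)
  (sub (add (sub (sub (sub (sub (sub (sub (add (add (sub C x3854) x3834) x3846) x3876) x3804) x4182) x2886) x5316) x8232) x10420) x16982)
  (add (sub (sub (sub (sub (add (add (sub (sub (sub C x3868) x3872) x3830) x3650) x3758) x4190) x2894) x5324) x8240) x16986)
  (sub (sub (sub (sub (sub (add (add (sub (sub (sub C x3866) x3880) x3832) x3652) x3760) x4192) x2896) x5326) x8242) x10428)
  (add (sub (sub (sub (sub (add (add (sub (sub (sub C x3876) x3866) x3854) x3656) x3764) x4196) x2900) x5330) x8246) x16992)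
  (sub (add (sub (sub (sub (sub (add (add (sub (sub (sub C x3872) x3882) x3858) x3660) x3768) x4200) x2904) x5334) x8250) x10438) x17000)
  (sub (sub (sub (sub (sub (add (add (add (add (sub (sub C x3882) x3868) x3808) x3844) x3664) x3772) x4204) x2908) x5338) x8254) x10440)
  (sub (add (sub (sub (sub (sub (add (add (add (add (sub (sub C x3880) x3876) x3810) x3846) x3666) x3774) x4206) x2910) x5340) x8256) x10444) x17006)
  (add (sub (sub (sub (sub (add (add (add (add (add (add (sub C x3894) x3902) x3914) x3926) x3962) x3998) x4106) x3728) x3404) x5348) x8264) x17010)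
  (sub (add (sub (sub (sub (sub (add (add (add (add (sub (sub C x3890) x3906) x3930) x3966) x4002) x4110) x3732) x3408) x5352) x8268) x10456) x17018)
  (add (sub (sub (sub (sub (add (add (sub (add (add (sub C x3904) x3890) x3914) x3920) x4010) x4118) x3740) x3416) x5360) x8276) x17022)
  (sub (sub (sub (sub (sub (add (add (sub (sub (sub C x3902) x3910) x3922) x4012) x4120) x3742) x3418) x5362) x8278) x10464)
  (sub (add (sub (sub (sub (sub (add (add (sub (sub (add (add C x3910) x3914) x3894) x3942) x4014) x4122) x3744) x3420) x5364) x8280) x10468) x17030)
  (sub (sub (sub (sub (sub (add (add (sub (sub (add (add C x3906) x3914) x3904) x3946) x4018) x4126) x3748) x3424) x5368) x8284) x10470)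
  (add (sub (sub (sub (sub (add (add (sub (add (add (add (add C x3906) x3910) x3890) x3902) x3950) x4022) x4130) x3752) x3428) x5372) x8288) x17034)
  (add (sub (sub (sub (sub (sub (sub (sub (sub C x3922) x3926) x3902) x3974) x3758) x3434) x5378) x8294) x17040)
  (sub (sub (sub (sub (sub (sub (sub (sub (sub C x3920) x3934) x3904) x3976) x3760) x3436) x5380) x8296) x10482)
  (add (sub (sub (sub (sub (sub (add (add (sub (sub C x3930) x3920) x3890) x3962) x3980) x3764) x3440) x5384) x8300) x17046)
  (sub (add (sub (sub (sub (sub (sub (add (add (sub (sub C x3926) x3936) x3894) x3966) x3984) x3768) x3444) x5388) x8304) x10492) x17054)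
  (sub (sub (sub (sub (sub (sub (sub (sub (sub C x3936) x3922) x3952) x3988) x3772) x3448) x5392) x8308) x10494)
  (sub (add (sub (sub (sub (sub (sub (sub (sub (sub C x3934) x3930) x3954) x3990) x3774) x3450) x5394) x8310) x10498) x17060)
  (sub (add (sub (sub (sub (sub (sub (sub (add (add (add (add C x3946) x3950) x3954) x3966) x3906) x4050) x3780) x3456) x5400) x8316) x10504) x17066)
  (sub (sub (sub (sub (sub (sub (sub (sub (add (add C x3942) x3950) x3952) x3910) x4054) x3784) x3460) x5404) x8320) x10506)
  (add (sub (sub (sub (sub (sub (sub (sub (add (add C x3942) x3946) x3962) x3914) x4058) x3788) x3464) x5408) x8324) x17070)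
  (sub (sub (sub (sub (sub (sub (sub (sub (sub C x3954) x3946) x3934) x4060) x3790) x3466) x5410) x8326) x10512)
  (sub (add (sub (sub (sub (sub (sub (sub (add (add (sub C x3952) x3942) x3966) x3936) x4062) x3792) x3468) x5412) x8328) x10516) x17078)
  (add (sub (sub (sub (sub (sub (add (add (sub (sub C x3966) x3950) x3890) x3926) x4070) x3800) x3476) x5420) x8336) x17082)
  (sub (add (sub (sub (sub (sub (sub (add (add (add (add (sub C x3962) x3942) x3954) x3894) x3930) x4074) x3804) x3480) x5424) x8340) x10528) x17090)
  (add (sub (sub (sub (add (add (sub (add (add (sub (sub C x3976) x3980) x4010) x4046) x3920) x3650) x4298) x3488) x5432) x8348) x17094)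
  (sub (sub (sub (sub (add (add (sub (add (add (sub (sub C x3974) x3988) x4012) x4048) x3922) x3652) x4300) x3490) x5434) x8350) x10536)
  (add (sub (sub (sub (add (add (sub (sub (sub (sub C x3984) x3974) x3998) x3926) x3656) x4304) x3494) x5438) x8354) x17100)
  (sub (add (sub (sub (sub (add (add (sub (sub (sub (sub C x3980) x3990) x4002) x3930) x3660) x4308) x3498) x5442) x8358) x10546) x17108)
  (sub (sub (sub (sub (add (add (sub (sub (sub (sub C x3990) x3976) x4024) x3934) x3664) x4312) x3502) x5446) x8362) x10548)
  (sub (add (sub (sub (sub (add (add (sub (sub (sub (sub C x3988) x3984) x4026) x3936) x3666) x4314) x3504) x5448) x8364) x10552) x17114)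
  (add (sub (sub (sub (add (add (add (add (sub (add (add (sub C x4002) x4010) x4022) x3980) x3890) x4106) x3674) x4322) x3512) x5456) x8372) x17118)
  (sub (add (sub (sub (sub (add (add (add (add (sub (sub (sub C x3998) x4014) x3984) x3894) x4110) x3678) x4326) x3516) x5460) x8376) x10564) x17126)
  (add (sub (sub (sub (add (add (add (add (add (add (add (add (sub C x4012) x3998) x4022) x3974) x4046) x3902) x4118) x3686) x4334) x3524) x5468) x8384) x17130)
  (sub (sub (sub (sub (add (add (add (add (add (add (sub (sub C x4010) x4018) x3976) x4048) x3904) x4120) x3688) x4336) x3526) x5470) x8386) x10572)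
  (sub (add (sub (sub (sub (add (add (add (add (sub (sub (add (add C x4018) x4022) x4002) x4032) x3906) x4122) x3690) x4338) x3528) x5472) x8388) x10576) x17138)
  (sub (sub (sub (sub (add (add (add (add (sub (sub (add (add C x4014) x4022) x4012) x4036) x3910) x4126) x3694) x4342) x3532) x5476) x8392) x10578)
  (add (sub (sub (sub (add (add (add (add (sub (add (add (add (add C x4014) x4018) x3998) x4010) x4040) x3914) x4130) x3698) x4346) x3536) x5480) x8396) x17142)
  (sub (sub (sub (sub (add (add (sub (sub (add (add (sub C x4026) x4036) x4048) x3988) x4078) x3700) x4348) x3538) x5482) x8398) x10584)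
  (sub (add (sub (sub (sub (add (add (sub (sub (sub (sub C x4024) x4032) x3990) x4080) x3702) x4350) x3540) x5484) x8400) x10588) x17150)
  (sub (add (sub (sub (sub (add (add (sub (sub (sub (add (add C x4036) x4040) x4026) x4014) x4086) x3708) x4356) x3546) x5490) x8406) x10594) x17156)
  (sub (sub (sub (sub (add (add (sub (sub (add (add (add (add C x4032) x4040) x4024) x4048) x4018) x4090) x3712) x4360) x3550) x5494) x8410) x10596)
  (add (sub (sub (sub (add (add (sub (sub (sub (add (add C x4032) x4036) x4046) x4022) x4094) x3716) x4364) x3554) x5498) x8414) x17160)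
  (add (sub (sub (sub (add (add (sub (add (add (sub (sub C x4048) x4040) x3974) x4010) x4100) x3722) x4370) x3560) x5504) x8420) x17166)
  (sub (sub (sub (sub (add (add (sub (add (add (add (add (sub C x4046) x4024) x4036) x3976) x4012) x4102) x3724) x4372) x3562) x5506) x8422) x10608)
  (sub (add (sub (sub (sub (sub (sub (add (add (add (add (add (add C x4054) x4058) x4062) x4074) x4086) x4122) x3942) x4212) x3564) x5508) x8424) x10612) x17174)
  (sub (sub (sub (sub (sub (sub (add (add (sub (add (add C x4050) x4058) x4060) x4090) x4126) x3946) x4216) x3568) x5512) x8428) x10614)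
  (add (sub (sub (sub (sub (sub (add (add (sub (add (add C x4050) x4054) x4070) x4094) x4130) x3950) x4220) x3572) x5516) x8432) x17178)
  (sub (sub (sub (sub (sub (sub (sub (sub (sub C x4062) x4054) x4078) x3952) x4222) x3574) x5518) x8434) x10620)
  (sub (add (sub (sub (sub (sub (sub (sub (add (add (sub C x4060) x4050) x4074) x4080) x3954) x4224) x3576) x5520) x8436) x10624) x17186)
  (add (sub (sub (sub (sub (sub (sub (sub (sub C x4074) x4058) x4106) x3962) x4232) x3584) x5528) x8444) x17190)
  (sub (add (sub (sub (sub (sub (sub (sub (add (add (sub C x4070) x4050) x4062) x4110) x3966) x4236) x3588) x5532) x8448) x10636) x17198)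
  (sub (sub (sub (sub (sub (sub (sub (add (add (sub C x4080) x4090) x4102) x4060) x4024) x4240) x3592) x5536) x8452) x10638)
  (sub (add (sub (sub (sub (sub (sub (sub (sub (sub C x4078) x4086) x4062) x4026) x4242) x3594) x5538) x8454) x10642) x17204)
  (sub (add (sub (sub (sub (sub (sub (add (add (sub (add (add C x4090) x4094) x4080) x4050) x4122) x4032) x4248) x3600) x5544) x8460) x10648) x17210)
  (sub (sub (sub (sub (sub (sub (add (add (add (add (add (add C x4086) x4094) x4078) x4102) x4054) x4126) x4036) x4252) x3604) x5548) x8464) x10650)
  (add (sub (sub (sub (sub (sub (add (add (sub (add (add C x4086) x4090) x4100) x4058) x4130) x4040) x4256) x3608) x5552) x8468) x17214)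
  (add (sub (sub (sub (sub (sub (sub (sub (sub C x4102) x4094) x4118) x4046) x4262) x3614) x5558) x8474) x17220)
  (sub (sub (sub (sub (sub (sub (sub (add (add (sub C x4100) x4078) x4090) x4120) x4048) x4264) x3616) x5560) x8476) x10662)
  (add (sub (sub (sub (sub (add (add (sub (add (add (sub C x4110) x4118) x4130) x4070) x3890) x3998) x4268) x3620) x5564) x8480) x17226)
  (sub (add (sub (sub (sub (sub (add (add (sub (sub (sub C x4106) x4122) x4074) x3894) x4002) x4272) x3624) x5568) x8484) x10672) x17234)
  (add (sub (sub (sub (sub (add (add (sub (add (add (sub C x4120) x4106) x4130) x4100) x3902) x4010) x4280) x3632) x5576) x8492) x17238)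
  (sub (sub (sub (sub (sub (add (add (sub (sub (sub C x4118) x4126) x4102) x3904) x4012) x4282) x3634) x5578) x8494) x10680)
  (sub (add (sub (sub (sub (sub (add (add (add (add (sub (add (add C x4126) x4130) x4110) x4050) x4086) x3906) x4014) x4284) x3636) x5580) x8496) x10684) x17246)
  (sub (sub (sub (sub (sub (add (add (add (add (sub (add (add C x4122) x4130) x4120) x4054) x4090) x3910) x4018) x4288) x3640) x5584) x8500) x10686)
  (add (sub (sub (sub (sub (add (add (add (add (add (add (add (add C x4122) x4126) x4106) x4118) x4058) x4094) x3914) x4022) x4292) x3644) x5588) x8504) x17250)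
  (sub (sub (sub (add (add (sub (add (add (add (add (add (add (sub C x4134) x4144) x4156) x4168) x4204) x4240) x4348) x3808) x2188) x3160) x5590) x8506) x10692)
  (sub (add (sub (sub (add (add (sub (add (add (add (add (sub (sub C x4132) x4140) x4170) x4206) x4242) x4350) x3810) x2190) x3162) x5592) x8508) x10696) x17258)
  (sub (add (sub (sub (add (add (sub (add (add (sub (sub (add (add C x4144) x4148) x4134) x4158) x4248) x4356) x3816) x2196) x3168) x5598) x8514) x10702) x17264)
  (sub (sub (sub (add (add (sub (add (add (sub (add (add (add (add C x4140) x4148) x4132) x4156) x4162) x4252) x4360) x3820) x2200) x3172) x5602) x8518) x10704)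
  (add (sub (sub (add (add (sub (add (add (sub (sub (add (add C x4140) x4144) x4154) x4166) x4256) x4364) x3824) x2204) x3176) x5606) x8522) x17268)
  (add (sub (sub (add (add (sub (add (add (sub (sub (sub C x4156) x4148) x4190) x4262) x4370) x3830) x2210) x3182) x5612) x8528) x17274)
  (sub (sub (sub (add (add (sub (add (add (sub (add (add (sub C x4154) x4132) x4144) x4192) x4264) x4372) x3832) x2212) x3184) x5614) x8530) x10716)
  (sub (add (sub (sub (add (add (sub (sub (sub (add (add (add (add C x4162) x4166) x4170) x4182) x4140) x4212) x3834) x2214) x3186) x5616) x8532) x10720) x17282)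
  (sub (sub (sub (add (add (sub (sub (sub (sub (add (add C x4158) x4166) x4168) x4144) x4216) x3838) x2218) x3190) x5620) x8536) x10722)
  (add (sub (sub (add (add (sub (sub (sub (sub (add (add C x4158) x4162) x4178) x4148) x4220) x3842) x2222) x3194) x5624) x8540) x17286)
  (sub (sub (sub (add (add (sub (sub (add (add (sub (sub C x4170) x4162) x4132) x4204) x4222) x3844) x2224) x3196) x5626) x8542) x10728)
  (sub (add (sub (sub (add (add (sub (sub (add (add (add (add (sub C x4168) x4158) x4182) x4134) x4206) x4224) x3846) x2226) x3198) x5628) x8544) x10732) x17294)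
  (add (sub (sub (add (add (sub (sub (sub (sub (sub C x4182) x4166) x4196) x4232) x3854) x2234) x3206) x5636) x8552) x17298)
  (sub (add (sub (sub (add (add (sub (sub (sub (add (add (sub C x4178) x4158) x4170) x4200) x4236) x3858) x2238) x3210) x5640) x8556) x10744) x17306)
  (add (sub (sub (add (add (sub (sub (sub (sub (sub C x4192) x4196) x4154) x4298) x3866) x2246) x3218) x5648) x8564) x17310)
  (sub (sub (sub (add (add (sub (sub (sub (sub (sub C x4190) x4204) x4156) x4300) x3868) x2248) x3220) x5650) x8566) x10752)
  (add (sub (sub (add (add (sub (sub (sub (sub (sub C x4200) x4190) x4178) x4304) x3872) x2252) x3224) x5654) x8570) x17316)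
  (sub (add (sub (sub (add (add (sub (sub (sub (sub (sub C x4196) x4206) x4182) x4308) x3876) x2256) x3228) x5658) x8574) x10762) x17324)
  (sub (sub (sub (add (add (sub (sub (add (add (sub (sub C x4206) x4192) x4132) x4168) x4312) x3880) x2260) x3232) x5662) x8578) x10764)
  (sub (add (sub (sub (add (add (sub (sub (add (add (sub (sub C x4204) x4200) x4134) x4170) x4314) x3882) x2262) x3234) x5664) x8580) x10768) x17330)
  (sub (add (sub (sub (add (add (sub (sub (add (add (add (add (add (add C x4216) x4220) x4224) x4236) x4248) x4284) x4158) x4050) x2268) x3240) x5670) x8586) x10774) x17336)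
  (sub (sub (sub (add (add (sub (sub (add (add (sub (add (add C x4212) x4220) x4222) x4252) x4288) x4162) x4054) x2272) x3244) x5674) x8590) x10776)
  (add (sub (sub (add (add (sub (sub (add (add (sub (add (add C x4212) x4216) x4232) x4256) x4292) x4166) x4058) x2276) x3248) x5678) x8594) x17340)
  (sub (sub (sub (add (add (sub (sub (sub (sub (sub C x4224) x4216) x4240) x4168) x4060) x2278) x3250) x5680) x8596) x10782)
  (sub (add (sub (sub (add (add (sub (sub (sub (add (add (sub C x4222) x4212) x4236) x4242) x4170) x4062) x2280) x3252) x5682) x8598) x10786) x17348)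
  (add (sub (sub (add (add (sub (sub (sub (sub (sub C x4236) x4220) x4268) x4178) x4070) x2288) x3260) x5690) x8606) x17352)
  (sub (add (sub (sub (add (add (sub (sub (sub (add (add (sub C x4232) x4212) x4224) x4272) x4182) x4074) x2292) x3264) x5694) x8610) x10798) x17360)
  (sub (sub (sub (add (add (sub (add (add (sub (add (add (sub C x4242) x4252) x4264) x4222) x4132) x4348) x4078) x2296) x3268) x5698) x8614) x10800)
  (sub (add (sub (sub (add (add (sub (add (add (sub (sub (sub C x4240) x4248) x4224) x4134) x4350) x4080) x2298) x3270) x5700) x8616) x10804) x17366)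
  (sub (add (sub (sub (add (add (sub (add (add (add (add (sub (add (add C x4252) x4256) x4242) x4212) x4284) x4140) x4356) x4086) x2304) x3276) x5706) x8622) x10810) x17372)
  (sub (sub (sub (add (add (sub (add (add (add (add (add (add (add (add C x4248) x4256) x4240) x4264) x4216) x4288) x4144) x4360) x4090) x2308) x3280) x5710) x8626) x10812)
  (add (sub (sub (add (add (sub (add (add (add (add (sub (add (add C x4248) x4252) x4262) x4220) x4292) x4148) x4364) x4094) x2312) x3284) x5714) x8630) x17376)
  (add (sub (sub (add (add (sub (add (add (sub (sub (sub C x4264) x4256) x4280) x4154) x4370) x4100) x2318) x3290) x5720) x8636) x17382)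
  (sub (sub (sub (add (add (sub (add (add (sub (add (add (sub C x4262) x4240) x4252) x4282) x4156) x4372) x4102) x2320) x3292) x5722) x8638) x10824)
  (add (sub (sub (add (add (sub (sub (sub (add (add (sub C x4272) x4280) x4292) x4232) x4322) x4106) x2324) x3296) x5726) x8642) x17388)
  (sub (add (sub (sub (add (add (sub (sub (sub (sub (sub C x4268) x4284) x4236) x4326) x4110) x2328) x3300) x5730) x8646) x10834) x17396)
  (add (sub (sub (add (add (sub (sub (sub (add (add (sub C x4282) x4268) x4292) x4262) x4334) x4118) x2336) x3308) x5738) x8654) x17400)
  (sub (sub (sub (add (add (sub (sub (sub (sub (sub C x4280) x4288) x4264) x4336) x4120) x2338) x3310) x5740) x8656) x10842)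
  (sub (add (sub (sub (add (add (sub (sub (add (add (sub (add (add C x4288) x4292) x4272) x4212) x4248) x4338) x4122) x2340) x3312) x5742) x8658) x10846) x17408)
  (sub (sub (sub (add (add (sub (sub (add (add (sub (add (add C x4284) x4292) x4282) x4216) x4252) x4342) x4126) x2344) x3316) x5746) x8662) x10848)
  (add (sub (sub (add (add (sub (sub (add (add (add (add (add (add C x4284) x4288) x4268) x4280) x4220) x4256) x4346) x4130) x2348) x3320) x5750) x8666) x17412)
  (add (sub (sub (add (add (add (add (sub (add (add (sub (sub C x4300) x4304) x4334) x4370) x4190) x3650) x3974) x2354) x3326) x5756) x8672) x17418)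
  (sub (sub (sub (add (add (add (add (sub (add (add (sub (sub C x4298) x4312) x4336) x4372) x4192) x3652) x3976) x2356) x3328) x5758) x8674) x10860)
  (add (sub (sub (add (add (add (add (sub (sub (sub (sub C x4308) x4298) x4322) x4196) x3656) x3980) x2360) x3332) x5762) x8678) x17424)
  (sub (add (sub (sub (add (add (add (add (sub (sub (sub (sub C x4304) x4314) x4326) x4200) x3660) x3984) x2364) x3336) x5766) x8682) x10870) x17432)
  (sub (sub (sub (add (add (add (add (sub (sub (sub (sub C x4314) x4300) x4348) x4204) x3664) x3988) x2368) x3340) x5770) x8686) x10872)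
  (sub (add (sub (sub (add (add (add (add (sub (sub (sub (sub C x4312) x4308) x4350) x4206) x3666) x3990) x2370) x3342) x5772) x8688) x10876) x17438)
  (add (sub (sub (add (add (add (add (sub (sub (add (add (sub C x4326) x4334) x4346) x4304) x4268) x3674) x3998) x2378) x3350) x5780) x8696) x17442)
  (sub (add (sub (sub (add (add (add (add (sub (sub (sub (sub C x4322) x4338) x4308) x4272) x3678) x4002) x2382) x3354) x5784) x8700) x10888) x17450)
  (add (sub (sub (add (add (add (add (sub (add (add (add (add (sub C x4336) x4322) x4346) x4298) x4370) x4280) x3686) x4010) x2390) x3362) x5792) x8708) x17454)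
  (sub (sub (sub (add (add (add (add (sub (add (add (sub (sub C x4334) x4342) x4300) x4372) x4282) x3688) x4012) x2392) x3364) x5794) x8710) x10896)
  (sub (add (sub (sub (add (add (add (add (sub (sub (sub (add (add C x4342) x4346) x4326) x4356) x4284) x3690) x4014) x2394) x3366) x5796) x8712) x10900) x17462)
  (sub (sub (sub (add (add (add (add (sub (sub (sub (add (add C x4338) x4346) x4336) x4360) x4288) x3694) x4018) x2398) x3370) x5800) x8716) x10902)
  (add (sub (sub (add (add (add (add (sub (sub (add (add (add (add C x4338) x4342) x4322) x4334) x4364) x4292) x3698) x4022) x2402) x3374) x5804) x8720) x17466)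
  (sub (sub (sub (add (add (add (add (add (add (sub (add (add (sub C x4350) x4360) x4372) x4312) x4132) x4240) x3700) x4024) x2404) x3376) x5806) x8722) x10908)
  (sub (add (sub (sub (add (add (add (add (add (add (sub (sub (sub C x4348) x4356) x4314) x4134) x4242) x3702) x4026) x2406) x3378) x5808) x8724) x10912) x17474)
  (sub (add (sub (sub (add (add (add (add (add (add (sub (sub (add (add C x4360) x4364) x4350) x4338) x4140) x4248) x3708) x4032) x2412) x3384) x5814) x8730) x10918) x17480)
  (sub (sub (sub (add (add (add (add (add (add (sub (add (add (add (add C x4356) x4364) x4348) x4372) x4342) x4144) x4252) x3712) x4036) x2416) x3388) x5818) x8734) x10920)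
  (add (sub (sub (add (add (add (add (add (add (sub (sub (add (add C x4356) x4360) x4370) x4346) x4148) x4256) x3716) x4040) x2420) x3392) x5822) x8738) x17484)
  (add (sub (sub (add (add (add (add (add (add (add (add (sub (sub C x4372) x4364) x4298) x4334) x4154) x4262) x3722) x4046) x2426) x3398) x5828) x8744) x17490)
  (sub (sub (sub (add (add (add (add (add (add (add (add (add (add (sub C x4370) x4348) x4360) x4300) x4336) x4156) x4264) x3724) x4048) x2428) x3400) x5830) x8746) x10932)
  (add (sub (sub (add (add (add (add (add (add (add (add (add (add (sub C x4380) x4388) x4400) x4412) x4448) x4484) x4592) x4700) x5024) x5348) x6320) x1460) x13124) x17496)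
  (sub (add (sub (sub (add (add (add (add (add (add (add (add (sub (sub C x4376) x4392) x4416) x4452) x4488) x4596) x4704) x5028) x5352) x6324) x1464) x13128) x10942) x17504)
  (add (sub (sub (add (add (add (add (add (add (sub (add (add (sub C x4390) x4376) x4400) x4406) x4496) x4604) x4712) x5036) x5360) x6332) x1472) x13136) x17508)
  (sub (sub (sub (add (add (add (add (add (add (sub (sub (sub C x4388) x4396) x4408) x4498) x4606) x4714) x5038) x5362) x6334) x1474) x13138) x10950)
  (sub (add (sub (sub (add (add (add (add (add (add (sub (sub (add (add C x4396) x4400) x4380) x4428) x4500) x4608) x4716) x5040) x5364) x6336) x1476) x13140) x10954) x17516)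
  (sub (sub (sub (add (add (add (add (add (add (sub (sub (add (add C x4392) x4400) x4390) x4432) x4504) x4612) x4720) x5044) x5368) x6340) x1480) x13144) x10956)
  (add (sub (sub (add (add (add (add (add (add (sub (add (add (add (add C x4392) x4396) x4376) x4388) x4436) x4508) x4616) x4724) x5048) x5372) x6344) x1484) x13148) x17520)
  (add (sub (sub (add (add (add (add (sub (sub (sub (sub C x4408) x4412) x4388) x4460) x4730) x5054) x5378) x6350) x1490) x13154) x17526)
  (sub (sub (sub (add (add (add (add (sub (sub (sub (sub C x4406) x4420) x4390) x4462) x4732) x5056) x5380) x6352) x1492) x13156) x10968)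
  (add (sub (sub (add (add (add (add (sub (add (add (sub (sub C x4416) x4406) x4376) x4448) x4466) x4736) x5060) x5384) x6356) x1496) x13160) x17532)
  (sub (add (sub (sub (add (add (add (add (sub (add (add (sub (sub C x4412) x4422) x4380) x4452) x4470) x4740) x5064) x5388) x6360) x1500) x13164) x10978) x17540)
  (sub (sub (sub (add (add (add (add (sub (sub (sub (sub C x4422) x4408) x4438) x4474) x4744) x5068) x5392) x6364) x1504) x13168) x10980)
  (sub (add (sub (sub (add (add (add (add (sub (sub (sub (sub C x4420) x4416) x4440) x4476) x4746) x5070) x5394) x6366) x1506) x13170) x10984) x17546)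
  (sub (add (sub (sub (add (add (add (add (sub (sub (add (add (add (add C x4432) x4436) x4440) x4452) x4392) x4536) x4752) x5076) x5400) x6372) x1512) x13176) x10990) x17552)
  (sub (sub (sub (add (add (add (add (sub (sub (sub (add (add C x4428) x4436) x4438) x4396) x4540) x4756) x5080) x5404) x6376) x1516) x13180) x10992)
  (add (sub (sub (add (add (add (add (sub (sub (sub (add (add C x4428) x4432) x4448) x4400) x4544) x4760) x5084) x5408) x6380) x1520) x13184) x17556)
  (sub (sub (sub (add (add (add (add (sub (sub (sub (sub C x4440) x4432) x4420) x4546) x4762) x5086) x5410) x6382) x1522) x13186) x10998)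
  (sub (add (sub (sub (add (add (add (add (sub (sub (add (add (sub C x4438) x4428) x4452) x4422) x4548) x4764) x5088) x5412) x6384) x1524) x13188) x11002) x17564)
  (add (sub (sub (add (add (add (add (sub (add (add (sub (sub C x4452) x4436) x4376) x4412) x4556) x4772) x5096) x5420) x6392) x1532) x13196) x17568)
  (sub (add (sub (sub (add (add (add (add (sub (add (add (add (add (sub C x4448) x4428) x4440) x4380) x4416) x4560) x4776) x5100) x5424) x6396) x1536) x13200) x11014) x17576)
  (add (sub (sub (add (add (sub (sub (add (add (sub (sub C x4462) x4466) x4496) x4532) x4406) x4622) x5432) x6404) x1544) x13208) x17580)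
  (sub (sub (sub (add (add (sub (sub (add (add (sub (sub C x4460) x4474) x4498) x4534) x4408) x4624) x5434) x6406) x1546) x13210) x11022)
  (add (sub (sub (add (add (sub (sub (sub (sub (sub C x4470) x4460) x4484) x4412) x4628) x5438) x6410) x1550) x13214) x17586)
  (sub (add (sub (sub (add (add (sub (sub (sub (sub (sub C x4466) x4476) x4488) x4416) x4632) x5442) x6414) x1554) x13218) x11032) x17594)
  (sub (sub (sub (add (add (sub (sub (sub (sub (sub C x4476) x4462) x4510) x4420) x4636) x5446) x6418) x1558) x13222) x11034)
  (sub (add (sub (sub (add (add (sub (sub (sub (sub (sub C x4474) x4470) x4512) x4422) x4638) x5448) x6420) x1560) x13224) x11038) x17600)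
  (add (sub (sub (add (add (sub (add (add (sub (add (add (sub C x4488) x4496) x4508) x4466) x4376) x4592) x4646) x5456) x6428) x1568) x13232) x17604)
  (sub (add (sub (sub (add (add (sub (add (add (sub (sub (sub C x4484) x4500) x4470) x4380) x4596) x4650) x5460) x6432) x1572) x13236) x11050) x17612)
  (add (sub (sub (add (add (sub (add (add (add (add (add (add (sub C x4498) x4484) x4508) x4460) x4532) x4388) x4604) x4658) x5468) x6440) x1580) x13244) x17616)
  (sub (sub (sub (add (add (sub (add (add (add (add (sub (sub C x4496) x4504) x4462) x4534) x4390) x4606) x4660) x5470) x6442) x1582) x13246) x11058)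
  (sub (add (sub (sub (add (add (sub (add (add (sub (sub (add (add C x4504) x4508) x4488) x4518) x4392) x4608) x4662) x5472) x6444) x1584) x13248) x11062) x17624)
  (sub (sub (sub (add (add (sub (add (add (sub (sub (add (add C x4500) x4508) x4498) x4522) x4396) x4612) x4666) x5476) x6448) x1588) x13252) x11064)
  (add (sub (sub (add (add (sub (add (add (sub (add (add (add (add C x4500) x4504) x4484) x4496) x4526) x4400) x4616) x4670) x5480) x6452) x1592) x13256) x17628)
  (sub (sub (sub (add (add (sub (sub (sub (add (add (sub C x4512) x4522) x4534) x4474) x4564) x4672) x5482) x6454) x1594) x13258) x11070)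
  (sub (add (sub (sub (add (add (sub (sub (sub (sub (sub C x4510) x4518) x4476) x4566) x4674) x5484) x6456) x1596) x13260) x11074) x17636)
  (sub (add (sub (sub (add (add (sub (sub (sub (sub (add (add C x4522) x4526) x4512) x4500) x4572) x4680) x5490) x6462) x1602) x13266) x11080) x17642)
  (sub (sub (sub (add (add (sub (sub (sub (add (add (add (add C x4518) x4526) x4510) x4534) x4504) x4576) x4684) x5494) x6466) x1606) x13270) x11082)
  (add (sub (sub (add (add (sub (sub (sub (sub (add (add C x4518) x4522) x4532) x4508) x4580) x4688) x5498) x6470) x1610) x13274) x17646)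
  (add (sub (sub (add (add (sub (sub (add (add (sub (sub C x4534) x4526) x4460) x4496) x4586) x4694) x5504) x6476) x1616) x13280) x17652)
  (sub (sub (sub (add (add (sub (sub (add (add (add (add (sub C x4532) x4510) x4522) x4462) x4498) x4588) x4696) x5506) x6478) x1618) x13282) x11094)
  (sub (add (sub (sub (add (add (sub (sub (add (add (add (add (add (add C x4540) x4544) x4548) x4560) x4572) x4608) x4428) x4860) x5508) x6480) x1620) x13284) x11098) x17660)
  (sub (sub (sub (add (add (sub (sub (add (add (sub (add (add C x4536) x4544) x4546) x4576) x4612) x4432) x4864) x5512) x6484) x1624) x13288) x11100)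
  (add (sub (sub (add (add (sub (sub (add (add (sub (add (add C x4536) x4540) x4556) x4580) x4616) x4436) x4868) x5516) x6488) x1628) x13292) x17664)
  (sub (sub (sub (add (add (sub (sub (sub (sub (sub C x4548) x4540) x4564) x4438) x4870) x5518) x6490) x1630) x13294) x11106)
  (sub (add (sub (sub (add (add (sub (sub (sub (add (add (sub C x4546) x4536) x4560) x4566) x4440) x4872) x5520) x6492) x1632) x13296) x11110) x17672)
  (add (sub (sub (add (add (sub (sub (sub (sub (sub C x4560) x4544) x4592) x4448) x4880) x5528) x6500) x1640) x13304) x17676)
  (sub (add (sub (sub (add (add (sub (sub (sub (add (add (sub C x4556) x4536) x4548) x4596) x4452) x4884) x5532) x6504) x1644) x13308) x11122) x17684)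
  (sub (sub (sub (add (add (sub (sub (sub (add (add (sub C x4566) x4576) x4588) x4546) x4510) x4888) x5536) x6508) x1648) x13312) x11124)
  (sub (add (sub (sub (add (add (sub (sub (sub (sub (sub C x4564) x4572) x4548) x4512) x4890) x5538) x6510) x1650) x13314) x11128) x17690)
  (sub (add (sub (sub (add (add (sub (sub (add (add (sub (add (add C x4576) x4580) x4566) x4536) x4608) x4518) x4896) x5544) x6516) x1656) x13320) x11134) x17696)
  (sub (sub (sub (add (add (sub (sub (add (add (add (add (add (add C x4572) x4580) x4564) x4588) x4540) x4612) x4522) x4900) x5548) x6520) x1660) x13324) x11136)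
  (add (sub (sub (add (add (sub (sub (add (add (sub (add (add C x4572) x4576) x4586) x4544) x4616) x4526) x4904) x5552) x6524) x1664) x13328) x17700)
  (add (sub (sub (add (add (sub (sub (sub (sub (sub C x4588) x4580) x4604) x4532) x4910) x5558) x6530) x1670) x13334) x17706)
  (sub (sub (sub (add (add (sub (sub (sub (add (add (sub C x4586) x4564) x4576) x4606) x4534) x4912) x5560) x6532) x1672) x13336) x11148)
  (add (sub (sub (add (add (sub (add (add (sub (add (add (sub C x4596) x4604) x4616) x4556) x4376) x4484) x4916) x5564) x6536) x1676) x13340) x17712)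
  (sub (add (sub (sub (add (add (sub (add (add (sub (sub (sub C x4592) x4608) x4560) x4380) x4488) x4920) x5568) x6540) x1680) x13344) x11158) x17720)
  (add (sub (sub (add (add (sub (add (add (sub (add (add (sub C x4606) x4592) x4616) x4586) x4388) x4496) x4928) x5576) x6548) x1688) x13352) x17724)
  (sub (sub (sub (add (add (sub (add (add (sub (sub (sub C x4604) x4612) x4588) x4390) x4498) x4930) x5578) x6550) x1690) x13354) x11166)
  (sub (add (sub (sub (add (add (sub (add (add (add (add (sub (add (add C x4612) x4616) x4596) x4536) x4572) x4392) x4500) x4932) x5580) x6552) x1692) x13356) x11170) x17732)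
  (sub (sub (sub (add (add (sub (add (add (add (add (sub (add (add C x4608) x4616) x4606) x4540) x4576) x4396) x4504) x4936) x5584) x6556) x1696) x13360) x11172)
  (add (sub (sub (add (add (sub (add (add (add (add (add (add (add (add C x4608) x4612) x4592) x4604) x4544) x4580) x4400) x4508) x4940) x5588) x6560) x1700) x13364) x17736)
  (add (sub (sub (sub (sub (add (add (add (add (sub (sub C x4624) x4628) x4658) x4694) x4730) x4838) x4460) x5108) x1706) x13370) x17742)
  (sub (sub (sub (sub (sub (add (add (add (add (sub (sub C x4622) x4636) x4660) x4696) x4732) x4840) x4462) x5110) x1708) x13372) x11184)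
  (add (sub (sub (sub (sub (add (add (sub (sub (sub C x4632) x4622) x4646) x4736) x4844) x4466) x5114) x1712) x13376) x17748)
  (sub (add (sub (sub (sub (sub (add (add (sub (sub (sub C x4628) x4638) x4650) x4740) x4848) x4470) x5118) x1716) x13380) x11194) x17756)
  (sub (sub (sub (sub (sub (add (add (sub (sub (sub C x4638) x4624) x4672) x4744) x4852) x4474) x5122) x1720) x13384) x11196)
  (sub (add (sub (sub (sub (sub (add (add (sub (sub (sub C x4636) x4632) x4674) x4746) x4854) x4476) x5124) x1722) x13386) x11200) x17762)
  (add (sub (sub (sub (sub (sub (sub (add (add (sub C x4650) x4658) x4670) x4628) x4700) x4484) x5132) x1730) x13394) x17766)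
  (sub (add (sub (sub (sub (sub (sub (sub (sub (sub C x4646) x4662) x4632) x4704) x4488) x5136) x1734) x13398) x11212) x17774)
  (add (sub (sub (sub (sub (sub (add (add (add (add (sub C x4660) x4646) x4670) x4622) x4694) x4712) x4496) x5144) x1742) x13406) x17778)
  (sub (sub (sub (sub (sub (sub (add (add (sub (sub C x4658) x4666) x4624) x4696) x4714) x4498) x5146) x1744) x13408) x11220)
  (sub (add (sub (sub (sub (sub (sub (sub (sub (add (add C x4666) x4670) x4650) x4680) x4716) x4500) x5148) x1746) x13410) x11224) x17786)
  (sub (sub (sub (sub (sub (sub (sub (sub (add (add C x4662) x4670) x4660) x4684) x4720) x4504) x5152) x1750) x13414) x11226)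
  (add (sub (sub (sub (sub (sub (sub (add (add (add (add C x4662) x4666) x4646) x4658) x4688) x4724) x4508) x5156) x1754) x13418) x17790)
  (sub (sub (sub (sub (sub (sub (sub (add (add (sub C x4674) x4684) x4696) x4636) x4780) x4510) x5158) x1756) x13420) x11232)
  (sub (add (sub (sub (sub (sub (sub (sub (sub (sub C x4672) x4680) x4638) x4782) x4512) x5160) x1758) x13422) x11236) x17798)
  (sub (add (sub (sub (sub (sub (sub (sub (sub (add (add C x4684) x4688) x4674) x4662) x4788) x4518) x5166) x1764) x13428) x11242) x17804)
  (sub (sub (sub (sub (sub (sub (sub (add (add (add (add C x4680) x4688) x4672) x4696) x4666) x4792) x4522) x5170) x1768) x13432) x11244)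
  (add (sub (sub (sub (sub (sub (sub (sub (add (add C x4680) x4684) x4694) x4670) x4796) x4526) x5174) x1772) x13436) x17808)
  (add (sub (sub (sub (sub (sub (add (add (sub (sub C x4696) x4688) x4622) x4658) x4802) x4532) x5180) x1778) x13442) x17814)
  (sub (sub (sub (sub (sub (sub (add (add (add (add (sub C x4694) x4672) x4684) x4624) x4660) x4804) x4534) x5182) x1780) x13444) x11256)
  (add (sub (sub (sub (add (add (sub (add (add (add (add (sub C x4704) x4712) x4724) x4736) x4772) x4646) x4376) x5024) x5186) x1784) x13448) x17820)
  (sub (add (sub (sub (sub (add (add (sub (add (add (sub (sub C x4700) x4716) x4740) x4776) x4650) x4380) x5028) x5190) x1788) x13452) x11266) x17828)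
  (add (sub (sub (sub (add (add (sub (sub (add (add (sub C x4714) x4700) x4724) x4730) x4658) x4388) x5036) x5198) x1796) x13460) x17832)
  (sub (sub (sub (sub (add (add (sub (sub (sub (sub C x4712) x4720) x4732) x4660) x4390) x5038) x5200) x1798) x13462) x11274)
  (sub (add (sub (sub (sub (add (add (sub (sub (sub (add (add C x4720) x4724) x4704) x4752) x4662) x4392) x5040) x5202) x1800) x13464) x11278) x17840)
  (sub (sub (sub (sub (add (add (sub (sub (sub (add (add C x4716) x4724) x4714) x4756) x4666) x4396) x5044) x5206) x1804) x13468) x11280)
  (add (sub (sub (sub (add (add (sub (sub (add (add (add (add C x4716) x4720) x4700) x4712) x4760) x4670) x4400) x5048) x5210) x1808) x13472) x17844)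
  (add (sub (sub (sub (add (add (add (add (sub (sub (sub C x4732) x4736) x4712) x4622) x4838) x4406) x5054) x5216) x1814) x13478) x17850)
  (sub (sub (sub (sub (add (add (add (add (sub (sub (sub C x4730) x4744) x4714) x4624) x4840) x4408) x5056) x5218) x1816) x13480) x11292)
  (add (sub (sub (sub (add (add (add (add (add (add (sub (sub C x4740) x4730) x4700) x4772) x4628) x4844) x4412) x5060) x5222) x1820) x13484) x17856)
  (sub (add (sub (sub (sub (add (add (add (add (add (add (sub (sub C x4736) x4746) x4704) x4776) x4632) x4848) x4416) x5064) x5226) x1824) x13488) x11302) x17864)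
  (sub (sub (sub (sub (add (add (add (add (sub (sub (sub C x4746) x4732) x4762) x4636) x4852) x4420) x5068) x5230) x1828) x13492) x11304)
  (sub (add (sub (sub (sub (add (add (add (add (sub (sub (sub C x4744) x4740) x4764) x4638) x4854) x4422) x5070) x5232) x1830) x13494) x11308) x17870)
  (sub (add (sub (sub (sub (add (add (sub (sub (add (add (add (add C x4756) x4760) x4764) x4776) x4716) x4806) x4428) x5076) x5238) x1836) x13500) x11314) x17876)
  (sub (sub (sub (sub (add (add (sub (sub (sub (add (add C x4752) x4760) x4762) x4720) x4810) x4432) x5080) x5242) x1840) x13504) x11316)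
  (add (sub (sub (sub (add (add (sub (sub (sub (add (add C x4752) x4756) x4772) x4724) x4814) x4436) x5084) x5246) x1844) x13508) x17880)
  (sub (sub (sub (sub (add (add (sub (sub (sub (sub C x4764) x4756) x4744) x4816) x4438) x5086) x5248) x1846) x13510) x11322)
  (sub (add (sub (sub (sub (add (add (sub (sub (add (add (sub C x4762) x4752) x4776) x4746) x4818) x4440) x5088) x5250) x1848) x13512) x11326) x17888)
  (add (sub (sub (sub (add (add (sub (add (add (sub (sub C x4776) x4760) x4700) x4736) x4826) x4448) x5096) x5258) x1856) x13520) x17892)
  (sub (add (sub (sub (sub (add (add (sub (add (add (add (add (sub C x4772) x4752) x4764) x4704) x4740) x4830) x4452) x5100) x5262) x1860) x13524) x11338) x17900)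
  (sub (sub (sub (sub (sub (sub (add (add (add (add (sub C x4782) x4792) x4804) x4816) x4852) x4672) x4942) x5266) x1864) x13528) x11340)
  (sub (add (sub (sub (sub (sub (sub (add (add (sub (sub C x4780) x4788) x4818) x4854) x4674) x4944) x5268) x1866) x13530) x11344) x17906)
  (sub (add (sub (sub (sub (sub (sub (sub (sub (add (add C x4792) x4796) x4782) x4806) x4680) x4950) x5274) x1872) x13536) x11350) x17912)
  (sub (sub (sub (sub (sub (sub (sub (add (add (add (add C x4788) x4796) x4780) x4804) x4810) x4684) x4954) x5278) x1876) x13540) x11352)
  (add (sub (sub (sub (sub (sub (sub (sub (add (add C x4788) x4792) x4802) x4814) x4688) x4958) x5282) x1880) x13544) x17916)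
  (add (sub (sub (sub (sub (sub (sub (sub (sub C x4804) x4796) x4838) x4694) x4964) x5288) x1886) x13550) x17922)
  (sub (sub (sub (sub (sub (sub (sub (add (add (sub C x4802) x4780) x4792) x4840) x4696) x4966) x5290) x1888) x13552) x11364)
  (sub (add (sub (sub (sub (sub (sub (sub (add (add (add (add C x4810) x4814) x4818) x4830) x4788) x4752) x4968) x5292) x1890) x13554) x11368) x17930)
  (sub (sub (sub (sub (sub (sub (sub (sub (add (add C x4806) x4814) x4816) x4792) x4756) x4972) x5296) x1894) x13558) x11370)
  (add (sub (sub (sub (sub (sub (sub (sub (add (add C x4806) x4810) x4826) x4796) x4760) x4976) x5300) x1898) x13562) x17934)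
  (sub (sub (sub (sub (sub (sub (add (add (sub (sub C x4818) x4810) x4780) x4852) x4762) x4978) x5302) x1900) x13564) x11376)
  (sub (add (sub (sub (sub (sub (sub (add (add (add (add (sub C x4816) x4806) x4830) x4782) x4854) x4764) x4980) x5304) x1902) x13566) x11380) x17942)
  (add (sub (sub (sub (sub (sub (sub (sub (sub C x4830) x4814) x4844) x4772) x4988) x5312) x1910) x13574) x17946)
  (sub (add (sub (sub (sub (sub (sub (sub (add (add (sub C x4826) x4806) x4818) x4848) x4776) x4992) x5316) x1914) x13578) x11392) x17954)
  (add (sub (sub (sub (sub (add (add (sub (sub (sub C x4840) x4844) x4802) x4622) x4730) x5000) x5324) x1922) x13586) x17958)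
  (sub (sub (sub (sub (sub (add (add (sub (sub (sub C x4838) x4852) x4804) x4624) x4732) x5002) x5326) x1924) x13588) x11400)
  (add (sub (sub (sub (sub (add (add (sub (sub (sub C x4848) x4838) x4826) x4628) x4736) x5006) x5330) x1928) x13592) x17964)
  (sub (add (sub (sub (sub (sub (add (add (sub (sub (sub C x4844) x4854) x4830) x4632) x4740) x5010) x5334) x1932) x13596) x11410) x17972)
  (sub (sub (sub (sub (sub (add (add (add (add (sub (sub C x4854) x4840) x4780) x4816) x4636) x4744) x5014) x5338) x1936) x13600) x11412)
  (sub (add (sub (sub (sub (sub (add (add (add (add (sub (sub C x4852) x4848) x4782) x4818) x4638) x4746) x5016) x5340) x1938) x13602) x11416) x17978)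
  (sub (add (sub (sub (sub (sub (add (add (add (add (add (add (add (add C x4864) x4868) x4872) x4884) x4896) x4932) x4968) x5076) x4536) x5832) x1944) x13608) x11422) x17984)
  (sub (sub (sub (sub (sub (add (add (add (add (sub (add (add C x4860) x4868) x4870) x4900) x4936) x4972) x5080) x4540) x5836) x1948) x13612) x11424)
  (add (sub (sub (sub (sub (add (add (add (add (sub (add (add C x4860) x4864) x4880) x4904) x4940) x4976) x5084) x4544) x5840) x1952) x13616) x17988)
  (sub (sub (sub (sub (sub (add (add (sub (sub (sub C x4872) x4864) x4888) x4978) x5086) x4546) x5842) x1954) x13618) x11430)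
  (sub (add (sub (sub (sub (sub (add (add (sub (add (add (sub C x4870) x4860) x4884) x4890) x4980) x5088) x4548) x5844) x1956) x13620) x11434) x17996)
  (add (sub (sub (sub (sub (add (add (sub (sub (sub C x4884) x4868) x4916) x4988) x5096) x4556) x5852) x1964) x13628) x18000)
  (sub (add (sub (sub (sub (sub (add (add (sub (add (add (sub C x4880) x4860) x4872) x4920) x4992) x5100) x4560) x5856) x1968) x13632) x11446) x18008)
  (sub (sub (sub (sub (sub (sub (sub (add (add (sub C x4890) x4900) x4912) x4870) x4942) x4564) x5860) x1972) x13636) x11448)
  (sub (add (sub (sub (sub (sub (sub (sub (sub (sub C x4888) x4896) x4872) x4944) x4566) x5862) x1974) x13638) x11452) x18014)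
  (sub (add (sub (sub (sub (sub (sub (add (add (sub (add (add C x4900) x4904) x4890) x4860) x4932) x4950) x4572) x5868) x1980) x13644) x11458) x18020)
  (sub (sub (sub (sub (sub (sub (add (add (add (add (add (add C x4896) x4904) x4888) x4912) x4864) x4936) x4954) x4576) x5872) x1984) x13648) x11460)
  (add (sub (sub (sub (sub (sub (add (add (sub (add (add C x4896) x4900) x4910) x4868) x4940) x4958) x4580) x5876) x1988) x13652) x18024)
  (add (sub (sub (sub (sub (sub (sub (sub (sub C x4912) x4904) x4928) x4964) x4586) x5882) x1994) x13658) x18030)
  (sub (sub (sub (sub (sub (sub (sub (add (add (sub C x4910) x4888) x4900) x4930) x4966) x4588) x5884) x1996) x13660) x11472)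
  (add (sub (sub (sub (sub (sub (sub (add (add (sub C x4920) x4928) x4940) x4880) x5024) x4592) x5888) x2000) x13664) x18036)
  (sub (add (sub (sub (sub (sub (sub (sub (sub (sub C x4916) x4932) x4884) x5028) x4596) x5892) x2004) x13668) x11482) x18044)
  (add (sub (sub (sub (sub (sub (sub (add (add (sub C x4930) x4916) x4940) x4910) x5036) x4604) x5900) x2012) x13676) x18048)
  (sub (sub (sub (sub (sub (sub (sub (sub (sub C x4928) x4936) x4912) x5038) x4606) x5902) x2014) x13678) x11490)
  (sub (add (sub (sub (sub (sub (sub (add (add (sub (add (add C x4936) x4940) x4920) x4860) x4896) x5040) x4608) x5904) x2016) x13680) x11494) x18056)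
  (sub (sub (sub (sub (sub (sub (add (add (sub (add (add C x4932) x4940) x4930) x4864) x4900) x5044) x4612) x5908) x2020) x13684) x11496)
  (add (sub (sub (sub (sub (sub (add (add (add (add (add (add C x4932) x4936) x4916) x4928) x4868) x4904) x5048) x4616) x5912) x2024) x13688) x18060)
  (sub (sub (sub (sub (sub (sub (add (add (add (add (sub C x4944) x4954) x4966) x4978) x5014) x4888) x4780) x5914) x2026) x13690) x11502)
  (sub (add (sub (sub (sub (sub (sub (add (add (sub (sub C x4942) x4950) x4980) x5016) x4890) x4782) x5916) x2028) x13692) x11506) x18068)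
  (sub (add (sub (sub (sub (sub (sub (sub (sub (add (add C x4954) x4958) x4944) x4968) x4896) x4788) x5922) x2034) x13698) x11512) x18074)
  (sub (sub (sub (sub (sub (sub (sub (add (add (add (add C x4950) x4958) x4942) x4966) x4972) x4900) x4792) x5926) x2038) x13702) x11514)
  (add (sub (sub (sub (sub (sub (sub (sub (add (add C x4950) x4954) x4964) x4976) x4904) x4796) x5930) x2042) x13706) x18078)
  (add (sub (sub (sub (sub (sub (sub (sub (sub C x4966) x4958) x5000) x4910) x4802) x5936) x2048) x13712) x18084)
  (sub (sub (sub (sub (sub (sub (sub (add (add (sub C x4964) x4942) x4954) x5002) x4912) x4804) x5938) x2050) x13714) x11526)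
  (sub (add (sub (sub (sub (sub (add (add (sub (add (add (add (add C x4972) x4976) x4980) x4992) x4950) x4860) x5076) x4806) x5940) x2052) x13716) x11530) x18092)
  (sub (sub (sub (sub (sub (add (add (sub (sub (add (add C x4968) x4976) x4978) x4954) x4864) x5080) x4810) x5944) x2056) x13720) x11532)
  (add (sub (sub (sub (sub (add (add (sub (sub (add (add C x4968) x4972) x4988) x4958) x4868) x5084) x4814) x5948) x2060) x13724) x18096)
  (sub (sub (sub (sub (sub (add (add (add (add (sub (sub C x4980) x4972) x4942) x5014) x4870) x5086) x4816) x5950) x2062) x13726) x11538)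
  (sub (add (sub (sub (sub (sub (add (add (add (add (add (add (sub C x4978) x4968) x4992) x4944) x5016) x4872) x5088) x4818) x5952) x2064) x13728) x11542) x18104)
  (add (sub (sub (sub (sub (add (add (sub (sub (sub C x4992) x4976) x5006) x4880) x5096) x4826) x5960) x2072) x13736) x18108)
  (sub (add (sub (sub (sub (sub (add (add (sub (add (add (sub C x4988) x4968) x4980) x5010) x4884) x5100) x4830) x5964) x2076) x13740) x11554) x18116)
  (add (sub (sub (sub (sub (sub (sub (sub (sub C x5002) x5006) x4964) x5054) x4838) x5972) x2084) x13748) x18120)
  (sub (sub (sub (sub (sub (sub (sub (sub (sub C x5000) x5014) x4966) x5056) x4840) x5974) x2086) x13750) x11562)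
  (add (sub (sub (sub (sub (sub (sub (sub (sub C x5010) x5000) x4988) x5060) x4844) x5978) x2090) x13754) x18126)
  (sub (add (sub (sub (sub (sub (sub (sub (sub (sub C x5006) x5016) x4992) x5064) x4848) x5982) x2094) x13758) x11572) x18134)
  (sub (sub (sub (sub (sub (sub (add (add (sub (sub C x5016) x5002) x4942) x4978) x5068) x4852) x5986) x2098) x13762) x11574)
  (sub (add (sub (sub (sub (sub (sub (add (add (sub (sub C x5014) x5010) x4944) x4980) x5070) x4854) x5988) x2100) x13764) x11578) x18140)
  (add (sub (sub (sub (add (add (sub (add (add (add (add (sub C x5028) x5036) x5048) x5060) x5096) x4916) x4376) x4700) x5996) x2108) x13772) x18144)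
  (sub (add (sub (sub (sub (add (add (sub (add (add (sub (sub C x5024) x5040) x5064) x5100) x4920) x4380) x4704) x6000) x2112) x13776) x11590) x18152)
  (add (sub (sub (sub (add (add (sub (sub (add (add (sub C x5038) x5024) x5048) x5054) x4928) x4388) x4712) x6008) x2120) x13784) x18156)
  (sub (sub (sub (sub (add (add (sub (sub (sub (sub C x5036) x5044) x5056) x4930) x4390) x4714) x6010) x2122) x13786) x11598)
  (sub (add (sub (sub (sub (add (add (sub (sub (sub (add (add C x5044) x5048) x5028) x5076) x4932) x4392) x4716) x6012) x2124) x13788) x11602) x18164)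
  (sub (sub (sub (sub (add (add (sub (sub (sub (add (add C x5040) x5048) x5038) x5080) x4936) x4396) x4720) x6016) x2128) x13792) x11604)
  (add (sub (sub (sub (add (add (sub (sub (add (add (add (add C x5040) x5044) x5024) x5036) x5084) x4940) x4400) x4724) x6020) x2132) x13796) x18168)
  (add (sub (sub (sub (add (add (sub (sub (sub (sub C x5056) x5060) x5036) x5000) x4406) x4730) x6026) x2138) x13802) x18174)
  (sub (sub (sub (sub (add (add (sub (sub (sub (sub C x5054) x5068) x5038) x5002) x4408) x4732) x6028) x2140) x13804) x11616)
  (add (sub (sub (sub (add (add (sub (add (add (sub (sub C x5064) x5054) x5024) x5096) x5006) x4412) x4736) x6032) x2144) x13808) x18180)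
  (sub (add (sub (sub (sub (add (add (sub (add (add (sub (sub C x5060) x5070) x5028) x5100) x5010) x4416) x4740) x6036) x2148) x13812) x11626) x18188)
  (sub (sub (sub (sub (add (add (sub (sub (sub (sub C x5070) x5056) x5086) x5014) x4420) x4744) x6040) x2152) x13816) x11628)
  (sub (add (sub (sub (sub (add (add (sub (sub (sub (sub C x5068) x5064) x5088) x5016) x4422) x4746) x6042) x2154) x13818) x11632) x18194)
  (sub (add (sub (sub (sub (add (add (add (add (sub (add (add (add (add C x5080) x5084) x5088) x5100) x5040) x4860) x4968) x4428) x4752) x6048) x2160) x13824) x11638) x18200)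
  (sub (sub (sub (sub (add (add (add (add (sub (sub (add (add C x5076) x5084) x5086) x5044) x4864) x4972) x4432) x4756) x6052) x2164) x13828) x11640)
  (add (sub (sub (sub (add (add (add (add (sub (sub (add (add C x5076) x5080) x5096) x5048) x4868) x4976) x4436) x4760) x6056) x2168) x13832) x18204)
  (sub (sub (sub (sub (add (add (add (add (sub (sub (sub C x5088) x5080) x5068) x4870) x4978) x4438) x4762) x6058) x2170) x13834) x11646)
  (sub (add (sub (sub (sub (add (add (add (add (sub (add (add (sub C x5086) x5076) x5100) x5070) x4872) x4980) x4440) x4764) x6060) x2172) x13836) x11650) x18212)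
  (add (sub (sub (sub (add (add (add (add (add (add (sub (sub C x5100) x5084) x5024) x5060) x4880) x4988) x4448) x4772) x6068) x2180) x13844) x18216)
  (sub (add (sub (sub (sub (add (add (add (add (add (add (add (add (sub C x5096) x5076) x5088) x5028) x5064) x4884) x4992) x4452) x4776) x6072) x2184) x13848) x11662) x18224)
  (add (sub (sub (sub (add (add (add (add (add (add (sub (sub C x5110) x5114) x5144) x5180) x5216) x5324) x5432) x5756) x4622) x3650) x13856) x18228)
  (sub (sub (sub (sub (add (add (add (add (add (add (sub (sub C x5108) x5122) x5146) x5182) x5218) x5326) x5434) x5758) x4624) x3652) x13858) x11670)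
  (add (sub (sub (sub (add (add (add (add (sub (sub (sub C x5118) x5108) x5132) x5222) x5330) x5438) x5762) x4628) x3656) x13862) x18234)
  (sub (add (sub (sub (sub (add (add (add (add (sub (sub (sub C x5114) x5124) x5136) x5226) x5334) x5442) x5766) x4632) x3660) x13866) x11680) x18242)
  (sub (sub (sub (sub (add (add (add (add (sub (sub (sub C x5124) x5110) x5158) x5230) x5338) x5446) x5770) x4636) x3664) x13870) x11682)
  (sub (add (sub (sub (sub (add (add (add (add (sub (sub (sub C x5122) x5118) x5160) x5232) x5340) x5448) x5772) x4638) x3666) x13872) x11686) x18248)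
  (add (sub (sub (sub (add (add (sub (sub (add (add (sub C x5136) x5144) x5156) x5114) x5186) x5456) x5780) x4646) x3674) x13880) x18252)
  (sub (add (sub (sub (sub (add (add (sub (sub (sub (sub C x5132) x5148) x5118) x5190) x5460) x5784) x4650) x3678) x13884) x11698) x18260)
  (add (sub (sub (sub (add (add (sub (add (add (add (add (sub C x5146) x5132) x5156) x5108) x5180) x5198) x5468) x5792) x4658) x3686) x13892) x18264)
  (sub (sub (sub (sub (add (add (sub (add (add (sub (sub C x5144) x5152) x5110) x5182) x5200) x5470) x5794) x4660) x3688) x13894) x11706)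
  (sub (add (sub (sub (sub (add (add (sub (sub (sub (add (add C x5152) x5156) x5136) x5166) x5202) x5472) x5796) x4662) x3690) x13896) x11710) x18272)
  (sub (sub (sub (sub (add (add (sub (sub (sub (add (add C x5148) x5156) x5146) x5170) x5206) x5476) x5800) x4666) x3694) x13900) x11712)
  (add (sub (sub (sub (add (add (sub (sub (add (add (add (add C x5148) x5152) x5132) x5144) x5174) x5210) x5480) x5804) x4670) x3698) x13904) x18276)
  (sub (sub (sub (sub (add (add (sub (sub (add (add (sub C x5160) x5170) x5182) x5122) x5266) x5482) x5806) x4672) x3700) x13906) x11718)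
  (sub (add (sub (sub (sub (add (add (sub (sub (sub (sub C x5158) x5166) x5124) x5268) x5484) x5808) x4674) x3702) x13908) x11722) x18284)
  (sub (add (sub (sub (sub (add (add (sub (sub (sub (add (add C x5170) x5174) x5160) x5148) x5274) x5490) x5814) x4680) x3708) x13914) x11728) x18290)
  (sub (sub (sub (sub (add (add (sub (sub (add (add (add (add C x5166) x5174) x5158) x5182) x5152) x5278) x5494) x5818) x4684) x3712) x13918) x11730)
  (add (sub (sub (sub (add (add (sub (sub (sub (add (add C x5166) x5170) x5180) x5156) x5282) x5498) x5822) x4688) x3716) x13922) x18294)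
  (add (sub (sub (sub (add (add (sub (add (add (sub (sub C x5182) x5174) x5108) x5144) x5288) x5504) x5828) x4694) x3722) x13928) x18300)
  (sub (sub (sub (sub (add (add (sub (add (add (add (add (sub C x5180) x5158) x5170) x5110) x5146) x5290) x5506) x5830) x4696) x3724) x13930) x11742)
  (add (sub (sub (sub (sub (sub (add (add (add (add (sub C x5190) x5198) x5210) x5222) x5258) x5132) x5348) x4700) x3728) x13934) x18306)
  (sub (add (sub (sub (sub (sub (sub (add (add (sub (sub C x5186) x5202) x5226) x5262) x5136) x5352) x4704) x3732) x13938) x11752) x18314)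
  (add (sub (sub (sub (sub (sub (sub (add (add (sub C x5200) x5186) x5210) x5216) x5144) x5360) x4712) x3740) x13946) x18318)
  (sub (sub (sub (sub (sub (sub (sub (sub (sub C x5198) x5206) x5218) x5146) x5362) x4714) x3742) x13948) x11760)
  (sub (add (sub (sub (sub (sub (sub (sub (sub (add (add C x5206) x5210) x5190) x5238) x5148) x5364) x4716) x3744) x13950) x11764) x18326)
  (sub (sub (sub (sub (sub (sub (sub (sub (add (add C x5202) x5210) x5200) x5242) x5152) x5368) x4720) x3748) x13954) x11766)
  (add (sub (sub (sub (sub (sub (sub (add (add (add (add C x5202) x5206) x5186) x5198) x5246) x5156) x5372) x4724) x3752) x13958) x18330)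
  (add (sub (sub (sub (sub (add (add (sub (sub (sub C x5218) x5222) x5198) x5108) x5324) x5378) x4730) x3758) x13964) x18336)
  (sub (sub (sub (sub (sub (add (add (sub (sub (sub C x5216) x5230) x5200) x5110) x5326) x5380) x4732) x3760) x13966) x11778)
  (add (sub (sub (sub (sub (add (add (add (add (sub (sub C x5226) x5216) x5186) x5258) x5114) x5330) x5384) x4736) x3764) x13970) x18342)
  (sub (add (sub (sub (sub (sub (add (add (add (add (sub (sub C x5222) x5232) x5190) x5262) x5118) x5334) x5388) x4740) x3768) x13974) x11788) x18350)
  (sub (sub (sub (sub (sub (add (add (sub (sub (sub C x5232) x5218) x5248) x5122) x5338) x5392) x4744) x3772) x13978) x11790)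
  (sub (add (sub (sub (sub (sub (add (add (sub (sub (sub C x5230) x5226) x5250) x5124) x5340) x5394) x4746) x3774) x13980) x11794) x18356)
  (sub (add (sub (sub (sub (sub (sub (sub (add (add (add (add C x5242) x5246) x5250) x5262) x5202) x5292) x5400) x4752) x3780) x13986) x11800) x18362)
  (sub (sub (sub (sub (sub (sub (sub (sub (add (add C x5238) x5246) x5248) x5206) x5296) x5404) x4756) x3784) x13990) x11802)
  (add (sub (sub (sub (sub (sub (sub (sub (add (add C x5238) x5242) x5258) x5210) x5300) x5408) x4760) x3788) x13994) x18366)
  (sub (sub (sub (sub (sub (sub (sub (sub (sub C x5250) x5242) x5230) x5302) x5410) x4762) x3790) x13996) x11808)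
  (sub (add (sub (sub (sub (sub (sub (sub (add (add (sub C x5248) x5238) x5262) x5232) x5304) x5412) x4764) x3792) x13998) x11812) x18374)
  (add (sub (sub (sub (sub (sub (add (add (sub (sub C x5262) x5246) x5186) x5222) x5312) x5420) x4772) x3800) x14006) x18378)
  (sub (add (sub (sub (sub (sub (sub (add (add (add (add (sub C x5258) x5238) x5250) x5190) x5226) x5316) x5424) x4776) x3804) x14010) x11824) x18386)
  (sub (sub (sub (sub (sub (sub (add (add (add (add (sub C x5268) x5278) x5290) x5302) x5338) x5158) x5590) x4780) x3808) x14014) x11826)
  (sub (add (sub (sub (sub (sub (sub (add (add (sub (sub C x5266) x5274) x5304) x5340) x5160) x5592) x4782) x3810) x14016) x11830) x18392)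
  (sub (add (sub (sub (sub (sub (sub (sub (sub (add (add C x5278) x5282) x5268) x5292) x5166) x5598) x4788) x3816) x14022) x11836) x18398)
  (sub (sub (sub (sub (sub (sub (sub (add (add (add (add C x5274) x5282) x5266) x5290) x5296) x5170) x5602) x4792) x3820) x14026) x11838)
  (add (sub (sub (sub (sub (sub (sub (sub (add (add C x5274) x5278) x5288) x5300) x5174) x5606) x4796) x3824) x14030) x18402)
  (add (sub (sub (sub (sub (sub (sub (sub (sub C x5290) x5282) x5324) x5180) x5612) x4802) x3830) x14036) x18408)
  (sub (sub (sub (sub (sub (sub (sub (add (add (sub C x5288) x5266) x5278) x5326) x5182) x5614) x4804) x3832) x14038) x11850)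
  (sub (add (sub (sub (sub (sub (sub (sub (add (add (add (add C x5296) x5300) x5304) x5316) x5274) x5238) x5616) x4806) x3834) x14040) x11854) x18416)
  (sub (sub (sub (sub (sub (sub (sub (sub (add (add C x5292) x5300) x5302) x5278) x5242) x5620) x4810) x3838) x14044) x11856)
  (add (sub (sub (sub (sub (sub (sub (sub (add (add C x5292) x5296) x5312) x5282) x5246) x5624) x4814) x3842) x14048) x18420)
  (sub (sub (sub (sub (sub (sub (add (add (sub (sub C x5304) x5296) x5266) x5338) x5248) x5626) x4816) x3844) x14050) x11862)
  (sub (add (sub (sub (sub (sub (sub (add (add (add (add (sub C x5302) x5292) x5316) x5268) x5340) x5250) x5628) x4818) x3846) x14052) x11866) x18428)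
  (add (sub (sub (sub (sub (sub (sub (sub (sub C x5316) x5300) x5330) x5258) x5636) x4826) x3854) x14060) x18432)
  (sub (add (sub (sub (sub (sub (sub (sub (add (add (sub C x5312) x5292) x5304) x5334) x5262) x5640) x4830) x3858) x14064) x11878) x18440)
  (add (sub (sub (sub (sub (add (add (sub (sub (sub C x5326) x5330) x5288) x5108) x5216) x5648) x4838) x3866) x14072) x18444)
  (sub (sub (sub (sub (sub (add (add (sub (sub (sub C x5324) x5338) x5290) x5110) x5218) x5650) x4840) x3868) x14074) x11886)
  (add (sub (sub (sub (sub (add (add (sub (sub (sub C x5334) x5324) x5312) x5114) x5222) x5654) x4844) x3872) x14078) x18450)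
  (sub (add (sub (sub (sub (sub (add (add (sub (sub (sub C x5330) x5340) x5316) x5118) x5226) x5658) x4848) x3876) x14082) x11896) x18458)
  (sub (sub (sub (sub (sub (add (add (add (add (sub (sub C x5340) x5326) x5266) x5302) x5122) x5230) x5662) x4852) x3880) x14086) x11898)
  (sub (add (sub (sub (sub (sub (add (add (add (add (sub (sub C x5338) x5334) x5268) x5304) x5124) x5232) x5664) x4854) x3882) x14088) x11902) x18464)
  (add (sub (sub (add (add (sub (add (add (add (add (add (add (sub C x5352) x5360) x5372) x5384) x5420) x5456) x5564) x5186) x4376) x6320) x3890) x14096) x18468)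
  (sub (add (sub (sub (add (add (sub (add (add (add (add (sub (sub C x5348) x5364) x5388) x5424) x5460) x5568) x5190) x4380) x6324) x3894) x14100) x11914) x18476)
  (add (sub (sub (add (add (sub (add (add (sub (add (add (sub C x5362) x5348) x5372) x5378) x5468) x5576) x5198) x4388) x6332) x3902) x14108) x18480)
  (sub (sub (sub (add (add (sub (add (add (sub (sub (sub C x5360) x5368) x5380) x5470) x5578) x5200) x4390) x6334) x3904) x14110) x11922)
  (sub (add (sub (sub (add (add (sub (add (add (sub (sub (add (add C x5368) x5372) x5352) x5400) x5472) x5580) x5202) x4392) x6336) x3906) x14112) x11926) x18488)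
  (sub (sub (sub (add (add (sub (add (add (sub (sub (add (add C x5364) x5372) x5362) x5404) x5476) x5584) x5206) x4396) x6340) x3910) x14116) x11928)
  (add (sub (sub (add (add (sub (add (add (sub (add (add (add (add C x5364) x5368) x5348) x5360) x5408) x5480) x5588) x5210) x4400) x6344) x3914) x14120) x18492)
  (add (sub (sub (add (add (sub (sub (sub (sub (sub C x5380) x5384) x5360) x5432) x5216) x4406) x6350) x3920) x14126) x18498)
  (sub (sub (sub (add (add (sub (sub (sub (sub (sub C x5378) x5392) x5362) x5434) x5218) x4408) x6352) x3922) x14128) x11940)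
  (add (sub (sub (add (add (sub (sub (add (add (sub (sub C x5388) x5378) x5348) x5420) x5438) x5222) x4412) x6356) x3926) x14132) x18504)
  (sub (add (sub (sub (add (add (sub (sub (add (add (sub (sub C x5384) x5394) x5352) x5424) x5442) x5226) x4416) x6360) x3930) x14136) x11950) x18512)
  (sub (sub (sub (add (add (sub (sub (sub (sub (sub C x5394) x5380) x5410) x5446) x5230) x4420) x6364) x3934) x14140) x11952)
  (sub (add (sub (sub (add (add (sub (sub (sub (sub (sub C x5392) x5388) x5412) x5448) x5232) x4422) x6366) x3936) x14142) x11956) x18518)
  (sub (add (sub (sub (add (add (sub (sub (sub (add (add (add (add C x5404) x5408) x5412) x5424) x5364) x5508) x5238) x4428) x6372) x3942) x14148) x11962) x18524)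
  (sub (sub (sub (add (add (sub (sub (sub (sub (add (add C x5400) x5408) x5410) x5368) x5512) x5242) x4432) x6376) x3946) x14152) x11964)
  (add (sub (sub (add (add (sub (sub (sub (sub (add (add C x5400) x5404) x5420) x5372) x5516) x5246) x4436) x6380) x3950) x14156) x18528)
  (sub (sub (sub (add (add (sub (sub (sub (sub (sub C x5412) x5404) x5392) x5518) x5248) x4438) x6382) x3952) x14158) x11970)
  (sub (add (sub (sub (add (add (sub (sub (sub (add (add (sub C x5410) x5400) x5424) x5394) x5520) x5250) x4440) x6384) x3954) x14160) x11974) x18536)
  (add (sub (sub (add (add (sub (sub (add (add (sub (sub C x5424) x5408) x5348) x5384) x5528) x5258) x4448) x6392) x3962) x14168) x18540)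
  (sub (add (sub (sub (add (add (sub (sub (add (add (add (add (sub C x5420) x5400) x5412) x5352) x5388) x5532) x5262) x4452) x6396) x3966) x14172) x11986) x18548)
  (add (sub (sub (add (add (add (add (sub (add (add (sub (sub C x5434) x5438) x5468) x5504) x5378) x5108) x5756) x4460) x6404) x3974) x14180) x18552)
  (sub (sub (sub (add (add (add (add (sub (add (add (sub (sub C x5432) x5446) x5470) x5506) x5380) x5110) x5758) x4462) x6406) x3976) x14182) x11994)
  (add (sub (sub (add (add (add (add (sub (sub (sub (sub C x5442) x5432) x5456) x5384) x5114) x5762) x4466) x6410) x3980) x14186) x18558)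
  (sub (add (sub (sub (add (add (add (add (sub (sub (sub (sub C x5438) x5448) x5460) x5388) x5118) x5766) x4470) x6414) x3984) x14190) x12004) x18566)
  (sub (sub (sub (add (add (add (add (sub (sub (sub (sub C x5448) x5434) x5482) x5392) x5122) x5770) x4474) x6418) x3988) x14194) x12006)
  (sub (add (sub (sub (add (add (add (add (sub (sub (sub (sub C x5446) x5442) x5484) x5394) x5124) x5772) x4476) x6420) x3990) x14196) x12010) x18572)
  (add (sub (sub (add (add (add (add (add (add (sub (add (add (sub C x5460) x5468) x5480) x5438) x5348) x5564) x5132) x5780) x4484) x6428) x3998) x14204) x18576)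
  (sub (add (sub (sub (add (add (add (add (add (add (sub (sub (sub C x5456) x5472) x5442) x5352) x5568) x5136) x5784) x4488) x6432) x4002) x14208) x12022) x18584)
  (add (sub (sub (add (add (add (add (add (add (add (add (add (add (sub C x5470) x5456) x5480) x5432) x5504) x5360) x5576) x5144) x5792) x4496) x6440) x4010) x14216) x18588)
  (sub (sub (sub (add (add (add (add (add (add (add (add (sub (sub C x5468) x5476) x5434) x5506) x5362) x5578) x5146) x5794) x4498) x6442) x4012) x14218) x12030)
  (sub (add (sub (sub (add (add (add (add (add (add (sub (sub (add (add C x5476) x5480) x5460) x5490) x5364) x5580) x5148) x5796) x4500) x6444) x4014) x14220) x12034) x18596)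
  (sub (sub (sub (add (add (add (add (add (add (sub (sub (add (add C x5472) x5480) x5470) x5494) x5368) x5584) x5152) x5800) x4504) x6448) x4018) x14224) x12036)
  (add (sub (sub (add (add (add (add (add (add (sub (add (add (add (add C x5472) x5476) x5456) x5468) x5498) x5372) x5588) x5156) x5804) x4508) x6452) x4022) x14228) x18600)
  (sub (sub (sub (add (add (add (add (sub (sub (add (add (sub C x5484) x5494) x5506) x5446) x5536) x5158) x5806) x4510) x6454) x4024) x14230) x12042)
  (sub (add (sub (sub (add (add (add (add (sub (sub (sub (sub C x5482) x5490) x5448) x5538) x5160) x5808) x4512) x6456) x4026) x14232) x12046) x18608)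
  (sub (add (sub (sub (add (add (add (add (sub (sub (sub (add (add C x5494) x5498) x5484) x5472) x5544) x5166) x5814) x4518) x6462) x4032) x14238) x12052) x18614)
  (sub (sub (sub (add (add (add (add (sub (sub (add (add (add (add C x5490) x5498) x5482) x5506) x5476) x5548) x5170) x5818) x4522) x6466) x4036) x14242) x12054)
  (add (sub (sub (add (add (add (add (sub (sub (sub (add (add C x5490) x5494) x5504) x5480) x5552) x5174) x5822) x4526) x6470) x4040) x14246) x18618)
  (add (sub (sub (add (add (add (add (sub (add (add (sub (sub C x5506) x5498) x5432) x5468) x5558) x5180) x5828) x4532) x6476) x4046) x14252) x18624)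
  (sub (sub (sub (add (add (add (add (sub (add (add (add (add (sub C x5504) x5482) x5494) x5434) x5470) x5560) x5182) x5830) x4534) x6478) x4048) x14254) x12066)
  (sub (add (sub (sub (add (add (sub (sub (add (add (add (add (add (add C x5512) x5516) x5520) x5532) x5544) x5580) x5400) x5670) x4536) x6480) x4050) x14256) x12070) x18632)
  (sub (sub (sub (add (add (sub (sub (add (add (sub (add (add C x5508) x5516) x5518) x5548) x5584) x5404) x5674) x4540) x6484) x4054) x14260) x12072)
  (add (sub (sub (add (add (sub (sub (add (add (sub (add (add C x5508) x5512) x5528) x5552) x5588) x5408) x5678) x4544) x6488) x4058) x14264) x18636)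
  (sub (sub (sub (add (add (sub (sub (sub (sub (sub C x5520) x5512) x5536) x5410) x5680) x4546) x6490) x4060) x14266) x12078)
  (sub (add (sub (sub (add (add (sub (sub (sub (add (add (sub C x5518) x5508) x5532) x5538) x5412) x5682) x4548) x6492) x4062) x14268) x12082) x18644)
  (add (sub (sub (add (add (sub (sub (sub (sub (sub C x5532) x5516) x5564) x5420) x5690) x4556) x6500) x4070) x14276) x18648)
  (sub (add (sub (sub (add (add (sub (sub (sub (add (add (sub C x5528) x5508) x5520) x5568) x5424) x5694) x4560) x6504) x4074) x14280) x12094) x18656)
  (sub (sub (sub (add (add (sub (sub (sub (add (add (sub C x5538) x5548) x5560) x5518) x5482) x5698) x4564) x6508) x4078) x14284) x12096)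
  (sub (add (sub (sub (add (add (sub (sub (sub (sub (sub C x5536) x5544) x5520) x5484) x5700) x4566) x6510) x4080) x14286) x12100) x18662)
  (sub (add (sub (sub (add (add (sub (sub (add (add (sub (add (add C x5548) x5552) x5538) x5508) x5580) x5490) x5706) x4572) x6516) x4086) x14292) x12106) x18668)
  (sub (sub (sub (add (add (sub (sub (add (add (add (add (add (add C x5544) x5552) x5536) x5560) x5512) x5584) x5494) x5710) x4576) x6520) x4090) x14296) x12108)
  (add (sub (sub (add (add (sub (sub (add (add (sub (add (add C x5544) x5548) x5558) x5516) x5588) x5498) x5714) x4580) x6524) x4094) x14300) x18672)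
  (add (sub (sub (add (add (sub (sub (sub (sub (sub C x5560) x5552) x5576) x5504) x5720) x4586) x6530) x4100) x14306) x18678)
  (sub (sub (sub (add (add (sub (sub (sub (add (add (sub C x5558) x5536) x5548) x5578) x5506) x5722) x4588) x6532) x4102) x14308) x12120)
  (add (sub (sub (add (add (sub (add (add (sub (add (add (sub C x5568) x5576) x5588) x5528) x5348) x5456) x5726) x4592) x6536) x4106) x14312) x18684)
  (sub (add (sub (sub (add (add (sub (add (add (sub (sub (sub C x5564) x5580) x5532) x5352) x5460) x5730) x4596) x6540) x4110) x14316) x12130) x18692)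
  (add (sub (sub (add (add (sub (add (add (sub (add (add (sub C x5578) x5564) x5588) x5558) x5360) x5468) x5738) x4604) x6548) x4118) x14324) x18696)
  (sub (sub (sub (add (add (sub (add (add (sub (sub (sub C x5576) x5584) x5560) x5362) x5470) x5740) x4606) x6550) x4120) x14326) x12138)
  (sub (add (sub (sub (add (add (sub (add (add (add (add (sub (add (add C x5584) x5588) x5568) x5508) x5544) x5364) x5472) x5742) x4608) x6552) x4122) x14328) x12142) x18704)
  (sub (sub (sub (add (add (sub (add (add (add (add (sub (add (add C x5580) x5588) x5578) x5512) x5548) x5368) x5476) x5746) x4612) x6556) x4126) x14332) x12144)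
  (add (sub (sub (add (add (sub (add (add (add (add (add (add (add (add C x5580) x5584) x5564) x5576) x5516) x5552) x5372) x5480) x5750) x4616) x6560) x4130) x14336) x18708)
  (sub (sub (sub (sub (sub (add (add (add (add (add (add (sub C x5592) x5602) x5614) x5626) x5662) x5698) x5806) x5266) x6076) x4132) x14338) x12150)
  (sub (add (sub (sub (sub (sub (add (add (add (add (sub (sub C x5590) x5598) x5628) x5664) x5700) x5808) x5268) x6078) x4134) x14340) x12154) x18716)
  (sub (add (sub (sub (sub (sub (add (add (sub (sub (add (add C x5602) x5606) x5592) x5616) x5706) x5814) x5274) x6084) x4140) x14346) x12160) x18722)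
  (sub (sub (sub (sub (sub (add (add (sub (add (add (add (add C x5598) x5606) x5590) x5614) x5620) x5710) x5818) x5278) x6088) x4144) x14350) x12162)
  (add (sub (sub (sub (sub (add (add (sub (sub (add (add C x5598) x5602) x5612) x5624) x5714) x5822) x5282) x6092) x4148) x14354) x18726)
  (add (sub (sub (sub (sub (add (add (sub (sub (sub C x5614) x5606) x5648) x5720) x5828) x5288) x6098) x4154) x14360) x18732)
  (sub (sub (sub (sub (sub (add (add (sub (add (add (sub C x5612) x5590) x5602) x5650) x5722) x5830) x5290) x6100) x4156) x14362) x12174)
  (sub (add (sub (sub (sub (sub (sub (sub (add (add (add (add C x5620) x5624) x5628) x5640) x5598) x5670) x5292) x6102) x4158) x14364) x12178) x18740)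
  (sub (sub (sub (sub (sub (sub (sub (sub (add (add C x5616) x5624) x5626) x5602) x5674) x5296) x6106) x4162) x14368) x12180)
  (add (sub (sub (sub (sub (sub (sub (sub (add (add C x5616) x5620) x5636) x5606) x5678) x5300) x6110) x4166) x14372) x18744)
  (sub (sub (sub (sub (sub (sub (add (add (sub (sub C x5628) x5620) x5590) x5662) x5680) x5302) x6112) x4168) x14374) x12186)
  (sub (add (sub (sub (sub (sub (sub (add (add (add (add (sub C x5626) x5616) x5640) x5592) x5664) x5682) x5304) x6114) x4170) x14376) x12190) x18752)
  (add (sub (sub (sub (sub (sub (sub (sub (sub C x5640) x5624) x5654) x5690) x5312) x6122) x4178) x14384) x18756)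
  (sub (add (sub (sub (sub (sub (sub (sub (add (add (sub C x5636) x5616) x5628) x5658) x5694) x5316) x6126) x4182) x14388) x12202) x18764)
  (add (sub (sub (sub (sub (sub (sub (sub (sub C x5650) x5654) x5612) x5756) x5324) x6134) x4190) x14396) x18768)
  (sub (sub (sub (sub (sub (sub (sub (sub (sub C x5648) x5662) x5614) x5758) x5326) x6136) x4192) x14398) x12210)
  (add (sub (sub (sub (sub (sub (sub (sub (sub C x5658) x5648) x5636) x5762) x5330) x6140) x4196) x14402) x18774)
  (sub (add (sub (sub (sub (sub (sub (sub (sub (sub C x5654) x5664) x5640) x5766) x5334) x6144) x4200) x14406) x12220) x18782)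
  (sub (sub (sub (sub (sub (sub (add (add (sub (sub C x5664) x5650) x5590) x5626) x5770) x5338) x6148) x4204) x14410) x12222)
  (sub (add (sub (sub (sub (sub (sub (add (add (sub (sub C x5662) x5658) x5592) x5628) x5772) x5340) x6150) x4206) x14412) x12226) x18788)
  (sub (add (sub (sub (sub (sub (sub (add (add (add (add (add (add C x5674) x5678) x5682) x5694) x5706) x5742) x5616) x5508) x6156) x4212) x14418) x12232) x18794)
  (sub (sub (sub (sub (sub (sub (add (add (sub (add (add C x5670) x5678) x5680) x5710) x5746) x5620) x5512) x6160) x4216) x14422) x12234)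
  (add (sub (sub (sub (sub (sub (add (add (sub (add (add C x5670) x5674) x5690) x5714) x5750) x5624) x5516) x6164) x4220) x14426) x18798)
  (sub (sub (sub (sub (sub (sub (sub (sub (sub C x5682) x5674) x5698) x5626) x5518) x6166) x4222) x14428) x12240)
  (sub (add (sub (sub (sub (sub (sub (sub (add (add (sub C x5680) x5670) x5694) x5700) x5628) x5520) x6168) x4224) x14430) x12244) x18806)
  (add (sub (sub (sub (sub (sub (sub (sub (sub C x5694) x5678) x5726) x5636) x5528) x6176) x4232) x14438) x18810)
  (sub (add (sub (sub (sub (sub (sub (sub (add (add (sub C x5690) x5670) x5682) x5730) x5640) x5532) x6180) x4236) x14442) x12256) x18818)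
  (sub (sub (sub (sub (sub (add (add (sub (add (add (sub C x5700) x5710) x5722) x5680) x5590) x5806) x5536) x6184) x4240) x14446) x12258)
  (sub (add (sub (sub (sub (sub (add (add (sub (sub (sub C x5698) x5706) x5682) x5592) x5808) x5538) x6186) x4242) x14448) x12262) x18824)
  (sub (add (sub (sub (sub (sub (add (add (add (add (sub (add (add C x5710) x5714) x5700) x5670) x5742) x5598) x5814) x5544) x6192) x4248) x14454) x12268) x18830)
  (sub (sub (sub (sub (sub (add (add (add (add (add (add (add (add C x5706) x5714) x5698) x5722) x5674) x5746) x5602) x5818) x5548) x6196) x4252) x14458) x12270)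
  (add (sub (sub (sub (sub (add (add (add (add (sub (add (add C x5706) x5710) x5720) x5678) x5750) x5606) x5822) x5552) x6200) x4256) x14462) x18834)
  (add (sub (sub (sub (sub (add (add (sub (sub (sub C x5722) x5714) x5738) x5612) x5828) x5558) x6206) x4262) x14468) x18840)
  (sub (sub (sub (sub (sub (add (add (sub (add (add (sub C x5720) x5698) x5710) x5740) x5614) x5830) x5560) x6208) x4264) x14470) x12282)
  (add (sub (sub (sub (sub (sub (sub (add (add (sub C x5730) x5738) x5750) x5690) x5780) x5564) x6212) x4268) x14474) x18846)
  (sub (add (sub (sub (sub (sub (sub (sub (sub (sub C x5726) x5742) x5694) x5784) x5568) x6216) x4272) x14478) x12292) x18854)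
  (add (sub (sub (sub (sub (sub (sub (add (add (sub C x5740) x5726) x5750) x5720) x5792) x5576) x6224) x4280) x14486) x18858)
  (sub (sub (sub (sub (sub (sub (sub (sub (sub C x5738) x5746) x5722) x5794) x5578) x6226) x4282) x14488) x12300)
  (sub (add (sub (sub (sub (sub (sub (add (add (sub (add (add C x5746) x5750) x5730) x5670) x5706) x5796) x5580) x6228) x4284) x14490) x12304) x18866)
  (sub (sub (sub (sub (sub (sub (add (add (sub (add (add C x5742) x5750) x5740) x5674) x5710) x5800) x5584) x6232) x4288) x14494) x12306)
  (add (sub (sub (sub (sub (sub (add (add (add (add (add (add C x5742) x5746) x5726) x5738) x5678) x5714) x5804) x5588) x6236) x4292) x14498) x18870)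
  (add (sub (sub (sub (add (add (sub (add (add (sub (sub C x5758) x5762) x5792) x5828) x5648) x5108) x5432) x6242) x4298) x14504) x18876)
  (sub (sub (sub (sub (add (add (sub (add (add (sub (sub C x5756) x5770) x5794) x5830) x5650) x5110) x5434) x6244) x4300) x14506) x12318)
  (add (sub (sub (sub (add (add (sub (sub (sub (sub C x5766) x5756) x5780) x5654) x5114) x5438) x6248) x4304) x14510) x18882)
  (sub (add (sub (sub (sub (add (add (sub (sub (sub (sub C x5762) x5772) x5784) x5658) x5118) x5442) x6252) x4308) x14514) x12328) x18890)
  (sub (sub (sub (sub (add (add (sub (sub (sub (sub C x5772) x5758) x5806) x5662) x5122) x5446) x6256) x4312) x14518) x12330)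
  (sub (add (sub (sub (sub (add (add (sub (sub (sub (sub C x5770) x5766) x5808) x5664) x5124) x5448) x6258) x4314) x14520) x12334) x18896)
  (add (sub (sub (sub (add (add (sub (sub (add (add (sub C x5784) x5792) x5804) x5762) x5726) x5132) x5456) x6266) x4322) x14528) x18900)
  (sub (add (sub (sub (sub (add (add (sub (sub (sub (sub C x5780) x5796) x5766) x5730) x5136) x5460) x6270) x4326) x14532) x12346) x18908)
  (add (sub (sub (sub (add (add (sub (add (add (add (add (sub C x5794) x5780) x5804) x5756) x5828) x5738) x5144) x5468) x6278) x4334) x14540) x18912)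
  (sub (sub (sub (sub (add (add (sub (add (add (sub (sub C x5792) x5800) x5758) x5830) x5740) x5146) x5470) x6280) x4336) x14542) x12354)
  (sub (add (sub (sub (sub (add (add (sub (sub (sub (add (add C x5800) x5804) x5784) x5814) x5742) x5148) x5472) x6282) x4338) x14544) x12358) x18920)
  (sub (sub (sub (sub (add (add (sub (sub (sub (add (add C x5796) x5804) x5794) x5818) x5746) x5152) x5476) x6286) x4342) x14548) x12360)
  (add (sub (sub (sub (add (add (sub (sub (add (add (add (add C x5796) x5800) x5780) x5792) x5822) x5750) x5156) x5480) x6290) x4346) x14552) x18924)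
  (sub (sub (sub (sub (add (add (add (add (sub (add (add (sub C x5808) x5818) x5830) x5770) x5590) x5698) x5158) x5482) x6292) x4348) x14554) x12366)
  (sub (add (sub (sub (sub (add (add (add (add (sub (sub (sub C x5806) x5814) x5772) x5592) x5700) x5160) x5484) x6294) x4350) x14556) x12370) x18932)
  (sub (add (sub (sub (sub (add (add (add (add (sub (sub (add (add C x5818) x5822) x5808) x5796) x5598) x5706) x5166) x5490) x6300) x4356) x14562) x12376) x18938)
  (sub (sub (sub (sub (add (add (add (add (sub (add (add (add (add C x5814) x5822) x5806) x5830) x5800) x5602) x5710) x5170) x5494) x6304) x4360) x14566) x12378)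
  (add (sub (sub (sub (add (add (add (add (sub (sub (add (add C x5814) x5818) x5828) x5804) x5606) x5714) x5174) x5498) x6308) x4364) x14570) x18942)
  (add (sub (sub (sub (add (add (add (add (add (add (sub (sub C x5830) x5822) x5756) x5792) x5612) x5720) x5180) x5504) x6314) x4370) x14576) x18948)
  (sub (sub (sub (sub (add (add (add (add (add (add (add (add (sub C x5828) x5806) x5818) x5758) x5794) x5614) x5722) x5182) x5506) x6316) x4372) x14578) x12390)
  (sub (add (sub (add (add (sub (add (add (add (add (add (add (add (add (add (add C x5836) x5840) x5844) x5856) x5868) x5904) x5940) x6048) x6156) x6480) x4860) x0) x2916) x14580) x12394) x18956)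
  (sub (sub (add (add (sub (add (add (add (add (add (add (sub (add (add C x5832) x5840) x5842) x5872) x5908) x5944) x6052) x6160) x6484) x4864) x4) x2920) x14584) x12396)
  (add (sub (add (add (sub (add (add (add (add (add (add (sub (add (add C x5832) x5836) x5852) x5876) x5912) x5948) x6056) x6164) x6488) x4868) x8) x2924) x14588) x18960)
  (sub (sub (add (add (sub (add (add (add (add (sub (sub (sub C x5844) x5836) x5860) x5950) x6058) x6166) x6490) x4870) x10) x2926) x14590) x12402)
  (sub (add (sub (add (add (sub (add (add (add (add (sub (add (add (sub C x5842) x5832) x5856) x5862) x5952) x6060) x6168) x6492) x4872) x12) x2928) x14592) x12406) x18968)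
  (add (sub (add (add (sub (add (add (add (add (sub (sub (sub C x5856) x5840) x5888) x5960) x6068) x6176) x6500) x4880) x20) x2936) x14600) x18972)
  (sub (add (sub (add (add (sub (add (add (add (add (sub (add (add (sub C x5852) x5832) x5844) x5892) x5964) x6072) x6180) x6504) x4884) x24) x2940) x14604) x12418) x18980)
  (sub (sub (add (add (sub (add (add (sub (sub (add (add (sub C x5862) x5872) x5884) x5842) x5914) x6184) x6508) x4888) x28) x2944) x14608) x12420)
  (sub (add (sub (add (add (sub (add (add (sub (sub (sub (sub C x5860) x5868) x5844) x5916) x6186) x6510) x4890) x30) x2946) x14610) x12424) x18986)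
  (sub (add (sub (add (add (sub (add (add (sub (add (add (sub (add (add C x5872) x5876) x5862) x5832) x5904) x5922) x6192) x6516) x4896) x36) x2952) x14616) x12430) x18992)
  (sub (sub (add (add (sub (add (add (sub (add (add (add (add (add (add C x5868) x5876) x5860) x5884) x5836) x5908) x5926) x6196) x6520) x4900) x40) x2956) x14620) x12432)
  (add (sub (add (add (sub (add (add (sub (add (add (sub (add (add C x5868) x5872) x5882) x5840) x5912) x5930) x6200) x6524) x4904) x44) x2960) x14624) x18996)
  (add (sub (add (add (sub (add (add (sub (sub (sub (sub C x5884) x5876) x5900) x5936) x6206) x6530) x4910) x50) x2966) x14630) x19002)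
  (sub (sub (add (add (sub (add (add (sub (sub (add (add (sub C x5882) x5860) x5872) x5902) x5938) x6208) x6532) x4912) x52) x2968) x14632) x12444)
  (add (sub (add (add (sub (add (add (sub (sub (add (add (sub C x5892) x5900) x5912) x5852) x5996) x6212) x6536) x4916) x56) x2972) x14636) x19008)
  (sub (add (sub (add (add (sub (add (add (sub (sub (sub (sub C x5888) x5904) x5856) x6000) x6216) x6540) x4920) x60) x2976) x14640) x12454) x19016)
  (add (sub (add (add (sub (add (add (sub (sub (add (add (sub C x5902) x5888) x5912) x5882) x6008) x6224) x6548) x4928) x68) x2984) x14648) x19020)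
  (sub (sub (add (add (sub (add (add (sub (sub (sub (sub C x5900) x5908) x5884) x6010) x6226) x6550) x4930) x70) x2986) x14650) x12462)
  (sub (add (sub (add (add (sub (add (add (sub (add (add (sub (add (add C x5908) x5912) x5892) x5832) x5868) x6012) x6228) x6552) x4932) x72) x2988) x14652) x12466) x19028)
  (sub (sub (add (add (sub (add (add (sub (add (add (sub (add (add C x5904) x5912) x5902) x5836) x5872) x6016) x6232) x6556) x4936) x76) x2992) x14656) x12468)
  (add (sub (add (add (sub (add (add (sub (add (add (add (add (add (add C x5904) x5908) x5888) x5900) x5840) x5876) x6020) x6236) x6560) x4940) x80) x2996) x14660) x19032)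
  (sub (sub (add (add (sub (sub (sub (add (add (add (add (sub C x5916) x5926) x5938) x5950) x5986) x5860) x6076) x4942) x82) x2998) x14662) x12474)
  (sub (add (sub (add (add (sub (sub (sub (add (add (sub (sub C x5914) x5922) x5952) x5988) x5862) x6078) x4944) x84) x3000) x14664) x12478) x19040)
  (sub (add (sub (add (add (sub (sub (sub (sub (sub (add (add C x5926) x5930) x5916) x5940) x5868) x6084) x4950) x90) x3006) x14670) x12484) x19046)
  (sub (sub (add (add (sub (sub (sub (sub (add (add (add (add C x5922) x5930) x5914) x5938) x5944) x5872) x6088) x4954) x94) x3010) x14674) x12486)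
  (add (sub (add (add (sub (sub (sub (sub (sub (add (add C x5922) x5926) x5936) x5948) x5876) x6092) x4958) x98) x3014) x14678) x19050)
  (add (sub (add (add (sub (sub (sub (sub (sub (sub C x5938) x5930) x5972) x5882) x6098) x4964) x104) x3020) x14684) x19056)
  (sub (sub (add (add (sub (sub (sub (sub (add (add (sub C x5936) x5914) x5926) x5974) x5884) x6100) x4966) x106) x3022) x14686) x12498)
  (sub (add (sub (add (add (sub (sub (add (add (sub (add (add (add (add C x5944) x5948) x5952) x5964) x5922) x5832) x6048) x6102) x4968) x108) x3024) x14688) x12502) x19064)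
  (sub (sub (add (add (sub (sub (add (add (sub (sub (add (add C x5940) x5948) x5950) x5926) x5836) x6052) x6106) x4972) x112) x3028) x14692) x12504)
  (add (sub (add (add (sub (sub (add (add (sub (sub (add (add C x5940) x5944) x5960) x5930) x5840) x6056) x6110) x4976) x116) x3032) x14696) x19068)
  (sub (sub (add (add (sub (sub (add (add (add (add (sub (sub C x5952) x5944) x5914) x5986) x5842) x6058) x6112) x4978) x118) x3034) x14698) x12510)
  (sub (add (sub (add (add (sub (sub (add (add (add (add (add (add (sub C x5950) x5940) x5964) x5916) x5988) x5844) x6060) x6114) x4980) x120) x3036) x14700) x12514) x19076)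
  (add (sub (add (add (sub (sub (add (add (sub (sub (sub C x5964) x5948) x5978) x5852) x6068) x6122) x4988) x128) x3044) x14708) x19080)
  (sub (add (sub (add (add (sub (sub (add (add (sub (add (add (sub C x5960) x5940) x5952) x5982) x5856) x6072) x6126) x4992) x132) x3048) x14712) x12526) x19088)
  (add (sub (add (add (sub (sub (sub (sub (sub (sub C x5974) x5978) x5936) x6026) x6134) x5000) x140) x3056) x14720) x19092)
  (sub (sub (add (add (sub (sub (sub (sub (sub (sub C x5972) x5986) x5938) x6028) x6136) x5002) x142) x3058) x14722) x12534)
  (add (sub (add (add (sub (sub (sub (sub (sub (sub C x5982) x5972) x5960) x6032) x6140) x5006) x146) x3062) x14726) x19098)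
  (sub (add (sub (add (add (sub (sub (sub (sub (sub (sub C x5978) x5988) x5964) x6036) x6144) x5010) x150) x3066) x14730) x12544) x19106)
  (sub (sub (add (add (sub (sub (sub (add (add (sub (sub C x5988) x5974) x5914) x5950) x6040) x6148) x5014) x154) x3070) x14734) x12546)
  (sub (add (sub (add (add (sub (sub (sub (add (add (sub (sub C x5986) x5982) x5916) x5952) x6042) x6150) x5016) x156) x3072) x14736) x12550) x19112)
  (add (sub (add (add (sub (sub (sub (add (add (add (add (sub C x6000) x6008) x6020) x6032) x6068) x5888) x6320) x5024) x164) x3080) x14744) x19116)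
  (sub (add (sub (add (add (sub (sub (sub (add (add (sub (sub C x5996) x6012) x6036) x6072) x5892) x6324) x5028) x168) x3084) x14748) x12562) x19124)
  (add (sub (add (add (sub (sub (sub (sub (add (add (sub C x6010) x5996) x6020) x6026) x5900) x6332) x5036) x176) x3092) x14756) x19128)
  (sub (sub (add (add (sub (sub (sub (sub (sub (sub C x6008) x6016) x6028) x5902) x6334) x5038) x178) x3094) x14758) x12570)
  (sub (add (sub (add (add (sub (sub (sub (sub (sub (add (add C x6016) x6020) x6000) x6048) x5904) x6336) x5040) x180) x3096) x14760) x12574) x19136)
  (sub (sub (add (add (sub (sub (sub (sub (sub (add (add C x6012) x6020) x6010) x6052) x5908) x6340) x5044) x184) x3100) x14764) x12576)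
  (add (sub (add (add (sub (sub (sub (sub (add (add (add (add C x6012) x6016) x5996) x6008) x6056) x5912) x6344) x5048) x188) x3104) x14768) x19140)
  (add (sub (add (add (sub (sub (sub (sub (sub (sub C x6028) x6032) x6008) x5972) x6350) x5054) x194) x3110) x14774) x19146)
  (sub (sub (add (add (sub (sub (sub (sub (sub (sub C x6026) x6040) x6010) x5974) x6352) x5056) x196) x3112) x14776) x12588)
  (add (sub (add (add (sub (sub (sub (add (add (sub (sub C x6036) x6026) x5996) x6068) x5978) x6356) x5060) x200) x3116) x14780) x19152)
  (sub (add (sub (add (add (sub (sub (sub (add (add (sub (sub C x6032) x6042) x6000) x6072) x5982) x6360) x5064) x204) x3120) x14784) x12598) x19160)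
  (sub (sub (add (add (sub (sub (sub (sub (sub (sub C x6042) x6028) x6058) x5986) x6364) x5068) x208) x3124) x14788) x12600)
  (sub (add (sub (add (add (sub (sub (sub (sub (sub (sub C x6040) x6036) x6060) x5988) x6366) x5070) x210) x3126) x14790) x12604) x19166)
  (sub (add (sub (add (add (sub (sub (add (add (sub (add (add (add (add C x6052) x6056) x6060) x6072) x6012) x5832) x5940) x6372) x5076) x216) x3132) x14796) x12610) x19172)
  (sub (sub (add (add (sub (sub (add (add (sub (sub (add (add C x6048) x6056) x6058) x6016) x5836) x5944) x6376) x5080) x220) x3136) x14800) x12612)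
  (add (sub (add (add (sub (sub (add (add (sub (sub (add (add C x6048) x6052) x6068) x6020) x5840) x5948) x6380) x5084) x224) x3140) x14804) x19176)
  (sub (sub (add (add (sub (sub (add (add (sub (sub (sub C x6060) x6052) x6040) x5842) x5950) x6382) x5086) x226) x3142) x14806) x12618)
  (sub (add (sub (add (add (sub (sub (add (add (sub (add (add (sub C x6058) x6048) x6072) x6042) x5844) x5952) x6384) x5088) x228) x3144) x14808) x12622) x19184)
  (add (sub (add (add (sub (sub (add (add (add (add (sub (sub C x6072) x6056) x5996) x6032) x5852) x5960) x6392) x5096) x236) x3152) x14816) x19188)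
  (sub (add (sub (add (add (sub (sub (add (add (add (add (add (add (sub C x6068) x6048) x6060) x6000) x6036) x5856) x5964) x6396) x5100) x240) x3156) x14820) x12634) x19196)
  (sub (sub (add (add (sub (sub (add (add (add (add (add (add (sub C x6078) x6088) x6100) x6112) x6148) x6184) x6292) x5914) x5590) x244) x3160) x14824) x12636)
  (sub (add (sub (add (add (sub (sub (add (add (add (add (sub (sub C x6076) x6084) x6114) x6150) x6186) x6294) x5916) x5592) x246) x3162) x14826) x12640) x19202)
  (sub (add (sub (add (add (sub (sub (add (add (sub (sub (add (add C x6088) x6092) x6078) x6102) x6192) x6300) x5922) x5598) x252) x3168) x14832) x12646) x19208)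
  (sub (sub (add (add (sub (sub (add (add (sub (add (add (add (add C x6084) x6092) x6076) x6100) x6106) x6196) x6304) x5926) x5602) x256) x3172) x14836) x12648)
  (add (sub (add (add (sub (sub (add (add (sub (sub (add (add C x6084) x6088) x6098) x6110) x6200) x6308) x5930) x5606) x260) x3176) x14840) x19212)
  (add (sub (add (add (sub (sub (add (add (sub (sub (sub C x6100) x6092) x6134) x6206) x6314) x5936) x5612) x266) x3182) x14846) x19218)
  (sub (sub (add (add (sub (sub (add (add (sub (add (add (sub C x6098) x6076) x6088) x6136) x6208) x6316) x5938) x5614) x268) x3184) x14848) x12660)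
  (sub (add (sub (add (add (sub (sub (sub (sub (add (add (add (add C x6106) x6110) x6114) x6126) x6084) x6156) x5940) x5616) x270) x3186) x14850) x12664) x19226)
  (sub (sub (add (add (sub (sub (sub (sub (sub (add (add C x6102) x6110) x6112) x6088) x6160) x5944) x5620) x274) x3190) x14854) x12666)
  (add (sub (add (add (sub (sub (sub (sub (sub (add (add C x6102) x6106) x6122) x6092) x6164) x5948) x5624) x278) x3194) x14858) x19230)
  (sub (sub (add (add (sub (sub (sub (add (add (sub (sub C x6114) x6106) x6076) x6148) x6166) x5950) x5626) x280) x3196) x14860) x12672)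
  (sub (add (sub (add (add (sub (sub (sub (add (add (add (add (sub C x6112) x6102) x6126) x6078) x6150) x6168) x5952) x5628) x282) x3198) x14862) x12676) x19238)
  (add (sub (add (add (sub (sub (sub (sub (sub (sub C x6126) x6110) x6140) x6176) x5960) x5636) x290) x3206) x14870) x19242)
  (sub (add (sub (add (add (sub (sub (sub (sub (add (add (sub C x6122) x6102) x6114) x6144) x6180) x5964) x5640) x294) x3210) x14874) x12688) x19250)
  (add (sub (add (add (sub (sub (sub (sub (sub (sub C x6136) x6140) x6098) x6242) x5972) x5648) x302) x3218) x14882) x19254)
  (sub (sub (add (add (sub (sub (sub (sub (sub (sub C x6134) x6148) x6100) x6244) x5974) x5650) x304) x3220) x14884) x12696)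
  (add (sub (add (add (sub (sub (sub (sub (sub (sub C x6144) x6134) x6122) x6248) x5978) x5654) x308) x3224) x14888) x19260)
  (sub (add (sub (add (add (sub (sub (sub (sub (sub (sub C x6140) x6150) x6126) x6252) x5982) x5658) x312) x3228) x14892) x12706) x19268)
  (sub (sub (add (add (sub (sub (sub (add (add (sub (sub C x6150) x6136) x6076) x6112) x6256) x5986) x5662) x316) x3232) x14896) x12708)
  (sub (add (sub (add (add (sub (sub (sub (add (add (sub (sub C x6148) x6144) x6078) x6114) x6258) x5988) x5664) x318) x3234) x14898) x12712) x19274)
  (sub (add (sub (add (add (sub (add (add (sub (add (add (add (add (add (add C x6160) x6164) x6168) x6180) x6192) x6228) x6102) x5832) x6480) x5670) x324) x3240) x14904) x12718) x19280)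
  (sub (sub (add (add (sub (add (add (sub (add (add (sub (add (add C x6156) x6164) x6166) x6196) x6232) x6106) x5836) x6484) x5674) x328) x3244) x14908) x12720)
  (add (sub (add (add (sub (add (add (sub (add (add (sub (add (add C x6156) x6160) x6176) x6200) x6236) x6110) x5840) x6488) x5678) x332) x3248) x14912) x19284)
  (sub (sub (add (add (sub (add (add (sub (sub (sub (sub C x6168) x6160) x6184) x6112) x5842) x6490) x5680) x334) x3250) x14914) x12726)
  (sub (add (sub (add (add (sub (add (add (sub (sub (add (add (sub C x6166) x6156) x6180) x6186) x6114) x5844) x6492) x5682) x336) x3252) x14916) x12730) x19292)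
  (add (sub (add (add (sub (add (add (sub (sub (sub (sub C x6180) x6164) x6212) x6122) x5852) x6500) x5690) x344) x3260) x14924) x19296)
  (sub (add (sub (add (add (sub (add (add (sub (sub (add (add (sub C x6176) x6156) x6168) x6216) x6126) x5856) x6504) x5694) x348) x3264) x14928) x12742) x19304)
  (sub (sub (add (add (sub (add (add (add (add (sub (add (add (sub C x6186) x6196) x6208) x6166) x6076) x6292) x5860) x6508) x5698) x352) x3268) x14932) x12744)
  (sub (add (sub (add (add (sub (add (add (add (add (sub (sub (sub C x6184) x6192) x6168) x6078) x6294) x5862) x6510) x5700) x354) x3270) x14934) x12748) x19310)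
  (sub (add (sub (add (add (sub (add (add (add (add (add (add (sub (add (add C x6196) x6200) x6186) x6156) x6228) x6084) x6300) x5868) x6516) x5706) x360) x3276) x14940) x12754) x19316)
  (sub (sub (add (add (sub (add (add (add (add (add (add (add (add (add (add C x6192) x6200) x6184) x6208) x6160) x6232) x6088) x6304) x5872) x6520) x5710) x364) x3280) x14944) x12756)
  (add (sub (add (add (sub (add (add (add (add (add (add (sub (add (add C x6192) x6196) x6206) x6164) x6236) x6092) x6308) x5876) x6524) x5714) x368) x3284) x14948) x19320)
  (add (sub (add (add (sub (add (add (add (add (sub (sub (sub C x6208) x6200) x6224) x6098) x6314) x5882) x6530) x5720) x374) x3290) x14954) x19326)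
  (sub (sub (add (add (sub (add (add (add (add (sub (add (add (sub C x6206) x6184) x6196) x6226) x6100) x6316) x5884) x6532) x5722) x376) x3292) x14956) x12768)
  (add (sub (add (add (sub (add (add (sub (sub (add (add (sub C x6216) x6224) x6236) x6176) x6266) x5888) x6536) x5726) x380) x3296) x14960) x19332)
  (sub (add (sub (add (add (sub (add (add (sub (sub (sub (sub C x6212) x6228) x6180) x6270) x5892) x6540) x5730) x384) x3300) x14964) x12778) x19340)
  (add (sub (add (add (sub (add (add (sub (sub (add (add (sub C x6226) x6212) x6236) x6206) x6278) x5900) x6548) x5738) x392) x3308) x14972) x19344)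
  (sub (sub (add (add (sub (add (add (sub (sub (sub (sub C x6224) x6232) x6208) x6280) x5902) x6550) x5740) x394) x3310) x14974) x12786)
  (sub (add (sub (add (add (sub (add (add (sub (add (add (sub (add (add C x6232) x6236) x6216) x6156) x6192) x6282) x5904) x6552) x5742) x396) x3312) x14976) x12790) x19352)
  (sub (sub (add (add (sub (add (add (sub (add (add (sub (add (add C x6228) x6236) x6226) x6160) x6196) x6286) x5908) x6556) x5746) x400) x3316) x14980) x12792)
  (add (sub (add (add (sub (add (add (sub (add (add (add (add (add (add C x6228) x6232) x6212) x6224) x6164) x6200) x6290) x5912) x6560) x5750) x404) x3320) x14984) x19356)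
  (add (sub (add (add (sub (sub (sub (add (add (sub (sub C x6244) x6248) x6278) x6314) x6134) x6404) x5756) x410) x3326) x14990) x19362)
  (sub (sub (add (add (sub (sub (sub (add (add (sub (sub C x6242) x6256) x6280) x6316) x6136) x6406) x5758) x412) x3328) x14992) x12804)
  (add (sub (add (add (sub (sub (sub (sub (sub (sub C x6252) x6242) x6266) x6140) x6410) x5762) x416) x3332) x14996) x19368)
  (sub (add (sub (add (add (sub (sub (sub (sub (sub (sub C x6248) x6258) x6270) x6144) x6414) x5766) x420) x3336) x15000) x12814) x19376)
  (sub (sub (add (add (sub (sub (sub (sub (sub (sub C x6258) x6244) x6292) x6148) x6418) x5770) x424) x3340) x15004) x12816)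
  (sub (add (sub (add (add (sub (sub (sub (sub (sub (sub C x6256) x6252) x6294) x6150) x6420) x5772) x426) x3342) x15006) x12820) x19382)
  (add (sub (add (add (sub (sub (sub (sub (add (add (sub C x6270) x6278) x6290) x6248) x6212) x6428) x5780) x434) x3350) x15014) x19386)
  (sub (add (sub (add (add (sub (sub (sub (sub (sub (sub C x6266) x6282) x6252) x6216) x6432) x5784) x438) x3354) x15018) x12832) x19394)
  (add (sub (add (add (sub (sub (sub (add (add (add (add (sub C x6280) x6266) x6290) x6242) x6314) x6224) x6440) x5792) x446) x3362) x15026) x19398)
  (sub (sub (add (add (sub (sub (sub (add (add (sub (sub C x6278) x6286) x6244) x6316) x6226) x6442) x5794) x448) x3364) x15028) x12840)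
  (sub (add (sub (add (add (sub (sub (sub (sub (sub (add (add C x6286) x6290) x6270) x6300) x6228) x6444) x5796) x450) x3366) x15030) x12844) x19406)
  (sub (sub (add (add (sub (sub (sub (sub (sub (add (add C x6282) x6290) x6280) x6304) x6232) x6448) x5800) x454) x3370) x15034) x12846)
  (add (sub (add (add (sub (sub (sub (sub (add (add (add (add C x6282) x6286) x6266) x6278) x6308) x6236) x6452) x5804) x458) x3374) x15038) x19410)
  (sub (sub (add (add (sub (sub (add (add (sub (add (add (sub C x6294) x6304) x6316) x6256) x6076) x6184) x6454) x5806) x460) x3376) x15040) x12852)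
  (sub (add (sub (add (add (sub (sub (add (add (sub (sub (sub C x6292) x6300) x6258) x6078) x6186) x6456) x5808) x462) x3378) x15042) x12856) x19418)
  (sub (add (sub (add (add (sub (sub (add (add (sub (sub (add (add C x6304) x6308) x6294) x6282) x6084) x6192) x6462) x5814) x468) x3384) x15048) x12862) x19424)
  (sub (sub (add (add (sub (sub (add (add (sub (add (add (add (add C x6300) x6308) x6292) x6316) x6286) x6088) x6196) x6466) x5818) x472) x3388) x15052) x12864)
  (add (sub (add (add (sub (sub (add (add (sub (sub (add (add C x6300) x6304) x6314) x6290) x6092) x6200) x6470) x5822) x476) x3392) x15056) x19428)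
  (add (sub (add (add (sub (sub (add (add (add (add (sub (sub C x6316) x6308) x6242) x6278) x6098) x6206) x6476) x5828) x482) x3398) x15062) x19434)
  (sub (sub (add (add (sub (sub (add (add (add (add (add (add (sub C x6314) x6292) x6304) x6244) x6280) x6100) x6208) x6478) x5830) x484) x3400) x15064) x12876)
  (add (sub (add (add (add (add (sub (add (add (add (add (add (add (sub C x6324) x6332) x6344) x6356) x6392) x6428) x6536) x5996) x4376) x5348) x488) x3404) x15068) x19440)
  (sub (add (sub (add (add (add (add (sub (add (add (add (add (sub (sub C x6320) x6336) x6360) x6396) x6432) x6540) x6000) x4380) x5352) x492) x3408) x15072) x12886) x19448)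
  (add (sub (add (add (add (add (sub (add (add (sub (add (add (sub C x6334) x6320) x6344) x6350) x6440) x6548) x6008) x4388) x5360) x500) x3416) x15080) x19452)
  (sub (sub (add (add (add (add (sub (add (add (sub (sub (sub C x6332) x6340) x6352) x6442) x6550) x6010) x4390) x5362) x502) x3418) x15082) x12894)
  (sub (add (sub (add (add (add (add (sub (add (add (sub (sub (add (add C x6340) x6344) x6324) x6372) x6444) x6552) x6012) x4392) x5364) x504) x3420) x15084) x12898) x19460)
  (sub (sub (add (add (add (add (sub (add (add (sub (sub (add (add C x6336) x6344) x6334) x6376) x6448) x6556) x6016) x4396) x5368) x508) x3424) x15088) x12900)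
  (add (sub (add (add (add (add (sub (add (add (sub (add (add (add (add C x6336) x6340) x6320) x6332) x6380) x6452) x6560) x6020) x4400) x5372) x512) x3428) x15092) x19464)
  (add (sub (add (add (add (add (sub (sub (sub (sub (sub C x6352) x6356) x6332) x6404) x6026) x4406) x5378) x518) x3434) x15098) x19470)
  (sub (sub (add (add (add (add (sub (sub (sub (sub (sub C x6350) x6364) x6334) x6406) x6028) x4408) x5380) x520) x3436) x15100) x12912)
  (add (sub (add (add (add (add (sub (sub (add (add (sub (sub C x6360) x6350) x6320) x6392) x6410) x6032) x4412) x5384) x524) x3440) x15104) x19476)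
  (sub (add (sub (add (add (add (add (sub (sub (add (add (sub (sub C x6356) x6366) x6324) x6396) x6414) x6036) x4416) x5388) x528) x3444) x15108) x12922) x19484)
  (sub (sub (add (add (add (add (sub (sub (sub (sub (sub C x6366) x6352) x6382) x6418) x6040) x4420) x5392) x532) x3448) x15112) x12924)
  (sub (add (sub (add (add (add (add (sub (sub (sub (sub (sub C x6364) x6360) x6384) x6420) x6042) x4422) x5394) x534) x3450) x15114) x12928) x19490)
  (sub (add (sub (add (add (add (add (sub (sub (sub (add (add (add (add C x6376) x6380) x6384) x6396) x6336) x6480) x6048) x4428) x5400) x540) x3456) x15120) x12934) x19496)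
  (sub (sub (add (add (add (add (sub (sub (sub (sub (add (add C x6372) x6380) x6382) x6340) x6484) x6052) x4432) x5404) x544) x3460) x15124) x12936)
  (add (sub (add (add (add (add (sub (sub (sub (sub (add (add C x6372) x6376) x6392) x6344) x6488) x6056) x4436) x5408) x548) x3464) x15128) x19500)
  (sub (sub (add (add (add (add (sub (sub (sub (sub (sub C x6384) x6376) x6364) x6490) x6058) x4438) x5410) x550) x3466) x15130) x12942)
  (sub (add (sub (add (add (add (add (sub (sub (sub (add (add (sub C x6382) x6372) x6396) x6366) x6492) x6060) x4440) x5412) x552) x3468) x15132) x12946) x19508)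
  (add (sub (add (add (add (add (sub (sub (add (add (sub (sub C x6396) x6380) x6320) x6356) x6500) x6068) x4448) x5420) x560) x3476) x15140) x19512)
  (sub (add (sub (add (add (add (add (sub (sub (add (add (add (add (sub C x6392) x6372) x6384) x6324) x6360) x6504) x6072) x4452) x5424) x564) x3480) x15144) x12958) x19520)
  (add (sub (add (add (add (add (sub (sub (add (add (sub (sub C x6406) x6410) x6440) x6476) x6350) x6242) x4460) x5432) x572) x3488) x15152) x19524)
  (sub (sub (add (add (add (add (sub (sub (add (add (sub (sub C x6404) x6418) x6442) x6478) x6352) x6244) x4462) x5434) x574) x3490) x15154) x12966)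
  (add (sub (add (add (add (add (sub (sub (sub (sub (sub C x6414) x6404) x6428) x6356) x6248) x4466) x5438) x578) x3494) x15158) x19530)
  (sub (add (sub (add (add (add (add (sub (sub (sub (sub (sub C x6410) x6420) x6432) x6360) x6252) x4470) x5442) x582) x3498) x15162) x12976) x19538)
  (sub (sub (add (add (add (add (sub (sub (sub (sub (sub C x6420) x6406) x6454) x6364) x6256) x4474) x5446) x586) x3502) x15166) x12978)
  (sub (add (sub (add (add (add (add (sub (sub (sub (sub (sub C x6418) x6414) x6456) x6366) x6258) x4476) x5448) x588) x3504) x15168) x12982) x19544)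
  (add (sub (add (add (add (add (sub (add (add (sub (add (add (sub C x6432) x6440) x6452) x6410) x6320) x6536) x6266) x4484) x5456) x596) x3512) x15176) x19548)
  (sub (add (sub (add (add (add (add (sub (add (add (sub (sub (sub C x6428) x6444) x6414) x6324) x6540) x6270) x4488) x5460) x600) x3516) x15180) x12994) x19556)
  (add (sub (add (add (add (add (sub (add (add (add (add (add (add (sub C x6442) x6428) x6452) x6404) x6476) x6332) x6548) x6278) x4496) x5468) x608) x3524) x15188) x19560)
  (sub (sub (add (add (add (add (sub (add (add (add (add (sub (sub C x6440) x6448) x6406) x6478) x6334) x6550) x6280) x4498) x5470) x610) x3526) x15190) x13002)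
  (sub (add (sub (add (add (add (add (sub (add (add (sub (sub (add (add C x6448) x6452) x6432) x6462) x6336) x6552) x6282) x4500) x5472) x612) x3528) x15192) x13006) x19568)
  (sub (sub (add (add (add (add (sub (add (add (sub (sub (add (add C x6444) x6452) x6442) x6466) x6340) x6556) x6286) x4504) x5476) x616) x3532) x15196) x13008)
  (add (sub (add (add (add (add (sub (add (add (sub (add (add (add (add C x6444) x6448) x6428) x6440) x6470) x6344) x6560) x6290) x4508) x5480) x620) x3536) x15200) x19572)
  (sub (sub (add (add (add (add (sub (sub (sub (add (add (sub C x6456) x6466) x6478) x6418) x6508) x6292) x4510) x5482) x622) x3538) x15202) x13014)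
  (sub (add (sub (add (add (add (add (sub (sub (sub (sub (sub C x6454) x6462) x6420) x6510) x6294) x4512) x5484) x624) x3540) x15204) x13018) x19580)
  (sub (add (sub (add (add (add (add (sub (sub (sub (sub (add (add C x6466) x6470) x6456) x6444) x6516) x6300) x4518) x5490) x630) x3546) x15210) x13024) x19586)
  (sub (sub (add (add (add (add (sub (sub (sub (add (add (add (add C x6462) x6470) x6454) x6478) x6448) x6520) x6304) x4522) x5494) x634) x3550) x15214) x13026)
  (add (sub (add (add (add (add (sub (sub (sub (sub (add (add C x6462) x6466) x6476) x6452) x6524) x6308) x4526) x5498) x638) x3554) x15218) x19590)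
  (add (sub (add (add (add (add (sub (sub (add (add (sub (sub C x6478) x6470) x6404) x6440) x6530) x6314) x4532) x5504) x644) x3560) x15224) x19596)
  (sub (sub (add (add (add (add (sub (sub (add (add (add (add (sub C x6476) x6454) x6466) x6406) x6442) x6532) x6316) x4534) x5506) x646) x3562) x15226) x13038)
  (sub (add (sub (add (add (add (add (add (add (sub (add (add (add (add (add (add C x6484) x6488) x6492) x6504) x6516) x6552) x6372) x5832) x6156) x4536) x5508) x648) x3564) x15228) x13042) x19604)
  (sub (sub (add (add (add (add (add (add (sub (add (add (sub (add (add C x6480) x6488) x6490) x6520) x6556) x6376) x5836) x6160) x4540) x5512) x652) x3568) x15232) x13044)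
  (add (sub (add (add (add (add (add (add (sub (add (add (sub (add (add C x6480) x6484) x6500) x6524) x6560) x6380) x5840) x6164) x4544) x5516) x656) x3572) x15236) x19608)
  (sub (sub (add (add (add (add (add (add (sub (sub (sub (sub C x6492) x6484) x6508) x6382) x5842) x6166) x4546) x5518) x658) x3574) x15238) x13050)
  (sub (add (sub (add (add (add (add (add (add (sub (sub (add (add (sub C x6490) x6480) x6504) x6510) x6384) x5844) x6168) x4548) x5520) x660) x3576) x15240) x13054) x19616)
  (add (sub (add (add (add (add (add (add (sub (sub (sub (sub C x6504) x6488) x6536) x6392) x5852) x6176) x4556) x5528) x668) x3584) x15248) x19620)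
  (sub (add (sub (add (add (add (add (add (add (sub (sub (add (add (sub C x6500) x6480) x6492) x6540) x6396) x5856) x6180) x4560) x5532) x672) x3588) x15252) x13066) x19628)
  (sub (sub (add (add (add (add (add (add (sub (sub (add (add (sub C x6510) x6520) x6532) x6490) x6454) x5860) x6184) x4564) x5536) x676) x3592) x15256) x13068)
  (sub (add (sub (add (add (add (add (add (add (sub (sub (sub (sub C x6508) x6516) x6492) x6456) x5862) x6186) x4566) x5538) x678) x3594) x15258) x13072) x19634)
  (sub (add (sub (add (add (add (add (add (add (sub (add (add (sub (add (add C x6520) x6524) x6510) x6480) x6552) x6462) x5868) x6192) x4572) x5544) x684) x3600) x15264) x13078) x19640)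
  (sub (sub (add (add (add (add (add (add (sub (add (add (add (add (add (add C x6516) x6524) x6508) x6532) x6484) x6556) x6466) x5872) x6196) x4576) x5548) x688) x3604) x15268) x13080)
  (add (sub (add (add (add (add (add (add (sub (add (add (sub (add (add C x6516) x6520) x6530) x6488) x6560) x6470) x5876) x6200) x4580) x5552) x692) x3608) x15272) x19644)
  (add (sub (add (add (add (add (add (add (sub (sub (sub (sub C x6532) x6524) x6548) x6476) x5882) x6206) x4586) x5558) x698) x3614) x15278) x19650)
  (sub (sub (add (add (add (add (add (add (sub (sub (add (add (sub C x6530) x6508) x6520) x6550) x6478) x5884) x6208) x4588) x5560) x700) x3616) x15280) x13092)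
  (add (sub (add (add (add (add (add (add (add (add (sub (add (add (sub C x6540) x6548) x6560) x6500) x6320) x6428) x5888) x6212) x4592) x5564) x704) x3620) x15284) x19656)
  (sub (add (sub (add (add (add (add (add (add (add (add (sub (sub (sub C x6536) x6552) x6504) x6324) x6432) x5892) x6216) x4596) x5568) x708) x3624) x15288) x13102) x19664)
  (add (sub (add (add (add (add (add (add (add (add (sub (add (add (sub C x6550) x6536) x6560) x6530) x6332) x6440) x5900) x6224) x4604) x5576) x716) x3632) x15296) x19668)
  (sub (sub (add (add (add (add (add (add (add (add (sub (sub (sub C x6548) x6556) x6532) x6334) x6442) x5902) x6226) x4606) x5578) x718) x3634) x15298) x13110)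
  (sub (add (sub (add (add (add (add (add (add (add (add (add (add (sub (add (add C x6556) x6560) x6540) x6480) x6516) x6336) x6444) x5904) x6228) x4608) x5580) x720) x3636) x15300) x13114) x19676)
  (sub (sub (add (add (add (add (add (add (add (add (add (add (sub (add (add C x6552) x6560) x6550) x6484) x6520) x6340) x6448) x5908) x6232) x4612) x5584) x724) x3640) x15304) x13116)
  (add (sub (add (add (add (add (add (add (add (add (add (add (add (add (add (add C x6552) x6556) x6536) x6548) x6488) x6524) x6344) x6452) x5912) x6236) x4616) x5588) x728) x3644) x15308) x19680)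
  (sub (add (sub (add (add (add (add (add (add (add (add (add (add (add (add (sub C x6564) x6574) x6586) x6598) x6634) x6670) x6778) x6886) x7210) x7534) x8506) x9478) x12394) x2188) x0) x13124)
  (sub (sub (add (add (add (add (add (add (add (add (add (add (sub (sub C x6562) x6570) x6600) x6636) x6672) x6780) x6888) x7212) x7536) x8508) x9480) x12396) x2190) x4)
  (sub (sub (add (add (add (add (add (add (add (add (sub (sub (add (add C x6574) x6578) x6564) x6588) x6678) x6786) x6894) x7218) x7542) x8514) x9486) x12402) x2196) x10)
  (sub (add (sub (add (add (add (add (add (add (add (add (sub (add (add (add (add C x6570) x6578) x6562) x6586) x6592) x6682) x6790) x6898) x7222) x7546) x8518) x9490) x12406) x2200) x12) x13136)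
  (add (sub (add (add (add (add (add (add (add (add (sub (sub (add (add C x6570) x6574) x6584) x6596) x6686) x6794) x6902) x7226) x7550) x8522) x9494) x12410) x2204) x13138)
  (add (sub (add (add (add (add (add (add (add (add (sub (sub (sub C x6586) x6578) x6620) x6692) x6800) x6908) x7232) x7556) x8528) x9500) x12416) x2210) x13144)
  (sub (add (sub (add (add (add (add (add (add (add (add (sub (add (add (sub C x6584) x6562) x6574) x6622) x6694) x6802) x6910) x7234) x7558) x8530) x9502) x12418) x2212) x24) x13148)
  (sub (sub (add (add (add (add (add (add (sub (sub (add (add (add (add C x6592) x6596) x6600) x6612) x6570) x6642) x6912) x7236) x7560) x8532) x9504) x12420) x2214) x28)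
  (sub (add (sub (add (add (add (add (add (add (sub (sub (sub (add (add C x6588) x6596) x6598) x6574) x6646) x6916) x7240) x7564) x8536) x9508) x12424) x2218) x30) x13154)
  (add (sub (add (add (add (add (add (add (sub (sub (sub (add (add C x6588) x6592) x6608) x6578) x6650) x6920) x7244) x7568) x8540) x9512) x12428) x2222) x13156)
  (sub (add (sub (add (add (add (add (add (add (sub (add (add (sub (sub C x6600) x6592) x6562) x6634) x6652) x6922) x7246) x7570) x8542) x9514) x12430) x2224) x36) x13160)
  (sub (sub (add (add (add (add (add (add (sub (add (add (add (add (sub C x6598) x6588) x6612) x6564) x6636) x6654) x6924) x7248) x7572) x8544) x9516) x12432) x2226) x40)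
  (add (sub (add (add (add (add (add (add (sub (sub (sub (sub C x6612) x6596) x6626) x6662) x6932) x7256) x7580) x8552) x9524) x12440) x2234) x13168)
  (sub (sub (add (add (add (add (add (add (sub (sub (add (add (sub C x6608) x6588) x6600) x6630) x6666) x6936) x7260) x7584) x8556) x9528) x12444) x2238) x52)
  (add (sub (add (add (add (add (add (add (sub (sub (sub (sub C x6622) x6626) x6584) x6728) x6944) x7268) x7592) x8564) x9536) x12452) x2246) x13180)
  (sub (add (sub (add (add (add (add (add (add (sub (sub (sub (sub C x6620) x6634) x6586) x6730) x6946) x7270) x7594) x8566) x9538) x12454) x2248) x60) x13184)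
  (add (sub (add (add (add (add (add (add (sub (sub (sub (sub C x6630) x6620) x6608) x6734) x6950) x7274) x7598) x8570) x9542) x12458) x2252) x13186)
  (sub (sub (add (add (add (add (add (add (sub (sub (sub (sub C x6626) x6636) x6612) x6738) x6954) x7278) x7602) x8574) x9546) x12462) x2256) x70)
  (sub (add (sub (add (add (add (add (add (add (sub (add (add (sub (sub C x6636) x6622) x6562) x6598) x6742) x6958) x7282) x7606) x8578) x9550) x12466) x2260) x72) x13196)
  (sub (sub (add (add (add (add (add (add (sub (add (add (sub (sub C x6634) x6630) x6564) x6600) x6744) x6960) x7284) x7608) x8580) x9552) x12468) x2262) x76)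
  (sub (sub (add (add (add (add (sub (sub (add (add (add (add (add (add C x6646) x6650) x6654) x6666) x6678) x6714) x6588) x6804) x7614) x8586) x9558) x12474) x2268) x82)
  (sub (add (sub (add (add (add (add (sub (sub (add (add (sub (add (add C x6642) x6650) x6652) x6682) x6718) x6592) x6808) x7618) x8590) x9562) x12478) x2272) x84) x13208)
  (add (sub (add (add (add (add (sub (sub (add (add (sub (add (add C x6642) x6646) x6662) x6686) x6722) x6596) x6812) x7622) x8594) x9566) x12482) x2276) x13210)
  (sub (add (sub (add (add (add (add (sub (sub (sub (sub (sub C x6654) x6646) x6670) x6598) x6814) x7624) x8596) x9568) x12484) x2278) x90) x13214)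
  (sub (sub (add (add (add (add (sub (sub (sub (add (add (sub C x6652) x6642) x6666) x6672) x6600) x6816) x7626) x8598) x9570) x12486) x2280) x94)
  (add (sub (add (add (add (add (sub (sub (sub (sub (sub C x6666) x6650) x6698) x6608) x6824) x7634) x8606) x9578) x12494) x2288) x13222)
  (sub (sub (add (add (add (add (sub (sub (sub (add (add (sub C x6662) x6642) x6654) x6702) x6612) x6828) x7638) x8610) x9582) x12498) x2292) x106)
  (sub (add (sub (add (add (add (add (sub (add (add (sub (add (add (sub C x6672) x6682) x6694) x6652) x6562) x6778) x6832) x7642) x8614) x9586) x12502) x2296) x108) x13232)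
  (sub (sub (add (add (add (add (sub (add (add (sub (sub (sub C x6670) x6678) x6654) x6564) x6780) x6834) x7644) x8616) x9588) x12504) x2298) x112)
  (sub (sub (add (add (add (add (sub (add (add (add (add (sub (add (add C x6682) x6686) x6672) x6642) x6714) x6570) x6786) x6840) x7650) x8622) x9594) x12510) x2304) x118)
  (sub (add (sub (add (add (add (add (sub (add (add (add (add (add (add (add (add C x6678) x6686) x6670) x6694) x6646) x6718) x6574) x6790) x6844) x7654) x8626) x9598) x12514) x2308) x120) x13244)
  (add (sub (add (add (add (add (sub (add (add (add (add (sub (add (add C x6678) x6682) x6692) x6650) x6722) x6578) x6794) x6848) x7658) x8630) x9602) x12518) x2312) x13246)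
  (add (sub (add (add (add (add (sub (add (add (sub (sub (sub C x6694) x6686) x6710) x6584) x6800) x6854) x7664) x8636) x9608) x12524) x2318) x13252)
  (sub (add (sub (add (add (add (add (sub (add (add (sub (add (add (sub C x6692) x6670) x6682) x6712) x6586) x6802) x6856) x7666) x8638) x9610) x12526) x2320) x132) x13256)
  (add (sub (add (add (add (add (sub (sub (sub (add (add (sub C x6702) x6710) x6722) x6662) x6752) x6860) x7670) x8642) x9614) x12530) x2324) x13258)
  (sub (sub (add (add (add (add (sub (sub (sub (sub (sub C x6698) x6714) x6666) x6756) x6864) x7674) x8646) x9618) x12534) x2328) x142)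
  (add (sub (add (add (add (add (sub (sub (sub (add (add (sub C x6712) x6698) x6722) x6692) x6764) x6872) x7682) x8654) x9626) x12542) x2336) x13270)
  (sub (add (sub (add (add (add (add (sub (sub (sub (sub (sub C x6710) x6718) x6694) x6766) x6874) x7684) x8656) x9628) x12544) x2338) x150) x13274)
  (sub (sub (add (add (add (add (sub (sub (add (add (sub (add (add C x6718) x6722) x6702) x6642) x6678) x6768) x6876) x7686) x8658) x9630) x12546) x2340) x154)
  (sub (add (sub (add (add (add (add (sub (sub (add (add (sub (add (add C x6714) x6722) x6712) x6646) x6682) x6772) x6880) x7690) x8662) x9634) x12550) x2344) x156) x13280)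
  (add (sub (add (add (add (add (sub (sub (add (add (add (add (add (add C x6714) x6718) x6698) x6710) x6650) x6686) x6776) x6884) x7694) x8666) x9638) x12554) x2348) x13282)
  (add (sub (add (add (add (add (sub (sub (add (add (sub (sub C x6730) x6734) x6764) x6800) x6620) x7052) x7700) x8672) x9644) x12560) x2354) x13288)
  (sub (add (sub (add (add (add (add (sub (sub (add (add (sub (sub C x6728) x6742) x6766) x6802) x6622) x7054) x7702) x8674) x9646) x12562) x2356) x168) x13292)
  (add (sub (add (add (add (add (sub (sub (sub (sub (sub C x6738) x6728) x6752) x6626) x7058) x7706) x8678) x9650) x12566) x2360) x13294)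
  (sub (sub (add (add (add (add (sub (sub (sub (sub (sub C x6734) x6744) x6756) x6630) x7062) x7710) x8682) x9654) x12570) x2364) x178)
  (sub (add (sub (add (add (add (add (sub (sub (sub (sub (sub C x6744) x6730) x6778) x6634) x7066) x7714) x8686) x9658) x12574) x2368) x180) x13304)
  (sub (sub (add (add (add (add (sub (sub (sub (sub (sub C x6742) x6738) x6780) x6636) x7068) x7716) x8688) x9660) x12576) x2370) x184)
  (add (sub (add (add (add (add (sub (sub (sub (add (add (sub C x6756) x6764) x6776) x6734) x6698) x7076) x7724) x8696) x9668) x12584) x2378) x13312)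
  (sub (sub (add (add (add (add (sub (sub (sub (sub (sub C x6752) x6768) x6738) x6702) x7080) x7728) x8700) x9672) x12588) x2382) x196)
  (add (sub (add (add (add (add (sub (sub (add (add (add (add (sub C x6766) x6752) x6776) x6728) x6800) x6710) x7088) x7736) x8708) x9680) x12596) x2390) x13324)
  (sub (add (sub (add (add (add (add (sub (sub (add (add (sub (sub C x6764) x6772) x6730) x6802) x6712) x7090) x7738) x8710) x9682) x12598) x2392) x204) x13328)
  (sub (sub (add (add (add (add (sub (sub (sub (sub (add (add C x6772) x6776) x6756) x6786) x6714) x7092) x7740) x8712) x9684) x12600) x2394) x208)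
  (sub (add (sub (add (add (add (add (sub (sub (sub (sub (add (add C x6768) x6776) x6766) x6790) x6718) x7096) x7744) x8716) x9688) x12604) x2398) x210) x13334)
  (add (sub (add (add (add (add (sub (sub (sub (add (add (add (add C x6768) x6772) x6752) x6764) x6794) x6722) x7100) x7748) x8720) x9692) x12608) x2402) x13336)
  (sub (add (sub (add (add (add (add (sub (add (add (sub (add (add (sub C x6780) x6790) x6802) x6742) x6562) x6670) x7102) x7750) x8722) x9694) x12610) x2404) x216) x13340)
  (sub (sub (add (add (add (add (sub (add (add (sub (sub (sub C x6778) x6786) x6744) x6564) x6672) x7104) x7752) x8724) x9696) x12612) x2406) x220)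
  (sub (sub (add (add (add (add (sub (add (add (sub (sub (add (add C x6790) x6794) x6780) x6768) x6570) x6678) x7110) x7758) x8730) x9702) x12618) x2412) x226)
  (sub (add (sub (add (add (add (add (sub (add (add (sub (add (add (add (add C x6786) x6794) x6778) x6802) x6772) x6574) x6682) x7114) x7762) x8734) x9706) x12622) x2416) x228) x13352)
  (add (sub (add (add (add (add (sub (add (add (sub (sub (add (add C x6786) x6790) x6800) x6776) x6578) x6686) x7118) x7766) x8738) x9710) x12626) x2420) x13354)
  (add (sub (add (add (add (add (sub (add (add (add (add (sub (sub C x6802) x6794) x6728) x6764) x6584) x6692) x7124) x7772) x8744) x9716) x12632) x2426) x13360)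
  (sub (add (sub (add (add (add (add (sub (add (add (add (add (add (add (sub C x6800) x6778) x6790) x6730) x6766) x6586) x6694) x7126) x7774) x8746) x9718) x12634) x2428) x240) x13364)
  (sub (sub (add (add (sub (sub (add (add (add (add (add (add (add (add C x6808) x6812) x6816) x6828) x6840) x6876) x6912) x7020) x6642) x7290) x9720) x12636) x2430) x244)
  (sub (add (sub (add (add (sub (sub (add (add (add (add (sub (add (add C x6804) x6812) x6814) x6844) x6880) x6916) x7024) x6646) x7294) x9724) x12640) x2434) x246) x13370)
  (add (sub (add (add (sub (sub (add (add (add (add (sub (add (add C x6804) x6808) x6824) x6848) x6884) x6920) x7028) x6650) x7298) x9728) x12644) x2438) x13372)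
  (sub (add (sub (add (add (sub (sub (add (add (sub (sub (sub C x6816) x6808) x6832) x6922) x7030) x6652) x7300) x9730) x12646) x2440) x252) x13376)
  (sub (sub (add (add (sub (sub (add (add (sub (add (add (sub C x6814) x6804) x6828) x6834) x6924) x7032) x6654) x7302) x9732) x12648) x2442) x256)
  (add (sub (add (add (sub (sub (add (add (sub (sub (sub C x6828) x6812) x6860) x6932) x7040) x6662) x7310) x9740) x12656) x2450) x13384)
  (sub (sub (add (add (sub (sub (add (add (sub (add (add (sub C x6824) x6804) x6816) x6864) x6936) x7044) x6666) x7314) x9744) x12660) x2454) x268)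
  (sub (add (sub (add (add (sub (sub (sub (sub (add (add (sub C x6834) x6844) x6856) x6814) x6886) x6670) x7318) x9748) x12664) x2458) x270) x13394)
  (sub (sub (add (add (sub (sub (sub (sub (sub (sub C x6832) x6840) x6816) x6888) x6672) x7320) x9750) x12666) x2460) x274)
  (sub (sub (add (add (sub (sub (sub (add (add (sub (add (add C x6844) x6848) x6834) x6804) x6876) x6894) x6678) x7326) x9756) x12672) x2466) x280)
  (sub (add (sub (add (add (sub (sub (sub (add (add (add (add (add (add C x6840) x6848) x6832) x6856) x6808) x6880) x6898) x6682) x7330) x9760) x12676) x2470) x282) x13406)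
  (add (sub (add (add (sub (sub (sub (add (add (sub (add (add C x6840) x6844) x6854) x6812) x6884) x6902) x6686) x7334) x9764) x12680) x2474) x13408)
  (add (sub (add (add (sub (sub (sub (sub (sub (sub C x6856) x6848) x6872) x6908) x6692) x7340) x9770) x12686) x2480) x13414)
  (sub (add (sub (add (add (sub (sub (sub (sub (add (add (sub C x6854) x6832) x6844) x6874) x6910) x6694) x7342) x9772) x12688) x2482) x294) x13418)
  (add (sub (add (add (sub (sub (sub (sub (add (add (sub C x6864) x6872) x6884) x6824) x6968) x6698) x7346) x9776) x12692) x2486) x13420)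
  (sub (sub (add (add (sub (sub (sub (sub (sub (sub C x6860) x6876) x6828) x6972) x6702) x7350) x9780) x12696) x2490) x304)
  (add (sub (add (add (sub (sub (sub (sub (add (add (sub C x6874) x6860) x6884) x6854) x6980) x6710) x7358) x9788) x12704) x2498) x13432)
  (sub (add (sub (add (add (sub (sub (sub (sub (sub (sub C x6872) x6880) x6856) x6982) x6712) x7360) x9790) x12706) x2500) x312) x13436)
  (sub (sub (add (add (sub (sub (sub (add (add (sub (add (add C x6880) x6884) x6864) x6804) x6840) x6984) x6714) x7362) x9792) x12708) x2502) x316)
  (sub (add (sub (add (add (sub (sub (sub (add (add (sub (add (add C x6876) x6884) x6874) x6808) x6844) x6988) x6718) x7366) x9796) x12712) x2506) x318) x13442)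
  (add (sub (add (add (sub (sub (sub (add (add (add (add (add (add C x6876) x6880) x6860) x6872) x6812) x6848) x6992) x6722) x7370) x9800) x12716) x2510) x13444)
  (sub (add (sub (add (add (sub (add (add (sub (add (add (add (add (sub C x6888) x6898) x6910) x6922) x6958) x6832) x6562) x7210) x7372) x9802) x12718) x2512) x324) x13448)
  (sub (sub (add (add (sub (add (add (sub (add (add (sub (sub C x6886) x6894) x6924) x6960) x6834) x6564) x7212) x7374) x9804) x12720) x2514) x328)
  (sub (sub (add (add (sub (add (add (sub (sub (sub (add (add C x6898) x6902) x6888) x6912) x6840) x6570) x7218) x7380) x9810) x12726) x2520) x334)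
  (sub (add (sub (add (add (sub (add (add (sub (sub (add (add (add (add C x6894) x6902) x6886) x6910) x6916) x6844) x6574) x7222) x7384) x9814) x12730) x2524) x336) x13460)
  (add (sub (add (add (sub (add (add (sub (sub (sub (add (add C x6894) x6898) x6908) x6920) x6848) x6578) x7226) x7388) x9818) x12734) x2528) x13462)
  (add (sub (add (add (sub (add (add (sub (sub (sub (sub C x6910) x6902) x6944) x6854) x6584) x7232) x7394) x9824) x12740) x2534) x13468)
  (sub (add (sub (add (add (sub (add (add (sub (sub (add (add (sub C x6908) x6886) x6898) x6946) x6856) x6586) x7234) x7396) x9826) x12742) x2536) x348) x13472)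
  (sub (sub (add (add (sub (add (add (add (add (sub (add (add (add (add C x6916) x6920) x6924) x6936) x6894) x6804) x7020) x6588) x7236) x7398) x9828) x12744) x2538) x352)
  (sub (add (sub (add (add (sub (add (add (add (add (sub (sub (add (add C x6912) x6920) x6922) x6898) x6808) x7024) x6592) x7240) x7402) x9832) x12748) x2542) x354) x13478)
  (add (sub (add (add (sub (add (add (add (add (sub (sub (add (add C x6912) x6916) x6932) x6902) x6812) x7028) x6596) x7244) x7406) x9836) x12752) x2546) x13480)
  (sub (add (sub (add (add (sub (add (add (add (add (add (add (sub (sub C x6924) x6916) x6886) x6958) x6814) x7030) x6598) x7246) x7408) x9838) x12754) x2548) x360) x13484)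
  (sub (sub (add (add (sub (add (add (add (add (add (add (add (add (sub C x6922) x6912) x6936) x6888) x6960) x6816) x7032) x6600) x7248) x7410) x9840) x12756) x2550) x364)
  (add (sub (add (add (sub (add (add (add (add (sub (sub (sub C x6936) x6920) x6950) x6824) x7040) x6608) x7256) x7418) x9848) x12764) x2558) x13492)
  (sub (sub (add (add (sub (add (add (add (add (sub (add (add (sub C x6932) x6912) x6924) x6954) x6828) x7044) x6612) x7260) x7422) x9852) x12768) x2562) x376)
  (add (sub (add (add (sub (add (add (sub (sub (sub (sub C x6946) x6950) x6908) x6998) x6620) x7268) x7430) x9860) x12776) x2570) x13504)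
  (sub (add (sub (add (add (sub (add (add (sub (sub (sub (sub C x6944) x6958) x6910) x7000) x6622) x7270) x7432) x9862) x12778) x2572) x384) x13508)
  (add (sub (add (add (sub (add (add (sub (sub (sub (sub C x6954) x6944) x6932) x7004) x6626) x7274) x7436) x9866) x12782) x2576) x13510)
  (sub (sub (add (add (sub (add (add (sub (sub (sub (sub C x6950) x6960) x6936) x7008) x6630) x7278) x7440) x9870) x12786) x2580) x394)
  (sub (add (sub (add (add (sub (add (add (sub (add (add (sub (sub C x6960) x6946) x6886) x6922) x7012) x6634) x7282) x7444) x9874) x12790) x2584) x396) x13520)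
  (sub (sub (add (add (sub (add (add (sub (add (add (sub (sub C x6958) x6954) x6888) x6924) x7014) x6636) x7284) x7446) x9876) x12792) x2586) x400)
  (add (sub (add (add (sub (sub (sub (add (add (add (add (sub C x6972) x6980) x6992) x7004) x7040) x6860) x7130) x7454) x9884) x12800) x2594) x13528)
  (sub (sub (add (add (sub (sub (sub (add (add (sub (sub C x6968) x6984) x7008) x7044) x6864) x7134) x7458) x9888) x12804) x2598) x412)
  (add (sub (add (add (sub (sub (sub (sub (add (add (sub C x6982) x6968) x6992) x6998) x6872) x7142) x7466) x9896) x12812) x2606) x13540)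
  (sub (add (sub (add (add (sub (sub (sub (sub (sub (sub C x6980) x6988) x7000) x6874) x7144) x7468) x9898) x12814) x2608) x420) x13544)
  (sub (sub (add (add (sub (sub (sub (sub (sub (add (add C x6988) x6992) x6972) x7020) x6876) x7146) x7470) x9900) x12816) x2610) x424)
  (sub (add (sub (add (add (sub (sub (sub (sub (sub (add (add C x6984) x6992) x6982) x7024) x6880) x7150) x7474) x9904) x12820) x2614) x426) x13550)
  (add (sub (add (add (sub (sub (sub (sub (add (add (add (add C x6984) x6988) x6968) x6980) x7028) x6884) x7154) x7478) x9908) x12824) x2618) x13552)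
  (add (sub (add (add (sub (sub (sub (sub (sub (sub C x7000) x7004) x6980) x6944) x7160) x7484) x9914) x12830) x2624) x13558)
  (sub (add (sub (add (add (sub (sub (sub (sub (sub (sub C x6998) x7012) x6982) x6946) x7162) x7486) x9916) x12832) x2626) x438) x13562)
  (add (sub (add (add (sub (sub (sub (add (add (sub (sub C x7008) x6998) x6968) x7040) x6950) x7166) x7490) x9920) x12836) x2630) x13564)
  (sub (sub (add (add (sub (sub (sub (add (add (sub (sub C x7004) x7014) x6972) x7044) x6954) x7170) x7494) x9924) x12840) x2634) x448)
  (sub (add (sub (add (add (sub (sub (sub (sub (sub (sub C x7014) x7000) x7030) x6958) x7174) x7498) x9928) x12844) x2638) x450) x13574)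
  (sub (sub (add (add (sub (sub (sub (sub (sub (sub C x7012) x7008) x7032) x6960) x7176) x7500) x9930) x12846) x2640) x454)
  (sub (sub (add (add (sub (sub (add (add (sub (add (add (add (add C x7024) x7028) x7032) x7044) x6984) x6804) x6912) x7182) x7506) x9936) x12852) x2646) x460)
  (sub (add (sub (add (add (sub (sub (add (add (sub (sub (add (add C x7020) x7028) x7030) x6988) x6808) x6916) x7186) x7510) x9940) x12856) x2650) x462) x13586)
  (add (sub (add (add (sub (sub (add (add (sub (sub (add (add C x7020) x7024) x7040) x6992) x6812) x6920) x7190) x7514) x9944) x12860) x2654) x13588)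
  (sub (add (sub (add (add (sub (sub (add (add (sub (sub (sub C x7032) x7024) x7012) x6814) x6922) x7192) x7516) x9946) x12862) x2656) x468) x13592)
  (sub (sub (add (add (sub (sub (add (add (sub (add (add (sub C x7030) x7020) x7044) x7014) x6816) x6924) x7194) x7518) x9948) x12864) x2658) x472)
  (add (sub (add (add (sub (sub (add (add (add (add (sub (sub C x7044) x7028) x6968) x7004) x6824) x6932) x7202) x7526) x9956) x12872) x2666) x13600)
  (sub (sub (add (add (sub (sub (add (add (add (add (add (add (sub C x7040) x7020) x7032) x6972) x7008) x6828) x6936) x7206) x7530) x9960) x12876) x2670) x484)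
  (add (sub (add (add (sub (sub (add (add (add (add (sub (sub C x7054) x7058) x7088) x7124) x7160) x7268) x6728) x8024) x9968) x12884) x2678) x13612)
  (sub (add (sub (add (add (sub (sub (add (add (add (add (sub (sub C x7052) x7066) x7090) x7126) x7162) x7270) x6730) x8026) x9970) x12886) x2680) x492) x13616)
  (add (sub (add (add (sub (sub (add (add (sub (sub (sub C x7062) x7052) x7076) x7166) x7274) x6734) x8030) x9974) x12890) x2684) x13618)
  (sub (sub (add (add (sub (sub (add (add (sub (sub (sub C x7058) x7068) x7080) x7170) x7278) x6738) x8034) x9978) x12894) x2688) x502)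
  (sub (add (sub (add (add (sub (sub (add (add (sub (sub (sub C x7068) x7054) x7102) x7174) x7282) x6742) x8038) x9982) x12898) x2692) x504) x13628)
  (sub (sub (add (add (sub (sub (add (add (sub (sub (sub C x7066) x7062) x7104) x7176) x7284) x6744) x8040) x9984) x12900) x2694) x508)
  (add (sub (add (add (sub (sub (sub (sub (add (add (sub C x7080) x7088) x7100) x7058) x7130) x6752) x8048) x9992) x12908) x2702) x13636)
  (sub (sub (add (add (sub (sub (sub (sub (sub (sub C x7076) x7092) x7062) x7134) x6756) x8052) x9996) x12912) x2706) x520)
  (add (sub (add (add (sub (sub (sub (add (add (add (add (sub C x7090) x7076) x7100) x7052) x7124) x7142) x6764) x8060) x10004) x12920) x2714) x13648)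
  (sub (add (sub (add (add (sub (sub (sub (add (add (sub (sub C x7088) x7096) x7054) x7126) x7144) x6766) x8062) x10006) x12922) x2716) x528) x13652)
  (sub (sub (add (add (sub (sub (sub (sub (sub (add (add C x7096) x7100) x7080) x7110) x7146) x6768) x8064) x10008) x12924) x2718) x532)
  (sub (add (sub (add (add (sub (sub (sub (sub (sub (add (add C x7092) x7100) x7090) x7114) x7150) x6772) x8068) x10012) x12928) x2722) x534) x13658)
  (add (sub (add (add (sub (sub (sub (sub (add (add (add (add C x7092) x7096) x7076) x7088) x7118) x7154) x6776) x8072) x10016) x12932) x2726) x13660)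
  (sub (add (sub (add (add (sub (sub (sub (sub (add (add (sub C x7104) x7114) x7126) x7066) x7210) x6778) x8074) x10018) x12934) x2728) x540) x13664)
  (sub (sub (add (add (sub (sub (sub (sub (sub (sub C x7102) x7110) x7068) x7212) x6780) x8076) x10020) x12936) x2730) x544)
  (sub (sub (add (add (sub (sub (sub (sub (sub (add (add C x7114) x7118) x7104) x7092) x7218) x6786) x8082) x10026) x12942) x2736) x550)
  (sub (add (sub (add (add (sub (sub (sub (sub (add (add (add (add C x7110) x7118) x7102) x7126) x7096) x7222) x6790) x8086) x10030) x12946) x2740) x552) x13676)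
  (add (sub (add (add (sub (sub (sub (sub (sub (add (add C x7110) x7114) x7124) x7100) x7226) x6794) x8090) x10034) x12950) x2744) x13678)
  (add (sub (add (add (sub (sub (sub (add (add (sub (sub C x7126) x7118) x7052) x7088) x7232) x6800) x8096) x10040) x12956) x2750) x13684)
  (sub (add (sub (add (add (sub (sub (sub (add (add (add (add (sub C x7124) x7102) x7114) x7054) x7090) x7234) x6802) x8098) x10042) x12958) x2752) x564) x13688)
  (add (sub (add (add (sub (sub (sub (add (add (add (add (sub C x7134) x7142) x7154) x7166) x7202) x7076) x6968) x8102) x10046) x12962) x2756) x13690)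
  (sub (sub (add (add (sub (sub (sub (add (add (sub (sub C x7130) x7146) x7170) x7206) x7080) x6972) x8106) x10050) x12966) x2760) x574)
  (add (sub (add (add (sub (sub (sub (sub (add (add (sub C x7144) x7130) x7154) x7160) x7088) x6980) x8114) x10058) x12974) x2768) x13702)
  (sub (add (sub (add (add (sub (sub (sub (sub (sub (sub C x7142) x7150) x7162) x7090) x6982) x8116) x10060) x12976) x2770) x582) x13706)
  (sub (sub (add (add (sub (sub (sub (sub (sub (add (add C x7150) x7154) x7134) x7182) x7092) x6984) x8118) x10062) x12978) x2772) x586)
  (sub (add (sub (add (add (sub (sub (sub (sub (sub (add (add C x7146) x7154) x7144) x7186) x7096) x6988) x8122) x10066) x12982) x2776) x588) x13712)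
  (add (sub (add (add (sub (sub (sub (sub (add (add (add (add C x7146) x7150) x7130) x7142) x7190) x7100) x6992) x8126) x10070) x12986) x2780) x13714)
  (add (sub (add (add (sub (sub (add (add (sub (sub (sub C x7162) x7166) x7142) x7052) x7268) x6998) x8132) x10076) x12992) x2786) x13720)
  (sub (add (sub (add (add (sub (sub (add (add (sub (sub (sub C x7160) x7174) x7144) x7054) x7270) x7000) x8134) x10078) x12994) x2788) x600) x13724)
  (add (sub (add (add (sub (sub (add (add (add (add (sub (sub C x7170) x7160) x7130) x7202) x7058) x7274) x7004) x8138) x10082) x12998) x2792) x13726)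
  (sub (sub (add (add (sub (sub (add (add (add (add (sub (sub C x7166) x7176) x7134) x7206) x7062) x7278) x7008) x8142) x10086) x13002) x2796) x610)
  (sub (add (sub (add (add (sub (sub (add (add (sub (sub (sub C x7176) x7162) x7192) x7066) x7282) x7012) x8146) x10090) x13006) x2800) x612) x13736)
  (sub (sub (add (add (sub (sub (add (add (sub (sub (sub C x7174) x7170) x7194) x7068) x7284) x7014) x8148) x10092) x13008) x2802) x616)
  (sub (sub (add (add (sub (sub (sub (sub (add (add (add (add C x7186) x7190) x7194) x7206) x7146) x7236) x7020) x8154) x10098) x13014) x2808) x622)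
  (sub (add (sub (add (add (sub (sub (sub (sub (sub (add (add C x7182) x7190) x7192) x7150) x7240) x7024) x8158) x10102) x13018) x2812) x624) x13748)
  (add (sub (add (add (sub (sub (sub (sub (sub (add (add C x7182) x7186) x7202) x7154) x7244) x7028) x8162) x10106) x13022) x2816) x13750)
  (sub (add (sub (add (add (sub (sub (sub (sub (sub (sub C x7194) x7186) x7174) x7246) x7030) x8164) x10108) x13024) x2818) x630) x13754)
  (sub (sub (add (add (sub (sub (sub (sub (add (add (sub C x7192) x7182) x7206) x7176) x7248) x7032) x8166) x10110) x13026) x2820) x634)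
  (add (sub (add (add (sub (sub (sub (add (add (sub (sub C x7206) x7190) x7130) x7166) x7256) x7040) x8174) x10118) x13034) x2828) x13762)
  (sub (sub (add (add (sub (sub (sub (add (add (add (add (sub C x7202) x7182) x7194) x7134) x7170) x7260) x7044) x8178) x10122) x13038) x2832) x646)
  (sub (add (sub (add (add (sub (add (add (sub (add (add (add (add (sub C x7212) x7222) x7234) x7246) x7282) x7102) x6562) x6886) x8182) x10126) x13042) x2836) x648) x13772)
  (sub (sub (add (add (sub (add (add (sub (add (add (sub (sub C x7210) x7218) x7248) x7284) x7104) x6564) x6888) x8184) x10128) x13044) x2838) x652)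
  (sub (sub (add (add (sub (add (add (sub (sub (sub (add (add C x7222) x7226) x7212) x7236) x7110) x6570) x6894) x8190) x10134) x13050) x2844) x658)
  (sub (add (sub (add (add (sub (add (add (sub (sub (add (add (add (add C x7218) x7226) x7210) x7234) x7240) x7114) x6574) x6898) x8194) x10138) x13054) x2848) x660) x13784)
  (add (sub (add (add (sub (add (add (sub (sub (sub (add (add C x7218) x7222) x7232) x7244) x7118) x6578) x6902) x8198) x10142) x13058) x2852) x13786)
  (add (sub (add (add (sub (add (add (sub (sub (sub (sub C x7234) x7226) x7268) x7124) x6584) x6908) x8204) x10148) x13064) x2858) x13792)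
  (sub (add (sub (add (add (sub (add (add (sub (sub (add (add (sub C x7232) x7210) x7222) x7270) x7126) x6586) x6910) x8206) x10150) x13066) x2860) x672) x13796)
  (sub (sub (add (add (sub (add (add (sub (sub (add (add (add (add C x7240) x7244) x7248) x7260) x7218) x7182) x6588) x6912) x8208) x10152) x13068) x2862) x676)
  (sub (add (sub (add (add (sub (add (add (sub (sub (sub (add (add C x7236) x7244) x7246) x7222) x7186) x6592) x6916) x8212) x10156) x13072) x2866) x678) x13802)
  (add (sub (add (add (sub (add (add (sub (sub (sub (add (add C x7236) x7240) x7256) x7226) x7190) x6596) x6920) x8216) x10160) x13076) x2870) x13804)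
  (sub (add (sub (add (add (sub (add (add (sub (add (add (sub (sub C x7248) x7240) x7210) x7282) x7192) x6598) x6922) x8218) x10162) x13078) x2872) x684) x13808)
  (sub (sub (add (add (sub (add (add (sub (add (add (add (add (sub C x7246) x7236) x7260) x7212) x7284) x7194) x6600) x6924) x8220) x10164) x13080) x2874) x688)
  (add (sub (add (add (sub (add (add (sub (sub (sub (sub C x7260) x7244) x7274) x7202) x6608) x6932) x8228) x10172) x13088) x2882) x13816)
  (sub (sub (add (add (sub (add (add (sub (sub (add (add (sub C x7256) x7236) x7248) x7278) x7206) x6612) x6936) x8232) x10176) x13092) x2886) x700)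
  (add (sub (add (add (sub (add (add (add (add (sub (sub (sub C x7270) x7274) x7232) x7052) x7160) x6620) x6944) x8240) x10184) x13100) x2894) x13828)
  (sub (add (sub (add (add (sub (add (add (add (add (sub (sub (sub C x7268) x7282) x7234) x7054) x7162) x6622) x6946) x8242) x10186) x13102) x2896) x708) x13832)
  (add (sub (add (add (sub (add (add (add (add (sub (sub (sub C x7278) x7268) x7256) x7058) x7166) x6626) x6950) x8246) x10190) x13106) x2900) x13834)
  (sub (sub (add (add (sub (add (add (add (add (sub (sub (sub C x7274) x7284) x7260) x7062) x7170) x6630) x6954) x8250) x10194) x13110) x2904) x718)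
  (sub (add (sub (add (add (sub (add (add (add (add (add (add (sub (sub C x7284) x7270) x7210) x7246) x7066) x7174) x6634) x6958) x8254) x10198) x13114) x2908) x720) x13844)
  (sub (sub (add (add (sub (add (add (add (add (add (add (sub (sub C x7282) x7278) x7212) x7248) x7068) x7176) x6636) x6960) x8256) x10200) x13116) x2910) x724)
  (sub (sub (sub (sub (add (add (add (add (add (add (add (add (add (add C x7294) x7298) x7302) x7314) x7326) x7362) x7398) x7506) x7614) x7938) x6804) x8748) x2916) x730)
  (sub (add (sub (sub (sub (add (add (add (add (add (add (sub (add (add C x7290) x7298) x7300) x7330) x7366) x7402) x7510) x7618) x7942) x6808) x8752) x2920) x732) x13856)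
  (add (sub (sub (sub (add (add (add (add (add (add (sub (add (add C x7290) x7294) x7310) x7334) x7370) x7406) x7514) x7622) x7946) x6812) x8756) x2924) x13858)
  (sub (add (sub (sub (sub (add (add (add (add (sub (sub (sub C x7302) x7294) x7318) x7408) x7516) x7624) x7948) x6814) x8758) x2926) x738) x13862)
  (sub (sub (sub (sub (add (add (add (add (sub (add (add (sub C x7300) x7290) x7314) x7320) x7410) x7518) x7626) x7950) x6816) x8760) x2928) x742)
  (add (sub (sub (sub (add (add (add (add (sub (sub (sub C x7314) x7298) x7346) x7418) x7526) x7634) x7958) x6824) x8768) x2936) x13870)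
  (sub (sub (sub (sub (add (add (add (add (sub (add (add (sub C x7310) x7290) x7302) x7350) x7422) x7530) x7638) x7962) x6828) x8772) x2940) x754)
  (sub (add (sub (sub (sub (add (add (sub (sub (add (add (sub C x7320) x7330) x7342) x7300) x7372) x7642) x7966) x6832) x8776) x2944) x756) x13880)
  (sub (sub (sub (sub (add (add (sub (sub (sub (sub C x7318) x7326) x7302) x7374) x7644) x7968) x6834) x8778) x2946) x760)
  (sub (sub (sub (sub (add (add (sub (add (add (sub (add (add C x7330) x7334) x7320) x7290) x7362) x7380) x7650) x7974) x6840) x8784) x2952) x766)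
  (sub (add (sub (sub (sub (add (add (sub (add (add (add (add (add (add C x7326) x7334) x7318) x7342) x7294) x7366) x7384) x7654) x7978) x6844) x8788) x2956) x768) x13892)
  (add (sub (sub (sub (add (add (sub (add (add (sub (add (add C x7326) x7330) x7340) x7298) x7370) x7388) x7658) x7982) x6848) x8792) x2960) x13894)
  (add (sub (sub (sub (add (add (sub (sub (sub (sub C x7342) x7334) x7358) x7394) x7664) x7988) x6854) x8798) x2966) x13900)
  (sub (add (sub (sub (sub (add (add (sub (sub (add (add (sub C x7340) x7318) x7330) x7360) x7396) x7666) x7990) x6856) x8800) x2968) x780) x13904)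
  (add (sub (sub (sub (add (add (sub (sub (add (add (sub C x7350) x7358) x7370) x7310) x7454) x7670) x7994) x6860) x8804) x2972) x13906)
  (sub (sub (sub (sub (add (add (sub (sub (sub (sub C x7346) x7362) x7314) x7458) x7674) x7998) x6864) x8808) x2976) x790)
  (add (sub (sub (sub (add (add (sub (sub (add (add (sub C x7360) x7346) x7370) x7340) x7466) x7682) x8006) x6872) x8816) x2984) x13918)
  (sub (add (sub (sub (sub (add (add (sub (sub (sub (sub C x7358) x7366) x7342) x7468) x7684) x8008) x6874) x8818) x2986) x798) x13922)
  (sub (sub (sub (sub (add (add (sub (add (add (sub (add (add C x7366) x7370) x7350) x7290) x7326) x7470) x7686) x8010) x6876) x8820) x2988) x802)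
  (sub (add (sub (sub (sub (add (add (sub (add (add (sub (add (add C x7362) x7370) x7360) x7294) x7330) x7474) x7690) x8014) x6880) x8824) x2992) x804) x13928)
  (add (sub (sub (sub (add (add (sub (add (add (add (add (add (add C x7362) x7366) x7346) x7358) x7298) x7334) x7478) x7694) x8018) x6884) x8828) x2996) x13930)
  (sub (add (sub (sub (sub (sub (sub (add (add (add (add (sub C x7374) x7384) x7396) x7408) x7444) x7318) x7534) x6886) x8830) x2998) x810) x13934)
  (sub (sub (sub (sub (sub (sub (add (add (sub (sub C x7372) x7380) x7410) x7446) x7320) x7536) x6888) x8832) x3000) x814)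
  (sub (sub (sub (sub (sub (sub (sub (sub (add (add C x7384) x7388) x7374) x7398) x7326) x7542) x6894) x8838) x3006) x820)
  (sub (add (sub (sub (sub (sub (sub (sub (add (add (add (add C x7380) x7388) x7372) x7396) x7402) x7330) x7546) x6898) x8842) x3010) x822) x13946)
  (add (sub (sub (sub (sub (sub (sub (sub (add (add C x7380) x7384) x7394) x7406) x7334) x7550) x6902) x8846) x3014) x13948)
  (add (sub (sub (sub (sub (sub (sub (sub (sub C x7396) x7388) x7430) x7340) x7556) x6908) x8852) x3020) x13954)
  (sub (add (sub (sub (sub (sub (sub (sub (add (add (sub C x7394) x7372) x7384) x7432) x7342) x7558) x6910) x8854) x3022) x834) x13958)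
  (sub (sub (sub (sub (sub (add (add (sub (add (add (add (add C x7402) x7406) x7410) x7422) x7380) x7290) x7506) x7560) x6912) x8856) x3024) x838)
  (sub (add (sub (sub (sub (sub (add (add (sub (sub (add (add C x7398) x7406) x7408) x7384) x7294) x7510) x7564) x6916) x8860) x3028) x840) x13964)
  (add (sub (sub (sub (sub (add (add (sub (sub (add (add C x7398) x7402) x7418) x7388) x7298) x7514) x7568) x6920) x8864) x3032) x13966)
  (sub (add (sub (sub (sub (sub (add (add (add (add (sub (sub C x7410) x7402) x7372) x7444) x7300) x7516) x7570) x6922) x8866) x3034) x846) x13970)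
  (sub (sub (sub (sub (sub (add (add (add (add (add (add (sub C x7408) x7398) x7422) x7374) x7446) x7302) x7518) x7572) x6924) x8868) x3036) x850)
  (add (sub (sub (sub (sub (add (add (sub (sub (sub C x7422) x7406) x7436) x7310) x7526) x7580) x6932) x8876) x3044) x13978)
  (sub (sub (sub (sub (sub (add (add (sub (add (add (sub C x7418) x7398) x7410) x7440) x7314) x7530) x7584) x6936) x8880) x3048) x862)
  (add (sub (sub (sub (sub (sub (sub (sub (sub C x7432) x7436) x7394) x7484) x7592) x6944) x8888) x3056) x13990)
  (sub (add (sub (sub (sub (sub (sub (sub (sub (sub C x7430) x7444) x7396) x7486) x7594) x6946) x8890) x3058) x870) x13994)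
  (add (sub (sub (sub (sub (sub (sub (sub (sub C x7440) x7430) x7418) x7490) x7598) x6950) x8894) x3062) x13996)
  (sub (sub (sub (sub (sub (sub (sub (sub (sub C x7436) x7446) x7422) x7494) x7602) x6954) x8898) x3066) x880)
  (sub (add (sub (sub (sub (sub (sub (add (add (sub (sub C x7446) x7432) x7372) x7408) x7498) x7606) x6958) x8902) x3070) x882) x14006)
  (sub (sub (sub (sub (sub (sub (add (add (sub (sub C x7444) x7440) x7374) x7410) x7500) x7608) x6960) x8904) x3072) x886)
  (add (sub (sub (sub (sub (sub (add (add (add (add (sub C x7458) x7466) x7478) x7490) x7526) x7346) x7778) x6968) x8912) x3080) x14014)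
  (sub (sub (sub (sub (sub (sub (add (add (sub (sub C x7454) x7470) x7494) x7530) x7350) x7782) x6972) x8916) x3084) x898)
  (add (sub (sub (sub (sub (sub (sub (add (add (sub C x7468) x7454) x7478) x7484) x7358) x7790) x6980) x8924) x3092) x14026)
  (sub (add (sub (sub (sub (sub (sub (sub (sub (sub C x7466) x7474) x7486) x7360) x7792) x6982) x8926) x3094) x906) x14030)
  (sub (sub (sub (sub (sub (sub (sub (sub (add (add C x7474) x7478) x7458) x7506) x7362) x7794) x6984) x8928) x3096) x910)
  (sub (add (sub (sub (sub (sub (sub (sub (sub (add (add C x7470) x7478) x7468) x7510) x7366) x7798) x6988) x8932) x3100) x912) x14036)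
  (add (sub (sub (sub (sub (sub (sub (add (add (add (add C x7470) x7474) x7454) x7466) x7514) x7370) x7802) x6992) x8936) x3104) x14038)
  (add (sub (sub (sub (sub (sub (sub (sub (sub C x7486) x7490) x7466) x7430) x7808) x6998) x8942) x3110) x14044)
  (sub (add (sub (sub (sub (sub (sub (sub (sub (sub C x7484) x7498) x7468) x7432) x7810) x7000) x8944) x3112) x924) x14048)
  (add (sub (sub (sub (sub (sub (add (add (sub (sub C x7494) x7484) x7454) x7526) x7436) x7814) x7004) x8948) x3116) x14050)
  (sub (sub (sub (sub (sub (sub (add (add (sub (sub C x7490) x7500) x7458) x7530) x7440) x7818) x7008) x8952) x3120) x934)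
  (sub (add (sub (sub (sub (sub (sub (sub (sub (sub C x7500) x7486) x7516) x7444) x7822) x7012) x8956) x3124) x936) x14060)
  (sub (sub (sub (sub (sub (sub (sub (sub (sub C x7498) x7494) x7518) x7446) x7824) x7014) x8958) x3126) x940)
  (sub (sub (sub (sub (sub (add (add (sub (add (add (add (add C x7510) x7514) x7518) x7530) x7470) x7290) x7398) x7830) x7020) x8964) x3132) x946)
  (sub (add (sub (sub (sub (sub (add (add (sub (sub (add (add C x7506) x7514) x7516) x7474) x7294) x7402) x7834) x7024) x8968) x3136) x948) x14072)
  (add (sub (sub (sub (sub (add (add (sub (sub (add (add C x7506) x7510) x7526) x7478) x7298) x7406) x7838) x7028) x8972) x3140) x14074)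
  (sub (add (sub (sub (sub (sub (add (add (sub (sub (sub C x7518) x7510) x7498) x7300) x7408) x7840) x7030) x8974) x3142) x954) x14078)
  (sub (sub (sub (sub (sub (add (add (sub (add (add (sub C x7516) x7506) x7530) x7500) x7302) x7410) x7842) x7032) x8976) x3144) x958)
  (add (sub (sub (sub (sub (add (add (add (add (sub (sub C x7530) x7514) x7454) x7490) x7310) x7418) x7850) x7040) x8984) x3152) x14086)
  (sub (sub (sub (sub (sub (add (add (add (add (add (add (sub C x7526) x7506) x7518) x7458) x7494) x7314) x7422) x7854) x7044) x8988) x3156) x970)
  (sub (add (sub (sub (add (add (sub (add (add (add (add (add (add (sub C x7536) x7546) x7558) x7570) x7606) x7642) x7750) x7372) x6562) x8506) x8992) x3160) x972) x14096)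
  (sub (sub (sub (add (add (sub (add (add (add (add (sub (sub C x7534) x7542) x7572) x7608) x7644) x7752) x7374) x6564) x8508) x8994) x3162) x976)
  (sub (sub (sub (add (add (sub (add (add (sub (sub (add (add C x7546) x7550) x7536) x7560) x7650) x7758) x7380) x6570) x8514) x9000) x3168) x982)
  (sub (add (sub (sub (add (add (sub (add (add (sub (add (add (add (add C x7542) x7550) x7534) x7558) x7564) x7654) x7762) x7384) x6574) x8518) x9004) x3172) x984) x14108)
  (add (sub (sub (add (add (sub (add (add (sub (sub (add (add C x7542) x7546) x7556) x7568) x7658) x7766) x7388) x6578) x8522) x9008) x3176) x14110)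
  (add (sub (sub (add (add (sub (add (add (sub (sub (sub C x7558) x7550) x7592) x7664) x7772) x7394) x6584) x8528) x9014) x3182) x14116)
  (sub (add (sub (sub (add (add (sub (add (add (sub (add (add (sub C x7556) x7534) x7546) x7594) x7666) x7774) x7396) x6586) x8530) x9016) x3184) x996) x14120)
  (sub (sub (sub (add (add (sub (sub (sub (add (add (add (add C x7564) x7568) x7572) x7584) x7542) x7614) x7398) x6588) x8532) x9018) x3186) x1000)
  (sub (add (sub (sub (add (add (sub (sub (sub (sub (add (add C x7560) x7568) x7570) x7546) x7618) x7402) x6592) x8536) x9022) x3190) x1002) x14126)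
  (add (sub (sub (add (add (sub (sub (sub (sub (add (add C x7560) x7564) x7580) x7550) x7622) x7406) x6596) x8540) x9026) x3194) x14128)
  (sub (add (sub (sub (add (add (sub (sub (add (add (sub (sub C x7572) x7564) x7534) x7606) x7624) x7408) x6598) x8542) x9028) x3196) x1008) x14132)
  (sub (sub (sub (add (add (sub (sub (add (add (add (add (sub C x7570) x7560) x7584) x7536) x7608) x7626) x7410) x6600) x8544) x9030) x3198) x1012)
  (add (sub (sub (add (add (sub (sub (sub (sub (sub C x7584) x7568) x7598) x7634) x7418) x6608) x8552) x9038) x3206) x14140)
  (sub (sub (sub (add (add (sub (sub (sub (add (add (sub C x7580) x7560) x7572) x7602) x7638) x7422) x6612) x8556) x9042) x3210) x1024)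
  (add (sub (sub (add (add (sub (sub (sub (sub (sub C x7594) x7598) x7556) x7700) x7430) x6620) x8564) x9050) x3218) x14152)
  (sub (add (sub (sub (add (add (sub (sub (sub (sub (sub C x7592) x7606) x7558) x7702) x7432) x6622) x8566) x9052) x3220) x1032) x14156)
  (add (sub (sub (add (add (sub (sub (sub (sub (sub C x7602) x7592) x7580) x7706) x7436) x6626) x8570) x9056) x3224) x14158)
  (sub (sub (sub (add (add (sub (sub (sub (sub (sub C x7598) x7608) x7584) x7710) x7440) x6630) x8574) x9060) x3228) x1042)
  (sub (add (sub (sub (add (add (sub (sub (add (add (sub (sub C x7608) x7594) x7534) x7570) x7714) x7444) x6634) x8578) x9064) x3232) x1044) x14168)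
  (sub (sub (sub (add (add (sub (sub (add (add (sub (sub C x7606) x7602) x7536) x7572) x7716) x7446) x6636) x8580) x9066) x3234) x1048)
  (sub (sub (sub (add (add (add (add (sub (add (add (add (add (add (add C x7618) x7622) x7626) x7638) x7650) x7686) x7560) x7290) x7938) x6642) x8586) x9072) x3240) x1054)
  (sub (add (sub (sub (add (add (add (add (sub (add (add (sub (add (add C x7614) x7622) x7624) x7654) x7690) x7564) x7294) x7942) x6646) x8590) x9076) x3244) x1056) x14180)
  (add (sub (sub (add (add (add (add (sub (add (add (sub (add (add C x7614) x7618) x7634) x7658) x7694) x7568) x7298) x7946) x6650) x8594) x9080) x3248) x14182)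
  (sub (add (sub (sub (add (add (add (add (sub (sub (sub (sub C x7626) x7618) x7642) x7570) x7300) x7948) x6652) x8596) x9082) x3250) x1062) x14186)
  (sub (sub (sub (add (add (add (add (sub (sub (add (add (sub C x7624) x7614) x7638) x7644) x7572) x7302) x7950) x6654) x8598) x9084) x3252) x1066)
  (add (sub (sub (add (add (add (add (sub (sub (sub (sub C x7638) x7622) x7670) x7580) x7310) x7958) x6662) x8606) x9092) x3260) x14194)
  (sub (sub (sub (add (add (add (add (sub (sub (add (add (sub C x7634) x7614) x7626) x7674) x7584) x7314) x7962) x6666) x8610) x9096) x3264) x1078)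
  (sub (add (sub (sub (add (add (add (add (add (add (sub (add (add (sub C x7644) x7654) x7666) x7624) x7534) x7750) x7318) x7966) x6670) x8614) x9100) x3268) x1080) x14204)
  (sub (sub (sub (add (add (add (add (add (add (sub (sub (sub C x7642) x7650) x7626) x7536) x7752) x7320) x7968) x6672) x8616) x9102) x3270) x1084)
  (sub (sub (sub (add (add (add (add (add (add (add (add (sub (add (add C x7654) x7658) x7644) x7614) x7686) x7542) x7758) x7326) x7974) x6678) x8622) x9108) x3276) x1090)
  (sub (add (sub (sub (add (add (add (add (add (add (add (add (add (add (add (add C x7650) x7658) x7642) x7666) x7618) x7690) x7546) x7762) x7330) x7978) x6682) x8626) x9112) x3280) x1092) x14216)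
  (add (sub (sub (add (add (add (add (add (add (add (add (sub (add (add C x7650) x7654) x7664) x7622) x7694) x7550) x7766) x7334) x7982) x6686) x8630) x9116) x3284) x14218)
  (add (sub (sub (add (add (add (add (add (add (sub (sub (sub C x7666) x7658) x7682) x7556) x7772) x7340) x7988) x6692) x8636) x9122) x3290) x14224)
  (sub (add (sub (sub (add (add (add (add (add (add (sub (add (add (sub C x7664) x7642) x7654) x7684) x7558) x7774) x7342) x7990) x6694) x8638) x9124) x3292) x1104) x14228)
  (add (sub (sub (add (add (add (add (sub (sub (add (add (sub C x7674) x7682) x7694) x7634) x7724) x7346) x7994) x6698) x8642) x9128) x3296) x14230)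
  (sub (sub (sub (add (add (add (add (sub (sub (sub (sub C x7670) x7686) x7638) x7728) x7350) x7998) x6702) x8646) x9132) x3300) x1114)
  (add (sub (sub (add (add (add (add (sub (sub (add (add (sub C x7684) x7670) x7694) x7664) x7736) x7358) x8006) x6710) x8654) x9140) x3308) x14242)
  (sub (add (sub (sub (add (add (add (add (sub (sub (sub (sub C x7682) x7690) x7666) x7738) x7360) x8008) x6712) x8656) x9142) x3310) x1122) x14246)
  (sub (sub (sub (add (add (add (add (sub (add (add (sub (add (add C x7690) x7694) x7674) x7614) x7650) x7740) x7362) x8010) x6714) x8658) x9144) x3312) x1126)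
  (sub (add (sub (sub (add (add (add (add (sub (add (add (sub (add (add C x7686) x7694) x7684) x7618) x7654) x7744) x7366) x8014) x6718) x8662) x9148) x3316) x1128) x14252)
  (add (sub (sub (add (add (add (add (sub (add (add (add (add (add (add C x7686) x7690) x7670) x7682) x7622) x7658) x7748) x7370) x8018) x6722) x8666) x9152) x3320) x14254)
  (add (sub (sub (add (add (sub (sub (add (add (sub (sub C x7702) x7706) x7736) x7772) x7592) x7862) x6728) x8672) x9158) x3326) x14260)
  (sub (add (sub (sub (add (add (sub (sub (add (add (sub (sub C x7700) x7714) x7738) x7774) x7594) x7864) x6730) x8674) x9160) x3328) x1140) x14264)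
  (add (sub (sub (add (add (sub (sub (sub (sub (sub C x7710) x7700) x7724) x7598) x7868) x6734) x8678) x9164) x3332) x14266)
  (sub (sub (sub (add (add (sub (sub (sub (sub (sub C x7706) x7716) x7728) x7602) x7872) x6738) x8682) x9168) x3336) x1150)
  (sub (add (sub (sub (add (add (sub (sub (sub (sub (sub C x7716) x7702) x7750) x7606) x7876) x6742) x8686) x9172) x3340) x1152) x14276)
  (sub (sub (sub (add (add (sub (sub (sub (sub (sub C x7714) x7710) x7752) x7608) x7878) x6744) x8688) x9174) x3342) x1156)
  (add (sub (sub (add (add (sub (sub (sub (add (add (sub C x7728) x7736) x7748) x7706) x7670) x7886) x6752) x8696) x9182) x3350) x14284)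
  (sub (sub (sub (add (add (sub (sub (sub (sub (sub C x7724) x7740) x7710) x7674) x7890) x6756) x8700) x9186) x3354) x1168)
  (add (sub (sub (add (add (sub (sub (add (add (add (add (sub C x7738) x7724) x7748) x7700) x7772) x7682) x7898) x6764) x8708) x9194) x3362) x14296)
  (sub (add (sub (sub (add (add (sub (sub (add (add (sub (sub C x7736) x7744) x7702) x7774) x7684) x7900) x6766) x8710) x9196) x3364) x1176) x14300)
  (sub (sub (sub (add (add (sub (sub (sub (sub (add (add C x7744) x7748) x7728) x7758) x7686) x7902) x6768) x8712) x9198) x3366) x1180)
  (sub (add (sub (sub (add (add (sub (sub (sub (sub (add (add C x7740) x7748) x7738) x7762) x7690) x7906) x6772) x8716) x9202) x3370) x1182) x14306)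
  (add (sub (sub (add (add (sub (sub (sub (add (add (add (add C x7740) x7744) x7724) x7736) x7766) x7694) x7910) x6776) x8720) x9206) x3374) x14308)
  (sub (add (sub (sub (add (add (sub (add (add (sub (add (add (sub C x7752) x7762) x7774) x7714) x7534) x7642) x7912) x6778) x8722) x9208) x3376) x1188) x14312)
  (sub (sub (sub (add (add (sub (add (add (sub (sub (sub C x7750) x7758) x7716) x7536) x7644) x7914) x6780) x8724) x9210) x3378) x1192)
  (sub (sub (sub (add (add (sub (add (add (sub (sub (add (add C x7762) x7766) x7752) x7740) x7542) x7650) x7920) x6786) x8730) x9216) x3384) x1198)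
  (sub (add (sub (sub (add (add (sub (add (add (sub (add (add (add (add C x7758) x7766) x7750) x7774) x7744) x7546) x7654) x7924) x6790) x8734) x9220) x3388) x1200) x14324)
  (add (sub (sub (add (add (sub (add (add (sub (sub (add (add C x7758) x7762) x7772) x7748) x7550) x7658) x7928) x6794) x8738) x9224) x3392) x14326)
  (add (sub (sub (add (add (sub (add (add (add (add (sub (sub C x7774) x7766) x7700) x7736) x7556) x7664) x7934) x6800) x8744) x9230) x3398) x14332)
  (sub (add (sub (sub (add (add (sub (add (add (add (add (add (add (sub C x7772) x7750) x7762) x7702) x7738) x7558) x7666) x7936) x6802) x8746) x9232) x3400) x1212) x14336)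
  (add (sub (sub (sub (sub (add (add (add (add (add (add (sub C x7782) x7790) x7802) x7814) x7850) x7886) x7994) x7454) x8264) x9236) x3404) x14338)
  (sub (sub (sub (sub (sub (add (add (add (add (sub (sub C x7778) x7794) x7818) x7854) x7890) x7998) x7458) x8268) x9240) x3408) x1222)
  (add (sub (sub (sub (sub (add (add (sub (add (add (sub C x7792) x7778) x7802) x7808) x7898) x8006) x7466) x8276) x9248) x3416) x14350)
  (sub (add (sub (sub (sub (sub (add (add (sub (sub (sub C x7790) x7798) x7810) x7900) x8008) x7468) x8278) x9250) x3418) x1230) x14354)
  (sub (sub (sub (sub (sub (add (add (sub (sub (add (add C x7798) x7802) x7782) x7830) x7902) x8010) x7470) x8280) x9252) x3420) x1234)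
  (sub (add (sub (sub (sub (sub (add (add (sub (sub (add (add C x7794) x7802) x7792) x7834) x7906) x8014) x7474) x8284) x9256) x3424) x1236) x14360)
  (add (sub (sub (sub (sub (add (add (sub (add (add (add (add C x7794) x7798) x7778) x7790) x7838) x7910) x8018) x7478) x8288) x9260) x3428) x14362)
  (add (sub (sub (sub (sub (sub (sub (sub (sub C x7810) x7814) x7790) x7862) x7484) x8294) x9266) x3434) x14368)
  (sub (add (sub (sub (sub (sub (sub (sub (sub (sub C x7808) x7822) x7792) x7864) x7486) x8296) x9268) x3436) x1248) x14372)
  (add (sub (sub (sub (sub (sub (add (add (sub (sub C x7818) x7808) x7778) x7850) x7868) x7490) x8300) x9272) x3440) x14374)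
  (sub (sub (sub (sub (sub (sub (add (add (sub (sub C x7814) x7824) x7782) x7854) x7872) x7494) x8304) x9276) x3444) x1258)
  (sub (add (sub (sub (sub (sub (sub (sub (sub (sub C x7824) x7810) x7840) x7876) x7498) x8308) x9280) x3448) x1260) x14384)
  (sub (sub (sub (sub (sub (sub (sub (sub (sub C x7822) x7818) x7842) x7878) x7500) x8310) x9282) x3450) x1264)
  (sub (sub (sub (sub (sub (sub (sub (add (add (add (add C x7834) x7838) x7842) x7854) x7794) x7938) x7506) x8316) x9288) x3456) x1270)
  (sub (add (sub (sub (sub (sub (sub (sub (sub (add (add C x7830) x7838) x7840) x7798) x7942) x7510) x8320) x9292) x3460) x1272) x14396)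
  (add (sub (sub (sub (sub (sub (sub (sub (add (add C x7830) x7834) x7850) x7802) x7946) x7514) x8324) x9296) x3464) x14398)
  (sub (add (sub (sub (sub (sub (sub (sub (sub (sub C x7842) x7834) x7822) x7948) x7516) x8326) x9298) x3466) x1278) x14402)
  (sub (sub (sub (sub (sub (sub (sub (add (add (sub C x7840) x7830) x7854) x7824) x7950) x7518) x8328) x9300) x3468) x1282)
  (add (sub (sub (sub (sub (sub (add (add (sub (sub C x7854) x7838) x7778) x7814) x7958) x7526) x8336) x9308) x3476) x14410)
  (sub (sub (sub (sub (sub (sub (add (add (add (add (sub C x7850) x7830) x7842) x7782) x7818) x7962) x7530) x8340) x9312) x3480) x1294)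
  (add (sub (sub (sub (sub (sub (add (add (sub (sub C x7864) x7868) x7898) x7934) x7808) x7700) x8348) x9320) x3488) x14422)
  (sub (add (sub (sub (sub (sub (sub (add (add (sub (sub C x7862) x7876) x7900) x7936) x7810) x7702) x8350) x9322) x3490) x1302) x14426)
  (add (sub (sub (sub (sub (sub (sub (sub (sub C x7872) x7862) x7886) x7814) x7706) x8354) x9326) x3494) x14428)
  (sub (sub (sub (sub (sub (sub (sub (sub (sub C x7868) x7878) x7890) x7818) x7710) x8358) x9330) x3498) x1312)
  (sub (add (sub (sub (sub (sub (sub (sub (sub (sub C x7878) x7864) x7912) x7822) x7714) x8362) x9334) x3502) x1314) x14438)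
  (sub (sub (sub (sub (sub (sub (sub (sub (sub C x7876) x7872) x7914) x7824) x7716) x8364) x9336) x3504) x1318)
  (add (sub (sub (sub (sub (add (add (sub (add (add (sub C x7890) x7898) x7910) x7868) x7778) x7994) x7724) x8372) x9344) x3512) x14446)
  (sub (sub (sub (sub (sub (add (add (sub (sub (sub C x7886) x7902) x7872) x7782) x7998) x7728) x8376) x9348) x3516) x1330)
  (add (sub (sub (sub (sub (add (add (add (add (add (add (sub C x7900) x7886) x7910) x7862) x7934) x7790) x8006) x7736) x8384) x9356) x3524) x14458)
  (sub (add (sub (sub (sub (sub (add (add (add (add (sub (sub C x7898) x7906) x7864) x7936) x7792) x8008) x7738) x8386) x9358) x3526) x1338) x14462)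
  (sub (sub (sub (sub (sub (add (add (sub (sub (add (add C x7906) x7910) x7890) x7920) x7794) x8010) x7740) x8388) x9360) x3528) x1342)
  (sub (add (sub (sub (sub (sub (add (add (sub (sub (add (add C x7902) x7910) x7900) x7924) x7798) x8014) x7744) x8392) x9364) x3532) x1344) x14468)
  (add (sub (sub (sub (sub (add (add (sub (add (add (add (add C x7902) x7906) x7886) x7898) x7928) x7802) x8018) x7748) x8396) x9368) x3536) x14470)
  (sub (add (sub (sub (sub (sub (sub (sub (add (add (sub C x7914) x7924) x7936) x7876) x7966) x7750) x8398) x9370) x3538) x1350) x14474)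
  (sub (sub (sub (sub (sub (sub (sub (sub (sub C x7912) x7920) x7878) x7968) x7752) x8400) x9372) x3540) x1354)
  (sub (sub (sub (sub (sub (sub (sub (sub (add (add C x7924) x7928) x7914) x7902) x7974) x7758) x8406) x9378) x3546) x1360)
  (sub (add (sub (sub (sub (sub (sub (sub (add (add (add (add C x7920) x7928) x7912) x7936) x7906) x7978) x7762) x8410) x9382) x3550) x1362) x14486)
  (add (sub (sub (sub (sub (sub (sub (sub (add (add C x7920) x7924) x7934) x7910) x7982) x7766) x8414) x9386) x3554) x14488)
  (add (sub (sub (sub (sub (sub (add (add (sub (sub C x7936) x7928) x7862) x7898) x7988) x7772) x8420) x9392) x3560) x14494)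
  (sub (add (sub (sub (sub (sub (sub (add (add (add (add (sub C x7934) x7912) x7924) x7864) x7900) x7990) x7774) x8422) x9394) x3562) x1374) x14498)
  (sub (sub (sub (sub (add (add (sub (add (add (add (add (add (add C x7942) x7946) x7950) x7962) x7974) x8010) x7830) x7290) x7614) x8424) x9396) x3564) x1378)
  (sub (add (sub (sub (sub (add (add (sub (add (add (sub (add (add C x7938) x7946) x7948) x7978) x8014) x7834) x7294) x7618) x8428) x9400) x3568) x1380) x14504)
  (add (sub (sub (sub (add (add (sub (add (add (sub (add (add C x7938) x7942) x7958) x7982) x8018) x7838) x7298) x7622) x8432) x9404) x3572) x14506)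
  (sub (add (sub (sub (sub (add (add (sub (sub (sub (sub C x7950) x7942) x7966) x7840) x7300) x7624) x8434) x9406) x3574) x1386) x14510)
  (sub (sub (sub (sub (add (add (sub (sub (add (add (sub C x7948) x7938) x7962) x7968) x7842) x7302) x7626) x8436) x9408) x3576) x1390)
  (add (sub (sub (sub (add (add (sub (sub (sub (sub C x7962) x7946) x7994) x7850) x7310) x7634) x8444) x9416) x3584) x14518)
  (sub (sub (sub (sub (add (add (sub (sub (add (add (sub C x7958) x7938) x7950) x7998) x7854) x7314) x7638) x8448) x9420) x3588) x1402)
  (sub (add (sub (sub (sub (add (add (sub (sub (add (add (sub C x7968) x7978) x7990) x7948) x7912) x7318) x7642) x8452) x9424) x3592) x1404) x14528)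
  (sub (sub (sub (sub (add (add (sub (sub (sub (sub C x7966) x7974) x7950) x7914) x7320) x7644) x8454) x9426) x3594) x1408)
  (sub (sub (sub (sub (add (add (sub (add (add (sub (add (add C x7978) x7982) x7968) x7938) x8010) x7920) x7326) x7650) x8460) x9432) x3600) x1414)
  (sub (add (sub (sub (sub (add (add (sub (add (add (add (add (add (add C x7974) x7982) x7966) x7990) x7942) x8014) x7924) x7330) x7654) x8464) x9436) x3604) x1416) x14540)
  (add (sub (sub (sub (add (add (sub (add (add (sub (add (add C x7974) x7978) x7988) x7946) x8018) x7928) x7334) x7658) x8468) x9440) x3608) x14542)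
  (add (sub (sub (sub (add (add (sub (sub (sub (sub C x7990) x7982) x8006) x7934) x7340) x7664) x8474) x9446) x3614) x14548)
  (sub (add (sub (sub (sub (add (add (sub (sub (add (add (sub C x7988) x7966) x7978) x8008) x7936) x7342) x7666) x8476) x9448) x3616) x1428) x14552)
  (add (sub (sub (sub (add (add (add (add (sub (add (add (sub C x7998) x8006) x8018) x7958) x7778) x7886) x7346) x7670) x8480) x9452) x3620) x14554)
  (sub (sub (sub (sub (add (add (add (add (sub (sub (sub C x7994) x8010) x7962) x7782) x7890) x7350) x7674) x8484) x9456) x3624) x1438)
  (add (sub (sub (sub (add (add (add (add (sub (add (add (sub C x8008) x7994) x8018) x7988) x7790) x7898) x7358) x7682) x8492) x9464) x3632) x14566)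
  (sub (add (sub (sub (sub (add (add (add (add (sub (sub (sub C x8006) x8014) x7990) x7792) x7900) x7360) x7684) x8494) x9466) x3634) x1446) x14570)
  (sub (sub (sub (sub (add (add (add (add (add (add (sub (add (add C x8014) x8018) x7998) x7938) x7974) x7794) x7902) x7362) x7686) x8496) x9468) x3636) x1450)
  (sub (add (sub (sub (sub (add (add (add (add (add (add (sub (add (add C x8010) x8018) x8008) x7942) x7978) x7798) x7906) x7366) x7690) x8500) x9472) x3640) x1452) x14576)
  (add (sub (sub (sub (add (add (add (add (add (add (add (add (add (add C x8010) x8014) x7994) x8006) x7946) x7982) x7802) x7910) x7370) x7694) x8504) x9476) x3644) x14578)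
  (add (sub (sub (sub (add (add (add (add (add (add (sub (sub C x8026) x8030) x8060) x8096) x8132) x8240) x8348) x8672) x7052) x10940) x3650) x14584)
  (sub (add (sub (sub (sub (add (add (add (add (add (add (sub (sub C x8024) x8038) x8062) x8098) x8134) x8242) x8350) x8674) x7054) x10942) x3652) x1464) x14588)
  (add (sub (sub (sub (add (add (add (add (sub (sub (sub C x8034) x8024) x8048) x8138) x8246) x8354) x8678) x7058) x10946) x3656) x14590)
  (sub (sub (sub (sub (add (add (add (add (sub (sub (sub C x8030) x8040) x8052) x8142) x8250) x8358) x8682) x7062) x10950) x3660) x1474)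
  (sub (add (sub (sub (sub (add (add (add (add (sub (sub (sub C x8040) x8026) x8074) x8146) x8254) x8362) x8686) x7066) x10954) x3664) x1476) x14600)
  (sub (sub (sub (sub (add (add (add (add (sub (sub (sub C x8038) x8034) x8076) x8148) x8256) x8364) x8688) x7068) x10956) x3666) x1480)
  (add (sub (sub (sub (add (add (sub (sub (add (add (sub C x8052) x8060) x8072) x8030) x8102) x8372) x8696) x7076) x10964) x3674) x14608)
  (sub (sub (sub (sub (add (add (sub (sub (sub (sub C x8048) x8064) x8034) x8106) x8376) x8700) x7080) x10968) x3678) x1492)
  (add (sub (sub (sub (add (add (sub (add (add (add (add (sub C x8062) x8048) x8072) x8024) x8096) x8114) x8384) x8708) x7088) x10976) x3686) x14620)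
  (sub (add (sub (sub (sub (add (add (sub (add (add (sub (sub C x8060) x8068) x8026) x8098) x8116) x8386) x8710) x7090) x10978) x3688) x1500) x14624)
  (sub (sub (sub (sub (add (add (sub (sub (sub (add (add C x8068) x8072) x8052) x8082) x8118) x8388) x8712) x7092) x10980) x3690) x1504)
  (sub (add (sub (sub (sub (add (add (sub (sub (sub (add (add C x8064) x8072) x8062) x8086) x8122) x8392) x8716) x7096) x10984) x3694) x1506) x14630)
  (add (sub (sub (sub (add (add (sub (sub (add (add (add (add C x8064) x8068) x8048) x8060) x8090) x8126) x8396) x8720) x7100) x10988) x3698) x14632)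
  (sub (add (sub (sub (sub (add (add (sub (sub (add (add (sub C x8076) x8086) x8098) x8038) x8182) x8398) x8722) x7102) x10990) x3700) x1512) x14636)
  (sub (sub (sub (sub (add (add (sub (sub (sub (sub C x8074) x8082) x8040) x8184) x8400) x8724) x7104) x10992) x3702) x1516)
  (sub (sub (sub (sub (add (add (sub (sub (sub (add (add C x8086) x8090) x8076) x8064) x8190) x8406) x8730) x7110) x10998) x3708) x1522)
  (sub (add (sub (sub (sub (add (add (sub (sub (add (add (add (add C x8082) x8090) x8074) x8098) x8068) x8194) x8410) x8734) x7114) x11002) x3712) x1524) x14648)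
  (add (sub (sub (sub (add (add (sub (sub (sub (add (add C x8082) x8086) x8096) x8072) x8198) x8414) x8738) x7118) x11006) x3716) x14650)
  (add (sub (sub (sub (add (add (sub (add (add (sub (sub C x8098) x8090) x8024) x8060) x8204) x8420) x8744) x7124) x11012) x3722) x14656)
  (sub (add (sub (sub (sub (add (add (sub (add (add (add (add (sub C x8096) x8074) x8086) x8026) x8062) x8206) x8422) x8746) x7126) x11014) x3724) x1536) x14660)
  (add (sub (sub (sub (sub (sub (add (add (add (add (sub C x8106) x8114) x8126) x8138) x8174) x8048) x8264) x7130) x11018) x3728) x14662)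
  (sub (sub (sub (sub (sub (sub (add (add (sub (sub C x8102) x8118) x8142) x8178) x8052) x8268) x7134) x11022) x3732) x1546)
  (add (sub (sub (sub (sub (sub (sub (add (add (sub C x8116) x8102) x8126) x8132) x8060) x8276) x7142) x11030) x3740) x14674)
  (sub (add (sub (sub (sub (sub (sub (sub (sub (sub C x8114) x8122) x8134) x8062) x8278) x7144) x11032) x3742) x1554) x14678)
  (sub (sub (sub (sub (sub (sub (sub (sub (add (add C x8122) x8126) x8106) x8154) x8064) x8280) x7146) x11034) x3744) x1558)
  (sub (add (sub (sub (sub (sub (sub (sub (sub (add (add C x8118) x8126) x8116) x8158) x8068) x8284) x7150) x11038) x3748) x1560) x14684)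
  (add (sub (sub (sub (sub (sub (sub (add (add (add (add C x8118) x8122) x8102) x8114) x8162) x8072) x8288) x7154) x11042) x3752) x14686)
  (add (sub (sub (sub (sub (add (add (sub (sub (sub C x8134) x8138) x8114) x8024) x8240) x8294) x7160) x11048) x3758) x14692)
  (sub (add (sub (sub (sub (sub (add (add (sub (sub (sub C x8132) x8146) x8116) x8026) x8242) x8296) x7162) x11050) x3760) x1572) x14696)
  (add (sub (sub (sub (sub (add (add (add (add (sub (sub C x8142) x8132) x8102) x8174) x8030) x8246) x8300) x7166) x11054) x3764) x14698)
  (sub (sub (sub (sub (sub (add (add (add (add (sub (sub C x8138) x8148) x8106) x8178) x8034) x8250) x8304) x7170) x11058) x3768) x1582)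
  (sub (add (sub (sub (sub (sub (add (add (sub (sub (sub C x8148) x8134) x8164) x8038) x8254) x8308) x7174) x11062) x3772) x1584) x14708)
  (sub (sub (sub (sub (sub (add (add (sub (sub (sub C x8146) x8142) x8166) x8040) x8256) x8310) x7176) x11064) x3774) x1588)
  (sub (sub (sub (sub (sub (sub (sub (add (add (add (add C x8158) x8162) x8166) x8178) x8118) x8208) x8316) x7182) x11070) x3780) x1594)
  (sub (add (sub (sub (sub (sub (sub (sub (sub (add (add C x8154) x8162) x8164) x8122) x8212) x8320) x7186) x11074) x3784) x1596) x14720)
  (add (sub (sub (sub (sub (sub (sub (sub (add (add C x8154) x8158) x8174) x8126) x8216) x8324) x7190) x11078) x3788) x14722)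
  (sub (add (sub (sub (sub (sub (sub (sub (sub (sub C x8166) x8158) x8146) x8218) x8326) x7192) x11080) x3790) x1602) x14726)
  (sub (sub (sub (sub (sub (sub (sub (add (add (sub C x8164) x8154) x8178) x8148) x8220) x8328) x7194) x11082) x3792) x1606)
  (add (sub (sub (sub (sub (sub (add (add (sub (sub C x8178) x8162) x8102) x8138) x8228) x8336) x7202) x11090) x3800) x14734)
  (sub (sub (sub (sub (sub (sub (add (add (add (add (sub C x8174) x8154) x8166) x8106) x8142) x8232) x8340) x7206) x11094) x3804) x1618)
  (sub (add (sub (sub (sub (sub (sub (add (add (add (add (sub C x8184) x8194) x8206) x8218) x8254) x8074) x8506) x7210) x11098) x3808) x1620) x14744)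
  (sub (sub (sub (sub (sub (sub (add (add (sub (sub C x8182) x8190) x8220) x8256) x8076) x8508) x7212) x11100) x3810) x1624)
  (sub (sub (sub (sub (sub (sub (sub (sub (add (add C x8194) x8198) x8184) x8208) x8082) x8514) x7218) x11106) x3816) x1630)
  (sub (add (sub (sub (sub (sub (sub (sub (add (add (add (add C x8190) x8198) x8182) x8206) x8212) x8086) x8518) x7222) x11110) x3820) x1632) x14756)
  (add (sub (sub (sub (sub (sub (sub (sub (add (add C x8190) x8194) x8204) x8216) x8090) x8522) x7226) x11114) x3824) x14758)
  (add (sub (sub (sub (sub (sub (sub (sub (sub C x8206) x8198) x8240) x8096) x8528) x7232) x11120) x3830) x14764)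
  (sub (add (sub (sub (sub (sub (sub (sub (add (add (sub C x8204) x8182) x8194) x8242) x8098) x8530) x7234) x11122) x3832) x1644) x14768)
  (sub (sub (sub (sub (sub (sub (sub (add (add (add (add C x8212) x8216) x8220) x8232) x8190) x8154) x8532) x7236) x11124) x3834) x1648)
  (sub (add (sub (sub (sub (sub (sub (sub (sub (add (add C x8208) x8216) x8218) x8194) x8158) x8536) x7240) x11128) x3838) x1650) x14774)
  (add (sub (sub (sub (sub (sub (sub (sub (add (add C x8208) x8212) x8228) x8198) x8162) x8540) x7244) x11132) x3842) x14776)
  (sub (add (sub (sub (sub (sub (sub (add (add (sub (sub C x8220) x8212) x8182) x8254) x8164) x8542) x7246) x11134) x3844) x1656) x14780)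
  (sub (sub (sub (sub (sub (sub (add (add (add (add (sub C x8218) x8208) x8232) x8184) x8256) x8166) x8544) x7248) x11136) x3846) x1660)
  (add (sub (sub (sub (sub (sub (sub (sub (sub C x8232) x8216) x8246) x8174) x8552) x7256) x11144) x3854) x14788)
  (sub (sub (sub (sub (sub (sub (sub (add (add (sub C x8228) x8208) x8220) x8250) x8178) x8556) x7260) x11148) x3858) x1672)
  (add (sub (sub (sub (sub (add (add (sub (sub (sub C x8242) x8246) x8204) x8024) x8132) x8564) x7268) x11156) x3866) x14800)
  (sub (add (sub (sub (sub (sub (add (add (sub (sub (sub C x8240) x8254) x8206) x8026) x8134) x8566) x7270) x11158) x3868) x1680) x14804)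
  (add (sub (sub (sub (sub (add (add (sub (sub (sub C x8250) x8240) x8228) x8030) x8138) x8570) x7274) x11162) x3872) x14806)
  (sub (sub (sub (sub (sub (add (add (sub (sub (sub C x8246) x8256) x8232) x8034) x8142) x8574) x7278) x11166) x3876) x1690)
  (sub (add (sub (sub (sub (sub (add (add (add (add (sub (sub C x8256) x8242) x8182) x8218) x8038) x8146) x8578) x7282) x11170) x3880) x1692) x14816)
  (sub (sub (sub (sub (sub (add (add (add (add (sub (sub C x8254) x8250) x8184) x8220) x8040) x8148) x8580) x7284) x11172) x3882) x1696)
  (add (sub (sub (sub (sub (add (add (add (add (add (add (sub C x8268) x8276) x8288) x8300) x8336) x8372) x8480) x8102) x7778) x11180) x3890) x14824)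
  (sub (sub (sub (sub (sub (add (add (add (add (sub (sub C x8264) x8280) x8304) x8340) x8376) x8484) x8106) x7782) x11184) x3894) x1708)
  (add (sub (sub (sub (sub (add (add (sub (add (add (sub C x8278) x8264) x8288) x8294) x8384) x8492) x8114) x7790) x11192) x3902) x14836)
  (sub (add (sub (sub (sub (sub (add (add (sub (sub (sub C x8276) x8284) x8296) x8386) x8494) x8116) x7792) x11194) x3904) x1716) x14840)
  (sub (sub (sub (sub (sub (add (add (sub (sub (add (add C x8284) x8288) x8268) x8316) x8388) x8496) x8118) x7794) x11196) x3906) x1720)
  (sub (add (sub (sub (sub (sub (add (add (sub (sub (add (add C x8280) x8288) x8278) x8320) x8392) x8500) x8122) x7798) x11200) x3910) x1722) x14846)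
  (add (sub (sub (sub (sub (add (add (sub (add (add (add (add C x8280) x8284) x8264) x8276) x8324) x8396) x8504) x8126) x7802) x11204) x3914) x14848)
  (add (sub (sub (sub (sub (sub (sub (sub (sub C x8296) x8300) x8276) x8348) x8132) x7808) x11210) x3920) x14854)
  (sub (add (sub (sub (sub (sub (sub (sub (sub (sub C x8294) x8308) x8278) x8350) x8134) x7810) x11212) x3922) x1734) x14858)
  (add (sub (sub (sub (sub (sub (add (add (sub (sub C x8304) x8294) x8264) x8336) x8354) x8138) x7814) x11216) x3926) x14860)
  (sub (sub (sub (sub (sub (sub (add (add (sub (sub C x8300) x8310) x8268) x8340) x8358) x8142) x7818) x11220) x3930) x1744)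
  (sub (add (sub (sub (sub (sub (sub (sub (sub (sub C x8310) x8296) x8326) x8362) x8146) x7822) x11224) x3934) x1746) x14870)
  (sub (sub (sub (sub (sub (sub (sub (sub (sub C x8308) x8304) x8328) x8364) x8148) x7824) x11226) x3936) x1750)
  (sub (sub (sub (sub (sub (sub (sub (add (add (add (add C x8320) x8324) x8328) x8340) x8280) x8424) x8154) x7830) x11232) x3942) x1756)
  (sub (add (sub (sub (sub (sub (sub (sub (sub (add (add C x8316) x8324) x8326) x8284) x8428) x8158) x7834) x11236) x3946) x1758) x14882)
  (add (sub (sub (sub (sub (sub (sub (sub (add (add C x8316) x8320) x8336) x8288) x8432) x8162) x7838) x11240) x3950) x14884)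
  (sub (add (sub (sub (sub (sub (sub (sub (sub (sub C x8328) x8320) x8308) x8434) x8164) x7840) x11242) x3952) x1764) x14888)
  (sub (sub (sub (sub (sub (sub (sub (add (add (sub C x8326) x8316) x8340) x8310) x8436) x8166) x7842) x11244) x3954) x1768)
  (add (sub (sub (sub (sub (sub (add (add (sub (sub C x8340) x8324) x8264) x8300) x8444) x8174) x7850) x11252) x3962) x14896)
  (sub (sub (sub (sub (sub (sub (add (add (add (add (sub C x8336) x8316) x8328) x8268) x8304) x8448) x8178) x7854) x11256) x3966) x1780)
  (add (sub (sub (sub (add (add (sub (add (add (sub (sub C x8350) x8354) x8384) x8420) x8294) x8024) x8672) x7862) x11264) x3974) x14908)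
  (sub (add (sub (sub (sub (add (add (sub (add (add (sub (sub C x8348) x8362) x8386) x8422) x8296) x8026) x8674) x7864) x11266) x3976) x1788) x14912)
  (add (sub (sub (sub (add (add (sub (sub (sub (sub C x8358) x8348) x8372) x8300) x8030) x8678) x7868) x11270) x3980) x14914)
  (sub (sub (sub (sub (add (add (sub (sub (sub (sub C x8354) x8364) x8376) x8304) x8034) x8682) x7872) x11274) x3984) x1798)
  (sub (add (sub (sub (sub (add (add (sub (sub (sub (sub C x8364) x8350) x8398) x8308) x8038) x8686) x7876) x11278) x3988) x1800) x14924)
  (sub (sub (sub (sub (add (add (sub (sub (sub (sub C x8362) x8358) x8400) x8310) x8040) x8688) x7878) x11280) x3990) x1804)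
  (add (sub (sub (sub (add (add (add (add (sub (add (add (sub C x8376) x8384) x8396) x8354) x8264) x8480) x8048) x8696) x7886) x11288) x3998) x14932)
  (sub (sub (sub (sub (add (add (add (add (sub (sub (sub C x8372) x8388) x8358) x8268) x8484) x8052) x8700) x7890) x11292) x4002) x1816)
  (add (sub (sub (sub (add (add (add (add (add (add (add (add (sub C x8386) x8372) x8396) x8348) x8420) x8276) x8492) x8060) x8708) x7898) x11300) x4010) x14944)
  (sub (add (sub (sub (sub (add (add (add (add (add (add (sub (sub C x8384) x8392) x8350) x8422) x8278) x8494) x8062) x8710) x7900) x11302) x4012) x1824) x14948)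
  (sub (sub (sub (sub (add (add (add (add (sub (sub (add (add C x8392) x8396) x8376) x8406) x8280) x8496) x8064) x8712) x7902) x11304) x4014) x1828)
  (sub (add (sub (sub (sub (add (add (add (add (sub (sub (add (add C x8388) x8396) x8386) x8410) x8284) x8500) x8068) x8716) x7906) x11308) x4018) x1830) x14954)
  (add (sub (sub (sub (add (add (add (add (sub (add (add (add (add C x8388) x8392) x8372) x8384) x8414) x8288) x8504) x8072) x8720) x7910) x11312) x4022) x14956)
  (sub (add (sub (sub (sub (add (add (sub (sub (add (add (sub C x8400) x8410) x8422) x8362) x8452) x8074) x8722) x7912) x11314) x4024) x1836) x14960)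
  (sub (sub (sub (sub (add (add (sub (sub (sub (sub C x8398) x8406) x8364) x8454) x8076) x8724) x7914) x11316) x4026) x1840)
  (sub (sub (sub (sub (add (add (sub (sub (sub (add (add C x8410) x8414) x8400) x8388) x8460) x8082) x8730) x7920) x11322) x4032) x1846)
  (sub (add (sub (sub (sub (add (add (sub (sub (add (add (add (add C x8406) x8414) x8398) x8422) x8392) x8464) x8086) x8734) x7924) x11326) x4036) x1848) x14972)
  (add (sub (sub (sub (add (add (sub (sub (sub (add (add C x8406) x8410) x8420) x8396) x8468) x8090) x8738) x7928) x11330) x4040) x14974)
  (add (sub (sub (sub (add (add (sub (add (add (sub (sub C x8422) x8414) x8348) x8384) x8474) x8096) x8744) x7934) x11336) x4046) x14980)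
  (sub (add (sub (sub (sub (add (add (sub (add (add (add (add (sub C x8420) x8398) x8410) x8350) x8386) x8476) x8098) x8746) x7936) x11338) x4048) x1860) x14984)
  (sub (sub (sub (sub (sub (sub (add (add (add (add (add (add C x8428) x8432) x8436) x8448) x8460) x8496) x8316) x8586) x7938) x11340) x4050) x1864)
  (sub (add (sub (sub (sub (sub (sub (add (add (sub (add (add C x8424) x8432) x8434) x8464) x8500) x8320) x8590) x7942) x11344) x4054) x1866) x14990)
  (add (sub (sub (sub (sub (sub (add (add (sub (add (add C x8424) x8428) x8444) x8468) x8504) x8324) x8594) x7946) x11348) x4058) x14992)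
  (sub (add (sub (sub (sub (sub (sub (sub (sub (sub C x8436) x8428) x8452) x8326) x8596) x7948) x11350) x4060) x1872) x14996)
  (sub (sub (sub (sub (sub (sub (sub (add (add (sub C x8434) x8424) x8448) x8454) x8328) x8598) x7950) x11352) x4062) x1876)
  (add (sub (sub (sub (sub (sub (sub (sub (sub C x8448) x8432) x8480) x8336) x8606) x7958) x11360) x4070) x15004)
  (sub (sub (sub (sub (sub (sub (sub (add (add (sub C x8444) x8424) x8436) x8484) x8340) x8610) x7962) x11364) x4074) x1888)
  (sub (add (sub (sub (sub (sub (sub (sub (add (add (sub C x8454) x8464) x8476) x8434) x8398) x8614) x7966) x11368) x4078) x1890) x15014)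
  (sub (sub (sub (sub (sub (sub (sub (sub (sub C x8452) x8460) x8436) x8400) x8616) x7968) x11370) x4080) x1894)
  (sub (sub (sub (sub (sub (sub (add (add (sub (add (add C x8464) x8468) x8454) x8424) x8496) x8406) x8622) x7974) x11376) x4086) x1900)
  (sub (add (sub (sub (sub (sub (sub (add (add (add (add (add (add C x8460) x8468) x8452) x8476) x8428) x8500) x8410) x8626) x7978) x11380) x4090) x1902) x15026)
  (add (sub (sub (sub (sub (sub (add (add (sub (add (add C x8460) x8464) x8474) x8432) x8504) x8414) x8630) x7982) x11384) x4094) x15028)
  (add (sub (sub (sub (sub (sub (sub (sub (sub C x8476) x8468) x8492) x8420) x8636) x7988) x11390) x4100) x15034)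
  (sub (add (sub (sub (sub (sub (sub (sub (add (add (sub C x8474) x8452) x8464) x8494) x8422) x8638) x7990) x11392) x4102) x1914) x15038)
  (add (sub (sub (sub (sub (add (add (sub (add (add (sub C x8484) x8492) x8504) x8444) x8264) x8372) x8642) x7994) x11396) x4106) x15040)
  (sub (sub (sub (sub (sub (add (add (sub (sub (sub C x8480) x8496) x8448) x8268) x8376) x8646) x7998) x11400) x4110) x1924)
  (add (sub (sub (sub (sub (add (add (sub (add (add (sub C x8494) x8480) x8504) x8474) x8276) x8384) x8654) x8006) x11408) x4118) x15052)
  (sub (add (sub (sub (sub (sub (add (add (sub (sub (sub C x8492) x8500) x8476) x8278) x8386) x8656) x8008) x11410) x4120) x1932) x15056)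
  (sub (sub (sub (sub (sub (add (add (add (add (sub (add (add C x8500) x8504) x8484) x8424) x8460) x8280) x8388) x8658) x8010) x11412) x4122) x1936)
  (sub (add (sub (sub (sub (sub (add (add (add (add (sub (add (add C x8496) x8504) x8494) x8428) x8464) x8284) x8392) x8662) x8014) x11416) x4126) x1938) x15062)
  (add (sub (sub (sub (sub (add (add (add (add (add (add (add (add C x8496) x8500) x8480) x8492) x8432) x8468) x8288) x8396) x8666) x8018) x11420) x4130) x15064)
  (sub (add (sub (sub (add (add (sub (add (add (add (add (add (add (sub C x8508) x8518) x8530) x8542) x8578) x8614) x8722) x8182) x6562) x7534) x11422) x4132) x1944) x15068)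
  (sub (sub (sub (add (add (sub (add (add (add (add (sub (sub C x8506) x8514) x8544) x8580) x8616) x8724) x8184) x6564) x7536) x11424) x4134) x1948)
  (sub (sub (sub (add (add (sub (add (add (sub (sub (add (add C x8518) x8522) x8508) x8532) x8622) x8730) x8190) x6570) x7542) x11430) x4140) x1954)
  (sub (add (sub (sub (add (add (sub (add (add (sub (add (add (add (add C x8514) x8522) x8506) x8530) x8536) x8626) x8734) x8194) x6574) x7546) x11434) x4144) x1956) x15080)
  (add (sub (sub (add (add (sub (add (add (sub (sub (add (add C x8514) x8518) x8528) x8540) x8630) x8738) x8198) x6578) x7550) x11438) x4148) x15082)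
  (add (sub (sub (add (add (sub (add (add (sub (sub (sub C x8530) x8522) x8564) x8636) x8744) x8204) x6584) x7556) x11444) x4154) x15088)
  (sub (add (sub (sub (add (add (sub (add (add (sub (add (add (sub C x8528) x8506) x8518) x8566) x8638) x8746) x8206) x6586) x7558) x11446) x4156) x1968) x15092)
  (sub (sub (sub (add (add (sub (sub (sub (add (add (add (add C x8536) x8540) x8544) x8556) x8514) x8586) x8208) x6588) x7560) x11448) x4158) x1972)
  (sub (add (sub (sub (add (add (sub (sub (sub (sub (add (add C x8532) x8540) x8542) x8518) x8590) x8212) x6592) x7564) x11452) x4162) x1974) x15098)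
  (add (sub (sub (add (add (sub (sub (sub (sub (add (add C x8532) x8536) x8552) x8522) x8594) x8216) x6596) x7568) x11456) x4166) x15100)
  (sub (add (sub (sub (add (add (sub (sub (add (add (sub (sub C x8544) x8536) x8506) x8578) x8596) x8218) x6598) x7570) x11458) x4168) x1980) x15104)
  (sub (sub (sub (add (add (sub (sub (add (add (add (add (sub C x8542) x8532) x8556) x8508) x8580) x8598) x8220) x6600) x7572) x11460) x4170) x1984)
  (add (sub (sub (add (add (sub (sub (sub (sub (sub C x8556) x8540) x8570) x8606) x8228) x6608) x7580) x11468) x4178) x15112)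
  (sub (sub (sub (add (add (sub (sub (sub (add (add (sub C x8552) x8532) x8544) x8574) x8610) x8232) x6612) x7584) x11472) x4182) x1996)
  (add (sub (sub (add (add (sub (sub (sub (sub (sub C x8566) x8570) x8528) x8672) x8240) x6620) x7592) x11480) x4190) x15124)
  (sub (add (sub (sub (add (add (sub (sub (sub (sub (sub C x8564) x8578) x8530) x8674) x8242) x6622) x7594) x11482) x4192) x2004) x15128)
  (add (sub (sub (add (add (sub (sub (sub (sub (sub C x8574) x8564) x8552) x8678) x8246) x6626) x7598) x11486) x4196) x15130)
  (sub (sub (sub (add (add (sub (sub (sub (sub (sub C x8570) x8580) x8556) x8682) x8250) x6630) x7602) x11490) x4200) x2014)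
  (sub (add (sub (sub (add (add (sub (sub (add (add (sub (sub C x8580) x8566) x8506) x8542) x8686) x8254) x6634) x7606) x11494) x4204) x2016) x15140)
  (sub (sub (sub (add (add (sub (sub (add (add (sub (sub C x8578) x8574) x8508) x8544) x8688) x8256) x6636) x7608) x11496) x4206) x2020)
  (sub (sub (sub (add (add (sub (sub (add (add (add (add (add (add C x8590) x8594) x8598) x8610) x8622) x8658) x8532) x8424) x6642) x7614) x11502) x4212) x2026)
  (sub (add (sub (sub (add (add (sub (sub (add (add (sub (add (add C x8586) x8594) x8596) x8626) x8662) x8536) x8428) x6646) x7618) x11506) x4216) x2028) x15152)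
  (add (sub (sub (add (add (sub (sub (add (add (sub (add (add C x8586) x8590) x8606) x8630) x8666) x8540) x8432) x6650) x7622) x11510) x4220) x15154)
  (sub (add (sub (sub (add (add (sub (sub (sub (sub (sub C x8598) x8590) x8614) x8542) x8434) x6652) x7624) x11512) x4222) x2034) x15158)
  (sub (sub (sub (add (add (sub (sub (sub (add (add (sub C x8596) x8586) x8610) x8616) x8544) x8436) x6654) x7626) x11514) x4224) x2038)
  (add (sub (sub (add (add (sub (sub (sub (sub (sub C x8610) x8594) x8642) x8552) x8444) x6662) x7634) x11522) x4232) x15166)
  (sub (sub (sub (add (add (sub (sub (sub (add (add (sub C x8606) x8586) x8598) x8646) x8556) x8448) x6666) x7638) x11526) x4236) x2050)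
  (sub (add (sub (sub (add (add (sub (add (add (sub (add (add (sub C x8616) x8626) x8638) x8596) x8506) x8722) x8452) x6670) x7642) x11530) x4240) x2052) x15176)
  (sub (sub (sub (add (add (sub (add (add (sub (sub (sub C x8614) x8622) x8598) x8508) x8724) x8454) x6672) x7644) x11532) x4242) x2056)
  (sub (sub (sub (add (add (sub (add (add (add (add (sub (add (add C x8626) x8630) x8616) x8586) x8658) x8514) x8730) x8460) x6678) x7650) x11538) x4248) x2062)
  (sub (add (sub (sub (add (add (sub (add (add (add (add (add (add (add (add C x8622) x8630) x8614) x8638) x8590) x8662) x8518) x8734) x8464) x6682) x7654) x11542) x4252) x2064) x15188)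
  (add (sub (sub (add (add (sub (add (add (add (add (sub (add (add C x8622) x8626) x8636) x8594) x8666) x8522) x8738) x8468) x6686) x7658) x11546) x4256) x15190)
  (add (sub (sub (add (add (sub (add (add (sub (sub (sub C x8638) x8630) x8654) x8528) x8744) x8474) x6692) x7664) x11552) x4262) x15196)
  (sub (add (sub (sub (add (add (sub (add (add (sub (add (add (sub C x8636) x8614) x8626) x8656) x8530) x8746) x8476) x6694) x7666) x11554) x4264) x2076) x15200)
  (add (sub (sub (add (add (sub (sub (sub (add (add (sub C x8646) x8654) x8666) x8606) x8696) x8480) x6698) x7670) x11558) x4268) x15202)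
  (sub (sub (sub (add (add (sub (sub (sub (sub (sub C x8642) x8658) x8610) x8700) x8484) x6702) x7674) x11562) x4272) x2086)
  (add (sub (sub (add (add (sub (sub (sub (add (add (sub C x8656) x8642) x8666) x8636) x8708) x8492) x6710) x7682) x11570) x4280) x15214)
  (sub (add (sub (sub (add (add (sub (sub (sub (sub (sub C x8654) x8662) x8638) x8710) x8494) x6712) x7684) x11572) x4282) x2094) x15218)
  (sub (sub (sub (add (add (sub (sub (add (add (sub (add (add C x8662) x8666) x8646) x8586) x8622) x8712) x8496) x6714) x7686) x11574) x4284) x2098)
  (sub (add (sub (sub (add (add (sub (sub (add (add (sub (add (add C x8658) x8666) x8656) x8590) x8626) x8716) x8500) x6718) x7690) x11578) x4288) x2100) x15224)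
  (add (sub (sub (add (add (sub (sub (add (add (add (add (add (add C x8658) x8662) x8642) x8654) x8594) x8630) x8720) x8504) x6722) x7694) x11582) x4292) x15226)
  (add (sub (sub (add (add (add (add (sub (add (add (sub (sub C x8674) x8678) x8708) x8744) x8564) x8024) x8348) x6728) x7700) x11588) x4298) x15232)
  (sub (add (sub (sub (add (add (add (add (sub (add (add (sub (sub C x8672) x8686) x8710) x8746) x8566) x8026) x8350) x6730) x7702) x11590) x4300) x2112) x15236)
  (add (sub (sub (add (add (add (add (sub (sub (sub (sub C x8682) x8672) x8696) x8570) x8030) x8354) x6734) x7706) x11594) x4304) x15238)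
  (sub (sub (sub (add (add (add (add (sub (sub (sub (sub C x8678) x8688) x8700) x8574) x8034) x8358) x6738) x7710) x11598) x4308) x2122)
  (sub (add (sub (sub (add (add (add (add (sub (sub (sub (sub C x8688) x8674) x8722) x8578) x8038) x8362) x6742) x7714) x11602) x4312) x2124) x15248)
  (sub (sub (sub (add (add (add (add (sub (sub (sub (sub C x8686) x8682) x8724) x8580) x8040) x8364) x6744) x7716) x11604) x4314) x2128)
  (add (sub (sub (add (add (add (add (sub (sub (add (add (sub C x8700) x8708) x8720) x8678) x8642) x8048) x8372) x6752) x7724) x11612) x4322) x15256)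
  (sub (sub (sub (add (add (add (add (sub (sub (sub (sub C x8696) x8712) x8682) x8646) x8052) x8376) x6756) x7728) x11616) x4326) x2140)
  (add (sub (sub (add (add (add (add (sub (add (add (add (add (sub C x8710) x8696) x8720) x8672) x8744) x8654) x8060) x8384) x6764) x7736) x11624) x4334) x15268)
  (sub (add (sub (sub (add (add (add (add (sub (add (add (sub (sub C x8708) x8716) x8674) x8746) x8656) x8062) x8386) x6766) x7738) x11626) x4336) x2148) x15272)
  (sub (sub (sub (add (add (add (add (sub (sub (sub (add (add C x8716) x8720) x8700) x8730) x8658) x8064) x8388) x6768) x7740) x11628) x4338) x2152)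
  (sub (add (sub (sub (add (add (add (add (sub (sub (sub (add (add C x8712) x8720) x8710) x8734) x8662) x8068) x8392) x6772) x7744) x11632) x4342) x2154) x15278)
  (add (sub (sub (add (add (add (add (sub (sub (add (add (add (add C x8712) x8716) x8696) x8708) x8738) x8666) x8072) x8396) x6776) x7748) x11636) x4346) x15280)
  (sub (add (sub (sub (add (add (add (add (add (add (sub (add (add (sub C x8724) x8734) x8746) x8686) x8506) x8614) x8074) x8398) x6778) x7750) x11638) x4348) x2160) x15284)
  (sub (sub (sub (add (add (add (add (add (add (sub (sub (sub C x8722) x8730) x8688) x8508) x8616) x8076) x8400) x6780) x7752) x11640) x4350) x2164)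
  (sub (sub (sub (add (add (add (add (add (add (sub (sub (add (add C x8734) x8738) x8724) x8712) x8514) x8622) x8082) x8406) x6786) x7758) x11646) x4356) x2170)
  (sub (add (sub (sub (add (add (add (add (add (add (sub (add (add (add (add C x8730) x8738) x8722) x8746) x8716) x8518) x8626) x8086) x8410) x6790) x7762) x11650) x4360) x2172) x15296)
  (add (sub (sub (add (add (add (add (add (add (sub (sub (add (add C x8730) x8734) x8744) x8720) x8522) x8630) x8090) x8414) x6794) x7766) x11654) x4364) x15298)
  (add (sub (sub (add (add (add (add (add (add (add (add (sub (sub C x8746) x8738) x8672) x8708) x8528) x8636) x8096) x8420) x6800) x7772) x11660) x4370) x15304)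
  (sub (add (sub (sub (add (add (add (add (add (add (add (add (add (add (sub C x8744) x8722) x8734) x8674) x8710) x8530) x8638) x8098) x8422) x6802) x7774) x11662) x4372) x2184) x15308)
  (sub (add (add (sub (add (add (add (add (add (add (add (add (add (add (add (add C x8752) x8756) x8760) x8772) x8784) x8820) x8856) x8964) x9072) x9396) x9720) x10692) x7290) x0) x17496) x2188)
  (sub (add (add (add (sub (add (add (add (add (add (add (add (add (sub (add (add C x8748) x8756) x8758) x8788) x8824) x8860) x8968) x9076) x9400) x9724) x10696) x7294) x4) x17500) x2190) x15314)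
  (add (add (add (sub (add (add (add (add (add (add (add (add (sub (add (add C x8748) x8752) x8768) x8792) x8828) x8864) x8972) x9080) x9404) x9728) x10700) x7298) x8) x17504) x15316)
  (sub (add (add (add (sub (add (add (add (add (add (add (sub (sub (sub C x8760) x8752) x8776) x8866) x8974) x9082) x9406) x9730) x10702) x7300) x10) x17506) x2196) x15320)
  (sub (add (add (sub (add (add (add (add (add (add (sub (add (add (sub C x8758) x8748) x8772) x8778) x8868) x8976) x9084) x9408) x9732) x10704) x7302) x12) x17508) x2200)
  (add (add (add (sub (add (add (add (add (add (add (sub (sub (sub C x8772) x8756) x8804) x8876) x8984) x9092) x9416) x9740) x10712) x7310) x20) x17516) x15328)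
  (sub (add (add (sub (add (add (add (add (add (add (sub (add (add (sub C x8768) x8748) x8760) x8808) x8880) x8988) x9096) x9420) x9744) x10716) x7314) x24) x17520) x2212)
  (sub (add (add (add (sub (add (add (add (add (sub (sub (add (add (sub C x8778) x8788) x8800) x8758) x8830) x9100) x9424) x9748) x10720) x7318) x28) x17524) x2214) x15338)
  (sub (add (add (sub (add (add (add (add (sub (sub (sub (sub C x8776) x8784) x8760) x8832) x9102) x9426) x9750) x10722) x7320) x30) x17526) x2218)
  (sub (add (add (sub (add (add (add (add (sub (add (add (sub (add (add C x8788) x8792) x8778) x8748) x8820) x8838) x9108) x9432) x9756) x10728) x7326) x36) x17532) x2224)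
  (sub (add (add (add (sub (add (add (add (add (sub (add (add (add (add (add (add C x8784) x8792) x8776) x8800) x8752) x8824) x8842) x9112) x9436) x9760) x10732) x7330) x40) x17536) x2226) x15350)
  (add (add (add (sub (add (add (add (add (sub (add (add (sub (add (add C x8784) x8788) x8798) x8756) x8828) x8846) x9116) x9440) x9764) x10736) x7334) x44) x17540) x15352)
  (add (add (add (sub (add (add (add (add (sub (sub (sub (sub C x8800) x8792) x8816) x8852) x9122) x9446) x9770) x10742) x7340) x50) x17546) x15358)
  (sub (add (add (add (sub (add (add (add (add (sub (sub (add (add (sub C x8798) x8776) x8788) x8818) x8854) x9124) x9448) x9772) x10744) x7342) x52) x17548) x2238) x15362)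
  (add (add (add (sub (add (add (add (add (sub (sub (add (add (sub C x8808) x8816) x8828) x8768) x8912) x9128) x9452) x9776) x10748) x7346) x56) x17552) x15364)
  (sub (add (add (sub (add (add (add (add (sub (sub (sub (sub C x8804) x8820) x8772) x8916) x9132) x9456) x9780) x10752) x7350) x60) x17556) x2248)
  (add (add (add (sub (add (add (add (add (sub (sub (add (add (sub C x8818) x8804) x8828) x8798) x8924) x9140) x9464) x9788) x10760) x7358) x68) x17564) x15376)
  (sub (add (add (add (sub (add (add (add (add (sub (sub (sub (sub C x8816) x8824) x8800) x8926) x9142) x9466) x9790) x10762) x7360) x70) x17566) x2256) x15380)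
  (sub (add (add (sub (add (add (add (add (sub (add (add (sub (add (add C x8824) x8828) x8808) x8748) x8784) x8928) x9144) x9468) x9792) x10764) x7362) x72) x17568) x2260)
  (sub (add (add (add (sub (add (add (add (add (sub (add (add (sub (add (add C x8820) x8828) x8818) x8752) x8788) x8932) x9148) x9472) x9796) x10768) x7366) x76) x17572) x2262) x15386)
  (add (add (add (sub (add (add (add (add (sub (add (add (add (add (add (add C x8820) x8824) x8804) x8816) x8756) x8792) x8936) x9152) x9476) x9800) x10772) x7370) x80) x17576) x15388)
  (sub (add (add (add (sub (add (add (sub (sub (add (add (add (add (sub C x8832) x8842) x8854) x8866) x8902) x8776) x8992) x9802) x10774) x7372) x82) x17578) x2268) x15392)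
  (sub (add (add (sub (add (add (sub (sub (add (add (sub (sub C x8830) x8838) x8868) x8904) x8778) x8994) x9804) x10776) x7374) x84) x17580) x2272)
  (sub (add (add (sub (add (add (sub (sub (sub (sub (add (add C x8842) x8846) x8832) x8856) x8784) x9000) x9810) x10782) x7380) x90) x17586) x2278)
  (sub (add (add (add (sub (add (add (sub (sub (sub (add (add (add (add C x8838) x8846) x8830) x8854) x8860) x8788) x9004) x9814) x10786) x7384) x94) x17590) x2280) x15404)
  (add (add (add (sub (add (add (sub (sub (sub (sub (add (add C x8838) x8842) x8852) x8864) x8792) x9008) x9818) x10790) x7388) x98) x17594) x15406)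
  (add (add (add (sub (add (add (sub (sub (sub (sub (sub C x8854) x8846) x8888) x8798) x9014) x9824) x10796) x7394) x104) x17600) x15412)
  (sub (add (add (add (sub (add (add (sub (sub (sub (add (add (sub C x8852) x8830) x8842) x8890) x8800) x9016) x9826) x10798) x7396) x106) x17602) x2292) x15416)
  (sub (add (add (sub (add (add (sub (add (add (sub (add (add (add (add C x8860) x8864) x8868) x8880) x8838) x8748) x8964) x9018) x9828) x10800) x7398) x108) x17604) x2296)
  (sub (add (add (add (sub (add (add (sub (add (add (sub (sub (add (add C x8856) x8864) x8866) x8842) x8752) x8968) x9022) x9832) x10804) x7402) x112) x17608) x2298) x15422)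
  (add (add (add (sub (add (add (sub (add (add (sub (sub (add (add C x8856) x8860) x8876) x8846) x8756) x8972) x9026) x9836) x10808) x7406) x116) x17612) x15424)
  (sub (add (add (add (sub (add (add (sub (add (add (add (add (sub (sub C x8868) x8860) x8830) x8902) x8758) x8974) x9028) x9838) x10810) x7408) x118) x17614) x2304) x15428)
  (sub (add (add (sub (add (add (sub (add (add (add (add (add (add (sub C x8866) x8856) x8880) x8832) x8904) x8760) x8976) x9030) x9840) x10812) x7410) x120) x17616) x2308)
  (add (add (add (sub (add (add (sub (add (add (sub (sub (sub C x8880) x8864) x8894) x8768) x8984) x9038) x9848) x10820) x7418) x128) x17624) x15436)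
  (sub (add (add (sub (add (add (sub (add (add (sub (add (add (sub C x8876) x8856) x8868) x8898) x8772) x8988) x9042) x9852) x10824) x7422) x132) x17628) x2320)
  (add (add (add (sub (add (add (sub (sub (sub (sub (sub C x8890) x8894) x8852) x8942) x9050) x9860) x10832) x7430) x140) x17636) x15448)
  (sub (add (add (add (sub (add (add (sub (sub (sub (sub (sub C x8888) x8902) x8854) x8944) x9052) x9862) x10834) x7432) x142) x17638) x2328) x15452)
  (add (add (add (sub (add (add (sub (sub (sub (sub (sub C x8898) x8888) x8876) x8948) x9056) x9866) x10838) x7436) x146) x17642) x15454)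
  (sub (add (add (sub (add (add (sub (sub (sub (sub (sub C x8894) x8904) x8880) x8952) x9060) x9870) x10842) x7440) x150) x17646) x2338)
  (sub (add (add (add (sub (add (add (sub (sub (add (add (sub (sub C x8904) x8890) x8830) x8866) x8956) x9064) x9874) x10846) x7444) x154) x17650) x2340) x15464)
  (sub (add (add (sub (add (add (sub (sub (add (add (sub (sub C x8902) x8898) x8832) x8868) x8958) x9066) x9876) x10848) x7446) x156) x17652) x2344)
  (add (add (add (sub (add (add (sub (sub (add (add (add (add (sub C x8916) x8924) x8936) x8948) x8984) x8804) x9236) x9884) x10856) x7454) x164) x17660) x15472)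
  (sub (add (add (sub (add (add (sub (sub (add (add (sub (sub C x8912) x8928) x8952) x8988) x8808) x9240) x9888) x10860) x7458) x168) x17664) x2356)
  (add (add (add (sub (add (add (sub (sub (sub (add (add (sub C x8926) x8912) x8936) x8942) x8816) x9248) x9896) x10868) x7466) x176) x17672) x15484)
  (sub (add (add (add (sub (add (add (sub (sub (sub (sub (sub C x8924) x8932) x8944) x8818) x9250) x9898) x10870) x7468) x178) x17674) x2364) x15488)
  (sub (add (add (sub (add (add (sub (sub (sub (sub (add (add C x8932) x8936) x8916) x8964) x8820) x9252) x9900) x10872) x7470) x180) x17676) x2368)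
  (sub (add (add (add (sub (add (add (sub (sub (sub (sub (add (add C x8928) x8936) x8926) x8968) x8824) x9256) x9904) x10876) x7474) x184) x17680) x2370) x15494)
  (add (add (add (sub (add (add (sub (sub (sub (add (add (add (add C x8928) x8932) x8912) x8924) x8972) x8828) x9260) x9908) x10880) x7478) x188) x17684) x15496)
  (add (add (add (sub (add (add (sub (sub (sub (sub (sub C x8944) x8948) x8924) x8888) x9266) x9914) x10886) x7484) x194) x17690) x15502)
  (sub (add (add (add (sub (add (add (sub (sub (sub (sub (sub C x8942) x8956) x8926) x8890) x9268) x9916) x10888) x7486) x196) x17692) x2382) x15506)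
  (add (add (add (sub (add (add (sub (sub (add (add (sub (sub C x8952) x8942) x8912) x8984) x8894) x9272) x9920) x10892) x7490) x200) x17696) x15508)
  (sub (add (add (sub (add (add (sub (sub (add (add (sub (sub C x8948) x8958) x8916) x8988) x8898) x9276) x9924) x10896) x7494) x204) x17700) x2392)
  (sub (add (add (add (sub (add (add (sub (sub (sub (sub (sub C x8958) x8944) x8974) x8902) x9280) x9928) x10900) x7498) x208) x17704) x2394) x15518)
  (sub (add (add (sub (add (add (sub (sub (sub (sub (sub C x8956) x8952) x8976) x8904) x9282) x9930) x10902) x7500) x210) x17706) x2398)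
  (sub (add (add (sub (add (add (sub (add (add (sub (add (add (add (add C x8968) x8972) x8976) x8988) x8928) x8748) x8856) x9288) x9936) x10908) x7506) x216) x17712) x2404)
  (sub (add (add (add (sub (add (add (sub (add (add (sub (sub (add (add C x8964) x8972) x8974) x8932) x8752) x8860) x9292) x9940) x10912) x7510) x220) x17716) x2406) x15530)
  (add (add (add (sub (add (add (sub (add (add (sub (sub (add (add C x8964) x8968) x8984) x8936) x8756) x8864) x9296) x9944) x10916) x7514) x224) x17720) x15532)
  (sub (add (add (add (sub (add (add (sub (add (add (sub (sub (sub C x8976) x8968) x8956) x8758) x8866) x9298) x9946) x10918) x7516) x226) x17722) x2412) x15536)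
  (sub (add (add (sub (add (add (sub (add (add (sub (add (add (sub C x8974) x8964) x8988) x8958) x8760) x8868) x9300) x9948) x10920) x7518) x228) x17724) x2416)
  (add (add (add (sub (add (add (sub (add (add (add (add (sub (sub C x8988) x8972) x8912) x8948) x8768) x8876) x9308) x9956) x10928) x7526) x236) x17732) x15544)
  (sub (add (add (sub (add (add (sub (add (add (add (add (add (add (sub C x8984) x8964) x8976) x8916) x8952) x8772) x8880) x9312) x9960) x10932) x7530) x240) x17736) x2428)
  (sub (add (add (add (sub (sub (sub (add (add (add (add (add (add (sub C x8994) x9004) x9016) x9028) x9064) x9100) x9208) x8830) x9478) x7534) x244) x17740) x2430) x15554)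
  (sub (add (add (sub (sub (sub (add (add (add (add (sub (sub C x8992) x9000) x9030) x9066) x9102) x9210) x8832) x9480) x7536) x246) x17742) x2434)
  (sub (add (add (sub (sub (sub (add (add (sub (sub (add (add C x9004) x9008) x8994) x9018) x9108) x9216) x8838) x9486) x7542) x252) x17748) x2440)
  (sub (add (add (add (sub (sub (sub (add (add (sub (add (add (add (add C x9000) x9008) x8992) x9016) x9022) x9112) x9220) x8842) x9490) x7546) x256) x17752) x2442) x15566)
  (add (add (add (sub (sub (sub (add (add (sub (sub (add (add C x9000) x9004) x9014) x9026) x9116) x9224) x8846) x9494) x7550) x260) x17756) x15568)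
  (add (add (add (sub (sub (sub (add (add (sub (sub (sub C x9016) x9008) x9050) x9122) x9230) x8852) x9500) x7556) x266) x17762) x15574)
  (sub (add (add (add (sub (sub (sub (add (add (sub (add (add (sub C x9014) x8992) x9004) x9052) x9124) x9232) x8854) x9502) x7558) x268) x17764) x2454) x15578)
  (sub (add (add (sub (sub (sub (sub (sub (add (add (add (add C x9022) x9026) x9030) x9042) x9000) x9072) x8856) x9504) x7560) x270) x17766) x2458)
  (sub (add (add (add (sub (sub (sub (sub (sub (sub (add (add C x9018) x9026) x9028) x9004) x9076) x8860) x9508) x7564) x274) x17770) x2460) x15584)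
  (add (add (add (sub (sub (sub (sub (sub (sub (add (add C x9018) x9022) x9038) x9008) x9080) x8864) x9512) x7568) x278) x17774) x15586)
  (sub (add (add (add (sub (sub (sub (sub (add (add (sub (sub C x9030) x9022) x8992) x9064) x9082) x8866) x9514) x7570) x280) x17776) x2466) x15590)
  (sub (add (add (sub (sub (sub (sub (add (add (add (add (sub C x9028) x9018) x9042) x8994) x9066) x9084) x8868) x9516) x7572) x282) x17778) x2470)
  (add (add (add (sub (sub (sub (sub (sub (sub (sub C x9042) x9026) x9056) x9092) x8876) x9524) x7580) x290) x17786) x15598)
  (sub (add (add (sub (sub (sub (sub (sub (add (add (sub C x9038) x9018) x9030) x9060) x9096) x8880) x9528) x7584) x294) x17790) x2482)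
  (add (add (add (sub (sub (sub (sub (sub (sub (sub C x9052) x9056) x9014) x9158) x8888) x9536) x7592) x302) x17798) x15610)
  (sub (add (add (add (sub (sub (sub (sub (sub (sub (sub C x9050) x9064) x9016) x9160) x8890) x9538) x7594) x304) x17800) x2490) x15614)
  (add (add (add (sub (sub (sub (sub (sub (sub (sub C x9060) x9050) x9038) x9164) x8894) x9542) x7598) x308) x17804) x15616)
  (sub (add (add (sub (sub (sub (sub (sub (sub (sub C x9056) x9066) x9042) x9168) x8898) x9546) x7602) x312) x17808) x2500)
  (sub (add (add (add (sub (sub (sub (sub (add (add (sub (sub C x9066) x9052) x8992) x9028) x9172) x8902) x9550) x7606) x316) x17812) x2502) x15626)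
  (sub (add (add (sub (sub (sub (sub (add (add (sub (sub C x9064) x9060) x8994) x9030) x9174) x8904) x9552) x7608) x318) x17814) x2506)
  (sub (add (add (sub (sub (add (add (sub (add (add (add (add (add (add C x9076) x9080) x9084) x9096) x9108) x9144) x9018) x8748) x9396) x9558) x7614) x324) x17820) x2512)
  (sub (add (add (add (sub (sub (add (add (sub (add (add (sub (add (add C x9072) x9080) x9082) x9112) x9148) x9022) x8752) x9400) x9562) x7618) x328) x17824) x2514) x15638)
  (add (add (add (sub (sub (add (add (sub (add (add (sub (add (add C x9072) x9076) x9092) x9116) x9152) x9026) x8756) x9404) x9566) x7622) x332) x17828) x15640)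
  (sub (add (add (add (sub (sub (add (add (sub (sub (sub (sub C x9084) x9076) x9100) x9028) x8758) x9406) x9568) x7624) x334) x17830) x2520) x15644)
  (sub (add (add (sub (sub (add (add (sub (sub (add (add (sub C x9082) x9072) x9096) x9102) x9030) x8760) x9408) x9570) x7626) x336) x17832) x2524)
  (add (add (add (sub (sub (add (add (sub (sub (sub (sub C x9096) x9080) x9128) x9038) x8768) x9416) x9578) x7634) x344) x17840) x15652)
  (sub (add (add (sub (sub (add (add (sub (sub (add (add (sub C x9092) x9072) x9084) x9132) x9042) x8772) x9420) x9582) x7638) x348) x17844) x2536)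
  (sub (add (add (add (sub (sub (add (add (add (add (sub (add (add (sub C x9102) x9112) x9124) x9082) x8992) x9208) x8776) x9424) x9586) x7642) x352) x17848) x2538) x15662)
  (sub (add (add (sub (sub (add (add (add (add (sub (sub (sub C x9100) x9108) x9084) x8994) x9210) x8778) x9426) x9588) x7644) x354) x17850) x2542)
  (sub (add (add (sub (sub (add (add (add (add (add (add (sub (add (add C x9112) x9116) x9102) x9072) x9144) x9000) x9216) x8784) x9432) x9594) x7650) x360) x17856) x2548)
  (sub (add (add (add (sub (sub (add (add (add (add (add (add (add (add (add (add C x9108) x9116) x9100) x9124) x9076) x9148) x9004) x9220) x8788) x9436) x9598) x7654) x364) x17860) x2550) x15674)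
  (add (add (add (sub (sub (add (add (add (add (add (add (sub (add (add C x9108) x9112) x9122) x9080) x9152) x9008) x9224) x8792) x9440) x9602) x7658) x368) x17864) x15676)
  (add (add (add (sub (sub (add (add (add (add (sub (sub (sub C x9124) x9116) x9140) x9014) x9230) x8798) x9446) x9608) x7664) x374) x17870) x15682)
  (sub (add (add (add (sub (sub (add (add (add (add (sub (add (add (sub C x9122) x9100) x9112) x9142) x9016) x9232) x8800) x9448) x9610) x7666) x376) x17872) x2562) x15686)
  (add (add (add (sub (sub (add (add (sub (sub (add (add (sub C x9132) x9140) x9152) x9092) x9182) x8804) x9452) x9614) x7670) x380) x17876) x15688)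
  (sub (add (add (sub (sub (add (add (sub (sub (sub (sub C x9128) x9144) x9096) x9186) x8808) x9456) x9618) x7674) x384) x17880) x2572)
  (add (add (add (sub (sub (add (add (sub (sub (add (add (sub C x9142) x9128) x9152) x9122) x9194) x8816) x9464) x9626) x7682) x392) x17888) x15700)
  (sub (add (add (add (sub (sub (add (add (sub (sub (sub (sub C x9140) x9148) x9124) x9196) x8818) x9466) x9628) x7684) x394) x17890) x2580) x15704)
  (sub (add (add (sub (sub (add (add (sub (add (add (sub (add (add C x9148) x9152) x9132) x9072) x9108) x9198) x8820) x9468) x9630) x7686) x396) x17892) x2584)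
  (sub (add (add (add (sub (sub (add (add (sub (add (add (sub (add (add C x9144) x9152) x9142) x9076) x9112) x9202) x8824) x9472) x9634) x7690) x400) x17896) x2586) x15710)
  (add (add (add (sub (sub (add (add (sub (add (add (add (add (add (add C x9144) x9148) x9128) x9140) x9080) x9116) x9206) x8828) x9476) x9638) x7694) x404) x17900) x15712)
  (add (add (add (sub (sub (sub (sub (add (add (sub (sub C x9160) x9164) x9194) x9230) x9050) x9320) x9644) x7700) x410) x17906) x15718)
  (sub (add (add (add (sub (sub (sub (sub (add (add (sub (sub C x9158) x9172) x9196) x9232) x9052) x9322) x9646) x7702) x412) x17908) x2598) x15722)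
  (add (add (add (sub (sub (sub (sub (sub (sub (sub C x9168) x9158) x9182) x9056) x9326) x9650) x7706) x416) x17912) x15724)
  (sub (add (add (sub (sub (sub (sub (sub (sub (sub C x9164) x9174) x9186) x9060) x9330) x9654) x7710) x420) x17916) x2608)
  (sub (add (add (add (sub (sub (sub (sub (sub (sub (sub C x9174) x9160) x9208) x9064) x9334) x9658) x7714) x424) x17920) x2610) x15734)
  (sub (add (add (sub (sub (sub (sub (sub (sub (sub C x9172) x9168) x9210) x9066) x9336) x9660) x7716) x426) x17922) x2614)
  (add (add (add (sub (sub (sub (sub (sub (add (add (sub C x9186) x9194) x9206) x9164) x9128) x9344) x9668) x7724) x434) x17930) x15742)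
  (sub (add (add (sub (sub (sub (sub (sub (sub (sub C x9182) x9198) x9168) x9132) x9348) x9672) x7728) x438) x17934) x2626)
  (add (add (add (sub (sub (sub (sub (add (add (add (add (sub C x9196) x9182) x9206) x9158) x9230) x9140) x9356) x9680) x7736) x446) x17942) x15754)
  (sub (add (add (add (sub (sub (sub (sub (add (add (sub (sub C x9194) x9202) x9160) x9232) x9142) x9358) x9682) x7738) x448) x17944) x2634) x15758)
  (sub (add (add (sub (sub (sub (sub (sub (sub (add (add C x9202) x9206) x9186) x9216) x9144) x9360) x9684) x7740) x450) x17946) x2638)
  (sub (add (add (add (sub (sub (sub (sub (sub (sub (add (add C x9198) x9206) x9196) x9220) x9148) x9364) x9688) x7744) x454) x17950) x2640) x15764)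
  (add (add (add (sub (sub (sub (sub (sub (add (add (add (add C x9198) x9202) x9182) x9194) x9224) x9152) x9368) x9692) x7748) x458) x17954) x15766)
  (sub (add (add (add (sub (sub (sub (add (add (sub (add (add (sub C x9210) x9220) x9232) x9172) x8992) x9100) x9370) x9694) x7750) x460) x17956) x2646) x15770)
  (sub (add (add (sub (sub (sub (add (add (sub (sub (sub C x9208) x9216) x9174) x8994) x9102) x9372) x9696) x7752) x462) x17958) x2650)
  (sub (add (add (sub (sub (sub (add (add (sub (sub (add (add C x9220) x9224) x9210) x9198) x9000) x9108) x9378) x9702) x7758) x468) x17964) x2656)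
  (sub (add (add (add (sub (sub (sub (add (add (sub (add (add (add (add C x9216) x9224) x9208) x9232) x9202) x9004) x9112) x9382) x9706) x7762) x472) x17968) x2658) x15782)
  (add (add (add (sub (sub (sub (add (add (sub (sub (add (add C x9216) x9220) x9230) x9206) x9008) x9116) x9386) x9710) x7766) x476) x17972) x15784)
  (add (add (add (sub (sub (sub (add (add (add (add (sub (sub C x9232) x9224) x9158) x9194) x9014) x9122) x9392) x9716) x7772) x482) x17978) x15790)
  (sub (add (add (add (sub (sub (sub (add (add (add (add (add (add (sub C x9230) x9208) x9220) x9160) x9196) x9016) x9124) x9394) x9718) x7774) x484) x17980) x2670) x15794)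
  (add (add (add (sub (sub (sub (add (add (add (add (add (add (sub C x9240) x9248) x9260) x9272) x9308) x9344) x9452) x8912) x10208) x7778) x488) x17984) x15796)
  (sub (add (add (sub (sub (sub (add (add (add (add (sub (sub C x9236) x9252) x9276) x9312) x9348) x9456) x8916) x10212) x7782) x492) x17988) x2680)
  (add (add (add (sub (sub (sub (add (add (sub (add (add (sub C x9250) x9236) x9260) x9266) x9356) x9464) x8924) x10220) x7790) x500) x17996) x15808)
  (sub (add (add (add (sub (sub (sub (add (add (sub (sub (sub C x9248) x9256) x9268) x9358) x9466) x8926) x10222) x7792) x502) x17998) x2688) x15812)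
  (sub (add (add (sub (sub (sub (add (add (sub (sub (add (add C x9256) x9260) x9240) x9288) x9360) x9468) x8928) x10224) x7794) x504) x18000) x2692)
  (sub (add (add (add (sub (sub (sub (add (add (sub (sub (add (add C x9252) x9260) x9250) x9292) x9364) x9472) x8932) x10228) x7798) x508) x18004) x2694) x15818)
  (add (add (add (sub (sub (sub (add (add (sub (add (add (add (add C x9252) x9256) x9236) x9248) x9296) x9368) x9476) x8936) x10232) x7802) x512) x18008) x15820)
  (add (add (add (sub (sub (sub (sub (sub (sub (sub C x9268) x9272) x9248) x9320) x8942) x10238) x7808) x518) x18014) x15826)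
  (sub (add (add (add (sub (sub (sub (sub (sub (sub (sub C x9266) x9280) x9250) x9322) x8944) x10240) x7810) x520) x18016) x2706) x15830)
  (add (add (add (sub (sub (sub (sub (add (add (sub (sub C x9276) x9266) x9236) x9308) x9326) x8948) x10244) x7814) x524) x18020) x15832)
  (sub (add (add (sub (sub (sub (sub (add (add (sub (sub C x9272) x9282) x9240) x9312) x9330) x8952) x10248) x7818) x528) x18024) x2716)
  (sub (add (add (add (sub (sub (sub (sub (sub (sub (sub C x9282) x9268) x9298) x9334) x8956) x10252) x7822) x532) x18028) x2718) x15842)
  (sub (add (add (sub (sub (sub (sub (sub (sub (sub C x9280) x9276) x9300) x9336) x8958) x10254) x7824) x534) x18030) x2722)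
  (sub (add (add (sub (sub (sub (sub (sub (add (add (add (add C x9292) x9296) x9300) x9312) x9252) x9396) x8964) x10260) x7830) x540) x18036) x2728)
  (sub (add (add (add (sub (sub (sub (sub (sub (sub (add (add C x9288) x9296) x9298) x9256) x9400) x8968) x10264) x7834) x544) x18040) x2730) x15854)
  (add (add (add (sub (sub (sub (sub (sub (sub (add (add C x9288) x9292) x9308) x9260) x9404) x8972) x10268) x7838) x548) x18044) x15856)
  (sub (add (add (add (sub (sub (sub (sub (sub (sub (sub C x9300) x9292) x9280) x9406) x8974) x10270) x7840) x550) x18046) x2736) x15860)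
  (sub (add (add (sub (sub (sub (sub (sub (add (add (sub C x9298) x9288) x9312) x9282) x9408) x8976) x10272) x7842) x552) x18048) x2740)
  (add (add (add (sub (sub (sub (sub (add (add (sub (sub C x9312) x9296) x9236) x9272) x9416) x8984) x10280) x7850) x560) x18056) x15868)
  (sub (add (add (sub (sub (sub (sub (add (add (add (add (sub C x9308) x9288) x9300) x9240) x9276) x9420) x8988) x10284) x7854) x564) x18060) x2752)
  (add (add (add (sub (sub (sub (sub (add (add (sub (sub C x9322) x9326) x9356) x9392) x9266) x9158) x10292) x7862) x572) x18068) x15880)
  (sub (add (add (add (sub (sub (sub (sub (add (add (sub (sub C x9320) x9334) x9358) x9394) x9268) x9160) x10294) x7864) x574) x18070) x2760) x15884)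
  (add (add (add (sub (sub (sub (sub (sub (sub (sub C x9330) x9320) x9344) x9272) x9164) x10298) x7868) x578) x18074) x15886)
  (sub (add (add (sub (sub (sub (sub (sub (sub (sub C x9326) x9336) x9348) x9276) x9168) x10302) x7872) x582) x18078) x2770)
  (sub (add (add (add (sub (sub (sub (sub (sub (sub (sub C x9336) x9322) x9370) x9280) x9172) x10306) x7876) x586) x18082) x2772) x15896)
  (sub (add (add (sub (sub (sub (sub (sub (sub (sub C x9334) x9330) x9372) x9282) x9174) x10308) x7878) x588) x18084) x2776)
  (add (add (add (sub (sub (sub (add (add (sub (add (add (sub C x9348) x9356) x9368) x9326) x9236) x9452) x9182) x10316) x7886) x596) x18092) x15904)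
  (sub (add (add (sub (sub (sub (add (add (sub (sub (sub C x9344) x9360) x9330) x9240) x9456) x9186) x10320) x7890) x600) x18096) x2788)
  (add (add (add (sub (sub (sub (add (add (add (add (add (add (sub C x9358) x9344) x9368) x9320) x9392) x9248) x9464) x9194) x10328) x7898) x608) x18104) x15916)
  (sub (add (add (add (sub (sub (sub (add (add (add (add (sub (sub C x9356) x9364) x9322) x9394) x9250) x9466) x9196) x10330) x7900) x610) x18106) x2796) x15920)
  (sub (add (add (sub (sub (sub (add (add (sub (sub (add (add C x9364) x9368) x9348) x9378) x9252) x9468) x9198) x10332) x7902) x612) x18108) x2800)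
  (sub (add (add (add (sub (sub (sub (add (add (sub (sub (add (add C x9360) x9368) x9358) x9382) x9256) x9472) x9202) x10336) x7906) x616) x18112) x2802) x15926)
  (add (add (add (sub (sub (sub (add (add (sub (add (add (add (add C x9360) x9364) x9344) x9356) x9386) x9260) x9476) x9206) x10340) x7910) x620) x18116) x15928)
  (sub (add (add (add (sub (sub (sub (sub (sub (add (add (sub C x9372) x9382) x9394) x9334) x9424) x9208) x10342) x7912) x622) x18118) x2808) x15932)
  (sub (add (add (sub (sub (sub (sub (sub (sub (sub C x9370) x9378) x9336) x9426) x9210) x10344) x7914) x624) x18120) x2812)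
  (sub (add (add (sub (sub (sub (sub (sub (sub (add (add C x9382) x9386) x9372) x9360) x9432) x9216) x10350) x7920) x630) x18126) x2818)
  (sub (add (add (add (sub (sub (sub (sub (sub (add (add (add (add C x9378) x9386) x9370) x9394) x9364) x9436) x9220) x10354) x7924) x634) x18130) x2820) x15944)
  (add (add (add (sub (sub (sub (sub (sub (sub (add (add C x9378) x9382) x9392) x9368) x9440) x9224) x10358) x7928) x638) x18134) x15946)
  (add (add (add (sub (sub (sub (sub (add (add (sub (sub C x9394) x9386) x9320) x9356) x9446) x9230) x10364) x7934) x644) x18140) x15952)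
  (sub (add (add (add (sub (sub (sub (sub (add (add (add (add (sub C x9392) x9370) x9382) x9322) x9358) x9448) x9232) x10366) x7936) x646) x18142) x2832) x15956)
  (sub (add (add (sub (sub (add (add (sub (add (add (add (add (add (add C x9400) x9404) x9408) x9420) x9432) x9468) x9288) x8748) x9072) x10368) x7938) x648) x18144) x2836)
  (sub (add (add (add (sub (sub (add (add (sub (add (add (sub (add (add C x9396) x9404) x9406) x9436) x9472) x9292) x8752) x9076) x10372) x7942) x652) x18148) x2838) x15962)
  (add (add (add (sub (sub (add (add (sub (add (add (sub (add (add C x9396) x9400) x9416) x9440) x9476) x9296) x8756) x9080) x10376) x7946) x656) x18152) x15964)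
  (sub (add (add (add (sub (sub (add (add (sub (sub (sub (sub C x9408) x9400) x9424) x9298) x8758) x9082) x10378) x7948) x658) x18154) x2844) x15968)
  (sub (add (add (sub (sub (add (add (sub (sub (add (add (sub C x9406) x9396) x9420) x9426) x9300) x8760) x9084) x10380) x7950) x660) x18156) x2848)
  (add (add (add (sub (sub (add (add (sub (sub (sub (sub C x9420) x9404) x9452) x9308) x8768) x9092) x10388) x7958) x668) x18164) x15976)
  (sub (add (add (sub (sub (add (add (sub (sub (add (add (sub C x9416) x9396) x9408) x9456) x9312) x8772) x9096) x10392) x7962) x672) x18168) x2860)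
  (sub (add (add (add (sub (sub (add (add (sub (sub (add (add (sub C x9426) x9436) x9448) x9406) x9370) x8776) x9100) x10396) x7966) x676) x18172) x2862) x15986)
  (sub (add (add (sub (sub (add (add (sub (sub (sub (sub C x9424) x9432) x9408) x9372) x8778) x9102) x10398) x7968) x678) x18174) x2866)
  (sub (add (add (sub (sub (add (add (sub (add (add (sub (add (add C x9436) x9440) x9426) x9396) x9468) x9378) x8784) x9108) x10404) x7974) x684) x18180) x2872)
  (sub (add (add (add (sub (sub (add (add (sub (add (add (add (add (add (add C x9432) x9440) x9424) x9448) x9400) x9472) x9382) x8788) x9112) x10408) x7978) x688) x18184) x2874) x15998)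
  (add (add (add (sub (sub (add (add (sub (add (add (sub (add (add C x9432) x9436) x9446) x9404) x9476) x9386) x8792) x9116) x10412) x7982) x692) x18188) x16000)
  (add (add (add (sub (sub (add (add (sub (sub (sub (sub C x9448) x9440) x9464) x9392) x8798) x9122) x10418) x7988) x698) x18194) x16006)
  (sub (add (add (add (sub (sub (add (add (sub (sub (add (add (sub C x9446) x9424) x9436) x9466) x9394) x8800) x9124) x10420) x7990) x700) x18196) x2886) x16010)
  (add (add (add (sub (sub (add (add (add (add (sub (add (add (sub C x9456) x9464) x9476) x9416) x9236) x9344) x8804) x9128) x10424) x7994) x704) x18200) x16012)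
  (sub (add (add (sub (sub (add (add (add (add (sub (sub (sub C x9452) x9468) x9420) x9240) x9348) x8808) x9132) x10428) x7998) x708) x18204) x2896)
  (add (add (add (sub (sub (add (add (add (add (sub (add (add (sub C x9466) x9452) x9476) x9446) x9248) x9356) x8816) x9140) x10436) x8006) x716) x18212) x16024)
  (sub (add (add (add (sub (sub (add (add (add (add (sub (sub (sub C x9464) x9472) x9448) x9250) x9358) x8818) x9142) x10438) x8008) x718) x18214) x2904) x16028)
  (sub (add (add (sub (sub (add (add (add (add (add (add (sub (add (add C x9472) x9476) x9456) x9396) x9432) x9252) x9360) x8820) x9144) x10440) x8010) x720) x18216) x2908)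
  (sub (add (add (add (sub (sub (add (add (add (add (add (add (sub (add (add C x9468) x9476) x9466) x9400) x9436) x9256) x9364) x8824) x9148) x10444) x8014) x724) x18220) x2910) x16034)
  (add (add (add (sub (sub (add (add (add (add (add (add (add (add (add (add C x9468) x9472) x9452) x9464) x9404) x9440) x9260) x9368) x8828) x9152) x10448) x8018) x728) x18224) x16036)
  (sub (add (add (add (add (add (sub (add (add (add (add (add (add (add (add (sub C x9480) x9490) x9502) x9514) x9550) x9586) x9694) x9802) x10126) x8992) x6562) x12394) x730) x18226) x2916) x16040)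
  (sub (add (add (add (add (sub (add (add (add (add (add (add (sub (sub C x9478) x9486) x9516) x9552) x9588) x9696) x9804) x10128) x8994) x6564) x12396) x732) x18228) x2920)
  (sub (add (add (add (add (sub (add (add (add (add (sub (sub (add (add C x9490) x9494) x9480) x9504) x9594) x9702) x9810) x10134) x9000) x6570) x12402) x738) x18234) x2926)
  (sub (add (add (add (add (add (sub (add (add (add (add (sub (add (add (add (add C x9486) x9494) x9478) x9502) x9508) x9598) x9706) x9814) x10138) x9004) x6574) x12406) x742) x18238) x2928) x16052)
  (add (add (add (add (add (sub (add (add (add (add (sub (sub (add (add C x9486) x9490) x9500) x9512) x9602) x9710) x9818) x10142) x9008) x6578) x12410) x746) x18242) x16054)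
  (add (add (add (add (add (sub (add (add (add (add (sub (sub (sub C x9502) x9494) x9536) x9608) x9716) x9824) x10148) x9014) x6584) x12416) x752) x18248) x16060)
  (sub (add (add (add (add (add (sub (add (add (add (add (sub (add (add (sub C x9500) x9478) x9490) x9538) x9610) x9718) x9826) x10150) x9016) x6586) x12418) x754) x18250) x2940) x16064)
  (sub (add (add (add (add (sub (add (add (sub (sub (add (add (add (add C x9508) x9512) x9516) x9528) x9486) x9558) x9828) x10152) x9018) x6588) x12420) x756) x18252) x2944)
  (sub (add (add (add (add (add (sub (add (add (sub (sub (sub (add (add C x9504) x9512) x9514) x9490) x9562) x9832) x10156) x9022) x6592) x12424) x760) x18256) x2946) x16070)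
  (add (add (add (add (add (sub (add (add (sub (sub (sub (add (add C x9504) x9508) x9524) x9494) x9566) x9836) x10160) x9026) x6596) x12428) x764) x18260) x16072)
  (sub (add (add (add (add (add (sub (add (add (sub (add (add (sub (sub C x9516) x9508) x9478) x9550) x9568) x9838) x10162) x9028) x6598) x12430) x766) x18262) x2952) x16076)
  (sub (add (add (add (add (sub (add (add (sub (add (add (add (add (sub C x9514) x9504) x9528) x9480) x9552) x9570) x9840) x10164) x9030) x6600) x12432) x768) x18264) x2956)
  (add (add (add (add (add (sub (add (add (sub (sub (sub (sub C x9528) x9512) x9542) x9578) x9848) x10172) x9038) x6608) x12440) x776) x18272) x16084)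
  (sub (add (add (add (add (sub (add (add (sub (sub (add (add (sub C x9524) x9504) x9516) x9546) x9582) x9852) x10176) x9042) x6612) x12444) x780) x18276) x2968)
  (add (add (add (add (add (sub (add (add (sub (sub (sub (sub C x9538) x9542) x9500) x9644) x9860) x10184) x9050) x6620) x12452) x788) x18284) x16096)
  (sub (add (add (add (add (add (sub (add (add (sub (sub (sub (sub C x9536) x9550) x9502) x9646) x9862) x10186) x9052) x6622) x12454) x790) x18286) x2976) x16100)
  (add (add (add (add (add (sub (add (add (sub (sub (sub (sub C x9546) x9536) x9524) x9650) x9866) x10190) x9056) x6626) x12458) x794) x18290) x16102)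
  (sub (add (add (add (add (sub (add (add (sub (sub (sub (sub C x9542) x9552) x9528) x9654) x9870) x10194) x9060) x6630) x12462) x798) x18294) x2986)
  (sub (add (add (add (add (add (sub (add (add (sub (add (add (sub (sub C x9552) x9538) x9478) x9514) x9658) x9874) x10198) x9064) x6634) x12466) x802) x18298) x2988) x16112)
  (sub (add (add (add (add (sub (add (add (sub (add (add (sub (sub C x9550) x9546) x9480) x9516) x9660) x9876) x10200) x9066) x6636) x12468) x804) x18300) x2992)
  (sub (add (add (add (add (sub (sub (sub (add (add (add (add (add (add C x9562) x9566) x9570) x9582) x9594) x9630) x9504) x9720) x9072) x6642) x12474) x810) x18306) x2998)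
  (sub (add (add (add (add (add (sub (sub (sub (add (add (sub (add (add C x9558) x9566) x9568) x9598) x9634) x9508) x9724) x9076) x6646) x12478) x814) x18310) x3000) x16124)
  (add (add (add (add (add (sub (sub (sub (add (add (sub (add (add C x9558) x9562) x9578) x9602) x9638) x9512) x9728) x9080) x6650) x12482) x818) x18314) x16126)
  (sub (add (add (add (add (add (sub (sub (sub (sub (sub (sub C x9570) x9562) x9586) x9514) x9730) x9082) x6652) x12484) x820) x18316) x3006) x16130)
  (sub (add (add (add (add (sub (sub (sub (sub (add (add (sub C x9568) x9558) x9582) x9588) x9516) x9732) x9084) x6654) x12486) x822) x18318) x3010)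
  (add (add (add (add (add (sub (sub (sub (sub (sub (sub C x9582) x9566) x9614) x9524) x9740) x9092) x6662) x12494) x830) x18326) x16138)
  (sub (add (add (add (add (sub (sub (sub (sub (add (add (sub C x9578) x9558) x9570) x9618) x9528) x9744) x9096) x6666) x12498) x834) x18330) x3022)
  (sub (add (add (add (add (add (sub (sub (add (add (sub (add (add (sub C x9588) x9598) x9610) x9568) x9478) x9694) x9748) x9100) x6670) x12502) x838) x18334) x3024) x16148)
  (sub (add (add (add (add (sub (sub (add (add (sub (sub (sub C x9586) x9594) x9570) x9480) x9696) x9750) x9102) x6672) x12504) x840) x18336) x3028)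
  (sub (add (add (add (add (sub (sub (add (add (add (add (sub (add (add C x9598) x9602) x9588) x9558) x9630) x9486) x9702) x9756) x9108) x6678) x12510) x846) x18342) x3034)
  (sub (add (add (add (add (add (sub (sub (add (add (add (add (add (add (add (add C x9594) x9602) x9586) x9610) x9562) x9634) x9490) x9706) x9760) x9112) x6682) x12514) x850) x18346) x3036) x16160)
  (add (add (add (add (add (sub (sub (add (add (add (add (sub (add (add C x9594) x9598) x9608) x9566) x9638) x9494) x9710) x9764) x9116) x6686) x12518) x854) x18350) x16162)
  (add (add (add (add (add (sub (sub (add (add (sub (sub (sub C x9610) x9602) x9626) x9500) x9716) x9770) x9122) x6692) x12524) x860) x18356) x16168)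
  (sub (add (add (add (add (add (sub (sub (add (add (sub (add (add (sub C x9608) x9586) x9598) x9628) x9502) x9718) x9772) x9124) x6694) x12526) x862) x18358) x3048) x16172)
  (add (add (add (add (add (sub (sub (sub (sub (add (add (sub C x9618) x9626) x9638) x9578) x9668) x9776) x9128) x6698) x12530) x866) x18362) x16174)
  (sub (add (add (add (add (sub (sub (sub (sub (sub (sub C x9614) x9630) x9582) x9672) x9780) x9132) x6702) x12534) x870) x18366) x3058)
  (add (add (add (add (add (sub (sub (sub (sub (add (add (sub C x9628) x9614) x9638) x9608) x9680) x9788) x9140) x6710) x12542) x878) x18374) x16186)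
  (sub (add (add (add (add (add (sub (sub (sub (sub (sub (sub C x9626) x9634) x9610) x9682) x9790) x9142) x6712) x12544) x880) x18376) x3066) x16190)
  (sub (add (add (add (add (sub (sub (sub (add (add (sub (add (add C x9634) x9638) x9618) x9558) x9594) x9684) x9792) x9144) x6714) x12546) x882) x18378) x3070)
  (sub (add (add (add (add (add (sub (sub (sub (add (add (sub (add (add C x9630) x9638) x9628) x9562) x9598) x9688) x9796) x9148) x6718) x12550) x886) x18382) x3072) x16196)
  (add (add (add (add (add (sub (sub (sub (add (add (add (add (add (add C x9630) x9634) x9614) x9626) x9566) x9602) x9692) x9800) x9152) x6722) x12554) x890) x18386) x16198)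
  (add (add (add (add (add (sub (sub (sub (add (add (sub (sub C x9646) x9650) x9680) x9716) x9536) x9968) x9158) x6728) x12560) x896) x18392) x16204)
  (sub (add (add (add (add (add (sub (sub (sub (add (add (sub (sub C x9644) x9658) x9682) x9718) x9538) x9970) x9160) x6730) x12562) x898) x18394) x3084) x16208)
  (add (add (add (add (add (sub (sub (sub (sub (sub (sub C x9654) x9644) x9668) x9542) x9974) x9164) x6734) x12566) x902) x18398) x16210)
  (sub (add (add (add (add (sub (sub (sub (sub (sub (sub C x9650) x9660) x9672) x9546) x9978) x9168) x6738) x12570) x906) x18402) x3094)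
  (sub (add (add (add (add (add (sub (sub (sub (sub (sub (sub C x9660) x9646) x9694) x9550) x9982) x9172) x6742) x12574) x910) x18406) x3096) x16220)
  (sub (add (add (add (add (sub (sub (sub (sub (sub (sub C x9658) x9654) x9696) x9552) x9984) x9174) x6744) x12576) x912) x18408) x3100)
  (add (add (add (add (add (sub (sub (sub (sub (add (add (sub C x9672) x9680) x9692) x9650) x9614) x9992) x9182) x6752) x12584) x920) x18416) x16228)
  (sub (add (add (add (add (sub (sub (sub (sub (sub (sub C x9668) x9684) x9654) x9618) x9996) x9186) x6756) x12588) x924) x18420) x3112)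
  (add (add (add (add (add (sub (sub (sub (add (add (add (add (sub C x9682) x9668) x9692) x9644) x9716) x9626) x10004) x9194) x6764) x12596) x932) x18428) x16240)
  (sub (add (add (add (add (add (sub (sub (sub (add (add (sub (sub C x9680) x9688) x9646) x9718) x9628) x10006) x9196) x6766) x12598) x934) x18430) x3120) x16244)
  (sub (add (add (add (add (sub (sub (sub (sub (sub (add (add C x9688) x9692) x9672) x9702) x9630) x10008) x9198) x6768) x12600) x936) x18432) x3124)
  (sub (add (add (add (add (add (sub (sub (sub (sub (sub (add (add C x9684) x9692) x9682) x9706) x9634) x10012) x9202) x6772) x12604) x940) x18436) x3126) x16250)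
  (add (add (add (add (add (sub (sub (sub (sub (add (add (add (add C x9684) x9688) x9668) x9680) x9710) x9638) x10016) x9206) x6776) x12608) x944) x18440) x16252)
  (sub (add (add (add (add (add (sub (sub (add (add (sub (add (add (sub C x9696) x9706) x9718) x9658) x9478) x9586) x10018) x9208) x6778) x12610) x946) x18442) x3132) x16256)
  (sub (add (add (add (add (sub (sub (add (add (sub (sub (sub C x9694) x9702) x9660) x9480) x9588) x10020) x9210) x6780) x12612) x948) x18444) x3136)
  (sub (add (add (add (add (sub (sub (add (add (sub (sub (add (add C x9706) x9710) x9696) x9684) x9486) x9594) x10026) x9216) x6786) x12618) x954) x18450) x3142)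
  (sub (add (add (add (add (add (sub (sub (add (add (sub (add (add (add (add C x9702) x9710) x9694) x9718) x9688) x9490) x9598) x10030) x9220) x6790) x12622) x958) x18454) x3144) x16268)
  (add (add (add (add (add (sub (sub (add (add (sub (sub (add (add C x9702) x9706) x9716) x9692) x9494) x9602) x10034) x9224) x6794) x12626) x962) x18458) x16270)
  (add (add (add (add (add (sub (sub (add (add (add (add (sub (sub C x9718) x9710) x9644) x9680) x9500) x9608) x10040) x9230) x6800) x12632) x968) x18464) x16276)
  (sub (add (add (add (add (add (sub (sub (add (add (add (add (add (add (sub C x9716) x9694) x9706) x9646) x9682) x9502) x9610) x10042) x9232) x6802) x12634) x970) x18466) x3156) x16280)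
  (sub (add (add (add (add (add (add (sub (add (add (add (add (add (add (add (add C x9724) x9728) x9732) x9744) x9756) x9792) x9828) x9936) x9558) x8748) x10692) x6804) x12636) x972) x18468) x3160)
  (sub (add (add (add (add (add (add (add (sub (add (add (add (add (sub (add (add C x9720) x9728) x9730) x9760) x9796) x9832) x9940) x9562) x8752) x10696) x6808) x12640) x976) x18472) x3162) x16286)
  (add (add (add (add (add (add (add (sub (add (add (add (add (sub (add (add C x9720) x9724) x9740) x9764) x9800) x9836) x9944) x9566) x8756) x10700) x6812) x12644) x980) x18476) x16288)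
  (sub (add (add (add (add (add (add (add (sub (add (add (sub (sub (sub C x9732) x9724) x9748) x9838) x9946) x9568) x8758) x10702) x6814) x12646) x982) x18478) x3168) x16292)
  (sub (add (add (add (add (add (add (sub (add (add (sub (add (add (sub C x9730) x9720) x9744) x9750) x9840) x9948) x9570) x8760) x10704) x6816) x12648) x984) x18480) x3172)
  (add (add (add (add (add (add (add (sub (add (add (sub (sub (sub C x9744) x9728) x9776) x9848) x9956) x9578) x8768) x10712) x6824) x12656) x992) x18488) x16300)
  (sub (add (add (add (add (add (add (sub (add (add (sub (add (add (sub C x9740) x9720) x9732) x9780) x9852) x9960) x9582) x8772) x10716) x6828) x12660) x996) x18492) x3184)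
  (sub (add (add (add (add (add (add (add (sub (sub (sub (add (add (sub C x9750) x9760) x9772) x9730) x9802) x9586) x8776) x10720) x6832) x12664) x1000) x18496) x3186) x16310)
  (sub (add (add (add (add (add (add (sub (sub (sub (sub (sub C x9748) x9756) x9732) x9804) x9588) x8778) x10722) x6834) x12666) x1002) x18498) x3190)
  (sub (add (add (add (add (add (add (sub (sub (add (add (sub (add (add C x9760) x9764) x9750) x9720) x9792) x9810) x9594) x8784) x10728) x6840) x12672) x1008) x18504) x3196)
  (sub (add (add (add (add (add (add (add (sub (sub (add (add (add (add (add (add C x9756) x9764) x9748) x9772) x9724) x9796) x9814) x9598) x8788) x10732) x6844) x12676) x1012) x18508) x3198) x16322)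
  (add (add (add (add (add (add (add (sub (sub (add (add (sub (add (add C x9756) x9760) x9770) x9728) x9800) x9818) x9602) x8792) x10736) x6848) x12680) x1016) x18512) x16324)
  (add (add (add (add (add (add (add (sub (sub (sub (sub (sub C x9772) x9764) x9788) x9824) x9608) x8798) x10742) x6854) x12686) x1022) x18518) x16330)
  (sub (add (add (add (add (add (add (add (sub (sub (sub (add (add (sub C x9770) x9748) x9760) x9790) x9826) x9610) x8800) x10744) x6856) x12688) x1024) x18520) x3210) x16334)
  (add (add (add (add (add (add (add (sub (sub (sub (add (add (sub C x9780) x9788) x9800) x9740) x9884) x9614) x8804) x10748) x6860) x12692) x1028) x18524) x16336)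
  (sub (add (add (add (add (add (add (sub (sub (sub (sub (sub C x9776) x9792) x9744) x9888) x9618) x8808) x10752) x6864) x12696) x1032) x18528) x3220)
  (add (add (add (add (add (add (add (sub (sub (sub (add (add (sub C x9790) x9776) x9800) x9770) x9896) x9626) x8816) x10760) x6872) x12704) x1040) x18536) x16348)
  (sub (add (add (add (add (add (add (add (sub (sub (sub (sub (sub C x9788) x9796) x9772) x9898) x9628) x8818) x10762) x6874) x12706) x1042) x18538) x3228) x16352)
  (sub (add (add (add (add (add (add (sub (sub (add (add (sub (add (add C x9796) x9800) x9780) x9720) x9756) x9900) x9630) x8820) x10764) x6876) x12708) x1044) x18540) x3232)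
  (sub (add (add (add (add (add (add (add (sub (sub (add (add (sub (add (add C x9792) x9800) x9790) x9724) x9760) x9904) x9634) x8824) x10768) x6880) x12712) x1048) x18544) x3234) x16358)
  (add (add (add (add (add (add (add (sub (sub (add (add (add (add (add (add C x9792) x9796) x9776) x9788) x9728) x9764) x9908) x9638) x8828) x10772) x6884) x12716) x1052) x18548) x16360)
  (sub (add (add (add (add (add (add (add (add (add (sub (add (add (add (add (sub C x9804) x9814) x9826) x9838) x9874) x9748) x9478) x10126) x8830) x10774) x6886) x12718) x1054) x18550) x3240) x16364)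
  (sub (add (add (add (add (add (add (add (add (sub (add (add (sub (sub C x9802) x9810) x9840) x9876) x9750) x9480) x10128) x8832) x10776) x6888) x12720) x1056) x18552) x3244)
  (sub (add (add (add (add (add (add (add (add (sub (sub (sub (add (add C x9814) x9818) x9804) x9828) x9756) x9486) x10134) x8838) x10782) x6894) x12726) x1062) x18558) x3250)
  (sub (add (add (add (add (add (add (add (add (add (sub (sub (add (add (add (add C x9810) x9818) x9802) x9826) x9832) x9760) x9490) x10138) x8842) x10786) x6898) x12730) x1066) x18562) x3252) x16376)
  (add (add (add (add (add (add (add (add (add (sub (sub (sub (add (add C x9810) x9814) x9824) x9836) x9764) x9494) x10142) x8846) x10790) x6902) x12734) x1070) x18566) x16378)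
  (add (add (add (add (add (add (add (add (add (sub (sub (sub (sub C x9826) x9818) x9860) x9770) x9500) x10148) x8852) x10796) x6908) x12740) x1076) x18572) x16384)
  (sub (add (add (add (add (add (add (add (add (add (sub (sub (add (add (sub C x9824) x9802) x9814) x9862) x9772) x9502) x10150) x8854) x10798) x6910) x12742) x1078) x18574) x3264) x16388)
  (sub (add (add (add (add (add (add (add (add (add (add (sub (add (add (add (add C x9832) x9836) x9840) x9852) x9810) x9720) x9936) x9504) x10152) x8856) x10800) x6912) x12744) x1080) x18576) x3268)
  (sub (add (add (add (add (add (add (add (add (add (add (add (sub (sub (add (add C x9828) x9836) x9838) x9814) x9724) x9940) x9508) x10156) x8860) x10804) x6916) x12748) x1084) x18580) x3270) x16394)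
  (add (add (add (add (add (add (add (add (add (add (add (sub (sub (add (add C x9828) x9832) x9848) x9818) x9728) x9944) x9512) x10160) x8864) x10808) x6920) x12752) x1088) x18584) x16396)
  (sub (add (add (add (add (add (add (add (add (add (add (add (add (add (sub (sub C x9840) x9832) x9802) x9874) x9730) x9946) x9514) x10162) x8866) x10810) x6922) x12754) x1090) x18586) x3276) x16400)
  (sub (add (add (add (add (add (add (add (add (add (add (add (add (add (add (sub C x9838) x9828) x9852) x9804) x9876) x9732) x9948) x9516) x10164) x8868) x10812) x6924) x12756) x1092) x18588) x3280)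
  (add (add (add (add (add (add (add (add (add (add (add (sub (sub (sub C x9852) x9836) x9866) x9740) x9956) x9524) x10172) x8876) x10820) x6932) x12764) x1100) x18596) x16408)
  (sub (add (add (add (add (add (add (add (add (add (add (sub (add (add (sub C x9848) x9828) x9840) x9870) x9744) x9960) x9528) x10176) x8880) x10824) x6936) x12768) x1104) x18600) x3292)
  (add (add (add (add (add (add (add (add (add (sub (sub (sub (sub C x9862) x9866) x9824) x9914) x9536) x10184) x8888) x10832) x6944) x12776) x1112) x18608) x16420)
  (sub (add (add (add (add (add (add (add (add (add (sub (sub (sub (sub C x9860) x9874) x9826) x9916) x9538) x10186) x8890) x10834) x6946) x12778) x1114) x18610) x3300) x16424)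
  (add (add (add (add (add (add (add (add (add (sub (sub (sub (sub C x9870) x9860) x9848) x9920) x9542) x10190) x8894) x10838) x6950) x12782) x1118) x18614) x16426)
  (sub (add (add (add (add (add (add (add (add (sub (sub (sub (sub C x9866) x9876) x9852) x9924) x9546) x10194) x8898) x10842) x6954) x12786) x1122) x18618) x3310)
  (sub (add (add (add (add (add (add (add (add (add (sub (add (add (sub (sub C x9876) x9862) x9802) x9838) x9928) x9550) x10198) x8902) x10846) x6958) x12790) x1126) x18622) x3312) x16436)
  (sub (add (add (add (add (add (add (add (add (sub (add (add (sub (sub C x9874) x9870) x9804) x9840) x9930) x9552) x10200) x8904) x10848) x6960) x12792) x1128) x18624) x3316)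
  (add (add (add (add (add (add (add (sub (sub (add (add (add (add (sub C x9888) x9896) x9908) x9920) x9956) x9776) x10046) x8912) x10856) x6968) x12800) x1136) x18632) x16444)
  (sub (add (add (add (add (add (add (sub (sub (add (add (sub (sub C x9884) x9900) x9924) x9960) x9780) x10050) x8916) x10860) x6972) x12804) x1140) x18636) x3328)
  (add (add (add (add (add (add (add (sub (sub (sub (add (add (sub C x9898) x9884) x9908) x9914) x9788) x10058) x8924) x10868) x6980) x12812) x1148) x18644) x16456)
  (sub (add (add (add (add (add (add (add (sub (sub (sub (sub (sub C x9896) x9904) x9916) x9790) x10060) x8926) x10870) x6982) x12814) x1150) x18646) x3336) x16460)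
  (sub (add (add (add (add (add (add (sub (sub (sub (sub (add (add C x9904) x9908) x9888) x9936) x9792) x10062) x8928) x10872) x6984) x12816) x1152) x18648) x3340)
  (sub (add (add (add (add (add (add (add (sub (sub (sub (sub (add (add C x9900) x9908) x9898) x9940) x9796) x10066) x8932) x10876) x6988) x12820) x1156) x18652) x3342) x16466)
  (add (add (add (add (add (add (add (sub (sub (sub (add (add (add (add C x9900) x9904) x9884) x9896) x9944) x9800) x10070) x8936) x10880) x6992) x12824) x1160) x18656) x16468)
  (add (add (add (add (add (add (add (sub (sub (sub (sub (sub C x9916) x9920) x9896) x9860) x10076) x8942) x10886) x6998) x12830) x1166) x18662) x16474)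
  (sub (add (add (add (add (add (add (add (sub (sub (sub (sub (sub C x9914) x9928) x9898) x9862) x10078) x8944) x10888) x7000) x12832) x1168) x18664) x3354) x16478)
  (add (add (add (add (add (add (add (sub (sub (add (add (sub (sub C x9924) x9914) x9884) x9956) x9866) x10082) x8948) x10892) x7004) x12836) x1172) x18668) x16480)
  (sub (add (add (add (add (add (add (sub (sub (add (add (sub (sub C x9920) x9930) x9888) x9960) x9870) x10086) x8952) x10896) x7008) x12840) x1176) x18672) x3364)
  (sub (add (add (add (add (add (add (add (sub (sub (sub (sub (sub C x9930) x9916) x9946) x9874) x10090) x8956) x10900) x7012) x12844) x1180) x18676) x3366) x16490)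
  (sub (add (add (add (add (add (add (sub (sub (sub (sub (sub C x9928) x9924) x9948) x9876) x10092) x8958) x10902) x7014) x12846) x1182) x18678) x3370)
  (sub (add (add (add (add (add (add (sub (add (add (sub (add (add (add (add C x9940) x9944) x9948) x9960) x9900) x9720) x9828) x10098) x8964) x10908) x7020) x12852) x1188) x18684) x3376)
  (sub (add (add (add (add (add (add (add (sub (add (add (sub (sub (add (add C x9936) x9944) x9946) x9904) x9724) x9832) x10102) x8968) x10912) x7024) x12856) x1192) x18688) x3378) x16502)
  (add (add (add (add (add (add (add (sub (add (add (sub (sub (add (add C x9936) x9940) x9956) x9908) x9728) x9836) x10106) x8972) x10916) x7028) x12860) x1196) x18692) x16504)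
  (sub (add (add (add (add (add (add (add (sub (add (add (sub (sub (sub C x9948) x9940) x9928) x9730) x9838) x10108) x8974) x10918) x7030) x12862) x1198) x18694) x3384) x16508)
  (sub (add (add (add (add (add (add (sub (add (add (sub (add (add (sub C x9946) x9936) x9960) x9930) x9732) x9840) x10110) x8976) x10920) x7032) x12864) x1200) x18696) x3388)
  (add (add (add (add (add (add (add (sub (add (add (add (add (sub (sub C x9960) x9944) x9884) x9920) x9740) x9848) x10118) x8984) x10928) x7040) x12872) x1208) x18704) x16516)
  (sub (add (add (add (add (add (add (sub (add (add (add (add (add (add (sub C x9956) x9936) x9948) x9888) x9924) x9744) x9852) x10122) x8988) x10932) x7044) x12876) x1212) x18708) x3400)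
  (add (add (add (add (add (sub (sub (add (add (add (add (sub (sub C x9970) x9974) x10004) x10040) x10076) x10184) x9644) x10454) x7052) x12884) x1220) x18716) x16528)
  (sub (add (add (add (add (add (sub (sub (add (add (add (add (sub (sub C x9968) x9982) x10006) x10042) x10078) x10186) x9646) x10456) x7054) x12886) x1222) x18718) x3408) x16532)
  (add (add (add (add (add (sub (sub (add (add (sub (sub (sub C x9978) x9968) x9992) x10082) x10190) x9650) x10460) x7058) x12890) x1226) x18722) x16534)
  (sub (add (add (add (add (sub (sub (add (add (sub (sub (sub C x9974) x9984) x9996) x10086) x10194) x9654) x10464) x7062) x12894) x1230) x18726) x3418)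
  (sub (add (add (add (add (add (sub (sub (add (add (sub (sub (sub C x9984) x9970) x10018) x10090) x10198) x9658) x10468) x7066) x12898) x1234) x18730) x3420) x16544)
  (sub (add (add (add (add (sub (sub (add (add (sub (sub (sub C x9982) x9978) x10020) x10092) x10200) x9660) x10470) x7068) x12900) x1236) x18732) x3424)
  (add (add (add (add (add (sub (sub (sub (sub (add (add (sub C x9996) x10004) x10016) x9974) x10046) x9668) x10478) x7076) x12908) x1244) x18740) x16552)
  (sub (add (add (add (add (sub (sub (sub (sub (sub (sub C x9992) x10008) x9978) x10050) x9672) x10482) x7080) x12912) x1248) x18744) x3436)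
  (add (add (add (add (add (sub (sub (sub (add (add (add (add (sub C x10006) x9992) x10016) x9968) x10040) x10058) x9680) x10490) x7088) x12920) x1256) x18752) x16564)
  (sub (add (add (add (add (add (sub (sub (sub (add (add (sub (sub C x10004) x10012) x9970) x10042) x10060) x9682) x10492) x7090) x12922) x1258) x18754) x3444) x16568)
  (sub (add (add (add (add (sub (sub (sub (sub (sub (add (add C x10012) x10016) x9996) x10026) x10062) x9684) x10494) x7092) x12924) x1260) x18756) x3448)
  (sub (add (add (add (add (add (sub (sub (sub (sub (sub (add (add C x10008) x10016) x10006) x10030) x10066) x9688) x10498) x7096) x12928) x1264) x18760) x3450) x16574)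
  (add (add (add (add (add (sub (sub (sub (sub (add (add (add (add C x10008) x10012) x9992) x10004) x10034) x10070) x9692) x10502) x7100) x12932) x1268) x18764) x16576)
  (sub (add (add (add (add (add (sub (sub (sub (sub (add (add (sub C x10020) x10030) x10042) x9982) x10126) x9694) x10504) x7102) x12934) x1270) x18766) x3456) x16580)
  (sub (add (add (add (add (sub (sub (sub (sub (sub (sub C x10018) x10026) x9984) x10128) x9696) x10506) x7104) x12936) x1272) x18768) x3460)
  (sub (add (add (add (add (sub (sub (sub (sub (sub (add (add C x10030) x10034) x10020) x10008) x10134) x9702) x10512) x7110) x12942) x1278) x18774) x3466)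
  (sub (add (add (add (add (add (sub (sub (sub (sub (add (add (add (add C x10026) x10034) x10018) x10042) x10012) x10138) x9706) x10516) x7114) x12946) x1282) x18778) x3468) x16592)
  (add (add (add (add (add (sub (sub (sub (sub (sub (add (add C x10026) x10030) x10040) x10016) x10142) x9710) x10520) x7118) x12950) x1286) x18782) x16594)
  (add (add (add (add (add (sub (sub (sub (add (add (sub (sub C x10042) x10034) x9968) x10004) x10148) x9716) x10526) x7124) x12956) x1292) x18788) x16600)
  (sub (add (add (add (add (add (sub (sub (sub (add (add (add (add (sub C x10040) x10018) x10030) x9970) x10006) x10150) x9718) x10528) x7126) x12958) x1294) x18790) x3480) x16604)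
  (add (add (add (add (add (sub (sub (sub (add (add (add (add (sub C x10050) x10058) x10070) x10082) x10118) x9992) x9884) x10532) x7130) x12962) x1298) x18794) x16606)
  (sub (add (add (add (add (sub (sub (sub (add (add (sub (sub C x10046) x10062) x10086) x10122) x9996) x9888) x10536) x7134) x12966) x1302) x18798) x3490)
  (add (add (add (add (add (sub (sub (sub (sub (add (add (sub C x10060) x10046) x10070) x10076) x10004) x9896) x10544) x7142) x12974) x1310) x18806) x16618)
  (sub (add (add (add (add (add (sub (sub (sub (sub (sub (sub C x10058) x10066) x10078) x10006) x9898) x10546) x7144) x12976) x1312) x18808) x3498) x16622)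
  (sub (add (add (add (add (sub (sub (sub (sub (sub (add (add C x10066) x10070) x10050) x10098) x10008) x9900) x10548) x7146) x12978) x1314) x18810) x3502)
  (sub (add (add (add (add (add (sub (sub (sub (sub (sub (add (add C x10062) x10070) x10060) x10102) x10012) x9904) x10552) x7150) x12982) x1318) x18814) x3504) x16628)
  (add (add (add (add (add (sub (sub (sub (sub (add (add (add (add C x10062) x10066) x10046) x10058) x10106) x10016) x9908) x10556) x7154) x12986) x1322) x18818) x16630)
  (add (add (add (add (add (sub (sub (add (add (sub (sub (sub C x10078) x10082) x10058) x9968) x10184) x9914) x10562) x7160) x12992) x1328) x18824) x16636)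
  (sub (add (add (add (add (add (sub (sub (add (add (sub (sub (sub C x10076) x10090) x10060) x9970) x10186) x9916) x10564) x7162) x12994) x1330) x18826) x3516) x16640)
  (add (add (add (add (add (sub (sub (add (add (add (add (sub (sub C x10086) x10076) x10046) x10118) x9974) x10190) x9920) x10568) x7166) x12998) x1334) x18830) x16642)
  (sub (add (add (add (add (sub (sub (add (add (add (add (sub (sub C x10082) x10092) x10050) x10122) x9978) x10194) x9924) x10572) x7170) x13002) x1338) x18834) x3526)
  (sub (add (add (add (add (add (sub (sub (add (add (sub (sub (sub C x10092) x10078) x10108) x9982) x10198) x9928) x10576) x7174) x13006) x1342) x18838) x3528) x16652)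
  (sub (add (add (add (add (sub (sub (add (add (sub (sub (sub C x10090) x10086) x10110) x9984) x10200) x9930) x10578) x7176) x13008) x1344) x18840) x3532)
  (sub (add (add (add (add (sub (sub (sub (sub (add (add (add (add C x10102) x10106) x10110) x10122) x10062) x10152) x9936) x10584) x7182) x13014) x1350) x18846) x3538)
  (sub (add (add (add (add (add (sub (sub (sub (sub (sub (add (add C x10098) x10106) x10108) x10066) x10156) x9940) x10588) x7186) x13018) x1354) x18850) x3540) x16664)
  (add (add (add (add (add (sub (sub (sub (sub (sub (add (add C x10098) x10102) x10118) x10070) x10160) x9944) x10592) x7190) x13022) x1358) x18854) x16666)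
  (sub (add (add (add (add (add (sub (sub (sub (sub (sub (sub C x10110) x10102) x10090) x10162) x9946) x10594) x7192) x13024) x1360) x18856) x3546) x16670)
  (sub (add (add (add (add (sub (sub (sub (sub (add (add (sub C x10108) x10098) x10122) x10092) x10164) x9948) x10596) x7194) x13026) x1362) x18858) x3550)
  (add (add (add (add (add (sub (sub (sub (add (add (sub (sub C x10122) x10106) x10046) x10082) x10172) x9956) x10604) x7202) x13034) x1370) x18866) x16678)
  (sub (add (add (add (add (sub (sub (sub (add (add (add (add (sub C x10118) x10098) x10110) x10050) x10086) x10176) x9960) x10608) x7206) x13038) x1374) x18870) x3562)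
  (sub (add (add (add (add (add (sub (add (add (sub (add (add (add (add (sub C x10128) x10138) x10150) x10162) x10198) x10018) x9478) x9802) x10612) x7210) x13042) x1378) x18874) x3564) x16688)
  (sub (add (add (add (add (sub (add (add (sub (add (add (sub (sub C x10126) x10134) x10164) x10200) x10020) x9480) x9804) x10614) x7212) x13044) x1380) x18876) x3568)
  (sub (add (add (add (add (sub (add (add (sub (sub (sub (add (add C x10138) x10142) x10128) x10152) x10026) x9486) x9810) x10620) x7218) x13050) x1386) x18882) x3574)
  (sub (add (add (add (add (add (sub (add (add (sub (sub (add (add (add (add C x10134) x10142) x10126) x10150) x10156) x10030) x9490) x9814) x10624) x7222) x13054) x1390) x18886) x3576) x16700)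
  (add (add (add (add (add (sub (add (add (sub (sub (sub (add (add C x10134) x10138) x10148) x10160) x10034) x9494) x9818) x10628) x7226) x13058) x1394) x18890) x16702)
  (add (add (add (add (add (sub (add (add (sub (sub (sub (sub C x10150) x10142) x10184) x10040) x9500) x9824) x10634) x7232) x13064) x1400) x18896) x16708)
  (sub (add (add (add (add (add (sub (add (add (sub (sub (add (add (sub C x10148) x10126) x10138) x10186) x10042) x9502) x9826) x10636) x7234) x13066) x1402) x18898) x3588) x16712)
  (sub (add (add (add (add (sub (add (add (sub (sub (add (add (add (add C x10156) x10160) x10164) x10176) x10134) x10098) x9504) x9828) x10638) x7236) x13068) x1404) x18900) x3592)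
  (sub (add (add (add (add (add (sub (add (add (sub (sub (sub (add (add C x10152) x10160) x10162) x10138) x10102) x9508) x9832) x10642) x7240) x13072) x1408) x18904) x3594) x16718)
  (add (add (add (add (add (sub (add (add (sub (sub (sub (add (add C x10152) x10156) x10172) x10142) x10106) x9512) x9836) x10646) x7244) x13076) x1412) x18908) x16720)
  (sub (add (add (add (add (add (sub (add (add (sub (add (add (sub (sub C x10164) x10156) x10126) x10198) x10108) x9514) x9838) x10648) x7246) x13078) x1414) x18910) x3600) x16724)
  (sub (add (add (add (add (sub (add (add (sub (add (add (add (add (sub C x10162) x10152) x10176) x10128) x10200) x10110) x9516) x9840) x10650) x7248) x13080) x1416) x18912) x3604)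
  (add (add (add (add (add (sub (add (add (sub (sub (sub (sub C x10176) x10160) x10190) x10118) x9524) x9848) x10658) x7256) x13088) x1424) x18920) x16732)
  (sub (add (add (add (add (sub (add (add (sub (sub (add (add (sub C x10172) x10152) x10164) x10194) x10122) x9528) x9852) x10662) x7260) x13092) x1428) x18924) x3616)
  (add (add (add (add (add (sub (add (add (add (add (sub (sub (sub C x10186) x10190) x10148) x9968) x10076) x9536) x9860) x10670) x7268) x13100) x1436) x18932) x16744)
  (sub (add (add (add (add (add (sub (add (add (add (add (sub (sub (sub C x10184) x10198) x10150) x9970) x10078) x9538) x9862) x10672) x7270) x13102) x1438) x18934) x3624) x16748)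
  (add (add (add (add (add (sub (add (add (add (add (sub (sub (sub C x10194) x10184) x10172) x9974) x10082) x9542) x9866) x10676) x7274) x13106) x1442) x18938) x16750)
  (sub (add (add (add (add (sub (add (add (add (add (sub (sub (sub C x10190) x10200) x10176) x9978) x10086) x9546) x9870) x10680) x7278) x13110) x1446) x18942) x3634)
  (sub (add (add (add (add (add (sub (add (add (add (add (add (add (sub (sub C x10200) x10186) x10126) x10162) x9982) x10090) x9550) x9874) x10684) x7282) x13114) x1450) x18946) x3636) x16760)
  (sub (add (add (add (add (sub (add (add (add (add (add (add (sub (sub C x10198) x10194) x10128) x10164) x9984) x10092) x9552) x9876) x10686) x7284) x13116) x1452) x18948) x3640)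
  (add (add (add (sub (sub (add (add (add (add (add (add (add (add (sub C x10212) x10220) x10232) x10244) x10280) x10316) x10424) x10532) x10856) x9236) x11666) x1460) x18956) x16768)
  (sub (add (add (sub (sub (add (add (add (add (add (add (sub (sub C x10208) x10224) x10248) x10284) x10320) x10428) x10536) x10860) x9240) x11670) x1464) x18960) x3652)
  (add (add (add (sub (sub (add (add (add (add (sub (add (add (sub C x10222) x10208) x10232) x10238) x10328) x10436) x10544) x10868) x9248) x11678) x1472) x18968) x16780)
  (sub (add (add (add (sub (sub (add (add (add (add (sub (sub (sub C x10220) x10228) x10240) x10330) x10438) x10546) x10870) x9250) x11680) x1474) x18970) x3660) x16784)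
  (sub (add (add (sub (sub (add (add (add (add (sub (sub (add (add C x10228) x10232) x10212) x10260) x10332) x10440) x10548) x10872) x9252) x11682) x1476) x18972) x3664)
  (sub (add (add (add (sub (sub (add (add (add (add (sub (sub (add (add C x10224) x10232) x10222) x10264) x10336) x10444) x10552) x10876) x9256) x11686) x1480) x18976) x3666) x16790)
  (add (add (add (sub (sub (add (add (add (add (sub (add (add (add (add C x10224) x10228) x10208) x10220) x10268) x10340) x10448) x10556) x10880) x9260) x11690) x1484) x18980) x16792)
  (add (add (add (sub (sub (add (add (sub (sub (sub (sub C x10240) x10244) x10220) x10292) x10562) x10886) x9266) x11696) x1490) x18986) x16798)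
  (sub (add (add (add (sub (sub (add (add (sub (sub (sub (sub C x10238) x10252) x10222) x10294) x10564) x10888) x9268) x11698) x1492) x18988) x3678) x16802)
  (add (add (add (sub (sub (add (add (sub (add (add (sub (sub C x10248) x10238) x10208) x10280) x10298) x10568) x10892) x9272) x11702) x1496) x18992) x16804)
  (sub (add (add (sub (sub (add (add (sub (add (add (sub (sub C x10244) x10254) x10212) x10284) x10302) x10572) x10896) x9276) x11706) x1500) x18996) x3688)
  (sub (add (add (add (sub (sub (add (add (sub (sub (sub (sub C x10254) x10240) x10270) x10306) x10576) x10900) x9280) x11710) x1504) x19000) x3690) x16814)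
  (sub (add (add (sub (sub (add (add (sub (sub (sub (sub C x10252) x10248) x10272) x10308) x10578) x10902) x9282) x11712) x1506) x19002) x3694)
  (sub (add (add (sub (sub (add (add (sub (sub (add (add (add (add C x10264) x10268) x10272) x10284) x10224) x10368) x10584) x10908) x9288) x11718) x1512) x19008) x3700)
  (sub (add (add (add (sub (sub (add (add (sub (sub (sub (add (add C x10260) x10268) x10270) x10228) x10372) x10588) x10912) x9292) x11722) x1516) x19012) x3702) x16826)
  (add (add (add (sub (sub (add (add (sub (sub (sub (add (add C x10260) x10264) x10280) x10232) x10376) x10592) x10916) x9296) x11726) x1520) x19016) x16828)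
  (sub (add (add (add (sub (sub (add (add (sub (sub (sub (sub C x10272) x10264) x10252) x10378) x10594) x10918) x9298) x11728) x1522) x19018) x3708) x16832)
  (sub (add (add (sub (sub (add (add (sub (sub (add (add (sub C x10270) x10260) x10284) x10254) x10380) x10596) x10920) x9300) x11730) x1524) x19020) x3712)
  (add (add (add (sub (sub (add (add (sub (add (add (sub (sub C x10284) x10268) x10208) x10244) x10388) x10604) x10928) x9308) x11738) x1532) x19028) x16840)
  (sub (add (add (sub (sub (add (add (sub (add (add (add (add (sub C x10280) x10260) x10272) x10212) x10248) x10392) x10608) x10932) x9312) x11742) x1536) x19032) x3724)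
  (add (add (add (sub (sub (sub (sub (add (add (sub (sub C x10294) x10298) x10328) x10364) x10238) x10454) x9320) x11750) x1544) x19040) x16852)
  (sub (add (add (add (sub (sub (sub (sub (add (add (sub (sub C x10292) x10306) x10330) x10366) x10240) x10456) x9322) x11752) x1546) x19042) x3732) x16856)
  (add (add (add (sub (sub (sub (sub (sub (sub (sub C x10302) x10292) x10316) x10244) x10460) x9326) x11756) x1550) x19046) x16858)
  (sub (add (add (sub (sub (sub (sub (sub (sub (sub C x10298) x10308) x10320) x10248) x10464) x9330) x11760) x1554) x19050) x3742)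
  (sub (add (add (add (sub (sub (sub (sub (sub (sub (sub C x10308) x10294) x10342) x10252) x10468) x9334) x11764) x1558) x19054) x3744) x16868)
  (sub (add (add (sub (sub (sub (sub (sub (sub (sub C x10306) x10302) x10344) x10254) x10470) x9336) x11766) x1560) x19056) x3748)
  (add (add (add (sub (sub (sub (add (add (sub (add (add (sub C x10320) x10328) x10340) x10298) x10208) x10424) x10478) x9344) x11774) x1568) x19064) x16876)
  (sub (add (add (sub (sub (sub (add (add (sub (sub (sub C x10316) x10332) x10302) x10212) x10428) x10482) x9348) x11778) x1572) x19068) x3760)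
  (add (add (add (sub (sub (sub (add (add (add (add (add (add (sub C x10330) x10316) x10340) x10292) x10364) x10220) x10436) x10490) x9356) x11786) x1580) x19076) x16888)
  (sub (add (add (add (sub (sub (sub (add (add (add (add (sub (sub C x10328) x10336) x10294) x10366) x10222) x10438) x10492) x9358) x11788) x1582) x19078) x3768) x16892)
  (sub (add (add (sub (sub (sub (add (add (sub (sub (add (add C x10336) x10340) x10320) x10350) x10224) x10440) x10494) x9360) x11790) x1584) x19080) x3772)
  (sub (add (add (add (sub (sub (sub (add (add (sub (sub (add (add C x10332) x10340) x10330) x10354) x10228) x10444) x10498) x9364) x11794) x1588) x19084) x3774) x16898)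
  (add (add (add (sub (sub (sub (add (add (sub (add (add (add (add C x10332) x10336) x10316) x10328) x10358) x10232) x10448) x10502) x9368) x11798) x1592) x19088) x16900)
  (sub (add (add (add (sub (sub (sub (sub (sub (add (add (sub C x10344) x10354) x10366) x10306) x10396) x10504) x9370) x11800) x1594) x19090) x3780) x16904)
  (sub (add (add (sub (sub (sub (sub (sub (sub (sub C x10342) x10350) x10308) x10398) x10506) x9372) x11802) x1596) x19092) x3784)
  (sub (add (add (sub (sub (sub (sub (sub (sub (add (add C x10354) x10358) x10344) x10332) x10404) x10512) x9378) x11808) x1602) x19098) x3790)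
  (sub (add (add (add (sub (sub (sub (sub (sub (add (add (add (add C x10350) x10358) x10342) x10366) x10336) x10408) x10516) x9382) x11812) x1606) x19102) x3792) x16916)
  (add (add (add (sub (sub (sub (sub (sub (sub (add (add C x10350) x10354) x10364) x10340) x10412) x10520) x9386) x11816) x1610) x19106) x16918)
  (add (add (add (sub (sub (sub (sub (add (add (sub (sub C x10366) x10358) x10292) x10328) x10418) x10526) x9392) x11822) x1616) x19112) x16924)
  (sub (add (add (add (sub (sub (sub (sub (add (add (add (add (sub C x10364) x10342) x10354) x10294) x10330) x10420) x10528) x9394) x11824) x1618) x19114) x3804) x16928)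
  (sub (add (add (sub (sub (sub (sub (add (add (add (add (add (add C x10372) x10376) x10380) x10392) x10404) x10440) x10260) x10692) x9396) x11826) x1620) x19116) x3808)
  (sub (add (add (add (sub (sub (sub (sub (add (add (sub (add (add C x10368) x10376) x10378) x10408) x10444) x10264) x10696) x9400) x11830) x1624) x19120) x3810) x16934)
  (add (add (add (sub (sub (sub (sub (add (add (sub (add (add C x10368) x10372) x10388) x10412) x10448) x10268) x10700) x9404) x11834) x1628) x19124) x16936)
  (sub (add (add (add (sub (sub (sub (sub (sub (sub (sub C x10380) x10372) x10396) x10270) x10702) x9406) x11836) x1630) x19126) x3816) x16940)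
  (sub (add (add (sub (sub (sub (sub (sub (add (add (sub C x10378) x10368) x10392) x10398) x10272) x10704) x9408) x11838) x1632) x19128) x3820)
  (add (add (add (sub (sub (sub (sub (sub (sub (sub C x10392) x10376) x10424) x10280) x10712) x9416) x11846) x1640) x19136) x16948)
  (sub (add (add (sub (sub (sub (sub (sub (add (add (sub C x10388) x10368) x10380) x10428) x10284) x10716) x9420) x11850) x1644) x19140) x3832)
  (sub (add (add (add (sub (sub (sub (sub (sub (add (add (sub C x10398) x10408) x10420) x10378) x10342) x10720) x9424) x11854) x1648) x19144) x3834) x16958)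
  (sub (add (add (sub (sub (sub (sub (sub (sub (sub C x10396) x10404) x10380) x10344) x10722) x9426) x11856) x1650) x19146) x3838)
  (sub (add (add (sub (sub (sub (sub (add (add (sub (add (add C x10408) x10412) x10398) x10368) x10440) x10350) x10728) x9432) x11862) x1656) x19152) x3844)
  (sub (add (add (add (sub (sub (sub (sub (add (add (add (add (add (add C x10404) x10412) x10396) x10420) x10372) x10444) x10354) x10732) x9436) x11866) x1660) x19156) x3846) x16970)
  (add (add (add (sub (sub (sub (sub (add (add (sub (add (add C x10404) x10408) x10418) x10376) x10448) x10358) x10736) x9440) x11870) x1664) x19160) x16972)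
  (add (add (add (sub (sub (sub (sub (sub (sub (sub C x10420) x10412) x10436) x10364) x10742) x9446) x11876) x1670) x19166) x16978)
  (sub (add (add (add (sub (sub (sub (sub (sub (add (add (sub C x10418) x10396) x10408) x10438) x10366) x10744) x9448) x11878) x1672) x19168) x3858) x16982)
  (add (add (add (sub (sub (sub (add (add (sub (add (add (sub C x10428) x10436) x10448) x10388) x10208) x10316) x10748) x9452) x11882) x1676) x19172) x16984)
  (sub (add (add (sub (sub (sub (add (add (sub (sub (sub C x10424) x10440) x10392) x10212) x10320) x10752) x9456) x11886) x1680) x19176) x3868)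
  (add (add (add (sub (sub (sub (add (add (sub (add (add (sub C x10438) x10424) x10448) x10418) x10220) x10328) x10760) x9464) x11894) x1688) x19184) x16996)
  (sub (add (add (add (sub (sub (sub (add (add (sub (sub (sub C x10436) x10444) x10420) x10222) x10330) x10762) x9466) x11896) x1690) x19186) x3876) x17000)
  (sub (add (add (sub (sub (sub (add (add (add (add (sub (add (add C x10444) x10448) x10428) x10368) x10404) x10224) x10332) x10764) x9468) x11898) x1692) x19188) x3880)
  (sub (add (add (add (sub (sub (sub (add (add (add (add (sub (add (add C x10440) x10448) x10438) x10372) x10408) x10228) x10336) x10768) x9472) x11902) x1696) x19192) x3882) x17006)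
  (add (add (add (sub (sub (sub (add (add (add (add (add (add (add (add C x10440) x10444) x10424) x10436) x10376) x10412) x10232) x10340) x10772) x9476) x11906) x1700) x19196) x17008)
  (add (add (add (sub (sub (sub (add (add (add (add (sub (sub C x10456) x10460) x10490) x10526) x10562) x10670) x10292) x9968) x11912) x1706) x19202) x17014)
  (sub (add (add (add (sub (sub (sub (add (add (add (add (sub (sub C x10454) x10468) x10492) x10528) x10564) x10672) x10294) x9970) x11914) x1708) x19204) x3894) x17018)
  (add (add (add (sub (sub (sub (add (add (sub (sub (sub C x10464) x10454) x10478) x10568) x10676) x10298) x9974) x11918) x1712) x19208) x17020)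
  (sub (add (add (sub (sub (sub (add (add (sub (sub (sub C x10460) x10470) x10482) x10572) x10680) x10302) x9978) x11922) x1716) x19212) x3904)
  (sub (add (add (add (sub (sub (sub (add (add (sub (sub (sub C x10470) x10456) x10504) x10576) x10684) x10306) x9982) x11926) x1720) x19216) x3906) x17030)
  (sub (add (add (sub (sub (sub (add (add (sub (sub (sub C x10468) x10464) x10506) x10578) x10686) x10308) x9984) x11928) x1722) x19218) x3910)
  (add (add (add (sub (sub (sub (sub (sub (add (add (sub C x10482) x10490) x10502) x10460) x10532) x10316) x9992) x11936) x1730) x19226) x17038)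
  (sub (add (add (sub (sub (sub (sub (sub (sub (sub C x10478) x10494) x10464) x10536) x10320) x9996) x11940) x1734) x19230) x3922)
  (add (add (add (sub (sub (sub (sub (add (add (add (add (sub C x10492) x10478) x10502) x10454) x10526) x10544) x10328) x10004) x11948) x1742) x19238) x17050)
  (sub (add (add (add (sub (sub (sub (sub (add (add (sub (sub C x10490) x10498) x10456) x10528) x10546) x10330) x10006) x11950) x1744) x19240) x3930) x17054)
  (sub (add (add (sub (sub (sub (sub (sub (sub (add (add C x10498) x10502) x10482) x10512) x10548) x10332) x10008) x11952) x1746) x19242) x3934)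
  (sub (add (add (add (sub (sub (sub (sub (sub (sub (add (add C x10494) x10502) x10492) x10516) x10552) x10336) x10012) x11956) x1750) x19246) x3936) x17060)
  (add (add (add (sub (sub (sub (sub (sub (add (add (add (add C x10494) x10498) x10478) x10490) x10520) x10556) x10340) x10016) x11960) x1754) x19250) x17062)
  (sub (add (add (add (sub (sub (sub (sub (sub (add (add (sub C x10506) x10516) x10528) x10468) x10612) x10342) x10018) x11962) x1756) x19252) x3942) x17066)
  (sub (add (add (sub (sub (sub (sub (sub (sub (sub C x10504) x10512) x10470) x10614) x10344) x10020) x11964) x1758) x19254) x3946)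
  (sub (add (add (sub (sub (sub (sub (sub (sub (add (add C x10516) x10520) x10506) x10494) x10620) x10350) x10026) x11970) x1764) x19260) x3952)
  (sub (add (add (add (sub (sub (sub (sub (sub (add (add (add (add C x10512) x10520) x10504) x10528) x10498) x10624) x10354) x10030) x11974) x1768) x19264) x3954) x17078)
  (add (add (add (sub (sub (sub (sub (sub (sub (add (add C x10512) x10516) x10526) x10502) x10628) x10358) x10034) x11978) x1772) x19268) x17080)
  (add (add (add (sub (sub (sub (sub (add (add (sub (sub C x10528) x10520) x10454) x10490) x10634) x10364) x10040) x11984) x1778) x19274) x17086)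
  (sub (add (add (add (sub (sub (sub (sub (add (add (add (add (sub C x10526) x10504) x10516) x10456) x10492) x10636) x10366) x10042) x11986) x1780) x19276) x3966) x17090)
  (add (add (add (sub (sub (add (add (sub (add (add (add (add (sub C x10536) x10544) x10556) x10568) x10604) x10478) x10208) x10856) x10046) x11990) x1784) x19280) x17092)
  (sub (add (add (sub (sub (add (add (sub (add (add (sub (sub C x10532) x10548) x10572) x10608) x10482) x10212) x10860) x10050) x11994) x1788) x19284) x3976)
  (add (add (add (sub (sub (add (add (sub (sub (add (add (sub C x10546) x10532) x10556) x10562) x10490) x10220) x10868) x10058) x12002) x1796) x19292) x17104)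
  (sub (add (add (add (sub (sub (add (add (sub (sub (sub (sub C x10544) x10552) x10564) x10492) x10222) x10870) x10060) x12004) x1798) x19294) x3984) x17108)
  (sub (add (add (sub (sub (add (add (sub (sub (sub (add (add C x10552) x10556) x10536) x10584) x10494) x10224) x10872) x10062) x12006) x1800) x19296) x3988)
  (sub (add (add (add (sub (sub (add (add (sub (sub (sub (add (add C x10548) x10556) x10546) x10588) x10498) x10228) x10876) x10066) x12010) x1804) x19300) x3990) x17114)
  (add (add (add (sub (sub (add (add (sub (sub (add (add (add (add C x10548) x10552) x10532) x10544) x10592) x10502) x10232) x10880) x10070) x12014) x1808) x19304) x17116)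
  (add (add (add (sub (sub (add (add (add (add (sub (sub (sub C x10564) x10568) x10544) x10454) x10670) x10238) x10886) x10076) x12020) x1814) x19310) x17122)
  (sub (add (add (add (sub (sub (add (add (add (add (sub (sub (sub C x10562) x10576) x10546) x10456) x10672) x10240) x10888) x10078) x12022) x1816) x19312) x4002) x17126)
  (add (add (add (sub (sub (add (add (add (add (add (add (sub (sub C x10572) x10562) x10532) x10604) x10460) x10676) x10244) x10892) x10082) x12026) x1820) x19316) x17128)
  (sub (add (add (sub (sub (add (add (add (add (add (add (sub (sub C x10568) x10578) x10536) x10608) x10464) x10680) x10248) x10896) x10086) x12030) x1824) x19320) x4012)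
  (sub (add (add (add (sub (sub (add (add (add (add (sub (sub (sub C x10578) x10564) x10594) x10468) x10684) x10252) x10900) x10090) x12034) x1828) x19324) x4014) x17138)
  (sub (add (add (sub (sub (add (add (add (add (sub (sub (sub C x10576) x10572) x10596) x10470) x10686) x10254) x10902) x10092) x12036) x1830) x19326) x4018)
  (sub (add (add (sub (sub (add (add (sub (sub (add (add (add (add C x10588) x10592) x10596) x10608) x10548) x10638) x10260) x10908) x10098) x12042) x1836) x19332) x4024)
  (sub (add (add (add (sub (sub (add (add (sub (sub (sub (add (add C x10584) x10592) x10594) x10552) x10642) x10264) x10912) x10102) x12046) x1840) x19336) x4026) x17150)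
  (add (add (add (sub (sub (add (add (sub (sub (sub (add (add C x10584) x10588) x10604) x10556) x10646) x10268) x10916) x10106) x12050) x1844) x19340) x17152)
  (sub (add (add (add (sub (sub (add (add (sub (sub (sub (sub C x10596) x10588) x10576) x10648) x10270) x10918) x10108) x12052) x1846) x19342) x4032) x17156)
  (sub (add (add (sub (sub (add (add (sub (sub (add (add (sub C x10594) x10584) x10608) x10578) x10650) x10272) x10920) x10110) x12054) x1848) x19344) x4036)
  (add (add (add (sub (sub (add (add (sub (add (add (sub (sub C x10608) x10592) x10532) x10568) x10658) x10280) x10928) x10118) x12062) x1856) x19352) x17164)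
  (sub (add (add (sub (sub (add (add (sub (add (add (add (add (sub C x10604) x10584) x10596) x10536) x10572) x10662) x10284) x10932) x10122) x12066) x1860) x19356) x4048)
  (sub (add (add (add (sub (sub (sub (sub (add (add (add (add (sub C x10614) x10624) x10636) x10648) x10684) x10504) x10774) x10126) x12070) x1864) x19360) x4050) x17174)
  (sub (add (add (sub (sub (sub (sub (add (add (sub (sub C x10612) x10620) x10650) x10686) x10506) x10776) x10128) x12072) x1866) x19362) x4054)
  (sub (add (add (sub (sub (sub (sub (sub (sub (add (add C x10624) x10628) x10614) x10638) x10512) x10782) x10134) x12078) x1872) x19368) x4060)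
  (sub (add (add (add (sub (sub (sub (sub (sub (add (add (add (add C x10620) x10628) x10612) x10636) x10642) x10516) x10786) x10138) x12082) x1876) x19372) x4062) x17186)
  (add (add (add (sub (sub (sub (sub (sub (sub (add (add C x10620) x10624) x10634) x10646) x10520) x10790) x10142) x12086) x1880) x19376) x17188)
  (add (add (add (sub (sub (sub (sub (sub (sub (sub C x10636) x10628) x10670) x10526) x10796) x10148) x12092) x1886) x19382) x17194)
  (sub (add (add (add (sub (sub (sub (sub (sub (add (add (sub C x10634) x10612) x10624) x10672) x10528) x10798) x10150) x12094) x1888) x19384) x4074) x17198)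
  (sub (add (add (sub (sub (sub (sub (sub (add (add (add (add C x10642) x10646) x10650) x10662) x10620) x10584) x10800) x10152) x12096) x1890) x19386) x4078)
  (sub (add (add (add (sub (sub (sub (sub (sub (sub (add (add C x10638) x10646) x10648) x10624) x10588) x10804) x10156) x12100) x1894) x19390) x4080) x17204)
  (add (add (add (sub (sub (sub (sub (sub (sub (add (add C x10638) x10642) x10658) x10628) x10592) x10808) x10160) x12104) x1898) x19394) x17206)
  (sub (add (add (add (sub (sub (sub (sub (add (add (sub (sub C x10650) x10642) x10612) x10684) x10594) x10810) x10162) x12106) x1900) x19396) x4086) x17210)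
  (sub (add (add (sub (sub (sub (sub (add (add (add (add (sub C x10648) x10638) x10662) x10614) x10686) x10596) x10812) x10164) x12108) x1902) x19398) x4090)
  (add (add (add (sub (sub (sub (sub (sub (sub (sub C x10662) x10646) x10676) x10604) x10820) x10172) x12116) x1910) x19406) x17218)
  (sub (add (add (sub (sub (sub (sub (sub (add (add (sub C x10658) x10638) x10650) x10680) x10608) x10824) x10176) x12120) x1914) x19410) x4102)
  (add (add (add (sub (sub (sub (add (add (sub (sub (sub C x10672) x10676) x10634) x10454) x10562) x10832) x10184) x12128) x1922) x19418) x17230)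
  (sub (add (add (add (sub (sub (sub (add (add (sub (sub (sub C x10670) x10684) x10636) x10456) x10564) x10834) x10186) x12130) x1924) x19420) x4110) x17234)
  (add (add (add (sub (sub (sub (add (add (sub (sub (sub C x10680) x10670) x10658) x10460) x10568) x10838) x10190) x12134) x1928) x19424) x17236)
  (sub (add (add (sub (sub (sub (add (add (sub (sub (sub C x10676) x10686) x10662) x10464) x10572) x10842) x10194) x12138) x1932) x19428) x4120)
  (sub (add (add (add (sub (sub (sub (add (add (add (add (sub (sub C x10686) x10672) x10612) x10648) x10468) x10576) x10846) x10198) x12142) x1936) x19432) x4122) x17246)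
  (sub (add (add (sub (sub (sub (add (add (add (add (sub (sub C x10684) x10680) x10614) x10650) x10470) x10578) x10848) x10200) x12144) x1938) x19434) x4126)
  (sub (add (add (sub (add (add (sub (add (add (add (add (add (add (add (add C x10696) x10700) x10704) x10716) x10728) x10764) x10800) x10908) x10368) x8748) x9720) x12150) x1944) x19440) x4132)
  (sub (add (add (add (sub (add (add (sub (add (add (add (add (sub (add (add C x10692) x10700) x10702) x10732) x10768) x10804) x10912) x10372) x8752) x9724) x12154) x1948) x19444) x4134) x17258)
  (add (add (add (sub (add (add (sub (add (add (add (add (sub (add (add C x10692) x10696) x10712) x10736) x10772) x10808) x10916) x10376) x8756) x9728) x12158) x1952) x19448) x17260)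
  (sub (add (add (add (sub (add (add (sub (add (add (sub (sub (sub C x10704) x10696) x10720) x10810) x10918) x10378) x8758) x9730) x12160) x1954) x19450) x4140) x17264)
  (sub (add (add (sub (add (add (sub (add (add (sub (add (add (sub C x10702) x10692) x10716) x10722) x10812) x10920) x10380) x8760) x9732) x12162) x1956) x19452) x4144)
  (add (add (add (sub (add (add (sub (add (add (sub (sub (sub C x10716) x10700) x10748) x10820) x10928) x10388) x8768) x9740) x12170) x1964) x19460) x17272)
  (sub (add (add (sub (add (add (sub (add (add (sub (add (add (sub C x10712) x10692) x10704) x10752) x10824) x10932) x10392) x8772) x9744) x12174) x1968) x19464) x4156)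
  (sub (add (add (add (sub (add (add (sub (sub (sub (add (add (sub C x10722) x10732) x10744) x10702) x10774) x10396) x8776) x9748) x12178) x1972) x19468) x4158) x17282)
  (sub (add (add (sub (add (add (sub (sub (sub (sub (sub C x10720) x10728) x10704) x10776) x10398) x8778) x9750) x12180) x1974) x19470) x4162)
  (sub (add (add (sub (add (add (sub (sub (add (add (sub (add (add C x10732) x10736) x10722) x10692) x10764) x10782) x10404) x8784) x9756) x12186) x1980) x19476) x4168)
  (sub (add (add (add (sub (add (add (sub (sub (add (add (add (add (add (add C x10728) x10736) x10720) x10744) x10696) x10768) x10786) x10408) x8788) x9760) x12190) x1984) x19480) x4170) x17294)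
  (add (add (add (sub (add (add (sub (sub (add (add (sub (add (add C x10728) x10732) x10742) x10700) x10772) x10790) x10412) x8792) x9764) x12194) x1988) x19484) x17296)
  (add (add (add (sub (add (add (sub (sub (sub (sub (sub C x10744) x10736) x10760) x10796) x10418) x8798) x9770) x12200) x1994) x19490) x17302)
  (sub (add (add (add (sub (add (add (sub (sub (sub (add (add (sub C x10742) x10720) x10732) x10762) x10798) x10420) x8800) x9772) x12202) x1996) x19492) x4182) x17306)
  (add (add (add (sub (add (add (sub (sub (sub (add (add (sub C x10752) x10760) x10772) x10712) x10856) x10424) x8804) x9776) x12206) x2000) x19496) x17308)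
  (sub (add (add (sub (add (add (sub (sub (sub (sub (sub C x10748) x10764) x10716) x10860) x10428) x8808) x9780) x12210) x2004) x19500) x4192)
  (add (add (add (sub (add (add (sub (sub (sub (add (add (sub C x10762) x10748) x10772) x10742) x10868) x10436) x8816) x9788) x12218) x2012) x19508) x17320)
  (sub (add (add (add (sub (add (add (sub (sub (sub (sub (sub C x10760) x10768) x10744) x10870) x10438) x8818) x9790) x12220) x2014) x19510) x4200) x17324)
  (sub (add (add (sub (add (add (sub (sub (add (add (sub (add (add C x10768) x10772) x10752) x10692) x10728) x10872) x10440) x8820) x9792) x12222) x2016) x19512) x4204)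
  (sub (add (add (add (sub (add (add (sub (sub (add (add (sub (add (add C x10764) x10772) x10762) x10696) x10732) x10876) x10444) x8824) x9796) x12226) x2020) x19516) x4206) x17330)
  (add (add (add (sub (add (add (sub (sub (add (add (add (add (add (add C x10764) x10768) x10748) x10760) x10700) x10736) x10880) x10448) x8828) x9800) x12230) x2024) x19520) x17332)
  (sub (add (add (add (sub (add (add (sub (sub (add (add (add (add (sub C x10776) x10786) x10798) x10810) x10846) x10720) x10612) x8830) x9802) x12232) x2026) x19522) x4212) x17336)
  (sub (add (add (sub (add (add (sub (sub (add (add (sub (sub C x10774) x10782) x10812) x10848) x10722) x10614) x8832) x9804) x12234) x2028) x19524) x4216)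
  (sub (add (add (sub (add (add (sub (sub (sub (sub (add (add C x10786) x10790) x10776) x10800) x10728) x10620) x8838) x9810) x12240) x2034) x19530) x4222)
  (sub (add (add (add (sub (add (add (sub (sub (sub (add (add (add (add C x10782) x10790) x10774) x10798) x10804) x10732) x10624) x8842) x9814) x12244) x2038) x19534) x4224) x17348)
  (add (add (add (sub (add (add (sub (sub (sub (sub (add (add C x10782) x10786) x10796) x10808) x10736) x10628) x8846) x9818) x12248) x2042) x19538) x17350)
  (add (add (add (sub (add (add (sub (sub (sub (sub (sub C x10798) x10790) x10832) x10742) x10634) x8852) x9824) x12254) x2048) x19544) x17356)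
  (sub (add (add (add (sub (add (add (sub (sub (sub (add (add (sub C x10796) x10774) x10786) x10834) x10744) x10636) x8854) x9826) x12256) x2050) x19546) x4236) x17360)
  (sub (add (add (sub (add (add (sub (add (add (sub (add (add (add (add C x10804) x10808) x10812) x10824) x10782) x10692) x10908) x10638) x8856) x9828) x12258) x2052) x19548) x4240)
  (sub (add (add (add (sub (add (add (sub (add (add (sub (sub (add (add C x10800) x10808) x10810) x10786) x10696) x10912) x10642) x8860) x9832) x12262) x2056) x19552) x4242) x17366)
  (add (add (add (sub (add (add (sub (add (add (sub (sub (add (add C x10800) x10804) x10820) x10790) x10700) x10916) x10646) x8864) x9836) x12266) x2060) x19556) x17368)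
  (sub (add (add (add (sub (add (add (sub (add (add (add (add (sub (sub C x10812) x10804) x10774) x10846) x10702) x10918) x10648) x8866) x9838) x12268) x2062) x19558) x4248) x17372)
  (sub (add (add (sub (add (add (sub (add (add (add (add (add (add (sub C x10810) x10800) x10824) x10776) x10848) x10704) x10920) x10650) x8868) x9840) x12270) x2064) x19560) x4252)
  (add (add (add (sub (add (add (sub (add (add (sub (sub (sub C x10824) x10808) x10838) x10712) x10928) x10658) x8876) x9848) x12278) x2072) x19568) x17380)
  (sub (add (add (sub (add (add (sub (add (add (sub (add (add (sub C x10820) x10800) x10812) x10842) x10716) x10932) x10662) x8880) x9852) x12282) x2076) x19572) x4264)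
  (add (add (add (sub (add (add (sub (sub (sub (sub (sub C x10834) x10838) x10796) x10886) x10670) x8888) x9860) x12290) x2084) x19580) x17392)
  (sub (add (add (add (sub (add (add (sub (sub (sub (sub (sub C x10832) x10846) x10798) x10888) x10672) x8890) x9862) x12292) x2086) x19582) x4272) x17396)
  (add (add (add (sub (add (add (sub (sub (sub (sub (sub C x10842) x10832) x10820) x10892) x10676) x8894) x9866) x12296) x2090) x19586) x17398)
  (sub (add (add (sub (add (add (sub (sub (sub (sub (sub C x10838) x10848) x10824) x10896) x10680) x8898) x9870) x12300) x2094) x19590) x4282)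
  (sub (add (add (add (sub (add (add (sub (sub (add (add (sub (sub C x10848) x10834) x10774) x10810) x10900) x10684) x8902) x9874) x12304) x2098) x19594) x4284) x17408)
  (sub (add (add (sub (add (add (sub (sub (add (add (sub (sub C x10846) x10842) x10776) x10812) x10902) x10686) x8904) x9876) x12306) x2100) x19596) x4288)
  (add (add (add (sub (add (add (add (add (sub (add (add (add (add (sub C x10860) x10868) x10880) x10892) x10928) x10748) x10208) x10532) x8912) x9884) x12314) x2108) x19604) x17416)
  (sub (add (add (sub (add (add (add (add (sub (add (add (sub (sub C x10856) x10872) x10896) x10932) x10752) x10212) x10536) x8916) x9888) x12318) x2112) x19608) x4300)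
  (add (add (add (sub (add (add (add (add (sub (sub (add (add (sub C x10870) x10856) x10880) x10886) x10760) x10220) x10544) x8924) x9896) x12326) x2120) x19616) x17428)
  (sub (add (add (add (sub (add (add (add (add (sub (sub (sub (sub C x10868) x10876) x10888) x10762) x10222) x10546) x8926) x9898) x12328) x2122) x19618) x4308) x17432)
  (sub (add (add (sub (add (add (add (add (sub (sub (sub (add (add C x10876) x10880) x10860) x10908) x10764) x10224) x10548) x8928) x9900) x12330) x2124) x19620) x4312)
  (sub (add (add (add (sub (add (add (add (add (sub (sub (sub (add (add C x10872) x10880) x10870) x10912) x10768) x10228) x10552) x8932) x9904) x12334) x2128) x19624) x4314) x17438)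
  (add (add (add (sub (add (add (add (add (sub (sub (add (add (add (add C x10872) x10876) x10856) x10868) x10916) x10772) x10232) x10556) x8936) x9908) x12338) x2132) x19628) x17440)
  (add (add (add (sub (add (add (add (add (sub (sub (sub (sub C x10888) x10892) x10868) x10832) x10238) x10562) x8942) x9914) x12344) x2138) x19634) x17446)
  (sub (add (add (add (sub (add (add (add (add (sub (sub (sub (sub C x10886) x10900) x10870) x10834) x10240) x10564) x8944) x9916) x12346) x2140) x19636) x4326) x17450)
  (add (add (add (sub (add (add (add (add (sub (add (add (sub (sub C x10896) x10886) x10856) x10928) x10838) x10244) x10568) x8948) x9920) x12350) x2144) x19640) x17452)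
  (sub (add (add (sub (add (add (add (add (sub (add (add (sub (sub C x10892) x10902) x10860) x10932) x10842) x10248) x10572) x8952) x9924) x12354) x2148) x19644) x4336)
  (sub (add (add (add (sub (add (add (add (add (sub (sub (sub (sub C x10902) x10888) x10918) x10846) x10252) x10576) x8956) x9928) x12358) x2152) x19648) x4338) x17462)
  (sub (add (add (sub (add (add (add (add (sub (sub (sub (sub C x10900) x10896) x10920) x10848) x10254) x10578) x8958) x9930) x12360) x2154) x19650) x4342)
  (sub (add (add (sub (add (add (add (add (add (add (sub (add (add (add (add C x10912) x10916) x10920) x10932) x10872) x10692) x10800) x10260) x10584) x8964) x9936) x12366) x2160) x19656) x4348)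
  (sub (add (add (add (sub (add (add (add (add (add (add (sub (sub (add (add C x10908) x10916) x10918) x10876) x10696) x10804) x10264) x10588) x8968) x9940) x12370) x2164) x19660) x4350) x17474)
  (add (add (add (sub (add (add (add (add (add (add (sub (sub (add (add C x10908) x10912) x10928) x10880) x10700) x10808) x10268) x10592) x8972) x9944) x12374) x2168) x19664) x17476)
  (sub (add (add (add (sub (add (add (add (add (add (add (sub (sub (sub C x10920) x10912) x10900) x10702) x10810) x10270) x10594) x8974) x9946) x12376) x2170) x19666) x4356) x17480)
  (sub (add (add (sub (add (add (add (add (add (add (sub (add (add (sub C x10918) x10908) x10932) x10902) x10704) x10812) x10272) x10596) x8976) x9948) x12378) x2172) x19668) x4360)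
  (add (add (add (sub (add (add (add (add (add (add (add (add (sub (sub C x10932) x10916) x10856) x10892) x10712) x10820) x10280) x10604) x8984) x9956) x12386) x2180) x19676) x17488)
  (sub (add (add (sub (add (add (add (add (add (add (add (add (add (add (sub C x10928) x10908) x10920) x10860) x10896) x10716) x10824) x10284) x10608) x8988) x9960) x12390) x2184) x19680) x4372)
  (add (sub (sub (add (add (add (add (add (add (add (add (sub (sub C x10942) x10946) x10976) x11012) x11048) x11156) x11264) x11588) x11912) x12884) x8024) x15314) x17500)
  (sub (add (sub (sub (add (add (add (add (add (add (add (add (sub (sub C x10940) x10954) x10978) x11014) x11050) x11158) x11266) x11590) x11914) x12886) x8026) x15316) x4380) x17504)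
  (add (sub (sub (add (add (add (add (add (add (sub (sub (sub C x10950) x10940) x10964) x11054) x11162) x11270) x11594) x11918) x12890) x8030) x15320) x17506)
  (sub (sub (sub (add (add (add (add (add (add (sub (sub (sub C x10946) x10956) x10968) x11058) x11166) x11274) x11598) x11922) x12894) x8034) x15324) x4390)
  (sub (add (sub (sub (add (add (add (add (add (add (sub (sub (sub C x10956) x10942) x10990) x11062) x11170) x11278) x11602) x11926) x12898) x8038) x15328) x4392) x17516)
  (sub (sub (sub (add (add (add (add (add (add (sub (sub (sub C x10954) x10950) x10992) x11064) x11172) x11280) x11604) x11928) x12900) x8040) x15330) x4396)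
  (add (sub (sub (add (add (add (add (sub (sub (add (add (sub C x10968) x10976) x10988) x10946) x11018) x11288) x11612) x11936) x12908) x8048) x15338) x17524)
  (sub (sub (sub (add (add (add (add (sub (sub (sub (sub C x10964) x10980) x10950) x11022) x11292) x11616) x11940) x12912) x8052) x15342) x4408)
  (add (sub (sub (add (add (add (add (sub (add (add (add (add (sub C x10978) x10964) x10988) x10940) x11012) x11030) x11300) x11624) x11948) x12920) x8060) x15350) x17536)
  (sub (add (sub (sub (add (add (add (add (sub (add (add (sub (sub C x10976) x10984) x10942) x11014) x11032) x11302) x11626) x11950) x12922) x8062) x15352) x4416) x17540)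
  (sub (sub (sub (add (add (add (add (sub (sub (sub (add (add C x10984) x10988) x10968) x10998) x11034) x11304) x11628) x11952) x12924) x8064) x15354) x4420)
  (sub (add (sub (sub (add (add (add (add (sub (sub (sub (add (add C x10980) x10988) x10978) x11002) x11038) x11308) x11632) x11956) x12928) x8068) x15358) x4422) x17546)
  (add (sub (sub (add (add (add (add (sub (sub (add (add (add (add C x10980) x10984) x10964) x10976) x11006) x11042) x11312) x11636) x11960) x12932) x8072) x15362) x17548)
  (sub (add (sub (sub (add (add (add (add (sub (sub (add (add (sub C x10992) x11002) x11014) x10954) x11098) x11314) x11638) x11962) x12934) x8074) x15364) x4428) x17552)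
  (sub (sub (sub (add (add (add (add (sub (sub (sub (sub C x10990) x10998) x10956) x11100) x11316) x11640) x11964) x12936) x8076) x15366) x4432)
  (sub (sub (sub (add (add (add (add (sub (sub (sub (add (add C x11002) x11006) x10992) x10980) x11106) x11322) x11646) x11970) x12942) x8082) x15372) x4438)
  (sub (add (sub (sub (add (add (add (add (sub (sub (add (add (add (add C x10998) x11006) x10990) x11014) x10984) x11110) x11326) x11650) x11974) x12946) x8086) x15376) x4440) x17564)
  (add (sub (sub (add (add (add (add (sub (sub (sub (add (add C x10998) x11002) x11012) x10988) x11114) x11330) x11654) x11978) x12950) x8090) x15380) x17566)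
  (add (sub (sub (add (add (add (add (sub (add (add (sub (sub C x11014) x11006) x10940) x10976) x11120) x11336) x11660) x11984) x12956) x8096) x15386) x17572)
  (sub (add (sub (sub (add (add (add (add (sub (add (add (add (add (sub C x11012) x10990) x11002) x10942) x10978) x11122) x11338) x11662) x11986) x12958) x8098) x15388) x4452) x17576)
  (add (sub (sub (add (add (sub (sub (add (add (add (add (sub C x11022) x11030) x11042) x11054) x11090) x10964) x11180) x11990) x12962) x8102) x15392) x17578)
  (sub (sub (sub (add (add (sub (sub (add (add (sub (sub C x11018) x11034) x11058) x11094) x10968) x11184) x11994) x12966) x8106) x15396) x4462)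
  (add (sub (sub (add (add (sub (sub (sub (add (add (sub C x11032) x11018) x11042) x11048) x10976) x11192) x12002) x12974) x8114) x15404) x17590)
  (sub (add (sub (sub (add (add (sub (sub (sub (sub (sub C x11030) x11038) x11050) x10978) x11194) x12004) x12976) x8116) x15406) x4470) x17594)
  (sub (sub (sub (add (add (sub (sub (sub (sub (add (add C x11038) x11042) x11022) x11070) x10980) x11196) x12006) x12978) x8118) x15408) x4474)
  (sub (add (sub (sub (add (add (sub (sub (sub (sub (add (add C x11034) x11042) x11032) x11074) x10984) x11200) x12010) x12982) x8122) x15412) x4476) x17600)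
  (add (sub (sub (add (add (sub (sub (sub (add (add (add (add C x11034) x11038) x11018) x11030) x11078) x10988) x11204) x12014) x12986) x8126) x15416) x17602)
  (add (sub (sub (add (add (sub (add (add (sub (sub (sub C x11050) x11054) x11030) x10940) x11156) x11210) x12020) x12992) x8132) x15422) x17608)
  (sub (add (sub (sub (add (add (sub (add (add (sub (sub (sub C x11048) x11062) x11032) x10942) x11158) x11212) x12022) x12994) x8134) x15424) x4488) x17612)
  (add (sub (sub (add (add (sub (add (add (add (add (sub (sub C x11058) x11048) x11018) x11090) x10946) x11162) x11216) x12026) x12998) x8138) x15428) x17614)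
  (sub (sub (sub (add (add (sub (add (add (add (add (sub (sub C x11054) x11064) x11022) x11094) x10950) x11166) x11220) x12030) x13002) x8142) x15432) x4498)
  (sub (add (sub (sub (add (add (sub (add (add (sub (sub (sub C x11064) x11050) x11080) x10954) x11170) x11224) x12034) x13006) x8146) x15436) x4500) x17624)
  (sub (sub (sub (add (add (sub (add (add (sub (sub (sub C x11062) x11058) x11082) x10956) x11172) x11226) x12036) x13008) x8148) x15438) x4504)
  (sub (sub (sub (add (add (sub (sub (sub (add (add (add (add C x11074) x11078) x11082) x11094) x11034) x11124) x11232) x12042) x13014) x8154) x15444) x4510)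
  (sub (add (sub (sub (add (add (sub (sub (sub (sub (add (add C x11070) x11078) x11080) x11038) x11128) x11236) x12046) x13018) x8158) x15448) x4512) x17636)
  (add (sub (sub (add (add (sub (sub (sub (sub (add (add C x11070) x11074) x11090) x11042) x11132) x11240) x12050) x13022) x8162) x15452) x17638)
  (sub (add (sub (sub (add (add (sub (sub (sub (sub (sub C x11082) x11074) x11062) x11134) x11242) x12052) x13024) x8164) x15454) x4518) x17642)
  (sub (sub (sub (add (add (sub (sub (sub (add (add (sub C x11080) x11070) x11094) x11064) x11136) x11244) x12054) x13026) x8166) x15456) x4522)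
  (add (sub (sub (add (add (sub (sub (add (add (sub (sub C x11094) x11078) x11018) x11054) x11144) x11252) x12062) x13034) x8174) x15464) x17650)
  (sub (sub (sub (add (add (sub (sub (add (add (add (add (sub C x11090) x11070) x11082) x11022) x11058) x11148) x11256) x12066) x13038) x8178) x15468) x4534)
  (sub (add (sub (sub (add (add (sub (sub (add (add (add (add (sub C x11100) x11110) x11122) x11134) x11170) x10990) x11422) x12070) x13042) x8182) x15472) x4536) x17660)
  (sub (sub (sub (add (add (sub (sub (add (add (sub (sub C x11098) x11106) x11136) x11172) x10992) x11424) x12072) x13044) x8184) x15474) x4540)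
  (sub (sub (sub (add (add (sub (sub (sub (sub (add (add C x11110) x11114) x11100) x11124) x10998) x11430) x12078) x13050) x8190) x15480) x4546)
  (sub (add (sub (sub (add (add (sub (sub (sub (add (add (add (add C x11106) x11114) x11098) x11122) x11128) x11002) x11434) x12082) x13054) x8194) x15484) x4548) x17672)
  (add (sub (sub (add (add (sub (sub (sub (sub (add (add C x11106) x11110) x11120) x11132) x11006) x11438) x12086) x13058) x8198) x15488) x17674)
  (add (sub (sub (add (add (sub (sub (sub (sub (sub C x11122) x11114) x11156) x11012) x11444) x12092) x13064) x8204) x15494) x17680)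
  (sub (add (sub (sub (add (add (sub (sub (sub (add (add (sub C x11120) x11098) x11110) x11158) x11014) x11446) x12094) x13066) x8206) x15496) x4560) x17684)
  (sub (sub (sub (add (add (sub (sub (sub (add (add (add (add C x11128) x11132) x11136) x11148) x11106) x11070) x11448) x12096) x13068) x8208) x15498) x4564)
  (sub (add (sub (sub (add (add (sub (sub (sub (sub (add (add C x11124) x11132) x11134) x11110) x11074) x11452) x12100) x13072) x8212) x15502) x4566) x17690)
  (add (sub (sub (add (add (sub (sub (sub (sub (add (add C x11124) x11128) x11144) x11114) x11078) x11456) x12104) x13076) x8216) x15506) x17692)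
  (sub (add (sub (sub (add (add (sub (sub (add (add (sub (sub C x11136) x11128) x11098) x11170) x11080) x11458) x12106) x13078) x8218) x15508) x4572) x17696)
  (sub (sub (sub (add (add (sub (sub (add (add (add (add (sub C x11134) x11124) x11148) x11100) x11172) x11082) x11460) x12108) x13080) x8220) x15510) x4576)
  (add (sub (sub (add (add (sub (sub (sub (sub (sub C x11148) x11132) x11162) x11090) x11468) x12116) x13088) x8228) x15518) x17704)
  (sub (sub (sub (add (add (sub (sub (sub (add (add (sub C x11144) x11124) x11136) x11166) x11094) x11472) x12120) x13092) x8232) x15522) x4588)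
  (add (sub (sub (add (add (sub (add (add (sub (sub (sub C x11158) x11162) x11120) x10940) x11048) x11480) x12128) x13100) x8240) x15530) x17716)
  (sub (add (sub (sub (add (add (sub (add (add (sub (sub (sub C x11156) x11170) x11122) x10942) x11050) x11482) x12130) x13102) x8242) x15532) x4596) x17720)
  (add (sub (sub (add (add (sub (add (add (sub (sub (sub C x11166) x11156) x11144) x10946) x11054) x11486) x12134) x13106) x8246) x15536) x17722)
  (sub (sub (sub (add (add (sub (add (add (sub (sub (sub C x11162) x11172) x11148) x10950) x11058) x11490) x12138) x13110) x8250) x15540) x4606)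
  (sub (add (sub (sub (add (add (sub (add (add (add (add (sub (sub C x11172) x11158) x11098) x11134) x10954) x11062) x11494) x12142) x13114) x8254) x15544) x4608) x17732)
  (sub (sub (sub (add (add (sub (add (add (add (add (sub (sub C x11170) x11166) x11100) x11136) x10956) x11064) x11496) x12144) x13116) x8256) x15546) x4612)
  (add (sub (sub (sub (sub (add (add (add (add (add (add (sub C x11184) x11192) x11204) x11216) x11252) x11288) x11396) x11018) x11666) x8264) x15554) x17740)
  (sub (sub (sub (sub (sub (add (add (add (add (sub (sub C x11180) x11196) x11220) x11256) x11292) x11400) x11022) x11670) x8268) x15558) x4624)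
  (add (sub (sub (sub (sub (add (add (sub (add (add (sub C x11194) x11180) x11204) x11210) x11300) x11408) x11030) x11678) x8276) x15566) x17752)
  (sub (add (sub (sub (sub (sub (add (add (sub (sub (sub C x11192) x11200) x11212) x11302) x11410) x11032) x11680) x8278) x15568) x4632) x17756)
  (sub (sub (sub (sub (sub (add (add (sub (sub (add (add C x11200) x11204) x11184) x11232) x11304) x11412) x11034) x11682) x8280) x15570) x4636)
  (sub (add (sub (sub (sub (sub (add (add (sub (sub (add (add C x11196) x11204) x11194) x11236) x11308) x11416) x11038) x11686) x8284) x15574) x4638) x17762)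
  (add (sub (sub (sub (sub (add (add (sub (add (add (add (add C x11196) x11200) x11180) x11192) x11240) x11312) x11420) x11042) x11690) x8288) x15578) x17764)
  (add (sub (sub (sub (sub (sub (sub (sub (sub C x11212) x11216) x11192) x11264) x11048) x11696) x8294) x15584) x17770)
  (sub (add (sub (sub (sub (sub (sub (sub (sub (sub C x11210) x11224) x11194) x11266) x11050) x11698) x8296) x15586) x4650) x17774)
  (add (sub (sub (sub (sub (sub (add (add (sub (sub C x11220) x11210) x11180) x11252) x11270) x11054) x11702) x8300) x15590) x17776)
  (sub (sub (sub (sub (sub (sub (add (add (sub (sub C x11216) x11226) x11184) x11256) x11274) x11058) x11706) x8304) x15594) x4660)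
  (sub (add (sub (sub (sub (sub (sub (sub (sub (sub C x11226) x11212) x11242) x11278) x11062) x11710) x8308) x15598) x4662) x17786)
  (sub (sub (sub (sub (sub (sub (sub (sub (sub C x11224) x11220) x11244) x11280) x11064) x11712) x8310) x15600) x4666)
  (sub (sub (sub (sub (sub (sub (sub (add (add (add (add C x11236) x11240) x11244) x11256) x11196) x11340) x11070) x11718) x8316) x15606) x4672)
  (sub (add (sub (sub (sub (sub (sub (sub (sub (add (add C x11232) x11240) x11242) x11200) x11344) x11074) x11722) x8320) x15610) x4674) x17798)
  (add (sub (sub (sub (sub (sub (sub (sub (add (add C x11232) x11236) x11252) x11204) x11348) x11078) x11726) x8324) x15614) x17800)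
  (sub (add (sub (sub (sub (sub (sub (sub (sub (sub C x11244) x11236) x11224) x11350) x11080) x11728) x8326) x15616) x4680) x17804)
  (sub (sub (sub (sub (sub (sub (sub (add (add (sub C x11242) x11232) x11256) x11226) x11352) x11082) x11730) x8328) x15618) x4684)
  (add (sub (sub (sub (sub (sub (add (add (sub (sub C x11256) x11240) x11180) x11216) x11360) x11090) x11738) x8336) x15626) x17812)
  (sub (sub (sub (sub (sub (sub (add (add (add (add (sub C x11252) x11232) x11244) x11184) x11220) x11364) x11094) x11742) x8340) x15630) x4696)
  (add (sub (sub (sub (add (add (sub (add (add (sub (sub C x11266) x11270) x11300) x11336) x11210) x10940) x11588) x11750) x8348) x15638) x17824)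
  (sub (add (sub (sub (sub (add (add (sub (add (add (sub (sub C x11264) x11278) x11302) x11338) x11212) x10942) x11590) x11752) x8350) x15640) x4704) x17828)
  (add (sub (sub (sub (add (add (sub (sub (sub (sub C x11274) x11264) x11288) x11216) x10946) x11594) x11756) x8354) x15644) x17830)
  (sub (sub (sub (sub (add (add (sub (sub (sub (sub C x11270) x11280) x11292) x11220) x10950) x11598) x11760) x8358) x15648) x4714)
  (sub (add (sub (sub (sub (add (add (sub (sub (sub (sub C x11280) x11266) x11314) x11224) x10954) x11602) x11764) x8362) x15652) x4716) x17840)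
  (sub (sub (sub (sub (add (add (sub (sub (sub (sub C x11278) x11274) x11316) x11226) x10956) x11604) x11766) x8364) x15654) x4720)
  (add (sub (sub (sub (add (add (add (add (sub (add (add (sub C x11292) x11300) x11312) x11270) x11180) x11396) x10964) x11612) x11774) x8372) x15662) x17848)
  (sub (sub (sub (sub (add (add (add (add (sub (sub (sub C x11288) x11304) x11274) x11184) x11400) x10968) x11616) x11778) x8376) x15666) x4732)
  (add (sub (sub (sub (add (add (add (add (add (add (add (add (sub C x11302) x11288) x11312) x11264) x11336) x11192) x11408) x10976) x11624) x11786) x8384) x15674) x17860)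
  (sub (add (sub (sub (sub (add (add (add (add (add (add (sub (sub C x11300) x11308) x11266) x11338) x11194) x11410) x10978) x11626) x11788) x8386) x15676) x4740) x17864)
  (sub (sub (sub (sub (add (add (add (add (sub (sub (add (add C x11308) x11312) x11292) x11322) x11196) x11412) x10980) x11628) x11790) x8388) x15678) x4744)
  (sub (add (sub (sub (sub (add (add (add (add (sub (sub (add (add C x11304) x11312) x11302) x11326) x11200) x11416) x10984) x11632) x11794) x8392) x15682) x4746) x17870)
  (add (sub (sub (sub (add (add (add (add (sub (add (add (add (add C x11304) x11308) x11288) x11300) x11330) x11204) x11420) x10988) x11636) x11798) x8396) x15686) x17872)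
  (sub (add (sub (sub (sub (add (add (sub (sub (add (add (sub C x11316) x11326) x11338) x11278) x11368) x10990) x11638) x11800) x8398) x15688) x4752) x17876)
  (sub (sub (sub (sub (add (add (sub (sub (sub (sub C x11314) x11322) x11280) x11370) x10992) x11640) x11802) x8400) x15690) x4756)
  (sub (sub (sub (sub (add (add (sub (sub (sub (add (add C x11326) x11330) x11316) x11304) x11376) x10998) x11646) x11808) x8406) x15696) x4762)
  (sub (add (sub (sub (sub (add (add (sub (sub (add (add (add (add C x11322) x11330) x11314) x11338) x11308) x11380) x11002) x11650) x11812) x8410) x15700) x4764) x17888)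
  (add (sub (sub (sub (add (add (sub (sub (sub (add (add C x11322) x11326) x11336) x11312) x11384) x11006) x11654) x11816) x8414) x15704) x17890)
  (add (sub (sub (sub (add (add (sub (add (add (sub (sub C x11338) x11330) x11264) x11300) x11390) x11012) x11660) x11822) x8420) x15710) x17896)
  (sub (add (sub (sub (sub (add (add (sub (add (add (add (add (sub C x11336) x11314) x11326) x11266) x11302) x11392) x11014) x11662) x11824) x8422) x15712) x4776) x17900)
  (sub (sub (sub (sub (sub (sub (add (add (add (add (add (add C x11344) x11348) x11352) x11364) x11376) x11412) x11232) x11502) x11826) x8424) x15714) x4780)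
  (sub (add (sub (sub (sub (sub (sub (add (add (sub (add (add C x11340) x11348) x11350) x11380) x11416) x11236) x11506) x11830) x8428) x15718) x4782) x17906)
  (add (sub (sub (sub (sub (sub (add (add (sub (add (add C x11340) x11344) x11360) x11384) x11420) x11240) x11510) x11834) x8432) x15722) x17908)
  (sub (add (sub (sub (sub (sub (sub (sub (sub (sub C x11352) x11344) x11368) x11242) x11512) x11836) x8434) x15724) x4788) x17912)
  (sub (sub (sub (sub (sub (sub (sub (add (add (sub C x11350) x11340) x11364) x11370) x11244) x11514) x11838) x8436) x15726) x4792)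
  (add (sub (sub (sub (sub (sub (sub (sub (sub C x11364) x11348) x11396) x11252) x11522) x11846) x8444) x15734) x17920)
  (sub (sub (sub (sub (sub (sub (sub (add (add (sub C x11360) x11340) x11352) x11400) x11256) x11526) x11850) x8448) x15738) x4804)
  (sub (add (sub (sub (sub (sub (sub (sub (add (add (sub C x11370) x11380) x11392) x11350) x11314) x11530) x11854) x8452) x15742) x4806) x17930)
  (sub (sub (sub (sub (sub (sub (sub (sub (sub C x11368) x11376) x11352) x11316) x11532) x11856) x8454) x15744) x4810)
  (sub (sub (sub (sub (sub (sub (add (add (sub (add (add C x11380) x11384) x11370) x11340) x11412) x11322) x11538) x11862) x8460) x15750) x4816)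
  (sub (add (sub (sub (sub (sub (sub (add (add (add (add (add (add C x11376) x11384) x11368) x11392) x11344) x11416) x11326) x11542) x11866) x8464) x15754) x4818) x17942)
  (add (sub (sub (sub (sub (sub (add (add (sub (add (add C x11376) x11380) x11390) x11348) x11420) x11330) x11546) x11870) x8468) x15758) x17944)
  (add (sub (sub (sub (sub (sub (sub (sub (sub C x11392) x11384) x11408) x11336) x11552) x11876) x8474) x15764) x17950)
  (sub (add (sub (sub (sub (sub (sub (sub (add (add (sub C x11390) x11368) x11380) x11410) x11338) x11554) x11878) x8476) x15766) x4830) x17954)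
  (add (sub (sub (sub (sub (add (add (sub (add (add (sub C x11400) x11408) x11420) x11360) x11180) x11288) x11558) x11882) x8480) x15770) x17956)
  (sub (sub (sub (sub (sub (add (add (sub (sub (sub C x11396) x11412) x11364) x11184) x11292) x11562) x11886) x8484) x15774) x4840)
  (add (sub (sub (sub (sub (add (add (sub (add (add (sub C x11410) x11396) x11420) x11390) x11192) x11300) x11570) x11894) x8492) x15782) x17968)
  (sub (add (sub (sub (sub (sub (add (add (sub (sub (sub C x11408) x11416) x11392) x11194) x11302) x11572) x11896) x8494) x15784) x4848) x17972)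
  (sub (sub (sub (sub (sub (add (add (add (add (sub (add (add C x11416) x11420) x11400) x11340) x11376) x11196) x11304) x11574) x11898) x8496) x15786) x4852)
  (sub (add (sub (sub (sub (sub (add (add (add (add (sub (add (add C x11412) x11420) x11410) x11344) x11380) x11200) x11308) x11578) x11902) x8500) x15790) x4854) x17978)
  (add (sub (sub (sub (sub (add (add (add (add (add (add (add (add C x11412) x11416) x11396) x11408) x11348) x11384) x11204) x11312) x11582) x11906) x8504) x15794) x17980)
  (sub (add (sub (sub (sub (sub (add (add (add (add (add (add (sub C x11424) x11434) x11446) x11458) x11494) x11530) x11638) x11098) x12394) x8506) x15796) x4860) x17984)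
  (sub (sub (sub (sub (sub (add (add (add (add (sub (sub C x11422) x11430) x11460) x11496) x11532) x11640) x11100) x12396) x8508) x15798) x4864)
  (sub (sub (sub (sub (sub (add (add (sub (sub (add (add C x11434) x11438) x11424) x11448) x11538) x11646) x11106) x12402) x8514) x15804) x4870)
  (sub (add (sub (sub (sub (sub (add (add (sub (add (add (add (add C x11430) x11438) x11422) x11446) x11452) x11542) x11650) x11110) x12406) x8518) x15808) x4872) x17996)
  (add (sub (sub (sub (sub (add (add (sub (sub (add (add C x11430) x11434) x11444) x11456) x11546) x11654) x11114) x12410) x8522) x15812) x17998)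
  (add (sub (sub (sub (sub (add (add (sub (sub (sub C x11446) x11438) x11480) x11552) x11660) x11120) x12416) x8528) x15818) x18004)
  (sub (add (sub (sub (sub (sub (add (add (sub (add (add (sub C x11444) x11422) x11434) x11482) x11554) x11662) x11122) x12418) x8530) x15820) x4884) x18008)
  (sub (sub (sub (sub (sub (sub (sub (add (add (add (add C x11452) x11456) x11460) x11472) x11430) x11502) x11124) x12420) x8532) x15822) x4888)
  (sub (add (sub (sub (sub (sub (sub (sub (sub (add (add C x11448) x11456) x11458) x11434) x11506) x11128) x12424) x8536) x15826) x4890) x18014)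
  (add (sub (sub (sub (sub (sub (sub (sub (add (add C x11448) x11452) x11468) x11438) x11510) x11132) x12428) x8540) x15830) x18016)
  (sub (add (sub (sub (sub (sub (sub (add (add (sub (sub C x11460) x11452) x11422) x11494) x11512) x11134) x12430) x8542) x15832) x4896) x18020)
  (sub (sub (sub (sub (sub (sub (add (add (add (add (sub C x11458) x11448) x11472) x11424) x11496) x11514) x11136) x12432) x8544) x15834) x4900)
  (add (sub (sub (sub (sub (sub (sub (sub (sub C x11472) x11456) x11486) x11522) x11144) x12440) x8552) x15842) x18028)
  (sub (sub (sub (sub (sub (sub (sub (add (add (sub C x11468) x11448) x11460) x11490) x11526) x11148) x12444) x8556) x15846) x4912)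
  (add (sub (sub (sub (sub (sub (sub (sub (sub C x11482) x11486) x11444) x11588) x11156) x12452) x8564) x15854) x18040)
  (sub (add (sub (sub (sub (sub (sub (sub (sub (sub C x11480) x11494) x11446) x11590) x11158) x12454) x8566) x15856) x4920) x18044)
  (add (sub (sub (sub (sub (sub (sub (sub (sub C x11490) x11480) x11468) x11594) x11162) x12458) x8570) x15860) x18046)
  (sub (sub (sub (sub (sub (sub (sub (sub (sub C x11486) x11496) x11472) x11598) x11166) x12462) x8574) x15864) x4930)
  (sub (add (sub (sub (sub (sub (sub (add (add (sub (sub C x11496) x11482) x11422) x11458) x11602) x11170) x12466) x8578) x15868) x4932) x18056)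
  (sub (sub (sub (sub (sub (sub (add (add (sub (sub C x11494) x11490) x11424) x11460) x11604) x11172) x12468) x8580) x15870) x4936)
  (sub (sub (sub (sub (sub (sub (add (add (add (add (add (add C x11506) x11510) x11514) x11526) x11538) x11574) x11448) x11340) x12474) x8586) x15876) x4942)
  (sub (add (sub (sub (sub (sub (sub (add (add (sub (add (add C x11502) x11510) x11512) x11542) x11578) x11452) x11344) x12478) x8590) x15880) x4944) x18068)
  (add (sub (sub (sub (sub (sub (add (add (sub (add (add C x11502) x11506) x11522) x11546) x11582) x11456) x11348) x12482) x8594) x15884) x18070)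
  (sub (add (sub (sub (sub (sub (sub (sub (sub (sub C x11514) x11506) x11530) x11458) x11350) x12484) x8596) x15886) x4950) x18074)
  (sub (sub (sub (sub (sub (sub (sub (add (add (sub C x11512) x11502) x11526) x11532) x11460) x11352) x12486) x8598) x15888) x4954)
  (add (sub (sub (sub (sub (sub (sub (sub (sub C x11526) x11510) x11558) x11468) x11360) x12494) x8606) x15896) x18082)
  (sub (sub (sub (sub (sub (sub (sub (add (add (sub C x11522) x11502) x11514) x11562) x11472) x11364) x12498) x8610) x15900) x4966)
  (sub (add (sub (sub (sub (sub (add (add (sub (add (add (sub C x11532) x11542) x11554) x11512) x11422) x11638) x11368) x12502) x8614) x15904) x4968) x18092)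
  (sub (sub (sub (sub (sub (add (add (sub (sub (sub C x11530) x11538) x11514) x11424) x11640) x11370) x12504) x8616) x15906) x4972)
  (sub (sub (sub (sub (sub (add (add (add (add (sub (add (add C x11542) x11546) x11532) x11502) x11574) x11430) x11646) x11376) x12510) x8622) x15912) x4978)
  (sub (add (sub (sub (sub (sub (add (add (add (add (add (add (add (add C x11538) x11546) x11530) x11554) x11506) x11578) x11434) x11650) x11380) x12514) x8626) x15916) x4980) x18104)
  (add (sub (sub (sub (sub (add (add (add (add (sub (add (add C x11538) x11542) x11552) x11510) x11582) x11438) x11654) x11384) x12518) x8630) x15920) x18106)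
  (add (sub (sub (sub (sub (add (add (sub (sub (sub C x11554) x11546) x11570) x11444) x11660) x11390) x12524) x8636) x15926) x18112)
  (sub (add (sub (sub (sub (sub (add (add (sub (add (add (sub C x11552) x11530) x11542) x11572) x11446) x11662) x11392) x12526) x8638) x15928) x4992) x18116)
  (add (sub (sub (sub (sub (sub (sub (add (add (sub C x11562) x11570) x11582) x11522) x11612) x11396) x12530) x8642) x15932) x18118)
  (sub (sub (sub (sub (sub (sub (sub (sub (sub C x11558) x11574) x11526) x11616) x11400) x12534) x8646) x15936) x5002)
  (add (sub (sub (sub (sub (sub (sub (add (add (sub C x11572) x11558) x11582) x11552) x11624) x11408) x12542) x8654) x15944) x18130)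
  (sub (add (sub (sub (sub (sub (sub (sub (sub (sub C x11570) x11578) x11554) x11626) x11410) x12544) x8656) x15946) x5010) x18134)
  (sub (sub (sub (sub (sub (sub (add (add (sub (add (add C x11578) x11582) x11562) x11502) x11538) x11628) x11412) x12546) x8658) x15948) x5014)
  (sub (add (sub (sub (sub (sub (sub (add (add (sub (add (add C x11574) x11582) x11572) x11506) x11542) x11632) x11416) x12550) x8662) x15952) x5016) x18140)
  (add (sub (sub (sub (sub (sub (add (add (add (add (add (add C x11574) x11578) x11558) x11570) x11510) x11546) x11636) x11420) x12554) x8666) x15956) x18142)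
  (add (sub (sub (sub (add (add (sub (add (add (sub (sub C x11590) x11594) x11624) x11660) x11480) x10940) x11264) x12560) x8672) x15962) x18148)
  (sub (add (sub (sub (sub (add (add (sub (add (add (sub (sub C x11588) x11602) x11626) x11662) x11482) x10942) x11266) x12562) x8674) x15964) x5028) x18152)
  (add (sub (sub (sub (add (add (sub (sub (sub (sub C x11598) x11588) x11612) x11486) x10946) x11270) x12566) x8678) x15968) x18154)
  (sub (sub (sub (sub (add (add (sub (sub (sub (sub C x11594) x11604) x11616) x11490) x10950) x11274) x12570) x8682) x15972) x5038)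
  (sub (add (sub (sub (sub (add (add (sub (sub (sub (sub C x11604) x11590) x11638) x11494) x10954) x11278) x12574) x8686) x15976) x5040) x18164)
  (sub (sub (sub (sub (add (add (sub (sub (sub (sub C x11602) x11598) x11640) x11496) x10956) x11280) x12576) x8688) x15978) x5044)
  (add (sub (sub (sub (add (add (sub (sub (add (add (sub C x11616) x11624) x11636) x11594) x11558) x10964) x11288) x12584) x8696) x15986) x18172)
  (sub (sub (sub (sub (add (add (sub (sub (sub (sub C x11612) x11628) x11598) x11562) x10968) x11292) x12588) x8700) x15990) x5056)
  (add (sub (sub (sub (add (add (sub (add (add (add (add (sub C x11626) x11612) x11636) x11588) x11660) x11570) x10976) x11300) x12596) x8708) x15998) x18184)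
  (sub (add (sub (sub (sub (add (add (sub (add (add (sub (sub C x11624) x11632) x11590) x11662) x11572) x10978) x11302) x12598) x8710) x16000) x5064) x18188)
  (sub (sub (sub (sub (add (add (sub (sub (sub (add (add C x11632) x11636) x11616) x11646) x11574) x10980) x11304) x12600) x8712) x16002) x5068)
  (sub (add (sub (sub (sub (add (add (sub (sub (sub (add (add C x11628) x11636) x11626) x11650) x11578) x10984) x11308) x12604) x8716) x16006) x5070) x18194)
  (add (sub (sub (sub (add (add (sub (sub (add (add (add (add C x11628) x11632) x11612) x11624) x11654) x11582) x10988) x11312) x12608) x8720) x16010) x18196)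
  (sub (add (sub (sub (sub (add (add (add (add (sub (add (add (sub C x11640) x11650) x11662) x11602) x11422) x11530) x10990) x11314) x12610) x8722) x16012) x5076) x18200)
  (sub (sub (sub (sub (add (add (add (add (sub (sub (sub C x11638) x11646) x11604) x11424) x11532) x10992) x11316) x12612) x8724) x16014) x5080)
  (sub (sub (sub (sub (add (add (add (add (sub (sub (add (add C x11650) x11654) x11640) x11628) x11430) x11538) x10998) x11322) x12618) x8730) x16020) x5086)
  (sub (add (sub (sub (sub (add (add (add (add (sub (add (add (add (add C x11646) x11654) x11638) x11662) x11632) x11434) x11542) x11002) x11326) x12622) x8734) x16024) x5088) x18212)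
  (add (sub (sub (sub (add (add (add (add (sub (sub (add (add C x11646) x11650) x11660) x11636) x11438) x11546) x11006) x11330) x12626) x8738) x16028) x18214)
  (add (sub (sub (sub (add (add (add (add (add (add (sub (sub C x11662) x11654) x11588) x11624) x11444) x11552) x11012) x11336) x12632) x8744) x16034) x18220)
  (sub (add (sub (sub (sub (add (add (add (add (add (add (add (add (sub C x11660) x11638) x11650) x11590) x11626) x11446) x11554) x11014) x11338) x12634) x8746) x16036) x5100) x18224)
  (add (sub (sub (sub (add (add (add (add (add (add (add (add (sub C x11670) x11678) x11690) x11702) x11738) x11774) x11882) x11990) x12314) x11180) x10208) x16040) x18226)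
  (sub (sub (sub (sub (add (add (add (add (add (add (sub (sub C x11666) x11682) x11706) x11742) x11778) x11886) x11994) x12318) x11184) x10212) x16044) x5110)
  (add (sub (sub (sub (add (add (add (add (sub (add (add (sub C x11680) x11666) x11690) x11696) x11786) x11894) x12002) x12326) x11192) x10220) x16052) x18238)
  (sub (add (sub (sub (sub (add (add (add (add (sub (sub (sub C x11678) x11686) x11698) x11788) x11896) x12004) x12328) x11194) x10222) x16054) x5118) x18242)
  (sub (sub (sub (sub (add (add (add (add (sub (sub (add (add C x11686) x11690) x11670) x11718) x11790) x11898) x12006) x12330) x11196) x10224) x16056) x5122)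
  (sub (add (sub (sub (sub (add (add (add (add (sub (sub (add (add C x11682) x11690) x11680) x11722) x11794) x11902) x12010) x12334) x11200) x10228) x16060) x5124) x18248)
  (add (sub (sub (sub (add (add (add (add (sub (add (add (add (add C x11682) x11686) x11666) x11678) x11726) x11798) x11906) x12014) x12338) x11204) x10232) x16064) x18250)
  (add (sub (sub (sub (add (add (sub (sub (sub (sub C x11698) x11702) x11678) x11750) x12020) x12344) x11210) x10238) x16070) x18256)
  (sub (add (sub (sub (sub (add (add (sub (sub (sub (sub C x11696) x11710) x11680) x11752) x12022) x12346) x11212) x10240) x16072) x5136) x18260)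
  (add (sub (sub (sub (add (add (sub (add (add (sub (sub C x11706) x11696) x11666) x11738) x11756) x12026) x12350) x11216) x10244) x16076) x18262)
  (sub (sub (sub (sub (add (add (sub (add (add (sub (sub C x11702) x11712) x11670) x11742) x11760) x12030) x12354) x11220) x10248) x16080) x5146)
  (sub (add (sub (sub (sub (add (add (sub (sub (sub (sub C x11712) x11698) x11728) x11764) x12034) x12358) x11224) x10252) x16084) x5148) x18272)
  (sub (sub (sub (sub (add (add (sub (sub (sub (sub C x11710) x11706) x11730) x11766) x12036) x12360) x11226) x10254) x16086) x5152)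
  (sub (sub (sub (sub (add (add (sub (sub (add (add (add (add C x11722) x11726) x11730) x11742) x11682) x11826) x12042) x12366) x11232) x10260) x16092) x5158)
  (sub (add (sub (sub (sub (add (add (sub (sub (sub (add (add C x11718) x11726) x11728) x11686) x11830) x12046) x12370) x11236) x10264) x16096) x5160) x18284)
  (add (sub (sub (sub (add (add (sub (sub (sub (add (add C x11718) x11722) x11738) x11690) x11834) x12050) x12374) x11240) x10268) x16100) x18286)
  (sub (add (sub (sub (sub (add (add (sub (sub (sub (sub C x11730) x11722) x11710) x11836) x12052) x12376) x11242) x10270) x16102) x5166) x18290)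
  (sub (sub (sub (sub (add (add (sub (sub (add (add (sub C x11728) x11718) x11742) x11712) x11838) x12054) x12378) x11244) x10272) x16104) x5170)
  (add (sub (sub (sub (add (add (sub (add (add (sub (sub C x11742) x11726) x11666) x11702) x11846) x12062) x12386) x11252) x10280) x16112) x18298)
  (sub (sub (sub (sub (add (add (sub (add (add (add (add (sub C x11738) x11718) x11730) x11670) x11706) x11850) x12066) x12390) x11256) x10284) x16116) x5182)
  (add (sub (sub (sub (sub (sub (add (add (sub (sub C x11752) x11756) x11786) x11822) x11696) x11912) x11264) x10292) x16124) x18310)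
  (sub (add (sub (sub (sub (sub (sub (add (add (sub (sub C x11750) x11764) x11788) x11824) x11698) x11914) x11266) x10294) x16126) x5190) x18314)
  (add (sub (sub (sub (sub (sub (sub (sub (sub C x11760) x11750) x11774) x11702) x11918) x11270) x10298) x16130) x18316)
  (sub (sub (sub (sub (sub (sub (sub (sub (sub C x11756) x11766) x11778) x11706) x11922) x11274) x10302) x16134) x5200)
  (sub (add (sub (sub (sub (sub (sub (sub (sub (sub C x11766) x11752) x11800) x11710) x11926) x11278) x10306) x16138) x5202) x18326)
  (sub (sub (sub (sub (sub (sub (sub (sub (sub C x11764) x11760) x11802) x11712) x11928) x11280) x10308) x16140) x5206)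
  (add (sub (sub (sub (sub (add (add (sub (add (add (sub C x11778) x11786) x11798) x11756) x11666) x11882) x11936) x11288) x10316) x16148) x18334)
  (sub (sub (sub (sub (sub (add (add (sub (sub (sub C x11774) x11790) x11760) x11670) x11886) x11940) x11292) x10320) x16152) x5218)
  (add (sub (sub (sub (sub (add (add (add (add (add (add (sub C x11788) x11774) x11798) x11750) x11822) x11678) x11894) x11948) x11300) x10328) x16160) x18346)
  (sub (add (sub (sub (sub (sub (add (add (add (add (sub (sub C x11786) x11794) x11752) x11824) x11680) x11896) x11950) x11302) x10330) x16162) x5226) x18350)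
  (sub (sub (sub (sub (sub (add (add (sub (sub (add (add C x11794) x11798) x11778) x11808) x11682) x11898) x11952) x11304) x10332) x16164) x5230)
  (sub (add (sub (sub (sub (sub (add (add (sub (sub (add (add C x11790) x11798) x11788) x11812) x11686) x11902) x11956) x11308) x10336) x16168) x5232) x18356)
  (add (sub (sub (sub (sub (add (add (sub (add (add (add (add C x11790) x11794) x11774) x11786) x11816) x11690) x11906) x11960) x11312) x10340) x16172) x18358)
  (sub (add (sub (sub (sub (sub (sub (sub (add (add (sub C x11802) x11812) x11824) x11764) x11854) x11962) x11314) x10342) x16174) x5238) x18362)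
  (sub (sub (sub (sub (sub (sub (sub (sub (sub C x11800) x11808) x11766) x11856) x11964) x11316) x10344) x16176) x5242)
  (sub (sub (sub (sub (sub (sub (sub (sub (add (add C x11812) x11816) x11802) x11790) x11862) x11970) x11322) x10350) x16182) x5248)
  (sub (add (sub (sub (sub (sub (sub (sub (add (add (add (add C x11808) x11816) x11800) x11824) x11794) x11866) x11974) x11326) x10354) x16186) x5250) x18374)
  (add (sub (sub (sub (sub (sub (sub (sub (add (add C x11808) x11812) x11822) x11798) x11870) x11978) x11330) x10358) x16190) x18376)
  (add (sub (sub (sub (sub (sub (add (add (sub (sub C x11824) x11816) x11750) x11786) x11876) x11984) x11336) x10364) x16196) x18382)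
  (sub (add (sub (sub (sub (sub (sub (add (add (add (add (sub C x11822) x11800) x11812) x11752) x11788) x11878) x11986) x11338) x10366) x16198) x5262) x18386)
  (sub (sub (sub (sub (sub (sub (add (add (add (add (add (add C x11830) x11834) x11838) x11850) x11862) x11898) x11718) x12150) x11340) x10368) x16200) x5266)
  (sub (add (sub (sub (sub (sub (sub (add (add (sub (add (add C x11826) x11834) x11836) x11866) x11902) x11722) x12154) x11344) x10372) x16204) x5268) x18392)
  (add (sub (sub (sub (sub (sub (add (add (sub (add (add C x11826) x11830) x11846) x11870) x11906) x11726) x12158) x11348) x10376) x16208) x18394)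
  (sub (add (sub (sub (sub (sub (sub (sub (sub (sub C x11838) x11830) x11854) x11728) x12160) x11350) x10378) x16210) x5274) x18398)
  (sub (sub (sub (sub (sub (sub (sub (add (add (sub C x11836) x11826) x11850) x11856) x11730) x12162) x11352) x10380) x16212) x5278)
  (add (sub (sub (sub (sub (sub (sub (sub (sub C x11850) x11834) x11882) x11738) x12170) x11360) x10388) x16220) x18406)
  (sub (sub (sub (sub (sub (sub (sub (add (add (sub C x11846) x11826) x11838) x11886) x11742) x12174) x11364) x10392) x16224) x5290)
  (sub (add (sub (sub (sub (sub (sub (sub (add (add (sub C x11856) x11866) x11878) x11836) x11800) x12178) x11368) x10396) x16228) x5292) x18416)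
  (sub (sub (sub (sub (sub (sub (sub (sub (sub C x11854) x11862) x11838) x11802) x12180) x11370) x10398) x16230) x5296)
  (sub (sub (sub (sub (sub (sub (add (add (sub (add (add C x11866) x11870) x11856) x11826) x11898) x11808) x12186) x11376) x10404) x16236) x5302)
  (sub (add (sub (sub (sub (sub (sub (add (add (add (add (add (add C x11862) x11870) x11854) x11878) x11830) x11902) x11812) x12190) x11380) x10408) x16240) x5304) x18428)
  (add (sub (sub (sub (sub (sub (add (add (sub (add (add C x11862) x11866) x11876) x11834) x11906) x11816) x12194) x11384) x10412) x16244) x18430)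
  (add (sub (sub (sub (sub (sub (sub (sub (sub C x11878) x11870) x11894) x11822) x12200) x11390) x10418) x16250) x18436)
  (sub (add (sub (sub (sub (sub (sub (sub (add (add (sub C x11876) x11854) x11866) x11896) x11824) x12202) x11392) x10420) x16252) x5316) x18440)
  (add (sub (sub (sub (sub (add (add (sub (add (add (sub C x11886) x11894) x11906) x11846) x11666) x11774) x12206) x11396) x10424) x16256) x18442)
  (sub (sub (sub (sub (sub (add (add (sub (sub (sub C x11882) x11898) x11850) x11670) x11778) x12210) x11400) x10428) x16260) x5326)
  (add (sub (sub (sub (sub (add (add (sub (add (add (sub C x11896) x11882) x11906) x11876) x11678) x11786) x12218) x11408) x10436) x16268) x18454)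
  (sub (add (sub (sub (sub (sub (add (add (sub (sub (sub C x11894) x11902) x11878) x11680) x11788) x12220) x11410) x10438) x16270) x5334) x18458)
  (sub (sub (sub (sub (sub (add (add (add (add (sub (add (add C x11902) x11906) x11886) x11826) x11862) x11682) x11790) x12222) x11412) x10440) x16272) x5338)
  (sub (add (sub (sub (sub (sub (add (add (add (add (sub (add (add C x11898) x11906) x11896) x11830) x11866) x11686) x11794) x12226) x11416) x10444) x16276) x5340) x18464)
  (add (sub (sub (sub (sub (add (add (add (add (add (add (add (add C x11898) x11902) x11882) x11894) x11834) x11870) x11690) x11798) x12230) x11420) x10448) x16280) x18466)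
  (add (sub (sub (add (add (sub (add (add (add (add (sub (sub C x11914) x11918) x11948) x11984) x12020) x12128) x11750) x10940) x12884) x10454) x16286) x18472)
  (sub (add (sub (sub (add (add (sub (add (add (add (add (sub (sub C x11912) x11926) x11950) x11986) x12022) x12130) x11752) x10942) x12886) x10456) x16288) x5352) x18476)
  (add (sub (sub (add (add (sub (add (add (sub (sub (sub C x11922) x11912) x11936) x12026) x12134) x11756) x10946) x12890) x10460) x16292) x18478)
  (sub (sub (sub (add (add (sub (add (add (sub (sub (sub C x11918) x11928) x11940) x12030) x12138) x11760) x10950) x12894) x10464) x16296) x5362)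
  (sub (add (sub (sub (add (add (sub (add (add (sub (sub (sub C x11928) x11914) x11962) x12034) x12142) x11764) x10954) x12898) x10468) x16300) x5364) x18488)
  (sub (sub (sub (add (add (sub (add (add (sub (sub (sub C x11926) x11922) x11964) x12036) x12144) x11766) x10956) x12900) x10470) x16302) x5368)
  (add (sub (sub (add (add (sub (sub (sub (add (add (sub C x11940) x11948) x11960) x11918) x11990) x11774) x10964) x12908) x10478) x16310) x18496)
  (sub (sub (sub (add (add (sub (sub (sub (sub (sub C x11936) x11952) x11922) x11994) x11778) x10968) x12912) x10482) x16314) x5380)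
  (add (sub (sub (add (add (sub (sub (add (add (add (add (sub C x11950) x11936) x11960) x11912) x11984) x12002) x11786) x10976) x12920) x10490) x16322) x18508)
  (sub (add (sub (sub (add (add (sub (sub (add (add (sub (sub C x11948) x11956) x11914) x11986) x12004) x11788) x10978) x12922) x10492) x16324) x5388) x18512)
  (sub (sub (sub (add (add (sub (sub (sub (sub (add (add C x11956) x11960) x11940) x11970) x12006) x11790) x10980) x12924) x10494) x16326) x5392)
  (sub (add (sub (sub (add (add (sub (sub (sub (sub (add (add C x11952) x11960) x11950) x11974) x12010) x11794) x10984) x12928) x10498) x16330) x5394) x18518)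
  (add (sub (sub (add (add (sub (sub (sub (add (add (add (add C x11952) x11956) x11936) x11948) x11978) x12014) x11798) x10988) x12932) x10502) x16334) x18520)
  (sub (add (sub (sub (add (add (sub (sub (sub (add (add (sub C x11964) x11974) x11986) x11926) x12070) x11800) x10990) x12934) x10504) x16336) x5400) x18524)
  (sub (sub (sub (add (add (sub (sub (sub (sub (sub C x11962) x11970) x11928) x12072) x11802) x10992) x12936) x10506) x16338) x5404)
  (sub (sub (sub (add (add (sub (sub (sub (sub (add (add C x11974) x11978) x11964) x11952) x12078) x11808) x10998) x12942) x10512) x16344) x5410)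
  (sub (add (sub (sub (add (add (sub (sub (sub (add (add (add (add C x11970) x11978) x11962) x11986) x11956) x12082) x11812) x11002) x12946) x10516) x16348) x5412) x18536)
  (add (sub (sub (add (add (sub (sub (sub (sub (add (add C x11970) x11974) x11984) x11960) x12086) x11816) x11006) x12950) x10520) x16352) x18538)
  (add (sub (sub (add (add (sub (sub (add (add (sub (sub C x11986) x11978) x11912) x11948) x12092) x11822) x11012) x12956) x10526) x16358) x18544)
  (sub (add (sub (sub (add (add (sub (sub (add (add (add (add (sub C x11984) x11962) x11974) x11914) x11950) x12094) x11824) x11014) x12958) x10528) x16360) x5424) x18548)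
  (add (sub (sub (add (add (add (add (sub (add (add (add (add (sub C x11994) x12002) x12014) x12026) x12062) x11936) x11666) x12314) x11018) x12962) x10532) x16364) x18550)
  (sub (sub (sub (add (add (add (add (sub (add (add (sub (sub C x11990) x12006) x12030) x12066) x11940) x11670) x12318) x11022) x12966) x10536) x16368) x5434)
  (add (sub (sub (add (add (add (add (sub (sub (add (add (sub C x12004) x11990) x12014) x12020) x11948) x11678) x12326) x11030) x12974) x10544) x16376) x18562)
  (sub (add (sub (sub (add (add (add (add (sub (sub (sub (sub C x12002) x12010) x12022) x11950) x11680) x12328) x11032) x12976) x10546) x16378) x5442) x18566)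
  (sub (sub (sub (add (add (add (add (sub (sub (sub (add (add C x12010) x12014) x11994) x12042) x11952) x11682) x12330) x11034) x12978) x10548) x16380) x5446)
  (sub (add (sub (sub (add (add (add (add (sub (sub (sub (add (add C x12006) x12014) x12004) x12046) x11956) x11686) x12334) x11038) x12982) x10552) x16384) x5448) x18572)
  (add (sub (sub (add (add (add (add (sub (sub (add (add (add (add C x12006) x12010) x11990) x12002) x12050) x11960) x11690) x12338) x11042) x12986) x10556) x16388) x18574)
  (add (sub (sub (add (add (add (add (add (add (sub (sub (sub C x12022) x12026) x12002) x11912) x12128) x11696) x12344) x11048) x12992) x10562) x16394) x18580)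
  (sub (add (sub (sub (add (add (add (add (add (add (sub (sub (sub C x12020) x12034) x12004) x11914) x12130) x11698) x12346) x11050) x12994) x10564) x16396) x5460) x18584)
  (add (sub (sub (add (add (add (add (add (add (add (add (sub (sub C x12030) x12020) x11990) x12062) x11918) x12134) x11702) x12350) x11054) x12998) x10568) x16400) x18586)
  (sub (sub (sub (add (add (add (add (add (add (add (add (sub (sub C x12026) x12036) x11994) x12066) x11922) x12138) x11706) x12354) x11058) x13002) x10572) x16404) x5470)
  (sub (add (sub (sub (add (add (add (add (add (add (sub (sub (sub C x12036) x12022) x12052) x11926) x12142) x11710) x12358) x11062) x13006) x10576) x16408) x5472) x18596)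
  (sub (sub (sub (add (add (add (add (add (add (sub (sub (sub C x12034) x12030) x12054) x11928) x12144) x11712) x12360) x11064) x13008) x10578) x16410) x5476)
  (sub (sub (sub (add (add (add (add (sub (sub (add (add (add (add C x12046) x12050) x12054) x12066) x12006) x12096) x11718) x12366) x11070) x13014) x10584) x16416) x5482)
  (sub (add (sub (sub (add (add (add (add (sub (sub (sub (add (add C x12042) x12050) x12052) x12010) x12100) x11722) x12370) x11074) x13018) x10588) x16420) x5484) x18608)
  (add (sub (sub (add (add (add (add (sub (sub (sub (add (add C x12042) x12046) x12062) x12014) x12104) x11726) x12374) x11078) x13022) x10592) x16424) x18610)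
  (sub (add (sub (sub (add (add (add (add (sub (sub (sub (sub C x12054) x12046) x12034) x12106) x11728) x12376) x11080) x13024) x10594) x16426) x5490) x18614)
  (sub (sub (sub (add (add (add (add (sub (sub (add (add (sub C x12052) x12042) x12066) x12036) x12108) x11730) x12378) x11082) x13026) x10596) x16428) x5494)
  (add (sub (sub (add (add (add (add (sub (add (add (sub (sub C x12066) x12050) x11990) x12026) x12116) x11738) x12386) x11090) x13034) x10604) x16436) x18622)
  (sub (sub (sub (add (add (add (add (sub (add (add (add (add (sub C x12062) x12042) x12054) x11994) x12030) x12120) x11742) x12390) x11094) x13038) x10608) x16440) x5506)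
  (sub (add (sub (sub (add (add (sub (sub (add (add (add (add (sub C x12072) x12082) x12094) x12106) x12142) x11962) x12232) x11098) x13042) x10612) x16444) x5508) x18632)
  (sub (sub (sub (add (add (sub (sub (add (add (sub (sub C x12070) x12078) x12108) x12144) x11964) x12234) x11100) x13044) x10614) x16446) x5512)
  (sub (sub (sub (add (add (sub (sub (sub (sub (add (add C x12082) x12086) x12072) x12096) x11970) x12240) x11106) x13050) x10620) x16452) x5518)
  (sub (add (sub (sub (add (add (sub (sub (sub (add (add (add (add C x12078) x12086) x12070) x12094) x12100) x11974) x12244) x11110) x13054) x10624) x16456) x5520) x18644)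
  (add (sub (sub (add (add (sub (sub (sub (sub (add (add C x12078) x12082) x12092) x12104) x11978) x12248) x11114) x13058) x10628) x16460) x18646)
  (add (sub (sub (add (add (sub (sub (sub (sub (sub C x12094) x12086) x12128) x11984) x12254) x11120) x13064) x10634) x16466) x18652)
  (sub (add (sub (sub (add (add (sub (sub (sub (add (add (sub C x12092) x12070) x12082) x12130) x11986) x12256) x11122) x13066) x10636) x16468) x5532) x18656)
  (sub (sub (sub (add (add (sub (sub (sub (add (add (add (add C x12100) x12104) x12108) x12120) x12078) x12042) x12258) x11124) x13068) x10638) x16470) x5536)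
  (sub (add (sub (sub (add (add (sub (sub (sub (sub (add (add C x12096) x12104) x12106) x12082) x12046) x12262) x11128) x13072) x10642) x16474) x5538) x18662)
  (add (sub (sub (add (add (sub (sub (sub (sub (add (add C x12096) x12100) x12116) x12086) x12050) x12266) x11132) x13076) x10646) x16478) x18664)
  (sub (add (sub (sub (add (add (sub (sub (add (add (sub (sub C x12108) x12100) x12070) x12142) x12052) x12268) x11134) x13078) x10648) x16480) x5544) x18668)
  (sub (sub (sub (add (add (sub (sub (add (add (add (add (sub C x12106) x12096) x12120) x12072) x12144) x12054) x12270) x11136) x13080) x10650) x16482) x5548)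
  (add (sub (sub (add (add (sub (sub (sub (sub (sub C x12120) x12104) x12134) x12062) x12278) x11144) x13088) x10658) x16490) x18676)
  (sub (sub (sub (add (add (sub (sub (sub (add (add (sub C x12116) x12096) x12108) x12138) x12066) x12282) x11148) x13092) x10662) x16494) x5560)
  (add (sub (sub (add (add (sub (add (add (sub (sub (sub C x12130) x12134) x12092) x11912) x12020) x12290) x11156) x13100) x10670) x16502) x18688)
  (sub (add (sub (sub (add (add (sub (add (add (sub (sub (sub C x12128) x12142) x12094) x11914) x12022) x12292) x11158) x13102) x10672) x16504) x5568) x18692)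
  (add (sub (sub (add (add (sub (add (add (sub (sub (sub C x12138) x12128) x12116) x11918) x12026) x12296) x11162) x13106) x10676) x16508) x18694)
  (sub (sub (sub (add (add (sub (add (add (sub (sub (sub C x12134) x12144) x12120) x11922) x12030) x12300) x11166) x13110) x10680) x16512) x5578)
  (sub (add (sub (sub (add (add (sub (add (add (add (add (sub (sub C x12144) x12130) x12070) x12106) x11926) x12034) x12304) x11170) x13114) x10684) x16516) x5580) x18704)
  (sub (sub (sub (add (add (sub (add (add (add (add (sub (sub C x12142) x12138) x12072) x12108) x11928) x12036) x12306) x11172) x13116) x10686) x16518) x5584)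
  (sub (sub (sub (sub (sub (add (add (add (add (add (add (add (add C x12154) x12158) x12162) x12174) x12186) x12222) x12258) x12366) x11826) x12636) x10692) x16524) x5590)
  (sub (add (sub (sub (sub (sub (add (add (add (add (sub (add (add C x12150) x12158) x12160) x12190) x12226) x12262) x12370) x11830) x12640) x10696) x16528) x5592) x18716)
  (add (sub (sub (sub (sub (add (add (add (add (sub (add (add C x12150) x12154) x12170) x12194) x12230) x12266) x12374) x11834) x12644) x10700) x16532) x18718)
  (sub (add (sub (sub (sub (sub (add (add (sub (sub (sub C x12162) x12154) x12178) x12268) x12376) x11836) x12646) x10702) x16534) x5598) x18722)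
  (sub (sub (sub (sub (sub (add (add (sub (add (add (sub C x12160) x12150) x12174) x12180) x12270) x12378) x11838) x12648) x10704) x16536) x5602)
  (add (sub (sub (sub (sub (add (add (sub (sub (sub C x12174) x12158) x12206) x12278) x12386) x11846) x12656) x10712) x16544) x18730)
  (sub (sub (sub (sub (sub (add (add (sub (add (add (sub C x12170) x12150) x12162) x12210) x12282) x12390) x11850) x12660) x10716) x16548) x5614)
  (sub (add (sub (sub (sub (sub (sub (sub (add (add (sub C x12180) x12190) x12202) x12160) x12232) x11854) x12664) x10720) x16552) x5616) x18740)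
  (sub (sub (sub (sub (sub (sub (sub (sub (sub C x12178) x12186) x12162) x12234) x11856) x12666) x10722) x16554) x5620)
  (sub (sub (sub (sub (sub (sub (add (add (sub (add (add C x12190) x12194) x12180) x12150) x12222) x12240) x11862) x12672) x10728) x16560) x5626)
  (sub (add (sub (sub (sub (sub (sub (add (add (add (add (add (add C x12186) x12194) x12178) x12202) x12154) x12226) x12244) x11866) x12676) x10732) x16564) x5628) x18752)
  (add (sub (sub (sub (sub (sub (add (add (sub (add (add C x12186) x12190) x12200) x12158) x12230) x12248) x11870) x12680) x10736) x16568) x18754)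
  (add (sub (sub (sub (sub (sub (sub (sub (sub C x12202) x12194) x12218) x12254) x11876) x12686) x10742) x16574) x18760)
  (sub (add (sub (sub (sub (sub (sub (sub (add (add (sub C x12200) x12178) x12190) x12220) x12256) x11878) x12688) x10744) x16576) x5640) x18764)
  (add (sub (sub (sub (sub (sub (sub (add (add (sub C x12210) x12218) x12230) x12170) x12314) x11882) x12692) x10748) x16580) x18766)
  (sub (sub (sub (sub (sub (sub (sub (sub (sub C x12206) x12222) x12174) x12318) x11886) x12696) x10752) x16584) x5650)
  (add (sub (sub (sub (sub (sub (sub (add (add (sub C x12220) x12206) x12230) x12200) x12326) x11894) x12704) x10760) x16592) x18778)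
  (sub (add (sub (sub (sub (sub (sub (sub (sub (sub C x12218) x12226) x12202) x12328) x11896) x12706) x10762) x16594) x5658) x18782)
  (sub (sub (sub (sub (sub (sub (add (add (sub (add (add C x12226) x12230) x12210) x12150) x12186) x12330) x11898) x12708) x10764) x16596) x5662)
  (sub (add (sub (sub (sub (sub (sub (add (add (sub (add (add C x12222) x12230) x12220) x12154) x12190) x12334) x11902) x12712) x10768) x16600) x5664) x18788)
  (add (sub (sub (sub (sub (sub (add (add (add (add (add (add C x12222) x12226) x12206) x12218) x12158) x12194) x12338) x11906) x12716) x10772) x16604) x18790)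
  (sub (add (sub (sub (sub (sub (sub (add (add (add (add (sub C x12234) x12244) x12256) x12268) x12304) x12178) x12070) x12718) x10774) x16606) x5670) x18794)
  (sub (sub (sub (sub (sub (sub (add (add (sub (sub C x12232) x12240) x12270) x12306) x12180) x12072) x12720) x10776) x16608) x5674)
  (sub (sub (sub (sub (sub (sub (sub (sub (add (add C x12244) x12248) x12234) x12258) x12186) x12078) x12726) x10782) x16614) x5680)
  (sub (add (sub (sub (sub (sub (sub (sub (add (add (add (add C x12240) x12248) x12232) x12256) x12262) x12190) x12082) x12730) x10786) x16618) x5682) x18806)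
  (add (sub (sub (sub (sub (sub (sub (sub (add (add C x12240) x12244) x12254) x12266) x12194) x12086) x12734) x10790) x16622) x18808)
  (add (sub (sub (sub (sub (sub (sub (sub (sub C x12256) x12248) x12290) x12200) x12092) x12740) x10796) x16628) x18814)
  (sub (add (sub (sub (sub (sub (sub (sub (add (add (sub C x12254) x12232) x12244) x12292) x12202) x12094) x12742) x10798) x16630) x5694) x18818)
  (sub (sub (sub (sub (sub (add (add (sub (add (add (add (add C x12262) x12266) x12270) x12282) x12240) x12150) x12366) x12096) x12744) x10800) x16632) x5698)
  (sub (add (sub (sub (sub (sub (add (add (sub (sub (add (add C x12258) x12266) x12268) x12244) x12154) x12370) x12100) x12748) x10804) x16636) x5700) x18824)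
  (add (sub (sub (sub (sub (add (add (sub (sub (add (add C x12258) x12262) x12278) x12248) x12158) x12374) x12104) x12752) x10808) x16640) x18826)
  (sub (add (sub (sub (sub (sub (add (add (add (add (sub (sub C x12270) x12262) x12232) x12304) x12160) x12376) x12106) x12754) x10810) x16642) x5706) x18830)
  (sub (sub (sub (sub (sub (add (add (add (add (add (add (sub C x12268) x12258) x12282) x12234) x12306) x12162) x12378) x12108) x12756) x10812) x16644) x5710)
  (add (sub (sub (sub (sub (add (add (sub (sub (sub C x12282) x12266) x12296) x12170) x12386) x12116) x12764) x10820) x16652) x18838)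
  (sub (sub (sub (sub (sub (add (add (sub (add (add (sub C x12278) x12258) x12270) x12300) x12174) x12390) x12120) x12768) x10824) x16656) x5722)
  (add (sub (sub (sub (sub (sub (sub (sub (sub C x12292) x12296) x12254) x12344) x12128) x12776) x10832) x16664) x18850)
  (sub (add (sub (sub (sub (sub (sub (sub (sub (sub C x12290) x12304) x12256) x12346) x12130) x12778) x10834) x16666) x5730) x18854)
  (add (sub (sub (sub (sub (sub (sub (sub (sub C x12300) x12290) x12278) x12350) x12134) x12782) x10838) x16670) x18856)
  (sub (sub (sub (sub (sub (sub (sub (sub (sub C x12296) x12306) x12282) x12354) x12138) x12786) x10842) x16674) x5740)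
  (sub (add (sub (sub (sub (sub (sub (add (add (sub (sub C x12306) x12292) x12232) x12268) x12358) x12142) x12790) x10846) x16678) x5742) x18866)
  (sub (sub (sub (sub (sub (sub (add (add (sub (sub C x12304) x12300) x12234) x12270) x12360) x12144) x12792) x10848) x16680) x5746)
  (add (sub (sub (sub (add (add (sub (add (add (add (add (sub C x12318) x12326) x12338) x12350) x12386) x12206) x11666) x11990) x12800) x10856) x16688) x18874)
  (sub (sub (sub (sub (add (add (sub (add (add (sub (sub C x12314) x12330) x12354) x12390) x12210) x11670) x11994) x12804) x10860) x16692) x5758)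
  (add (sub (sub (sub (add (add (sub (sub (add (add (sub C x12328) x12314) x12338) x12344) x12218) x11678) x12002) x12812) x10868) x16700) x18886)
  (sub (add (sub (sub (sub (add (add (sub (sub (sub (sub C x12326) x12334) x12346) x12220) x11680) x12004) x12814) x10870) x16702) x5766) x18890)
  (sub (sub (sub (sub (add (add (sub (sub (sub (add (add C x12334) x12338) x12318) x12366) x12222) x11682) x12006) x12816) x10872) x16704) x5770)
  (sub (add (sub (sub (sub (add (add (sub (sub (sub (add (add C x12330) x12338) x12328) x12370) x12226) x11686) x12010) x12820) x10876) x16708) x5772) x18896)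
  (add (sub (sub (sub (add (add (sub (sub (add (add (add (add C x12330) x12334) x12314) x12326) x12374) x12230) x11690) x12014) x12824) x10880) x16712) x18898)
  (add (sub (sub (sub (add (add (sub (sub (sub (sub C x12346) x12350) x12326) x12290) x11696) x12020) x12830) x10886) x16718) x18904)
  (sub (add (sub (sub (sub (add (add (sub (sub (sub (sub C x12344) x12358) x12328) x12292) x11698) x12022) x12832) x10888) x16720) x5784) x18908)
  (add (sub (sub (sub (add (add (sub (add (add (sub (sub C x12354) x12344) x12314) x12386) x12296) x11702) x12026) x12836) x10892) x16724) x18910)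
  (sub (sub (sub (sub (add (add (sub (add (add (sub (sub C x12350) x12360) x12318) x12390) x12300) x11706) x12030) x12840) x10896) x16728) x5794)
  (sub (add (sub (sub (sub (add (add (sub (sub (sub (sub C x12360) x12346) x12376) x12304) x11710) x12034) x12844) x10900) x16732) x5796) x18920)
  (sub (sub (sub (sub (add (add (sub (sub (sub (sub C x12358) x12354) x12378) x12306) x11712) x12036) x12846) x10902) x16734) x5800)
  (sub (sub (sub (sub (add (add (add (add (sub (add (add (add (add C x12370) x12374) x12378) x12390) x12330) x12150) x12258) x11718) x12042) x12852) x10908) x16740) x5806)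
  (sub (add (sub (sub (sub (add (add (add (add (sub (sub (add (add C x12366) x12374) x12376) x12334) x12154) x12262) x11722) x12046) x12856) x10912) x16744) x5808) x18932)
  (add (sub (sub (sub (add (add (add (add (sub (sub (add (add C x12366) x12370) x12386) x12338) x12158) x12266) x11726) x12050) x12860) x10916) x16748) x18934)
  (sub (add (sub (sub (sub (add (add (add (add (sub (sub (sub C x12378) x12370) x12358) x12160) x12268) x11728) x12052) x12862) x10918) x16750) x5814) x18938)
  (sub (sub (sub (sub (add (add (add (add (sub (add (add (sub C x12376) x12366) x12390) x12360) x12162) x12270) x11730) x12054) x12864) x10920) x16752) x5818)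
  (add (sub (sub (sub (add (add (add (add (add (add (sub (sub C x12390) x12374) x12314) x12350) x12170) x12278) x11738) x12062) x12872) x10928) x16760) x18946)
  (sub (sub (sub (sub (add (add (add (add (add (add (add (add (sub C x12386) x12366) x12378) x12318) x12354) x12174) x12282) x11742) x12066) x12876) x10932) x16764) x5830)
  (sub (add (sub (add (add (sub (add (add (add (add (add (add (add (add (sub C x12396) x12406) x12418) x12430) x12466) x12502) x12610) x12718) x13042) x11422) x6562) x9478) x16768) x5832) x18956)
  (sub (sub (add (add (sub (add (add (add (add (add (add (sub (sub C x12394) x12402) x12432) x12468) x12504) x12612) x12720) x13044) x11424) x6564) x9480) x16770) x5836)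
  (sub (sub (add (add (sub (add (add (add (add (sub (sub (add (add C x12406) x12410) x12396) x12420) x12510) x12618) x12726) x13050) x11430) x6570) x9486) x16776) x5842)
  (sub (add (sub (add (add (sub (add (add (add (add (sub (add (add (add (add C x12402) x12410) x12394) x12418) x12424) x12514) x12622) x12730) x13054) x11434) x6574) x9490) x16780) x5844) x18968)
  (add (sub (add (add (sub (add (add (add (add (sub (sub (add (add C x12402) x12406) x12416) x12428) x12518) x12626) x12734) x13058) x11438) x6578) x9494) x16784) x18970)
  (add (sub (add (add (sub (add (add (add (add (sub (sub (sub C x12418) x12410) x12452) x12524) x12632) x12740) x13064) x11444) x6584) x9500) x16790) x18976)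
  (sub (add (sub (add (add (sub (add (add (add (add (sub (add (add (sub C x12416) x12394) x12406) x12454) x12526) x12634) x12742) x13066) x11446) x6586) x9502) x16792) x5856) x18980)
  (sub (sub (add (add (sub (add (add (sub (sub (add (add (add (add C x12424) x12428) x12432) x12444) x12402) x12474) x12744) x13068) x11448) x6588) x9504) x16794) x5860)
  (sub (add (sub (add (add (sub (add (add (sub (sub (sub (add (add C x12420) x12428) x12430) x12406) x12478) x12748) x13072) x11452) x6592) x9508) x16798) x5862) x18986)
  (add (sub (add (add (sub (add (add (sub (sub (sub (add (add C x12420) x12424) x12440) x12410) x12482) x12752) x13076) x11456) x6596) x9512) x16802) x18988)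
  (sub (add (sub (add (add (sub (add (add (sub (add (add (sub (sub C x12432) x12424) x12394) x12466) x12484) x12754) x13078) x11458) x6598) x9514) x16804) x5868) x18992)
  (sub (sub (add (add (sub (add (add (sub (add (add (add (add (sub C x12430) x12420) x12444) x12396) x12468) x12486) x12756) x13080) x11460) x6600) x9516) x16806) x5872)
  (add (sub (add (add (sub (add (add (sub (sub (sub (sub C x12444) x12428) x12458) x12494) x12764) x13088) x11468) x6608) x9524) x16814) x19000)
  (sub (sub (add (add (sub (add (add (sub (sub (add (add (sub C x12440) x12420) x12432) x12462) x12498) x12768) x13092) x11472) x6612) x9528) x16818) x5884)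
  (add (sub (add (add (sub (add (add (sub (sub (sub (sub C x12454) x12458) x12416) x12560) x12776) x13100) x11480) x6620) x9536) x16826) x19012)
  (sub (add (sub (add (add (sub (add (add (sub (sub (sub (sub C x12452) x12466) x12418) x12562) x12778) x13102) x11482) x6622) x9538) x16828) x5892) x19016)
  (add (sub (add (add (sub (add (add (sub (sub (sub (sub C x12462) x12452) x12440) x12566) x12782) x13106) x11486) x6626) x9542) x16832) x19018)
  (sub (sub (add (add (sub (add (add (sub (sub (sub (sub C x12458) x12468) x12444) x12570) x12786) x13110) x11490) x6630) x9546) x16836) x5902)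
  (sub (add (sub (add (add (sub (add (add (sub (add (add (sub (sub C x12468) x12454) x12394) x12430) x12574) x12790) x13114) x11494) x6634) x9550) x16840) x5904) x19028)
  (sub (sub (add (add (sub (add (add (sub (add (add (sub (sub C x12466) x12462) x12396) x12432) x12576) x12792) x13116) x11496) x6636) x9552) x16842) x5908)
  (sub (sub (add (add (sub (sub (sub (add (add (add (add (add (add C x12478) x12482) x12486) x12498) x12510) x12546) x12420) x12636) x11502) x6642) x9558) x16848) x5914)
  (sub (add (sub (add (add (sub (sub (sub (add (add (sub (add (add C x12474) x12482) x12484) x12514) x12550) x12424) x12640) x11506) x6646) x9562) x16852) x5916) x19040)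
  (add (sub (add (add (sub (sub (sub (add (add (sub (add (add C x12474) x12478) x12494) x12518) x12554) x12428) x12644) x11510) x6650) x9566) x16856) x19042)
  (sub (add (sub (add (add (sub (sub (sub (sub (sub (sub C x12486) x12478) x12502) x12430) x12646) x11512) x6652) x9568) x16858) x5922) x19046)
  (sub (sub (add (add (sub (sub (sub (sub (add (add (sub C x12484) x12474) x12498) x12504) x12432) x12648) x11514) x6654) x9570) x16860) x5926)
  (add (sub (add (add (sub (sub (sub (sub (sub (sub C x12498) x12482) x12530) x12440) x12656) x11522) x6662) x9578) x16868) x19054)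
  (sub (sub (add (add (sub (sub (sub (sub (add (add (sub C x12494) x12474) x12486) x12534) x12444) x12660) x11526) x6666) x9582) x16872) x5938)
  (sub (add (sub (add (add (sub (sub (add (add (sub (add (add (sub C x12504) x12514) x12526) x12484) x12394) x12610) x12664) x11530) x6670) x9586) x16876) x5940) x19064)
  (sub (sub (add (add (sub (sub (add (add (sub (sub (sub C x12502) x12510) x12486) x12396) x12612) x12666) x11532) x6672) x9588) x16878) x5944)
  (sub (sub (add (add (sub (sub (add (add (add (add (sub (add (add C x12514) x12518) x12504) x12474) x12546) x12402) x12618) x12672) x11538) x6678) x9594) x16884) x5950)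
  (sub (add (sub (add (add (sub (sub (add (add (add (add (add (add (add (add C x12510) x12518) x12502) x12526) x12478) x12550) x12406) x12622) x12676) x11542) x6682) x9598) x16888) x5952) x19076)
  (add (sub (add (add (sub (sub (add (add (add (add (sub (add (add C x12510) x12514) x12524) x12482) x12554) x12410) x12626) x12680) x11546) x6686) x9602) x16892) x19078)
  (add (sub (add (add (sub (sub (add (add (sub (sub (sub C x12526) x12518) x12542) x12416) x12632) x12686) x11552) x6692) x9608) x16898) x19084)
  (sub (add (sub (add (add (sub (sub (add (add (sub (add (add (sub C x12524) x12502) x12514) x12544) x12418) x12634) x12688) x11554) x6694) x9610) x16900) x5964) x19088)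
  (add (sub (add (add (sub (sub (sub (sub (add (add (sub C x12534) x12542) x12554) x12494) x12584) x12692) x11558) x6698) x9614) x16904) x19090)
  (sub (sub (add (add (sub (sub (sub (sub (sub (sub C x12530) x12546) x12498) x12588) x12696) x11562) x6702) x9618) x16908) x5974)
  (add (sub (add (add (sub (sub (sub (sub (add (add (sub C x12544) x12530) x12554) x12524) x12596) x12704) x11570) x6710) x9626) x16916) x19102)
  (sub (add (sub (add (add (sub (sub (sub (sub (sub (sub C x12542) x12550) x12526) x12598) x12706) x11572) x6712) x9628) x16918) x5982) x19106)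
  (sub (sub (add (add (sub (sub (sub (add (add (sub (add (add C x12550) x12554) x12534) x12474) x12510) x12600) x12708) x11574) x6714) x9630) x16920) x5986)
  (sub (add (sub (add (add (sub (sub (sub (add (add (sub (add (add C x12546) x12554) x12544) x12478) x12514) x12604) x12712) x11578) x6718) x9634) x16924) x5988) x19112)
  (add (sub (add (add (sub (sub (sub (add (add (add (add (add (add C x12546) x12550) x12530) x12542) x12482) x12518) x12608) x12716) x11582) x6722) x9638) x16928) x19114)
  (add (sub (add (add (sub (sub (sub (add (add (sub (sub C x12562) x12566) x12596) x12632) x12452) x12884) x11588) x6728) x9644) x16934) x19120)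
  (sub (add (sub (add (add (sub (sub (sub (add (add (sub (sub C x12560) x12574) x12598) x12634) x12454) x12886) x11590) x6730) x9646) x16936) x6000) x19124)
  (add (sub (add (add (sub (sub (sub (sub (sub (sub C x12570) x12560) x12584) x12458) x12890) x11594) x6734) x9650) x16940) x19126)
  (sub (sub (add (add (sub (sub (sub (sub (sub (sub C x12566) x12576) x12588) x12462) x12894) x11598) x6738) x9654) x16944) x6010)
  (sub (add (sub (add (add (sub (sub (sub (sub (sub (sub C x12576) x12562) x12610) x12466) x12898) x11602) x6742) x9658) x16948) x6012) x19136)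
  (sub (sub (add (add (sub (sub (sub (sub (sub (sub C x12574) x12570) x12612) x12468) x12900) x11604) x6744) x9660) x16950) x6016)
  (add (sub (add (add (sub (sub (sub (sub (add (add (sub C x12588) x12596) x12608) x12566) x12530) x12908) x11612) x6752) x9668) x16958) x19144)
  (sub (sub (add (add (sub (sub (sub (sub (sub (sub C x12584) x12600) x12570) x12534) x12912) x11616) x6756) x9672) x16962) x6028)
  (add (sub (add (add (sub (sub (sub (add (add (add (add (sub C x12598) x12584) x12608) x12560) x12632) x12542) x12920) x11624) x6764) x9680) x16970) x19156)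
  (sub (add (sub (add (add (sub (sub (sub (add (add (sub (sub C x12596) x12604) x12562) x12634) x12544) x12922) x11626) x6766) x9682) x16972) x6036) x19160)
  (sub (sub (add (add (sub (sub (sub (sub (sub (add (add C x12604) x12608) x12588) x12618) x12546) x12924) x11628) x6768) x9684) x16974) x6040)
  (sub (add (sub (add (add (sub (sub (sub (sub (sub (add (add C x12600) x12608) x12598) x12622) x12550) x12928) x11632) x6772) x9688) x16978) x6042) x19166)
  (add (sub (add (add (sub (sub (sub (sub (add (add (add (add C x12600) x12604) x12584) x12596) x12626) x12554) x12932) x11636) x6776) x9692) x16982) x19168)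
  (sub (add (sub (add (add (sub (sub (add (add (sub (add (add (sub C x12612) x12622) x12634) x12574) x12394) x12502) x12934) x11638) x6778) x9694) x16984) x6048) x19172)
  (sub (sub (add (add (sub (sub (add (add (sub (sub (sub C x12610) x12618) x12576) x12396) x12504) x12936) x11640) x6780) x9696) x16986) x6052)
  (sub (sub (add (add (sub (sub (add (add (sub (sub (add (add C x12622) x12626) x12612) x12600) x12402) x12510) x12942) x11646) x6786) x9702) x16992) x6058)
  (sub (add (sub (add (add (sub (sub (add (add (sub (add (add (add (add C x12618) x12626) x12610) x12634) x12604) x12406) x12514) x12946) x11650) x6790) x9706) x16996) x6060) x19184)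
  (add (sub (add (add (sub (sub (add (add (sub (sub (add (add C x12618) x12622) x12632) x12608) x12410) x12518) x12950) x11654) x6794) x9710) x17000) x19186)
  (add (sub (add (add (sub (sub (add (add (add (add (sub (sub C x12634) x12626) x12560) x12596) x12416) x12524) x12956) x11660) x6800) x9716) x17006) x19192)
  (sub (add (sub (add (add (sub (sub (add (add (add (add (add (add (sub C x12632) x12610) x12622) x12562) x12598) x12418) x12526) x12958) x11662) x6802) x9718) x17008) x6072) x19196)
  (sub (sub (add (add (sub (sub (add (add (add (add (add (add (add (add C x12640) x12644) x12648) x12660) x12672) x12708) x12744) x12852) x12474) x12150) x6804) x9720) x17010) x6076)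
  (sub (add (sub (add (add (sub (sub (add (add (add (add (sub (add (add C x12636) x12644) x12646) x12676) x12712) x12748) x12856) x12478) x12154) x6808) x9724) x17014) x6078) x19202)
  (add (sub (add (add (sub (sub (add (add (add (add (sub (add (add C x12636) x12640) x12656) x12680) x12716) x12752) x12860) x12482) x12158) x6812) x9728) x17018) x19204)
  (sub (add (sub (add (add (sub (sub (add (add (sub (sub (sub C x12648) x12640) x12664) x12754) x12862) x12484) x12160) x6814) x9730) x17020) x6084) x19208)
  (sub (sub (add (add (sub (sub (add (add (sub (add (add (sub C x12646) x12636) x12660) x12666) x12756) x12864) x12486) x12162) x6816) x9732) x17022) x6088)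
  (add (sub (add (add (sub (sub (add (add (sub (sub (sub C x12660) x12644) x12692) x12764) x12872) x12494) x12170) x6824) x9740) x17030) x19216)
  (sub (sub (add (add (sub (sub (add (add (sub (add (add (sub C x12656) x12636) x12648) x12696) x12768) x12876) x12498) x12174) x6828) x9744) x17034) x6100)
  (sub (add (sub (add (add (sub (sub (sub (sub (add (add (sub C x12666) x12676) x12688) x12646) x12718) x12502) x12178) x6832) x9748) x17038) x6102) x19226)
  (sub (sub (add (add (sub (sub (sub (sub (sub (sub C x12664) x12672) x12648) x12720) x12504) x12180) x6834) x9750) x17040) x6106)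
  (sub (sub (add (add (sub (sub (sub (add (add (sub (add (add C x12676) x12680) x12666) x12636) x12708) x12726) x12510) x12186) x6840) x9756) x17046) x6112)
  (sub (add (sub (add (add (sub (sub (sub (add (add (add (add (add (add C x12672) x12680) x12664) x12688) x12640) x12712) x12730) x12514) x12190) x6844) x9760) x17050) x6114) x19238)
  (add (sub (add (add (sub (sub (sub (add (add (sub (add (add C x12672) x12676) x12686) x12644) x12716) x12734) x12518) x12194) x6848) x9764) x17054) x19240)
  (add (sub (add (add (sub (sub (sub (sub (sub (sub C x12688) x12680) x12704) x12740) x12524) x12200) x6854) x9770) x17060) x19246)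
  (sub (add (sub (add (add (sub (sub (sub (sub (add (add (sub C x12686) x12664) x12676) x12706) x12742) x12526) x12202) x6856) x9772) x17062) x6126) x19250)
  (add (sub (add (add (sub (sub (sub (sub (add (add (sub C x12696) x12704) x12716) x12656) x12800) x12530) x12206) x6860) x9776) x17066) x19252)
  (sub (sub (add (add (sub (sub (sub (sub (sub (sub C x12692) x12708) x12660) x12804) x12534) x12210) x6864) x9780) x17070) x6136)
  (add (sub (add (add (sub (sub (sub (sub (add (add (sub C x12706) x12692) x12716) x12686) x12812) x12542) x12218) x6872) x9788) x17078) x19264)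
  (sub (add (sub (add (add (sub (sub (sub (sub (sub (sub C x12704) x12712) x12688) x12814) x12544) x12220) x6874) x9790) x17080) x6144) x19268)
  (sub (sub (add (add (sub (sub (sub (add (add (sub (add (add C x12712) x12716) x12696) x12636) x12672) x12816) x12546) x12222) x6876) x9792) x17082) x6148)
  (sub (add (sub (add (add (sub (sub (sub (add (add (sub (add (add C x12708) x12716) x12706) x12640) x12676) x12820) x12550) x12226) x6880) x9796) x17086) x6150) x19274)
  (add (sub (add (add (sub (sub (sub (add (add (add (add (add (add C x12708) x12712) x12692) x12704) x12644) x12680) x12824) x12554) x12230) x6884) x9800) x17090) x19276)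
  (sub (add (sub (add (add (sub (add (add (sub (add (add (add (add (sub C x12720) x12730) x12742) x12754) x12790) x12664) x12394) x13042) x12232) x6886) x9802) x17092) x6156) x19280)
  (sub (sub (add (add (sub (add (add (sub (add (add (sub (sub C x12718) x12726) x12756) x12792) x12666) x12396) x13044) x12234) x6888) x9804) x17094) x6160)
  (sub (sub (add (add (sub (add (add (sub (sub (sub (add (add C x12730) x12734) x12720) x12744) x12672) x12402) x13050) x12240) x6894) x9810) x17100) x6166)
  (sub (add (sub (add (add (sub (add (add (sub (sub (add (add (add (add C x12726) x12734) x12718) x12742) x12748) x12676) x12406) x13054) x12244) x6898) x9814) x17104) x6168) x19292)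
  (add (sub (add (add (sub (add (add (sub (sub (sub (add (add C x12726) x12730) x12740) x12752) x12680) x12410) x13058) x12248) x6902) x9818) x17108) x19294)
  (add (sub (add (add (sub (add (add (sub (sub (sub (sub C x12742) x12734) x12776) x12686) x12416) x13064) x12254) x6908) x9824) x17114) x19300)
  (sub (add (sub (add (add (sub (add (add (sub (sub (add (add (sub C x12740) x12718) x12730) x12778) x12688) x12418) x13066) x12256) x6910) x9826) x17116) x6180) x19304)
  (sub (sub (add (add (sub (add (add (add (add (sub (add (add (add (add C x12748) x12752) x12756) x12768) x12726) x12636) x12852) x12420) x13068) x12258) x6912) x9828) x17118) x6184)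
  (sub (add (sub (add (add (sub (add (add (add (add (sub (sub (add (add C x12744) x12752) x12754) x12730) x12640) x12856) x12424) x13072) x12262) x6916) x9832) x17122) x6186) x19310)
  (add (sub (add (add (sub (add (add (add (add (sub (sub (add (add C x12744) x12748) x12764) x12734) x12644) x12860) x12428) x13076) x12266) x6920) x9836) x17126) x19312)
  (sub (add (sub (add (add (sub (add (add (add (add (add (add (sub (sub C x12756) x12748) x12718) x12790) x12646) x12862) x12430) x13078) x12268) x6922) x9838) x17128) x6192) x19316)
  (sub (sub (add (add (sub (add (add (add (add (add (add (add (add (sub C x12754) x12744) x12768) x12720) x12792) x12648) x12864) x12432) x13080) x12270) x6924) x9840) x17130) x6196)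
  (add (sub (add (add (sub (add (add (add (add (sub (sub (sub C x12768) x12752) x12782) x12656) x12872) x12440) x13088) x12278) x6932) x9848) x17138) x19324)
  (sub (sub (add (add (sub (add (add (add (add (sub (add (add (sub C x12764) x12744) x12756) x12786) x12660) x12876) x12444) x13092) x12282) x6936) x9852) x17142) x6208)
  (add (sub (add (add (sub (add (add (sub (sub (sub (sub C x12778) x12782) x12740) x12830) x12452) x13100) x12290) x6944) x9860) x17150) x19336)
  (sub (add (sub (add (add (sub (add (add (sub (sub (sub (sub C x12776) x12790) x12742) x12832) x12454) x13102) x12292) x6946) x9862) x17152) x6216) x19340)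
  (add (sub (add (add (sub (add (add (sub (sub (sub (sub C x12786) x12776) x12764) x12836) x12458) x13106) x12296) x6950) x9866) x17156) x19342)
  (sub (sub (add (add (sub (add (add (sub (sub (sub (sub C x12782) x12792) x12768) x12840) x12462) x13110) x12300) x6954) x9870) x17160) x6226)
  (sub (add (sub (add (add (sub (add (add (sub (add (add (sub (sub C x12792) x12778) x12718) x12754) x12844) x12466) x13114) x12304) x6958) x9874) x17164) x6228) x19352)
  (sub (sub (add (add (sub (add (add (sub (add (add (sub (sub C x12790) x12786) x12720) x12756) x12846) x12468) x13116) x12306) x6960) x9876) x17166) x6232)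
  (add (sub (add (add (sub (sub (sub (add (add (add (add (sub C x12804) x12812) x12824) x12836) x12872) x12692) x12962) x12314) x6968) x9884) x17174) x19360)
  (sub (sub (add (add (sub (sub (sub (add (add (sub (sub C x12800) x12816) x12840) x12876) x12696) x12966) x12318) x6972) x9888) x17178) x6244)
  (add (sub (add (add (sub (sub (sub (sub (add (add (sub C x12814) x12800) x12824) x12830) x12704) x12974) x12326) x6980) x9896) x17186) x19372)
  (sub (add (sub (add (add (sub (sub (sub (sub (sub (sub C x12812) x12820) x12832) x12706) x12976) x12328) x6982) x9898) x17188) x6252) x19376)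
  (sub (sub (add (add (sub (sub (sub (sub (sub (add (add C x12820) x12824) x12804) x12852) x12708) x12978) x12330) x6984) x9900) x17190) x6256)
  (sub (add (sub (add (add (sub (sub (sub (sub (sub (add (add C x12816) x12824) x12814) x12856) x12712) x12982) x12334) x6988) x9904) x17194) x6258) x19382)
  (add (sub (add (add (sub (sub (sub (sub (add (add (add (add C x12816) x12820) x12800) x12812) x12860) x12716) x12986) x12338) x6992) x9908) x17198) x19384)
  (add (sub (add (add (sub (sub (sub (sub (sub (sub C x12832) x12836) x12812) x12776) x12992) x12344) x6998) x9914) x17204) x19390)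
  (sub (add (sub (add (add (sub (sub (sub (sub (sub (sub C x12830) x12844) x12814) x12778) x12994) x12346) x7000) x9916) x17206) x6270) x19394)
  (add (sub (add (add (sub (sub (sub (add (add (sub (sub C x12840) x12830) x12800) x12872) x12782) x12998) x12350) x7004) x9920) x17210) x19396)
  (sub (sub (add (add (sub (sub (sub (add (add (sub (sub C x12836) x12846) x12804) x12876) x12786) x13002) x12354) x7008) x9924) x17214) x6280)
  (sub (add (sub (add (add (sub (sub (sub (sub (sub (sub C x12846) x12832) x12862) x12790) x13006) x12358) x7012) x9928) x17218) x6282) x19406)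
  (sub (sub (add (add (sub (sub (sub (sub (sub (sub C x12844) x12840) x12864) x12792) x13008) x12360) x7014) x9930) x17220) x6286)
  (sub (sub (add (add (sub (sub (add (add (sub (add (add (add (add C x12856) x12860) x12864) x12876) x12816) x12636) x12744) x13014) x12366) x7020) x9936) x17226) x6292)
  (sub (add (sub (add (add (sub (sub (add (add (sub (sub (add (add C x12852) x12860) x12862) x12820) x12640) x12748) x13018) x12370) x7024) x9940) x17230) x6294) x19418)
  (add (sub (add (add (sub (sub (add (add (sub (sub (add (add C x12852) x12856) x12872) x12824) x12644) x12752) x13022) x12374) x7028) x9944) x17234) x19420)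
  (sub (add (sub (add (add (sub (sub (add (add (sub (sub (sub C x12864) x12856) x12844) x12646) x12754) x13024) x12376) x7030) x9946) x17236) x6300) x19424)
  (sub (sub (add (add (sub (sub (add (add (sub (add (add (sub C x12862) x12852) x12876) x12846) x12648) x12756) x13026) x12378) x7032) x9948) x17238) x6304)
  (add (sub (add (add (sub (sub (add (add (add (add (sub (sub C x12876) x12860) x12800) x12836) x12656) x12764) x13034) x12386) x7040) x9956) x17246) x19432)
  (sub (sub (add (add (sub (sub (add (add (add (add (add (add (sub C x12872) x12852) x12864) x12804) x12840) x12660) x12768) x13038) x12390) x7044) x9960) x17250) x6316)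
  (add (sub (add (add (add (add (sub (add (add (add (add (sub (sub C x12886) x12890) x12920) x12956) x12992) x13100) x12560) x10940) x11912) x7052) x9968) x17258) x19444)
  (sub (add (sub (add (add (add (add (sub (add (add (add (add (sub (sub C x12884) x12898) x12922) x12958) x12994) x13102) x12562) x10942) x11914) x7054) x9970) x17260) x6324) x19448)
  (add (sub (add (add (add (add (sub (add (add (sub (sub (sub C x12894) x12884) x12908) x12998) x13106) x12566) x10946) x11918) x7058) x9974) x17264) x19450)
  (sub (sub (add (add (add (add (sub (add (add (sub (sub (sub C x12890) x12900) x12912) x13002) x13110) x12570) x10950) x11922) x7062) x9978) x17268) x6334)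
  (sub (add (sub (add (add (add (add (sub (add (add (sub (sub (sub C x12900) x12886) x12934) x13006) x13114) x12574) x10954) x11926) x7066) x9982) x17272) x6336) x19460)
  (sub (sub (add (add (add (add (sub (add (add (sub (sub (sub C x12898) x12894) x12936) x13008) x13116) x12576) x10956) x11928) x7068) x9984) x17274) x6340)
  (add (sub (add (add (add (add (sub (sub (sub (add (add (sub C x12912) x12920) x12932) x12890) x12962) x12584) x10964) x11936) x7076) x9992) x17282) x19468)
  (sub (sub (add (add (add (add (sub (sub (sub (sub (sub C x12908) x12924) x12894) x12966) x12588) x10968) x11940) x7080) x9996) x17286) x6352)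
  (add (sub (add (add (add (add (sub (sub (add (add (add (add (sub C x12922) x12908) x12932) x12884) x12956) x12974) x12596) x10976) x11948) x7088) x10004) x17294) x19480)
  (sub (add (sub (add (add (add (add (sub (sub (add (add (sub (sub C x12920) x12928) x12886) x12958) x12976) x12598) x10978) x11950) x7090) x10006) x17296) x6360) x19484)
  (sub (sub (add (add (add (add (sub (sub (sub (sub (add (add C x12928) x12932) x12912) x12942) x12978) x12600) x10980) x11952) x7092) x10008) x17298) x6364)
  (sub (add (sub (add (add (add (add (sub (sub (sub (sub (add (add C x12924) x12932) x12922) x12946) x12982) x12604) x10984) x11956) x7096) x10012) x17302) x6366) x19490)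
  (add (sub (add (add (add (add (sub (sub (sub (add (add (add (add C x12924) x12928) x12908) x12920) x12950) x12986) x12608) x10988) x11960) x7100) x10016) x17306) x19492)
  (sub (add (sub (add (add (add (add (sub (sub (sub (add (add (sub C x12936) x12946) x12958) x12898) x13042) x12610) x10990) x11962) x7102) x10018) x17308) x6372) x19496)
  (sub (sub (add (add (add (add (sub (sub (sub (sub (sub C x12934) x12942) x12900) x13044) x12612) x10992) x11964) x7104) x10020) x17310) x6376)
  (sub (sub (add (add (add (add (sub (sub (sub (sub (add (add C x12946) x12950) x12936) x12924) x13050) x12618) x10998) x11970) x7110) x10026) x17316) x6382)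
  (sub (add (sub (add (add (add (add (sub (sub (sub (add (add (add (add C x12942) x12950) x12934) x12958) x12928) x13054) x12622) x11002) x11974) x7114) x10030) x17320) x6384) x19508)
  (add (sub (add (add (add (add (sub (sub (sub (sub (add (add C x12942) x12946) x12956) x12932) x13058) x12626) x11006) x11978) x7118) x10034) x17324) x19510)
  (add (sub (add (add (add (add (sub (sub (add (add (sub (sub C x12958) x12950) x12884) x12920) x13064) x12632) x11012) x11984) x7124) x10040) x17330) x19516)
  (sub (add (sub (add (add (add (add (sub (sub (add (add (add (add (sub C x12956) x12934) x12946) x12886) x12922) x13066) x12634) x11014) x11986) x7126) x10042) x17332) x6396) x19520)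
  (add (sub (add (add (add (add (sub (sub (add (add (add (add (sub C x12966) x12974) x12986) x12998) x13034) x12908) x12800) x11018) x11990) x7130) x10046) x17336) x19522)
  (sub (sub (add (add (add (add (sub (sub (add (add (sub (sub C x12962) x12978) x13002) x13038) x12912) x12804) x11022) x11994) x7134) x10050) x17340) x6406)
  (add (sub (add (add (add (add (sub (sub (sub (add (add (sub C x12976) x12962) x12986) x12992) x12920) x12812) x11030) x12002) x7142) x10058) x17348) x19534)
  (sub (add (sub (add (add (add (add (sub (sub (sub (sub (sub C x12974) x12982) x12994) x12922) x12814) x11032) x12004) x7144) x10060) x17350) x6414) x19538)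
  (sub (sub (add (add (add (add (sub (sub (sub (sub (add (add C x12982) x12986) x12966) x13014) x12924) x12816) x11034) x12006) x7146) x10062) x17352) x6418)
  (sub (add (sub (add (add (add (add (sub (sub (sub (sub (add (add C x12978) x12986) x12976) x13018) x12928) x12820) x11038) x12010) x7150) x10066) x17356) x6420) x19544)
  (add (sub (add (add (add (add (sub (sub (sub (add (add (add (add C x12978) x12982) x12962) x12974) x13022) x12932) x12824) x11042) x12014) x7154) x10070) x17360) x19546)
  (add (sub (add (add (add (add (sub (add (add (sub (sub (sub C x12994) x12998) x12974) x12884) x13100) x12830) x11048) x12020) x7160) x10076) x17366) x19552)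
  (sub (add (sub (add (add (add (add (sub (add (add (sub (sub (sub C x12992) x13006) x12976) x12886) x13102) x12832) x11050) x12022) x7162) x10078) x17368) x6432) x19556)
  (add (sub (add (add (add (add (sub (add (add (add (add (sub (sub C x13002) x12992) x12962) x13034) x12890) x13106) x12836) x11054) x12026) x7166) x10082) x17372) x19558)
  (sub (sub (add (add (add (add (sub (add (add (add (add (sub (sub C x12998) x13008) x12966) x13038) x12894) x13110) x12840) x11058) x12030) x7170) x10086) x17376) x6442)
  (sub (add (sub (add (add (add (add (sub (add (add (sub (sub (sub C x13008) x12994) x13024) x12898) x13114) x12844) x11062) x12034) x7174) x10090) x17380) x6444) x19568)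
  (sub (sub (add (add (add (add (sub (add (add (sub (sub (sub C x13006) x13002) x13026) x12900) x13116) x12846) x11064) x12036) x7176) x10092) x17382) x6448)
  (sub (sub (add (add (add (add (sub (sub (sub (add (add (add (add C x13018) x13022) x13026) x13038) x12978) x13068) x12852) x11070) x12042) x7182) x10098) x17388) x6454)
  (sub (add (sub (add (add (add (add (sub (sub (sub (sub (add (add C x13014) x13022) x13024) x12982) x13072) x12856) x11074) x12046) x7186) x10102) x17392) x6456) x19580)
  (add (sub (add (add (add (add (sub (sub (sub (sub (add (add C x13014) x13018) x13034) x12986) x13076) x12860) x11078) x12050) x7190) x10106) x17396) x19582)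
  (sub (add (sub (add (add (add (add (sub (sub (sub (sub (sub C x13026) x13018) x13006) x13078) x12862) x11080) x12052) x7192) x10108) x17398) x6462) x19586)
  (sub (sub (add (add (add (add (sub (sub (sub (add (add (sub C x13024) x13014) x13038) x13008) x13080) x12864) x11082) x12054) x7194) x10110) x17400) x6466)
  (add (sub (add (add (add (add (sub (sub (add (add (sub (sub C x13038) x13022) x12962) x12998) x13088) x12872) x11090) x12062) x7202) x10118) x17408) x19594)
  (sub (sub (add (add (add (add (sub (sub (add (add (add (add (sub C x13034) x13014) x13026) x12966) x13002) x13092) x12876) x11094) x12066) x7206) x10122) x17412) x6478)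
  (sub (add (sub (add (add (add (add (add (add (sub (add (add (add (add (sub C x13044) x13054) x13066) x13078) x13114) x12934) x12394) x12718) x11098) x12070) x7210) x10126) x17416) x6480) x19604)
  (sub (sub (add (add (add (add (add (add (sub (add (add (sub (sub C x13042) x13050) x13080) x13116) x12936) x12396) x12720) x11100) x12072) x7212) x10128) x17418) x6484)
  (sub (sub (add (add (add (add (add (add (sub (sub (sub (add (add C x13054) x13058) x13044) x13068) x12942) x12402) x12726) x11106) x12078) x7218) x10134) x17424) x6490)
  (sub (add (sub (add (add (add (add (add (add (sub (sub (add (add (add (add C x13050) x13058) x13042) x13066) x13072) x12946) x12406) x12730) x11110) x12082) x7222) x10138) x17428) x6492) x19616)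
  (add (sub (add (add (add (add (add (add (sub (sub (sub (add (add C x13050) x13054) x13064) x13076) x12950) x12410) x12734) x11114) x12086) x7226) x10142) x17432) x19618)
  (add (sub (add (add (add (add (add (add (sub (sub (sub (sub C x13066) x13058) x13100) x12956) x12416) x12740) x11120) x12092) x7232) x10148) x17438) x19624)
  (sub (add (sub (add (add (add (add (add (add (sub (sub (add (add (sub C x13064) x13042) x13054) x13102) x12958) x12418) x12742) x11122) x12094) x7234) x10150) x17440) x6504) x19628)
  (sub (sub (add (add (add (add (add (add (sub (sub (add (add (add (add C x13072) x13076) x13080) x13092) x13050) x13014) x12420) x12744) x11124) x12096) x7236) x10152) x17442) x6508)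
  (sub (add (sub (add (add (add (add (add (add (sub (sub (sub (add (add C x13068) x13076) x13078) x13054) x13018) x12424) x12748) x11128) x12100) x7240) x10156) x17446) x6510) x19634)
  (add (sub (add (add (add (add (add (add (sub (sub (sub (add (add C x13068) x13072) x13088) x13058) x13022) x12428) x12752) x11132) x12104) x7244) x10160) x17450) x19636)
  (sub (add (sub (add (add (add (add (add (add (sub (add (add (sub (sub C x13080) x13072) x13042) x13114) x13024) x12430) x12754) x11134) x12106) x7246) x10162) x17452) x6516) x19640)
  (sub (sub (add (add (add (add (add (add (sub (add (add (add (add (sub C x13078) x13068) x13092) x13044) x13116) x13026) x12432) x12756) x11136) x12108) x7248) x10164) x17454) x6520)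
  (add (sub (add (add (add (add (add (add (sub (sub (sub (sub C x13092) x13076) x13106) x13034) x12440) x12764) x11144) x12116) x7256) x10172) x17462) x19648)
  (sub (sub (add (add (add (add (add (add (sub (sub (add (add (sub C x13088) x13068) x13080) x13110) x13038) x12444) x12768) x11148) x12120) x7260) x10176) x17466) x6532)
  (add (sub (add (add (add (add (add (add (add (add (sub (sub (sub C x13102) x13106) x13064) x12884) x12992) x12452) x12776) x11156) x12128) x7268) x10184) x17474) x19660)
  (sub (add (sub (add (add (add (add (add (add (add (add (sub (sub (sub C x13100) x13114) x13066) x12886) x12994) x12454) x12778) x11158) x12130) x7270) x10186) x17476) x6540) x19664)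
  (add (sub (add (add (add (add (add (add (add (add (sub (sub (sub C x13110) x13100) x13088) x12890) x12998) x12458) x12782) x11162) x12134) x7274) x10190) x17480) x19666)
  (sub (sub (add (add (add (add (add (add (add (add (sub (sub (sub C x13106) x13116) x13092) x12894) x13002) x12462) x12786) x11166) x12138) x7278) x10194) x17484) x6550)
  (sub (add (sub (add (add (add (add (add (add (add (add (add (add (sub (sub C x13116) x13102) x13042) x13078) x12898) x13006) x12466) x12790) x11170) x12142) x7282) x10198) x17488) x6552) x19676)
  (sub (sub (add (add (add (add (add (add (add (add (add (add (sub (sub C x13114) x13110) x13044) x13080) x12900) x13008) x12468) x12792) x11172) x12144) x7284) x10200) x17490) x6556)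
  (sub (sub (sub (add (add (add (add (add (add (add (add (add (add (add (add (sub C x13128) x13136) x13148) x13160) x13196) x13232) x13340) x13448) x13772) x14096) x15068) x16040) x18956) x4376) x0) x6562)
  (add (sub (add (add (add (add (add (add (add (add (add (add (sub (sub C x13124) x13140) x13164) x13200) x13236) x13344) x13452) x13776) x14100) x15072) x16044) x18960) x4380) x8)
  (sub (sub (sub (add (add (add (add (add (add (add (add (sub (add (add (sub C x13138) x13124) x13148) x13154) x13244) x13352) x13460) x13784) x14108) x15080) x16052) x18968) x4388) x12) x6574)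
  (add (sub (add (add (add (add (add (add (add (add (sub (sub (sub C x13136) x13144) x13156) x13246) x13354) x13462) x13786) x14110) x15082) x16054) x18970) x4390) x6578)
  (add (sub (add (add (add (add (add (add (add (add (sub (sub (add (add C x13144) x13148) x13128) x13176) x13248) x13356) x13464) x13788) x14112) x15084) x16056) x18972) x4392) x20)
  (add (sub (add (add (add (add (add (add (add (add (sub (sub (add (add C x13140) x13148) x13138) x13180) x13252) x13360) x13468) x13792) x14116) x15088) x16060) x18976) x4396) x6584)
  (sub (sub (sub (add (add (add (add (add (add (add (add (sub (add (add (add (add C x13140) x13144) x13124) x13136) x13184) x13256) x13364) x13472) x13796) x14120) x15092) x16064) x18980) x4400) x24) x6586)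
  (sub (sub (sub (add (add (add (add (add (add (sub (sub (sub (sub C x13156) x13160) x13136) x13208) x13478) x13802) x14126) x15098) x16070) x18986) x4406) x30) x6592)
  (add (sub (add (add (add (add (add (add (sub (sub (sub (sub C x13154) x13168) x13138) x13210) x13480) x13804) x14128) x15100) x16072) x18988) x4408) x6596)
  (sub (sub (sub (add (add (add (add (add (add (sub (add (add (sub (sub C x13164) x13154) x13124) x13196) x13214) x13484) x13808) x14132) x15104) x16076) x18992) x4412) x36) x6598)
  (add (sub (add (add (add (add (add (add (sub (add (add (sub (sub C x13160) x13170) x13128) x13200) x13218) x13488) x13812) x14136) x15108) x16080) x18996) x4416) x44)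
  (add (sub (add (add (add (add (add (add (sub (sub (sub (sub C x13170) x13156) x13186) x13222) x13492) x13816) x14140) x15112) x16084) x19000) x4420) x6608)
  (add (sub (add (add (add (add (add (add (sub (sub (sub (sub C x13168) x13164) x13188) x13224) x13494) x13818) x14142) x15114) x16086) x19002) x4422) x50)
  (add (sub (add (add (add (add (add (add (sub (sub (add (add (add (add C x13180) x13184) x13188) x13200) x13140) x13284) x13500) x13824) x14148) x15120) x16092) x19008) x4428) x56)
  (add (sub (add (add (add (add (add (add (sub (sub (sub (add (add C x13176) x13184) x13186) x13144) x13288) x13504) x13828) x14152) x15124) x16096) x19012) x4432) x6620)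
  (sub (sub (sub (add (add (add (add (add (add (sub (sub (sub (add (add C x13176) x13180) x13196) x13148) x13292) x13508) x13832) x14156) x15128) x16100) x19016) x4436) x60) x6622)
  (add (sub (add (add (add (add (add (add (sub (sub (sub (sub C x13188) x13180) x13168) x13294) x13510) x13834) x14158) x15130) x16102) x19018) x4438) x6626)
  (add (sub (add (add (add (add (add (add (sub (sub (add (add (sub C x13186) x13176) x13200) x13170) x13296) x13512) x13836) x14160) x15132) x16104) x19020) x4440) x68)
  (sub (sub (sub (add (add (add (add (add (add (sub (add (add (sub (sub C x13200) x13184) x13124) x13160) x13304) x13520) x13844) x14168) x15140) x16112) x19028) x4448) x72) x6634)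
  (add (sub (add (add (add (add (add (add (sub (add (add (add (add (sub C x13196) x13176) x13188) x13128) x13164) x13308) x13524) x13848) x14172) x15144) x16116) x19032) x4452) x80)
  (sub (sub (sub (add (add (add (add (sub (sub (add (add (sub (sub C x13210) x13214) x13244) x13280) x13154) x13370) x14180) x15152) x16124) x19040) x4460) x84) x6646)
  (add (sub (add (add (add (add (sub (sub (add (add (sub (sub C x13208) x13222) x13246) x13282) x13156) x13372) x14182) x15154) x16126) x19042) x4462) x6650)
  (sub (sub (sub (add (add (add (add (sub (sub (sub (sub (sub C x13218) x13208) x13232) x13160) x13376) x14186) x15158) x16130) x19046) x4466) x90) x6652)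
  (add (sub (add (add (add (add (sub (sub (sub (sub (sub C x13214) x13224) x13236) x13164) x13380) x14190) x15162) x16134) x19050) x4470) x98)
  (add (sub (add (add (add (add (sub (sub (sub (sub (sub C x13224) x13210) x13258) x13168) x13384) x14194) x15166) x16138) x19054) x4474) x6662)
  (add (sub (add (add (add (add (sub (sub (sub (sub (sub C x13222) x13218) x13260) x13170) x13386) x14196) x15168) x16140) x19056) x4476) x104)
  (sub (sub (sub (add (add (add (add (sub (add (add (sub (add (add (sub C x13236) x13244) x13256) x13214) x13124) x13340) x13394) x14204) x15176) x16148) x19064) x4484) x108) x6670)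
  (add (sub (add (add (add (add (sub (add (add (sub (sub (sub C x13232) x13248) x13218) x13128) x13344) x13398) x14208) x15180) x16152) x19068) x4488) x116)
  (sub (sub (sub (add (add (add (add (sub (add (add (add (add (add (add (sub C x13246) x13232) x13256) x13208) x13280) x13136) x13352) x13406) x14216) x15188) x16160) x19076) x4496) x120) x6682)
  (add (sub (add (add (add (add (sub (add (add (add (add (sub (sub C x13244) x13252) x13210) x13282) x13138) x13354) x13408) x14218) x15190) x16162) x19078) x4498) x6686)
  (add (sub (add (add (add (add (sub (add (add (sub (sub (add (add C x13252) x13256) x13236) x13266) x13140) x13356) x13410) x14220) x15192) x16164) x19080) x4500) x128)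
  (add (sub (add (add (add (add (sub (add (add (sub (sub (add (add C x13248) x13256) x13246) x13270) x13144) x13360) x13414) x14224) x15196) x16168) x19084) x4504) x6692)
  (sub (sub (sub (add (add (add (add (sub (add (add (sub (add (add (add (add C x13248) x13252) x13232) x13244) x13274) x13148) x13364) x13418) x14228) x15200) x16172) x19088) x4508) x132) x6694)
  (add (sub (add (add (add (add (sub (sub (sub (add (add (sub C x13260) x13270) x13282) x13222) x13312) x13420) x14230) x15202) x16174) x19090) x4510) x6698)
  (add (sub (add (add (add (add (sub (sub (sub (sub (sub C x13258) x13266) x13224) x13314) x13422) x14232) x15204) x16176) x19092) x4512) x140)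
  (add (sub (add (add (add (add (sub (sub (sub (sub (add (add C x13270) x13274) x13260) x13248) x13320) x13428) x14238) x15210) x16182) x19098) x4518) x146)
  (add (sub (add (add (add (add (sub (sub (sub (add (add (add (add C x13266) x13274) x13258) x13282) x13252) x13324) x13432) x14242) x15214) x16186) x19102) x4522) x6710)
  (sub (sub (sub (add (add (add (add (sub (sub (sub (sub (add (add C x13266) x13270) x13280) x13256) x13328) x13436) x14246) x15218) x16190) x19106) x4526) x150) x6712)
  (sub (sub (sub (add (add (add (add (sub (sub (add (add (sub (sub C x13282) x13274) x13208) x13244) x13334) x13442) x14252) x15224) x16196) x19112) x4532) x156) x6718)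
  (add (sub (add (add (add (add (sub (sub (add (add (add (add (sub C x13280) x13258) x13270) x13210) x13246) x13336) x13444) x14254) x15226) x16198) x19114) x4534) x6722)
  (add (sub (add (add (add (add (sub (sub (add (add (add (add (add (add C x13288) x13292) x13296) x13308) x13320) x13356) x13176) x13608) x14256) x15228) x16200) x19116) x4536) x164)
  (add (sub (add (add (add (add (sub (sub (add (add (sub (add (add C x13284) x13292) x13294) x13324) x13360) x13180) x13612) x14260) x15232) x16204) x19120) x4540) x6728)
  (sub (sub (sub (add (add (add (add (sub (sub (add (add (sub (add (add C x13284) x13288) x13304) x13328) x13364) x13184) x13616) x14264) x15236) x16208) x19124) x4544) x168) x6730)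
  (add (sub (add (add (add (add (sub (sub (sub (sub (sub C x13296) x13288) x13312) x13186) x13618) x14266) x15238) x16210) x19126) x4546) x6734)
  (add (sub (add (add (add (add (sub (sub (sub (add (add (sub C x13294) x13284) x13308) x13314) x13188) x13620) x14268) x15240) x16212) x19128) x4548) x176)
  (sub (sub (sub (add (add (add (add (sub (sub (sub (sub (sub C x13308) x13292) x13340) x13196) x13628) x14276) x15248) x16220) x19136) x4556) x180) x6742)
  (add (sub (add (add (add (add (sub (sub (sub (add (add (sub C x13304) x13284) x13296) x13344) x13200) x13632) x14280) x15252) x16224) x19140) x4560) x188)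
  (add (sub (add (add (add (add (sub (sub (sub (add (add (sub C x13314) x13324) x13336) x13294) x13258) x13636) x14284) x15256) x16228) x19144) x4564) x6752)
  (add (sub (add (add (add (add (sub (sub (sub (sub (sub C x13312) x13320) x13296) x13260) x13638) x14286) x15258) x16230) x19146) x4566) x194)
  (add (sub (add (add (add (add (sub (sub (add (add (sub (add (add C x13324) x13328) x13314) x13284) x13356) x13266) x13644) x14292) x15264) x16236) x19152) x4572) x200)
  (add (sub (add (add (add (add (sub (sub (add (add (add (add (add (add C x13320) x13328) x13312) x13336) x13288) x13360) x13270) x13648) x14296) x15268) x16240) x19156) x4576) x6764)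
  (sub (sub (sub (add (add (add (add (sub (sub (add (add (sub (add (add C x13320) x13324) x13334) x13292) x13364) x13274) x13652) x14300) x15272) x16244) x19160) x4580) x204) x6766)
  (sub (sub (sub (add (add (add (add (sub (sub (sub (sub (sub C x13336) x13328) x13352) x13280) x13658) x14306) x15278) x16250) x19166) x4586) x210) x6772)
  (add (sub (add (add (add (add (sub (sub (sub (add (add (sub C x13334) x13312) x13324) x13354) x13282) x13660) x14308) x15280) x16252) x19168) x4588) x6776)
  (sub (sub (sub (add (add (add (add (sub (add (add (sub (add (add (sub C x13344) x13352) x13364) x13304) x13124) x13232) x13664) x14312) x15284) x16256) x19172) x4592) x216) x6778)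
  (add (sub (add (add (add (add (sub (add (add (sub (sub (sub C x13340) x13356) x13308) x13128) x13236) x13668) x14316) x15288) x16260) x19176) x4596) x224)
  (sub (sub (sub (add (add (add (add (sub (add (add (sub (add (add (sub C x13354) x13340) x13364) x13334) x13136) x13244) x13676) x14324) x15296) x16268) x19184) x4604) x228) x6790)
  (add (sub (add (add (add (add (sub (add (add (sub (sub (sub C x13352) x13360) x13336) x13138) x13246) x13678) x14326) x15298) x16270) x19186) x4606) x6794)
  (add (sub (add (add (add (add (sub (add (add (add (add (sub (add (add C x13360) x13364) x13344) x13284) x13320) x13140) x13248) x13680) x14328) x15300) x16272) x19188) x4608) x236)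
  (add (sub (add (add (add (add (sub (add (add (add (add (sub (add (add C x13356) x13364) x13354) x13288) x13324) x13144) x13252) x13684) x14332) x15304) x16276) x19192) x4612) x6800)
  (sub (sub (sub (add (add (add (add (sub (add (add (add (add (add (add (add (add C x13356) x13360) x13340) x13352) x13292) x13328) x13148) x13256) x13688) x14336) x15308) x16280) x19196) x4616) x240) x6802)
  (sub (sub (sub (add (add (sub (sub (add (add (add (add (sub (sub C x13372) x13376) x13406) x13442) x13478) x13586) x13208) x13856) x16286) x19202) x4622) x246) x6808)
  (add (sub (add (add (sub (sub (add (add (add (add (sub (sub C x13370) x13384) x13408) x13444) x13480) x13588) x13210) x13858) x16288) x19204) x4624) x6812)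
  (sub (sub (sub (add (add (sub (sub (add (add (sub (sub (sub C x13380) x13370) x13394) x13484) x13592) x13214) x13862) x16292) x19208) x4628) x252) x6814)
  (add (sub (add (add (sub (sub (add (add (sub (sub (sub C x13376) x13386) x13398) x13488) x13596) x13218) x13866) x16296) x19212) x4632) x260)
  (add (sub (add (add (sub (sub (add (add (sub (sub (sub C x13386) x13372) x13420) x13492) x13600) x13222) x13870) x16300) x19216) x4636) x6824)
  (add (sub (add (add (sub (sub (add (add (sub (sub (sub C x13384) x13380) x13422) x13494) x13602) x13224) x13872) x16302) x19218) x4638) x266)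
  (sub (sub (sub (add (add (sub (sub (sub (sub (add (add (sub C x13398) x13406) x13418) x13376) x13448) x13232) x13880) x16310) x19226) x4646) x270) x6832)
  (add (sub (add (add (sub (sub (sub (sub (sub (sub C x13394) x13410) x13380) x13452) x13236) x13884) x16314) x19230) x4650) x278)
  (sub (sub (sub (add (add (sub (sub (sub (add (add (add (add (sub C x13408) x13394) x13418) x13370) x13442) x13460) x13244) x13892) x16322) x19238) x4658) x282) x6844)
  (add (sub (add (add (sub (sub (sub (add (add (sub (sub C x13406) x13414) x13372) x13444) x13462) x13246) x13894) x16324) x19240) x4660) x6848)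
  (add (sub (add (add (sub (sub (sub (sub (sub (add (add C x13414) x13418) x13398) x13428) x13464) x13248) x13896) x16326) x19242) x4662) x290)
  (add (sub (add (add (sub (sub (sub (sub (sub (add (add C x13410) x13418) x13408) x13432) x13468) x13252) x13900) x16330) x19246) x4666) x6854)
  (sub (sub (sub (add (add (sub (sub (sub (sub (add (add (add (add C x13410) x13414) x13394) x13406) x13436) x13472) x13256) x13904) x16334) x19250) x4670) x294) x6856)
  (add (sub (add (add (sub (sub (sub (sub (add (add (sub C x13422) x13432) x13444) x13384) x13528) x13258) x13906) x16336) x19252) x4672) x6860)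
  (add (sub (add (add (sub (sub (sub (sub (sub (sub C x13420) x13428) x13386) x13530) x13260) x13908) x16338) x19254) x4674) x302)
  (add (sub (add (add (sub (sub (sub (sub (sub (add (add C x13432) x13436) x13422) x13410) x13536) x13266) x13914) x16344) x19260) x4680) x308)
  (add (sub (add (add (sub (sub (sub (sub (add (add (add (add C x13428) x13436) x13420) x13444) x13414) x13540) x13270) x13918) x16348) x19264) x4684) x6872)
  (sub (sub (sub (add (add (sub (sub (sub (sub (sub (add (add C x13428) x13432) x13442) x13418) x13544) x13274) x13922) x16352) x19268) x4688) x312) x6874)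
  (sub (sub (sub (add (add (sub (sub (sub (add (add (sub (sub C x13444) x13436) x13370) x13406) x13550) x13280) x13928) x16358) x19274) x4694) x318) x6880)
  (add (sub (add (add (sub (sub (sub (add (add (add (add (sub C x13442) x13420) x13432) x13372) x13408) x13552) x13282) x13930) x16360) x19276) x4696) x6884)
  (sub (sub (sub (add (add (sub (add (add (sub (add (add (add (add (sub C x13452) x13460) x13472) x13484) x13520) x13394) x13124) x13772) x13934) x16364) x19280) x4700) x324) x6886)
  (add (sub (add (add (sub (add (add (sub (add (add (sub (sub C x13448) x13464) x13488) x13524) x13398) x13128) x13776) x13938) x16368) x19284) x4704) x332)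
  (sub (sub (sub (add (add (sub (add (add (sub (sub (add (add (sub C x13462) x13448) x13472) x13478) x13406) x13136) x13784) x13946) x16376) x19292) x4712) x336) x6898)
  (add (sub (add (add (sub (add (add (sub (sub (sub (sub C x13460) x13468) x13480) x13408) x13138) x13786) x13948) x16378) x19294) x4714) x6902)
  (add (sub (add (add (sub (add (add (sub (sub (sub (add (add C x13468) x13472) x13452) x13500) x13410) x13140) x13788) x13950) x16380) x19296) x4716) x344)
  (add (sub (add (add (sub (add (add (sub (sub (sub (add (add C x13464) x13472) x13462) x13504) x13414) x13144) x13792) x13954) x16384) x19300) x4720) x6908)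
  (sub (sub (sub (add (add (sub (add (add (sub (sub (add (add (add (add C x13464) x13468) x13448) x13460) x13508) x13418) x13148) x13796) x13958) x16388) x19304) x4724) x348) x6910)
  (sub (sub (sub (add (add (sub (add (add (add (add (sub (sub (sub C x13480) x13484) x13460) x13370) x13586) x13154) x13802) x13964) x16394) x19310) x4730) x354) x6916)
  (add (sub (add (add (sub (add (add (add (add (sub (sub (sub C x13478) x13492) x13462) x13372) x13588) x13156) x13804) x13966) x16396) x19312) x4732) x6920)
  (sub (sub (sub (add (add (sub (add (add (add (add (add (add (sub (sub C x13488) x13478) x13448) x13520) x13376) x13592) x13160) x13808) x13970) x16400) x19316) x4736) x360) x6922)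
  (add (sub (add (add (sub (add (add (add (add (add (add (sub (sub C x13484) x13494) x13452) x13524) x13380) x13596) x13164) x13812) x13974) x16404) x19320) x4740) x368)
  (add (sub (add (add (sub (add (add (add (add (sub (sub (sub C x13494) x13480) x13510) x13384) x13600) x13168) x13816) x13978) x16408) x19324) x4744) x6932)
  (add (sub (add (add (sub (add (add (add (add (sub (sub (sub C x13492) x13488) x13512) x13386) x13602) x13170) x13818) x13980) x16410) x19326) x4746) x374)
  (add (sub (add (add (sub (add (add (sub (sub (add (add (add (add C x13504) x13508) x13512) x13524) x13464) x13554) x13176) x13824) x13986) x16416) x19332) x4752) x380)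
  (add (sub (add (add (sub (add (add (sub (sub (sub (add (add C x13500) x13508) x13510) x13468) x13558) x13180) x13828) x13990) x16420) x19336) x4756) x6944)
  (sub (sub (sub (add (add (sub (add (add (sub (sub (sub (add (add C x13500) x13504) x13520) x13472) x13562) x13184) x13832) x13994) x16424) x19340) x4760) x384) x6946)
  (add (sub (add (add (sub (add (add (sub (sub (sub (sub C x13512) x13504) x13492) x13564) x13186) x13834) x13996) x16426) x19342) x4762) x6950)
  (add (sub (add (add (sub (add (add (sub (sub (add (add (sub C x13510) x13500) x13524) x13494) x13566) x13188) x13836) x13998) x16428) x19344) x4764) x392)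
  (sub (sub (sub (add (add (sub (add (add (sub (add (add (sub (sub C x13524) x13508) x13448) x13484) x13574) x13196) x13844) x14006) x16436) x19352) x4772) x396) x6958)
  (add (sub (add (add (sub (add (add (sub (add (add (add (add (sub C x13520) x13500) x13512) x13452) x13488) x13578) x13200) x13848) x14010) x16440) x19356) x4776) x404)
  (add (sub (add (add (sub (sub (sub (add (add (add (add (sub C x13530) x13540) x13552) x13564) x13600) x13420) x13690) x14014) x16444) x19360) x4780) x6968)
  (add (sub (add (add (sub (sub (sub (add (add (sub (sub C x13528) x13536) x13566) x13602) x13422) x13692) x14016) x16446) x19362) x4782) x410)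
  (add (sub (add (add (sub (sub (sub (sub (sub (add (add C x13540) x13544) x13530) x13554) x13428) x13698) x14022) x16452) x19368) x4788) x416)
  (add (sub (add (add (sub (sub (sub (sub (add (add (add (add C x13536) x13544) x13528) x13552) x13558) x13432) x13702) x14026) x16456) x19372) x4792) x6980)
  (sub (sub (sub (add (add (sub (sub (sub (sub (sub (add (add C x13536) x13540) x13550) x13562) x13436) x13706) x14030) x16460) x19376) x4796) x420) x6982)
  (sub (sub (sub (add (add (sub (sub (sub (sub (sub (sub C x13552) x13544) x13586) x13442) x13712) x14036) x16466) x19382) x4802) x426) x6988)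
  (add (sub (add (add (sub (sub (sub (sub (add (add (sub C x13550) x13528) x13540) x13588) x13444) x13714) x14038) x16468) x19384) x4804) x6992)
  (add (sub (add (add (sub (sub (sub (sub (add (add (add (add C x13558) x13562) x13566) x13578) x13536) x13500) x13716) x14040) x16470) x19386) x4806) x434)
  (add (sub (add (add (sub (sub (sub (sub (sub (add (add C x13554) x13562) x13564) x13540) x13504) x13720) x14044) x16474) x19390) x4810) x6998)
  (sub (sub (sub (add (add (sub (sub (sub (sub (sub (add (add C x13554) x13558) x13574) x13544) x13508) x13724) x14048) x16478) x19394) x4814) x438) x7000)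
  (add (sub (add (add (sub (sub (sub (add (add (sub (sub C x13566) x13558) x13528) x13600) x13510) x13726) x14050) x16480) x19396) x4816) x7004)
  (add (sub (add (add (sub (sub (sub (add (add (add (add (sub C x13564) x13554) x13578) x13530) x13602) x13512) x13728) x14052) x16482) x19398) x4818) x446)
  (sub (sub (sub (add (add (sub (sub (sub (sub (sub (sub C x13578) x13562) x13592) x13520) x13736) x14060) x16490) x19406) x4826) x450) x7012)
  (add (sub (add (add (sub (sub (sub (sub (add (add (sub C x13574) x13554) x13566) x13596) x13524) x13740) x14064) x16494) x19410) x4830) x458)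
  (sub (sub (sub (add (add (sub (sub (add (add (sub (sub (sub C x13588) x13592) x13550) x13370) x13478) x13748) x14072) x16502) x19418) x4838) x462) x7024)
  (add (sub (add (add (sub (sub (add (add (sub (sub (sub C x13586) x13600) x13552) x13372) x13480) x13750) x14074) x16504) x19420) x4840) x7028)
  (sub (sub (sub (add (add (sub (sub (add (add (sub (sub (sub C x13596) x13586) x13574) x13376) x13484) x13754) x14078) x16508) x19424) x4844) x468) x7030)
  (add (sub (add (add (sub (sub (add (add (sub (sub (sub C x13592) x13602) x13578) x13380) x13488) x13758) x14082) x16512) x19428) x4848) x476)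
  (add (sub (add (add (sub (sub (add (add (add (add (sub (sub C x13602) x13588) x13528) x13564) x13384) x13492) x13762) x14086) x16516) x19432) x4852) x7040)
  (add (sub (add (add (sub (sub (add (add (add (add (sub (sub C x13600) x13596) x13530) x13566) x13386) x13494) x13764) x14088) x16518) x19434) x4854) x482)
  (add (sub (add (add (sub (sub (add (add (add (add (add (add (add (add C x13612) x13616) x13620) x13632) x13644) x13680) x13716) x13824) x13284) x14580) x16524) x19440) x4860) x488)
  (add (sub (add (add (sub (sub (add (add (add (add (sub (add (add C x13608) x13616) x13618) x13648) x13684) x13720) x13828) x13288) x14584) x16528) x19444) x4864) x7052)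
  (sub (sub (sub (add (add (sub (sub (add (add (add (add (sub (add (add C x13608) x13612) x13628) x13652) x13688) x13724) x13832) x13292) x14588) x16532) x19448) x4868) x492) x7054)
  (add (sub (add (add (sub (sub (add (add (sub (sub (sub C x13620) x13612) x13636) x13726) x13834) x13294) x14590) x16534) x19450) x4870) x7058)
  (add (sub (add (add (sub (sub (add (add (sub (add (add (sub C x13618) x13608) x13632) x13638) x13728) x13836) x13296) x14592) x16536) x19452) x4872) x500)
  (sub (sub (sub (add (add (sub (sub (add (add (sub (sub (sub C x13632) x13616) x13664) x13736) x13844) x13304) x14600) x16544) x19460) x4880) x504) x7066)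
  (add (sub (add (add (sub (sub (add (add (sub (add (add (sub C x13628) x13608) x13620) x13668) x13740) x13848) x13308) x14604) x16548) x19464) x4884) x512)
  (add (sub (add (add (sub (sub (sub (sub (add (add (sub C x13638) x13648) x13660) x13618) x13690) x13312) x14608) x16552) x19468) x4888) x7076)
  (add (sub (add (add (sub (sub (sub (sub (sub (sub C x13636) x13644) x13620) x13692) x13314) x14610) x16554) x19470) x4890) x518)
  (add (sub (add (add (sub (sub (sub (add (add (sub (add (add C x13648) x13652) x13638) x13608) x13680) x13698) x13320) x14616) x16560) x19476) x4896) x524)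
  (add (sub (add (add (sub (sub (sub (add (add (add (add (add (add C x13644) x13652) x13636) x13660) x13612) x13684) x13702) x13324) x14620) x16564) x19480) x4900) x7088)
  (sub (sub (sub (add (add (sub (sub (sub (add (add (sub (add (add C x13644) x13648) x13658) x13616) x13688) x13706) x13328) x14624) x16568) x19484) x4904) x528) x7090)
  (sub (sub (sub (add (add (sub (sub (sub (sub (sub (sub C x13660) x13652) x13676) x13712) x13334) x14630) x16574) x19490) x4910) x534) x7096)
  (add (sub (add (add (sub (sub (sub (sub (add (add (sub C x13658) x13636) x13648) x13678) x13714) x13336) x14632) x16576) x19492) x4912) x7100)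
  (sub (sub (sub (add (add (sub (sub (sub (sub (add (add (sub C x13668) x13676) x13688) x13628) x13772) x13340) x14636) x16580) x19496) x4916) x540) x7102)
  (add (sub (add (add (sub (sub (sub (sub (sub (sub C x13664) x13680) x13632) x13776) x13344) x14640) x16584) x19500) x4920) x548)
  (sub (sub (sub (add (add (sub (sub (sub (sub (add (add (sub C x13678) x13664) x13688) x13658) x13784) x13352) x14648) x16592) x19508) x4928) x552) x7114)
  (add (sub (add (add (sub (sub (sub (sub (sub (sub C x13676) x13684) x13660) x13786) x13354) x14650) x16594) x19510) x4930) x7118)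
  (add (sub (add (add (sub (sub (sub (add (add (sub (add (add C x13684) x13688) x13668) x13608) x13644) x13788) x13356) x14652) x16596) x19512) x4932) x560)
  (add (sub (add (add (sub (sub (sub (add (add (sub (add (add C x13680) x13688) x13678) x13612) x13648) x13792) x13360) x14656) x16600) x19516) x4936) x7124)
  (sub (sub (sub (add (add (sub (sub (sub (add (add (add (add (add (add C x13680) x13684) x13664) x13676) x13616) x13652) x13796) x13364) x14660) x16604) x19520) x4940) x564) x7126)
  (add (sub (add (add (sub (sub (sub (add (add (add (add (sub C x13692) x13702) x13714) x13726) x13762) x13636) x13528) x14662) x16606) x19522) x4942) x7130)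
  (add (sub (add (add (sub (sub (sub (add (add (sub (sub C x13690) x13698) x13728) x13764) x13638) x13530) x14664) x16608) x19524) x4944) x572)
  (add (sub (add (add (sub (sub (sub (sub (sub (add (add C x13702) x13706) x13692) x13716) x13644) x13536) x14670) x16614) x19530) x4950) x578)
  (add (sub (add (add (sub (sub (sub (sub (add (add (add (add C x13698) x13706) x13690) x13714) x13720) x13648) x13540) x14674) x16618) x19534) x4954) x7142)
  (sub (sub (sub (add (add (sub (sub (sub (sub (sub (add (add C x13698) x13702) x13712) x13724) x13652) x13544) x14678) x16622) x19538) x4958) x582) x7144)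
  (sub (sub (sub (add (add (sub (sub (sub (sub (sub (sub C x13714) x13706) x13748) x13658) x13550) x14684) x16628) x19544) x4964) x588) x7150)
  (add (sub (add (add (sub (sub (sub (sub (add (add (sub C x13712) x13690) x13702) x13750) x13660) x13552) x14686) x16630) x19546) x4966) x7154)
  (add (sub (add (add (sub (sub (add (add (sub (add (add (add (add C x13720) x13724) x13728) x13740) x13698) x13608) x13824) x13554) x14688) x16632) x19548) x4968) x596)
  (add (sub (add (add (sub (sub (add (add (sub (sub (add (add C x13716) x13724) x13726) x13702) x13612) x13828) x13558) x14692) x16636) x19552) x4972) x7160)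
  (sub (sub (sub (add (add (sub (sub (add (add (sub (sub (add (add C x13716) x13720) x13736) x13706) x13616) x13832) x13562) x14696) x16640) x19556) x4976) x600) x7162)
  (add (sub (add (add (sub (sub (add (add (add (add (sub (sub C x13728) x13720) x13690) x13762) x13618) x13834) x13564) x14698) x16642) x19558) x4978) x7166)
  (add (sub (add (add (sub (sub (add (add (add (add (add (add (sub C x13726) x13716) x13740) x13692) x13764) x13620) x13836) x13566) x14700) x16644) x19560) x4980) x608)
  (sub (sub (sub (add (add (sub (sub (add (add (sub (sub (sub C x13740) x13724) x13754) x13628) x13844) x13574) x14708) x16652) x19568) x4988) x612) x7174)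
  (add (sub (add (add (sub (sub (add (add (sub (add (add (sub C x13736) x13716) x13728) x13758) x13632) x13848) x13578) x14712) x16656) x19572) x4992) x620)
  (sub (sub (sub (add (add (sub (sub (sub (sub (sub (sub C x13750) x13754) x13712) x13802) x13586) x14720) x16664) x19580) x5000) x624) x7186)
  (add (sub (add (add (sub (sub (sub (sub (sub (sub C x13748) x13762) x13714) x13804) x13588) x14722) x16666) x19582) x5002) x7190)
  (sub (sub (sub (add (add (sub (sub (sub (sub (sub (sub C x13758) x13748) x13736) x13808) x13592) x14726) x16670) x19586) x5006) x630) x7192)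
  (add (sub (add (add (sub (sub (sub (sub (sub (sub C x13754) x13764) x13740) x13812) x13596) x14730) x16674) x19590) x5010) x638)
  (add (sub (add (add (sub (sub (sub (add (add (sub (sub C x13764) x13750) x13690) x13726) x13816) x13600) x14734) x16678) x19594) x5014) x7202)
  (add (sub (add (add (sub (sub (sub (add (add (sub (sub C x13762) x13758) x13692) x13728) x13818) x13602) x14736) x16680) x19596) x5016) x644)
  (sub (sub (sub (add (add (sub (add (add (sub (add (add (add (add (sub C x13776) x13784) x13796) x13808) x13844) x13664) x13124) x13448) x14744) x16688) x19604) x5024) x648) x7210)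
  (add (sub (add (add (sub (add (add (sub (add (add (sub (sub C x13772) x13788) x13812) x13848) x13668) x13128) x13452) x14748) x16692) x19608) x5028) x656)
  (sub (sub (sub (add (add (sub (add (add (sub (sub (add (add (sub C x13786) x13772) x13796) x13802) x13676) x13136) x13460) x14756) x16700) x19616) x5036) x660) x7222)
  (add (sub (add (add (sub (add (add (sub (sub (sub (sub C x13784) x13792) x13804) x13678) x13138) x13462) x14758) x16702) x19618) x5038) x7226)
  (add (sub (add (add (sub (add (add (sub (sub (sub (add (add C x13792) x13796) x13776) x13824) x13680) x13140) x13464) x14760) x16704) x19620) x5040) x668)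
  (add (sub (add (add (sub (add (add (sub (sub (sub (add (add C x13788) x13796) x13786) x13828) x13684) x13144) x13468) x14764) x16708) x19624) x5044) x7232)
  (sub (sub (sub (add (add (sub (add (add (sub (sub (add (add (add (add C x13788) x13792) x13772) x13784) x13832) x13688) x13148) x13472) x14768) x16712) x19628) x5048) x672) x7234)
  (sub (sub (sub (add (add (sub (add (add (sub (sub (sub (sub C x13804) x13808) x13784) x13748) x13154) x13478) x14774) x16718) x19634) x5054) x678) x7240)
  (add (sub (add (add (sub (add (add (sub (sub (sub (sub C x13802) x13816) x13786) x13750) x13156) x13480) x14776) x16720) x19636) x5056) x7244)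
  (sub (sub (sub (add (add (sub (add (add (sub (add (add (sub (sub C x13812) x13802) x13772) x13844) x13754) x13160) x13484) x14780) x16724) x19640) x5060) x684) x7246)
  (add (sub (add (add (sub (add (add (sub (add (add (sub (sub C x13808) x13818) x13776) x13848) x13758) x13164) x13488) x14784) x16728) x19644) x5064) x692)
  (add (sub (add (add (sub (add (add (sub (sub (sub (sub C x13818) x13804) x13834) x13762) x13168) x13492) x14788) x16732) x19648) x5068) x7256)
  (add (sub (add (add (sub (add (add (sub (sub (sub (sub C x13816) x13812) x13836) x13764) x13170) x13494) x14790) x16734) x19650) x5070) x698)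
  (add (sub (add (add (sub (add (add (add (add (sub (add (add (add (add C x13828) x13832) x13836) x13848) x13788) x13608) x13716) x13176) x13500) x14796) x16740) x19656) x5076) x704)
  (add (sub (add (add (sub (add (add (add (add (sub (sub (add (add C x13824) x13832) x13834) x13792) x13612) x13720) x13180) x13504) x14800) x16744) x19660) x5080) x7268)
  (sub (sub (sub (add (add (sub (add (add (add (add (sub (sub (add (add C x13824) x13828) x13844) x13796) x13616) x13724) x13184) x13508) x14804) x16748) x19664) x5084) x708) x7270)
  (add (sub (add (add (sub (add (add (add (add (sub (sub (sub C x13836) x13828) x13816) x13618) x13726) x13186) x13510) x14806) x16750) x19666) x5086) x7274)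
  (add (sub (add (add (sub (add (add (add (add (sub (add (add (sub C x13834) x13824) x13848) x13818) x13620) x13728) x13188) x13512) x14808) x16752) x19668) x5088) x716)
  (sub (sub (sub (add (add (sub (add (add (add (add (add (add (sub (sub C x13848) x13832) x13772) x13808) x13628) x13736) x13196) x13520) x14816) x16760) x19676) x5096) x720) x7282)
  (add (sub (add (add (sub (add (add (add (add (add (add (add (add (sub C x13844) x13824) x13836) x13776) x13812) x13632) x13740) x13200) x13524) x14820) x16764) x19680) x5100) x728)
  (sub (sub (sub (sub (sub (add (add (add (add (add (add (sub (sub C x13858) x13862) x13892) x13928) x13964) x14072) x14180) x14504) x13370) x15314) x5108) x732) x7294)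
  (add (sub (sub (sub (add (add (add (add (add (add (sub (sub C x13856) x13870) x13894) x13930) x13966) x14074) x14182) x14506) x13372) x15316) x5110) x7298)
  (sub (sub (sub (sub (sub (add (add (add (add (sub (sub (sub C x13866) x13856) x13880) x13970) x14078) x14186) x14510) x13376) x15320) x5114) x738) x7300)
  (add (sub (sub (sub (add (add (add (add (sub (sub (sub C x13862) x13872) x13884) x13974) x14082) x14190) x14514) x13380) x15324) x5118) x746)
  (add (sub (sub (sub (add (add (add (add (sub (sub (sub C x13872) x13858) x13906) x13978) x14086) x14194) x14518) x13384) x15328) x5122) x7310)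
  (add (sub (sub (sub (add (add (add (add (sub (sub (sub C x13870) x13866) x13908) x13980) x14088) x14196) x14520) x13386) x15330) x5124) x752)
  (sub (sub (sub (sub (sub (add (add (sub (sub (add (add (sub C x13884) x13892) x13904) x13862) x13934) x14204) x14528) x13394) x15338) x5132) x756) x7318)
  (add (sub (sub (sub (add (add (sub (sub (sub (sub C x13880) x13896) x13866) x13938) x14208) x14532) x13398) x15342) x5136) x764)
  (sub (sub (sub (sub (sub (add (add (sub (add (add (add (add (sub C x13894) x13880) x13904) x13856) x13928) x13946) x14216) x14540) x13406) x15350) x5144) x768) x7330)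
  (add (sub (sub (sub (add (add (sub (add (add (sub (sub C x13892) x13900) x13858) x13930) x13948) x14218) x14542) x13408) x15352) x5146) x7334)
  (add (sub (sub (sub (add (add (sub (sub (sub (add (add C x13900) x13904) x13884) x13914) x13950) x14220) x14544) x13410) x15354) x5148) x776)
  (add (sub (sub (sub (add (add (sub (sub (sub (add (add C x13896) x13904) x13894) x13918) x13954) x14224) x14548) x13414) x15358) x5152) x7340)
  (sub (sub (sub (sub (sub (add (add (sub (sub (add (add (add (add C x13896) x13900) x13880) x13892) x13922) x13958) x14228) x14552) x13418) x15362) x5156) x780) x7342)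
  (add (sub (sub (sub (add (add (sub (sub (add (add (sub C x13908) x13918) x13930) x13870) x14014) x14230) x14554) x13420) x15364) x5158) x7346)
  (add (sub (sub (sub (add (add (sub (sub (sub (sub C x13906) x13914) x13872) x14016) x14232) x14556) x13422) x15366) x5160) x788)
  (add (sub (sub (sub (add (add (sub (sub (sub (add (add C x13918) x13922) x13908) x13896) x14022) x14238) x14562) x13428) x15372) x5166) x794)
  (add (sub (sub (sub (add (add (sub (sub (add (add (add (add C x13914) x13922) x13906) x13930) x13900) x14026) x14242) x14566) x13432) x15376) x5170) x7358)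
  (sub (sub (sub (sub (sub (add (add (sub (sub (sub (add (add C x13914) x13918) x13928) x13904) x14030) x14246) x14570) x13436) x15380) x5174) x798) x7360)
  (sub (sub (sub (sub (sub (add (add (sub (add (add (sub (sub C x13930) x13922) x13856) x13892) x14036) x14252) x14576) x13442) x15386) x5180) x804) x7366)
  (add (sub (sub (sub (add (add (sub (add (add (add (add (sub C x13928) x13906) x13918) x13858) x13894) x14038) x14254) x14578) x13444) x15388) x5182) x7370)
  (sub (sub (sub (sub (sub (sub (sub (add (add (add (add (sub C x13938) x13946) x13958) x13970) x14006) x13880) x14096) x13448) x15392) x5186) x810) x7372)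
  (add (sub (sub (sub (sub (sub (add (add (sub (sub C x13934) x13950) x13974) x14010) x13884) x14100) x13452) x15396) x5190) x818)
  (sub (sub (sub (sub (sub (sub (sub (sub (add (add (sub C x13948) x13934) x13958) x13964) x13892) x14108) x13460) x15404) x5198) x822) x7384)
  (add (sub (sub (sub (sub (sub (sub (sub (sub C x13946) x13954) x13966) x13894) x14110) x13462) x15406) x5200) x7388)
  (add (sub (sub (sub (sub (sub (sub (sub (add (add C x13954) x13958) x13938) x13986) x13896) x14112) x13464) x15408) x5202) x830)
  (add (sub (sub (sub (sub (sub (sub (sub (add (add C x13950) x13958) x13948) x13990) x13900) x14116) x13468) x15412) x5206) x7394)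
  (sub (sub (sub (sub (sub (sub (sub (sub (add (add (add (add C x13950) x13954) x13934) x13946) x13994) x13904) x14120) x13472) x15416) x5210) x834) x7396)
  (sub (sub (sub (sub (sub (sub (add (add (sub (sub (sub C x13966) x13970) x13946) x13856) x14072) x14126) x13478) x15422) x5216) x840) x7402)
  (add (sub (sub (sub (sub (add (add (sub (sub (sub C x13964) x13978) x13948) x13858) x14074) x14128) x13480) x15424) x5218) x7406)
  (sub (sub (sub (sub (sub (sub (add (add (add (add (sub (sub C x13974) x13964) x13934) x14006) x13862) x14078) x14132) x13484) x15428) x5222) x846) x7408)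
  (add (sub (sub (sub (sub (add (add (add (add (sub (sub C x13970) x13980) x13938) x14010) x13866) x14082) x14136) x13488) x15432) x5226) x854)
  (add (sub (sub (sub (sub (add (add (sub (sub (sub C x13980) x13966) x13996) x13870) x14086) x14140) x13492) x15436) x5230) x7418)
  (add (sub (sub (sub (sub (add (add (sub (sub (sub C x13978) x13974) x13998) x13872) x14088) x14142) x13494) x15438) x5232) x860)
  (add (sub (sub (sub (sub (sub (sub (add (add (add (add C x13990) x13994) x13998) x14010) x13950) x14040) x14148) x13500) x15444) x5238) x866)
  (add (sub (sub (sub (sub (sub (sub (sub (add (add C x13986) x13994) x13996) x13954) x14044) x14152) x13504) x15448) x5242) x7430)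
  (sub (sub (sub (sub (sub (sub (sub (sub (sub (add (add C x13986) x13990) x14006) x13958) x14048) x14156) x13508) x15452) x5246) x870) x7432)
  (add (sub (sub (sub (sub (sub (sub (sub (sub C x13998) x13990) x13978) x14050) x14158) x13510) x15454) x5248) x7436)
  (add (sub (sub (sub (sub (sub (sub (add (add (sub C x13996) x13986) x14010) x13980) x14052) x14160) x13512) x15456) x5250) x878)
  (sub (sub (sub (sub (sub (sub (sub (add (add (sub (sub C x14010) x13994) x13934) x13970) x14060) x14168) x13520) x15464) x5258) x882) x7444)
  (add (sub (sub (sub (sub (sub (add (add (add (add (sub C x14006) x13986) x13998) x13938) x13974) x14064) x14172) x13524) x15468) x5262) x890)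
  (add (sub (sub (sub (sub (sub (add (add (add (add (sub C x14016) x14026) x14038) x14050) x14086) x13906) x14338) x13528) x15472) x5266) x7454)
  (add (sub (sub (sub (sub (sub (add (add (sub (sub C x14014) x14022) x14052) x14088) x13908) x14340) x13530) x15474) x5268) x896)
  (add (sub (sub (sub (sub (sub (sub (sub (add (add C x14026) x14030) x14016) x14040) x13914) x14346) x13536) x15480) x5274) x902)
  (add (sub (sub (sub (sub (sub (sub (add (add (add (add C x14022) x14030) x14014) x14038) x14044) x13918) x14350) x13540) x15484) x5278) x7466)
  (sub (sub (sub (sub (sub (sub (sub (sub (sub (add (add C x14022) x14026) x14036) x14048) x13922) x14354) x13544) x15488) x5282) x906) x7468)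
  (sub (sub (sub (sub (sub (sub (sub (sub (sub (sub C x14038) x14030) x14072) x13928) x14360) x13550) x15494) x5288) x912) x7474)
  (add (sub (sub (sub (sub (sub (sub (add (add (sub C x14036) x14014) x14026) x14074) x13930) x14362) x13552) x15496) x5290) x7478)
  (add (sub (sub (sub (sub (sub (sub (add (add (add (add C x14044) x14048) x14052) x14064) x14022) x13986) x14364) x13554) x15498) x5292) x920)
  (add (sub (sub (sub (sub (sub (sub (sub (add (add C x14040) x14048) x14050) x14026) x13990) x14368) x13558) x15502) x5296) x7484)
  (sub (sub (sub (sub (sub (sub (sub (sub (sub (add (add C x14040) x14044) x14060) x14030) x13994) x14372) x13562) x15506) x5300) x924) x7486)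
  (add (sub (sub (sub (sub (sub (add (add (sub (sub C x14052) x14044) x14014) x14086) x13996) x14374) x13564) x15508) x5302) x7490)
  (add (sub (sub (sub (sub (sub (add (add (add (add (sub C x14050) x14040) x14064) x14016) x14088) x13998) x14376) x13566) x15510) x5304) x932)
  (sub (sub (sub (sub (sub (sub (sub (sub (sub (sub C x14064) x14048) x14078) x14006) x14384) x13574) x15518) x5312) x936) x7498)
  (add (sub (sub (sub (sub (sub (sub (add (add (sub C x14060) x14040) x14052) x14082) x14010) x14388) x13578) x15522) x5316) x944)
  (sub (sub (sub (sub (sub (sub (add (add (sub (sub (sub C x14074) x14078) x14036) x13856) x13964) x14396) x13586) x15530) x5324) x948) x7510)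
  (add (sub (sub (sub (sub (add (add (sub (sub (sub C x14072) x14086) x14038) x13858) x13966) x14398) x13588) x15532) x5326) x7514)
  (sub (sub (sub (sub (sub (sub (add (add (sub (sub (sub C x14082) x14072) x14060) x13862) x13970) x14402) x13592) x15536) x5330) x954) x7516)
  (add (sub (sub (sub (sub (add (add (sub (sub (sub C x14078) x14088) x14064) x13866) x13974) x14406) x13596) x15540) x5334) x962)
  (add (sub (sub (sub (sub (add (add (add (add (sub (sub C x14088) x14074) x14014) x14050) x13870) x13978) x14410) x13600) x15544) x5338) x7526)
  (add (sub (sub (sub (sub (add (add (add (add (sub (sub C x14086) x14082) x14016) x14052) x13872) x13980) x14412) x13602) x15546) x5340) x968)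
  (sub (sub (sub (sub (add (add (sub (add (add (add (add (add (add (sub C x14100) x14108) x14120) x14132) x14168) x14204) x14312) x13934) x13124) x15068) x15554) x5348) x972) x7534)
  (add (sub (sub (add (add (sub (add (add (add (add (sub (sub C x14096) x14112) x14136) x14172) x14208) x14316) x13938) x13128) x15072) x15558) x5352) x980)
  (sub (sub (sub (sub (add (add (sub (add (add (sub (add (add (sub C x14110) x14096) x14120) x14126) x14216) x14324) x13946) x13136) x15080) x15566) x5360) x984) x7546)
  (add (sub (sub (add (add (sub (add (add (sub (sub (sub C x14108) x14116) x14128) x14218) x14326) x13948) x13138) x15082) x15568) x5362) x7550)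
  (add (sub (sub (add (add (sub (add (add (sub (sub (add (add C x14116) x14120) x14100) x14148) x14220) x14328) x13950) x13140) x15084) x15570) x5364) x992)
  (add (sub (sub (add (add (sub (add (add (sub (sub (add (add C x14112) x14120) x14110) x14152) x14224) x14332) x13954) x13144) x15088) x15574) x5368) x7556)
  (sub (sub (sub (sub (add (add (sub (add (add (sub (add (add (add (add C x14112) x14116) x14096) x14108) x14156) x14228) x14336) x13958) x13148) x15092) x15578) x5372) x996) x7558)
  (sub (sub (sub (sub (add (add (sub (sub (sub (sub (sub C x14128) x14132) x14108) x14180) x13964) x13154) x15098) x15584) x5378) x1002) x7564)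
  (add (sub (sub (add (add (sub (sub (sub (sub (sub C x14126) x14140) x14110) x14182) x13966) x13156) x15100) x15586) x5380) x7568)
  (sub (sub (sub (sub (add (add (sub (sub (add (add (sub (sub C x14136) x14126) x14096) x14168) x14186) x13970) x13160) x15104) x15590) x5384) x1008) x7570)
  (add (sub (sub (add (add (sub (sub (add (add (sub (sub C x14132) x14142) x14100) x14172) x14190) x13974) x13164) x15108) x15594) x5388) x1016)
  (add (sub (sub (add (add (sub (sub (sub (sub (sub C x14142) x14128) x14158) x14194) x13978) x13168) x15112) x15598) x5392) x7580)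
  (add (sub (sub (add (add (sub (sub (sub (sub (sub C x14140) x14136) x14160) x14196) x13980) x13170) x15114) x15600) x5394) x1022)
  (add (sub (sub (add (add (sub (sub (sub (add (add (add (add C x14152) x14156) x14160) x14172) x14112) x14256) x13986) x13176) x15120) x15606) x5400) x1028)
  (add (sub (sub (add (add (sub (sub (sub (sub (add (add C x14148) x14156) x14158) x14116) x14260) x13990) x13180) x15124) x15610) x5404) x7592)
  (sub (sub (sub (sub (add (add (sub (sub (sub (sub (add (add C x14148) x14152) x14168) x14120) x14264) x13994) x13184) x15128) x15614) x5408) x1032) x7594)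
  (add (sub (sub (add (add (sub (sub (sub (sub (sub C x14160) x14152) x14140) x14266) x13996) x13186) x15130) x15616) x5410) x7598)
  (add (sub (sub (add (add (sub (sub (sub (add (add (sub C x14158) x14148) x14172) x14142) x14268) x13998) x13188) x15132) x15618) x5412) x1040)
  (sub (sub (sub (sub (add (add (sub (sub (add (add (sub (sub C x14172) x14156) x14096) x14132) x14276) x14006) x13196) x15140) x15626) x5420) x1044) x7606)
  (add (sub (sub (add (add (sub (sub (add (add (add (add (sub C x14168) x14148) x14160) x14100) x14136) x14280) x14010) x13200) x15144) x15630) x5424) x1052)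
  (sub (sub (sub (sub (add (add (add (add (sub (add (add (sub (sub C x14182) x14186) x14216) x14252) x14126) x13856) x14504) x13208) x15152) x15638) x5432) x1056) x7618)
  (add (sub (sub (add (add (add (add (sub (add (add (sub (sub C x14180) x14194) x14218) x14254) x14128) x13858) x14506) x13210) x15154) x15640) x5434) x7622)
  (sub (sub (sub (sub (add (add (add (add (sub (sub (sub (sub C x14190) x14180) x14204) x14132) x13862) x14510) x13214) x15158) x15644) x5438) x1062) x7624)
  (add (sub (sub (add (add (add (add (sub (sub (sub (sub C x14186) x14196) x14208) x14136) x13866) x14514) x13218) x15162) x15648) x5442) x1070)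
  (add (sub (sub (add (add (add (add (sub (sub (sub (sub C x14196) x14182) x14230) x14140) x13870) x14518) x13222) x15166) x15652) x5446) x7634)
  (add (sub (sub (add (add (add (add (sub (sub (sub (sub C x14194) x14190) x14232) x14142) x13872) x14520) x13224) x15168) x15654) x5448) x1076)
  (sub (sub (sub (sub (add (add (add (add (add (add (sub (add (add (sub C x14208) x14216) x14228) x14186) x14096) x14312) x13880) x14528) x13232) x15176) x15662) x5456) x1080) x7642)
  (add (sub (sub (add (add (add (add (add (add (sub (sub (sub C x14204) x14220) x14190) x14100) x14316) x13884) x14532) x13236) x15180) x15666) x5460) x1088)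
  (sub (sub (sub (sub (add (add (add (add (add (add (add (add (add (add (sub C x14218) x14204) x14228) x14180) x14252) x14108) x14324) x13892) x14540) x13244) x15188) x15674) x5468) x1092) x7654)
  (add (sub (sub (add (add (add (add (add (add (add (add (sub (sub C x14216) x14224) x14182) x14254) x14110) x14326) x13894) x14542) x13246) x15190) x15676) x5470) x7658)
  (add (sub (sub (add (add (add (add (add (add (sub (sub (add (add C x14224) x14228) x14208) x14238) x14112) x14328) x13896) x14544) x13248) x15192) x15678) x5472) x1100)
  (add (sub (sub (add (add (add (add (add (add (sub (sub (add (add C x14220) x14228) x14218) x14242) x14116) x14332) x13900) x14548) x13252) x15196) x15682) x5476) x7664)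
  (sub (sub (sub (sub (add (add (add (add (add (add (sub (add (add (add (add C x14220) x14224) x14204) x14216) x14246) x14120) x14336) x13904) x14552) x13256) x15200) x15686) x5480) x1104) x7666)
  (add (sub (sub (add (add (add (add (sub (sub (add (add (sub C x14232) x14242) x14254) x14194) x14284) x13906) x14554) x13258) x15202) x15688) x5482) x7670)
  (add (sub (sub (add (add (add (add (sub (sub (sub (sub C x14230) x14238) x14196) x14286) x13908) x14556) x13260) x15204) x15690) x5484) x1112)
  (add (sub (sub (add (add (add (add (sub (sub (sub (add (add C x14242) x14246) x14232) x14220) x14292) x13914) x14562) x13266) x15210) x15696) x5490) x1118)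
  (add (sub (sub (add (add (add (add (sub (sub (add (add (add (add C x14238) x14246) x14230) x14254) x14224) x14296) x13918) x14566) x13270) x15214) x15700) x5494) x7682)
  (sub (sub (sub (sub (add (add (add (add (sub (sub (sub (add (add C x14238) x14242) x14252) x14228) x14300) x13922) x14570) x13274) x15218) x15704) x5498) x1122) x7684)
  (sub (sub (sub (sub (add (add (add (add (sub (add (add (sub (sub C x14254) x14246) x14180) x14216) x14306) x13928) x14576) x13280) x15224) x15710) x5504) x1128) x7690)
  (add (sub (sub (add (add (add (add (sub (add (add (add (add (sub C x14252) x14230) x14242) x14182) x14218) x14308) x13930) x14578) x13282) x15226) x15712) x5506) x7694)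
  (add (sub (sub (add (add (sub (sub (add (add (add (add (add (add C x14260) x14264) x14268) x14280) x14292) x14328) x14148) x14418) x13284) x15228) x15714) x5508) x1136)
  (add (sub (sub (add (add (sub (sub (add (add (sub (add (add C x14256) x14264) x14266) x14296) x14332) x14152) x14422) x13288) x15232) x15718) x5512) x7700)
  (sub (sub (sub (sub (add (add (sub (sub (add (add (sub (add (add C x14256) x14260) x14276) x14300) x14336) x14156) x14426) x13292) x15236) x15722) x5516) x1140) x7702)
  (add (sub (sub (add (add (sub (sub (sub (sub (sub C x14268) x14260) x14284) x14158) x14428) x13294) x15238) x15724) x5518) x7706)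
  (add (sub (sub (add (add (sub (sub (sub (add (add (sub C x14266) x14256) x14280) x14286) x14160) x14430) x13296) x15240) x15726) x5520) x1148)
  (sub (sub (sub (sub (add (add (sub (sub (sub (sub (sub C x14280) x14264) x14312) x14168) x14438) x13304) x15248) x15734) x5528) x1152) x7714)
  (add (sub (sub (add (add (sub (sub (sub (add (add (sub C x14276) x14256) x14268) x14316) x14172) x14442) x13308) x15252) x15738) x5532) x1160)
  (add (sub (sub (add (add (sub (sub (sub (add (add (sub C x14286) x14296) x14308) x14266) x14230) x14446) x13312) x15256) x15742) x5536) x7724)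
  (add (sub (sub (add (add (sub (sub (sub (sub (sub C x14284) x14292) x14268) x14232) x14448) x13314) x15258) x15744) x5538) x1166)
  (add (sub (sub (add (add (sub (sub (add (add (sub (add (add C x14296) x14300) x14286) x14256) x14328) x14238) x14454) x13320) x15264) x15750) x5544) x1172)
  (add (sub (sub (add (add (sub (sub (add (add (add (add (add (add C x14292) x14300) x14284) x14308) x14260) x14332) x14242) x14458) x13324) x15268) x15754) x5548) x7736)
  (sub (sub (sub (sub (add (add (sub (sub (add (add (sub (add (add C x14292) x14296) x14306) x14264) x14336) x14246) x14462) x13328) x15272) x15758) x5552) x1176) x7738)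
  (sub (sub (sub (sub (add (add (sub (sub (sub (sub (sub C x14308) x14300) x14324) x14252) x14468) x13334) x15278) x15764) x5558) x1182) x7744)
  (add (sub (sub (add (add (sub (sub (sub (add (add (sub C x14306) x14284) x14296) x14326) x14254) x14470) x13336) x15280) x15766) x5560) x7748)
  (sub (sub (sub (sub (add (add (sub (add (add (sub (add (add (sub C x14316) x14324) x14336) x14276) x14096) x14204) x14474) x13340) x15284) x15770) x5564) x1188) x7750)
  (add (sub (sub (add (add (sub (add (add (sub (sub (sub C x14312) x14328) x14280) x14100) x14208) x14478) x13344) x15288) x15774) x5568) x1196)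
  (sub (sub (sub (sub (add (add (sub (add (add (sub (add (add (sub C x14326) x14312) x14336) x14306) x14108) x14216) x14486) x13352) x15296) x15782) x5576) x1200) x7762)
  (add (sub (sub (add (add (sub (add (add (sub (sub (sub C x14324) x14332) x14308) x14110) x14218) x14488) x13354) x15298) x15784) x5578) x7766)
  (add (sub (sub (add (add (sub (add (add (add (add (sub (add (add C x14332) x14336) x14316) x14256) x14292) x14112) x14220) x14490) x13356) x15300) x15786) x5580) x1208)
  (add (sub (sub (add (add (sub (add (add (add (add (sub (add (add C x14328) x14336) x14326) x14260) x14296) x14116) x14224) x14494) x13360) x15304) x15790) x5584) x7772)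
  (sub (sub (sub (sub (add (add (sub (add (add (add (add (add (add (add (add C x14328) x14332) x14312) x14324) x14264) x14300) x14120) x14228) x14498) x13364) x15308) x15794) x5588) x1212) x7774)
  (add (sub (sub (sub (sub (add (add (add (add (add (add (sub C x14340) x14350) x14362) x14374) x14410) x14446) x14554) x14014) x14824) x15796) x5590) x7778)
  (add (sub (sub (sub (sub (add (add (add (add (sub (sub C x14338) x14346) x14376) x14412) x14448) x14556) x14016) x14826) x15798) x5592) x1220)
  (add (sub (sub (sub (sub (add (add (sub (sub (add (add C x14350) x14354) x14340) x14364) x14454) x14562) x14022) x14832) x15804) x5598) x1226)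
  (add (sub (sub (sub (sub (add (add (sub (add (add (add (add C x14346) x14354) x14338) x14362) x14368) x14458) x14566) x14026) x14836) x15808) x5602) x7790)
  (sub (sub (sub (sub (sub (sub (add (add (sub (sub (add (add C x14346) x14350) x14360) x14372) x14462) x14570) x14030) x14840) x15812) x5606) x1230) x7792)
  (sub (sub (sub (sub (sub (sub (add (add (sub (sub (sub C x14362) x14354) x14396) x14468) x14576) x14036) x14846) x15818) x5612) x1236) x7798)
  (add (sub (sub (sub (sub (add (add (sub (add (add (sub C x14360) x14338) x14350) x14398) x14470) x14578) x14038) x14848) x15820) x5614) x7802)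
  (add (sub (sub (sub (sub (sub (sub (add (add (add (add C x14368) x14372) x14376) x14388) x14346) x14418) x14040) x14850) x15822) x5616) x1244)
  (add (sub (sub (sub (sub (sub (sub (sub (add (add C x14364) x14372) x14374) x14350) x14422) x14044) x14854) x15826) x5620) x7808)
  (sub (sub (sub (sub (sub (sub (sub (sub (sub (add (add C x14364) x14368) x14384) x14354) x14426) x14048) x14858) x15830) x5624) x1248) x7810)
  (add (sub (sub (sub (sub (sub (add (add (sub (sub C x14376) x14368) x14338) x14410) x14428) x14050) x14860) x15832) x5626) x7814)
  (add (sub (sub (sub (sub (sub (add (add (add (add (sub C x14374) x14364) x14388) x14340) x14412) x14430) x14052) x14862) x15834) x5628) x1256)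
  (sub (sub (sub (sub (sub (sub (sub (sub (sub (sub C x14388) x14372) x14402) x14438) x14060) x14870) x15842) x5636) x1260) x7822)
  (add (sub (sub (sub (sub (sub (sub (add (add (sub C x14384) x14364) x14376) x14406) x14442) x14064) x14874) x15846) x5640) x1268)
  (sub (sub (sub (sub (sub (sub (sub (sub (sub (sub C x14398) x14402) x14360) x14504) x14072) x14882) x15854) x5648) x1272) x7834)
  (add (sub (sub (sub (sub (sub (sub (sub (sub C x14396) x14410) x14362) x14506) x14074) x14884) x15856) x5650) x7838)
  (sub (sub (sub (sub (sub (sub (sub (sub (sub (sub C x14406) x14396) x14384) x14510) x14078) x14888) x15860) x5654) x1278) x7840)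
  (add (sub (sub (sub (sub (sub (sub (sub (sub C x14402) x14412) x14388) x14514) x14082) x14892) x15864) x5658) x1286)
  (add (sub (sub (sub (sub (sub (add (add (sub (sub C x14412) x14398) x14338) x14374) x14518) x14086) x14896) x15868) x5662) x7850)
  (add (sub (sub (sub (sub (sub (add (add (sub (sub C x14410) x14406) x14340) x14376) x14520) x14088) x14898) x15870) x5664) x1292)
  (add (sub (sub (sub (sub (sub (add (add (add (add (add (add C x14422) x14426) x14430) x14442) x14454) x14490) x14364) x14256) x14904) x15876) x5670) x1298)
  (add (sub (sub (sub (sub (sub (add (add (sub (add (add C x14418) x14426) x14428) x14458) x14494) x14368) x14260) x14908) x15880) x5674) x7862)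
  (sub (sub (sub (sub (sub (sub (sub (add (add (sub (add (add C x14418) x14422) x14438) x14462) x14498) x14372) x14264) x14912) x15884) x5678) x1302) x7864)
  (add (sub (sub (sub (sub (sub (sub (sub (sub C x14430) x14422) x14446) x14374) x14266) x14914) x15886) x5680) x7868)
  (add (sub (sub (sub (sub (sub (sub (add (add (sub C x14428) x14418) x14442) x14448) x14376) x14268) x14916) x15888) x5682) x1310)
  (sub (sub (sub (sub (sub (sub (sub (sub (sub (sub C x14442) x14426) x14474) x14384) x14276) x14924) x15896) x5690) x1314) x7876)
  (add (sub (sub (sub (sub (sub (sub (add (add (sub C x14438) x14418) x14430) x14478) x14388) x14280) x14928) x15900) x5694) x1322)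
  (add (sub (sub (sub (sub (add (add (sub (add (add (sub C x14448) x14458) x14470) x14428) x14338) x14554) x14284) x14932) x15904) x5698) x7886)
  (add (sub (sub (sub (sub (add (add (sub (sub (sub C x14446) x14454) x14430) x14340) x14556) x14286) x14934) x15906) x5700) x1328)
  (add (sub (sub (sub (sub (add (add (add (add (sub (add (add C x14458) x14462) x14448) x14418) x14490) x14346) x14562) x14292) x14940) x15912) x5706) x1334)
  (add (sub (sub (sub (sub (add (add (add (add (add (add (add (add C x14454) x14462) x14446) x14470) x14422) x14494) x14350) x14566) x14296) x14944) x15916) x5710) x7898)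
  (sub (sub (sub (sub (sub (sub (add (add (add (add (sub (add (add C x14454) x14458) x14468) x14426) x14498) x14354) x14570) x14300) x14948) x15920) x5714) x1338) x7900)
  (sub (sub (sub (sub (sub (sub (add (add (sub (sub (sub C x14470) x14462) x14486) x14360) x14576) x14306) x14954) x15926) x5720) x1344) x7906)
  (add (sub (sub (sub (sub (add (add (sub (add (add (sub C x14468) x14446) x14458) x14488) x14362) x14578) x14308) x14956) x15928) x5722) x7910)
  (sub (sub (sub (sub (sub (sub (sub (sub (add (add (sub C x14478) x14486) x14498) x14438) x14528) x14312) x14960) x15932) x5726) x1350) x7912)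
  (add (sub (sub (sub (sub (sub (sub (sub (sub C x14474) x14490) x14442) x14532) x14316) x14964) x15936) x5730) x1358)
  (sub (sub (sub (sub (sub (sub (sub (sub (add (add (sub C x14488) x14474) x14498) x14468) x14540) x14324) x14972) x15944) x5738) x1362) x7924)
  (add (sub (sub (sub (sub (sub (sub (sub (sub C x14486) x14494) x14470) x14542) x14326) x14974) x15946) x5740) x7928)
  (add (sub (sub (sub (sub (sub (add (add (sub (add (add C x14494) x14498) x14478) x14418) x14454) x14544) x14328) x14976) x15948) x5742) x1370)
  (add (sub (sub (sub (sub (sub (add (add (sub (add (add C x14490) x14498) x14488) x14422) x14458) x14548) x14332) x14980) x15952) x5746) x7934)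
  (sub (sub (sub (sub (sub (sub (sub (add (add (add (add (add (add C x14490) x14494) x14474) x14486) x14426) x14462) x14552) x14336) x14984) x15956) x5750) x1374) x7936)
  (sub (sub (sub (sub (sub (add (add (sub (add (add (sub (sub C x14506) x14510) x14540) x14576) x14396) x13856) x14180) x14990) x15962) x5756) x1380) x7942)
  (add (sub (sub (sub (add (add (sub (add (add (sub (sub C x14504) x14518) x14542) x14578) x14398) x13858) x14182) x14992) x15964) x5758) x7946)
  (sub (sub (sub (sub (sub (add (add (sub (sub (sub (sub C x14514) x14504) x14528) x14402) x13862) x14186) x14996) x15968) x5762) x1386) x7948)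
  (add (sub (sub (sub (add (add (sub (sub (sub (sub C x14510) x14520) x14532) x14406) x13866) x14190) x15000) x15972) x5766) x1394)
  (add (sub (sub (sub (add (add (sub (sub (sub (sub C x14520) x14506) x14554) x14410) x13870) x14194) x15004) x15976) x5770) x7958)
  (add (sub (sub (sub (add (add (sub (sub (sub (sub C x14518) x14514) x14556) x14412) x13872) x14196) x15006) x15978) x5772) x1400)
  (sub (sub (sub (sub (sub (add (add (sub (sub (add (add (sub C x14532) x14540) x14552) x14510) x14474) x13880) x14204) x15014) x15986) x5780) x1404) x7966)
  (add (sub (sub (sub (add (add (sub (sub (sub (sub C x14528) x14544) x14514) x14478) x13884) x14208) x15018) x15990) x5784) x1412)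
  (sub (sub (sub (sub (sub (add (add (sub (add (add (add (add (sub C x14542) x14528) x14552) x14504) x14576) x14486) x13892) x14216) x15026) x15998) x5792) x1416) x7978)
  (add (sub (sub (sub (add (add (sub (add (add (sub (sub C x14540) x14548) x14506) x14578) x14488) x13894) x14218) x15028) x16000) x5794) x7982)
  (add (sub (sub (sub (add (add (sub (sub (sub (add (add C x14548) x14552) x14532) x14562) x14490) x13896) x14220) x15030) x16002) x5796) x1424)
  (add (sub (sub (sub (add (add (sub (sub (sub (add (add C x14544) x14552) x14542) x14566) x14494) x13900) x14224) x15034) x16006) x5800) x7988)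
  (sub (sub (sub (sub (sub (add (add (sub (sub (add (add (add (add C x14544) x14548) x14528) x14540) x14570) x14498) x13904) x14228) x15038) x16010) x5804) x1428) x7990)
  (add (sub (sub (sub (add (add (add (add (sub (add (add (sub C x14556) x14566) x14578) x14518) x14338) x14446) x13906) x14230) x15040) x16012) x5806) x7994)
  (add (sub (sub (sub (add (add (add (add (sub (sub (sub C x14554) x14562) x14520) x14340) x14448) x13908) x14232) x15042) x16014) x5808) x1436)
  (add (sub (sub (sub (add (add (add (add (sub (sub (add (add C x14566) x14570) x14556) x14544) x14346) x14454) x13914) x14238) x15048) x16020) x5814) x1442)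
  (add (sub (sub (sub (add (add (add (add (sub (add (add (add (add C x14562) x14570) x14554) x14578) x14548) x14350) x14458) x13918) x14242) x15052) x16024) x5818) x8006)
  (sub (sub (sub (sub (sub (add (add (add (add (sub (sub (add (add C x14562) x14566) x14576) x14552) x14354) x14462) x13922) x14246) x15056) x16028) x5822) x1446) x8008)
  (sub (sub (sub (sub (sub (add (add (add (add (add (add (sub (sub C x14578) x14570) x14504) x14540) x14360) x14468) x13928) x14252) x15062) x16034) x5828) x1452) x8014)
  (add (sub (sub (sub (add (add (add (add (add (add (add (add (sub C x14576) x14554) x14566) x14506) x14542) x14362) x14470) x13930) x14254) x15064) x16036) x5830) x8018)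
  (add (sub (sub (sub (add (add (add (add (add (add (add (add (add (add C x14584) x14588) x14592) x14604) x14616) x14652) x14688) x14796) x14904) x15228) x13608) x17496) x5832) x1460)
  (add (sub (sub (sub (add (add (add (add (add (add (sub (add (add C x14580) x14588) x14590) x14620) x14656) x14692) x14800) x14908) x15232) x13612) x17500) x5836) x8024)
  (sub (sub (sub (sub (sub (add (add (add (add (add (add (sub (add (add C x14580) x14584) x14600) x14624) x14660) x14696) x14804) x14912) x15236) x13616) x17504) x5840) x1464) x8026)
  (add (sub (sub (sub (add (add (add (add (sub (sub (sub C x14592) x14584) x14608) x14698) x14806) x14914) x15238) x13618) x17506) x5842) x8030)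
  (add (sub (sub (sub (add (add (add (add (sub (add (add (sub C x14590) x14580) x14604) x14610) x14700) x14808) x14916) x15240) x13620) x17508) x5844) x1472)
  (sub (sub (sub (sub (sub (add (add (add (add (sub (sub (sub C x14604) x14588) x14636) x14708) x14816) x14924) x15248) x13628) x17516) x5852) x1476) x8038)
  (add (sub (sub (sub (add (add (add (add (sub (add (add (sub C x14600) x14580) x14592) x14640) x14712) x14820) x14928) x15252) x13632) x17520) x5856) x1484)
  (add (sub (sub (sub (add (add (sub (sub (add (add (sub C x14610) x14620) x14632) x14590) x14662) x14932) x15256) x13636) x17524) x5860) x8048)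
  (add (sub (sub (sub (add (add (sub (sub (sub (sub C x14608) x14616) x14592) x14664) x14934) x15258) x13638) x17526) x5862) x1490)
  (add (sub (sub (sub (add (add (sub (add (add (sub (add (add C x14620) x14624) x14610) x14580) x14652) x14670) x14940) x15264) x13644) x17532) x5868) x1496)
  (add (sub (sub (sub (add (add (sub (add (add (add (add (add (add C x14616) x14624) x14608) x14632) x14584) x14656) x14674) x14944) x15268) x13648) x17536) x5872) x8060)
  (sub (sub (sub (sub (sub (add (add (sub (add (add (sub (add (add C x14616) x14620) x14630) x14588) x14660) x14678) x14948) x15272) x13652) x17540) x5876) x1500) x8062)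
  (sub (sub (sub (sub (sub (add (add (sub (sub (sub (sub C x14632) x14624) x14648) x14684) x14954) x15278) x13658) x17546) x5882) x1506) x8068)
  (add (sub (sub (sub (add (add (sub (sub (add (add (sub C x14630) x14608) x14620) x14650) x14686) x14956) x15280) x13660) x17548) x5884) x8072)
  (sub (sub (sub (sub (sub (add (add (sub (sub (add (add (sub C x14640) x14648) x14660) x14600) x14744) x14960) x15284) x13664) x17552) x5888) x1512) x8074)
  (add (sub (sub (sub (add (add (sub (sub (sub (sub C x14636) x14652) x14604) x14748) x14964) x15288) x13668) x17556) x5892) x1520)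
  (sub (sub (sub (sub (sub (add (add (sub (sub (add (add (sub C x14650) x14636) x14660) x14630) x14756) x14972) x15296) x13676) x17564) x5900) x1524) x8086)
  (add (sub (sub (sub (add (add (sub (sub (sub (sub C x14648) x14656) x14632) x14758) x14974) x15298) x13678) x17566) x5902) x8090)
  (add (sub (sub (sub (add (add (sub (add (add (sub (add (add C x14656) x14660) x14640) x14580) x14616) x14760) x14976) x15300) x13680) x17568) x5904) x1532)
  (add (sub (sub (sub (add (add (sub (add (add (sub (add (add C x14652) x14660) x14650) x14584) x14620) x14764) x14980) x15304) x13684) x17572) x5908) x8096)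
  (sub (sub (sub (sub (sub (add (add (sub (add (add (add (add (add (add C x14652) x14656) x14636) x14648) x14588) x14624) x14768) x14984) x15308) x13688) x17576) x5912) x1536) x8098)
  (add (sub (sub (sub (sub (sub (add (add (add (add (sub C x14664) x14674) x14686) x14698) x14734) x14608) x14824) x13690) x17578) x5914) x8102)
  (add (sub (sub (sub (sub (sub (add (add (sub (sub C x14662) x14670) x14700) x14736) x14610) x14826) x13692) x17580) x5916) x1544)
  (add (sub (sub (sub (sub (sub (sub (sub (add (add C x14674) x14678) x14664) x14688) x14616) x14832) x13698) x17586) x5922) x1550)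
  (add (sub (sub (sub (sub (sub (sub (add (add (add (add C x14670) x14678) x14662) x14686) x14692) x14620) x14836) x13702) x17590) x5926) x8114)
  (sub (sub (sub (sub (sub (sub (sub (sub (sub (add (add C x14670) x14674) x14684) x14696) x14624) x14840) x13706) x17594) x5930) x1554) x8116)
  (sub (sub (sub (sub (sub (sub (sub (sub (sub (sub C x14686) x14678) x14720) x14630) x14846) x13712) x17600) x5936) x1560) x8122)
  (add (sub (sub (sub (sub (sub (sub (add (add (sub C x14684) x14662) x14674) x14722) x14632) x14848) x13714) x17602) x5938) x8126)
  (add (sub (sub (sub (sub (add (add (sub (add (add (add (add C x14692) x14696) x14700) x14712) x14670) x14580) x14796) x14850) x13716) x17604) x5940) x1568)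
  (add (sub (sub (sub (sub (add (add (sub (sub (add (add C x14688) x14696) x14698) x14674) x14584) x14800) x14854) x13720) x17608) x5944) x8132)
  (sub (sub (sub (sub (sub (sub (add (add (sub (sub (add (add C x14688) x14692) x14708) x14678) x14588) x14804) x14858) x13724) x17612) x5948) x1572) x8134)
  (add (sub (sub (sub (sub (add (add (add (add (sub (sub C x14700) x14692) x14662) x14734) x14590) x14806) x14860) x13726) x17614) x5950) x8138)
  (add (sub (sub (sub (sub (add (add (add (add (add (add (sub C x14698) x14688) x14712) x14664) x14736) x14592) x14808) x14862) x13728) x17616) x5952) x1580)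
  (sub (sub (sub (sub (sub (sub (add (add (sub (sub (sub C x14712) x14696) x14726) x14600) x14816) x14870) x13736) x17624) x5960) x1584) x8146)
  (add (sub (sub (sub (sub (add (add (sub (add (add (sub C x14708) x14688) x14700) x14730) x14604) x14820) x14874) x13740) x17628) x5964) x1592)
  (sub (sub (sub (sub (sub (sub (sub (sub (sub (sub C x14722) x14726) x14684) x14774) x14882) x13748) x17636) x5972) x1596) x8158)
  (add (sub (sub (sub (sub (sub (sub (sub (sub C x14720) x14734) x14686) x14776) x14884) x13750) x17638) x5974) x8162)
  (sub (sub (sub (sub (sub (sub (sub (sub (sub (sub C x14730) x14720) x14708) x14780) x14888) x13754) x17642) x5978) x1602) x8164)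
  (add (sub (sub (sub (sub (sub (sub (sub (sub C x14726) x14736) x14712) x14784) x14892) x13758) x17646) x5982) x1610)
  (add (sub (sub (sub (sub (sub (add (add (sub (sub C x14736) x14722) x14662) x14698) x14788) x14896) x13762) x17650) x5986) x8174)
  (add (sub (sub (sub (sub (sub (add (add (sub (sub C x14734) x14730) x14664) x14700) x14790) x14898) x13764) x17652) x5988) x1616)
  (sub (sub (sub (sub (sub (sub (sub (add (add (add (add (sub C x14748) x14756) x14768) x14780) x14816) x14636) x15068) x13772) x17660) x5996) x1620) x8182)
  (add (sub (sub (sub (sub (sub (add (add (sub (sub C x14744) x14760) x14784) x14820) x14640) x15072) x13776) x17664) x6000) x1628)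
  (sub (sub (sub (sub (sub (sub (sub (sub (add (add (sub C x14758) x14744) x14768) x14774) x14648) x15080) x13784) x17672) x6008) x1632) x8194)
  (add (sub (sub (sub (sub (sub (sub (sub (sub C x14756) x14764) x14776) x14650) x15082) x13786) x17674) x6010) x8198)
  (add (sub (sub (sub (sub (sub (sub (sub (add (add C x14764) x14768) x14748) x14796) x14652) x15084) x13788) x17676) x6012) x1640)
  (add (sub (sub (sub (sub (sub (sub (sub (add (add C x14760) x14768) x14758) x14800) x14656) x15088) x13792) x17680) x6016) x8204)
  (sub (sub (sub (sub (sub (sub (sub (sub (add (add (add (add C x14760) x14764) x14744) x14756) x14804) x14660) x15092) x13796) x17684) x6020) x1644) x8206)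
  (sub (sub (sub (sub (sub (sub (sub (sub (sub (sub C x14776) x14780) x14756) x14720) x15098) x13802) x17690) x6026) x1650) x8212)
  (add (sub (sub (sub (sub (sub (sub (sub (sub C x14774) x14788) x14758) x14722) x15100) x13804) x17692) x6028) x8216)
  (sub (sub (sub (sub (sub (sub (sub (add (add (sub (sub C x14784) x14774) x14744) x14816) x14726) x15104) x13808) x17696) x6032) x1656) x8218)
  (add (sub (sub (sub (sub (sub (add (add (sub (sub C x14780) x14790) x14748) x14820) x14730) x15108) x13812) x17700) x6036) x1664)
  (add (sub (sub (sub (sub (sub (sub (sub (sub C x14790) x14776) x14806) x14734) x15112) x13816) x17704) x6040) x8228)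
  (add (sub (sub (sub (sub (sub (sub (sub (sub C x14788) x14784) x14808) x14736) x15114) x13818) x17706) x6042) x1670)
  (add (sub (sub (sub (sub (add (add (sub (add (add (add (add C x14800) x14804) x14808) x14820) x14760) x14580) x14688) x15120) x13824) x17712) x6048) x1676)
  (add (sub (sub (sub (sub (add (add (sub (sub (add (add C x14796) x14804) x14806) x14764) x14584) x14692) x15124) x13828) x17716) x6052) x8240)
  (sub (sub (sub (sub (sub (sub (add (add (sub (sub (add (add C x14796) x14800) x14816) x14768) x14588) x14696) x15128) x13832) x17720) x6056) x1680) x8242)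
  (add (sub (sub (sub (sub (add (add (sub (sub (sub C x14808) x14800) x14788) x14590) x14698) x15130) x13834) x17722) x6058) x8246)
  (add (sub (sub (sub (sub (add (add (sub (add (add (sub C x14806) x14796) x14820) x14790) x14592) x14700) x15132) x13836) x17724) x6060) x1688)
  (sub (sub (sub (sub (sub (sub (add (add (add (add (sub (sub C x14820) x14804) x14744) x14780) x14600) x14708) x15140) x13844) x17732) x6068) x1692) x8254)
  (add (sub (sub (sub (sub (add (add (add (add (add (add (sub C x14816) x14796) x14808) x14748) x14784) x14604) x14712) x15144) x13848) x17736) x6072) x1700)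
  (add (sub (sub (sub (sub (add (add (add (add (add (add (sub C x14826) x14836) x14848) x14860) x14896) x14932) x15040) x14662) x14338) x17740) x6076) x8264)
  (add (sub (sub (sub (sub (add (add (add (add (sub (sub C x14824) x14832) x14862) x14898) x14934) x15042) x14664) x14340) x17742) x6078) x1706)
  (add (sub (sub (sub (sub (add (add (sub (sub (add (add C x14836) x14840) x14826) x14850) x14940) x15048) x14670) x14346) x17748) x6084) x1712)
  (add (sub (sub (sub (sub (add (add (sub (add (add (add (add C x14832) x14840) x14824) x14848) x14854) x14944) x15052) x14674) x14350) x17752) x6088) x8276)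
  (sub (sub (sub (sub (sub (sub (add (add (sub (sub (add (add C x14832) x14836) x14846) x14858) x14948) x15056) x14678) x14354) x17756) x6092) x1716) x8278)
  (sub (sub (sub (sub (sub (sub (add (add (sub (sub (sub C x14848) x14840) x14882) x14954) x15062) x14684) x14360) x17762) x6098) x1722) x8284)
  (add (sub (sub (sub (sub (add (add (sub (add (add (sub C x14846) x14824) x14836) x14884) x14956) x15064) x14686) x14362) x17764) x6100) x8288)
  (add (sub (sub (sub (sub (sub (sub (add (add (add (add C x14854) x14858) x14862) x14874) x14832) x14904) x14688) x14364) x17766) x6102) x1730)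
  (add (sub (sub (sub (sub (sub (sub (sub (add (add C x14850) x14858) x14860) x14836) x14908) x14692) x14368) x17770) x6106) x8294)
  (sub (sub (sub (sub (sub (sub (sub (sub (sub (add (add C x14850) x14854) x14870) x14840) x14912) x14696) x14372) x17774) x6110) x1734) x8296)
  (add (sub (sub (sub (sub (sub (add (add (sub (sub C x14862) x14854) x14824) x14896) x14914) x14698) x14374) x17776) x6112) x8300)
  (add (sub (sub (sub (sub (sub (add (add (add (add (sub C x14860) x14850) x14874) x14826) x14898) x14916) x14700) x14376) x17778) x6114) x1742)
  (sub (sub (sub (sub (sub (sub (sub (sub (sub (sub C x14874) x14858) x14888) x14924) x14708) x14384) x17786) x6122) x1746) x8308)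
  (add (sub (sub (sub (sub (sub (sub (add (add (sub C x14870) x14850) x14862) x14892) x14928) x14712) x14388) x17790) x6126) x1754)
  (sub (sub (sub (sub (sub (sub (sub (sub (sub (sub C x14884) x14888) x14846) x14990) x14720) x14396) x17798) x6134) x1758) x8320)
  (add (sub (sub (sub (sub (sub (sub (sub (sub C x14882) x14896) x14848) x14992) x14722) x14398) x17800) x6136) x8324)
  (sub (sub (sub (sub (sub (sub (sub (sub (sub (sub C x14892) x14882) x14870) x14996) x14726) x14402) x17804) x6140) x1764) x8326)
  (add (sub (sub (sub (sub (sub (sub (sub (sub C x14888) x14898) x14874) x15000) x14730) x14406) x17808) x6144) x1772)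
  (add (sub (sub (sub (sub (sub (add (add (sub (sub C x14898) x14884) x14824) x14860) x15004) x14734) x14410) x17812) x6148) x8336)
  (add (sub (sub (sub (sub (sub (add (add (sub (sub C x14896) x14892) x14826) x14862) x15006) x14736) x14412) x17814) x6150) x1778)
  (add (sub (sub (sub (add (add (sub (add (add (add (add (add (add C x14908) x14912) x14916) x14928) x14940) x14976) x14850) x14580) x15228) x14418) x17820) x6156) x1784)
  (add (sub (sub (sub (add (add (sub (add (add (sub (add (add C x14904) x14912) x14914) x14944) x14980) x14854) x14584) x15232) x14422) x17824) x6160) x8348)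
  (sub (sub (sub (sub (sub (add (add (sub (add (add (sub (add (add C x14904) x14908) x14924) x14948) x14984) x14858) x14588) x15236) x14426) x17828) x6164) x1788) x8350)
  (add (sub (sub (sub (add (add (sub (sub (sub (sub C x14916) x14908) x14932) x14860) x14590) x15238) x14428) x17830) x6166) x8354)
  (add (sub (sub (sub (add (add (sub (sub (add (add (sub C x14914) x14904) x14928) x14934) x14862) x14592) x15240) x14430) x17832) x6168) x1796)
  (sub (sub (sub (sub (sub (add (add (sub (sub (sub (sub C x14928) x14912) x14960) x14870) x14600) x15248) x14438) x17840) x6176) x1800) x8362)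
  (add (sub (sub (sub (add (add (sub (sub (add (add (sub C x14924) x14904) x14916) x14964) x14874) x14604) x15252) x14442) x17844) x6180) x1808)
  (add (sub (sub (sub (add (add (add (add (sub (add (add (sub C x14934) x14944) x14956) x14914) x14824) x15040) x14608) x15256) x14446) x17848) x6184) x8372)
  (add (sub (sub (sub (add (add (add (add (sub (sub (sub C x14932) x14940) x14916) x14826) x15042) x14610) x15258) x14448) x17850) x6186) x1814)
  (add (sub (sub (sub (add (add (add (add (add (add (sub (add (add C x14944) x14948) x14934) x14904) x14976) x14832) x15048) x14616) x15264) x14454) x17856) x6192) x1820)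
  (add (sub (sub (sub (add (add (add (add (add (add (add (add (add (add C x14940) x14948) x14932) x14956) x14908) x14980) x14836) x15052) x14620) x15268) x14458) x17860) x6196) x8384)
  (sub (sub (sub (sub (sub (add (add (add (add (add (add (sub (add (add C x14940) x14944) x14954) x14912) x14984) x14840) x15056) x14624) x15272) x14462) x17864) x6200) x1824) x8386)
  (sub (sub (sub (sub (sub (add (add (add (add (sub (sub (sub C x14956) x14948) x14972) x14846) x15062) x14630) x15278) x14468) x17870) x6206) x1830) x8392)
  (add (sub (sub (sub (add (add (add (add (sub (add (add (sub C x14954) x14932) x14944) x14974) x14848) x15064) x14632) x15280) x14470) x17872) x6208) x8396)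
  (sub (sub (sub (sub (sub (add (add (sub (sub (add (add (sub C x14964) x14972) x14984) x14924) x15014) x14636) x15284) x14474) x17876) x6212) x1836) x8398)
  (add (sub (sub (sub (add (add (sub (sub (sub (sub C x14960) x14976) x14928) x15018) x14640) x15288) x14478) x17880) x6216) x1844)
  (sub (sub (sub (sub (sub (add (add (sub (sub (add (add (sub C x14974) x14960) x14984) x14954) x15026) x14648) x15296) x14486) x17888) x6224) x1848) x8410)
  (add (sub (sub (sub (add (add (sub (sub (sub (sub C x14972) x14980) x14956) x15028) x14650) x15298) x14488) x17890) x6226) x8414)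
  (add (sub (sub (sub (add (add (sub (add (add (sub (add (add C x14980) x14984) x14964) x14904) x14940) x15030) x14652) x15300) x14490) x17892) x6228) x1856)
  (add (sub (sub (sub (add (add (sub (add (add (sub (add (add C x14976) x14984) x14974) x14908) x14944) x15034) x14656) x15304) x14494) x17896) x6232) x8420)
  (sub (sub (sub (sub (sub (add (add (sub (add (add (add (add (add (add C x14976) x14980) x14960) x14972) x14912) x14948) x15038) x14660) x15308) x14498) x17900) x6236) x1860) x8422)
  (sub (sub (sub (sub (sub (sub (sub (add (add (sub (sub C x14992) x14996) x15026) x15062) x14882) x15152) x14504) x17906) x6242) x1866) x8428)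
  (add (sub (sub (sub (sub (sub (add (add (sub (sub C x14990) x15004) x15028) x15064) x14884) x15154) x14506) x17908) x6244) x8432)
  (sub (sub (sub (sub (sub (sub (sub (sub (sub (sub C x15000) x14990) x15014) x14888) x15158) x14510) x17912) x6248) x1872) x8434)
  (add (sub (sub (sub (sub (sub (sub (sub (sub C x14996) x15006) x15018) x14892) x15162) x14514) x17916) x6252) x1880)
  (add (sub (sub (sub (sub (sub (sub (sub (sub C x15006) x14992) x15040) x14896) x15166) x14518) x17920) x6256) x8444)
  (add (sub (sub (sub (sub (sub (sub (sub (sub C x15004) x15000) x15042) x14898) x15168) x14520) x17922) x6258) x1886)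
  (sub (sub (sub (sub (sub (sub (sub (sub (add (add (sub C x15018) x15026) x15038) x14996) x14960) x15176) x14528) x17930) x6266) x1890) x8452)
  (add (sub (sub (sub (sub (sub (sub (sub (sub C x15014) x15030) x15000) x14964) x15180) x14532) x17934) x6270) x1898)
  (sub (sub (sub (sub (sub (sub (sub (add (add (add (add (sub C x15028) x15014) x15038) x14990) x15062) x14972) x15188) x14540) x17942) x6278) x1902) x8464)
  (add (sub (sub (sub (sub (sub (add (add (sub (sub C x15026) x15034) x14992) x15064) x14974) x15190) x14542) x17944) x6280) x8468)
  (add (sub (sub (sub (sub (sub (sub (sub (add (add C x15034) x15038) x15018) x15048) x14976) x15192) x14544) x17946) x6282) x1910)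
  (add (sub (sub (sub (sub (sub (sub (sub (add (add C x15030) x15038) x15028) x15052) x14980) x15196) x14548) x17950) x6286) x8474)
  (sub (sub (sub (sub (sub (sub (sub (sub (add (add (add (add C x15030) x15034) x15014) x15026) x15056) x14984) x15200) x14552) x17954) x6290) x1914) x8476)
  (add (sub (sub (sub (sub (add (add (sub (add (add (sub C x15042) x15052) x15064) x15004) x14824) x14932) x15202) x14554) x17956) x6292) x8480)
  (add (sub (sub (sub (sub (add (add (sub (sub (sub C x15040) x15048) x15006) x14826) x14934) x15204) x14556) x17958) x6294) x1922)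
  (add (sub (sub (sub (sub (add (add (sub (sub (add (add C x15052) x15056) x15042) x15030) x14832) x14940) x15210) x14562) x17964) x6300) x1928)
  (add (sub (sub (sub (sub (add (add (sub (add (add (add (add C x15048) x15056) x15040) x15064) x15034) x14836) x14944) x15214) x14566) x17968) x6304) x8492)
  (sub (sub (sub (sub (sub (sub (add (add (sub (sub (add (add C x15048) x15052) x15062) x15038) x14840) x14948) x15218) x14570) x17972) x6308) x1932) x8494)
  (sub (sub (sub (sub (sub (sub (add (add (add (add (sub (sub C x15064) x15056) x14990) x15026) x14846) x14954) x15224) x14576) x17978) x6314) x1938) x8500)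
  (add (sub (sub (sub (sub (add (add (add (add (add (add (sub C x15062) x15040) x15052) x14992) x15028) x14848) x14956) x15226) x14578) x17980) x6316) x8504)
  (sub (sub (sub (sub (add (add (sub (add (add (add (add (add (add (sub C x15072) x15080) x15092) x15104) x15140) x15176) x15284) x14744) x13124) x14096) x17984) x6320) x1944) x8506)
  (add (sub (sub (add (add (sub (add (add (add (add (sub (sub C x15068) x15084) x15108) x15144) x15180) x15288) x14748) x13128) x14100) x17988) x6324) x1952)
  (sub (sub (sub (sub (add (add (sub (add (add (sub (add (add (sub C x15082) x15068) x15092) x15098) x15188) x15296) x14756) x13136) x14108) x17996) x6332) x1956) x8518)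
  (add (sub (sub (add (add (sub (add (add (sub (sub (sub C x15080) x15088) x15100) x15190) x15298) x14758) x13138) x14110) x17998) x6334) x8522)
  (add (sub (sub (add (add (sub (add (add (sub (sub (add (add C x15088) x15092) x15072) x15120) x15192) x15300) x14760) x13140) x14112) x18000) x6336) x1964)
  (add (sub (sub (add (add (sub (add (add (sub (sub (add (add C x15084) x15092) x15082) x15124) x15196) x15304) x14764) x13144) x14116) x18004) x6340) x8528)
  (sub (sub (sub (sub (add (add (sub (add (add (sub (add (add (add (add C x15084) x15088) x15068) x15080) x15128) x15200) x15308) x14768) x13148) x14120) x18008) x6344) x1968) x8530)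
  (sub (sub (sub (sub (add (add (sub (sub (sub (sub (sub C x15100) x15104) x15080) x15152) x14774) x13154) x14126) x18014) x6350) x1974) x8536)
  (add (sub (sub (add (add (sub (sub (sub (sub (sub C x15098) x15112) x15082) x15154) x14776) x13156) x14128) x18016) x6352) x8540)
  (sub (sub (sub (sub (add (add (sub (sub (add (add (sub (sub C x15108) x15098) x15068) x15140) x15158) x14780) x13160) x14132) x18020) x6356) x1980) x8542)
  (add (sub (sub (add (add (sub (sub (add (add (sub (sub C x15104) x15114) x15072) x15144) x15162) x14784) x13164) x14136) x18024) x6360) x1988)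
  (add (sub (sub (add (add (sub (sub (sub (sub (sub C x15114) x15100) x15130) x15166) x14788) x13168) x14140) x18028) x6364) x8552)
  (add (sub (sub (add (add (sub (sub (sub (sub (sub C x15112) x15108) x15132) x15168) x14790) x13170) x14142) x18030) x6366) x1994)
  (add (sub (sub (add (add (sub (sub (sub (add (add (add (add C x15124) x15128) x15132) x15144) x15084) x15228) x14796) x13176) x14148) x18036) x6372) x2000)
  (add (sub (sub (add (add (sub (sub (sub (sub (add (add C x15120) x15128) x15130) x15088) x15232) x14800) x13180) x14152) x18040) x6376) x8564)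
  (sub (sub (sub (sub (add (add (sub (sub (sub (sub (add (add C x15120) x15124) x15140) x15092) x15236) x14804) x13184) x14156) x18044) x6380) x2004) x8566)
  (add (sub (sub (add (add (sub (sub (sub (sub (sub C x15132) x15124) x15112) x15238) x14806) x13186) x14158) x18046) x6382) x8570)
  (add (sub (sub (add (add (sub (sub (sub (add (add (sub C x15130) x15120) x15144) x15114) x15240) x14808) x13188) x14160) x18048) x6384) x2012)
  (sub (sub (sub (sub (add (add (sub (sub (add (add (sub (sub C x15144) x15128) x15068) x15104) x15248) x14816) x13196) x14168) x18056) x6392) x2016) x8578)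
  (add (sub (sub (add (add (sub (sub (add (add (add (add (sub C x15140) x15120) x15132) x15072) x15108) x15252) x14820) x13200) x14172) x18060) x6396) x2024)
  (sub (sub (sub (sub (add (add (sub (sub (add (add (sub (sub C x15154) x15158) x15188) x15224) x15098) x14990) x13208) x14180) x18068) x6404) x2028) x8590)
  (add (sub (sub (add (add (sub (sub (add (add (sub (sub C x15152) x15166) x15190) x15226) x15100) x14992) x13210) x14182) x18070) x6406) x8594)
  (sub (sub (sub (sub (add (add (sub (sub (sub (sub (sub C x15162) x15152) x15176) x15104) x14996) x13214) x14186) x18074) x6410) x2034) x8596)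
  (add (sub (sub (add (add (sub (sub (sub (sub (sub C x15158) x15168) x15180) x15108) x15000) x13218) x14190) x18078) x6414) x2042)
  (add (sub (sub (add (add (sub (sub (sub (sub (sub C x15168) x15154) x15202) x15112) x15004) x13222) x14194) x18082) x6418) x8606)
  (add (sub (sub (add (add (sub (sub (sub (sub (sub C x15166) x15162) x15204) x15114) x15006) x13224) x14196) x18084) x6420) x2048)
  (sub (sub (sub (sub (add (add (sub (add (add (sub (add (add (sub C x15180) x15188) x15200) x15158) x15068) x15284) x15014) x13232) x14204) x18092) x6428) x2052) x8614)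
  (add (sub (sub (add (add (sub (add (add (sub (sub (sub C x15176) x15192) x15162) x15072) x15288) x15018) x13236) x14208) x18096) x6432) x2060)
  (sub (sub (sub (sub (add (add (sub (add (add (add (add (add (add (sub C x15190) x15176) x15200) x15152) x15224) x15080) x15296) x15026) x13244) x14216) x18104) x6440) x2064) x8626)
  (add (sub (sub (add (add (sub (add (add (add (add (sub (sub C x15188) x15196) x15154) x15226) x15082) x15298) x15028) x13246) x14218) x18106) x6442) x8630)
  (add (sub (sub (add (add (sub (add (add (sub (sub (add (add C x15196) x15200) x15180) x15210) x15084) x15300) x15030) x13248) x14220) x18108) x6444) x2072)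
  (add (sub (sub (add (add (sub (add (add (sub (sub (add (add C x15192) x15200) x15190) x15214) x15088) x15304) x15034) x13252) x14224) x18112) x6448) x8636)
  (sub (sub (sub (sub (add (add (sub (add (add (sub (add (add (add (add C x15192) x15196) x15176) x15188) x15218) x15092) x15308) x15038) x13256) x14228) x18116) x6452) x2076) x8638)
  (add (sub (sub (add (add (sub (sub (sub (add (add (sub C x15204) x15214) x15226) x15166) x15256) x15040) x13258) x14230) x18118) x6454) x8642)
  (add (sub (sub (add (add (sub (sub (sub (sub (sub C x15202) x15210) x15168) x15258) x15042) x13260) x14232) x18120) x6456) x2084)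
  (add (sub (sub (add (add (sub (sub (sub (sub (add (add C x15214) x15218) x15204) x15192) x15264) x15048) x13266) x14238) x18126) x6462) x2090)
  (add (sub (sub (add (add (sub (sub (sub (add (add (add (add C x15210) x15218) x15202) x15226) x15196) x15268) x15052) x13270) x14242) x18130) x6466) x8654)
  (sub (sub (sub (sub (add (add (sub (sub (sub (sub (add (add C x15210) x15214) x15224) x15200) x15272) x15056) x13274) x14246) x18134) x6470) x2094) x8656)
  (sub (sub (sub (sub (add (add (sub (sub (add (add (sub (sub C x15226) x15218) x15152) x15188) x15278) x15062) x13280) x14252) x18140) x6476) x2100) x8662)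
  (add (sub (sub (add (add (sub (sub (add (add (add (add (sub C x15224) x15202) x15214) x15154) x15190) x15280) x15064) x13282) x14254) x18142) x6478) x8666)
  (add (sub (sub (add (add (add (add (sub (add (add (add (add (add (add C x15232) x15236) x15240) x15252) x15264) x15300) x15120) x14580) x14904) x13284) x14256) x18144) x6480) x2108)
  (add (sub (sub (add (add (add (add (sub (add (add (sub (add (add C x15228) x15236) x15238) x15268) x15304) x15124) x14584) x14908) x13288) x14260) x18148) x6484) x8672)
  (sub (sub (sub (sub (add (add (add (add (sub (add (add (sub (add (add C x15228) x15232) x15248) x15272) x15308) x15128) x14588) x14912) x13292) x14264) x18152) x6488) x2112) x8674)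
  (add (sub (sub (add (add (add (add (sub (sub (sub (sub C x15240) x15232) x15256) x15130) x14590) x14914) x13294) x14266) x18154) x6490) x8678)
  (add (sub (sub (add (add (add (add (sub (sub (add (add (sub C x15238) x15228) x15252) x15258) x15132) x14592) x14916) x13296) x14268) x18156) x6492) x2120)
  (sub (sub (sub (sub (add (add (add (add (sub (sub (sub (sub C x15252) x15236) x15284) x15140) x14600) x14924) x13304) x14276) x18164) x6500) x2124) x8686)
  (add (sub (sub (add (add (add (add (sub (sub (add (add (sub C x15248) x15228) x15240) x15288) x15144) x14604) x14928) x13308) x14280) x18168) x6504) x2132)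
  (add (sub (sub (add (add (add (add (sub (sub (add (add (sub C x15258) x15268) x15280) x15238) x15202) x14608) x14932) x13312) x14284) x18172) x6508) x8696)
  (add (sub (sub (add (add (add (add (sub (sub (sub (sub C x15256) x15264) x15240) x15204) x14610) x14934) x13314) x14286) x18174) x6510) x2138)
  (add (sub (sub (add (add (add (add (sub (add (add (sub (add (add C x15268) x15272) x15258) x15228) x15300) x15210) x14616) x14940) x13320) x14292) x18180) x6516) x2144)
  (add (sub (sub (add (add (add (add (sub (add (add (add (add (add (add C x15264) x15272) x15256) x15280) x15232) x15304) x15214) x14620) x14944) x13324) x14296) x18184) x6520) x8708)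
  (sub (sub (sub (sub (add (add (add (add (sub (add (add (sub (add (add C x15264) x15268) x15278) x15236) x15308) x15218) x14624) x14948) x13328) x14300) x18188) x6524) x2148) x8710)
  (sub (sub (sub (sub (add (add (add (add (sub (sub (sub (sub C x15280) x15272) x15296) x15224) x14630) x14954) x13334) x14306) x18194) x6530) x2154) x8716)
  (add (sub (sub (add (add (add (add (sub (sub (add (add (sub C x15278) x15256) x15268) x15298) x15226) x14632) x14956) x13336) x14308) x18196) x6532) x8720)
  (sub (sub (sub (sub (add (add (add (add (add (add (sub (add (add (sub C x15288) x15296) x15308) x15248) x15068) x15176) x14636) x14960) x13340) x14312) x18200) x6536) x2160) x8722)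
  (add (sub (sub (add (add (add (add (add (add (sub (sub (sub C x15284) x15300) x15252) x15072) x15180) x14640) x14964) x13344) x14316) x18204) x6540) x2168)
  (sub (sub (sub (sub (add (add (add (add (add (add (sub (add (add (sub C x15298) x15284) x15308) x15278) x15080) x15188) x14648) x14972) x13352) x14324) x18212) x6548) x2172) x8734)
  (add (sub (sub (add (add (add (add (add (add (sub (sub (sub C x15296) x15304) x15280) x15082) x15190) x14650) x14974) x13354) x14326) x18214) x6550) x8738)
  (add (sub (sub (add (add (add (add (add (add (add (add (sub (add (add C x15304) x15308) x15288) x15228) x15264) x15084) x15192) x14652) x14976) x13356) x14328) x18216) x6552) x2180)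
  (add (sub (sub (add (add (add (add (add (add (add (add (sub (add (add C x15300) x15308) x15298) x15232) x15268) x15088) x15196) x14656) x14980) x13360) x14332) x18220) x6556) x8744)
  (sub (sub (sub (sub (add (add (add (add (add (add (add (add (add (add (add (add C x15300) x15304) x15284) x15296) x15236) x15272) x15092) x15200) x14660) x14984) x13364) x14336) x18224) x6560) x2184) x8746)
  (sub (sub (sub (sub (add (add (add (add (add (add (add (add (sub (sub C x15316) x15320) x15350) x15386) x15422) x15530) x15638) x15962) x16286) x17258) x13856) x10940) x2190) x8752)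
  (add (sub (sub (add (add (add (add (add (add (add (add (sub (sub C x15314) x15328) x15352) x15388) x15424) x15532) x15640) x15964) x16288) x17260) x13858) x10942) x8756)
  (sub (sub (sub (sub (add (add (add (add (add (add (sub (sub (sub C x15324) x15314) x15338) x15428) x15536) x15644) x15968) x16292) x17264) x13862) x10946) x2196) x8758)
  (add (sub (sub (add (add (add (add (add (add (sub (sub (sub C x15320) x15330) x15342) x15432) x15540) x15648) x15972) x16296) x17268) x13866) x10950) x2204)
  (add (sub (sub (add (add (add (add (add (add (sub (sub (sub C x15330) x15316) x15364) x15436) x15544) x15652) x15976) x16300) x17272) x13870) x10954) x8768)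
  (add (sub (sub (add (add (add (add (add (add (sub (sub (sub C x15328) x15324) x15366) x15438) x15546) x15654) x15978) x16302) x17274) x13872) x10956) x2210)
  (sub (sub (sub (sub (add (add (add (add (sub (sub (add (add (sub C x15342) x15350) x15362) x15320) x15392) x15662) x15986) x16310) x17282) x13880) x10964) x2214) x8776)
  (add (sub (sub (add (add (add (add (sub (sub (sub (sub C x15338) x15354) x15324) x15396) x15666) x15990) x16314) x17286) x13884) x10968) x2222)
  (sub (sub (sub (sub (add (add (add (add (sub (add (add (add (add (sub C x15352) x15338) x15362) x15314) x15386) x15404) x15674) x15998) x16322) x17294) x13892) x10976) x2226) x8788)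
  (add (sub (sub (add (add (add (add (sub (add (add (sub (sub C x15350) x15358) x15316) x15388) x15406) x15676) x16000) x16324) x17296) x13894) x10978) x8792)
  (add (sub (sub (add (add (add (add (sub (sub (sub (add (add C x15358) x15362) x15342) x15372) x15408) x15678) x16002) x16326) x17298) x13896) x10980) x2234)
  (add (sub (sub (add (add (add (add (sub (sub (sub (add (add C x15354) x15362) x15352) x15376) x15412) x15682) x16006) x16330) x17302) x13900) x10984) x8798)
  (sub (sub (sub (sub (add (add (add (add (sub (sub (add (add (add (add C x15354) x15358) x15338) x15350) x15380) x15416) x15686) x16010) x16334) x17306) x13904) x10988) x2238) x8800)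
  (add (sub (sub (add (add (add (add (sub (sub (add (add (sub C x15366) x15376) x15388) x15328) x15472) x15688) x16012) x16336) x17308) x13906) x10990) x8804)
  (add (sub (sub (add (add (add (add (sub (sub (sub (sub C x15364) x15372) x15330) x15474) x15690) x16014) x16338) x17310) x13908) x10992) x2246)
  (add (sub (sub (add (add (add (add (sub (sub (sub (add (add C x15376) x15380) x15366) x15354) x15480) x15696) x16020) x16344) x17316) x13914) x10998) x2252)
  (add (sub (sub (add (add (add (add (sub (sub (add (add (add (add C x15372) x15380) x15364) x15388) x15358) x15484) x15700) x16024) x16348) x17320) x13918) x11002) x8816)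
  (sub (sub (sub (sub (add (add (add (add (sub (sub (sub (add (add C x15372) x15376) x15386) x15362) x15488) x15704) x16028) x16352) x17324) x13922) x11006) x2256) x8818)
  (sub (sub (sub (sub (add (add (add (add (sub (add (add (sub (sub C x15388) x15380) x15314) x15350) x15494) x15710) x16034) x16358) x17330) x13928) x11012) x2262) x8824)
  (add (sub (sub (add (add (add (add (sub (add (add (add (add (sub C x15386) x15364) x15376) x15316) x15352) x15496) x15712) x16036) x16360) x17332) x13930) x11014) x8828)
  (sub (sub (sub (sub (add (add (sub (sub (add (add (add (add (sub C x15396) x15404) x15416) x15428) x15464) x15338) x15554) x16364) x17336) x13934) x11018) x2268) x8830)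
  (add (sub (sub (add (add (sub (sub (add (add (sub (sub C x15392) x15408) x15432) x15468) x15342) x15558) x16368) x17340) x13938) x11022) x2276)
  (sub (sub (sub (sub (add (add (sub (sub (sub (add (add (sub C x15406) x15392) x15416) x15422) x15350) x15566) x16376) x17348) x13946) x11030) x2280) x8842)
  (add (sub (sub (add (add (sub (sub (sub (sub (sub C x15404) x15412) x15424) x15352) x15568) x16378) x17350) x13948) x11032) x8846)
  (add (sub (sub (add (add (sub (sub (sub (sub (add (add C x15412) x15416) x15396) x15444) x15354) x15570) x16380) x17352) x13950) x11034) x2288)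
  (add (sub (sub (add (add (sub (sub (sub (sub (add (add C x15408) x15416) x15406) x15448) x15358) x15574) x16384) x17356) x13954) x11038) x8852)
  (sub (sub (sub (sub (add (add (sub (sub (sub (add (add (add (add C x15408) x15412) x15392) x15404) x15452) x15362) x15578) x16388) x17360) x13958) x11042) x2292) x8854)
  (sub (sub (sub (sub (add (add (sub (add (add (sub (sub (sub C x15424) x15428) x15404) x15314) x15530) x15584) x16394) x17366) x13964) x11048) x2298) x8860)
  (add (sub (sub (add (add (sub (add (add (sub (sub (sub C x15422) x15436) x15406) x15316) x15532) x15586) x16396) x17368) x13966) x11050) x8864)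
  (sub (sub (sub (sub (add (add (sub (add (add (add (add (sub (sub C x15432) x15422) x15392) x15464) x15320) x15536) x15590) x16400) x17372) x13970) x11054) x2304) x8866)
  (add (sub (sub (add (add (sub (add (add (add (add (sub (sub C x15428) x15438) x15396) x15468) x15324) x15540) x15594) x16404) x17376) x13974) x11058) x2312)
  (add (sub (sub (add (add (sub (add (add (sub (sub (sub C x15438) x15424) x15454) x15328) x15544) x15598) x16408) x17380) x13978) x11062) x8876)
  (add (sub (sub (add (add (sub (add (add (sub (sub (sub C x15436) x15432) x15456) x15330) x15546) x15600) x16410) x17382) x13980) x11064) x2318)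
  (add (sub (sub (add (add (sub (sub (sub (add (add (add (add C x15448) x15452) x15456) x15468) x15408) x15498) x15606) x16416) x17388) x13986) x11070) x2324)
  (add (sub (sub (add (add (sub (sub (sub (sub (add (add C x15444) x15452) x15454) x15412) x15502) x15610) x16420) x17392) x13990) x11074) x8888)
  (sub (sub (sub (sub (add (add (sub (sub (sub (sub (add (add C x15444) x15448) x15464) x15416) x15506) x15614) x16424) x17396) x13994) x11078) x2328) x8890)
  (add (sub (sub (add (add (sub (sub (sub (sub (sub C x15456) x15448) x15436) x15508) x15616) x16426) x17398) x13996) x11080) x8894)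
  (add (sub (sub (add (add (sub (sub (sub (add (add (sub C x15454) x15444) x15468) x15438) x15510) x15618) x16428) x17400) x13998) x11082) x2336)
  (sub (sub (sub (sub (add (add (sub (sub (add (add (sub (sub C x15468) x15452) x15392) x15428) x15518) x15626) x16436) x17408) x14006) x11090) x2340) x8902)
  (add (sub (sub (add (add (sub (sub (add (add (add (add (sub C x15464) x15444) x15456) x15396) x15432) x15522) x15630) x16440) x17412) x14010) x11094) x2348)
  (add (sub (sub (add (add (sub (sub (add (add (add (add (sub C x15474) x15484) x15496) x15508) x15544) x15364) x15796) x16444) x17416) x14014) x11098) x8912)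
  (add (sub (sub (add (add (sub (sub (add (add (sub (sub C x15472) x15480) x15510) x15546) x15366) x15798) x16446) x17418) x14016) x11100) x2354)
  (add (sub (sub (add (add (sub (sub (sub (sub (add (add C x15484) x15488) x15474) x15498) x15372) x15804) x16452) x17424) x14022) x11106) x2360)
  (add (sub (sub (add (add (sub (sub (sub (add (add (add (add C x15480) x15488) x15472) x15496) x15502) x15376) x15808) x16456) x17428) x14026) x11110) x8924)
  (sub (sub (sub (sub (add (add (sub (sub (sub (sub (add (add C x15480) x15484) x15494) x15506) x15380) x15812) x16460) x17432) x14030) x11114) x2364) x8926)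
  (sub (sub (sub (sub (add (add (sub (sub (sub (sub (sub C x15496) x15488) x15530) x15386) x15818) x16466) x17438) x14036) x11120) x2370) x8932)
  (add (sub (sub (add (add (sub (sub (sub (add (add (sub C x15494) x15472) x15484) x15532) x15388) x15820) x16468) x17440) x14038) x11122) x8936)
  (add (sub (sub (add (add (sub (sub (sub (add (add (add (add C x15502) x15506) x15510) x15522) x15480) x15444) x15822) x16470) x17442) x14040) x11124) x2378)
  (add (sub (sub (add (add (sub (sub (sub (sub (add (add C x15498) x15506) x15508) x15484) x15448) x15826) x16474) x17446) x14044) x11128) x8942)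
  (sub (sub (sub (sub (add (add (sub (sub (sub (sub (add (add C x15498) x15502) x15518) x15488) x15452) x15830) x16478) x17450) x14048) x11132) x2382) x8944)
  (add (sub (sub (add (add (sub (sub (add (add (sub (sub C x15510) x15502) x15472) x15544) x15454) x15832) x16480) x17452) x14050) x11134) x8948)
  (add (sub (sub (add (add (sub (sub (add (add (add (add (sub C x15508) x15498) x15522) x15474) x15546) x15456) x15834) x16482) x17454) x14052) x11136) x2390)
  (sub (sub (sub (sub (add (add (sub (sub (sub (sub (sub C x15522) x15506) x15536) x15464) x15842) x16490) x17462) x14060) x11144) x2394) x8956)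
  (add (sub (sub (add (add (sub (sub (sub (add (add (sub C x15518) x15498) x15510) x15540) x15468) x15846) x16494) x17466) x14064) x11148) x2402)
  (sub (sub (sub (sub (add (add (sub (add (add (sub (sub (sub C x15532) x15536) x15494) x15314) x15422) x15854) x16502) x17474) x14072) x11156) x2406) x8968)
  (add (sub (sub (add (add (sub (add (add (sub (sub (sub C x15530) x15544) x15496) x15316) x15424) x15856) x16504) x17476) x14074) x11158) x8972)
  (sub (sub (sub (sub (add (add (sub (add (add (sub (sub (sub C x15540) x15530) x15518) x15320) x15428) x15860) x16508) x17480) x14078) x11162) x2412) x8974)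
  (add (sub (sub (add (add (sub (add (add (sub (sub (sub C x15536) x15546) x15522) x15324) x15432) x15864) x16512) x17484) x14082) x11166) x2420)
  (add (sub (sub (add (add (sub (add (add (add (add (sub (sub C x15546) x15532) x15472) x15508) x15328) x15436) x15868) x16516) x17488) x14086) x11170) x8984)
  (add (sub (sub (add (add (sub (add (add (add (add (sub (sub C x15544) x15540) x15474) x15510) x15330) x15438) x15870) x16518) x17490) x14088) x11172) x2426)
  (sub (sub (sub (sub (sub (sub (add (add (add (add (add (add (sub C x15558) x15566) x15578) x15590) x15626) x15662) x15770) x15392) x16040) x14096) x11180) x2430) x8992)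
  (add (sub (sub (sub (sub (add (add (add (add (sub (sub C x15554) x15570) x15594) x15630) x15666) x15774) x15396) x16044) x14100) x11184) x2438)
  (sub (sub (sub (sub (sub (sub (add (add (sub (add (add (sub C x15568) x15554) x15578) x15584) x15674) x15782) x15404) x16052) x14108) x11192) x2442) x9004)
  (add (sub (sub (sub (sub (add (add (sub (sub (sub C x15566) x15574) x15586) x15676) x15784) x15406) x16054) x14110) x11194) x9008)
  (add (sub (sub (sub (sub (add (add (sub (sub (add (add C x15574) x15578) x15558) x15606) x15678) x15786) x15408) x16056) x14112) x11196) x2450)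
  (add (sub (sub (sub (sub (add (add (sub (sub (add (add C x15570) x15578) x15568) x15610) x15682) x15790) x15412) x16060) x14116) x11200) x9014)
  (sub (sub (sub (sub (sub (sub (add (add (sub (add (add (add (add C x15570) x15574) x15554) x15566) x15614) x15686) x15794) x15416) x16064) x14120) x11204) x2454) x9016)
  (sub (sub (sub (sub (sub (sub (sub (sub (sub (sub C x15586) x15590) x15566) x15638) x15422) x16070) x14126) x11210) x2460) x9022)
  (add (sub (sub (sub (sub (sub (sub (sub (sub C x15584) x15598) x15568) x15640) x15424) x16072) x14128) x11212) x9026)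
  (sub (sub (sub (sub (sub (sub (sub (add (add (sub (sub C x15594) x15584) x15554) x15626) x15644) x15428) x16076) x14132) x11216) x2466) x9028)
  (add (sub (sub (sub (sub (sub (add (add (sub (sub C x15590) x15600) x15558) x15630) x15648) x15432) x16080) x14136) x11220) x2474)
  (add (sub (sub (sub (sub (sub (sub (sub (sub C x15600) x15586) x15616) x15652) x15436) x16084) x14140) x11224) x9038)
  (add (sub (sub (sub (sub (sub (sub (sub (sub C x15598) x15594) x15618) x15654) x15438) x16086) x14142) x11226) x2480)
  (add (sub (sub (sub (sub (sub (sub (add (add (add (add C x15610) x15614) x15618) x15630) x15570) x15714) x15444) x16092) x14148) x11232) x2486)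
  (add (sub (sub (sub (sub (sub (sub (sub (add (add C x15606) x15614) x15616) x15574) x15718) x15448) x16096) x14152) x11236) x9050)
  (sub (sub (sub (sub (sub (sub (sub (sub (sub (add (add C x15606) x15610) x15626) x15578) x15722) x15452) x16100) x14156) x11240) x2490) x9052)
  (add (sub (sub (sub (sub (sub (sub (sub (sub C x15618) x15610) x15598) x15724) x15454) x16102) x14158) x11242) x9056)
  (add (sub (sub (sub (sub (sub (sub (add (add (sub C x15616) x15606) x15630) x15600) x15726) x15456) x16104) x14160) x11244) x2498)
  (sub (sub (sub (sub (sub (sub (sub (add (add (sub (sub C x15630) x15614) x15554) x15590) x15734) x15464) x16112) x14168) x11252) x2502) x9064)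
  (add (sub (sub (sub (sub (sub (add (add (add (add (sub C x15626) x15606) x15618) x15558) x15594) x15738) x15468) x16116) x14172) x11256) x2510)
  (sub (sub (sub (sub (sub (add (add (sub (add (add (sub (sub C x15640) x15644) x15674) x15710) x15584) x15314) x15962) x16124) x14180) x11264) x2514) x9076)
  (add (sub (sub (sub (add (add (sub (add (add (sub (sub C x15638) x15652) x15676) x15712) x15586) x15316) x15964) x16126) x14182) x11266) x9080)
  (sub (sub (sub (sub (sub (add (add (sub (sub (sub (sub C x15648) x15638) x15662) x15590) x15320) x15968) x16130) x14186) x11270) x2520) x9082)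
  (add (sub (sub (sub (add (add (sub (sub (sub (sub C x15644) x15654) x15666) x15594) x15324) x15972) x16134) x14190) x11274) x2528)
  (add (sub (sub (sub (add (add (sub (sub (sub (sub C x15654) x15640) x15688) x15598) x15328) x15976) x16138) x14194) x11278) x9092)
  (add (sub (sub (sub (add (add (sub (sub (sub (sub C x15652) x15648) x15690) x15600) x15330) x15978) x16140) x14196) x11280) x2534)
  (sub (sub (sub (sub (sub (add (add (add (add (sub (add (add (sub C x15666) x15674) x15686) x15644) x15554) x15770) x15338) x15986) x16148) x14204) x11288) x2538) x9100)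
  (add (sub (sub (sub (add (add (add (add (sub (sub (sub C x15662) x15678) x15648) x15558) x15774) x15342) x15990) x16152) x14208) x11292) x2546)
  (sub (sub (sub (sub (sub (add (add (add (add (add (add (add (add (sub C x15676) x15662) x15686) x15638) x15710) x15566) x15782) x15350) x15998) x16160) x14216) x11300) x2550) x9112)
  (add (sub (sub (sub (add (add (add (add (add (add (sub (sub C x15674) x15682) x15640) x15712) x15568) x15784) x15352) x16000) x16162) x14218) x11302) x9116)
  (add (sub (sub (sub (add (add (add (add (sub (sub (add (add C x15682) x15686) x15666) x15696) x15570) x15786) x15354) x16002) x16164) x14220) x11304) x2558)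
  (add (sub (sub (sub (add (add (add (add (sub (sub (add (add C x15678) x15686) x15676) x15700) x15574) x15790) x15358) x16006) x16168) x14224) x11308) x9122)
  (sub (sub (sub (sub (sub (add (add (add (add (sub (add (add (add (add C x15678) x15682) x15662) x15674) x15704) x15578) x15794) x15362) x16010) x16172) x14228) x11312) x2562) x9124)
  (add (sub (sub (sub (add (add (sub (sub (add (add (sub C x15690) x15700) x15712) x15652) x15742) x15364) x16012) x16174) x14230) x11314) x9128)
  (add (sub (sub (sub (add (add (sub (sub (sub (sub C x15688) x15696) x15654) x15744) x15366) x16014) x16176) x14232) x11316) x2570)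
  (add (sub (sub (sub (add (add (sub (sub (sub (add (add C x15700) x15704) x15690) x15678) x15750) x15372) x16020) x16182) x14238) x11322) x2576)
  (add (sub (sub (sub (add (add (sub (sub (add (add (add (add C x15696) x15704) x15688) x15712) x15682) x15754) x15376) x16024) x16186) x14242) x11326) x9140)
  (sub (sub (sub (sub (sub (add (add (sub (sub (sub (add (add C x15696) x15700) x15710) x15686) x15758) x15380) x16028) x16190) x14246) x11330) x2580) x9142)
  (sub (sub (sub (sub (sub (add (add (sub (add (add (sub (sub C x15712) x15704) x15638) x15674) x15764) x15386) x16034) x16196) x14252) x11336) x2586) x9148)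
  (add (sub (sub (sub (add (add (sub (add (add (add (add (sub C x15710) x15688) x15700) x15640) x15676) x15766) x15388) x16036) x16198) x14254) x11338) x9152)
  (add (sub (sub (sub (sub (sub (add (add (add (add (add (add C x15718) x15722) x15726) x15738) x15750) x15786) x15606) x15876) x16200) x14256) x11340) x2594)
  (add (sub (sub (sub (sub (sub (add (add (sub (add (add C x15714) x15722) x15724) x15754) x15790) x15610) x15880) x16204) x14260) x11344) x9158)
  (sub (sub (sub (sub (sub (sub (sub (add (add (sub (add (add C x15714) x15718) x15734) x15758) x15794) x15614) x15884) x16208) x14264) x11348) x2598) x9160)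
  (add (sub (sub (sub (sub (sub (sub (sub (sub C x15726) x15718) x15742) x15616) x15886) x16210) x14266) x11350) x9164)
  (add (sub (sub (sub (sub (sub (sub (add (add (sub C x15724) x15714) x15738) x15744) x15618) x15888) x16212) x14268) x11352) x2606)
  (sub (sub (sub (sub (sub (sub (sub (sub (sub (sub C x15738) x15722) x15770) x15626) x15896) x16220) x14276) x11360) x2610) x9172)
  (add (sub (sub (sub (sub (sub (sub (add (add (sub C x15734) x15714) x15726) x15774) x15630) x15900) x16224) x14280) x11364) x2618)
  (add (sub (sub (sub (sub (sub (sub (add (add (sub C x15744) x15754) x15766) x15724) x15688) x15904) x16228) x14284) x11368) x9182)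
  (add (sub (sub (sub (sub (sub (sub (sub (sub C x15742) x15750) x15726) x15690) x15906) x16230) x14286) x11370) x2624)
  (add (sub (sub (sub (sub (sub (add (add (sub (add (add C x15754) x15758) x15744) x15714) x15786) x15696) x15912) x16236) x14292) x11376) x2630)
  (add (sub (sub (sub (sub (sub (add (add (add (add (add (add C x15750) x15758) x15742) x15766) x15718) x15790) x15700) x15916) x16240) x14296) x11380) x9194)
  (sub (sub (sub (sub (sub (sub (sub (add (add (sub (add (add C x15750) x15754) x15764) x15722) x15794) x15704) x15920) x16244) x14300) x11384) x2634) x9196)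
  (sub (sub (sub (sub (sub (sub (sub (sub (sub (sub C x15766) x15758) x15782) x15710) x15926) x16250) x14306) x11390) x2640) x9202)
  (add (sub (sub (sub (sub (sub (sub (add (add (sub C x15764) x15742) x15754) x15784) x15712) x15928) x16252) x14308) x11392) x9206)
  (sub (sub (sub (sub (sub (sub (add (add (sub (add (add (sub C x15774) x15782) x15794) x15734) x15554) x15662) x15932) x16256) x14312) x11396) x2646) x9208)
  (add (sub (sub (sub (sub (add (add (sub (sub (sub C x15770) x15786) x15738) x15558) x15666) x15936) x16260) x14316) x11400) x2654)
  (sub (sub (sub (sub (sub (sub (add (add (sub (add (add (sub C x15784) x15770) x15794) x15764) x15566) x15674) x15944) x16268) x14324) x11408) x2658) x9220)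
  (add (sub (sub (sub (sub (add (add (sub (sub (sub C x15782) x15790) x15766) x15568) x15676) x15946) x16270) x14326) x11410) x9224)
  (add (sub (sub (sub (sub (add (add (add (add (sub (add (add C x15790) x15794) x15774) x15714) x15750) x15570) x15678) x15948) x16272) x14328) x11412) x2666)
  (add (sub (sub (sub (sub (add (add (add (add (sub (add (add C x15786) x15794) x15784) x15718) x15754) x15574) x15682) x15952) x16276) x14332) x11416) x9230)
  (sub (sub (sub (sub (sub (sub (add (add (add (add (add (add (add (add C x15786) x15790) x15770) x15782) x15722) x15758) x15578) x15686) x15956) x16280) x14336) x11420) x2670) x9232)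
  (add (sub (sub (sub (sub (add (add (add (add (add (add (sub C x15798) x15808) x15820) x15832) x15868) x15904) x16012) x15472) x16768) x14338) x11422) x9236)
  (add (sub (sub (sub (sub (add (add (add (add (sub (sub C x15796) x15804) x15834) x15870) x15906) x16014) x15474) x16770) x14340) x11424) x2678)
  (add (sub (sub (sub (sub (add (add (sub (sub (add (add C x15808) x15812) x15798) x15822) x15912) x16020) x15480) x16776) x14346) x11430) x2684)
  (add (sub (sub (sub (sub (add (add (sub (add (add (add (add C x15804) x15812) x15796) x15820) x15826) x15916) x16024) x15484) x16780) x14350) x11434) x9248)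
  (sub (sub (sub (sub (sub (sub (add (add (sub (sub (add (add C x15804) x15808) x15818) x15830) x15920) x16028) x15488) x16784) x14354) x11438) x2688) x9250)
  (sub (sub (sub (sub (sub (sub (add (add (sub (sub (sub C x15820) x15812) x15854) x15926) x16034) x15494) x16790) x14360) x11444) x2694) x9256)
  (add (sub (sub (sub (sub (add (add (sub (add (add (sub C x15818) x15796) x15808) x15856) x15928) x16036) x15496) x16792) x14362) x11446) x9260)
  (add (sub (sub (sub (sub (sub (sub (add (add (add (add C x15826) x15830) x15834) x15846) x15804) x15876) x15498) x16794) x14364) x11448) x2702)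
  (add (sub (sub (sub (sub (sub (sub (sub (add (add C x15822) x15830) x15832) x15808) x15880) x15502) x16798) x14368) x11452) x9266)
  (sub (sub (sub (sub (sub (sub (sub (sub (sub (add (add C x15822) x15826) x15842) x15812) x15884) x15506) x16802) x14372) x11456) x2706) x9268)
  (add (sub (sub (sub (sub (sub (add (add (sub (sub C x15834) x15826) x15796) x15868) x15886) x15508) x16804) x14374) x11458) x9272)
  (add (sub (sub (sub (sub (sub (add (add (add (add (sub C x15832) x15822) x15846) x15798) x15870) x15888) x15510) x16806) x14376) x11460) x2714)
  (sub (sub (sub (sub (sub (sub (sub (sub (sub (sub C x15846) x15830) x15860) x15896) x15518) x16814) x14384) x11468) x2718) x9280)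
  (add (sub (sub (sub (sub (sub (sub (add (add (sub C x15842) x15822) x15834) x15864) x15900) x15522) x16818) x14388) x11472) x2726)
  (sub (sub (sub (sub (sub (sub (sub (sub (sub (sub C x15856) x15860) x15818) x15962) x15530) x16826) x14396) x11480) x2730) x9292)
  (add (sub (sub (sub (sub (sub (sub (sub (sub C x15854) x15868) x15820) x15964) x15532) x16828) x14398) x11482) x9296)
  (sub (sub (sub (sub (sub (sub (sub (sub (sub (sub C x15864) x15854) x15842) x15968) x15536) x16832) x14402) x11486) x2736) x9298)
  (add (sub (sub (sub (sub (sub (sub (sub (sub C x15860) x15870) x15846) x15972) x15540) x16836) x14406) x11490) x2744)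
  (add (sub (sub (sub (sub (sub (add (add (sub (sub C x15870) x15856) x15796) x15832) x15976) x15544) x16840) x14410) x11494) x9308)
  (add (sub (sub (sub (sub (sub (add (add (sub (sub C x15868) x15864) x15798) x15834) x15978) x15546) x16842) x14412) x11496) x2750)
  (add (sub (sub (sub (sub (sub (add (add (add (add (add (add C x15880) x15884) x15888) x15900) x15912) x15948) x15822) x15714) x16848) x14418) x11502) x2756)
  (add (sub (sub (sub (sub (sub (add (add (sub (add (add C x15876) x15884) x15886) x15916) x15952) x15826) x15718) x16852) x14422) x11506) x9320)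
  (sub (sub (sub (sub (sub (sub (sub (add (add (sub (add (add C x15876) x15880) x15896) x15920) x15956) x15830) x15722) x16856) x14426) x11510) x2760) x9322)
  (add (sub (sub (sub (sub (sub (sub (sub (sub C x15888) x15880) x15904) x15832) x15724) x16858) x14428) x11512) x9326)
  (add (sub (sub (sub (sub (sub (sub (add (add (sub C x15886) x15876) x15900) x15906) x15834) x15726) x16860) x14430) x11514) x2768)
  (sub (sub (sub (sub (sub (sub (sub (sub (sub (sub C x15900) x15884) x15932) x15842) x15734) x16868) x14438) x11522) x2772) x9334)
  (add (sub (sub (sub (sub (sub (sub (add (add (sub C x15896) x15876) x15888) x15936) x15846) x15738) x16872) x14442) x11526) x2780)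
  (add (sub (sub (sub (sub (add (add (sub (add (add (sub C x15906) x15916) x15928) x15886) x15796) x16012) x15742) x16876) x14446) x11530) x9344)
  (add (sub (sub (sub (sub (add (add (sub (sub (sub C x15904) x15912) x15888) x15798) x16014) x15744) x16878) x14448) x11532) x2786)
  (add (sub (sub (sub (sub (add (add (add (add (sub (add (add C x15916) x15920) x15906) x15876) x15948) x15804) x16020) x15750) x16884) x14454) x11538) x2792)
  (add (sub (sub (sub (sub (add (add (add (add (add (add (add (add C x15912) x15920) x15904) x15928) x15880) x15952) x15808) x16024) x15754) x16888) x14458) x11542) x9356)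
  (sub (sub (sub (sub (sub (sub (add (add (add (add (sub (add (add C x15912) x15916) x15926) x15884) x15956) x15812) x16028) x15758) x16892) x14462) x11546) x2796) x9358)
  (sub (sub (sub (sub (sub (sub (add (add (sub (sub (sub C x15928) x15920) x15944) x15818) x16034) x15764) x16898) x14468) x11552) x2802) x9364)
  (add (sub (sub (sub (sub (add (add (sub (add (add (sub C x15926) x15904) x15916) x15946) x15820) x16036) x15766) x16900) x14470) x11554) x9368)
  (sub (sub (sub (sub (sub (sub (sub (sub (add (add (sub C x15936) x15944) x15956) x15896) x15986) x15770) x16904) x14474) x11558) x2808) x9370)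
  (add (sub (sub (sub (sub (sub (sub (sub (sub C x15932) x15948) x15900) x15990) x15774) x16908) x14478) x11562) x2816)
  (sub (sub (sub (sub (sub (sub (sub (sub (add (add (sub C x15946) x15932) x15956) x15926) x15998) x15782) x16916) x14486) x11570) x2820) x9382)
  (add (sub (sub (sub (sub (sub (sub (sub (sub C x15944) x15952) x15928) x16000) x15784) x16918) x14488) x11572) x9386)
  (add (sub (sub (sub (sub (sub (add (add (sub (add (add C x15952) x15956) x15936) x15876) x15912) x16002) x15786) x16920) x14490) x11574) x2828)
  (add (sub (sub (sub (sub (sub (add (add (sub (add (add C x15948) x15956) x15946) x15880) x15916) x16006) x15790) x16924) x14494) x11578) x9392)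
  (sub (sub (sub (sub (sub (sub (sub (add (add (add (add (add (add C x15948) x15952) x15932) x15944) x15884) x15920) x16010) x15794) x16928) x14498) x11582) x2832) x9394)
  (sub (sub (sub (sub (sub (add (add (sub (add (add (sub (sub C x15964) x15968) x15998) x16034) x15854) x15314) x15638) x16934) x14504) x11588) x2838) x9400)
  (add (sub (sub (sub (add (add (sub (add (add (sub (sub C x15962) x15976) x16000) x16036) x15856) x15316) x15640) x16936) x14506) x11590) x9404)
  (sub (sub (sub (sub (sub (add (add (sub (sub (sub (sub C x15972) x15962) x15986) x15860) x15320) x15644) x16940) x14510) x11594) x2844) x9406)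
  (add (sub (sub (sub (add (add (sub (sub (sub (sub C x15968) x15978) x15990) x15864) x15324) x15648) x16944) x14514) x11598) x2852)
  (add (sub (sub (sub (add (add (sub (sub (sub (sub C x15978) x15964) x16012) x15868) x15328) x15652) x16948) x14518) x11602) x9416)
  (add (sub (sub (sub (add (add (sub (sub (sub (sub C x15976) x15972) x16014) x15870) x15330) x15654) x16950) x14520) x11604) x2858)
  (sub (sub (sub (sub (sub (add (add (sub (sub (add (add (sub C x15990) x15998) x16010) x15968) x15932) x15338) x15662) x16958) x14528) x11612) x2862) x9424)
  (add (sub (sub (sub (add (add (sub (sub (sub (sub C x15986) x16002) x15972) x15936) x15342) x15666) x16962) x14532) x11616) x2870)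
  (sub (sub (sub (sub (sub (add (add (sub (add (add (add (add (sub C x16000) x15986) x16010) x15962) x16034) x15944) x15350) x15674) x16970) x14540) x11624) x2874) x9436)
  (add (sub (sub (sub (add (add (sub (add (add (sub (sub C x15998) x16006) x15964) x16036) x15946) x15352) x15676) x16972) x14542) x11626) x9440)
  (add (sub (sub (sub (add (add (sub (sub (sub (add (add C x16006) x16010) x15990) x16020) x15948) x15354) x15678) x16974) x14544) x11628) x2882)
  (add (sub (sub (sub (add (add (sub (sub (sub (add (add C x16002) x16010) x16000) x16024) x15952) x15358) x15682) x16978) x14548) x11632) x9446)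
  (sub (sub (sub (sub (sub (add (add (sub (sub (add (add (add (add C x16002) x16006) x15986) x15998) x16028) x15956) x15362) x15686) x16982) x14552) x11636) x2886) x9448)
  (add (sub (sub (sub (add (add (add (add (sub (add (add (sub C x16014) x16024) x16036) x15976) x15796) x15904) x15364) x15688) x16984) x14554) x11638) x9452)
  (add (sub (sub (sub (add (add (add (add (sub (sub (sub C x16012) x16020) x15978) x15798) x15906) x15366) x15690) x16986) x14556) x11640) x2894)
  (add (sub (sub (sub (add (add (add (add (sub (sub (add (add C x16024) x16028) x16014) x16002) x15804) x15912) x15372) x15696) x16992) x14562) x11646) x2900)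
  (add (sub (sub (sub (add (add (add (add (sub (add (add (add (add C x16020) x16028) x16012) x16036) x16006) x15808) x15916) x15376) x15700) x16996) x14566) x11650) x9464)
  (sub (sub (sub (sub (sub (add (add (add (add (sub (sub (add (add C x16020) x16024) x16034) x16010) x15812) x15920) x15380) x15704) x17000) x14570) x11654) x2904) x9466)
  (sub (sub (sub (sub (sub (add (add (add (add (add (add (sub (sub C x16036) x16028) x15962) x15998) x15818) x15926) x15386) x15710) x17006) x14576) x11660) x2910) x9472)
  (add (sub (sub (sub (add (add (add (add (add (add (add (add (sub C x16034) x16012) x16024) x15964) x16000) x15820) x15928) x15388) x15712) x17008) x14578) x11662) x9476)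
  (sub (sub (sub (add (add (sub (add (add (add (add (add (add (add (add (sub C x16044) x16052) x16064) x16076) x16112) x16148) x16256) x16364) x16688) x15554) x13124) x18956) x11666) x2916) x9478)
  (add (sub (add (add (sub (add (add (add (add (add (add (sub (sub C x16040) x16056) x16080) x16116) x16152) x16260) x16368) x16692) x15558) x13128) x18960) x11670) x2924)
  (sub (sub (sub (add (add (sub (add (add (add (add (sub (add (add (sub C x16054) x16040) x16064) x16070) x16160) x16268) x16376) x16700) x15566) x13136) x18968) x11678) x2928) x9490)
  (add (sub (add (add (sub (add (add (add (add (sub (sub (sub C x16052) x16060) x16072) x16162) x16270) x16378) x16702) x15568) x13138) x18970) x11680) x9494)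
  (add (sub (add (add (sub (add (add (add (add (sub (sub (add (add C x16060) x16064) x16044) x16092) x16164) x16272) x16380) x16704) x15570) x13140) x18972) x11682) x2936)
  (add (sub (add (add (sub (add (add (add (add (sub (sub (add (add C x16056) x16064) x16054) x16096) x16168) x16276) x16384) x16708) x15574) x13144) x18976) x11686) x9500)
  (sub (sub (sub (add (add (sub (add (add (add (add (sub (add (add (add (add C x16056) x16060) x16040) x16052) x16100) x16172) x16280) x16388) x16712) x15578) x13148) x18980) x11690) x2940) x9502)
  (sub (sub (sub (add (add (sub (add (add (sub (sub (sub (sub C x16072) x16076) x16052) x16124) x16394) x16718) x15584) x13154) x18986) x11696) x2946) x9508)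
  (add (sub (add (add (sub (add (add (sub (sub (sub (sub C x16070) x16084) x16054) x16126) x16396) x16720) x15586) x13156) x18988) x11698) x9512)
  (sub (sub (sub (add (add (sub (add (add (sub (add (add (sub (sub C x16080) x16070) x16040) x16112) x16130) x16400) x16724) x15590) x13160) x18992) x11702) x2952) x9514)
  (add (sub (add (add (sub (add (add (sub (add (add (sub (sub C x16076) x16086) x16044) x16116) x16134) x16404) x16728) x15594) x13164) x18996) x11706) x2960)
  (add (sub (add (add (sub (add (add (sub (sub (sub (sub C x16086) x16072) x16102) x16138) x16408) x16732) x15598) x13168) x19000) x11710) x9524)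
  (add (sub (add (add (sub (add (add (sub (sub (sub (sub C x16084) x16080) x16104) x16140) x16410) x16734) x15600) x13170) x19002) x11712) x2966)
  (add (sub (add (add (sub (add (add (sub (sub (add (add (add (add C x16096) x16100) x16104) x16116) x16056) x16200) x16416) x16740) x15606) x13176) x19008) x11718) x2972)
  (add (sub (add (add (sub (add (add (sub (sub (sub (add (add C x16092) x16100) x16102) x16060) x16204) x16420) x16744) x15610) x13180) x19012) x11722) x9536)
  (sub (sub (sub (add (add (sub (add (add (sub (sub (sub (add (add C x16092) x16096) x16112) x16064) x16208) x16424) x16748) x15614) x13184) x19016) x11726) x2976) x9538)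
  (add (sub (add (add (sub (add (add (sub (sub (sub (sub C x16104) x16096) x16084) x16210) x16426) x16750) x15616) x13186) x19018) x11728) x9542)
  (add (sub (add (add (sub (add (add (sub (sub (add (add (sub C x16102) x16092) x16116) x16086) x16212) x16428) x16752) x15618) x13188) x19020) x11730) x2984)
  (sub (sub (sub (add (add (sub (add (add (sub (add (add (sub (sub C x16116) x16100) x16040) x16076) x16220) x16436) x16760) x15626) x13196) x19028) x11738) x2988) x9550)
  (add (sub (add (add (sub (add (add (sub (add (add (add (add (sub C x16112) x16092) x16104) x16044) x16080) x16224) x16440) x16764) x15630) x13200) x19032) x11742) x2996)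
  (sub (sub (sub (add (add (sub (sub (sub (add (add (sub (sub C x16126) x16130) x16160) x16196) x16070) x16286) x15638) x13208) x19040) x11750) x3000) x9562)
  (add (sub (add (add (sub (sub (sub (add (add (sub (sub C x16124) x16138) x16162) x16198) x16072) x16288) x15640) x13210) x19042) x11752) x9566)
  (sub (sub (sub (add (add (sub (sub (sub (sub (sub (sub C x16134) x16124) x16148) x16076) x16292) x15644) x13214) x19046) x11756) x3006) x9568)
  (add (sub (add (add (sub (sub (sub (sub (sub (sub C x16130) x16140) x16152) x16080) x16296) x15648) x13218) x19050) x11760) x3014)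
  (add (sub (add (add (sub (sub (sub (sub (sub (sub C x16140) x16126) x16174) x16084) x16300) x15652) x13222) x19054) x11764) x9578)
  (add (sub (add (add (sub (sub (sub (sub (sub (sub C x16138) x16134) x16176) x16086) x16302) x15654) x13224) x19056) x11766) x3020)
  (sub (sub (sub (add (add (sub (sub (add (add (sub (add (add (sub C x16152) x16160) x16172) x16130) x16040) x16256) x16310) x15662) x13232) x19064) x11774) x3024) x9586)
  (add (sub (add (add (sub (sub (add (add (sub (sub (sub C x16148) x16164) x16134) x16044) x16260) x16314) x15666) x13236) x19068) x11778) x3032)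
  (sub (sub (sub (add (add (sub (sub (add (add (add (add (add (add (sub C x16162) x16148) x16172) x16124) x16196) x16052) x16268) x16322) x15674) x13244) x19076) x11786) x3036) x9598)
  (add (sub (add (add (sub (sub (add (add (add (add (sub (sub C x16160) x16168) x16126) x16198) x16054) x16270) x16324) x15676) x13246) x19078) x11788) x9602)
  (add (sub (add (add (sub (sub (add (add (sub (sub (add (add C x16168) x16172) x16152) x16182) x16056) x16272) x16326) x15678) x13248) x19080) x11790) x3044)
  (add (sub (add (add (sub (sub (add (add (sub (sub (add (add C x16164) x16172) x16162) x16186) x16060) x16276) x16330) x15682) x13252) x19084) x11794) x9608)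
  (sub (sub (sub (add (add (sub (sub (add (add (sub (add (add (add (add C x16164) x16168) x16148) x16160) x16190) x16064) x16280) x16334) x15686) x13256) x19088) x11798) x3048) x9610)
  (add (sub (add (add (sub (sub (sub (sub (add (add (sub C x16176) x16186) x16198) x16138) x16228) x16336) x15688) x13258) x19090) x11800) x9614)
  (add (sub (add (add (sub (sub (sub (sub (sub (sub C x16174) x16182) x16140) x16230) x16338) x15690) x13260) x19092) x11802) x3056)
  (add (sub (add (add (sub (sub (sub (sub (sub (add (add C x16186) x16190) x16176) x16164) x16236) x16344) x15696) x13266) x19098) x11808) x3062)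
  (add (sub (add (add (sub (sub (sub (sub (add (add (add (add C x16182) x16190) x16174) x16198) x16168) x16240) x16348) x15700) x13270) x19102) x11812) x9626)
  (sub (sub (sub (add (add (sub (sub (sub (sub (sub (add (add C x16182) x16186) x16196) x16172) x16244) x16352) x15704) x13274) x19106) x11816) x3066) x9628)
  (sub (sub (sub (add (add (sub (sub (sub (add (add (sub (sub C x16198) x16190) x16124) x16160) x16250) x16358) x15710) x13280) x19112) x11822) x3072) x9634)
  (add (sub (add (add (sub (sub (sub (add (add (add (add (sub C x16196) x16174) x16186) x16126) x16162) x16252) x16360) x15712) x13282) x19114) x11824) x9638)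
  (add (sub (add (add (sub (sub (sub (add (add (add (add (add (add C x16204) x16208) x16212) x16224) x16236) x16272) x16092) x16524) x15714) x13284) x19116) x11826) x3080)
  (add (sub (add (add (sub (sub (sub (add (add (sub (add (add C x16200) x16208) x16210) x16240) x16276) x16096) x16528) x15718) x13288) x19120) x11830) x9644)
  (sub (sub (sub (add (add (sub (sub (sub (add (add (sub (add (add C x16200) x16204) x16220) x16244) x16280) x16100) x16532) x15722) x13292) x19124) x11834) x3084) x9646)
  (add (sub (add (add (sub (sub (sub (sub (sub (sub C x16212) x16204) x16228) x16102) x16534) x15724) x13294) x19126) x11836) x9650)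
  (add (sub (add (add (sub (sub (sub (sub (add (add (sub C x16210) x16200) x16224) x16230) x16104) x16536) x15726) x13296) x19128) x11838) x3092)
  (sub (sub (sub (add (add (sub (sub (sub (sub (sub (sub C x16224) x16208) x16256) x16112) x16544) x15734) x13304) x19136) x11846) x3096) x9658)
  (add (sub (add (add (sub (sub (sub (sub (add (add (sub C x16220) x16200) x16212) x16260) x16116) x16548) x15738) x13308) x19140) x11850) x3104)
  (add (sub (add (add (sub (sub (sub (sub (add (add (sub C x16230) x16240) x16252) x16210) x16174) x16552) x15742) x13312) x19144) x11854) x9668)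
  (add (sub (add (add (sub (sub (sub (sub (sub (sub C x16228) x16236) x16212) x16176) x16554) x15744) x13314) x19146) x11856) x3110)
  (add (sub (add (add (sub (sub (sub (add (add (sub (add (add C x16240) x16244) x16230) x16200) x16272) x16182) x16560) x15750) x13320) x19152) x11862) x3116)
  (add (sub (add (add (sub (sub (sub (add (add (add (add (add (add C x16236) x16244) x16228) x16252) x16204) x16276) x16186) x16564) x15754) x13324) x19156) x11866) x9680)
  (sub (sub (sub (add (add (sub (sub (sub (add (add (sub (add (add C x16236) x16240) x16250) x16208) x16280) x16190) x16568) x15758) x13328) x19160) x11870) x3120) x9682)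
  (sub (sub (sub (add (add (sub (sub (sub (sub (sub (sub C x16252) x16244) x16268) x16196) x16574) x15764) x13334) x19166) x11876) x3126) x9688)
  (add (sub (add (add (sub (sub (sub (sub (add (add (sub C x16250) x16228) x16240) x16270) x16198) x16576) x15766) x13336) x19168) x11878) x9692)
  (sub (sub (sub (add (add (sub (sub (add (add (sub (add (add (sub C x16260) x16268) x16280) x16220) x16040) x16148) x16580) x15770) x13340) x19172) x11882) x3132) x9694)
  (add (sub (add (add (sub (sub (add (add (sub (sub (sub C x16256) x16272) x16224) x16044) x16152) x16584) x15774) x13344) x19176) x11886) x3140)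
  (sub (sub (sub (add (add (sub (sub (add (add (sub (add (add (sub C x16270) x16256) x16280) x16250) x16052) x16160) x16592) x15782) x13352) x19184) x11894) x3144) x9706)
  (add (sub (add (add (sub (sub (add (add (sub (sub (sub C x16268) x16276) x16252) x16054) x16162) x16594) x15784) x13354) x19186) x11896) x9710)
  (add (sub (add (add (sub (sub (add (add (add (add (sub (add (add C x16276) x16280) x16260) x16200) x16236) x16056) x16164) x16596) x15786) x13356) x19188) x11898) x3152)
  (add (sub (add (add (sub (sub (add (add (add (add (sub (add (add C x16272) x16280) x16270) x16204) x16240) x16060) x16168) x16600) x15790) x13360) x19192) x11902) x9716)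
  (sub (sub (sub (add (add (sub (sub (add (add (add (add (add (add (add (add C x16272) x16276) x16256) x16268) x16208) x16244) x16064) x16172) x16604) x15794) x13364) x19196) x11906) x3156) x9718)
  (sub (sub (sub (add (add (add (add (sub (add (add (add (add (sub (sub C x16288) x16292) x16322) x16358) x16394) x16502) x16124) x15314) x17258) x13370) x19202) x11912) x3162) x9724)
  (add (sub (add (add (add (add (sub (add (add (add (add (sub (sub C x16286) x16300) x16324) x16360) x16396) x16504) x16126) x15316) x17260) x13372) x19204) x11914) x9728)
  (sub (sub (sub (add (add (add (add (sub (add (add (sub (sub (sub C x16296) x16286) x16310) x16400) x16508) x16130) x15320) x17264) x13376) x19208) x11918) x3168) x9730)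
  (add (sub (add (add (add (add (sub (add (add (sub (sub (sub C x16292) x16302) x16314) x16404) x16512) x16134) x15324) x17268) x13380) x19212) x11922) x3176)
  (add (sub (add (add (add (add (sub (add (add (sub (sub (sub C x16302) x16288) x16336) x16408) x16516) x16138) x15328) x17272) x13384) x19216) x11926) x9740)
  (add (sub (add (add (add (add (sub (add (add (sub (sub (sub C x16300) x16296) x16338) x16410) x16518) x16140) x15330) x17274) x13386) x19218) x11928) x3182)
  (sub (sub (sub (add (add (add (add (sub (sub (sub (add (add (sub C x16314) x16322) x16334) x16292) x16364) x16148) x15338) x17282) x13394) x19226) x11936) x3186) x9748)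
  (add (sub (add (add (add (add (sub (sub (sub (sub (sub C x16310) x16326) x16296) x16368) x16152) x15342) x17286) x13398) x19230) x11940) x3194)
  (sub (sub (sub (add (add (add (add (sub (sub (add (add (add (add (sub C x16324) x16310) x16334) x16286) x16358) x16376) x16160) x15350) x17294) x13406) x19238) x11948) x3198) x9760)
  (add (sub (add (add (add (add (sub (sub (add (add (sub (sub C x16322) x16330) x16288) x16360) x16378) x16162) x15352) x17296) x13408) x19240) x11950) x9764)
  (add (sub (add (add (add (add (sub (sub (sub (sub (add (add C x16330) x16334) x16314) x16344) x16380) x16164) x15354) x17298) x13410) x19242) x11952) x3206)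
  (add (sub (add (add (add (add (sub (sub (sub (sub (add (add C x16326) x16334) x16324) x16348) x16384) x16168) x15358) x17302) x13414) x19246) x11956) x9770)
  (sub (sub (sub (add (add (add (add (sub (sub (sub (add (add (add (add C x16326) x16330) x16310) x16322) x16352) x16388) x16172) x15362) x17306) x13418) x19250) x11960) x3210) x9772)
  (add (sub (add (add (add (add (sub (sub (sub (add (add (sub C x16338) x16348) x16360) x16300) x16444) x16174) x15364) x17308) x13420) x19252) x11962) x9776)
  (add (sub (add (add (add (add (sub (sub (sub (sub (sub C x16336) x16344) x16302) x16446) x16176) x15366) x17310) x13422) x19254) x11964) x3218)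
  (add (sub (add (add (add (add (sub (sub (sub (sub (add (add C x16348) x16352) x16338) x16326) x16452) x16182) x15372) x17316) x13428) x19260) x11970) x3224)
  (add (sub (add (add (add (add (sub (sub (sub (add (add (add (add C x16344) x16352) x16336) x16360) x16330) x16456) x16186) x15376) x17320) x13432) x19264) x11974) x9788)
  (sub (sub (sub (add (add (add (add (sub (sub (sub (sub (add (add C x16344) x16348) x16358) x16334) x16460) x16190) x15380) x17324) x13436) x19268) x11978) x3228) x9790)
  (sub (sub (sub (add (add (add (add (sub (sub (add (add (sub (sub C x16360) x16352) x16286) x16322) x16466) x16196) x15386) x17330) x13442) x19274) x11984) x3234) x9796)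
  (add (sub (add (add (add (add (sub (sub (add (add (add (add (sub C x16358) x16336) x16348) x16288) x16324) x16468) x16198) x15388) x17332) x13444) x19276) x11986) x9800)
  (sub (sub (sub (add (add (add (add (add (add (sub (add (add (add (add (sub C x16368) x16376) x16388) x16400) x16436) x16310) x16040) x16688) x15392) x17336) x13448) x19280) x11990) x3240) x9802)
  (add (sub (add (add (add (add (add (add (sub (add (add (sub (sub C x16364) x16380) x16404) x16440) x16314) x16044) x16692) x15396) x17340) x13452) x19284) x11994) x3248)
  (sub (sub (sub (add (add (add (add (add (add (sub (sub (add (add (sub C x16378) x16364) x16388) x16394) x16322) x16052) x16700) x15404) x17348) x13460) x19292) x12002) x3252) x9814)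
  (add (sub (add (add (add (add (add (add (sub (sub (sub (sub C x16376) x16384) x16396) x16324) x16054) x16702) x15406) x17350) x13462) x19294) x12004) x9818)
  (add (sub (add (add (add (add (add (add (sub (sub (sub (add (add C x16384) x16388) x16368) x16416) x16326) x16056) x16704) x15408) x17352) x13464) x19296) x12006) x3260)
  (add (sub (add (add (add (add (add (add (sub (sub (sub (add (add C x16380) x16388) x16378) x16420) x16330) x16060) x16708) x15412) x17356) x13468) x19300) x12010) x9824)
  (sub (sub (sub (add (add (add (add (add (add (sub (sub (add (add (add (add C x16380) x16384) x16364) x16376) x16424) x16334) x16064) x16712) x15416) x17360) x13472) x19304) x12014) x3264) x9826)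
  (sub (sub (sub (add (add (add (add (add (add (add (add (sub (sub (sub C x16396) x16400) x16376) x16286) x16502) x16070) x16718) x15422) x17366) x13478) x19310) x12020) x3270) x9832)
  (add (sub (add (add (add (add (add (add (add (add (sub (sub (sub C x16394) x16408) x16378) x16288) x16504) x16072) x16720) x15424) x17368) x13480) x19312) x12022) x9836)
  (sub (sub (sub (add (add (add (add (add (add (add (add (add (add (sub (sub C x16404) x16394) x16364) x16436) x16292) x16508) x16076) x16724) x15428) x17372) x13484) x19316) x12026) x3276) x9838)
  (add (sub (add (add (add (add (add (add (add (add (add (add (sub (sub C x16400) x16410) x16368) x16440) x16296) x16512) x16080) x16728) x15432) x17376) x13488) x19320) x12030) x3284)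
  (add (sub (add (add (add (add (add (add (add (add (sub (sub (sub C x16410) x16396) x16426) x16300) x16516) x16084) x16732) x15436) x17380) x13492) x19324) x12034) x9848)
  (add (sub (add (add (add (add (add (add (add (add (sub (sub (sub C x16408) x16404) x16428) x16302) x16518) x16086) x16734) x15438) x17382) x13494) x19326) x12036) x3290)
  (add (sub (add (add (add (add (add (add (sub (sub (add (add (add (add C x16420) x16424) x16428) x16440) x16380) x16470) x16092) x16740) x15444) x17388) x13500) x19332) x12042) x3296)
  (add (sub (add (add (add (add (add (add (sub (sub (sub (add (add C x16416) x16424) x16426) x16384) x16474) x16096) x16744) x15448) x17392) x13504) x19336) x12046) x9860)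
  (sub (sub (sub (add (add (add (add (add (add (sub (sub (sub (add (add C x16416) x16420) x16436) x16388) x16478) x16100) x16748) x15452) x17396) x13508) x19340) x12050) x3300) x9862)
  (add (sub (add (add (add (add (add (add (sub (sub (sub (sub C x16428) x16420) x16408) x16480) x16102) x16750) x15454) x17398) x13510) x19342) x12052) x9866)
  (add (sub (add (add (add (add (add (add (sub (sub (add (add (sub C x16426) x16416) x16440) x16410) x16482) x16104) x16752) x15456) x17400) x13512) x19344) x12054) x3308)
  (sub (sub (sub (add (add (add (add (add (add (sub (add (add (sub (sub C x16440) x16424) x16364) x16400) x16490) x16112) x16760) x15464) x17408) x13520) x19352) x12062) x3312) x9874)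
  (add (sub (add (add (add (add (add (add (sub (add (add (add (add (sub C x16436) x16416) x16428) x16368) x16404) x16494) x16116) x16764) x15468) x17412) x13524) x19356) x12066) x3320)
  (add (sub (add (add (add (add (sub (sub (add (add (add (add (sub C x16446) x16456) x16468) x16480) x16516) x16336) x16606) x15472) x17416) x13528) x19360) x12070) x9884)
  (add (sub (add (add (add (add (sub (sub (add (add (sub (sub C x16444) x16452) x16482) x16518) x16338) x16608) x15474) x17418) x13530) x19362) x12072) x3326)
  (add (sub (add (add (add (add (sub (sub (sub (sub (add (add C x16456) x16460) x16446) x16470) x16344) x16614) x15480) x17424) x13536) x19368) x12078) x3332)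
  (add (sub (add (add (add (add (sub (sub (sub (add (add (add (add C x16452) x16460) x16444) x16468) x16474) x16348) x16618) x15484) x17428) x13540) x19372) x12082) x9896)
  (sub (sub (sub (add (add (add (add (sub (sub (sub (sub (add (add C x16452) x16456) x16466) x16478) x16352) x16622) x15488) x17432) x13544) x19376) x12086) x3336) x9898)
  (sub (sub (sub (add (add (add (add (sub (sub (sub (sub (sub C x16468) x16460) x16502) x16358) x16628) x15494) x17438) x13550) x19382) x12092) x3342) x9904)
  (add (sub (add (add (add (add (sub (sub (sub (add (add (sub C x16466) x16444) x16456) x16504) x16360) x16630) x15496) x17440) x13552) x19384) x12094) x9908)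
  (add (sub (add (add (add (add (sub (sub (sub (add (add (add (add C x16474) x16478) x16482) x16494) x16452) x16416) x16632) x15498) x17442) x13554) x19386) x12096) x3350)
  (add (sub (add (add (add (add (sub (sub (sub (sub (add (add C x16470) x16478) x16480) x16456) x16420) x16636) x15502) x17446) x13558) x19390) x12100) x9914)
  (sub (sub (sub (add (add (add (add (sub (sub (sub (sub (add (add C x16470) x16474) x16490) x16460) x16424) x16640) x15506) x17450) x13562) x19394) x12104) x3354) x9916)
  (add (sub (add (add (add (add (sub (sub (add (add (sub (sub C x16482) x16474) x16444) x16516) x16426) x16642) x15508) x17452) x13564) x19396) x12106) x9920)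
  (add (sub (add (add (add (add (sub (sub (add (add (add (add (sub C x16480) x16470) x16494) x16446) x16518) x16428) x16644) x15510) x17454) x13566) x19398) x12108) x3362)
  (sub (sub (sub (add (add (add (add (sub (sub (sub (sub (sub C x16494) x16478) x16508) x16436) x16652) x15518) x17462) x13574) x19406) x12116) x3366) x9928)
  (add (sub (add (add (add (add (sub (sub (sub (add (add (sub C x16490) x16470) x16482) x16512) x16440) x16656) x15522) x17466) x13578) x19410) x12120) x3374)
  (sub (sub (sub (add (add (add (add (sub (add (add (sub (sub (sub C x16504) x16508) x16466) x16286) x16394) x16664) x15530) x17474) x13586) x19418) x12128) x3378) x9940)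
  (add (sub (add (add (add (add (sub (add (add (sub (sub (sub C x16502) x16516) x16468) x16288) x16396) x16666) x15532) x17476) x13588) x19420) x12130) x9944)
  (sub (sub (sub (add (add (add (add (sub (add (add (sub (sub (sub C x16512) x16502) x16490) x16292) x16400) x16670) x15536) x17480) x13592) x19424) x12134) x3384) x9946)
  (add (sub (add (add (add (add (sub (add (add (sub (sub (sub C x16508) x16518) x16494) x16296) x16404) x16674) x15540) x17484) x13596) x19428) x12138) x3392)
  (add (sub (add (add (add (add (sub (add (add (add (add (sub (sub C x16518) x16504) x16444) x16480) x16300) x16408) x16678) x15544) x17488) x13600) x19432) x12142) x9956)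
  (add (sub (add (add (add (add (sub (add (add (add (add (sub (sub C x16516) x16512) x16446) x16482) x16302) x16410) x16680) x15546) x17490) x13602) x19434) x12144) x3398)
  (add (sub (add (add (sub (sub (add (add (add (add (add (add (add (add C x16528) x16532) x16536) x16548) x16560) x16596) x16632) x16740) x16200) x17010) x13608) x19440) x12150) x3404)
  (add (sub (add (add (sub (sub (add (add (add (add (sub (add (add C x16524) x16532) x16534) x16564) x16600) x16636) x16744) x16204) x17014) x13612) x19444) x12154) x9968)
  (sub (sub (sub (add (add (sub (sub (add (add (add (add (sub (add (add C x16524) x16528) x16544) x16568) x16604) x16640) x16748) x16208) x17018) x13616) x19448) x12158) x3408) x9970)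
  (add (sub (add (add (sub (sub (add (add (sub (sub (sub C x16536) x16528) x16552) x16642) x16750) x16210) x17020) x13618) x19450) x12160) x9974)
  (add (sub (add (add (sub (sub (add (add (sub (add (add (sub C x16534) x16524) x16548) x16554) x16644) x16752) x16212) x17022) x13620) x19452) x12162) x3416)
  (sub (sub (sub (add (add (sub (sub (add (add (sub (sub (sub C x16548) x16532) x16580) x16652) x16760) x16220) x17030) x13628) x19460) x12170) x3420) x9982)
  (add (sub (add (add (sub (sub (add (add (sub (add (add (sub C x16544) x16524) x16536) x16584) x16656) x16764) x16224) x17034) x13632) x19464) x12174) x3428)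
  (add (sub (add (add (sub (sub (sub (sub (add (add (sub C x16554) x16564) x16576) x16534) x16606) x16228) x17038) x13636) x19468) x12178) x9992)
  (add (sub (add (add (sub (sub (sub (sub (sub (sub C x16552) x16560) x16536) x16608) x16230) x17040) x13638) x19470) x12180) x3434)
  (add (sub (add (add (sub (sub (sub (add (add (sub (add (add C x16564) x16568) x16554) x16524) x16596) x16614) x16236) x17046) x13644) x19476) x12186) x3440)
  (add (sub (add (add (sub (sub (sub (add (add (add (add (add (add C x16560) x16568) x16552) x16576) x16528) x16600) x16618) x16240) x17050) x13648) x19480) x12190) x10004)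
  (sub (sub (sub (add (add (sub (sub (sub (add (add (sub (add (add C x16560) x16564) x16574) x16532) x16604) x16622) x16244) x17054) x13652) x19484) x12194) x3444) x10006)
  (sub (sub (sub (add (add (sub (sub (sub (sub (sub (sub C x16576) x16568) x16592) x16628) x16250) x17060) x13658) x19490) x12200) x3450) x10012)
  (add (sub (add (add (sub (sub (sub (sub (add (add (sub C x16574) x16552) x16564) x16594) x16630) x16252) x17062) x13660) x19492) x12202) x10016)
  (sub (sub (sub (add (add (sub (sub (sub (sub (add (add (sub C x16584) x16592) x16604) x16544) x16688) x16256) x17066) x13664) x19496) x12206) x3456) x10018)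
  (add (sub (add (add (sub (sub (sub (sub (sub (sub C x16580) x16596) x16548) x16692) x16260) x17070) x13668) x19500) x12210) x3464)
  (sub (sub (sub (add (add (sub (sub (sub (sub (add (add (sub C x16594) x16580) x16604) x16574) x16700) x16268) x17078) x13676) x19508) x12218) x3468) x10030)
  (add (sub (add (add (sub (sub (sub (sub (sub (sub C x16592) x16600) x16576) x16702) x16270) x17080) x13678) x19510) x12220) x10034)
  (add (sub (add (add (sub (sub (sub (add (add (sub (add (add C x16600) x16604) x16584) x16524) x16560) x16704) x16272) x17082) x13680) x19512) x12222) x3476)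
  (add (sub (add (add (sub (sub (sub (add (add (sub (add (add C x16596) x16604) x16594) x16528) x16564) x16708) x16276) x17086) x13684) x19516) x12226) x10040)
  (sub (sub (sub (add (add (sub (sub (sub (add (add (add (add (add (add C x16596) x16600) x16580) x16592) x16532) x16568) x16712) x16280) x17090) x13688) x19520) x12230) x3480) x10042)
  (add (sub (add (add (sub (sub (sub (add (add (add (add (sub C x16608) x16618) x16630) x16642) x16678) x16552) x16444) x17092) x13690) x19522) x12232) x10046)
  (add (sub (add (add (sub (sub (sub (add (add (sub (sub C x16606) x16614) x16644) x16680) x16554) x16446) x17094) x13692) x19524) x12234) x3488)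
  (add (sub (add (add (sub (sub (sub (sub (sub (add (add C x16618) x16622) x16608) x16632) x16560) x16452) x17100) x13698) x19530) x12240) x3494)
  (add (sub (add (add (sub (sub (sub (sub (add (add (add (add C x16614) x16622) x16606) x16630) x16636) x16564) x16456) x17104) x13702) x19534) x12244) x10058)
  (sub (sub (sub (add (add (sub (sub (sub (sub (sub (add (add C x16614) x16618) x16628) x16640) x16568) x16460) x17108) x13706) x19538) x12248) x3498) x10060)
  (sub (sub (sub (add (add (sub (sub (sub (sub (sub (sub C x16630) x16622) x16664) x16574) x16466) x17114) x13712) x19544) x12254) x3504) x10066)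
  (add (sub (add (add (sub (sub (sub (sub (add (add (sub C x16628) x16606) x16618) x16666) x16576) x16468) x17116) x13714) x19546) x12256) x10070)
  (add (sub (add (add (sub (sub (add (add (sub (add (add (add (add C x16636) x16640) x16644) x16656) x16614) x16524) x16740) x16470) x17118) x13716) x19548) x12258) x3512)
  (add (sub (add (add (sub (sub (add (add (sub (sub (add (add C x16632) x16640) x16642) x16618) x16528) x16744) x16474) x17122) x13720) x19552) x12262) x10076)
  (sub (sub (sub (add (add (sub (sub (add (add (sub (sub (add (add C x16632) x16636) x16652) x16622) x16532) x16748) x16478) x17126) x13724) x19556) x12266) x3516) x10078)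
  (add (sub (add (add (sub (sub (add (add (add (add (sub (sub C x16644) x16636) x16606) x16678) x16534) x16750) x16480) x17128) x13726) x19558) x12268) x10082)
  (add (sub (add (add (sub (sub (add (add (add (add (add (add (sub C x16642) x16632) x16656) x16608) x16680) x16536) x16752) x16482) x17130) x13728) x19560) x12270) x3524)
  (sub (sub (sub (add (add (sub (sub (add (add (sub (sub (sub C x16656) x16640) x16670) x16544) x16760) x16490) x17138) x13736) x19568) x12278) x3528) x10090)
  (add (sub (add (add (sub (sub (add (add (sub (add (add (sub C x16652) x16632) x16644) x16674) x16548) x16764) x16494) x17142) x13740) x19572) x12282) x3536)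
  (sub (sub (sub (add (add (sub (sub (sub (sub (sub (sub C x16666) x16670) x16628) x16718) x16502) x17150) x13748) x19580) x12290) x3540) x10102)
  (add (sub (add (add (sub (sub (sub (sub (sub (sub C x16664) x16678) x16630) x16720) x16504) x17152) x13750) x19582) x12292) x10106)
  (sub (sub (sub (add (add (sub (sub (sub (sub (sub (sub C x16674) x16664) x16652) x16724) x16508) x17156) x13754) x19586) x12296) x3546) x10108)
  (add (sub (add (add (sub (sub (sub (sub (sub (sub C x16670) x16680) x16656) x16728) x16512) x17160) x13758) x19590) x12300) x3554)
  (add (sub (add (add (sub (sub (sub (add (add (sub (sub C x16680) x16666) x16606) x16642) x16732) x16516) x17164) x13762) x19594) x12304) x10118)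
  (add (sub (add (add (sub (sub (sub (add (add (sub (sub C x16678) x16674) x16608) x16644) x16734) x16518) x17166) x13764) x19596) x12306) x3560)
  (sub (sub (sub (add (add (sub (add (add (sub (add (add (add (add (sub C x16692) x16700) x16712) x16724) x16760) x16580) x16040) x16364) x17174) x13772) x19604) x12314) x3564) x10126)
  (add (sub (add (add (sub (add (add (sub (add (add (sub (sub C x16688) x16704) x16728) x16764) x16584) x16044) x16368) x17178) x13776) x19608) x12318) x3572)
  (sub (sub (sub (add (add (sub (add (add (sub (sub (add (add (sub C x16702) x16688) x16712) x16718) x16592) x16052) x16376) x17186) x13784) x19616) x12326) x3576) x10138)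
  (add (sub (add (add (sub (add (add (sub (sub (sub (sub C x16700) x16708) x16720) x16594) x16054) x16378) x17188) x13786) x19618) x12328) x10142)
  (add (sub (add (add (sub (add (add (sub (sub (sub (add (add C x16708) x16712) x16692) x16740) x16596) x16056) x16380) x17190) x13788) x19620) x12330) x3584)
  (add (sub (add (add (sub (add (add (sub (sub (sub (add (add C x16704) x16712) x16702) x16744) x16600) x16060) x16384) x17194) x13792) x19624) x12334) x10148)
  (sub (sub (sub (add (add (sub (add (add (sub (sub (add (add (add (add C x16704) x16708) x16688) x16700) x16748) x16604) x16064) x16388) x17198) x13796) x19628) x12338) x3588) x10150)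
  (sub (sub (sub (add (add (sub (add (add (sub (sub (sub (sub C x16720) x16724) x16700) x16664) x16070) x16394) x17204) x13802) x19634) x12344) x3594) x10156)
  (add (sub (add (add (sub (add (add (sub (sub (sub (sub C x16718) x16732) x16702) x16666) x16072) x16396) x17206) x13804) x19636) x12346) x10160)
  (sub (sub (sub (add (add (sub (add (add (sub (add (add (sub (sub C x16728) x16718) x16688) x16760) x16670) x16076) x16400) x17210) x13808) x19640) x12350) x3600) x10162)
  (add (sub (add (add (sub (add (add (sub (add (add (sub (sub C x16724) x16734) x16692) x16764) x16674) x16080) x16404) x17214) x13812) x19644) x12354) x3608)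
  (add (sub (add (add (sub (add (add (sub (sub (sub (sub C x16734) x16720) x16750) x16678) x16084) x16408) x17218) x13816) x19648) x12358) x10172)
  (add (sub (add (add (sub (add (add (sub (sub (sub (sub C x16732) x16728) x16752) x16680) x16086) x16410) x17220) x13818) x19650) x12360) x3614)
  (add (sub (add (add (sub (add (add (add (add (sub (add (add (add (add C x16744) x16748) x16752) x16764) x16704) x16524) x16632) x16092) x16416) x17226) x13824) x19656) x12366) x3620)
  (add (sub (add (add (sub (add (add (add (add (sub (sub (add (add C x16740) x16748) x16750) x16708) x16528) x16636) x16096) x16420) x17230) x13828) x19660) x12370) x10184)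
  (sub (sub (sub (add (add (sub (add (add (add (add (sub (sub (add (add C x16740) x16744) x16760) x16712) x16532) x16640) x16100) x16424) x17234) x13832) x19664) x12374) x3624) x10186)
  (add (sub (add (add (sub (add (add (add (add (sub (sub (sub C x16752) x16744) x16732) x16534) x16642) x16102) x16426) x17236) x13834) x19666) x12376) x10190)
  (add (sub (add (add (sub (add (add (add (add (sub (add (add (sub C x16750) x16740) x16764) x16734) x16536) x16644) x16104) x16428) x17238) x13836) x19668) x12378) x3632)
  (sub (sub (sub (add (add (sub (add (add (add (add (add (add (sub (sub C x16764) x16748) x16688) x16724) x16544) x16652) x16112) x16436) x17246) x13844) x19676) x12386) x3636) x10198)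
  (add (sub (add (add (sub (add (add (add (add (add (add (add (add (sub C x16760) x16740) x16752) x16692) x16728) x16548) x16656) x16116) x16440) x17250) x13848) x19680) x12390) x3644)
  (add (sub (sub (sub (add (add (add (add (add (add (add (add (sub C x16770) x16780) x16792) x16804) x16840) x16876) x16984) x17092) x17416) x15796) x18226) x12394) x10208)
  (add (sub (sub (sub (add (add (add (add (add (add (sub (sub C x16768) x16776) x16806) x16842) x16878) x16986) x17094) x17418) x15798) x18228) x12396) x3650)
  (add (sub (sub (sub (add (add (add (add (sub (sub (add (add C x16780) x16784) x16770) x16794) x16884) x16992) x17100) x17424) x15804) x18234) x12402) x3656)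
  (add (sub (sub (sub (add (add (add (add (sub (add (add (add (add C x16776) x16784) x16768) x16792) x16798) x16888) x16996) x17104) x17428) x15808) x18238) x12406) x10220)
  (sub (sub (sub (sub (sub (add (add (add (add (sub (sub (add (add C x16776) x16780) x16790) x16802) x16892) x17000) x17108) x17432) x15812) x18242) x12410) x3660) x10222)
  (sub (sub (sub (sub (sub (add (add (add (add (sub (sub (sub C x16792) x16784) x16826) x16898) x17006) x17114) x17438) x15818) x18248) x12416) x3666) x10228)
  (add (sub (sub (sub (add (add (add (add (sub (add (add (sub C x16790) x16768) x16780) x16828) x16900) x17008) x17116) x17440) x15820) x18250) x12418) x10232)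
  (add (sub (sub (sub (add (add (sub (sub (add (add (add (add C x16798) x16802) x16806) x16818) x16776) x16848) x17118) x17442) x15822) x18252) x12420) x3674)
  (add (sub (sub (sub (add (add (sub (sub (sub (add (add C x16794) x16802) x16804) x16780) x16852) x17122) x17446) x15826) x18256) x12424) x10238)
  (sub (sub (sub (sub (sub (add (add (sub (sub (sub (add (add C x16794) x16798) x16814) x16784) x16856) x17126) x17450) x15830) x18260) x12428) x3678) x10240)
  (add (sub (sub (sub (add (add (sub (add (add (sub (sub C x16806) x16798) x16768) x16840) x16858) x17128) x17452) x15832) x18262) x12430) x10244)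
  (add (sub (sub (sub (add (add (sub (add (add (add (add (sub C x16804) x16794) x16818) x16770) x16842) x16860) x17130) x17454) x15834) x18264) x12432) x3686)
  (sub (sub (sub (sub (sub (add (add (sub (sub (sub (sub C x16818) x16802) x16832) x16868) x17138) x17462) x15842) x18272) x12440) x3690) x10252)
  (add (sub (sub (sub (add (add (sub (sub (add (add (sub C x16814) x16794) x16806) x16836) x16872) x17142) x17466) x15846) x18276) x12444) x3698)
  (sub (sub (sub (sub (sub (add (add (sub (sub (sub (sub C x16828) x16832) x16790) x16934) x17150) x17474) x15854) x18284) x12452) x3702) x10264)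
  (add (sub (sub (sub (add (add (sub (sub (sub (sub C x16826) x16840) x16792) x16936) x17152) x17476) x15856) x18286) x12454) x10268)
  (sub (sub (sub (sub (sub (add (add (sub (sub (sub (sub C x16836) x16826) x16814) x16940) x17156) x17480) x15860) x18290) x12458) x3708) x10270)
  (add (sub (sub (sub (add (add (sub (sub (sub (sub C x16832) x16842) x16818) x16944) x17160) x17484) x15864) x18294) x12462) x3716)
  (add (sub (sub (sub (add (add (sub (add (add (sub (sub C x16842) x16828) x16768) x16804) x16948) x17164) x17488) x15868) x18298) x12466) x10280)
  (add (sub (sub (sub (add (add (sub (add (add (sub (sub C x16840) x16836) x16770) x16806) x16950) x17166) x17490) x15870) x18300) x12468) x3722)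
  (add (sub (sub (sub (sub (sub (add (add (add (add (add (add C x16852) x16856) x16860) x16872) x16884) x16920) x16794) x17010) x15876) x18306) x12474) x3728)
  (add (sub (sub (sub (sub (sub (add (add (sub (add (add C x16848) x16856) x16858) x16888) x16924) x16798) x17014) x15880) x18310) x12478) x10292)
  (sub (sub (sub (sub (sub (sub (sub (add (add (sub (add (add C x16848) x16852) x16868) x16892) x16928) x16802) x17018) x15884) x18314) x12482) x3732) x10294)
  (add (sub (sub (sub (sub (sub (sub (sub (sub C x16860) x16852) x16876) x16804) x17020) x15886) x18316) x12484) x10298)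
  (add (sub (sub (sub (sub (sub (sub (add (add (sub C x16858) x16848) x16872) x16878) x16806) x17022) x15888) x18318) x12486) x3740)
  (sub (sub (sub (sub (sub (sub (sub (sub (sub (sub C x16872) x16856) x16904) x16814) x17030) x15896) x18326) x12494) x3744) x10306)
  (add (sub (sub (sub (sub (sub (sub (add (add (sub C x16868) x16848) x16860) x16908) x16818) x17034) x15900) x18330) x12498) x3752)
  (add (sub (sub (sub (sub (add (add (sub (add (add (sub C x16878) x16888) x16900) x16858) x16768) x16984) x17038) x15904) x18334) x12502) x10316)
  (add (sub (sub (sub (sub (add (add (sub (sub (sub C x16876) x16884) x16860) x16770) x16986) x17040) x15906) x18336) x12504) x3758)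
  (add (sub (sub (sub (sub (add (add (add (add (sub (add (add C x16888) x16892) x16878) x16848) x16920) x16776) x16992) x17046) x15912) x18342) x12510) x3764)
  (add (sub (sub (sub (sub (add (add (add (add (add (add (add (add C x16884) x16892) x16876) x16900) x16852) x16924) x16780) x16996) x17050) x15916) x18346) x12514) x10328)
  (sub (sub (sub (sub (sub (sub (add (add (add (add (sub (add (add C x16884) x16888) x16898) x16856) x16928) x16784) x17000) x17054) x15920) x18350) x12518) x3768) x10330)
  (sub (sub (sub (sub (sub (sub (add (add (sub (sub (sub C x16900) x16892) x16916) x16790) x17006) x17060) x15926) x18356) x12524) x3774) x10336)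
  (add (sub (sub (sub (sub (add (add (sub (add (add (sub C x16898) x16876) x16888) x16918) x16792) x17008) x17062) x15928) x18358) x12526) x10340)
  (sub (sub (sub (sub (sub (sub (sub (sub (add (add (sub C x16908) x16916) x16928) x16868) x16958) x17066) x15932) x18362) x12530) x3780) x10342)
  (add (sub (sub (sub (sub (sub (sub (sub (sub C x16904) x16920) x16872) x16962) x17070) x15936) x18366) x12534) x3788)
  (sub (sub (sub (sub (sub (sub (sub (sub (add (add (sub C x16918) x16904) x16928) x16898) x16970) x17078) x15944) x18374) x12542) x3792) x10354)
  (add (sub (sub (sub (sub (sub (sub (sub (sub C x16916) x16924) x16900) x16972) x17080) x15946) x18376) x12544) x10358)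
  (add (sub (sub (sub (sub (sub (add (add (sub (add (add C x16924) x16928) x16908) x16848) x16884) x16974) x17082) x15948) x18378) x12546) x3800)
  (add (sub (sub (sub (sub (sub (add (add (sub (add (add C x16920) x16928) x16918) x16852) x16888) x16978) x17086) x15952) x18382) x12550) x10364)
  (sub (sub (sub (sub (sub (sub (sub (add (add (add (add (add (add C x16920) x16924) x16904) x16916) x16856) x16892) x16982) x17090) x15956) x18386) x12554) x3804) x10366)
  (sub (sub (sub (sub (sub (sub (sub (add (add (sub (sub C x16936) x16940) x16970) x17006) x16826) x17258) x15962) x18392) x12560) x3810) x10372)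
  (add (sub (sub (sub (sub (sub (add (add (sub (sub C x16934) x16948) x16972) x17008) x16828) x17260) x15964) x18394) x12562) x10376)
  (sub (sub (sub (sub (sub (sub (sub (sub (sub (sub C x16944) x16934) x16958) x16832) x17264) x15968) x18398) x12566) x3816) x10378)
  (add (sub (sub (sub (sub (sub (sub (sub (sub C x16940) x16950) x16962) x16836) x17268) x15972) x18402) x12570) x3824)
  (add (sub (sub (sub (sub (sub (sub (sub (sub C x16950) x16936) x16984) x16840) x17272) x15976) x18406) x12574) x10388)
  (add (sub (sub (sub (sub (sub (sub (sub (sub C x16948) x16944) x16986) x16842) x17274) x15978) x18408) x12576) x3830)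
  (sub (sub (sub (sub (sub (sub (sub (sub (add (add (sub C x16962) x16970) x16982) x16940) x16904) x17282) x15986) x18416) x12584) x3834) x10396)
  (add (sub (sub (sub (sub (sub (sub (sub (sub C x16958) x16974) x16944) x16908) x17286) x15990) x18420) x12588) x3842)
  (sub (sub (sub (sub (sub (sub (sub (add (add (add (add (sub C x16972) x16958) x16982) x16934) x17006) x16916) x17294) x15998) x18428) x12596) x3846) x10408)
  (add (sub (sub (sub (sub (sub (add (add (sub (sub C x16970) x16978) x16936) x17008) x16918) x17296) x16000) x18430) x12598) x10412)
  (add (sub (sub (sub (sub (sub (sub (sub (add (add C x16978) x16982) x16962) x16992) x16920) x17298) x16002) x18432) x12600) x3854)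
  (add (sub (sub (sub (sub (sub (sub (sub (add (add C x16974) x16982) x16972) x16996) x16924) x17302) x16006) x18436) x12604) x10418)
  (sub (sub (sub (sub (sub (sub (sub (sub (add (add (add (add C x16974) x16978) x16958) x16970) x17000) x16928) x17306) x16010) x18440) x12608) x3858) x10420)
  (add (sub (sub (sub (sub (add (add (sub (add (add (sub C x16986) x16996) x17008) x16948) x16768) x16876) x17308) x16012) x18442) x12610) x10424)
  (add (sub (sub (sub (sub (add (add (sub (sub (sub C x16984) x16992) x16950) x16770) x16878) x17310) x16014) x18444) x12612) x3866)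
  (add (sub (sub (sub (sub (add (add (sub (sub (add (add C x16996) x17000) x16986) x16974) x16776) x16884) x17316) x16020) x18450) x12618) x3872)
  (add (sub (sub (sub (sub (add (add (sub (add (add (add (add C x16992) x17000) x16984) x17008) x16978) x16780) x16888) x17320) x16024) x18454) x12622) x10436)
  (sub (sub (sub (sub (sub (sub (add (add (sub (sub (add (add C x16992) x16996) x17006) x16982) x16784) x16892) x17324) x16028) x18458) x12626) x3876) x10438)
  (sub (sub (sub (sub (sub (sub (add (add (add (add (sub (sub C x17008) x17000) x16934) x16970) x16790) x16898) x17330) x16034) x18464) x12632) x3882) x10444)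
  (add (sub (sub (sub (sub (add (add (add (add (add (add (sub C x17006) x16984) x16996) x16936) x16972) x16792) x16900) x17332) x16036) x18466) x12634) x10448)
  (add (sub (sub (sub (sub (add (add (add (add (add (add (add (add C x17014) x17018) x17022) x17034) x17046) x17082) x17118) x17226) x16848) x16524) x18468) x12636) x3890)
  (add (sub (sub (sub (sub (add (add (add (add (sub (add (add C x17010) x17018) x17020) x17050) x17086) x17122) x17230) x16852) x16528) x18472) x12640) x10454)
  (sub (sub (sub (sub (sub (sub (add (add (add (add (sub (add (add C x17010) x17014) x17030) x17054) x17090) x17126) x17234) x16856) x16532) x18476) x12644) x3894) x10456)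
  (add (sub (sub (sub (sub (add (add (sub (sub (sub C x17022) x17014) x17038) x17128) x17236) x16858) x16534) x18478) x12646) x10460)
  (add (sub (sub (sub (sub (add (add (sub (add (add (sub C x17020) x17010) x17034) x17040) x17130) x17238) x16860) x16536) x18480) x12648) x3902)
  (sub (sub (sub (sub (sub (sub (add (add (sub (sub (sub C x17034) x17018) x17066) x17138) x17246) x16868) x16544) x18488) x12656) x3906) x10468)
  (add (sub (sub (sub (sub (add (add (sub (add (add (sub C x17030) x17010) x17022) x17070) x17142) x17250) x16872) x16548) x18492) x12660) x3914)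
  (add (sub (sub (sub (sub (sub (sub (add (add (sub C x17040) x17050) x17062) x17020) x17092) x16876) x16552) x18496) x12664) x10478)
  (add (sub (sub (sub (sub (sub (sub (sub (sub C x17038) x17046) x17022) x17094) x16878) x16554) x18498) x12666) x3920)
  (add (sub (sub (sub (sub (sub (add (add (sub (add (add C x17050) x17054) x17040) x17010) x17082) x17100) x16884) x16560) x18504) x12672) x3926)
  (add (sub (sub (sub (sub (sub (add (add (add (add (add (add C x17046) x17054) x17038) x17062) x17014) x17086) x17104) x16888) x16564) x18508) x12676) x10490)
  (sub (sub (sub (sub (sub (sub (sub (add (add (sub (add (add C x17046) x17050) x17060) x17018) x17090) x17108) x16892) x16568) x18512) x12680) x3930) x10492)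
  (sub (sub (sub (sub (sub (sub (sub (sub (sub (sub C x17062) x17054) x17078) x17114) x16898) x16574) x18518) x12686) x3936) x10498)
  (add (sub (sub (sub (sub (sub (sub (add (add (sub C x17060) x17038) x17050) x17080) x17116) x16900) x16576) x18520) x12688) x10502)
  (sub (sub (sub (sub (sub (sub (sub (sub (add (add (sub C x17070) x17078) x17090) x17030) x17174) x16904) x16580) x18524) x12692) x3942) x10504)
  (add (sub (sub (sub (sub (sub (sub (sub (sub C x17066) x17082) x17034) x17178) x16908) x16584) x18528) x12696) x3950)
  (sub (sub (sub (sub (sub (sub (sub (sub (add (add (sub C x17080) x17066) x17090) x17060) x17186) x16916) x16592) x18536) x12704) x3954) x10516)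
  (add (sub (sub (sub (sub (sub (sub (sub (sub C x17078) x17086) x17062) x17188) x16918) x16594) x18538) x12706) x10520)
  (add (sub (sub (sub (sub (sub (add (add (sub (add (add C x17086) x17090) x17070) x17010) x17046) x17190) x16920) x16596) x18540) x12708) x3962)
  (add (sub (sub (sub (sub (sub (add (add (sub (add (add C x17082) x17090) x17080) x17014) x17050) x17194) x16924) x16600) x18544) x12712) x10526)
  (sub (sub (sub (sub (sub (sub (sub (add (add (add (add (add (add C x17082) x17086) x17066) x17078) x17018) x17054) x17198) x16928) x16604) x18548) x12716) x3966) x10528)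
  (add (sub (sub (sub (add (add (sub (add (add (add (add (sub C x17094) x17104) x17116) x17128) x17164) x17038) x16768) x17416) x16606) x18550) x12718) x10532)
  (add (sub (sub (sub (add (add (sub (add (add (sub (sub C x17092) x17100) x17130) x17166) x17040) x16770) x17418) x16608) x18552) x12720) x3974)
  (add (sub (sub (sub (add (add (sub (sub (sub (add (add C x17104) x17108) x17094) x17118) x17046) x16776) x17424) x16614) x18558) x12726) x3980)
  (add (sub (sub (sub (add (add (sub (sub (add (add (add (add C x17100) x17108) x17092) x17116) x17122) x17050) x16780) x17428) x16618) x18562) x12730) x10544)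
  (sub (sub (sub (sub (sub (add (add (sub (sub (sub (add (add C x17100) x17104) x17114) x17126) x17054) x16784) x17432) x16622) x18566) x12734) x3984) x10546)
  (sub (sub (sub (sub (sub (add (add (sub (sub (sub (sub C x17116) x17108) x17150) x17060) x16790) x17438) x16628) x18572) x12740) x3990) x10552)
  (add (sub (sub (sub (add (add (sub (sub (add (add (sub C x17114) x17092) x17104) x17152) x17062) x16792) x17440) x16630) x18574) x12742) x10556)
  (add (sub (sub (sub (add (add (add (add (sub (add (add (add (add C x17122) x17126) x17130) x17142) x17100) x17010) x17226) x16794) x17442) x16632) x18576) x12744) x3998)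
  (add (sub (sub (sub (add (add (add (add (sub (sub (add (add C x17118) x17126) x17128) x17104) x17014) x17230) x16798) x17446) x16636) x18580) x12748) x10562)
  (sub (sub (sub (sub (sub (add (add (add (add (sub (sub (add (add C x17118) x17122) x17138) x17108) x17018) x17234) x16802) x17450) x16640) x18584) x12752) x4002) x10564)
  (add (sub (sub (sub (add (add (add (add (add (add (sub (sub C x17130) x17122) x17092) x17164) x17020) x17236) x16804) x17452) x16642) x18586) x12754) x10568)
  (add (sub (sub (sub (add (add (add (add (add (add (add (add (sub C x17128) x17118) x17142) x17094) x17166) x17022) x17238) x16806) x17454) x16644) x18588) x12756) x4010)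
  (sub (sub (sub (sub (sub (add (add (add (add (sub (sub (sub C x17142) x17126) x17156) x17030) x17246) x16814) x17462) x16652) x18596) x12764) x4014) x10576)
  (add (sub (sub (sub (add (add (add (add (sub (add (add (sub C x17138) x17118) x17130) x17160) x17034) x17250) x16818) x17466) x16656) x18600) x12768) x4022)
  (sub (sub (sub (sub (sub (add (add (sub (sub (sub (sub C x17152) x17156) x17114) x17204) x16826) x17474) x16664) x18608) x12776) x4026) x10588)
  (add (sub (sub (sub (add (add (sub (sub (sub (sub C x17150) x17164) x17116) x17206) x16828) x17476) x16666) x18610) x12778) x10592)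
  (sub (sub (sub (sub (sub (add (add (sub (sub (sub (sub C x17160) x17150) x17138) x17210) x16832) x17480) x16670) x18614) x12782) x4032) x10594)
  (add (sub (sub (sub (add (add (sub (sub (sub (sub C x17156) x17166) x17142) x17214) x16836) x17484) x16674) x18618) x12786) x4040)
  (add (sub (sub (sub (add (add (sub (add (add (sub (sub C x17166) x17152) x17092) x17128) x17218) x16840) x17488) x16678) x18622) x12790) x10604)
  (add (sub (sub (sub (add (add (sub (add (add (sub (sub C x17164) x17160) x17094) x17130) x17220) x16842) x17490) x16680) x18624) x12792) x4046)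
  (sub (sub (sub (sub (sub (sub (sub (add (add (add (add (sub C x17178) x17186) x17198) x17210) x17246) x17066) x17336) x16688) x18632) x12800) x4050) x10612)
  (add (sub (sub (sub (sub (sub (add (add (sub (sub C x17174) x17190) x17214) x17250) x17070) x17340) x16692) x18636) x12804) x4058)
  (sub (sub (sub (sub (sub (sub (sub (sub (add (add (sub C x17188) x17174) x17198) x17204) x17078) x17348) x16700) x18644) x12812) x4062) x10624)
  (add (sub (sub (sub (sub (sub (sub (sub (sub C x17186) x17194) x17206) x17080) x17350) x16702) x18646) x12814) x10628)
  (add (sub (sub (sub (sub (sub (sub (sub (add (add C x17194) x17198) x17178) x17226) x17082) x17352) x16704) x18648) x12816) x4070)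
  (add (sub (sub (sub (sub (sub (sub (sub (add (add C x17190) x17198) x17188) x17230) x17086) x17356) x16708) x18652) x12820) x10634)
  (sub (sub (sub (sub (sub (sub (sub (sub (add (add (add (add C x17190) x17194) x17174) x17186) x17234) x17090) x17360) x16712) x18656) x12824) x4074) x10636)
  (sub (sub (sub (sub (sub (sub (sub (sub (sub (sub C x17206) x17210) x17186) x17150) x17366) x16718) x18662) x12830) x4080) x10642)
  (add (sub (sub (sub (sub (sub (sub (sub (sub C x17204) x17218) x17188) x17152) x17368) x16720) x18664) x12832) x10646)
  (sub (sub (sub (sub (sub (sub (sub (add (add (sub (sub C x17214) x17204) x17174) x17246) x17156) x17372) x16724) x18668) x12836) x4086) x10648)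
  (add (sub (sub (sub (sub (sub (add (add (sub (sub C x17210) x17220) x17178) x17250) x17160) x17376) x16728) x18672) x12840) x4094)
  (add (sub (sub (sub (sub (sub (sub (sub (sub C x17220) x17206) x17236) x17164) x17380) x16732) x18676) x12844) x10658)
  (add (sub (sub (sub (sub (sub (sub (sub (sub C x17218) x17214) x17238) x17166) x17382) x16734) x18678) x12846) x4100)
  (add (sub (sub (sub (sub (add (add (sub (add (add (add (add C x17230) x17234) x17238) x17250) x17190) x17010) x17118) x17388) x16740) x18684) x12852) x4106)
  (add (sub (sub (sub (sub (add (add (sub (sub (add (add C x17226) x17234) x17236) x17194) x17014) x17122) x17392) x16744) x18688) x12856) x10670)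
  (sub (sub (sub (sub (sub (sub (add (add (sub (sub (add (add C x17226) x17230) x17246) x17198) x17018) x17126) x17396) x16748) x18692) x12860) x4110) x10672)
  (add (sub (sub (sub (sub (add (add (sub (sub (sub C x17238) x17230) x17218) x17020) x17128) x17398) x16750) x18694) x12862) x10676)
  (add (sub (sub (sub (sub (add (add (sub (add (add (sub C x17236) x17226) x17250) x17220) x17022) x17130) x17400) x16752) x18696) x12864) x4118)
  (sub (sub (sub (sub (sub (sub (add (add (add (add (sub (sub C x17250) x17234) x17174) x17210) x17030) x17138) x17408) x16760) x18704) x12872) x4122) x10684)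
  (add (sub (sub (sub (sub (add (add (add (add (add (add (sub C x17246) x17226) x17238) x17178) x17214) x17034) x17142) x17412) x16764) x18708) x12876) x4130)
  (sub (sub (sub (sub (add (add (sub (add (add (add (add (sub (sub C x17260) x17264) x17294) x17330) x17366) x17474) x16934) x15314) x16286) x18716) x12884) x4134) x10696)
  (add (sub (sub (add (add (sub (add (add (add (add (sub (sub C x17258) x17272) x17296) x17332) x17368) x17476) x16936) x15316) x16288) x18718) x12886) x10700)
  (sub (sub (sub (sub (add (add (sub (add (add (sub (sub (sub C x17268) x17258) x17282) x17372) x17480) x16940) x15320) x16292) x18722) x12890) x4140) x10702)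
  (add (sub (sub (add (add (sub (add (add (sub (sub (sub C x17264) x17274) x17286) x17376) x17484) x16944) x15324) x16296) x18726) x12894) x4148)
  (add (sub (sub (add (add (sub (add (add (sub (sub (sub C x17274) x17260) x17308) x17380) x17488) x16948) x15328) x16300) x18730) x12898) x10712)
  (add (sub (sub (add (add (sub (add (add (sub (sub (sub C x17272) x17268) x17310) x17382) x17490) x16950) x15330) x16302) x18732) x12900) x4154)
  (sub (sub (sub (sub (add (add (sub (sub (sub (add (add (sub C x17286) x17294) x17306) x17264) x17336) x16958) x15338) x16310) x18740) x12908) x4158) x10720)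
  (add (sub (sub (add (add (sub (sub (sub (sub (sub C x17282) x17298) x17268) x17340) x16962) x15342) x16314) x18744) x12912) x4166)
  (sub (sub (sub (sub (add (add (sub (sub (add (add (add (add (sub C x17296) x17282) x17306) x17258) x17330) x17348) x16970) x15350) x16322) x18752) x12920) x4170) x10732)
  (add (sub (sub (add (add (sub (sub (add (add (sub (sub C x17294) x17302) x17260) x17332) x17350) x16972) x15352) x16324) x18754) x12922) x10736)
  (add (sub (sub (add (add (sub (sub (sub (sub (add (add C x17302) x17306) x17286) x17316) x17352) x16974) x15354) x16326) x18756) x12924) x4178)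
  (add (sub (sub (add (add (sub (sub (sub (sub (add (add C x17298) x17306) x17296) x17320) x17356) x16978) x15358) x16330) x18760) x12928) x10742)
  (sub (sub (sub (sub (add (add (sub (sub (sub (add (add (add (add C x17298) x17302) x17282) x17294) x17324) x17360) x16982) x15362) x16334) x18764) x12932) x4182) x10744)
  (add (sub (sub (add (add (sub (sub (sub (add (add (sub C x17310) x17320) x17332) x17272) x17416) x16984) x15364) x16336) x18766) x12934) x10748)
  (add (sub (sub (add (add (sub (sub (sub (sub (sub C x17308) x17316) x17274) x17418) x16986) x15366) x16338) x18768) x12936) x4190)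
  (add (sub (sub (add (add (sub (sub (sub (sub (add (add C x17320) x17324) x17310) x17298) x17424) x16992) x15372) x16344) x18774) x12942) x4196)
  (add (sub (sub (add (add (sub (sub (sub (add (add (add (add C x17316) x17324) x17308) x17332) x17302) x17428) x16996) x15376) x16348) x18778) x12946) x10760)
  (sub (sub (sub (sub (add (add (sub (sub (sub (sub (add (add C x17316) x17320) x17330) x17306) x17432) x17000) x15380) x16352) x18782) x12950) x4200) x10762)
  (sub (sub (sub (sub (add (add (sub (sub (add (add (sub (sub C x17332) x17324) x17258) x17294) x17438) x17006) x15386) x16358) x18788) x12956) x4206) x10768)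
  (add (sub (sub (add (add (sub (sub (add (add (add (add (sub C x17330) x17308) x17320) x17260) x17296) x17440) x17008) x15388) x16360) x18790) x12958) x10772)
  (sub (sub (sub (sub (add (add (sub (sub (add (add (add (add (sub C x17340) x17348) x17360) x17372) x17408) x17282) x17174) x15392) x16364) x18794) x12962) x4212) x10774)
  (add (sub (sub (add (add (sub (sub (add (add (sub (sub C x17336) x17352) x17376) x17412) x17286) x17178) x15396) x16368) x18798) x12966) x4220)
  (sub (sub (sub (sub (add (add (sub (sub (sub (add (add (sub C x17350) x17336) x17360) x17366) x17294) x17186) x15404) x16376) x18806) x12974) x4224) x10786)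
  (add (sub (sub (add (add (sub (sub (sub (sub (sub C x17348) x17356) x17368) x17296) x17188) x15406) x16378) x18808) x12976) x10790)
  (add (sub (sub (add (add (sub (sub (sub (sub (add (add C x17356) x17360) x17340) x17388) x17298) x17190) x15408) x16380) x18810) x12978) x4232)
  (add (sub (sub (add (add (sub (sub (sub (sub (add (add C x17352) x17360) x17350) x17392) x17302) x17194) x15412) x16384) x18814) x12982) x10796)
  (sub (sub (sub (sub (add (add (sub (sub (sub (add (add (add (add C x17352) x17356) x17336) x17348) x17396) x17306) x17198) x15416) x16388) x18818) x12986) x4236) x10798)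
  (sub (sub (sub (sub (add (add (sub (add (add (sub (sub (sub C x17368) x17372) x17348) x17258) x17474) x17204) x15422) x16394) x18824) x12992) x4242) x10804)
  (add (sub (sub (add (add (sub (add (add (sub (sub (sub C x17366) x17380) x17350) x17260) x17476) x17206) x15424) x16396) x18826) x12994) x10808)
  (sub (sub (sub (sub (add (add (sub (add (add (add (add (sub (sub C x17376) x17366) x17336) x17408) x17264) x17480) x17210) x15428) x16400) x18830) x12998) x4248) x10810)
  (add (sub (sub (add (add (sub (add (add (add (add (sub (sub C x17372) x17382) x17340) x17412) x17268) x17484) x17214) x15432) x16404) x18834) x13002) x4256)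
  (add (sub (sub (add (add (sub (add (add (sub (sub (sub C x17382) x17368) x17398) x17272) x17488) x17218) x15436) x16408) x18838) x13006) x10820)
  (add (sub (sub (add (add (sub (add (add (sub (sub (sub C x17380) x17376) x17400) x17274) x17490) x17220) x15438) x16410) x18840) x13008) x4262)
  (add (sub (sub (add (add (sub (sub (sub (add (add (add (add C x17392) x17396) x17400) x17412) x17352) x17442) x17226) x15444) x16416) x18846) x13014) x4268)
  (add (sub (sub (add (add (sub (sub (sub (sub (add (add C x17388) x17396) x17398) x17356) x17446) x17230) x15448) x16420) x18850) x13018) x10832)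
  (sub (sub (sub (sub (add (add (sub (sub (sub (sub (add (add C x17388) x17392) x17408) x17360) x17450) x17234) x15452) x16424) x18854) x13022) x4272) x10834)
  (add (sub (sub (add (add (sub (sub (sub (sub (sub C x17400) x17392) x17380) x17452) x17236) x15454) x16426) x18856) x13024) x10838)
  (add (sub (sub (add (add (sub (sub (sub (add (add (sub C x17398) x17388) x17412) x17382) x17454) x17238) x15456) x16428) x18858) x13026) x4280)
  (sub (sub (sub (sub (add (add (sub (sub (add (add (sub (sub C x17412) x17396) x17336) x17372) x17462) x17246) x15464) x16436) x18866) x13034) x4284) x10846)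
  (add (sub (sub (add (add (sub (sub (add (add (add (add (sub C x17408) x17388) x17400) x17340) x17376) x17466) x17250) x15468) x16440) x18870) x13038) x4292)
  (add (sub (sub (add (add (add (add (sub (add (add (add (add (sub C x17418) x17428) x17440) x17452) x17488) x17308) x16768) x17092) x15472) x16444) x18874) x13042) x10856)
  (add (sub (sub (add (add (add (add (sub (add (add (sub (sub C x17416) x17424) x17454) x17490) x17310) x16770) x17094) x15474) x16446) x18876) x13044) x4298)
  (add (sub (sub (add (add (add (add (sub (sub (sub (add (add C x17428) x17432) x17418) x17442) x17316) x16776) x17100) x15480) x16452) x18882) x13050) x4304)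
  (add (sub (sub (add (add (add (add (sub (sub (add (add (add (add C x17424) x17432) x17416) x17440) x17446) x17320) x16780) x17104) x15484) x16456) x18886) x13054) x10868)
  (sub (sub (sub (sub (add (add (add (add (sub (sub (sub (add (add C x17424) x17428) x17438) x17450) x17324) x16784) x17108) x15488) x16460) x18890) x13058) x4308) x10870)
  (sub (sub (sub (sub (add (add (add (add (sub (sub (sub (sub C x17440) x17432) x17474) x17330) x16790) x17114) x15494) x16466) x18896) x13064) x4314) x10876)
  (add (sub (sub (add (add (add (add (sub (sub (add (add (sub C x17438) x17416) x17428) x17476) x17332) x16792) x17116) x15496) x16468) x18898) x13066) x10880)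
  (add (sub (sub (add (add (add (add (sub (sub (add (add (add (add C x17446) x17450) x17454) x17466) x17424) x17388) x16794) x17118) x15498) x16470) x18900) x13068) x4322)
  (add (sub (sub (add (add (add (add (sub (sub (sub (add (add C x17442) x17450) x17452) x17428) x17392) x16798) x17122) x15502) x16474) x18904) x13072) x10886)
  (sub (sub (sub (sub (add (add (add (add (sub (sub (sub (add (add C x17442) x17446) x17462) x17432) x17396) x16802) x17126) x15506) x16478) x18908) x13076) x4326) x10888)
  (add (sub (sub (add (add (add (add (sub (add (add (sub (sub C x17454) x17446) x17416) x17488) x17398) x16804) x17128) x15508) x16480) x18910) x13078) x10892)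
  (add (sub (sub (add (add (add (add (sub (add (add (add (add (sub C x17452) x17442) x17466) x17418) x17490) x17400) x16806) x17130) x15510) x16482) x18912) x13080) x4334)
  (sub (sub (sub (sub (add (add (add (add (sub (sub (sub (sub C x17466) x17450) x17480) x17408) x16814) x17138) x15518) x16490) x18920) x13088) x4338) x10900)
  (add (sub (sub (add (add (add (add (sub (sub (add (add (sub C x17462) x17442) x17454) x17484) x17412) x16818) x17142) x15522) x16494) x18924) x13092) x4346)
  (sub (sub (sub (sub (add (add (add (add (add (add (sub (sub (sub C x17476) x17480) x17438) x17258) x17366) x16826) x17150) x15530) x16502) x18932) x13100) x4350) x10912)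
  (add (sub (sub (add (add (add (add (add (add (sub (sub (sub C x17474) x17488) x17440) x17260) x17368) x16828) x17152) x15532) x16504) x18934) x13102) x10916)
  (sub (sub (sub (sub (add (add (add (add (add (add (sub (sub (sub C x17484) x17474) x17462) x17264) x17372) x16832) x17156) x15536) x16508) x18938) x13106) x4356) x10918)
  (add (sub (sub (add (add (add (add (add (add (sub (sub (sub C x17480) x17490) x17466) x17268) x17376) x16836) x17160) x15540) x16512) x18942) x13110) x4364)
  (add (sub (sub (add (add (add (add (add (add (add (add (sub (sub C x17490) x17476) x17416) x17452) x17272) x17380) x16840) x17164) x15544) x16516) x18946) x13114) x10928)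
  (add (sub (sub (add (add (add (add (add (add (add (add (sub (sub C x17488) x17484) x17418) x17454) x17274) x17382) x16842) x17166) x15546) x16518) x18948) x13116) x4370)
  (add (add (add (sub (add (add (add (add (add (add (add (add (add (add (add (add C x17500) x17504) x17508) x17520) x17532) x17568) x17604) x17712) x17820) x18144) x18468) x19440) x14580) x0) x8748) x4376)
  (add (add (add (sub (add (add (add (add (add (add (add (add (sub (add (add C x17496) x17504) x17506) x17536) x17572) x17608) x17716) x17824) x18148) x18472) x19444) x14584) x4) x8752) x10940)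
  (sub (sub (add (add (sub (add (add (add (add (add (add (add (add (sub (add (add C x17496) x17500) x17516) x17540) x17576) x17612) x17720) x17828) x18152) x18476) x19448) x14588) x8) x8756) x4380) x10942)
  (add (add (add (sub (add (add (add (add (add (add (sub (sub (sub C x17508) x17500) x17524) x17614) x17722) x17830) x18154) x18478) x19450) x14590) x10) x8758) x10946)
  (add (add (add (sub (add (add (add (add (add (add (sub (add (add (sub C x17506) x17496) x17520) x17526) x17616) x17724) x17832) x18156) x18480) x19452) x14592) x12) x8760) x4388)
  (sub (sub (add (add (sub (add (add (add (add (add (add (sub (sub (sub C x17520) x17504) x17552) x17624) x17732) x17840) x18164) x18488) x19460) x14600) x20) x8768) x4392) x10954)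
  (add (add (add (sub (add (add (add (add (add (add (sub (add (add (sub C x17516) x17496) x17508) x17556) x17628) x17736) x17844) x18168) x18492) x19464) x14604) x24) x8772) x4400)
  (add (add (add (sub (add (add (add (add (sub (sub (add (add (sub C x17526) x17536) x17548) x17506) x17578) x17848) x18172) x18496) x19468) x14608) x28) x8776) x10964)
  (add (add (add (sub (add (add (add (add (sub (sub (sub (sub C x17524) x17532) x17508) x17580) x17850) x18174) x18498) x19470) x14610) x30) x8778) x4406)
  (add (add (add (sub (add (add (add (add (sub (add (add (sub (add (add C x17536) x17540) x17526) x17496) x17568) x17586) x17856) x18180) x18504) x19476) x14616) x36) x8784) x4412)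
  (add (add (add (sub (add (add (add (add (sub (add (add (add (add (add (add C x17532) x17540) x17524) x17548) x17500) x17572) x17590) x17860) x18184) x18508) x19480) x14620) x40) x8788) x10976)
  (sub (sub (add (add (sub (add (add (add (add (sub (add (add (sub (add (add C x17532) x17536) x17546) x17504) x17576) x17594) x17864) x18188) x18512) x19484) x14624) x44) x8792) x4416) x10978)
  (sub (sub (add (add (sub (add (add (add (add (sub (sub (sub (sub C x17548) x17540) x17564) x17600) x17870) x18194) x18518) x19490) x14630) x50) x8798) x4422) x10984)
  (add (add (add (sub (add (add (add (add (sub (sub (add (add (sub C x17546) x17524) x17536) x17566) x17602) x17872) x18196) x18520) x19492) x14632) x52) x8800) x10988)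
  (sub (sub (add (add (sub (add (add (add (add (sub (sub (add (add (sub C x17556) x17564) x17576) x17516) x17660) x17876) x18200) x18524) x19496) x14636) x56) x8804) x4428) x10990)
  (add (add (add (sub (add (add (add (add (sub (sub (sub (sub C x17552) x17568) x17520) x17664) x17880) x18204) x18528) x19500) x14640) x60) x8808) x4436)
  (sub (sub (add (add (sub (add (add (add (add (sub (sub (add (add (sub C x17566) x17552) x17576) x17546) x17672) x17888) x18212) x18536) x19508) x14648) x68) x8816) x4440) x11002)
  (add (add (add (sub (add (add (add (add (sub (sub (sub (sub C x17564) x17572) x17548) x17674) x17890) x18214) x18538) x19510) x14650) x70) x8818) x11006)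
  (add (add (add (sub (add (add (add (add (sub (add (add (sub (add (add C x17572) x17576) x17556) x17496) x17532) x17676) x17892) x18216) x18540) x19512) x14652) x72) x8820) x4448)
  (add (add (add (sub (add (add (add (add (sub (add (add (sub (add (add C x17568) x17576) x17566) x17500) x17536) x17680) x17896) x18220) x18544) x19516) x14656) x76) x8824) x11012)
  (sub (sub (add (add (sub (add (add (add (add (sub (add (add (add (add (add (add C x17568) x17572) x17552) x17564) x17504) x17540) x17684) x17900) x18224) x18548) x19520) x14660) x80) x8828) x4452) x11014)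
  (add (add (add (sub (add (add (sub (sub (add (add (add (add (sub C x17580) x17590) x17602) x17614) x17650) x17524) x17740) x18550) x19522) x14662) x82) x8830) x11018)
  (add (add (add (sub (add (add (sub (sub (add (add (sub (sub C x17578) x17586) x17616) x17652) x17526) x17742) x18552) x19524) x14664) x84) x8832) x4460)
  (add (add (add (sub (add (add (sub (sub (sub (sub (add (add C x17590) x17594) x17580) x17604) x17532) x17748) x18558) x19530) x14670) x90) x8838) x4466)
  (add (add (add (sub (add (add (sub (sub (sub (add (add (add (add C x17586) x17594) x17578) x17602) x17608) x17536) x17752) x18562) x19534) x14674) x94) x8842) x11030)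
  (sub (sub (add (add (sub (add (add (sub (sub (sub (sub (add (add C x17586) x17590) x17600) x17612) x17540) x17756) x18566) x19538) x14678) x98) x8846) x4470) x11032)
  (sub (sub (add (add (sub (add (add (sub (sub (sub (sub (sub C x17602) x17594) x17636) x17546) x17762) x18572) x19544) x14684) x104) x8852) x4476) x11038)
  (add (add (add (sub (add (add (sub (sub (sub (add (add (sub C x17600) x17578) x17590) x17638) x17548) x17764) x18574) x19546) x14686) x106) x8854) x11042)
  (add (add (add (sub (add (add (sub (add (add (sub (add (add (add (add C x17608) x17612) x17616) x17628) x17586) x17496) x17712) x17766) x18576) x19548) x14688) x108) x8856) x4484)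
  (add (add (add (sub (add (add (sub (add (add (sub (sub (add (add C x17604) x17612) x17614) x17590) x17500) x17716) x17770) x18580) x19552) x14692) x112) x8860) x11048)
  (sub (sub (add (add (sub (add (add (sub (add (add (sub (sub (add (add C x17604) x17608) x17624) x17594) x17504) x17720) x17774) x18584) x19556) x14696) x116) x8864) x4488) x11050)
  (add (add (add (sub (add (add (sub (add (add (add (add (sub (sub C x17616) x17608) x17578) x17650) x17506) x17722) x17776) x18586) x19558) x14698) x118) x8866) x11054)
  (add (add (add (sub (add (add (sub (add (add (add (add (add (add (sub C x17614) x17604) x17628) x17580) x17652) x17508) x17724) x17778) x18588) x19560) x14700) x120) x8868) x4496)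
  (sub (sub (add (add (sub (add (add (sub (add (add (sub (sub (sub C x17628) x17612) x17642) x17516) x17732) x17786) x18596) x19568) x14708) x128) x8876) x4500) x11062)
  (add (add (add (sub (add (add (sub (add (add (sub (add (add (sub C x17624) x17604) x17616) x17646) x17520) x17736) x17790) x18600) x19572) x14712) x132) x8880) x4508)
  (sub (sub (add (add (sub (add (add (sub (sub (sub (sub (sub C x17638) x17642) x17600) x17690) x17798) x18608) x19580) x14720) x140) x8888) x4512) x11074)
  (add (add (add (sub (add (add (sub (sub (sub (sub (sub C x17636) x17650) x17602) x17692) x17800) x18610) x19582) x14722) x142) x8890) x11078)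
  (sub (sub (add (add (sub (add (add (sub (sub (sub (sub (sub C x17646) x17636) x17624) x17696) x17804) x18614) x19586) x14726) x146) x8894) x4518) x11080)
  (add (add (add (sub (add (add (sub (sub (sub (sub (sub C x17642) x17652) x17628) x17700) x17808) x18618) x19590) x14730) x150) x8898) x4526)
  (add (add (add (sub (add (add (sub (sub (add (add (sub (sub C x17652) x17638) x17578) x17614) x17704) x17812) x18622) x19594) x14734) x154) x8902) x11090)
  (add (add (add (sub (add (add (sub (sub (add (add (sub (sub C x17650) x17646) x17580) x17616) x17706) x17814) x18624) x19596) x14736) x156) x8904) x4532)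
  (sub (sub (add (add (sub (add (add (sub (sub (add (add (add (add (sub C x17664) x17672) x17684) x17696) x17732) x17552) x17984) x18632) x19604) x14744) x164) x8912) x4536) x11098)
  (add (add (add (sub (add (add (sub (sub (add (add (sub (sub C x17660) x17676) x17700) x17736) x17556) x17988) x18636) x19608) x14748) x168) x8916) x4544)
  (sub (sub (add (add (sub (add (add (sub (sub (sub (add (add (sub C x17674) x17660) x17684) x17690) x17564) x17996) x18644) x19616) x14756) x176) x8924) x4548) x11110)
  (add (add (add (sub (add (add (sub (sub (sub (sub (sub C x17672) x17680) x17692) x17566) x17998) x18646) x19618) x14758) x178) x8926) x11114)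
  (add (add (add (sub (add (add (sub (sub (sub (sub (add (add C x17680) x17684) x17664) x17712) x17568) x18000) x18648) x19620) x14760) x180) x8928) x4556)
  (add (add (add (sub (add (add (sub (sub (sub (sub (add (add C x17676) x17684) x17674) x17716) x17572) x18004) x18652) x19624) x14764) x184) x8932) x11120)
  (sub (sub (add (add (sub (add (add (sub (sub (sub (add (add (add (add C x17676) x17680) x17660) x17672) x17720) x17576) x18008) x18656) x19628) x14768) x188) x8936) x4560) x11122)
  (sub (sub (add (add (sub (add (add (sub (sub (sub (sub (sub C x17692) x17696) x17672) x17636) x18014) x18662) x19634) x14774) x194) x8942) x4566) x11128)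
  (add (add (add (sub (add (add (sub (sub (sub (sub (sub C x17690) x17704) x17674) x17638) x18016) x18664) x19636) x14776) x196) x8944) x11132)
  (sub (sub (add (add (sub (add (add (sub (sub (add (add (sub (sub C x17700) x17690) x17660) x17732) x17642) x18020) x18668) x19640) x14780) x200) x8948) x4572) x11134)
  (add (add (add (sub (add (add (sub (sub (add (add (sub (sub C x17696) x17706) x17664) x17736) x17646) x18024) x18672) x19644) x14784) x204) x8952) x4580)
  (add (add (add (sub (add (add (sub (sub (sub (sub (sub C x17706) x17692) x17722) x17650) x18028) x18676) x19648) x14788) x208) x8956) x11144)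
  (add (add (add (sub (add (add (sub (sub (sub (sub (sub C x17704) x17700) x17724) x17652) x18030) x18678) x19650) x14790) x210) x8958) x4586)
  (add (add (add (sub (add (add (sub (add (add (sub (add (add (add (add C x17716) x17720) x17724) x17736) x17676) x17496) x17604) x18036) x18684) x19656) x14796) x216) x8964) x4592)
  (add (add (add (sub (add (add (sub (add (add (sub (sub (add (add C x17712) x17720) x17722) x17680) x17500) x17608) x18040) x18688) x19660) x14800) x220) x8968) x11156)
  (sub (sub (add (add (sub (add (add (sub (add (add (sub (sub (add (add C x17712) x17716) x17732) x17684) x17504) x17612) x18044) x18692) x19664) x14804) x224) x8972) x4596) x11158)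
  (add (add (add (sub (add (add (sub (add (add (sub (sub (sub C x17724) x17716) x17704) x17506) x17614) x18046) x18694) x19666) x14806) x226) x8974) x11162)
  (add (add (add (sub (add (add (sub (add (add (sub (add (add (sub C x17722) x17712) x17736) x17706) x17508) x17616) x18048) x18696) x19668) x14808) x228) x8976) x4604)
  (sub (sub (add (add (sub (add (add (sub (add (add (add (add (sub (sub C x17736) x17720) x17660) x17696) x17516) x17624) x18056) x18704) x19676) x14816) x236) x8984) x4608) x11170)
  (add (add (add (sub (add (add (sub (add (add (add (add (add (add (sub C x17732) x17712) x17724) x17664) x17700) x17520) x17628) x18060) x18708) x19680) x14820) x240) x8988) x4616)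
  (add (add (add (sub (sub (sub (add (add (add (add (add (add (sub C x17742) x17752) x17764) x17776) x17812) x17848) x17956) x17578) x18226) x14824) x244) x8992) x11180)
  (add (add (add (sub (sub (sub (add (add (add (add (sub (sub C x17740) x17748) x17778) x17814) x17850) x17958) x17580) x18228) x14826) x246) x8994) x4622)
  (add (add (add (sub (sub (sub (add (add (sub (sub (add (add C x17752) x17756) x17742) x17766) x17856) x17964) x17586) x18234) x14832) x252) x9000) x4628)
  (add (add (add (sub (sub (sub (add (add (sub (add (add (add (add C x17748) x17756) x17740) x17764) x17770) x17860) x17968) x17590) x18238) x14836) x256) x9004) x11192)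
  (sub (sub (add (add (sub (sub (sub (add (add (sub (sub (add (add C x17748) x17752) x17762) x17774) x17864) x17972) x17594) x18242) x14840) x260) x9008) x4632) x11194)
  (sub (sub (add (add (sub (sub (sub (add (add (sub (sub (sub C x17764) x17756) x17798) x17870) x17978) x17600) x18248) x14846) x266) x9014) x4638) x11200)
  (add (add (add (sub (sub (sub (add (add (sub (add (add (sub C x17762) x17740) x17752) x17800) x17872) x17980) x17602) x18250) x14848) x268) x9016) x11204)
  (add (add (add (sub (sub (sub (sub (sub (add (add (add (add C x17770) x17774) x17778) x17790) x17748) x17820) x17604) x18252) x14850) x270) x9018) x4646)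
  (add (add (add (sub (sub (sub (sub (sub (sub (add (add C x17766) x17774) x17776) x17752) x17824) x17608) x18256) x14854) x274) x9022) x11210)
  (sub (sub (add (add (sub (sub (sub (sub (sub (sub (add (add C x17766) x17770) x17786) x17756) x17828) x17612) x18260) x14858) x278) x9026) x4650) x11212)
  (add (add (add (sub (sub (sub (sub (add (add (sub (sub C x17778) x17770) x17740) x17812) x17830) x17614) x18262) x14860) x280) x9028) x11216)
  (add (add (add (sub (sub (sub (sub (add (add (add (add (sub C x17776) x17766) x17790) x17742) x17814) x17832) x17616) x18264) x14862) x282) x9030) x4658)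
  (sub (sub (add (add (sub (sub (sub (sub (sub (sub (sub C x17790) x17774) x17804) x17840) x17624) x18272) x14870) x290) x9038) x4662) x11224)
  (add (add (add (sub (sub (sub (sub (sub (add (add (sub C x17786) x17766) x17778) x17808) x17844) x17628) x18276) x14874) x294) x9042) x4670)
  (sub (sub (add (add (sub (sub (sub (sub (sub (sub (sub C x17800) x17804) x17762) x17906) x17636) x18284) x14882) x302) x9050) x4674) x11236)
  (add (add (add (sub (sub (sub (sub (sub (sub (sub C x17798) x17812) x17764) x17908) x17638) x18286) x14884) x304) x9052) x11240)
  (sub (sub (add (add (sub (sub (sub (sub (sub (sub (sub C x17808) x17798) x17786) x17912) x17642) x18290) x14888) x308) x9056) x4680) x11242)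
  (add (add (add (sub (sub (sub (sub (sub (sub (sub C x17804) x17814) x17790) x17916) x17646) x18294) x14892) x312) x9060) x4688)
  (add (add (add (sub (sub (sub (sub (add (add (sub (sub C x17814) x17800) x17740) x17776) x17920) x17650) x18298) x14896) x316) x9064) x11252)
  (add (add (add (sub (sub (sub (sub (add (add (sub (sub C x17812) x17808) x17742) x17778) x17922) x17652) x18300) x14898) x318) x9066) x4694)
  (add (add (add (sub (sub (add (add (sub (add (add (add (add (add (add C x17824) x17828) x17832) x17844) x17856) x17892) x17766) x17496) x18144) x18306) x14904) x324) x9072) x4700)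
  (add (add (add (sub (sub (add (add (sub (add (add (sub (add (add C x17820) x17828) x17830) x17860) x17896) x17770) x17500) x18148) x18310) x14908) x328) x9076) x11264)
  (sub (sub (add (add (sub (sub (add (add (sub (add (add (sub (add (add C x17820) x17824) x17840) x17864) x17900) x17774) x17504) x18152) x18314) x14912) x332) x9080) x4704) x11266)
  (add (add (add (sub (sub (add (add (sub (sub (sub (sub C x17832) x17824) x17848) x17776) x17506) x18154) x18316) x14914) x334) x9082) x11270)
  (add (add (add (sub (sub (add (add (sub (sub (add (add (sub C x17830) x17820) x17844) x17850) x17778) x17508) x18156) x18318) x14916) x336) x9084) x4712)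
  (sub (sub (add (add (sub (sub (add (add (sub (sub (sub (sub C x17844) x17828) x17876) x17786) x17516) x18164) x18326) x14924) x344) x9092) x4716) x11278)
  (add (add (add (sub (sub (add (add (sub (sub (add (add (sub C x17840) x17820) x17832) x17880) x17790) x17520) x18168) x18330) x14928) x348) x9096) x4724)
  (add (add (add (sub (sub (add (add (add (add (sub (add (add (sub C x17850) x17860) x17872) x17830) x17740) x17956) x17524) x18172) x18334) x14932) x352) x9100) x11288)
  (add (add (add (sub (sub (add (add (add (add (sub (sub (sub C x17848) x17856) x17832) x17742) x17958) x17526) x18174) x18336) x14934) x354) x9102) x4730)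
  (add (add (add (sub (sub (add (add (add (add (add (add (sub (add (add C x17860) x17864) x17850) x17820) x17892) x17748) x17964) x17532) x18180) x18342) x14940) x360) x9108) x4736)
  (add (add (add (sub (sub (add (add (add (add (add (add (add (add (add (add C x17856) x17864) x17848) x17872) x17824) x17896) x17752) x17968) x17536) x18184) x18346) x14944) x364) x9112) x11300)
  (sub (sub (add (add (sub (sub (add (add (add (add (add (add (sub (add (add C x17856) x17860) x17870) x17828) x17900) x17756) x17972) x17540) x18188) x18350) x14948) x368) x9116) x4740) x11302)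
  (sub (sub (add (add (sub (sub (add (add (add (add (sub (sub (sub C x17872) x17864) x17888) x17762) x17978) x17546) x18194) x18356) x14954) x374) x9122) x4746) x11308)
  (add (add (add (sub (sub (add (add (add (add (sub (add (add (sub C x17870) x17848) x17860) x17890) x17764) x17980) x17548) x18196) x18358) x14956) x376) x9124) x11312)
  (sub (sub (add (add (sub (sub (add (add (sub (sub (add (add (sub C x17880) x17888) x17900) x17840) x17930) x17552) x18200) x18362) x14960) x380) x9128) x4752) x11314)
  (add (add (add (sub (sub (add (add (sub (sub (sub (sub C x17876) x17892) x17844) x17934) x17556) x18204) x18366) x14964) x384) x9132) x4760)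
  (sub (sub (add (add (sub (sub (add (add (sub (sub (add (add (sub C x17890) x17876) x17900) x17870) x17942) x17564) x18212) x18374) x14972) x392) x9140) x4764) x11326)
  (add (add (add (sub (sub (add (add (sub (sub (sub (sub C x17888) x17896) x17872) x17944) x17566) x18214) x18376) x14974) x394) x9142) x11330)
  (add (add (add (sub (sub (add (add (sub (add (add (sub (add (add C x17896) x17900) x17880) x17820) x17856) x17946) x17568) x18216) x18378) x14976) x396) x9144) x4772)
  (add (add (add (sub (sub (add (add (sub (add (add (sub (add (add C x17892) x17900) x17890) x17824) x17860) x17950) x17572) x18220) x18382) x14980) x400) x9148) x11336)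
  (sub (sub (add (add (sub (sub (add (add (sub (add (add (add (add (add (add C x17892) x17896) x17876) x17888) x17828) x17864) x17954) x17576) x18224) x18386) x14984) x404) x9152) x4776) x11338)
  (sub (sub (add (add (sub (sub (sub (sub (add (add (sub (sub C x17908) x17912) x17942) x17978) x17798) x18068) x18392) x14990) x410) x9158) x4782) x11344)
  (add (add (add (sub (sub (sub (sub (add (add (sub (sub C x17906) x17920) x17944) x17980) x17800) x18070) x18394) x14992) x412) x9160) x11348)
  (sub (sub (add (add (sub (sub (sub (sub (sub (sub (sub C x17916) x17906) x17930) x17804) x18074) x18398) x14996) x416) x9164) x4788) x11350)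
  (add (add (add (sub (sub (sub (sub (sub (sub (sub C x17912) x17922) x17934) x17808) x18078) x18402) x15000) x420) x9168) x4796)
  (add (add (add (sub (sub (sub (sub (sub (sub (sub C x17922) x17908) x17956) x17812) x18082) x18406) x15004) x424) x9172) x11360)
  (add (add (add (sub (sub (sub (sub (sub (sub (sub C x17920) x17916) x17958) x17814) x18084) x18408) x15006) x426) x9174) x4802)
  (sub (sub (add (add (sub (sub (sub (sub (sub (add (add (sub C x17934) x17942) x17954) x17912) x17876) x18092) x18416) x15014) x434) x9182) x4806) x11368)
  (add (add (add (sub (sub (sub (sub (sub (sub (sub C x17930) x17946) x17916) x17880) x18096) x18420) x15018) x438) x9186) x4814)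
  (sub (sub (add (add (sub (sub (sub (sub (add (add (add (add (sub C x17944) x17930) x17954) x17906) x17978) x17888) x18104) x18428) x15026) x446) x9194) x4818) x11380)
  (add (add (add (sub (sub (sub (sub (add (add (sub (sub C x17942) x17950) x17908) x17980) x17890) x18106) x18430) x15028) x448) x9196) x11384)
  (add (add (add (sub (sub (sub (sub (sub (sub (add (add C x17950) x17954) x17934) x17964) x17892) x18108) x18432) x15030) x450) x9198) x4826)
  (add (add (add (sub (sub (sub (sub (sub (sub (add (add C x17946) x17954) x17944) x17968) x17896) x18112) x18436) x15034) x454) x9202) x11390)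
  (sub (sub (add (add (sub (sub (sub (sub (sub (add (add (add (add C x17946) x17950) x17930) x17942) x17972) x17900) x18116) x18440) x15038) x458) x9206) x4830) x11392)
  (add (add (add (sub (sub (sub (add (add (sub (add (add (sub C x17958) x17968) x17980) x17920) x17740) x17848) x18118) x18442) x15040) x460) x9208) x11396)
  (add (add (add (sub (sub (sub (add (add (sub (sub (sub C x17956) x17964) x17922) x17742) x17850) x18120) x18444) x15042) x462) x9210) x4838)
  (add (add (add (sub (sub (sub (add (add (sub (sub (add (add C x17968) x17972) x17958) x17946) x17748) x17856) x18126) x18450) x15048) x468) x9216) x4844)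
  (add (add (add (sub (sub (sub (add (add (sub (add (add (add (add C x17964) x17972) x17956) x17980) x17950) x17752) x17860) x18130) x18454) x15052) x472) x9220) x11408)
  (sub (sub (add (add (sub (sub (sub (add (add (sub (sub (add (add C x17964) x17968) x17978) x17954) x17756) x17864) x18134) x18458) x15056) x476) x9224) x4848) x11410)
  (sub (sub (add (add (sub (sub (sub (add (add (add (add (sub (sub C x17980) x17972) x17906) x17942) x17762) x17870) x18140) x18464) x15062) x482) x9230) x4854) x11416)
  (add (add (add (sub (sub (sub (add (add (add (add (add (add (sub C x17978) x17956) x17968) x17908) x17944) x17764) x17872) x18142) x18466) x15064) x484) x9232) x11420)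
  (sub (sub (add (add (sub (sub (sub (add (add (add (add (add (add (sub C x17988) x17996) x18008) x18020) x18056) x18092) x18200) x17660) x18956) x15068) x488) x9236) x4860) x11422)
  (add (add (add (sub (sub (sub (add (add (add (add (sub (sub C x17984) x18000) x18024) x18060) x18096) x18204) x17664) x18960) x15072) x492) x9240) x4868)
  (sub (sub (add (add (sub (sub (sub (add (add (sub (add (add (sub C x17998) x17984) x18008) x18014) x18104) x18212) x17672) x18968) x15080) x500) x9248) x4872) x11434)
  (add (add (add (sub (sub (sub (add (add (sub (sub (sub C x17996) x18004) x18016) x18106) x18214) x17674) x18970) x15082) x502) x9250) x11438)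
  (add (add (add (sub (sub (sub (add (add (sub (sub (add (add C x18004) x18008) x17988) x18036) x18108) x18216) x17676) x18972) x15084) x504) x9252) x4880)
  (add (add (add (sub (sub (sub (add (add (sub (sub (add (add C x18000) x18008) x17998) x18040) x18112) x18220) x17680) x18976) x15088) x508) x9256) x11444)
  (sub (sub (add (add (sub (sub (sub (add (add (sub (add (add (add (add C x18000) x18004) x17984) x17996) x18044) x18116) x18224) x17684) x18980) x15092) x512) x9260) x4884) x11446)
  (sub (sub (add (add (sub (sub (sub (sub (sub (sub (sub C x18016) x18020) x17996) x18068) x17690) x18986) x15098) x518) x9266) x4890) x11452)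
  (add (add (add (sub (sub (sub (sub (sub (sub (sub C x18014) x18028) x17998) x18070) x17692) x18988) x15100) x520) x9268) x11456)
  (sub (sub (add (add (sub (sub (sub (sub (add (add (sub (sub C x18024) x18014) x17984) x18056) x18074) x17696) x18992) x15104) x524) x9272) x4896) x11458)
  (add (add (add (sub (sub (sub (sub (add (add (sub (sub C x18020) x18030) x17988) x18060) x18078) x17700) x18996) x15108) x528) x9276) x4904)
  (add (add (add (sub (sub (sub (sub (sub (sub (sub C x18030) x18016) x18046) x18082) x17704) x19000) x15112) x532) x9280) x11468)
  (add (add (add (sub (sub (sub (sub (sub (sub (sub C x18028) x18024) x18048) x18084) x17706) x19002) x15114) x534) x9282) x4910)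
  (add (add (add (sub (sub (sub (sub (sub (add (add (add (add C x18040) x18044) x18048) x18060) x18000) x18144) x17712) x19008) x15120) x540) x9288) x4916)
  (add (add (add (sub (sub (sub (sub (sub (sub (add (add C x18036) x18044) x18046) x18004) x18148) x17716) x19012) x15124) x544) x9292) x11480)
  (sub (sub (add (add (sub (sub (sub (sub (sub (sub (add (add C x18036) x18040) x18056) x18008) x18152) x17720) x19016) x15128) x548) x9296) x4920) x11482)
  (add (add (add (sub (sub (sub (sub (sub (sub (sub C x18048) x18040) x18028) x18154) x17722) x19018) x15130) x550) x9298) x11486)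
  (add (add (add (sub (sub (sub (sub (sub (add (add (sub C x18046) x18036) x18060) x18030) x18156) x17724) x19020) x15132) x552) x9300) x4928)
  (sub (sub (add (add (sub (sub (sub (sub (add (add (sub (sub C x18060) x18044) x17984) x18020) x18164) x17732) x19028) x15140) x560) x9308) x4932) x11494)
  (add (add (add (sub (sub (sub (sub (add (add (add (add (sub C x18056) x18036) x18048) x17988) x18024) x18168) x17736) x19032) x15144) x564) x9312) x4940)
  (sub (sub (add (add (sub (sub (sub (sub (add (add (sub (sub C x18070) x18074) x18104) x18140) x18014) x17906) x19040) x15152) x572) x9320) x4944) x11506)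
  (add (add (add (sub (sub (sub (sub (add (add (sub (sub C x18068) x18082) x18106) x18142) x18016) x17908) x19042) x15154) x574) x9322) x11510)
  (sub (sub (add (add (sub (sub (sub (sub (sub (sub (sub C x18078) x18068) x18092) x18020) x17912) x19046) x15158) x578) x9326) x4950) x11512)
  (add (add (add (sub (sub (sub (sub (sub (sub (sub C x18074) x18084) x18096) x18024) x17916) x19050) x15162) x582) x9330) x4958)
  (add (add (add (sub (sub (sub (sub (sub (sub (sub C x18084) x18070) x18118) x18028) x17920) x19054) x15166) x586) x9334) x11522)
  (add (add (add (sub (sub (sub (sub (sub (sub (sub C x18082) x18078) x18120) x18030) x17922) x19056) x15168) x588) x9336) x4964)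
  (sub (sub (add (add (sub (sub (sub (add (add (sub (add (add (sub C x18096) x18104) x18116) x18074) x17984) x18200) x17930) x19064) x15176) x596) x9344) x4968) x11530)
  (add (add (add (sub (sub (sub (add (add (sub (sub (sub C x18092) x18108) x18078) x17988) x18204) x17934) x19068) x15180) x600) x9348) x4976)
  (sub (sub (add (add (sub (sub (sub (add (add (add (add (add (add (sub C x18106) x18092) x18116) x18068) x18140) x17996) x18212) x17942) x19076) x15188) x608) x9356) x4980) x11542)
  (add (add (add (sub (sub (sub (add (add (add (add (sub (sub C x18104) x18112) x18070) x18142) x17998) x18214) x17944) x19078) x15190) x610) x9358) x11546)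
  (add (add (add (sub (sub (sub (add (add (sub (sub (add (add C x18112) x18116) x18096) x18126) x18000) x18216) x17946) x19080) x15192) x612) x9360) x4988)
  (add (add (add (sub (sub (sub (add (add (sub (sub (add (add C x18108) x18116) x18106) x18130) x18004) x18220) x17950) x19084) x15196) x616) x9364) x11552)
  (sub (sub (add (add (sub (sub (sub (add (add (sub (add (add (add (add C x18108) x18112) x18092) x18104) x18134) x18008) x18224) x17954) x19088) x15200) x620) x9368) x4992) x11554)
  (add (add (add (sub (sub (sub (sub (sub (add (add (sub C x18120) x18130) x18142) x18082) x18172) x17956) x19090) x15202) x622) x9370) x11558)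
  (add (add (add (sub (sub (sub (sub (sub (sub (sub C x18118) x18126) x18084) x18174) x17958) x19092) x15204) x624) x9372) x5000)
  (add (add (add (sub (sub (sub (sub (sub (sub (add (add C x18130) x18134) x18120) x18108) x18180) x17964) x19098) x15210) x630) x9378) x5006)
  (add (add (add (sub (sub (sub (sub (sub (add (add (add (add C x18126) x18134) x18118) x18142) x18112) x18184) x17968) x19102) x15214) x634) x9382) x11570)
  (sub (sub (add (add (sub (sub (sub (sub (sub (sub (add (add C x18126) x18130) x18140) x18116) x18188) x17972) x19106) x15218) x638) x9386) x5010) x11572)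
  (sub (sub (add (add (sub (sub (sub (sub (add (add (sub (sub C x18142) x18134) x18068) x18104) x18194) x17978) x19112) x15224) x644) x9392) x5016) x11578)
  (add (add (add (sub (sub (sub (sub (add (add (add (add (sub C x18140) x18118) x18130) x18070) x18106) x18196) x17980) x19114) x15226) x646) x9394) x11582)
  (add (add (add (sub (sub (add (add (sub (add (add (add (add (add (add C x18148) x18152) x18156) x18168) x18180) x18216) x18036) x17496) x17820) x19116) x15228) x648) x9396) x5024)
  (add (add (add (sub (sub (add (add (sub (add (add (sub (add (add C x18144) x18152) x18154) x18184) x18220) x18040) x17500) x17824) x19120) x15232) x652) x9400) x11588)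
  (sub (sub (add (add (sub (sub (add (add (sub (add (add (sub (add (add C x18144) x18148) x18164) x18188) x18224) x18044) x17504) x17828) x19124) x15236) x656) x9404) x5028) x11590)
  (add (add (add (sub (sub (add (add (sub (sub (sub (sub C x18156) x18148) x18172) x18046) x17506) x17830) x19126) x15238) x658) x9406) x11594)
  (add (add (add (sub (sub (add (add (sub (sub (add (add (sub C x18154) x18144) x18168) x18174) x18048) x17508) x17832) x19128) x15240) x660) x9408) x5036)
  (sub (sub (add (add (sub (sub (add (add (sub (sub (sub (sub C x18168) x18152) x18200) x18056) x17516) x17840) x19136) x15248) x668) x9416) x5040) x11602)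
  (add (add (add (sub (sub (add (add (sub (sub (add (add (sub C x18164) x18144) x18156) x18204) x18060) x17520) x17844) x19140) x15252) x672) x9420) x5048)
  (add (add (add (sub (sub (add (add (sub (sub (add (add (sub C x18174) x18184) x18196) x18154) x18118) x17524) x17848) x19144) x15256) x676) x9424) x11612)
  (add (add (add (sub (sub (add (add (sub (sub (sub (sub C x18172) x18180) x18156) x18120) x17526) x17850) x19146) x15258) x678) x9426) x5054)
  (add (add (add (sub (sub (add (add (sub (add (add (sub (add (add C x18184) x18188) x18174) x18144) x18216) x18126) x17532) x17856) x19152) x15264) x684) x9432) x5060)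
  (add (add (add (sub (sub (add (add (sub (add (add (add (add (add (add C x18180) x18188) x18172) x18196) x18148) x18220) x18130) x17536) x17860) x19156) x15268) x688) x9436) x11624)
  (sub (sub (add (add (sub (sub (add (add (sub (add (add (sub (add (add C x18180) x18184) x18194) x18152) x18224) x18134) x17540) x17864) x19160) x15272) x692) x9440) x5064) x11626)
  (sub (sub (add (add (sub (sub (add (add (sub (sub (sub (sub C x18196) x18188) x18212) x18140) x17546) x17870) x19166) x15278) x698) x9446) x5070) x11632)
  (add (add (add (sub (sub (add (add (sub (sub (add (add (sub C x18194) x18172) x18184) x18214) x18142) x17548) x17872) x19168) x15280) x700) x9448) x11636)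
  (sub (sub (add (add (sub (sub (add (add (add (add (sub (add (add (sub C x18204) x18212) x18224) x18164) x17984) x18092) x17552) x17876) x19172) x15284) x704) x9452) x5076) x11638)
  (add (add (add (sub (sub (add (add (add (add (sub (sub (sub C x18200) x18216) x18168) x17988) x18096) x17556) x17880) x19176) x15288) x708) x9456) x5084)
  (sub (sub (add (add (sub (sub (add (add (add (add (sub (add (add (sub C x18214) x18200) x18224) x18194) x17996) x18104) x17564) x17888) x19184) x15296) x716) x9464) x5088) x11650)
  (add (add (add (sub (sub (add (add (add (add (sub (sub (sub C x18212) x18220) x18196) x17998) x18106) x17566) x17890) x19186) x15298) x718) x9466) x11654)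
  (add (add (add (sub (sub (add (add (add (add (add (add (sub (add (add C x18220) x18224) x18204) x18144) x18180) x18000) x18108) x17568) x17892) x19188) x15300) x720) x9468) x5096)
  (add (add (add (sub (sub (add (add (add (add (add (add (sub (add (add C x18216) x18224) x18214) x18148) x18184) x18004) x18112) x17572) x17896) x19192) x15304) x724) x9472) x11660)
  (sub (sub (add (add (sub (sub (add (add (add (add (add (add (add (add (add (add C x18216) x18220) x18200) x18212) x18152) x18188) x18008) x18116) x17576) x17900) x19196) x15308) x728) x9476) x5100) x11662)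
  (add (add (add (sub (sub (add (add (add (add (add (add (add (add (sub C x18228) x18238) x18250) x18262) x18298) x18334) x18442) x18550) x18874) x17740) x16768) x730) x9478) x11666)
  (add (add (add (sub (sub (add (add (add (add (add (add (sub (sub C x18226) x18234) x18264) x18300) x18336) x18444) x18552) x18876) x17742) x16770) x732) x9480) x5108)
  (add (add (add (sub (sub (add (add (add (add (sub (sub (add (add C x18238) x18242) x18228) x18252) x18342) x18450) x18558) x18882) x17748) x16776) x738) x9486) x5114)
  (add (add (add (sub (sub (add (add (add (add (sub (add (add (add (add C x18234) x18242) x18226) x18250) x18256) x18346) x18454) x18562) x18886) x17752) x16780) x742) x9490) x11678)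
  (sub (sub (add (add (sub (sub (add (add (add (add (sub (sub (add (add C x18234) x18238) x18248) x18260) x18350) x18458) x18566) x18890) x17756) x16784) x746) x9494) x5118) x11680)
  (sub (sub (add (add (sub (sub (add (add (add (add (sub (sub (sub C x18250) x18242) x18284) x18356) x18464) x18572) x18896) x17762) x16790) x752) x9500) x5124) x11686)
  (add (add (add (sub (sub (add (add (add (add (sub (add (add (sub C x18248) x18226) x18238) x18286) x18358) x18466) x18574) x18898) x17764) x16792) x754) x9502) x11690)
  (add (add (add (sub (sub (add (add (sub (sub (add (add (add (add C x18256) x18260) x18264) x18276) x18234) x18306) x18576) x18900) x17766) x16794) x756) x9504) x5132)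
  (add (add (add (sub (sub (add (add (sub (sub (sub (add (add C x18252) x18260) x18262) x18238) x18310) x18580) x18904) x17770) x16798) x760) x9508) x11696)
  (sub (sub (add (add (sub (sub (add (add (sub (sub (sub (add (add C x18252) x18256) x18272) x18242) x18314) x18584) x18908) x17774) x16802) x764) x9512) x5136) x11698)
  (add (add (add (sub (sub (add (add (sub (add (add (sub (sub C x18264) x18256) x18226) x18298) x18316) x18586) x18910) x17776) x16804) x766) x9514) x11702)
  (add (add (add (sub (sub (add (add (sub (add (add (add (add (sub C x18262) x18252) x18276) x18228) x18300) x18318) x18588) x18912) x17778) x16806) x768) x9516) x5144)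
  (sub (sub (add (add (sub (sub (add (add (sub (sub (sub (sub C x18276) x18260) x18290) x18326) x18596) x18920) x17786) x16814) x776) x9524) x5148) x11710)
  (add (add (add (sub (sub (add (add (sub (sub (add (add (sub C x18272) x18252) x18264) x18294) x18330) x18600) x18924) x17790) x16818) x780) x9528) x5156)
  (sub (sub (add (add (sub (sub (add (add (sub (sub (sub (sub C x18286) x18290) x18248) x18392) x18608) x18932) x17798) x16826) x788) x9536) x5160) x11722)
  (add (add (add (sub (sub (add (add (sub (sub (sub (sub C x18284) x18298) x18250) x18394) x18610) x18934) x17800) x16828) x790) x9538) x11726)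
  (sub (sub (add (add (sub (sub (add (add (sub (sub (sub (sub C x18294) x18284) x18272) x18398) x18614) x18938) x17804) x16832) x794) x9542) x5166) x11728)
  (add (add (add (sub (sub (add (add (sub (sub (sub (sub C x18290) x18300) x18276) x18402) x18618) x18942) x17808) x16836) x798) x9546) x5174)
  (add (add (add (sub (sub (add (add (sub (add (add (sub (sub C x18300) x18286) x18226) x18262) x18406) x18622) x18946) x17812) x16840) x802) x9550) x11738)
  (add (add (add (sub (sub (add (add (sub (add (add (sub (sub C x18298) x18294) x18228) x18264) x18408) x18624) x18948) x17814) x16842) x804) x9552) x5180)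
  (add (add (add (sub (sub (sub (sub (add (add (add (add (add (add C x18310) x18314) x18318) x18330) x18342) x18378) x18252) x18468) x17820) x16848) x810) x9558) x5186)
  (add (add (add (sub (sub (sub (sub (add (add (sub (add (add C x18306) x18314) x18316) x18346) x18382) x18256) x18472) x17824) x16852) x814) x9562) x11750)
  (sub (sub (add (add (sub (sub (sub (sub (add (add (sub (add (add C x18306) x18310) x18326) x18350) x18386) x18260) x18476) x17828) x16856) x818) x9566) x5190) x11752)
  (add (add (add (sub (sub (sub (sub (sub (sub (sub C x18318) x18310) x18334) x18262) x18478) x17830) x16858) x820) x9568) x11756)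
  (add (add (add (sub (sub (sub (sub (sub (add (add (sub C x18316) x18306) x18330) x18336) x18264) x18480) x17832) x16860) x822) x9570) x5198)
  (sub (sub (add (add (sub (sub (sub (sub (sub (sub (sub C x18330) x18314) x18362) x18272) x18488) x17840) x16868) x830) x9578) x5202) x11764)
  (add (add (add (sub (sub (sub (sub (sub (add (add (sub C x18326) x18306) x18318) x18366) x18276) x18492) x17844) x16872) x834) x9582) x5210)
  (add (add (add (sub (sub (sub (add (add (sub (add (add (sub C x18336) x18346) x18358) x18316) x18226) x18442) x18496) x17848) x16876) x838) x9586) x11774)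
  (add (add (add (sub (sub (sub (add (add (sub (sub (sub C x18334) x18342) x18318) x18228) x18444) x18498) x17850) x16878) x840) x9588) x5216)
  (add (add (add (sub (sub (sub (add (add (add (add (sub (add (add C x18346) x18350) x18336) x18306) x18378) x18234) x18450) x18504) x17856) x16884) x846) x9594) x5222)
  (add (add (add (sub (sub (sub (add (add (add (add (add (add (add (add C x18342) x18350) x18334) x18358) x18310) x18382) x18238) x18454) x18508) x17860) x16888) x850) x9598) x11786)
  (sub (sub (add (add (sub (sub (sub (add (add (add (add (sub (add (add C x18342) x18346) x18356) x18314) x18386) x18242) x18458) x18512) x17864) x16892) x854) x9602) x5226) x11788)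
  (sub (sub (add (add (sub (sub (sub (add (add (sub (sub (sub C x18358) x18350) x18374) x18248) x18464) x18518) x17870) x16898) x860) x9608) x5232) x11794)
  (add (add (add (sub (sub (sub (add (add (sub (add (add (sub C x18356) x18334) x18346) x18376) x18250) x18466) x18520) x17872) x16900) x862) x9610) x11798)
  (sub (sub (add (add (sub (sub (sub (sub (sub (add (add (sub C x18366) x18374) x18386) x18326) x18416) x18524) x17876) x16904) x866) x9614) x5238) x11800)
  (add (add (add (sub (sub (sub (sub (sub (sub (sub C x18362) x18378) x18330) x18420) x18528) x17880) x16908) x870) x9618) x5246)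
  (sub (sub (add (add (sub (sub (sub (sub (sub (add (add (sub C x18376) x18362) x18386) x18356) x18428) x18536) x17888) x16916) x878) x9626) x5250) x11812)
  (add (add (add (sub (sub (sub (sub (sub (sub (sub C x18374) x18382) x18358) x18430) x18538) x17890) x16918) x880) x9628) x11816)
  (add (add (add (sub (sub (sub (sub (add (add (sub (add (add C x18382) x18386) x18366) x18306) x18342) x18432) x18540) x17892) x16920) x882) x9630) x5258)
  (add (add (add (sub (sub (sub (sub (add (add (sub (add (add C x18378) x18386) x18376) x18310) x18346) x18436) x18544) x17896) x16924) x886) x9634) x11822)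
  (sub (sub (add (add (sub (sub (sub (sub (add (add (add (add (add (add C x18378) x18382) x18362) x18374) x18314) x18350) x18440) x18548) x17900) x16928) x890) x9638) x5262) x11824)
  (sub (sub (add (add (sub (sub (sub (sub (add (add (sub (sub C x18394) x18398) x18428) x18464) x18284) x18716) x17906) x16934) x896) x9644) x5268) x11830)
  (add (add (add (sub (sub (sub (sub (add (add (sub (sub C x18392) x18406) x18430) x18466) x18286) x18718) x17908) x16936) x898) x9646) x11834)
  (sub (sub (add (add (sub (sub (sub (sub (sub (sub (sub C x18402) x18392) x18416) x18290) x18722) x17912) x16940) x902) x9650) x5274) x11836)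
  (add (add (add (sub (sub (sub (sub (sub (sub (sub C x18398) x18408) x18420) x18294) x18726) x17916) x16944) x906) x9654) x5282)
  (add (add (add (sub (sub (sub (sub (sub (sub (sub C x18408) x18394) x18442) x18298) x18730) x17920) x16948) x910) x9658) x11846)
  (add (add (add (sub (sub (sub (sub (sub (sub (sub C x18406) x18402) x18444) x18300) x18732) x17922) x16950) x912) x9660) x5288)
  (sub (sub (add (add (sub (sub (sub (sub (sub (add (add (sub C x18420) x18428) x18440) x18398) x18362) x18740) x17930) x16958) x920) x9668) x5292) x11854)
  (add (add (add (sub (sub (sub (sub (sub (sub (sub C x18416) x18432) x18402) x18366) x18744) x17934) x16962) x924) x9672) x5300)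
  (sub (sub (add (add (sub (sub (sub (sub (add (add (add (add (sub C x18430) x18416) x18440) x18392) x18464) x18374) x18752) x17942) x16970) x932) x9680) x5304) x11866)
  (add (add (add (sub (sub (sub (sub (add (add (sub (sub C x18428) x18436) x18394) x18466) x18376) x18754) x17944) x16972) x934) x9682) x11870)
  (add (add (add (sub (sub (sub (sub (sub (sub (add (add C x18436) x18440) x18420) x18450) x18378) x18756) x17946) x16974) x936) x9684) x5312)
  (add (add (add (sub (sub (sub (sub (sub (sub (add (add C x18432) x18440) x18430) x18454) x18382) x18760) x17950) x16978) x940) x9688) x11876)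
  (sub (sub (add (add (sub (sub (sub (sub (sub (add (add (add (add C x18432) x18436) x18416) x18428) x18458) x18386) x18764) x17954) x16982) x944) x9692) x5316) x11878)
  (add (add (add (sub (sub (sub (add (add (sub (add (add (sub C x18444) x18454) x18466) x18406) x18226) x18334) x18766) x17956) x16984) x946) x9694) x11882)
  (add (add (add (sub (sub (sub (add (add (sub (sub (sub C x18442) x18450) x18408) x18228) x18336) x18768) x17958) x16986) x948) x9696) x5324)
  (add (add (add (sub (sub (sub (add (add (sub (sub (add (add C x18454) x18458) x18444) x18432) x18234) x18342) x18774) x17964) x16992) x954) x9702) x5330)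
  (add (add (add (sub (sub (sub (add (add (sub (add (add (add (add C x18450) x18458) x18442) x18466) x18436) x18238) x18346) x18778) x17968) x16996) x958) x9706) x11894)
  (sub (sub (add (add (sub (sub (sub (add (add (sub (sub (add (add C x18450) x18454) x18464) x18440) x18242) x18350) x18782) x17972) x17000) x962) x9710) x5334) x11896)
  (sub (sub (add (add (sub (sub (sub (add (add (add (add (sub (sub C x18466) x18458) x18392) x18428) x18248) x18356) x18788) x17978) x17006) x968) x9716) x5340) x11902)
  (add (add (add (sub (sub (sub (add (add (add (add (add (add (sub C x18464) x18442) x18454) x18394) x18430) x18250) x18358) x18790) x17980) x17008) x970) x9718) x11906)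
  (add (add (add (sub (add (add (sub (add (add (add (add (add (add (add (add C x18472) x18476) x18480) x18492) x18504) x18540) x18576) x18684) x18306) x17496) x19440) x17010) x972) x9720) x5348)
  (add (add (add (sub (add (add (sub (add (add (add (add (sub (add (add C x18468) x18476) x18478) x18508) x18544) x18580) x18688) x18310) x17500) x19444) x17014) x976) x9724) x11912)
  (sub (sub (add (add (sub (add (add (sub (add (add (add (add (sub (add (add C x18468) x18472) x18488) x18512) x18548) x18584) x18692) x18314) x17504) x19448) x17018) x980) x9728) x5352) x11914)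
  (add (add (add (sub (add (add (sub (add (add (sub (sub (sub C x18480) x18472) x18496) x18586) x18694) x18316) x17506) x19450) x17020) x982) x9730) x11918)
  (add (add (add (sub (add (add (sub (add (add (sub (add (add (sub C x18478) x18468) x18492) x18498) x18588) x18696) x18318) x17508) x19452) x17022) x984) x9732) x5360)
  (sub (sub (add (add (sub (add (add (sub (add (add (sub (sub (sub C x18492) x18476) x18524) x18596) x18704) x18326) x17516) x19460) x17030) x992) x9740) x5364) x11926)
  (add (add (add (sub (add (add (sub (add (add (sub (add (add (sub C x18488) x18468) x18480) x18528) x18600) x18708) x18330) x17520) x19464) x17034) x996) x9744) x5372)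
  (add (add (add (sub (add (add (sub (sub (sub (add (add (sub C x18498) x18508) x18520) x18478) x18550) x18334) x17524) x19468) x17038) x1000) x9748) x11936)
  (add (add (add (sub (add (add (sub (sub (sub (sub (sub C x18496) x18504) x18480) x18552) x18336) x17526) x19470) x17040) x1002) x9750) x5378)
  (add (add (add (sub (add (add (sub (sub (add (add (sub (add (add C x18508) x18512) x18498) x18468) x18540) x18558) x18342) x17532) x19476) x17046) x1008) x9756) x5384)
  (add (add (add (sub (add (add (sub (sub (add (add (add (add (add (add C x18504) x18512) x18496) x18520) x18472) x18544) x18562) x18346) x17536) x19480) x17050) x1012) x9760) x11948)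
  (sub (sub (add (add (sub (add (add (sub (sub (add (add (sub (add (add C x18504) x18508) x18518) x18476) x18548) x18566) x18350) x17540) x19484) x17054) x1016) x9764) x5388) x11950)
  (sub (sub (add (add (sub (add (add (sub (sub (sub (sub (sub C x18520) x18512) x18536) x18572) x18356) x17546) x19490) x17060) x1022) x9770) x5394) x11956)
  (add (add (add (sub (add (add (sub (sub (sub (add (add (sub C x18518) x18496) x18508) x18538) x18574) x18358) x17548) x19492) x17062) x1024) x9772) x11960)
  (sub (sub (add (add (sub (add (add (sub (sub (sub (add (add (sub C x18528) x18536) x18548) x18488) x18632) x18362) x17552) x19496) x17066) x1028) x9776) x5400) x11962)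
  (add (add (add (sub (add (add (sub (sub (sub (sub (sub C x18524) x18540) x18492) x18636) x18366) x17556) x19500) x17070) x1032) x9780) x5408)
  (sub (sub (add (add (sub (add (add (sub (sub (sub (add (add (sub C x18538) x18524) x18548) x18518) x18644) x18374) x17564) x19508) x17078) x1040) x9788) x5412) x11974)
  (add (add (add (sub (add (add (sub (sub (sub (sub (sub C x18536) x18544) x18520) x18646) x18376) x17566) x19510) x17080) x1042) x9790) x11978)
  (add (add (add (sub (add (add (sub (sub (add (add (sub (add (add C x18544) x18548) x18528) x18468) x18504) x18648) x18378) x17568) x19512) x17082) x1044) x9792) x5420)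
  (add (add (add (sub (add (add (sub (sub (add (add (sub (add (add C x18540) x18548) x18538) x18472) x18508) x18652) x18382) x17572) x19516) x17086) x1048) x9796) x11984)
  (sub (sub (add (add (sub (add (add (sub (sub (add (add (add (add (add (add C x18540) x18544) x18524) x18536) x18476) x18512) x18656) x18386) x17576) x19520) x17090) x1052) x9800) x5424) x11986)
  (add (add (add (sub (add (add (add (add (sub (add (add (add (add (sub C x18552) x18562) x18574) x18586) x18622) x18496) x18226) x18874) x17578) x19522) x17092) x1054) x9802) x11990)
  (add (add (add (sub (add (add (add (add (sub (add (add (sub (sub C x18550) x18558) x18588) x18624) x18498) x18228) x18876) x17580) x19524) x17094) x1056) x9804) x5432)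
  (add (add (add (sub (add (add (add (add (sub (sub (sub (add (add C x18562) x18566) x18552) x18576) x18504) x18234) x18882) x17586) x19530) x17100) x1062) x9810) x5438)
  (add (add (add (sub (add (add (add (add (sub (sub (add (add (add (add C x18558) x18566) x18550) x18574) x18580) x18508) x18238) x18886) x17590) x19534) x17104) x1066) x9814) x12002)
  (sub (sub (add (add (sub (add (add (add (add (sub (sub (sub (add (add C x18558) x18562) x18572) x18584) x18512) x18242) x18890) x17594) x19538) x17108) x1070) x9818) x5442) x12004)
  (sub (sub (add (add (sub (add (add (add (add (sub (sub (sub (sub C x18574) x18566) x18608) x18518) x18248) x18896) x17600) x19544) x17114) x1076) x9824) x5448) x12010)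
  (add (add (add (sub (add (add (add (add (sub (sub (add (add (sub C x18572) x18550) x18562) x18610) x18520) x18250) x18898) x17602) x19546) x17116) x1078) x9826) x12014)
  (add (add (add (sub (add (add (add (add (add (add (sub (add (add (add (add C x18580) x18584) x18588) x18600) x18558) x18468) x18684) x18252) x18900) x17604) x19548) x17118) x1080) x9828) x5456)
  (add (add (add (sub (add (add (add (add (add (add (sub (sub (add (add C x18576) x18584) x18586) x18562) x18472) x18688) x18256) x18904) x17608) x19552) x17122) x1084) x9832) x12020)
  (sub (sub (add (add (sub (add (add (add (add (add (add (sub (sub (add (add C x18576) x18580) x18596) x18566) x18476) x18692) x18260) x18908) x17612) x19556) x17126) x1088) x9836) x5460) x12022)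
  (add (add (add (sub (add (add (add (add (add (add (add (add (sub (sub C x18588) x18580) x18550) x18622) x18478) x18694) x18262) x18910) x17614) x19558) x17128) x1090) x9838) x12026)
  (add (add (add (sub (add (add (add (add (add (add (add (add (add (add (sub C x18586) x18576) x18600) x18552) x18624) x18480) x18696) x18264) x18912) x17616) x19560) x17130) x1092) x9840) x5468)
  (sub (sub (add (add (sub (add (add (add (add (add (add (sub (sub (sub C x18600) x18584) x18614) x18488) x18704) x18272) x18920) x17624) x19568) x17138) x1100) x9848) x5472) x12034)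
  (add (add (add (sub (add (add (add (add (add (add (sub (add (add (sub C x18596) x18576) x18588) x18618) x18492) x18708) x18276) x18924) x17628) x19572) x17142) x1104) x9852) x5480)
  (sub (sub (add (add (sub (add (add (add (add (sub (sub (sub (sub C x18610) x18614) x18572) x18662) x18284) x18932) x17636) x19580) x17150) x1112) x9860) x5484) x12046)
  (add (add (add (sub (add (add (add (add (sub (sub (sub (sub C x18608) x18622) x18574) x18664) x18286) x18934) x17638) x19582) x17152) x1114) x9862) x12050)
  (sub (sub (add (add (sub (add (add (add (add (sub (sub (sub (sub C x18618) x18608) x18596) x18668) x18290) x18938) x17642) x19586) x17156) x1118) x9866) x5490) x12052)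
  (add (add (add (sub (add (add (add (add (sub (sub (sub (sub C x18614) x18624) x18600) x18672) x18294) x18942) x17646) x19590) x17160) x1122) x9870) x5498)
  (add (add (add (sub (add (add (add (add (sub (add (add (sub (sub C x18624) x18610) x18550) x18586) x18676) x18298) x18946) x17650) x19594) x17164) x1126) x9874) x12062)
  (add (add (add (sub (add (add (add (add (sub (add (add (sub (sub C x18622) x18618) x18552) x18588) x18678) x18300) x18948) x17652) x19596) x17166) x1128) x9876) x5504)
  (sub (sub (add (add (sub (add (add (sub (sub (add (add (add (add (sub C x18636) x18644) x18656) x18668) x18704) x18524) x18794) x17660) x19604) x17174) x1136) x9884) x5508) x12070)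
  (add (add (add (sub (add (add (sub (sub (add (add (sub (sub C x18632) x18648) x18672) x18708) x18528) x18798) x17664) x19608) x17178) x1140) x9888) x5516)
  (sub (sub (add (add (sub (add (add (sub (sub (sub (add (add (sub C x18646) x18632) x18656) x18662) x18536) x18806) x17672) x19616) x17186) x1148) x9896) x5520) x12082)
  (add (add (add (sub (add (add (sub (sub (sub (sub (sub C x18644) x18652) x18664) x18538) x18808) x17674) x19618) x17188) x1150) x9898) x12086)
  (add (add (add (sub (add (add (sub (sub (sub (sub (add (add C x18652) x18656) x18636) x18684) x18540) x18810) x17676) x19620) x17190) x1152) x9900) x5528)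
  (add (add (add (sub (add (add (sub (sub (sub (sub (add (add C x18648) x18656) x18646) x18688) x18544) x18814) x17680) x19624) x17194) x1156) x9904) x12092)
  (sub (sub (add (add (sub (add (add (sub (sub (sub (add (add (add (add C x18648) x18652) x18632) x18644) x18692) x18548) x18818) x17684) x19628) x17198) x1160) x9908) x5532) x12094)
  (sub (sub (add (add (sub (add (add (sub (sub (sub (sub (sub C x18664) x18668) x18644) x18608) x18824) x17690) x19634) x17204) x1166) x9914) x5538) x12100)
  (add (add (add (sub (add (add (sub (sub (sub (sub (sub C x18662) x18676) x18646) x18610) x18826) x17692) x19636) x17206) x1168) x9916) x12104)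
  (sub (sub (add (add (sub (add (add (sub (sub (add (add (sub (sub C x18672) x18662) x18632) x18704) x18614) x18830) x17696) x19640) x17210) x1172) x9920) x5544) x12106)
  (add (add (add (sub (add (add (sub (sub (add (add (sub (sub C x18668) x18678) x18636) x18708) x18618) x18834) x17700) x19644) x17214) x1176) x9924) x5552)
  (add (add (add (sub (add (add (sub (sub (sub (sub (sub C x18678) x18664) x18694) x18622) x18838) x17704) x19648) x17218) x1180) x9928) x12116)
  (add (add (add (sub (add (add (sub (sub (sub (sub (sub C x18676) x18672) x18696) x18624) x18840) x17706) x19650) x17220) x1182) x9930) x5558)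
  (add (add (add (sub (add (add (sub (add (add (sub (add (add (add (add C x18688) x18692) x18696) x18708) x18648) x18468) x18576) x18846) x17712) x19656) x17226) x1188) x9936) x5564)
  (add (add (add (sub (add (add (sub (add (add (sub (sub (add (add C x18684) x18692) x18694) x18652) x18472) x18580) x18850) x17716) x19660) x17230) x1192) x9940) x12128)
  (sub (sub (add (add (sub (add (add (sub (add (add (sub (sub (add (add C x18684) x18688) x18704) x18656) x18476) x18584) x18854) x17720) x19664) x17234) x1196) x9944) x5568) x12130)
  (add (add (add (sub (add (add (sub (add (add (sub (sub (sub C x18696) x18688) x18676) x18478) x18586) x18856) x17722) x19666) x17236) x1198) x9946) x12134)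
  (add (add (add (sub (add (add (sub (add (add (sub (add (add (sub C x18694) x18684) x18708) x18678) x18480) x18588) x18858) x17724) x19668) x17238) x1200) x9948) x5576)
  (sub (sub (add (add (sub (add (add (sub (add (add (add (add (sub (sub C x18708) x18692) x18632) x18668) x18488) x18596) x18866) x17732) x19676) x17246) x1208) x9956) x5580) x12142)
  (add (add (add (sub (add (add (sub (add (add (add (add (add (add (sub C x18704) x18684) x18696) x18636) x18672) x18492) x18600) x18870) x17736) x19680) x17250) x1212) x9960) x5588)
  (sub (sub (add (add (sub (sub (sub (add (add (add (add (sub (sub C x18718) x18722) x18752) x18788) x18824) x18932) x18392) x19202) x17258) x1220) x9968) x5592) x12154)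
  (add (add (add (sub (sub (sub (add (add (add (add (sub (sub C x18716) x18730) x18754) x18790) x18826) x18934) x18394) x19204) x17260) x1222) x9970) x12158)
  (sub (sub (add (add (sub (sub (sub (add (add (sub (sub (sub C x18726) x18716) x18740) x18830) x18938) x18398) x19208) x17264) x1226) x9974) x5598) x12160)
  (add (add (add (sub (sub (sub (add (add (sub (sub (sub C x18722) x18732) x18744) x18834) x18942) x18402) x19212) x17268) x1230) x9978) x5606)
  (add (add (add (sub (sub (sub (add (add (sub (sub (sub C x18732) x18718) x18766) x18838) x18946) x18406) x19216) x17272) x1234) x9982) x12170)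
  (add (add (add (sub (sub (sub (add (add (sub (sub (sub C x18730) x18726) x18768) x18840) x18948) x18408) x19218) x17274) x1236) x9984) x5612)
  (sub (sub (add (add (sub (sub (sub (sub (sub (add (add (sub C x18744) x18752) x18764) x18722) x18794) x18416) x19226) x17282) x1244) x9992) x5616) x12178)
  (add (add (add (sub (sub (sub (sub (sub (sub (sub C x18740) x18756) x18726) x18798) x18420) x19230) x17286) x1248) x9996) x5624)
  (sub (sub (add (add (sub (sub (sub (sub (add (add (add (add (sub C x18754) x18740) x18764) x18716) x18788) x18806) x18428) x19238) x17294) x1256) x10004) x5628) x12190)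
  (add (add (add (sub (sub (sub (sub (add (add (sub (sub C x18752) x18760) x18718) x18790) x18808) x18430) x19240) x17296) x1258) x10006) x12194)
  (add (add (add (sub (sub (sub (sub (sub (sub (add (add C x18760) x18764) x18744) x18774) x18810) x18432) x19242) x17298) x1260) x10008) x5636)
  (add (add (add (sub (sub (sub (sub (sub (sub (add (add C x18756) x18764) x18754) x18778) x18814) x18436) x19246) x17302) x1264) x10012) x12200)
  (sub (sub (add (add (sub (sub (sub (sub (sub (add (add (add (add C x18756) x18760) x18740) x18752) x18782) x18818) x18440) x19250) x17306) x1268) x10016) x5640) x12202)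
  (add (add (add (sub (sub (sub (sub (sub (add (add (sub C x18768) x18778) x18790) x18730) x18874) x18442) x19252) x17308) x1270) x10018) x12206)
  (add (add (add (sub (sub (sub (sub (sub (sub (sub C x18766) x18774) x18732) x18876) x18444) x19254) x17310) x1272) x10020) x5648)
  (add (add (add (sub (sub (sub (sub (sub (sub (add (add C x18778) x18782) x18768) x18756) x18882) x18450) x19260) x17316) x1278) x10026) x5654)
  (add (add (add (sub (sub (sub (sub (sub (add (add (add (add C x18774) x18782) x18766) x18790) x18760) x18886) x18454) x19264) x17320) x1282) x10030) x12218)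
  (sub (sub (add (add (sub (sub (sub (sub (sub (sub (add (add C x18774) x18778) x18788) x18764) x18890) x18458) x19268) x17324) x1286) x10034) x5658) x12220)
  (sub (sub (add (add (sub (sub (sub (sub (add (add (sub (sub C x18790) x18782) x18716) x18752) x18896) x18464) x19274) x17330) x1292) x10040) x5664) x12226)
  (add (add (add (sub (sub (sub (sub (add (add (add (add (sub C x18788) x18766) x18778) x18718) x18754) x18898) x18466) x19276) x17332) x1294) x10042) x12230)
  (sub (sub (add (add (sub (sub (sub (sub (add (add (add (add (sub C x18798) x18806) x18818) x18830) x18866) x18740) x18632) x19280) x17336) x1298) x10046) x5670) x12232)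
  (add (add (add (sub (sub (sub (sub (add (add (sub (sub C x18794) x18810) x18834) x18870) x18744) x18636) x19284) x17340) x1302) x10050) x5678)
  (sub (sub (add (add (sub (sub (sub (sub (sub (add (add (sub C x18808) x18794) x18818) x18824) x18752) x18644) x19292) x17348) x1310) x10058) x5682) x12244)
  (add (add (add (sub (sub (sub (sub (sub (sub (sub C x18806) x18814) x18826) x18754) x18646) x19294) x17350) x1312) x10060) x12248)
  (add (add (add (sub (sub (sub (sub (sub (sub (add (add C x18814) x18818) x18798) x18846) x18756) x18648) x19296) x17352) x1314) x10062) x5690)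
  (add (add (add (sub (sub (sub (sub (sub (sub (add (add C x18810) x18818) x18808) x18850) x18760) x18652) x19300) x17356) x1318) x10066) x12254)
  (sub (sub (add (add (sub (sub (sub (sub (sub (add (add (add (add C x18810) x18814) x18794) x18806) x18854) x18764) x18656) x19304) x17360) x1322) x10070) x5694) x12256)
  (sub (sub (add (add (sub (sub (sub (add (add (sub (sub (sub C x18826) x18830) x18806) x18716) x18932) x18662) x19310) x17366) x1328) x10076) x5700) x12262)
  (add (add (add (sub (sub (sub (add (add (sub (sub (sub C x18824) x18838) x18808) x18718) x18934) x18664) x19312) x17368) x1330) x10078) x12266)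
  (sub (sub (add (add (sub (sub (sub (add (add (add (add (sub (sub C x18834) x18824) x18794) x18866) x18722) x18938) x18668) x19316) x17372) x1334) x10082) x5706) x12268)
  (add (add (add (sub (sub (sub (add (add (add (add (sub (sub C x18830) x18840) x18798) x18870) x18726) x18942) x18672) x19320) x17376) x1338) x10086) x5714)
  (add (add (add (sub (sub (sub (add (add (sub (sub (sub C x18840) x18826) x18856) x18730) x18946) x18676) x19324) x17380) x1342) x10090) x12278)
  (add (add (add (sub (sub (sub (add (add (sub (sub (sub C x18838) x18834) x18858) x18732) x18948) x18678) x19326) x17382) x1344) x10092) x5720)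
  (add (add (add (sub (sub (sub (sub (sub (add (add (add (add C x18850) x18854) x18858) x18870) x18810) x18900) x18684) x19332) x17388) x1350) x10098) x5726)
  (add (add (add (sub (sub (sub (sub (sub (sub (add (add C x18846) x18854) x18856) x18814) x18904) x18688) x19336) x17392) x1354) x10102) x12290)
  (sub (sub (add (add (sub (sub (sub (sub (sub (sub (add (add C x18846) x18850) x18866) x18818) x18908) x18692) x19340) x17396) x1358) x10106) x5730) x12292)
  (add (add (add (sub (sub (sub (sub (sub (sub (sub C x18858) x18850) x18838) x18910) x18694) x19342) x17398) x1360) x10108) x12296)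
  (add (add (add (sub (sub (sub (sub (sub (add (add (sub C x18856) x18846) x18870) x18840) x18912) x18696) x19344) x17400) x1362) x10110) x5738)
  (sub (sub (add (add (sub (sub (sub (sub (add (add (sub (sub C x18870) x18854) x18794) x18830) x18920) x18704) x19352) x17408) x1370) x10118) x5742) x12304)
  (add (add (add (sub (sub (sub (sub (add (add (add (add (sub C x18866) x18846) x18858) x18798) x18834) x18924) x18708) x19356) x17412) x1374) x10122) x5750)
  (add (add (add (sub (sub (add (add (sub (add (add (add (add (sub C x18876) x18886) x18898) x18910) x18946) x18766) x18226) x18550) x19360) x17416) x1378) x10126) x12314)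
  (add (add (add (sub (sub (add (add (sub (add (add (sub (sub C x18874) x18882) x18912) x18948) x18768) x18228) x18552) x19362) x17418) x1380) x10128) x5756)
  (add (add (add (sub (sub (add (add (sub (sub (sub (add (add C x18886) x18890) x18876) x18900) x18774) x18234) x18558) x19368) x17424) x1386) x10134) x5762)
  (add (add (add (sub (sub (add (add (sub (sub (add (add (add (add C x18882) x18890) x18874) x18898) x18904) x18778) x18238) x18562) x19372) x17428) x1390) x10138) x12326)
  (sub (sub (add (add (sub (sub (add (add (sub (sub (sub (add (add C x18882) x18886) x18896) x18908) x18782) x18242) x18566) x19376) x17432) x1394) x10142) x5766) x12328)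
  (sub (sub (add (add (sub (sub (add (add (sub (sub (sub (sub C x18898) x18890) x18932) x18788) x18248) x18572) x19382) x17438) x1400) x10148) x5772) x12334)
  (add (add (add (sub (sub (add (add (sub (sub (add (add (sub C x18896) x18874) x18886) x18934) x18790) x18250) x18574) x19384) x17440) x1402) x10150) x12338)
  (add (add (add (sub (sub (add (add (sub (sub (add (add (add (add C x18904) x18908) x18912) x18924) x18882) x18846) x18252) x18576) x19386) x17442) x1404) x10152) x5780)
  (add (add (add (sub (sub (add (add (sub (sub (sub (add (add C x18900) x18908) x18910) x18886) x18850) x18256) x18580) x19390) x17446) x1408) x10156) x12344)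
  (sub (sub (add (add (sub (sub (add (add (sub (sub (sub (add (add C x18900) x18904) x18920) x18890) x18854) x18260) x18584) x19394) x17450) x1412) x10160) x5784) x12346)
  (add (add (add (sub (sub (add (add (sub (add (add (sub (sub C x18912) x18904) x18874) x18946) x18856) x18262) x18586) x19396) x17452) x1414) x10162) x12350)
  (add (add (add (sub (sub (add (add (sub (add (add (add (add (sub C x18910) x18900) x18924) x18876) x18948) x18858) x18264) x18588) x19398) x17454) x1416) x10164) x5792)
  (sub (sub (add (add (sub (sub (add (add (sub (sub (sub (sub C x18924) x18908) x18938) x18866) x18272) x18596) x19406) x17462) x1424) x10172) x5796) x12358)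
  (add (add (add (sub (sub (add (add (sub (sub (add (add (sub C x18920) x18900) x18912) x18942) x18870) x18276) x18600) x19410) x17466) x1428) x10176) x5804)
  (sub (sub (add (add (sub (sub (add (add (add (add (sub (sub (sub C x18934) x18938) x18896) x18716) x18824) x18284) x18608) x19418) x17474) x1436) x10184) x5808) x12370)
  (add (add (add (sub (sub (add (add (add (add (sub (sub (sub C x18932) x18946) x18898) x18718) x18826) x18286) x18610) x19420) x17476) x1438) x10186) x12374)
  (sub (sub (add (add (sub (sub (add (add (add (add (sub (sub (sub C x18942) x18932) x18920) x18722) x18830) x18290) x18614) x19424) x17480) x1442) x10190) x5814) x12376)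
  (add (add (add (sub (sub (add (add (add (add (sub (sub (sub C x18938) x18948) x18924) x18726) x18834) x18294) x18618) x19428) x17484) x1446) x10194) x5822)
  (add (add (add (sub (sub (add (add (add (add (add (add (sub (sub C x18948) x18934) x18874) x18910) x18730) x18838) x18298) x18622) x19432) x17488) x1450) x10198) x12386)
  (add (add (add (sub (sub (add (add (add (add (add (add (sub (sub C x18946) x18942) x18876) x18912) x18732) x18840) x18300) x18624) x19434) x17490) x1452) x10200) x5828)
  (sub (sub (add (add (add (add (sub (add (add (add (add (add (add (add (add (sub C x18960) x18968) x18980) x18992) x19028) x19064) x19172) x19280) x19604) x17984) x13124) x16040) x1460) x10208) x5832) x12394)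
  (add (add (add (add (add (sub (add (add (add (add (add (add (sub (sub C x18956) x18972) x18996) x19032) x19068) x19176) x19284) x19608) x17988) x13128) x16044) x1464) x10212) x5840)
  (sub (sub (add (add (add (add (sub (add (add (add (add (sub (add (add (sub C x18970) x18956) x18980) x18986) x19076) x19184) x19292) x19616) x17996) x13136) x16052) x1472) x10220) x5844) x12406)
  (add (add (add (add (add (sub (add (add (add (add (sub (sub (sub C x18968) x18976) x18988) x19078) x19186) x19294) x19618) x17998) x13138) x16054) x1474) x10222) x12410)
  (add (add (add (add (add (sub (add (add (add (add (sub (sub (add (add C x18976) x18980) x18960) x19008) x19080) x19188) x19296) x19620) x18000) x13140) x16056) x1476) x10224) x5852)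
  (add (add (add (add (add (sub (add (add (add (add (sub (sub (add (add C x18972) x18980) x18970) x19012) x19084) x19192) x19300) x19624) x18004) x13144) x16060) x1480) x10228) x12416)
  (sub (sub (add (add (add (add (sub (add (add (add (add (sub (add (add (add (add C x18972) x18976) x18956) x18968) x19016) x19088) x19196) x19304) x19628) x18008) x13148) x16064) x1484) x10232) x5856) x12418)
  (sub (sub (add (add (add (add (sub (add (add (sub (sub (sub (sub C x18988) x18992) x18968) x19040) x19310) x19634) x18014) x13154) x16070) x1490) x10238) x5862) x12424)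
  (add (add (add (add (add (sub (add (add (sub (sub (sub (sub C x18986) x19000) x18970) x19042) x19312) x19636) x18016) x13156) x16072) x1492) x10240) x12428)
  (sub (sub (add (add (add (add (sub (add (add (sub (add (add (sub (sub C x18996) x18986) x18956) x19028) x19046) x19316) x19640) x18020) x13160) x16076) x1496) x10244) x5868) x12430)
  (add (add (add (add (add (sub (add (add (sub (add (add (sub (sub C x18992) x19002) x18960) x19032) x19050) x19320) x19644) x18024) x13164) x16080) x1500) x10248) x5876)
  (add (add (add (add (add (sub (add (add (sub (sub (sub (sub C x19002) x18988) x19018) x19054) x19324) x19648) x18028) x13168) x16084) x1504) x10252) x12440)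
  (add (add (add (add (add (sub (add (add (sub (sub (sub (sub C x19000) x18996) x19020) x19056) x19326) x19650) x18030) x13170) x16086) x1506) x10254) x5882)
  (add (add (add (add (add (sub (add (add (sub (sub (add (add (add (add C x19012) x19016) x19020) x19032) x18972) x19116) x19332) x19656) x18036) x13176) x16092) x1512) x10260) x5888)
  (add (add (add (add (add (sub (add (add (sub (sub (sub (add (add C x19008) x19016) x19018) x18976) x19120) x19336) x19660) x18040) x13180) x16096) x1516) x10264) x12452)
  (sub (sub (add (add (add (add (sub (add (add (sub (sub (sub (add (add C x19008) x19012) x19028) x18980) x19124) x19340) x19664) x18044) x13184) x16100) x1520) x10268) x5892) x12454)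
  (add (add (add (add (add (sub (add (add (sub (sub (sub (sub C x19020) x19012) x19000) x19126) x19342) x19666) x18046) x13186) x16102) x1522) x10270) x12458)
  (add (add (add (add (add (sub (add (add (sub (sub (add (add (sub C x19018) x19008) x19032) x19002) x19128) x19344) x19668) x18048) x13188) x16104) x1524) x10272) x5900)
  (sub (sub (add (add (add (add (sub (add (add (sub (add (add (sub (sub C x19032) x19016) x18956) x18992) x19136) x19352) x19676) x18056) x13196) x16112) x1532) x10280) x5904) x12466)
  (add (add (add (add (add (sub (add (add (sub (add (add (add (add (sub C x19028) x19008) x19020) x18960) x18996) x19140) x19356) x19680) x18060) x13200) x16116) x1536) x10284) x5912)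
  (sub (sub (add (add (add (add (sub (sub (sub (add (add (sub (sub C x19042) x19046) x19076) x19112) x18986) x19202) x18068) x13208) x16124) x1544) x10292) x5916) x12478)
  (add (add (add (add (add (sub (sub (sub (add (add (sub (sub C x19040) x19054) x19078) x19114) x18988) x19204) x18070) x13210) x16126) x1546) x10294) x12482)
  (sub (sub (add (add (add (add (sub (sub (sub (sub (sub (sub C x19050) x19040) x19064) x18992) x19208) x18074) x13214) x16130) x1550) x10298) x5922) x12484)
  (add (add (add (add (add (sub (sub (sub (sub (sub (sub C x19046) x19056) x19068) x18996) x19212) x18078) x13218) x16134) x1554) x10302) x5930)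
  (add (add (add (add (add (sub (sub (sub (sub (sub (sub C x19056) x19042) x19090) x19000) x19216) x18082) x13222) x16138) x1558) x10306) x12494)
  (add (add (add (add (add (sub (sub (sub (sub (sub (sub C x19054) x19050) x19092) x19002) x19218) x18084) x13224) x16140) x1560) x10308) x5936)
  (sub (sub (add (add (add (add (sub (sub (add (add (sub (add (add (sub C x19068) x19076) x19088) x19046) x18956) x19172) x19226) x18092) x13232) x16148) x1568) x10316) x5940) x12502)
  (add (add (add (add (add (sub (sub (add (add (sub (sub (sub C x19064) x19080) x19050) x18960) x19176) x19230) x18096) x13236) x16152) x1572) x10320) x5948)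
  (sub (sub (add (add (add (add (sub (sub (add (add (add (add (add (add (sub C x19078) x19064) x19088) x19040) x19112) x18968) x19184) x19238) x18104) x13244) x16160) x1580) x10328) x5952) x12514)
  (add (add (add (add (add (sub (sub (add (add (add (add (sub (sub C x19076) x19084) x19042) x19114) x18970) x19186) x19240) x18106) x13246) x16162) x1582) x10330) x12518)
  (add (add (add (add (add (sub (sub (add (add (sub (sub (add (add C x19084) x19088) x19068) x19098) x18972) x19188) x19242) x18108) x13248) x16164) x1584) x10332) x5960)
  (add (add (add (add (add (sub (sub (add (add (sub (sub (add (add C x19080) x19088) x19078) x19102) x18976) x19192) x19246) x18112) x13252) x16168) x1588) x10336) x12524)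
  (sub (sub (add (add (add (add (sub (sub (add (add (sub (add (add (add (add C x19080) x19084) x19064) x19076) x19106) x18980) x19196) x19250) x18116) x13256) x16172) x1592) x10340) x5964) x12526)
  (add (add (add (add (add (sub (sub (sub (sub (add (add (sub C x19092) x19102) x19114) x19054) x19144) x19252) x18118) x13258) x16174) x1594) x10342) x12530)
  (add (add (add (add (add (sub (sub (sub (sub (sub (sub C x19090) x19098) x19056) x19146) x19254) x18120) x13260) x16176) x1596) x10344) x5972)
  (add (add (add (add (add (sub (sub (sub (sub (sub (add (add C x19102) x19106) x19092) x19080) x19152) x19260) x18126) x13266) x16182) x1602) x10350) x5978)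
  (add (add (add (add (add (sub (sub (sub (sub (add (add (add (add C x19098) x19106) x19090) x19114) x19084) x19156) x19264) x18130) x13270) x16186) x1606) x10354) x12542)
  (sub (sub (add (add (add (add (sub (sub (sub (sub (sub (add (add C x19098) x19102) x19112) x19088) x19160) x19268) x18134) x13274) x16190) x1610) x10358) x5982) x12544)
  (sub (sub (add (add (add (add (sub (sub (sub (add (add (sub (sub C x19114) x19106) x19040) x19076) x19166) x19274) x18140) x13280) x16196) x1616) x10364) x5988) x12550)
  (add (add (add (add (add (sub (sub (sub (add (add (add (add (sub C x19112) x19090) x19102) x19042) x19078) x19168) x19276) x18142) x13282) x16198) x1618) x10366) x12554)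
  (add (add (add (add (add (sub (sub (sub (add (add (add (add (add (add C x19120) x19124) x19128) x19140) x19152) x19188) x19008) x19440) x18144) x13284) x16200) x1620) x10368) x5996)
  (add (add (add (add (add (sub (sub (sub (add (add (sub (add (add C x19116) x19124) x19126) x19156) x19192) x19012) x19444) x18148) x13288) x16204) x1624) x10372) x12560)
  (sub (sub (add (add (add (add (sub (sub (sub (add (add (sub (add (add C x19116) x19120) x19136) x19160) x19196) x19016) x19448) x18152) x13292) x16208) x1628) x10376) x6000) x12562)
  (add (add (add (add (add (sub (sub (sub (sub (sub (sub C x19128) x19120) x19144) x19018) x19450) x18154) x13294) x16210) x1630) x10378) x12566)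
  (add (add (add (add (add (sub (sub (sub (sub (add (add (sub C x19126) x19116) x19140) x19146) x19020) x19452) x18156) x13296) x16212) x1632) x10380) x6008)
  (sub (sub (add (add (add (add (sub (sub (sub (sub (sub (sub C x19140) x19124) x19172) x19028) x19460) x18164) x13304) x16220) x1640) x10388) x6012) x12574)
  (add (add (add (add (add (sub (sub (sub (sub (add (add (sub C x19136) x19116) x19128) x19176) x19032) x19464) x18168) x13308) x16224) x1644) x10392) x6020)
  (add (add (add (add (add (sub (sub (sub (sub (add (add (sub C x19146) x19156) x19168) x19126) x19090) x19468) x18172) x13312) x16228) x1648) x10396) x12584)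
  (add (add (add (add (add (sub (sub (sub (sub (sub (sub C x19144) x19152) x19128) x19092) x19470) x18174) x13314) x16230) x1650) x10398) x6026)
  (add (add (add (add (add (sub (sub (sub (add (add (sub (add (add C x19156) x19160) x19146) x19116) x19188) x19098) x19476) x18180) x13320) x16236) x1656) x10404) x6032)
  (add (add (add (add (add (sub (sub (sub (add (add (add (add (add (add C x19152) x19160) x19144) x19168) x19120) x19192) x19102) x19480) x18184) x13324) x16240) x1660) x10408) x12596)
  (sub (sub (add (add (add (add (sub (sub (sub (add (add (sub (add (add C x19152) x19156) x19166) x19124) x19196) x19106) x19484) x18188) x13328) x16244) x1664) x10412) x6036) x12598)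
  (sub (sub (add (add (add (add (sub (sub (sub (sub (sub (sub C x19168) x19160) x19184) x19112) x19490) x18194) x13334) x16250) x1670) x10418) x6042) x12604)
  (add (add (add (add (add (sub (sub (sub (sub (add (add (sub C x19166) x19144) x19156) x19186) x19114) x19492) x18196) x13336) x16252) x1672) x10420) x12608)
  (sub (sub (add (add (add (add (sub (sub (add (add (sub (add (add (sub C x19176) x19184) x19196) x19136) x18956) x19064) x19496) x18200) x13340) x16256) x1676) x10424) x6048) x12610)
  (add (add (add (add (add (sub (sub (add (add (sub (sub (sub C x19172) x19188) x19140) x18960) x19068) x19500) x18204) x13344) x16260) x1680) x10428) x6056)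
  (sub (sub (add (add (add (add (sub (sub (add (add (sub (add (add (sub C x19186) x19172) x19196) x19166) x18968) x19076) x19508) x18212) x13352) x16268) x1688) x10436) x6060) x12622)
  (add (add (add (add (add (sub (sub (add (add (sub (sub (sub C x19184) x19192) x19168) x18970) x19078) x19510) x18214) x13354) x16270) x1690) x10438) x12626)
  (add (add (add (add (add (sub (sub (add (add (add (add (sub (add (add C x19192) x19196) x19176) x19116) x19152) x18972) x19080) x19512) x18216) x13356) x16272) x1692) x10440) x6068)
  (add (add (add (add (add (sub (sub (add (add (add (add (sub (add (add C x19188) x19196) x19186) x19120) x19156) x18976) x19084) x19516) x18220) x13360) x16276) x1696) x10444) x12632)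
  (sub (sub (add (add (add (add (sub (sub (add (add (add (add (add (add (add (add C x19188) x19192) x19172) x19184) x19124) x19160) x18980) x19088) x19520) x18224) x13364) x16280) x1700) x10448) x6072) x12634)
  (sub (sub (add (add (add (add (sub (sub (add (add (add (add (sub (sub C x19204) x19208) x19238) x19274) x19310) x19418) x19040) x18716) x13370) x16286) x1706) x10454) x6078) x12640)
  (add (add (add (add (add (sub (sub (add (add (add (add (sub (sub C x19202) x19216) x19240) x19276) x19312) x19420) x19042) x18718) x13372) x16288) x1708) x10456) x12644)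
  (sub (sub (add (add (add (add (sub (sub (add (add (sub (sub (sub C x19212) x19202) x19226) x19316) x19424) x19046) x18722) x13376) x16292) x1712) x10460) x6084) x12646)
  (add (add (add (add (add (sub (sub (add (add (sub (sub (sub C x19208) x19218) x19230) x19320) x19428) x19050) x18726) x13380) x16296) x1716) x10464) x6092)
  (add (add (add (add (add (sub (sub (add (add (sub (sub (sub C x19218) x19204) x19252) x19324) x19432) x19054) x18730) x13384) x16300) x1720) x10468) x12656)
  (add (add (add (add (add (sub (sub (add (add (sub (sub (sub C x19216) x19212) x19254) x19326) x19434) x19056) x18732) x13386) x16302) x1722) x10470) x6098)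
  (sub (sub (add (add (add (add (sub (sub (sub (sub (add (add (sub C x19230) x19238) x19250) x19208) x19280) x19064) x18740) x13394) x16310) x1730) x10478) x6102) x12664)
  (add (add (add (add (add (sub (sub (sub (sub (sub (sub C x19226) x19242) x19212) x19284) x19068) x18744) x13398) x16314) x1734) x10482) x6110)
  (sub (sub (add (add (add (add (sub (sub (sub (add (add (add (add (sub C x19240) x19226) x19250) x19202) x19274) x19292) x19076) x18752) x13406) x16322) x1742) x10490) x6114) x12676)
  (add (add (add (add (add (sub (sub (sub (add (add (sub (sub C x19238) x19246) x19204) x19276) x19294) x19078) x18754) x13408) x16324) x1744) x10492) x12680)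
  (add (add (add (add (add (sub (sub (sub (sub (sub (add (add C x19246) x19250) x19230) x19260) x19296) x19080) x18756) x13410) x16326) x1746) x10494) x6122)
  (add (add (add (add (add (sub (sub (sub (sub (sub (add (add C x19242) x19250) x19240) x19264) x19300) x19084) x18760) x13414) x16330) x1750) x10498) x12686)
  (sub (sub (add (add (add (add (sub (sub (sub (sub (add (add (add (add C x19242) x19246) x19226) x19238) x19268) x19304) x19088) x18764) x13418) x16334) x1754) x10502) x6126) x12688)
  (add (add (add (add (add (sub (sub (sub (sub (add (add (sub C x19254) x19264) x19276) x19216) x19360) x19090) x18766) x13420) x16336) x1756) x10504) x12692)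
  (add (add (add (add (add (sub (sub (sub (sub (sub (sub C x19252) x19260) x19218) x19362) x19092) x18768) x13422) x16338) x1758) x10506) x6134)
  (add (add (add (add (add (sub (sub (sub (sub (sub (add (add C x19264) x19268) x19254) x19242) x19368) x19098) x18774) x13428) x16344) x1764) x10512) x6140)
  (add (add (add (add (add (sub (sub (sub (sub (add (add (add (add C x19260) x19268) x19252) x19276) x19246) x19372) x19102) x18778) x13432) x16348) x1768) x10516) x12704)
  (sub (sub (add (add (add (add (sub (sub (sub (sub (sub (add (add C x19260) x19264) x19274) x19250) x19376) x19106) x18782) x13436) x16352) x1772) x10520) x6144) x12706)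
  (sub (sub (add (add (add (add (sub (sub (sub (add (add (sub (sub C x19276) x19268) x19202) x19238) x19382) x19112) x18788) x13442) x16358) x1778) x10526) x6150) x12712)
  (add (add (add (add (add (sub (sub (sub (add (add (add (add (sub C x19274) x19252) x19264) x19204) x19240) x19384) x19114) x18790) x13444) x16360) x1780) x10528) x12716)
  (sub (sub (add (add (add (add (sub (add (add (sub (add (add (add (add (sub C x19284) x19292) x19304) x19316) x19352) x19226) x18956) x19604) x18794) x13448) x16364) x1784) x10532) x6156) x12718)
  (add (add (add (add (add (sub (add (add (sub (add (add (sub (sub C x19280) x19296) x19320) x19356) x19230) x18960) x19608) x18798) x13452) x16368) x1788) x10536) x6164)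
  (sub (sub (add (add (add (add (sub (add (add (sub (sub (add (add (sub C x19294) x19280) x19304) x19310) x19238) x18968) x19616) x18806) x13460) x16376) x1796) x10544) x6168) x12730)
  (add (add (add (add (add (sub (add (add (sub (sub (sub (sub C x19292) x19300) x19312) x19240) x18970) x19618) x18808) x13462) x16378) x1798) x10546) x12734)
  (add (add (add (add (add (sub (add (add (sub (sub (sub (add (add C x19300) x19304) x19284) x19332) x19242) x18972) x19620) x18810) x13464) x16380) x1800) x10548) x6176)
  (add (add (add (add (add (sub (add (add (sub (sub (sub (add (add C x19296) x19304) x19294) x19336) x19246) x18976) x19624) x18814) x13468) x16384) x1804) x10552) x12740)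
  (sub (sub (add (add (add (add (sub (add (add (sub (sub (add (add (add (add C x19296) x19300) x19280) x19292) x19340) x19250) x18980) x19628) x18818) x13472) x16388) x1808) x10556) x6180) x12742)
  (sub (sub (add (add (add (add (sub (add (add (add (add (sub (sub (sub C x19312) x19316) x19292) x19202) x19418) x18986) x19634) x18824) x13478) x16394) x1814) x10562) x6186) x12748)
  (add (add (add (add (add (sub (add (add (add (add (sub (sub (sub C x19310) x19324) x19294) x19204) x19420) x18988) x19636) x18826) x13480) x16396) x1816) x10564) x12752)
  (sub (sub (add (add (add (add (sub (add (add (add (add (add (add (sub (sub C x19320) x19310) x19280) x19352) x19208) x19424) x18992) x19640) x18830) x13484) x16400) x1820) x10568) x6192) x12754)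
  (add (add (add (add (add (sub (add (add (add (add (add (add (sub (sub C x19316) x19326) x19284) x19356) x19212) x19428) x18996) x19644) x18834) x13488) x16404) x1824) x10572) x6200)
  (add (add (add (add (add (sub (add (add (add (add (sub (sub (sub C x19326) x19312) x19342) x19216) x19432) x19000) x19648) x18838) x13492) x16408) x1828) x10576) x12764)
  (add (add (add (add (add (sub (add (add (add (add (sub (sub (sub C x19324) x19320) x19344) x19218) x19434) x19002) x19650) x18840) x13494) x16410) x1830) x10578) x6206)
  (add (add (add (add (add (sub (add (add (sub (sub (add (add (add (add C x19336) x19340) x19344) x19356) x19296) x19386) x19008) x19656) x18846) x13500) x16416) x1836) x10584) x6212)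
  (add (add (add (add (add (sub (add (add (sub (sub (sub (add (add C x19332) x19340) x19342) x19300) x19390) x19012) x19660) x18850) x13504) x16420) x1840) x10588) x12776)
  (sub (sub (add (add (add (add (sub (add (add (sub (sub (sub (add (add C x19332) x19336) x19352) x19304) x19394) x19016) x19664) x18854) x13508) x16424) x1844) x10592) x6216) x12778)
  (add (add (add (add (add (sub (add (add (sub (sub (sub (sub C x19344) x19336) x19324) x19396) x19018) x19666) x18856) x13510) x16426) x1846) x10594) x12782)
  (add (add (add (add (add (sub (add (add (sub (sub (add (add (sub C x19342) x19332) x19356) x19326) x19398) x19020) x19668) x18858) x13512) x16428) x1848) x10596) x6224)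
  (sub (sub (add (add (add (add (sub (add (add (sub (add (add (sub (sub C x19356) x19340) x19280) x19316) x19406) x19028) x19676) x18866) x13520) x16436) x1856) x10604) x6228) x12790)
  (add (add (add (add (add (sub (add (add (sub (add (add (add (add (sub C x19352) x19332) x19344) x19284) x19320) x19410) x19032) x19680) x18870) x13524) x16440) x1860) x10608) x6236)
  (add (add (add (add (add (sub (sub (sub (add (add (add (add (sub C x19362) x19372) x19384) x19396) x19432) x19252) x19522) x18874) x13528) x16444) x1864) x10612) x12800)
  (add (add (add (add (add (sub (sub (sub (add (add (sub (sub C x19360) x19368) x19398) x19434) x19254) x19524) x18876) x13530) x16446) x1866) x10614) x6242)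
  (add (add (add (add (add (sub (sub (sub (sub (sub (add (add C x19372) x19376) x19362) x19386) x19260) x19530) x18882) x13536) x16452) x1872) x10620) x6248)
  (add (add (add (add (add (sub (sub (sub (sub (add (add (add (add C x19368) x19376) x19360) x19384) x19390) x19264) x19534) x18886) x13540) x16456) x1876) x10624) x12812)
  (sub (sub (add (add (add (add (sub (sub (sub (sub (sub (add (add C x19368) x19372) x19382) x19394) x19268) x19538) x18890) x13544) x16460) x1880) x10628) x6252) x12814)
  (sub (sub (add (add (add (add (sub (sub (sub (sub (sub (sub C x19384) x19376) x19418) x19274) x19544) x18896) x13550) x16466) x1886) x10634) x6258) x12820)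
  (add (add (add (add (add (sub (sub (sub (sub (add (add (sub C x19382) x19360) x19372) x19420) x19276) x19546) x18898) x13552) x16468) x1888) x10636) x12824)
  (add (add (add (add (add (sub (sub (sub (sub (add (add (add (add C x19390) x19394) x19398) x19410) x19368) x19332) x19548) x18900) x13554) x16470) x1890) x10638) x6266)
  (add (add (add (add (add (sub (sub (sub (sub (sub (add (add C x19386) x19394) x19396) x19372) x19336) x19552) x18904) x13558) x16474) x1894) x10642) x12830)
  (sub (sub (add (add (add (add (sub (sub (sub (sub (sub (add (add C x19386) x19390) x19406) x19376) x19340) x19556) x18908) x13562) x16478) x1898) x10646) x6270) x12832)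
  (add (add (add (add (add (sub (sub (sub (add (add (sub (sub C x19398) x19390) x19360) x19432) x19342) x19558) x18910) x13564) x16480) x1900) x10648) x12836)
  (add (add (add (add (add (sub (sub (sub (add (add (add (add (sub C x19396) x19386) x19410) x19362) x19434) x19344) x19560) x18912) x13566) x16482) x1902) x10650) x6278)
  (sub (sub (add (add (add (add (sub (sub (sub (sub (sub (sub C x19410) x19394) x19424) x19352) x19568) x18920) x13574) x16490) x1910) x10658) x6282) x12844)
  (add (add (add (add (add (sub (sub (sub (sub (add (add (sub C x19406) x19386) x19398) x19428) x19356) x19572) x18924) x13578) x16494) x1914) x10662) x6290)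
  (sub (sub (add (add (add (add (sub (sub (add (add (sub (sub (sub C x19420) x19424) x19382) x19202) x19310) x19580) x18932) x13586) x16502) x1922) x10670) x6294) x12856)
  (add (add (add (add (add (sub (sub (add (add (sub (sub (sub C x19418) x19432) x19384) x19204) x19312) x19582) x18934) x13588) x16504) x1924) x10672) x12860)
  (sub (sub (add (add (add (add (sub (sub (add (add (sub (sub (sub C x19428) x19418) x19406) x19208) x19316) x19586) x18938) x13592) x16508) x1928) x10676) x6300) x12862)
  (add (add (add (add (add (sub (sub (add (add (sub (sub (sub C x19424) x19434) x19410) x19212) x19320) x19590) x18942) x13596) x16512) x1932) x10680) x6308)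
  (add (add (add (add (add (sub (sub (add (add (add (add (sub (sub C x19434) x19420) x19360) x19396) x19216) x19324) x19594) x18946) x13600) x16516) x1936) x10684) x12872)
  (add (add (add (add (add (sub (sub (add (add (add (add (sub (sub C x19432) x19428) x19362) x19398) x19218) x19326) x19596) x18948) x13602) x16518) x1938) x10686) x6314)
  (add (add (add (add (add (add (add (sub (add (add (add (add (add (add (add (add C x19444) x19448) x19452) x19464) x19476) x19512) x19548) x19656) x19116) x17496) x18468) x13608) x16524) x1944) x10692) x6320)
  (add (add (add (add (add (add (add (sub (add (add (add (add (sub (add (add C x19440) x19448) x19450) x19480) x19516) x19552) x19660) x19120) x17500) x18472) x13612) x16528) x1948) x10696) x12884)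
  (sub (sub (add (add (add (add (add (add (sub (add (add (add (add (sub (add (add C x19440) x19444) x19460) x19484) x19520) x19556) x19664) x19124) x17504) x18476) x13616) x16532) x1952) x10700) x6324) x12886)
  (add (add (add (add (add (add (add (sub (add (add (sub (sub (sub C x19452) x19444) x19468) x19558) x19666) x19126) x17506) x18478) x13618) x16534) x1954) x10702) x12890)
  (add (add (add (add (add (add (add (sub (add (add (sub (add (add (sub C x19450) x19440) x19464) x19470) x19560) x19668) x19128) x17508) x18480) x13620) x16536) x1956) x10704) x6332)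
  (sub (sub (add (add (add (add (add (add (sub (add (add (sub (sub (sub C x19464) x19448) x19496) x19568) x19676) x19136) x17516) x18488) x13628) x16544) x1964) x10712) x6336) x12898)
  (add (add (add (add (add (add (add (sub (add (add (sub (add (add (sub C x19460) x19440) x19452) x19500) x19572) x19680) x19140) x17520) x18492) x13632) x16548) x1968) x10716) x6344)
  (add (add (add (add (add (add (add (sub (sub (sub (add (add (sub C x19470) x19480) x19492) x19450) x19522) x19144) x17524) x18496) x13636) x16552) x1972) x10720) x12908)
  (add (add (add (add (add (add (add (sub (sub (sub (sub (sub C x19468) x19476) x19452) x19524) x19146) x17526) x18498) x13638) x16554) x1974) x10722) x6350)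
  (add (add (add (add (add (add (add (sub (sub (add (add (sub (add (add C x19480) x19484) x19470) x19440) x19512) x19530) x19152) x17532) x18504) x13644) x16560) x1980) x10728) x6356)
  (add (add (add (add (add (add (add (sub (sub (add (add (add (add (add (add C x19476) x19484) x19468) x19492) x19444) x19516) x19534) x19156) x17536) x18508) x13648) x16564) x1984) x10732) x12920)
  (sub (sub (add (add (add (add (add (add (sub (sub (add (add (sub (add (add C x19476) x19480) x19490) x19448) x19520) x19538) x19160) x17540) x18512) x13652) x16568) x1988) x10736) x6360) x12922)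
  (sub (sub (add (add (add (add (add (add (sub (sub (sub (sub (sub C x19492) x19484) x19508) x19544) x19166) x17546) x18518) x13658) x16574) x1994) x10742) x6366) x12928)
  (add (add (add (add (add (add (add (sub (sub (sub (add (add (sub C x19490) x19468) x19480) x19510) x19546) x19168) x17548) x18520) x13660) x16576) x1996) x10744) x12932)
  (sub (sub (add (add (add (add (add (add (sub (sub (sub (add (add (sub C x19500) x19508) x19520) x19460) x19604) x19172) x17552) x18524) x13664) x16580) x2000) x10748) x6372) x12934)
  (add (add (add (add (add (add (add (sub (sub (sub (sub (sub C x19496) x19512) x19464) x19608) x19176) x17556) x18528) x13668) x16584) x2004) x10752) x6380)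
  (sub (sub (add (add (add (add (add (add (sub (sub (sub (add (add (sub C x19510) x19496) x19520) x19490) x19616) x19184) x17564) x18536) x13676) x16592) x2012) x10760) x6384) x12946)
  (add (add (add (add (add (add (add (sub (sub (sub (sub (sub C x19508) x19516) x19492) x19618) x19186) x17566) x18538) x13678) x16594) x2014) x10762) x12950)
  (add (add (add (add (add (add (add (sub (sub (add (add (sub (add (add C x19516) x19520) x19500) x19440) x19476) x19620) x19188) x17568) x18540) x13680) x16596) x2016) x10764) x6392)
  (add (add (add (add (add (add (add (sub (sub (add (add (sub (add (add C x19512) x19520) x19510) x19444) x19480) x19624) x19192) x17572) x18544) x13684) x16600) x2020) x10768) x12956)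
  (sub (sub (add (add (add (add (add (add (sub (sub (add (add (add (add (add (add C x19512) x19516) x19496) x19508) x19448) x19484) x19628) x19196) x17576) x18548) x13688) x16604) x2024) x10772) x6396) x12958)
  (add (add (add (add (add (add (add (sub (sub (add (add (add (add (sub C x19524) x19534) x19546) x19558) x19594) x19468) x19360) x17578) x18550) x13690) x16606) x2026) x10774) x12962)
  (add (add (add (add (add (add (add (sub (sub (add (add (sub (sub C x19522) x19530) x19560) x19596) x19470) x19362) x17580) x18552) x13692) x16608) x2028) x10776) x6404)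
  (add (add (add (add (add (add (add (sub (sub (sub (sub (add (add C x19534) x19538) x19524) x19548) x19476) x19368) x17586) x18558) x13698) x16614) x2034) x10782) x6410)
  (add (add (add (add (add (add (add (sub (sub (sub (add (add (add (add C x19530) x19538) x19522) x19546) x19552) x19480) x19372) x17590) x18562) x13702) x16618) x2038) x10786) x12974)
  (sub (sub (add (add (add (add (add (add (sub (sub (sub (sub (add (add C x19530) x19534) x19544) x19556) x19484) x19376) x17594) x18566) x13706) x16622) x2042) x10790) x6414) x12976)
  (sub (sub (add (add (add (add (add (add (sub (sub (sub (sub (sub C x19546) x19538) x19580) x19490) x19382) x17600) x18572) x13712) x16628) x2048) x10796) x6420) x12982)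
  (add (add (add (add (add (add (add (sub (sub (sub (add (add (sub C x19544) x19522) x19534) x19582) x19492) x19384) x17602) x18574) x13714) x16630) x2050) x10798) x12986)
  (add (add (add (add (add (add (add (sub (add (add (sub (add (add (add (add C x19552) x19556) x19560) x19572) x19530) x19440) x19656) x19386) x17604) x18576) x13716) x16632) x2052) x10800) x6428)
  (add (add (add (add (add (add (add (sub (add (add (sub (sub (add (add C x19548) x19556) x19558) x19534) x19444) x19660) x19390) x17608) x18580) x13720) x16636) x2056) x10804) x12992)
  (sub (sub (add (add (add (add (add (add (sub (add (add (sub (sub (add (add C x19548) x19552) x19568) x19538) x19448) x19664) x19394) x17612) x18584) x13724) x16640) x2060) x10808) x6432) x12994)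
  (add (add (add (add (add (add (add (sub (add (add (add (add (sub (sub C x19560) x19552) x19522) x19594) x19450) x19666) x19396) x17614) x18586) x13726) x16642) x2062) x10810) x12998)
  (add (add (add (add (add (add (add (sub (add (add (add (add (add (add (sub C x19558) x19548) x19572) x19524) x19596) x19452) x19668) x19398) x17616) x18588) x13728) x16644) x2064) x10812) x6440)
  (sub (sub (add (add (add (add (add (add (sub (add (add (sub (sub (sub C x19572) x19556) x19586) x19460) x19676) x19406) x17624) x18596) x13736) x16652) x2072) x10820) x6444) x13006)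
  (add (add (add (add (add (add (add (sub (add (add (sub (add (add (sub C x19568) x19548) x19560) x19590) x19464) x19680) x19410) x17628) x18600) x13740) x16656) x2076) x10824) x6452)
  (sub (sub (add (add (add (add (add (add (sub (sub (sub (sub (sub C x19582) x19586) x19544) x19634) x19418) x17636) x18608) x13748) x16664) x2084) x10832) x6456) x13018)
  (add (add (add (add (add (add (add (sub (sub (sub (sub (sub C x19580) x19594) x19546) x19636) x19420) x17638) x18610) x13750) x16666) x2086) x10834) x13022)
  (sub (sub (add (add (add (add (add (add (sub (sub (sub (sub (sub C x19590) x19580) x19568) x19640) x19424) x17642) x18614) x13754) x16670) x2090) x10838) x6462) x13024)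
  (add (add (add (add (add (add (add (sub (sub (sub (sub (sub C x19586) x19596) x19572) x19644) x19428) x17646) x18618) x13758) x16674) x2094) x10842) x6470)
  (add (add (add (add (add (add (add (sub (sub (add (add (sub (sub C x19596) x19582) x19522) x19558) x19648) x19432) x17650) x18622) x13762) x16678) x2098) x10846) x13034)
  (add (add (add (add (add (add (add (sub (sub (add (add (sub (sub C x19594) x19590) x19524) x19560) x19650) x19434) x17652) x18624) x13764) x16680) x2100) x10848) x6476)
  (sub (sub (add (add (add (add (add (add (add (add (sub (add (add (add (add (sub C x19608) x19616) x19628) x19640) x19676) x19496) x18956) x19280) x17660) x18632) x13772) x16688) x2108) x10856) x6480) x13042)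
  (add (add (add (add (add (add (add (add (add (sub (add (add (sub (sub C x19604) x19620) x19644) x19680) x19500) x18960) x19284) x17664) x18636) x13776) x16692) x2112) x10860) x6488)
  (sub (sub (add (add (add (add (add (add (add (add (sub (sub (add (add (sub C x19618) x19604) x19628) x19634) x19508) x18968) x19292) x17672) x18644) x13784) x16700) x2120) x10868) x6492) x13054)
  (add (add (add (add (add (add (add (add (add (sub (sub (sub (sub C x19616) x19624) x19636) x19510) x18970) x19294) x17674) x18646) x13786) x16702) x2122) x10870) x13058)
  (add (add (add (add (add (add (add (add (add (sub (sub (sub (add (add C x19624) x19628) x19608) x19656) x19512) x18972) x19296) x17676) x18648) x13788) x16704) x2124) x10872) x6500)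
  (add (add (add (add (add (add (add (add (add (sub (sub (sub (add (add C x19620) x19628) x19618) x19660) x19516) x18976) x19300) x17680) x18652) x13792) x16708) x2128) x10876) x13064)
  (sub (sub (add (add (add (add (add (add (add (add (sub (sub (add (add (add (add C x19620) x19624) x19604) x19616) x19664) x19520) x18980) x19304) x17684) x18656) x13796) x16712) x2132) x10880) x6504) x13066)
  (sub (sub (add (add (add (add (add (add (add (add (sub (sub (sub (sub C x19636) x19640) x19616) x19580) x18986) x19310) x17690) x18662) x13802) x16718) x2138) x10886) x6510) x13072)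
  (add (add (add (add (add (add (add (add (add (sub (sub (sub (sub C x19634) x19648) x19618) x19582) x18988) x19312) x17692) x18664) x13804) x16720) x2140) x10888) x13076)
  (sub (sub (add (add (add (add (add (add (add (add (sub (add (add (sub (sub C x19644) x19634) x19604) x19676) x19586) x18992) x19316) x17696) x18668) x13808) x16724) x2144) x10892) x6516) x13078)
  (add (add (add (add (add (add (add (add (add (sub (add (add (sub (sub C x19640) x19650) x19608) x19680) x19590) x18996) x19320) x17700) x18672) x13812) x16728) x2148) x10896) x6524)
  (add (add (add (add (add (add (add (add (add (sub (sub (sub (sub C x19650) x19636) x19666) x19594) x19000) x19324) x17704) x18676) x13816) x16732) x2152) x10900) x13088)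
  (add (add (add (add (add (add (add (add (add (sub (sub (sub (sub C x19648) x19644) x19668) x19596) x19002) x19326) x17706) x18678) x13818) x16734) x2154) x10902) x6530)
  (add (add (add (add (add (add (add (add (add (add (add (sub (add (add (add (add C x19660) x19664) x19668) x19680) x19620) x19440) x19548) x19008) x19332) x17712) x18684) x13824) x16740) x2160) x10908) x6536)
  (add (add (add (add (add (add (add (add (add (add (add (sub (sub (add (add C x19656) x19664) x19666) x19624) x19444) x19552) x19012) x19336) x17716) x18688) x13828) x16744) x2164) x10912) x13100)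
  (sub (sub (add (add (add (add (add (add (add (add (add (add (sub (sub (add (add C x19656) x19660) x19676) x19628) x19448) x19556) x19016) x19340) x17720) x18692) x13832) x16748) x2168) x10916) x6540) x13102)
  (add (add (add (add (add (add (add (add (add (add (add (sub (sub (sub C x19668) x19660) x19648) x19450) x19558) x19018) x19342) x17722) x18694) x13834) x16750) x2170) x10918) x13106)
  (add (add (add (add (add (add (add (add (add (add (add (sub (add (add (sub C x19666) x19656) x19680) x19650) x19452) x19560) x19020) x19344) x17724) x18696) x13836) x16752) x2172) x10920) x6548)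
  (sub (sub (add (add (add (add (add (add (add (add (add (add (add (add (sub (sub C x19680) x19664) x19604) x19640) x19460) x19568) x19028) x19352) x17732) x18704) x13844) x16760) x2180) x10928) x6552) x13114)
  (add (add (add (add (add (add (add (add (add (add (add (add (add (add (add (sub C x19676) x19656) x19668) x19608) x19644) x19464) x19572) x19032) x19356) x17736) x18708) x13848) x16764) x2184) x10932) x6560))
  (chk [x0, x4, x8, x10, x20, x28, x40, x44, x50, x52, x56, x68,
  x80, x82, x94, x98, x104, x106, x112, x116, x128, x140, x142, x146,
  x164, x176, x188, x194, x224, x256, x260, x266, x268, x274, x278, x280,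
  x290, x302, x304, x308, x316, x328, x332, x344, x364, x368, x374, x376,
  x380, x392, x394, x400, x404, x410, x412, x416, x434, x446, x448, x458,
  x476, x482, x484, x500, x512, x518, x524, x548, x560, x572, x608, x620,
  x638, x644, x656, x692, x728, x760, x764, x776, x788, x814, x818, x820,
  x830, x850, x854, x860, x862, x866, x878, x880, x886, x890, x896, x898,
  x902, x910, x920, x932, x934, x940, x944, x958, x962, x968, x970, x992,
  x1012, x1016, x1022, x1024, x1028, x1040, x1042, x1048, x1052, x1066, x1070, x1076,
  x1078, x1088, x1100, x1112, x1114, x1118, x1148, x1150, x1156, x1160, x1166, x1168,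
  x1172, x1196, x1208, x1256, x1258, x1268, x1286, x1292, x1294, x1310, x1312, x1322,
  x1328, x1334, x1358, x1370, x1394, x1400, x1402, x1412, x1424, x1436, x1442, x1520,
  x1550, x1580, x1592, x1610, x1616, x1628, x1640, x1664, x1670, x1688, x1700, x1742,
  x1754, x1772, x1778, x1796, x1808, x1844, x1880, x1886, x1898, x1988, x2024, x2042,
  x2132, x2470, x2474, x2480, x2482, x2498, x2510, x2524, x2528, x2534, x2536, x2546,
  x2558, x2570, x2572, x2576, x2606, x2608, x2618, x2624, x2630, x2654, x2666, x2714,
  x2726, x2744, x2750, x2768, x2780, x2816, x2852, x3028, x3032, x3044, x3056, x3058,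
  x3062, x3092, x3104, x3110, x3140, x3206, x3218, x3260, x3280, x3284, x3290, x3292,
  x3308, x3310, x3316, x3320, x3362, x3364, x3370, x3374, x3388, x3392, x3398, x3400,
  x3464, x3476, x3524, x3526, x3532, x3536, x3554, x3560, x3562, x3584, x3608, x3614,
  x3616, x3632, x3634, x3640, x3644, x3788, x3800, x3824, x3830, x3832, x3842, x3854,
  x3868, x3872, x3950, x4010, x4012, x4022, x4040, x4046, x4048, x4070, x4094, x4100,
  x4102, x4118, x4120, x4130, x4232, x4256, x4262, x4264, x4280, x4292, x4334, x4346,
  x4364, x4370, x4372, x4928, x4940, x5048, x5468, x5480, x5498, x5504, x5552, x5558,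
  x5576, x5588, x5714, x5720, x5750, x5804, x5822, x5828, x6056, x6200, x6236, x6290,
  x6308, x6452, x6560])

noncomputable def RK : Nat := nat_lit 0x19a0193418a41892185c183817a816c416be16ac16761658165215d415c815b615b01580157a1568155c13b8134c134011141112110c10fa10ee10c410b810a810a610a01088102210181016100610040ffe0fe60fd00fce0fc80fb60fac0faa0f6e0f200f1c0f0e0f020ef80ef60ef00ed80ecc0e3c0e380e320e300e200e1e0e180e000dea0de80de20dd00dcc0dc60dc40d940d880d480d460d400d3c0d2e0d2a0d240d220cf80cf40cee0cec0cdc0cda0cd40cd00cbc0c920c860c440c260c200c140bf60bf20bf00be40bd80bd40b240b000adc0ad00abe0ab80aa60a9a0a6a0a5e0a460a400a3a0a300a2e0a100a0c0a0a09fe09f209e809e609e009dc09ce09c209b209b009aa09a6085407fa07e807c4076a075e075807340710070406f206ec06da06ce06a40698068606800668065c0650064a0638062c060e05f005a2059c05900584057a05780572055a054e05360530052a0520051e050e050c050604f404ea04e804b804ac04940490048e04880484047e047c045e045a0458044c044004360434042e042a041c0418041204100404040003fe03f803f403e003ca03c803c203be03b003ac03a603a40398038e038603820380037a03760370036e0362035e035c03560352033e03340332032e0314030802fc02f802d802b402900284027e026c0260023c02300224020c0206020001f401e401e201dc01ca01c001be01b201a0019c019a01940190018a0188017c017801760170016c0158014c0148013c01340130012e0122011801160112010c010a0104010000e000c200bc00b000a40092008e008c008000740070006a00680062005e005200500044003800340032002c0028001c0014000a000800040000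

noncomputable def CK : Nat := nat_lit 0x900090009001200120009000300090012001200120009001200120009001200120012001200120009001200090009000900120012001200120012001200090012001200090012000900120012001200120012001200120012001200090012001200120009001200090012001200120012001200120009001200120012001200120012001200120012001200090012001200120012001200120012000900120012001200120012001200120012001200120012000900090012001200090009001200120012000900120012000900030012001200120012001200120012001200120012001200120012001200120012001200120012001200120012001200120009000900090012001200090009000900120012001200090012001200120009001200120012001200120012001200120009000900120012001200120009001200120012001200120009001200120012001200120012001200090012001200120012001200120012001200120012001200120012000900120012001200120012001200120012001200120009001200120012001200120012001200120012000900120012001200120012001200120012001200090012001200120012001200120012001200120012001200120012000900090009001200120012001200090009000900090012001200090009000900120009001200120012000900120012001200090012001200120009001200120009001200120012001200120012000900120012000900090012001200120012000900120012001200120012001200090009001200120009001200090012001200120009001200120012001200090009000900090009001200120009000900090009000900090001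

noncomputable def H : Nat := nat_lit 0x847e000000000000849000000000000000000000000000006c0600007a700000849c0000000000006c2400000000000020160000000000000000000075ba00007a040000000000007f020000000000006c660000000000007a4600007a7c0000000000000000000084a80000000000007f2c000000000000460e000075e400006c3000000000000000000000000000004638000000000000204000000000000000000000000000007842000079980000000000008046000000000000761a00000000000081a800007a10000000000000000000000000000082ce0000000000007f620000000000000000000000000000617a0000653a00006c5a0000000000006bb800000000000015f6000079ce00007a3a000000000000000000007a8800000000000065040000000000002742000000000000000000002ce800001a58000084b400000000000083040000000000004b1e0000807c00007f3800000000000000000000000000007b36000000000000466e0000000000007878000075f0000000000000000000006c3c00000000000061b000000000000030f6000000000000000000004e7e00002d1e0000000000004b5400000000000046440000000000000000000000000000312c000027780000204c000000000000162c000000000000051600000000000000000000791a0000792c00000000000080b200000000000078a2000000000000813c000079a40000000000000000000000000000833a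00000000000080a60000000000000000000000000000632a000069060000760e0000000000006b4c00000000000018ea00008166000081b4000000000000000000007a1c00000000000064980000000000002b0e000000000000000000002c7c000019ec0000000000008412000000000000832e000000000000000000000000000067620000732600007f560000000000006ae00000000000001dfa000000000000000000007182000078c00000000000007c7a00000000000061da00000000000064c20000652e000000000000000000006c4e0000000000006b0a00000000000042ae00006b7600006bc4000000000000000000000000000038e200000000000016560000000000007956000079c2000000000000000000007a2e00000000000078ea00000000000039d20000000000000000000056160000411c00007a9400000000000072fc00000000000046e6000068dc000065100000000000000000000000000000559200000000000027a2000000000000000000000000000040da000041460000000000003b4c0000000000002cf40000000000001a1600001a640000000000000000000084ae00000000000084420000000000004bf60000837c0000831000000000000000000000000000007ba20000000000004b7e00000000000080f400008088000000000000000000007f440000000000007cbc000000000000367200000000000000000000538e00003b760000000000007be40000000000007b7800000000000000000000000000005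bfe000055680000466200000000000038b80000000000000afe0000795c000078840000000000000000000075fc00000000000071c40000000000003c5a0000000000000000000057c6000040b000006c4800000000000067a400000000000048960000636c000061bc00000000000000000000000000005c400000000000003156000000000000000000000000000058080000565800000000000053d00000000000004ec00000000000002ca600002d1200000000000000000000000000004c320000000000004b60000000000000000000000000000048d8000047280000465000000000000042f00000000000001b06000000000000000000003c9c00003a1400000000000036b400000000000031380000000000002b50000027840000000000000000000020580000000000001e3c0000000000001b480000192c0000163800000000000000000000000000000b4000000000000005580000000000000000000000000000798600007854000000000000811e000000000000797a00000000000080d000007938000000000000000000000000000083a600000000000081120000000000000000000000000000640200006ab6000078960000000000006a740000000000001956000083d0000081480000000000000000000079b0000000000000642c0000000000002be6000000000000000000002c10000019800000000000008340000000000000839a000000000000000000000000000067ce000074d60000809a0000000000006a080000000000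001e660000000000000000000071ee000077e80000000000007ce6000000000000638a000000000000688e000068fa000000000000000000007602000000000000752a000000000000431a0000757800006b5800000000000000000000000000003e5e000000000000194a00000000000080ee0000815a0000000000000000000081c00000000000007d880000000000003a3e0000000000000000000056820000404400007a280000000000007290000000000000475200006870000064a4000000000000000000000000000057240000000000002b6e000000000000000000000000000047f4000043bc0000000000003ae00000000000002c880000000000001f08000019f8000000000000000000000000000082d400000000000084240000000000000000000000000000697e0000777c00008322000000000000699c0000000000001faa00000000000000000000739e000077100000000000007dbe00000000000067c200000000000072ae0000731a000000000000000000007f4a0000000000007ec000000000000044ca0000750c00006aec000000000000000000000000000045cc0000000000001e5a00000000000000000000000000007692000076a40000000000007f6e00000000000071e20000000000007da6000078cc000000000000000000000000000082620000000000007cda00000000000000000000000000005ef20000602a000061ce000000000000616200000000000013020000644a000064b600000000000000000000652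200000000000063c0000000000000244e000000000000000000002ba40000143a00006c4200000000000069ba0000000000004ab200006a2600006afe0000000000000000000000000000694e000000000000430e0000000000006a9200006b6a000000000000000000006bd000000000000061440000000000002e02000000000000000000004cce00002586000000000000386a00000000000038d6000000000000000000000000000030c00000270c0000164a00000000000015c000000000000002fa000078720000794a0000000000000000000079b600000000000076c20000000000003e7600000000000000000000589e00003fd800007a22000000000000772e000000000000496e00007806000078de00000000000000000000000000006d320000000000003a3200000000000000000000000000006d4a000076380000000000006ffc000000000000567600000000000043da00004128000000000000000000007a8e000000000000779a0000000000004b8a000074b80000730800000000000000000000000000006e6400000000000047460000000000006a98000068e800000000000000000000651c000000000000600c00000000000031ce000000000000000000004f5600002f3a000000000000551a00000000000055860000000000000000000000000000507000004de800002796000000000000272a000000000000065a000000000000000000003eb200003ff60000000000003f1e00000000000040ce00000000000040620000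413a00000000000000000000000000003f8a0000000000003b58000000000000000000000000000032e800002f1c00002d0000000000000025680000000000000cae0000199e00001a0a000000000000000000001a70000000000000141c0000000000000dc800000000000000000000077400000414000084a200000000000082f20000000000004b300000835e0000843600000000000000000000000000007bc00000000000004c1400000000000083ca0000838800000000000000000000831c000000000000828600000000000038220000000000000000000054d200003f6c00000000000081f60000000000007c0200000000000000000000000000005cd6000054fc00004b72000000000000384c0000000000000bd60000816c000081000000000000000000000080940000000000007fbc0000000000003d9e00000000000000000000583200003f0000007f500000000000007e0c000000000000490200007d3400007cc80000000000000000000000000000660600000000000036d200000000000000000000000000006c720000701a0000000000006f9000000000000053ee0000000000003afe00003b6a00000000000000000000000000007bde0000000000007bf00000000000000000000000000000654600006e8200007b8400000000000069300000000000001c4a00000000000000000000703e00006d1400000000000065e80000000000005c5e00000000000057420000557400000000000000000000465600000000000045ea0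00000000000416a00003e40000038c400000000000000000000000000001cec0000000000000b5e00000000000079d40000796800000000000000000000789000000000000076e00000000000003fba0000000000000000000058bc00003e940000760800000000000073ec0000000000004a460000723c000071d00000000000000000000000000000708c0000000000003cba00000000000000000000000000006e8e00006d980000000000006cc000000000000058260000000000004812000040bc000000000000000000006c5400000000000069cc0000000000004ac40000681c000067b00000000000000000000000000000659400000000000048f60000000000006450000063780000000000000000000061c80000000000005f40000000000000331200000000000000000000509a000033060000000000005d1e0000000000005c4c000000000000000000000000000059760000508e0000314a00000000000030de000000000000080a0000000000000000000058da000058ec0000000000005880000000000000581400000000000056d0000056640000000000000000000000000000552000000000000053dc000000000000000000000000000050e800004fa400004ecc0000000000004d1c0000000000000e5e00002c2e00002c9a000000000000000000002d060000000000002bc200000000000020ee00000000000000000000111c000007920000000000004b4e0000000000004c2600000000000000000000000000004ae200004b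ba00004b6c0000000000004b000000000000001f3e000000000000000000004a94000049bc000000000000495000000000000048e400000000000047a00000473400000000000000000000465c000000000000451800000000000043f200004368000042fc000000000000000000000000000041b80000000000001b660000000000000000000000000000400800003ec40000000000003dec0000000000003ca80000000000003a8c00003a200000000000000000000000000000387000000000000036c0000000000000000000000000000033600000321c000031440000000000002e5000000000000011be00002c3400002b5c000000000000000000002790000000000000249c000000000000229e00000000000000000000213c00000de6000020520000000000001fe60000000000001f7a00001eb400001e4800000000000000000000000000001c980000000000001b5400000000000019a4000019380000000000000000000016440000000000001350000000000000120c000000000000000000000eac00000cfc0000000000000c1e0000000000000b4c00000000000000000000000000000858000006a800000564000000000000034800000000000000de0000000000000000000079f2000075cc000000000000818a00000000000079e600000000000080640000786000000000000000000000000000008124000000000000817e0000000000000000000000000000646e00006b8e0000796e00000000000068c400000000000019c2000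08364000080dc00000000000000000000794400000000000063540000000000002c52000000000000000000002b380000191400000000000080b800000000000083b80000000000000000000000000000683a000075600000810600000000000068580000000000001ed200000000000000000000725a000074f40000000000007d5200000000000064620000000000006a3e00006aaa00000000000000000000788a000000000000781e0000000000004386000074a000006a800000000000000000000000000000407a00000000000019b60000000000008376000083dc0000000000000000000081540000000000007d1c0000000000003aaa0000000000000000000056ee00003e28000079bc000000000000722400000000000047be0000680400006438000000000000000000000000000056b80000000000002c4600000000000000000000000000004788000043500000000000003a740000000000002c1c0000000000001e9c0000198c0000000000000000000000000000804c000000000000834c000000000000000000000000000069ea000074880000838e00000000000067ec0000000000001e8400000000000000000000740a0000741c0000000000007e2a000000000000682e000000000000745e000074ca00000000000000000000808e0000000000007e5400000000000045360000743400006a14000000000000000000000000000045600000000000001ec6000000000000000000000000000076fe000073b00000000000007fda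000000000000724e0000000000007e7e000077f400000000000000000000000000007f740000000000007d4600000000000000000000000000005f5e000061020000637e0000000000006312000000000000136e00006816000068820000000000000000000068ee00000000000062e800000000000024ba000000000000000000002acc0000157e000075f600000000000073da0000000000004a58000074460000751e0000000000000000000000000000736e000000000000437a00000000000074b200007584000000000000000000006b6400000000000060d80000000000002e6e000000000000000000004d3a000026ca0000000000003de60000000000003e5200000000000000000000000000003054000026a00000193e0000000000001554000000000000036600008076000080e200000000000000000000814e0000000000007f9e0000000000003ee200000000000000000000585000003dbc000081ba000000000000800a00000000000049da00007e6c00007d9400000000000000000000000000006f4e0000000000003a9e00000000000000000000000000006db6000073440000000000006f2400000000000056e2000000000000458a00004050000000000000000000007a34000000000000774000000000000049800000744c0000729c00000000000000000000000000006df800000000000047b20000000000006a2c0000687c0000000000000000000064b00000000000005fa0000000000000323a000000000000000000004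fc20000307e000000000000587a00000000000057300000000000000000000000000000500400004d7c00002b620000000000002af600000000000006c60000000000000000000049aa00004a820000000000004a1600000000000048000000000000004578000043c800000000000000000000000000003f240000000000003aec0000000000000000000000000000327c00002eb000002c9400000000000024fc0000000000000d1a00001eae00001f14000000000000000000001a0400000000000013b00000000000000d5c000000000000000000000708000003a80000000000007f0800000000000082e000000000000000000000000000006ac2000072d80000843000000000000067800000000000001e180000000000000000000074e20000726c0000000000007e9600000000000069de0000000000007752000077880000000000000000000083160000000000007de800000000000045a2000073c8000069a8000000000000000000000000000044f40000000000001fd4000000000000000000000000000077d6000072000000000000007e3000000000000073fe0000000000007ff80000771c00000000000000000000000000007dc40000000000007e1e00000000000000000000000000006036000062b2000067b6000000000000671400000000000014b200007236000072a200000000000000000000730e000000000000627c00000000000025fe000000000000000000002a60000018a800007f3e0000000000007dfa0000000000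00491400007e6600007ecc00000000000000000000000000007aca000000000000452a000000000000780c00007518000000000000000000006af8000000000000606c0000000000002fb2000000000000000000004e1200002a96000000000000494a00000000000045d800000000000000000000000000002fe80000263400001e4e00000000000014e800000000000004aa0000000000000000000078ae000071940000000000007d5800000000000076f20000000000007f8c000076b000000000000000000000000000007cec0000000000007fce000000000000000000000000000061e6000066ea000071d600000000000066a8000000000000181200007d2e00007d9a0000000000000000000078d8000000000000621000000000000029ca0000000000000000000029f40000183c0000000000007c8000000000000082740000000000000000000000000000661e0000712800007cce000000000000663c0000000000001d8e0000000000000000000070aa000070bc0000000000007c0e0000000000005f520000000000005fb20000601e0000000000000000000061c2000000000000607e0000000000004242000060ea00006156000000000000000000000000000033d2000000000000136200000000000063660000643e0000000000000000000064aa000000000000622200000000000038fa0000000000000000000055aa00003d5000006516000000000000628e000000000000467a000062fa000063cc00000000000000000000000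00000515a00000000000024ae000000000000000000000000000034320000350a000000000000349e0000000000002bb000000000000013c20000142e000000000000000000006c36000000000000679200000000000048a8000067fe000069ae000000000000000000000000000065760000000000004b12000000000000686a00006a1a000000000000000000006af2000000000000664e000000000000352e0000000000000000000052b6000039c600000000000065e2000000000000694200000000000000000000000000005b92000054900000430200000000000037e00000000000000a92000068d600006a86000000000000000000006b5e00000000000066ba0000000000003b8200000000000000000000575a00003ce400006bca0000000000006726000000000000482a000063000000615000000000000000000000000000005a360000000000002e62000000000000000000000000000051ba0000529200000000000052260000000000004d2e000000000000250e0000257a000000000000000000000000000036ae000000000000385e0000000000000000000000000000356a0000371a000038ca00000000000037f20000000000001a9a0000000000000000000035d600003786000000000000364200000000000030cc0000000000002ae40000271800000000000000000000163e00000000000014fa000000000000148e00001566000015cc000000000000000000000000000008ca000000000000035a00000000000075de0000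786600000000000000000000793e00000000000071a600000000000040920000000000000000000057e400003c78000079aa000000000000721200000000000047d0000073c2000076b600000000000000000000000000006d6e0000000000003ed600000000000000000000000000006c96000070620000000000006eb200000000000058fe0000000000004a7000003fe4000000000000000000007a16000000000000727e00000000000047640000742e0000772200000000000000000000000000006dda00000000000049ce0000000000007506000077fa0000000000000000000078d200000000000070ce00000000000033ea000000000000000000005172000035fa0000000000006cba0000000000006d2600000000000000000000000000005a4e0000538200003a26000000000000377400000000000008e2000000000000000000006d02000070500000000000006f1e0000000000006daa00000000000073560000764400000000000000000000000000006ff6000000000000700800000000000000000000000000005dae00005b5c0000566a00000000000052800000000000000fa200004362000043ce00000000000000000000413400000000000034f800000000000021c60000000000000000000010b0000009f000007a8200000000000072ea00000000000046f80000749a0000778e00000000000000000000000000006e460000000000004ba80000000000007572000074c4000000000000000000007314000000000000713a0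0000000000036de0000000000000000000053fa00003c0c0000000000006f8a0000000000006e7000000000000000000000000000005c6a000054240000473a00000000000037080000000000000b6a00006b7c00006aa40000000000000000000068f400000000000066d80000000000003cc600000000000000000000577800003ba00000652800000000000062a0000000000000468c000060f00000601800000000000000000000000000005d96000000000000322e00000000000000000000000000005a9600005b6e0000000000005b020000000000004fb60000000000002ec200002f2e000000000000000000000000000053ca000000000000550e000000000000000000000000000052f2000054360000557a00000000000054a20000000000001b7200000000000000000000535e00005370000000000000522c000000000000507c0000000000004d8e00004df400000000000000000000278a000000000000264600000000000025da000026b20000271e00000000000000000000000000000f8a00000000000006ba00000000000000000000000000003a0200003c8a0000000000003a6e0000000000003ea60000000000003dce00003fea00000000000000000000000000003ada0000000000003f120000000000000000000000000000392a00003bb2000040c20000000000003cf6000000000000166200003e3a0000405600000000000000000000412e0000000000003d6200000000000027ae000000000000000000002988000017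d00000000000003b460000000000003f7e0000000000000000000000000000399600003c1e00003b6400000000000039b40000000000001d22000000000000000000003798000035e800000000000034a400000000000032f4000000000000306c00002f28000000000000000000002d0c0000000000002a840000000000002868000026b800002574000000000000000000000000000021ae0000000000000d0e0000000000001926000019920000000000000000000019fe000000000000184e000000000000169e000000000000000000001776000017e200001a6a00000000000018ba000000000000170a0000156c000014280000000000000000000000000000105c0000000000000dd40000000000000000000000000000092a00000a020000000000000996000000000000078000000000000003ba000004200000000000000000000084960000000000007f1a00000000000046200000805e000082e600000000000000000000000000007b4e0000000000004b3c00000000000080ca0000835200000000000000000000842a0000000000007c92000000000000388e00000000000000000000553e00003b340000000000007bba0000000000007bcc00000000000000000000000000005c28000053b800004c20000000000000369c0000000000000b2800008136000083be0000000000000000000083940000000000007cfe0000000000003e0a00000000000000000000570c00003ac8000083280000000000007dd600000000000045b4000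07f860000827a00000000000000000000000000006966000000000000388200000000000000000000000000006cde00006fe40000000000006e4c00000000000055320000000000003f3600003f7800000000000000000000000000007ba80000000000008208000000000000000000000000000065b200006f7800007bf600000000000065d00000000000001cb600000000000000000000707400006ca8000000000000657c0000000000005d0c000000000000586800005508000000000000000000004b66000000000000493800000000000041a000003dd40000385800000000000000000000000000001c800000000000000c0c00000000000081a20000817800000000000000000000810c0000000000007d6a00000000000040260000000000000000000056a000003a5c000080a00000000000007e42000000000000454800007ff200007fc8000000000000000000000000000073860000000000003dfe00000000000000000000000000006efa00006f0c0000000000006de000000000000058920000000000004a0400003f0c000000000000000000007f5c0000000000007eae00000000000044dc00007e8400007e1800000000000000000000000000007ae200000000000049620000000000007dac00007d40000000000000000000007cd40000000000007c26000000000000337e000000000000000000005106000034b6000000000000658e00000000000065fa000000000000000000000000000059e20000523e000036c600000000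000036300000000000000876000000000000000000006d8600006ea00000000000006df20000000000006cd20000000000006f360000700e00000000000000000000000000006e5e0000000000006f9c00000000000000000000000000005d4200005af0000053e200000000000052140000000000000f3600003a8600003af2000000000000000000003b5e000000000000348c000000000000215a000000000000000000001044000009840000000000007b3c0000000000007bd20000000000000000000000000000691200006e3400007bfc00000000000065640000000000001c6800000000000000000000733200006dc80000000000007ad000000000000065a60000000000006e0a00006e76000000000000000000007b7e0000000000007b12000000000000445e0000735c0000693c000000000000000000000000000044880000000000001caa0000000000000000000000000000762600006d5c0000000000007374000000000000709e0000000000006f3c00006d200000000000000000000000000000695400000000000065f400000000000000000000000000005e1a00005d8400005c520000000000005a24000000000000122a000056ca000057360000000000000000000055800000000000005148000000000000237600000000000000000000291c0000106e0000464a0000000000004506000000000000440400004572000045de0000000000000000000000000000449a00000000000041ca000000000000406800003e4c00000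00000000000000038d000000000000033c00000000000002d2a0000000000000000000023b80000219c0000000000001c920000000000001cf80000000000000000000000000000126c00000f7800000b5200000000000008b800000000000001b600007a4c000079e0000000000000000000007974000000000000790800000000000040fe000000000000000000005634000039f00000789c0000000000007830000000000000439800007758000076ec0000000000000000000000000000767a000000000000401a00000000000000000000000000006fd200006cf00000000000006d7400000000000058c8000000000000499800003ea0000000000000000000007614000000000000753c000000000000432c00007464000073f80000000000000000000000000000738c0000000000004aa600000000000072b4000072480000000000000000000071dc000000000000710400000000000034c200000000000000000000524a000037aa0000000000007086000000000000709800000000000000000000000000005b260000534c00003cae00000000000035c400000000000009ba00000000000000000000702c00006c840000000000006f540000000000006ee80000000000006e1000006da400000000000000000000000000006d380000000000006ccc00000000000000000000000000005de400005a840000581a00000000000051a8000000000000107a0000479a000048060000000000000000000040c800000000000034200000000000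0021fc000000000000000000000fd80000091800006c600000000000006b1c00000000000042c000006a44000069d80000000000000000000000000000696c0000000000004ad00000000000006894000068280000000000000000000067bc000000000000667800000000000037b600000000000000000000546600003984000000000000660c00000000000065a000000000000000000000000000005bbc000052e0000048ea00000000000035580000000000000abc000064c80000645c00000000000000000000638400000000000062400000000000003d320000000000000000000055c800003918000061d40000000000006090000000000000425400005fb800005f4c00000000000000000000000000005e6e000000000000337200000000000000000000000000005df600005e080000000000005d9c00000000000050fa000000000000328e000032fa00000000000000000000000000005c3a0000000000005d1200000000000000000000000000005bce00005ca600005c580000000000005bec0000000000001bde000000000000000000005b8000005aa80000000000005a3c00000000000059d000000000000050160000508200000000000000000000313e0000000000002ffa0000000000002f8e00003066000030d20000000000000000000000000000127e000000000000086a00000000000000000000000000005646000057f600000000000056b200000000000058ce0000000000005862000058f800000000000000000000000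00000571e000000000000588c000000000000000000000000000055da0000578a0000582000000000000057b4000000000000173a00005748000056dc000000000000000000005670000000000000560400000000000028860000000000000000000028b0000017640000000000005598000000000000552c000000000000000000000000000054c000005454000053e800000000000053100000000000001b900000000000000000000052a4000051cc000000000000516000000000000050f4000000000000501c00004fb0000000000000000000004ec60000000000004e5a00000000000041d600004d9400004d28000000000000000000000000000023ca0000000000000ebe0000000000002b4a00002c22000000000000000000002c8e0000000000002a0600000000000027ea0000000000000000000028c20000299a00002cfa0000000000002a72000000000000285600002ade00002bb60000000000000000000000000000292e000000000000214e00000000000000000000000000000fea000010c200000000000010560000000000001128000000000000071a00000786000000000000000000000000000046320000000000004b42000000000000000000000000000042d20000470a00004c1a00000000000048ba0000000000001b2400000000000000000000433e0000477600000000000044ee0000000000004ad6000000000000499200004bae000000000000000000004b780000000000004926000000000000418e00004a6a0000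4b0c000000000000000000000000000044160000000000001f68000000000000000000000000000043aa000047e2000000000000455a0000000000004aa000000000000049fe000049c8000000000000000000000000000045c6000000000000495c000000000000000000000000000042660000469e000048f0000000000000484e000000000000144600004818000047ac00000000000000000000474000000000000046d40000000000002592000000000000000000002844000016f80000466800000000000045fc000000000000417c000045900000452400000000000000000000000000004482000000000000444c00000000000043e000004374000000000000000000004308000000000000429c0000000000002f460000000000000000000041fa0000287a00000000000041b200000000000041c400000000000000000000000000002f7c000025c800001b5a000000000000147c000000000000043e000000000000000000004158000040ec000000000000408000000000000040140000000000003f3c00003ed000000000000000000000000000003e640000000000003df800000000000000000000000000003d8c00003d2000003cb40000000000003bdc00000000000017a600003b0400003a98000000000000000000003a2c0000000000003954000000000000295e0000000000000000000027d80000168c00000000000038e8000000000000387c0000000000000000000000000000381000003738000036cc00000000000035880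000000000001ab800000000000000000000351c0000344400000000000033d8000000000000336c000000000000329400003228000000000000000000003150000000000000300c0000000000002fa000002ec800002e5c00000000000000000000000000002d7e000000000000121e0000000000002cac00002c40000000000000000000002b680000000000002a2400000000000029b80000000000000000000028e0000028080000279c000000000000265800000000000025ec00002514000024a8000000000000000000000000000023d000000000000022f80000000000000000000000000000220e0000222000000000000021b400000000000021480000000000000d6e00000dda0000000000000000000020460000000000001e2a0000000000001b3600001e9600001fda00000000000000000000000000001c7a0000000000001f6e0000000000001f0200001ec0000000000000000000001e540000000000001dbe0000000000001aca000000000000000000001ba200001d520000000000001ce60000000000001ca400000000000000000000000000001c0e00001bcc00001b600000000000001af40000000000000a2600001a1c000019b0000000000000000000001944000000000000186c0000000000001800000000000000000000001794000016bc00001650000000000000150c00000000000014a0000013c80000135c000000000000000000000000000012840000000000001218000000000000000000000000000010d400000f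fc0000000000000f900000000000000eb80000000000000d7400000d0800000000000000000000000000000b3a0000000000000c1200000000000000000000000000000ace00000ba600000b580000000000000aec0000000000000a62000000000000000000000a140000093c00000000000008d000000000000008640000000000000720000006b400000000000000000000055e00000000000004f20000000000000486000003c0000003540000000000000000000000000000020a000000000000013800000000000000000000000000007a5e00006c1800000000000079f80000000000007a520000000000007f20000075d80000000000000000000000000000798c000000000000819c000000000000000000000000000064da00006bac000079da00000000000064f80000000000001a2e000082f80000807000000000000000000000786c00000000000061a40000000000002cbe00000000000000000000276c0000162000000000000079200000000000008130000000000000000000000000000068a600006b4000008172000000000000648c00000000000019e00000000000000000000072c600006ad400000000000078b400000000000064ce0000000000006b1600006b8200000000000000000000796200000000000078f60000000000004110000072f0000068d0000000000000000000000000000041520000000000001a220000000000008448000083700000000000000000000080e80000000000007cb00000000000003b16000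00000000000000000555c000038ac0000795000000000000071b800000000000040a400006798000063600000000000000000000000000000564c0000000000002cb20000000000000000000000000000471c000042e40000000000003a080000000000002b440000000000001e30000019200000000000000000000000000000784800000000000080c400000000000000000000000000006a5600006a68000083c400000000000064200000000000001974000000000000000000007476000069fc00000000000077dc000000000000689a00000000000075360000756c0000000000000000000080fa0000000000007d7c00000000000040380000728400006864000000000000000000000000000043b00000000000001efc0000000000000000000000000000776a00006990000000000000770400000000000072ba0000000000007eb400007500000000000000000000000000000076980000000000007db200000000000000000000000000005fca0000616e0000645600000000000063b400000000000013da000069c600006a32000000000000000000006a9e00000000000061380000000000002526000000000000000000002700000015b40000787e00000000000076ce0000000000003fcc0000773a000078120000000000000000000000000000762c00000000000043e600000000000077a0000074ac000000000000000000006a8c00000000000060000000000000002eda000000000000000000004da6000027360000000000004002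000000000000406e00000000000000000000000000002f100000255c000019aa000000000000141000000000000003d2000082fe0000836a0000000000000000000083d600000000000082920000000000003f4e0000000000000000000054f000003840000081600000000000007fb00000000000003ef400007e0000007d28000000000000000000000000000070260000000000003b0a00000000000000000000000000006e22000069240000000000006d08000000000000574e00000000000045f600003e340000000000000000000079c800000000000076d40000000000003e88000073e00000723000000000000000000000000000006d8c000000000000481e00000000000069c0000068100000000000000000000064440000000000005f3400000000000032a600000000000000000000502e000030ea00000000000058e000000000000056c400000000000000000000000000004f9800004d1000002c3a0000000000002bce0000000000000732000000000000000000004bc600004af400000000000049b00000000000004794000000000000450c0000435c00000000000000000000000000003eb80000000000003a800000000000000000000000000000321000002e4400002c2800000000000024900000000000000d8600001fec00001ea800000000000000000000199800000000000013440000000000000cf000000000000000000000069c0000033c00000000000075c0000000000000805800000000000000000000000000006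b2e000068b8000083580000000000006348000000000000190800000000000000000000754e0000684c00000000000074e80000000000006a4a000000000000782a000074940000000000000000000083820000000000007d100000000000003e1c00007218000067f8000000000000000000000000000043440000000000001e900000000000000000000000000000747c000067e00000000000007410000000000000746a0000000000007e4800007428000000000000000000000000000073a40000000000007e8a000000000000000000000000000060a20000631e0000682200000000000062dc000000000000151e000073e6000074520000000000000000000074be00000000000060cc000000000000266a00000000000000000000269400001548000080820000000000007faa0000000000003db00000801000007e60000000000000000000000000000073380000000000004596000000000000773400007440000000000000000000006a200000000000005f94000000000000301e000000000000000000004d7000002b020000000000004a8e000000000000456c00000000000000000000000000002ea4000024f000001eba00000000000013a4000000000000039c0000000000000000000072cc000067740000000000007260000000000000775e0000000000007ddc000073bc000000000000000000000000000071f40000000000007fec00000000000000000000000000006252000067080000724200000000000062700000000000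00187e00007e0600007e7200000000000000000000780000000000000060600000000000002a36000000000000000000002628000014dc00000000000071880000000000007f800000000000000000000000000000668a0000669c00007d3a000000000000620400000000000018300000000000000000000071160000663000000000000070b00000000000005fbe000000000000608a000060f6000000000000000000006372000000000000622e0000000000003d440000629a000063060000000000000000000000000000351600000000000013ce000000000000679e0000680a000000000000000000006876000000000000665a0000000000003966000000000000000000005484000037d4000068e200000000000066c60000000000003cd80000672c000062f40000000000000000000000000000529e000000000000251a00000000000000000000000000003726000037fe00000000000037920000000000002ad80000000000001506000015720000000000000000000075ea00000000000071b20000000000003c6c0000721e000073ce0000000000000000000000000000706e0000000000004a64000000000000728a0000743a00000000000000000000751200000000000070da000000000000359a000000000000000000005322000037680000000000007044000000000000736200000000000000000000000000005b50000052740000436e00000000000034ec00000000000009e4000072f6000074a600000000000000000000757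e00000000000071460000000000003bee000000000000000000005418000036fc00006b7000000000000066cc0000000000003b9400006294000060e400000000000000000000000000005b7a0000000000002ece00000000000000000000000000005442000054ae00000000000053640000000000004d9a0000000000002652000026be00000000000000000000000000003c960000000000003dda00000000000000000000000000003bbe00003d0200003e460000000000003d6e00000000000017c4000000000000000000003c2a000039a800000000000035dc00000000000030600000000000002a78000026ac000000000000000000001932000000000000185a00000000000017ee000018c00000156000000000000000000000000000000a0e00000000000003c60000000000007f260000806a0000000000000000000080d60000000000007c9e0000000000003b280000000000000000000053ac00003690000081420000000000007d0a0000000000003abc00007de200007f9200000000000000000000000000006fd80000000000003f4200000000000000000000000000006f66000065c40000000000006c9c000000000000585c000000000000492c00003dc80000000000000000000081ae0000000000007d760000000000003a5000007e4e00007ffe00000000000000000000000000006f0000000000000049f80000000000007eba00007e78000000000000000000007da00000000000007c320000000000003456000000000000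0000000051de000036240000000000006e940000000000006f4200000000000000000000000000005aba0000520800003a920000000000003480000000000000094e000000000000000000006e28000065580000000000006dbc0000000000006e160000000000007b180000735000000000000000000000000000006d500000000000006f3000000000000000000000000000005d7800005a18000056d6000000000000513c000000000000100e000045120000457e00000000000000000000405c00000000000033b40000000000002190000000000000000000000f6c000008ac00007a4000000000000078fc00000000000039e4000078240000774c00000000000000000000000000006ce4000000000000498c0000000000007530000074580000000000000000000072a800000000000070f8000000000000374a000000000000000000005340000035b80000000000006c780000000000006e0400000000000000000000000000005a780000519c000047a60000000000003414000000000000090c00006b1000006a38000000000000000000006888000000000000666c00000000000039780000000000000000000052d40000354c000064bc0000000000006234000000000000390c0000608400005fac00000000000000000000000000005dfc000000000000329a00000000000000000000000000005cb200005be00000000000005a9c000000000000502200000000000030060000307200000000000000000000000000005802000000000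000586e00000000000000000000000000005796000057a80000573c00000000000055f800000000000017580000000000000000000054480000530400000000000051c000000000000050100000000000004e6000004d88000000000000000000002b560000000000002a1200000000000029a600002a7e00002aea000000000000000000000000000010ce000000000000072600000000000000000000000000004716000048c60000000000004782000000000000499e000000000000493200004a76000000000000000000000000000047ee0000000000004a0a000000000000000000000000000046aa0000485a0000480c00000000000046c800000000000016ce000045f0000045840000000000000000000043d40000000000004290000000000000281a0000000000000000000025bc0000147000000000000040e00000000000003f3000000000000000000000000000003d1400003bd000003af80000000000003948000000000000168000000000000000000000372c0000357c00000000000034380000000000003288000000000000300000002ebc000000000000000000002ca00000000000002a1800000000000027fc0000264c00002508000000000000000000000000000022140000000000000d7a0000000000001e3600001ea2000000000000000000001f0e0000000000001dca0000000000001d5e000000000000000000001bc000001ae800001a10000000000000186000000000000016b000001500000013bc00000000000000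000000000000000ff00000000000000d6800000000000000000000000000000bb200000ae00000000000000930000000000000071400000000000004f8000003b400000000000000000000000000006c0c0000000000007f1400000000000000000000000000006b9a000064ec000082ec00000000000061980000000000001614000000000000000000006b34000064800000000000006ac80000000000006b220000000000007902000072e400000000000000000000843c0000000000007ca400000000000038a0000071ac0000678c000000000000000000000000000042d80000000000001e2400000000000000000000000000006a5c0000641400000000000069f000000000000075420000000000007d7000007278000000000000000000000000000069840000000000007ea80000000000000000000000000000610e000063a8000069d2000000000000612c000000000000158a000076da000077460000000000000000000077940000000000005ff400000000000026d6000000000000000000002550000014040000830a0000000000008298000000000000383400007fa400007df400000000000000000000000000006918000000000000460200000000000076c8000073d40000000000000000000069b40000000000005f28000000000000308a000000000000000000004d0400002bda0000000000004ae8000000000000450000000000000000000000000000002e380000248400001fe000000000000013380000000000000330000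0000000000000000068ac0000633c000000000000684000000000000078360000000000007d040000720c000000000000000000000000000067d40000000000007e3c000000000000000000000000000062be000062d0000073f200000000000060c0000000000000153c00007fb6000080040000000000000000000077280000000000005f880000000000002aa20000000000000000000024e40000139800000000000067680000000000007dd0000000000000000000000000000066f60000626400007e12000000000000605400000000000014d0000000000000000000006690000061f800000000000066240000000000006096000000000000623a000062a60000000000000000000067aa000000000000666600000000000037c8000066d2000067200000000000000000000000000000380a000000000000151200000000000071be0000722a00000000000000000000729600000000000070e6000000000000375c000000000000000000005268000034e000007302000000000000714c00000000000036f0000066c000006288000000000000000000000000000054ba000000000000265e00000000000000000000000000003d0e00003d7a000000000000399c0000000000002a6c0000000000001866000018b4000000000000000000007f320000000000007caa000000000000368400007d1600007dee000000000000000000000000000065b800000000000049200000000000007d8200007e5a000000000000000000007ec600000000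00007c3e00000000000036060000000000000000000051fc00003474000000000000654c0000000000007b0c00000000000000000000000000005a0c000051300000451e00000000000033a800000000000008a0000078f00000781800000000000000000000752400000000000070ec00000000000035ac0000000000000000000051900000340800006b0400000000000066600000000000003540000062280000607800000000000000000000000000005bd400000000000030120000000000000000000000000000579c000055ec00000000000052f80000000000004e540000000000002a1e00002a8a000000000000000000000000000048d2000000000000493e00000000000000000000000000004866000046bc000045e400000000000042840000000000001464000000000000000000003bc40000393c00000000000035700000000000002ff40000000000002a0c00002640000000000000000000001e420000000000001dd00000000000001adc00001854000014f400000000000000000000000000000ad400000000000004ec000000000000000000000000000064e00000618c0000000000006474000000000000790e0000000000007c98000071a0000000000000000000000000000064080000000000007d640000000000000000000000000000639600006120000076e60000000000005fe800000000000013f80000828c00007f980000000000000000000076bc0000000000005f1c0000000000002b7a000000000000000000002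4780000132c00000000000063300000000000007cf8000000000000000000000000000062c4000060b400007fc20000000000005f7c000000000000138c0000000000000000000062580000604800000000000061ec00000000000062460000000000006672000066de0000000000000000000071ca00000000000070f200000000000034d400007140000066b400000000000000000000000000003d8600000000000018720000000000007cb600007d22000000000000000000007d8e0000000000007c4400000000000034680000000000000000000051240000339c000078e400000000000070e000000000000033fc000066540000621c000000000000000000000000000055e00000000000002a2a000000000000000000000000000046b00000427800000000000039300000000000002a000000000000001dc400001848000000000000000000000000000061800000000000007c8c0000000000000000000000000000611400005fdc000082800000000000005f1000000000000013200000000000000000000060a800005f70000000000000603c000000000000667e00000000000070fe00007134000000000000000000007cc20000000000007c380000000000003390000070d4000066480000000000000000000000000000426c0000000000001db800000000000000000000000000005fd000005f040000000000005f64000000000000710a0000000000007c2c000070c800000000000000000000000000005ef80000000000007c2000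000000000000000000000000005e8600005e9800005f460000000000005ea4000000000000129600005f3a00005fa60000000000000000000060120000000000005eb000000000000023e200000000000000000000240c000012c0000061b60000000000005f2e000000000000332400005f9a0000607200000000000000000000000000005e2000000000000042a20000000000006006000060de00000000000000000000614a0000000000005ebc0000000000002d96000000000000000000004c6200002442000000000000335a00000000000033c600000000000000000000000000002dcc000024180000135600000000000012cc000000000000028e000061aa0000635a0000000000000000000064320000000000005f2200000000000032b80000000000000000000050b8000033300000649e0000000000005f8e000000000000324c000060660000621600000000000000000000000000005dde000000000000395a00000000000000000000000000005d7200005e2c0000000000005db4000000000000560a000000000000429600003d5c00000000000000000000650a0000000000005ffa00000000000031e0000060d20000628200000000000000000000000000005d4800000000000046da000000000000613e000062ee0000000000000000000063c60000000000005eb60000000000003162000000000000000000004eea00002df600000000000050e2000000000000514e00000000000000000000000000004f2c00004ca4000024a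2000000000000243600000000000005ee00000000000000000000320a0000334e0000000000003276000000000000342600000000000033ba000034fe000000000000000000000000000032e200000000000034920000000000000000000000000000319e00002dd800002bbc00000000000024240000000000000c420000134a000013b600000000000000000000142200000000000012d80000000000000c84000000000000000000000630000002d000006c2a000000000000619e00000000000031080000634e0000678600000000000000000000000000005c2200000000000048b40000000000006426000067f20000000000000000000069a20000000000005f16000000000000309c00000000000000000000504c000032c40000000000005cdc000000000000656a0000000000000000000000000000599a000050c400004b06000000000000333c0000000000000834000064920000685e000000000000000000006a0e0000000000005f820000000000003030000000000000000000004fe00000325800006ae6000000000000605a0000000000002fc40000620a0000664200000000000000000000000000005bb6000000000000358e00000000000000000000000000005a7200005dd20000000000005c700000000000005316000000000000394e000039ba00000000000000000000000000005c0400000000000065d600000000000000000000000000005a0600005d66000069360000000000005e380000000000001248000000000000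000000005b4a00005dc00000000000005b980000000000005bf200000000000055fe0000549c0000000000000000000042f6000000000000428a0000000000002f5800003d68000037ec00000000000000000000000000001c140000000000000af200000000000064fe000068ca000000000000000000006a7a0000000000005fee0000000000002eec000000000000000000004f74000031ec00006b5200000000000060c60000000000002e8000006276000066ae00000000000000000000000000005b2c0000000000003be200000000000000000000000000005ac000005d540000000000005a5400000000000057ba00000000000046ce00003cf0000000000000000000006bbe00000000000061320000000000002e14000062e20000671a000000000000000000000000000059e8000000000000484800000000000063ba0000630c00000000000000000000615c0000000000005eaa0000000000002da8000000000000000000004f0800003180000000000000597c0000000000005a2a0000000000000000000000000000590a00004f4a00002e560000000000002dea000000000000079e000000000000000000004f92000050d60000000000004ffe00000000000051ae0000000000005142000052860000000000000000000000000000506a000000000000521a00000000000000000000000000004f2600004f3800004d220000000000004cb00000000000000df2000024960000250200000000000000000000256e000000000000242a0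000000000002082000000000000000000000f000000064e000000000000312600000000000036a200000000000000000000000000002e32000031fe00003852000000000000334200000000000011dc000000000000000000002e9e0000326a0000000000002fe2000000000000355e000000000000341a0000370e0000000000000000000038be00000000000033ae0000000000002d3c000034f2000037e600000000000000000000000000002f760000000000001afa00000000000000000000000000002f0a000032d6000000000000304e00000000000035ca00000000000034860000377a000000000000000000000000000030ba000000000000363600000000000000000000000000002dc600003192000030d80000000000002de4000000000000115200002bc800002af0000000000000000000002724000000000000243000000000000022320000000000000000000020d000000ca200001632000000000000133e00000000000011fa000013aa000014ee00000000000000000000000000001266000000000000148200000000000014160000155a0000000000000000000015c600000000000012d2000000000000118e000000000000000000000e4000000c90000000000000085200000000000008be000000000000000000000000000007e60000063c0000034e00000000000002dc000000000000007200006c1e000075d200000000000000000000785a00000000000061920000000000002cd0000000000000000000004e96000031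140000793200000000000063420000000000002c640000677a0000719a0000000000000000000000000000562e00000000000040f2000000000000000000000000000053a600005c1600000000000057de00000000000057f000000000000048c000003c8400000000000000000000799e000000000000641a0000000000002bf8000067e6000072060000000000000000000000000000569a00000000000047dc0000000000006996000073b60000000000000000000076aa0000000000005f0a0000000000002b8c000000000000000000004ce6000030a800000000000058b60000000000006d6200000000000000000000000000004f6e0000505800003eca00000000000032d0000000000000075c0000000000000000000054ea00005ce8000000000000584a0000000000006c8a000000000000655e00007056000000000000000000000000000058a40000000000006ea6000000000000000000000000000050b20000598e000058f200000000000050d000000000000010e600004afa00004a7c000000000000000000003ff000000000000033480000000000002124000000000000000000000e940000084000007a0a00000000000064860000000000002b2000006852000072720000000000000000000000000000570600000000000047700000000000006a02000074220000000000000000000077160000000000005f760000000000002ab4000000000000000000004d520000303c00000000000058380000000000006dce00000000000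000000000000000004fda00004fec000049c2000000000000326400000000000006f000006ada000074fa0000000000000000000077ee000000000000604e0000000000002a48000000000000000000004e2a00002fd0000078c600000000000061fe00000000000029dc00006636000070c2000000000000000000000000000055c2000000000000344a000000000000000000000000000052ce00005baa000000000000577200000000000051d20000000000003582000035ee000000000000000000000000000057cc0000000000006cae0000000000000000000000000000518a00005a6600006d1a0000000000005dc6000000000000109800000000000000000000541200005c7c00000000000057600000000000005aae000000000000530a00005376000000000000000000003a1a00000000000039420000000000002970000039ae000037800000000000000000000000000000178e00000000000009420000000000000000000000000000555600005c1000000000000056f40000000000006cf600000000000065ca0000705c000000000000000000000000000056880000000000006f120000000000000000000000000000511e000059fa00006d9e0000000000005d5a000000000000102c0000692a0000734a00000000000000000000763e0000000000005e3200000000000028f20000000000000000000023a000001254000000000000561c0000000000006fea0000000000000000000000000000526200005b3e0000701400000000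00005dcc0000000000000fc000000000000000000000547e00005ba400000000000055b00000000000005e0e0000000000005be600005b6800000000000000000000565e00000000000055f20000000000002898000054a80000528c000000000000000000000000000028da000000000000100200000000000042ea000043560000000000000000000043c2000000000000427e000000000000282c00000000000000000000421200002f64000041400000000000003d7400000000000027c0000037f800003504000000000000000000000000000028c8000000000000222600000000000000000000000000001bba00001c20000000000000177c00000000000010bc0000000000000ae6000009fc000000000000000000007a7600000000000064f20000000000002754000068be000072de0000000000000000000000000000554400000000000047040000000000006a6e0000748e0000000000000000000077820000000000005fe200000000000026e8000000000000000000004dbe00002ef800000000000054d80000000000006e3a0000000000000000000000000000504600004f8000004bb400000000000031f8000000000000068400006b46000075660000000000000000000074d000000000000060ba000000000000267c000000000000000000004d5800002e8c00007320000000000000626a0000000000002610000066a20000712e0000000000000000000000000000546c000000000000373e00000000000000000000000000005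33a00005b380000000000005400000000000000545a0000000000003bd600003c18000000000000000000000000000053940000000000006f7e000000000000000000000000000051f600005acc00006e7c0000000000005d600000000000000f5400000000000000000000532800005a6000000000000052bc0000000000005ca000000000000057ae0000543000000000000000000000472e00000000000046c200000000000025a400003cfc0000371400000000000000000000000000001ba80000000000000ba00000000000006bb200006b88000000000000000000006ab000000000000061260000000000002538000000000000000000004cec00002e200000690000000000000062d600000000000024cc0000670e000066e4000000000000000000000000000052500000000000003d26000000000000000000000000000051e4000059f400000000000051780000000000005784000000000000485400003bac00000000000000000000653400000000000063ae000000000000246000006318000062ac0000000000000000000000000000510c00000000000046980000000000006168000060fc0000000000000000000060240000000000005e9e00000000000023f4000000000000000000004c7a00002db400000000000050a00000000000005d8a00000000000000000000000000004f0200004f1400003222000000000000318c0000000000000618000000000000000000005034000059880000000000004fc80000000000005a8a00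00000000005a1e00005b6200000000000000000000000000004f5c0000000000005af600000000000000000000000000004ef00000591c00004faa0000000000004f3e0000000000000eca00002e4a00002eb6000000000000000000002f220000000000002dde00000000000020b8000000000000000000000e28000007d40000000000004e8400000000000053be00000000000000000000000000004cfe00004f860000550200000000000050ca0000000000000e7c000000000000000000004d6a00004ff20000000000004e1800000000000052e600000000000051a20000542a00000000000000000000556e000000000000513600000000000023880000527a00005496000000000000000000000000000042000000000000001bd200000000000000000000000000004dac0000505e0000000000004d400000000000005352000000000000520e0000537c00000000000000000000000000004cd4000000000000523800000000000000000000000000004c6800004f1a000050880000000000004f440000000000000e1000004d1600004d82000000000000000000004dee0000000000004caa000000000000230a00000000000000000000233400000e520000277e000000000000248a00000000000022b0000024f60000263a000000000000000000000000000023b200000000000025ce0000000000002562000026a6000000000000000000002712000000000000241e0000000000002244000000000000000000002346000020e20000000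000000ea60000000000000f7e00000000000000000000000000000e3a00000f0c000006ae0000000000000642000000000000014a0000000000000000000027660000311a0000000000002b3200000000000039f6000000000000369600003c7e00000000000000000000000000002c0a0000000000003a620000000000000000000000000000247200002e2600003e9a00000000000031f20000000000000da40000384600003dc2000000000000000000003fde000000000000333600000000000021120000000000000000000022c2000011e80000000000002c760000000000003ace000000000000000000000000000024de00002e9200003f06000000000000325e0000000000000d3800000000000000000000262200002fd600000000000029ee000000000000391e000000000000355200003ba60000000000000000000040b6000000000000340e00000000000021ea0000370200003cea000000000000000000000000000027d200000000000016c200000000000038b200003e2e00000000000000000000404a00000000000033a2000000000000217e00000000000000000000239a00002d480000412200000000000034e600000000000021d8000037da00003d56000000000000000000000000000028aa000000000000280e000000000000000000000000000025b600002f6a000000000000298200000000000029940000000000001aee000017dc00000000000000000000000000002ce20000000000003b3a00000000000000000000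00000000254a00002efe00003f7200000000000032ca0000000000000ccc00000000000000000000268e000030420000000000002a5a000000000000398a00000000000035be00003c12000000000000000000003b70000000000000347a000000000000216c0000376e000039c00000000000000000000000000000283e0000000000001d4c000000000000000000000000000026fa000030ae0000000000002ac600000000000037a4000000000000362a000035f400000000000000000000000000002b9e00000000000034b00000000000000000000000000000240600002dba0000330000000000000031860000000000000c60000030e400003078000000000000000000002f340000000000002df000000000000020a60000000000000000000022560000117c00002d180000000000002bd4000000000000210000002afc00002a900000000000000000000000000000291600000000000028740000000000002730000026c4000000000000000000002580000000000000243c000000000000209400000000000000000000232e0000228c000000000000213600000000000021a2000000000000000000000000000020ca000020dc00000d020000000000000c960000000000000222000016260000191a00000000000000000000198600000000000013320000000000000cde000000000000000000000e8e000011ee000019f2000000000000139e0000000000000d4a000014e20000184200000000000000000000000000000fd2000000000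000169200000000000000000000000000000f660000125a00000000000010aa000000000000176a0000000000001476000017d6000000000000000000001a5e000000000000140a0000000000000db60000154e000018ae0000000000000000000000000000103e00000000000016fe00000000000015ba0000157800000000000000000000143400000000000012c60000000000000c72000000000000000000000e22000011820000000000001116000000000000106800000000000000000000000000000efa00000e4c00000de00000000000000c9c0000000000000582000000000000000000000696000008460000000000000702000000000000091e00000000000008b2000009f60000000000000000000000000000076e000000000000098a0000000000000000000000000000062a000007da0000078c000000000000064800000000000005be00000342000003ae00000000000000000000041a00000000000002d6000000000000026a00000000000000000000019e000000cc000084780000000000006c120000000000002022000075c600007f0e0000000000000000000000000000461a000000000000462c000000000000784e000080520000000000000000000082da0000000000006186000000000000160200000000000000000000274e00002cdc0000000000004b2a0000000000007b420000000000000000000000000000310200004e8a00004b480000000000003120000000000000052200007926000080be00000000000000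0000008346000000000000633600000000000018f6000000000000000000002b1a00002c700000840c000000000000676e0000000000001e060000718e00007c86000000000000000000000000000042ba00000000000038ee000000000000000000000000000039de0000562200000000000046f2000000000000559e00000000000040e600003b4000000000000000000000000000004bfc0000000000007bae0000000000000000000000000000367e0000539a00007bd80000000000005c0a0000000000000b0a000000000000000000003c66000057d200000000000048a20000000000005c3400000000000057fc000053c4000000000000000000004c2c00000000000048cc0000000000001b1200003c90000036a800000000000000000000000000001b3c0000000000000b3400000000000079920000812a0000000000000000000083a0000000000000640e0000000000001962000000000000000000002bf200002c040000833400000000000067da0000000000001e72000071fa00007cf2000000000000000000000000000043260000000000003e6a00000000000000000000000000003a4a0000568e000000000000475e000000000000571800000000000047e800003ad40000000000000000000082c8000000000000698a0000000000001fb6000073aa00007dca000000000000000000000000000044d600000000000045c0000000000000769e00007f7a00000000000000000000825c0000000000005efe000000000000130e000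00000000000000000245a00002b980000000000004abe000000000000695a00000000000000000000000000002e0e00004cda0000387600000000000030b40000000000000306000000000000000000003e82000058aa000000000000497a0000000000006d3e0000000000006d5600006ff000000000000000000000000000004b900000000000006e58000000000000000000000000000031da00004f62000055260000000000005064000000000000066600003ebe00003f2a000000000000000000003f8400000000000032dc0000000000000cba000000000000000000000dbc000007680000000000004b240000000000007bb40000000000000000000000000000382e000054de000081f00000000000005ce20000000000000be2000000000000000000003daa0000583e000000000000490e00000000000066120000000000006c7e00006f84000000000000000000007bea00000000000065520000000000001c560000704a000065dc000000000000000000000000000041760000000000001ce000000000000000000000000000003fc6000058b00000000000004a5200000000000070800000000000006e9a00006cb400000000000000000000000000004ab800000000000065880000000000000000000000000000331e000050a600005d1800000000000059820000000000000816000058e60000587400000000000000000000551400000000000050dc0000000000000e6a0000000000000000000020fa0000111000004b5a00000000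00004aee0000000000001f4a00004a8800004944000000000000000000000000000043fe00000000000041ac0000000000003ffc00003de0000000000000000000003864000000000000335400000000000011ca0000000000000000000022aa000021300000000000001f800000000000001c8c0000000000000000000000000000120000000ea000000c18000000000000084c00000000000000ea000079fe00008184000000000000000000008118000000000000647a00000000000019ce000000000000000000002c5e00002b2c000080ac00000000000068460000000000001ede0000726600007d5e00000000000000000000000000004392000000000000408600000000000000000000000000003ab6000056fa00000000000047ca00000000000056ac000000000000477c00003a6800000000000000000000804000000000000069f60000000000001e780000741600007e36000000000000000000000000000045420000000000004554000000000000770a00007fd4000000000000000000007f680000000000005f6a000000000000137a0000000000000000000024c600002ac00000000000004a4c000000000000737a00000000000000000000000000002e7a00004d4600003df200000000000030480000000000000372000000000000000000003eee0000584400000000000049e00000000000006f5a0000000000006dc200006f18000000000000000000000000000049740000000000006dec00000000000000000000000000003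24600004fce000058860000000000004ff800000000000006d2000049b600004a10000000000000000000003f1800000000000032700000000000000d26000000000000000000000d50000006fc00007efc0000000000006ace0000000000001e0c000074ee00007e90000000000000000000000000000045ae00000000000044e800000000000077e200007e24000000000000000000007db8000000000000604200000000000014be00000000000000000000260a00002a5400000000000049080000000000007ad600000000000000000000000000002fbe00004e1e000049560000000000002fdc00000000000004b6000078ba00007d4c000000000000000000007ce000000000000061f2000000000000181e0000000000000000000029d6000029e800007c74000000000000662a0000000000001d9a000070b600007c080000000000000000000000000000424e00000000000033de00000000000000000000000000003906000055b600000000000046860000000000005166000000000000343e000034aa0000000000000000000000000000489c00000000000065820000000000000000000000000000353a000052c2000065ee0000000000005b9e0000000000000a9e000000000000000000003b8e0000576600000000000048300000000000005a4200000000000051c6000052320000000000000000000036ba00000000000035760000000000001aa6000035e20000363c0000000000000000000000000000149a00000000000008d600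00000000000000000000000000409e000057d800000000000047c40000000000006d7a0000000000006ca200006eac000000000000000000000000000047580000000000006de6000000000000000000000000000033f60000517e00006cc60000000000005a5a00000000000008ee00006d0e00006f2a0000000000000000000070020000000000005dba0000000000000fae0000000000000000000021d2000010a400000000000046ec0000000000006e52000000000000000000000000000036ea0000540600006f960000000000005c760000000000000b76000000000000000000003cd20000576c00000000000046800000000000005da20000000000005aa200005afc0000000000000000000053d600000000000052fe0000000000001b7e0000536a00005220000000000000000000000000000025e60000000000000f960000000000003a0e00003a7a000000000000000000003ae60000000000003936000000000000166e0000000000000000000027ba0000297c00003b5200000000000039a20000000000001d2e0000378c000034980000000000000000000000000000285c00000000000021ba000000000000000000000000000016aa0000178200000000000017100000000000001050000000000000093600000990000000000000000000000000000046140000000000007b480000000000000000000000000000389a0000554a00007bc60000000000005c1c0000000000000b1c000000000000000000003e16000057000000000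0000045a800000000000069720000000000006cea00006e40000000000000000000007b9c00000000000065be0000000000001cc20000706800006570000000000000000000000000000041940000000000001c740000000000000000000000000000403200005694000000000000453c00000000000073920000000000006f0600006dd4000000000000000000000000000044d00000000000007adc0000000000000000000000000000338a000051120000659a00000000000059ee000000000000088200006d9200006dfe000000000000000000006e6a0000000000005d4e0000000000000f420000000000000000000021660000103800007b30000000000000691e0000000000001c5c0000733e00007ac400000000000000000000000000004464000000000000447c0000000000007632000073680000000000000000000069480000000000005e2600000000000012360000000000000000000023820000291000000000000043f8000000000000449400000000000000000000000000002d36000023ac00001c9e000000000000126000000000000001c200000000000000000000410a00005628000000000000438c00000000000076740000000000006fde00006d68000000000000000000000000000043200000000000007380000000000000000000000000000034ce00005256000070920000000000005b3200000000000009c60000702000006f48000000000000000000006d2c0000000000005dd80000000000001086000000000000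0000000021f000000fcc00000000000042b40000000000006960000000000000000000000000000037c200005472000066000000000000005bb00000000000000ab0000000000000000000003d3e000055bc00000000000042480000000000005e680000000000005e0200005d90000000000000000000005c460000000000005bda0000000000001bea00005b7400005a3000000000000000000000000000002f9a000000000000128a0000000000005652000056be00000000000000000000572a00000000000055e60000000000001746000000000000000000002892000028a40000558c00000000000054b40000000000001b840000529800005154000000000000000000000000000041dc00000000000023d6000000000000000000000000000027f6000028ce000000000000286200000000000029280000000000000ff60000106200000000000000000000463e00000000000042de0000000000001b180000434a000044fa0000000000000000000000000000419a000000000000441000000000000043b6000045660000000000000000000045d20000000000004272000000000000145200000000000000000000259e000028380000000000004170000000000000448e00000000000000000000000000002f5200004206000041be0000000000002f70000000000000044a0000414c00004074000000000000000000003e580000000000003d8000000000000017b200000000000000000000296a000027cc000038dc00000000000038040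000000000001aac00003510000033cc00000000000000000000000000002f940000000000002d78000000000000000000000000000029ac000028d400000000000025e000000000000023c4000000000000221a000021a800000000000000000000000000001b420000000000001c8600000000000000000000000000001ad600001bae00001cf20000000000001c1a0000000000000a320000000000000000000017f4000017880000000000001494000000000000127800000000000010c800000f84000000000000000000000b460000000000000ada0000000000000a6e00000a08000008c40000000000000000000000000000048c00000000000002040000000000007a58000079ec00000000000000000000798000000000000064e60000000000001a3a000000000000000000002cca000027600000791400000000000068b200000000000019d4000072d2000078a800000000000000000000000000004104000000000000415e00000000000000000000000000003b2200005550000000000000409800000000000056400000000000004710000039fc00000000000000000000783c0000000000006a62000000000000196800007482000077d00000000000000000000000000000402c00000000000043a40000000000007764000076f800000000000000000000768c0000000000005fd600000000000013e6000000000000000000002532000026f40000000000003fc0000000000000762000000000000000000000000000002ee600004d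b20000400e0000000000002f0400000000000003de000000000000000000003f54000054e40000000000003ee800000000000070320000000000006e2e00006cfc00000000000000000000000000003e7c0000000000006d80000000000000000000000000000032b20000503a000058d40000000000004f8c000000000000073e00004bc0000049a4000000000000000000003eac00000000000032040000000000000d92000000000000000000000ce400000690000075b40000000000006b3a00000000000018fc00007548000074dc00000000000000000000000000003e10000000000000433800000000000074700000740400000000000000000000739800000000000060ae000000000000152a000000000000000000002676000026880000000000003da4000000000000732c0000000000000000000000000000302a00004d6400004a9a0000000000002e980000000000000390000072c0000072540000000000000000000071e8000000000000625e000000000000188a000000000000000000002a420000261c0000717c0000000000006696000000000000182400007110000070a400000000000000000000000000003d38000000000000352200000000000000000000000000003972000054780000000000003ccc00000000000052aa00000000000037320000379e00000000000000000000000000003c60000000000000707a000000000000000000000000000035a60000532e000070380000000000005b4400000000000009d8000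000000000000000003bf40000540c0000000000003b880000000000005b86000000000000544e00005358000000000000000000003ca20000000000003bca00000000000017b800003c24000035d0000000000000000000000000000017fa0000000000000a1a00000000000000000000000000003b1c000053a00000000000003ab00000000000006fcc0000000000006f6000006c9000000000000000000000000000003a440000000000006ef400000000000000000000000000003462000051ea00006e880000000000005ac6000000000000095a00006e1c00006db0000000000000000000006d440000000000005d6c000000000000101a00000000000000000000218400000f6000000000000039d80000000000006cd8000000000000000000000000000037560000533400006c6c0000000000005a6c000000000000090000000000000000000000396c000052c800000000000039000000000000005df00000000000005cac00005a9000000000000000000000580e00000000000057a2000000000000174c0000543c000051b4000000000000000000000000000029b200000000000010da00000000000047220000478e0000000000000000000047fa00000000000046b600000000000016da000000000000000000002826000025b0000040d40000000000003d080000000000001674000037200000342c000000000000000000000000000027f0000000000000220800000000000000000000000000001d6400001bb400000000000016a4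0000000000000fe40000000000000bac00000924000000000000000000006c000000000000006b94000000000000160800006b2800006abc0000000000000000000000000000389400000000000042cc0000000000006a50000069e4000000000000000000006978000000000000611a00000000000015960000000000000000000026e2000025440000000000003828000000000000690c0000000000000000000000000000309600004cf800004adc0000000000002e2c0000000000000324000068a0000068340000000000000000000067c800000000000062ca0000000000001530000000000000000000002aae000024d80000675c00000000000066f000000000000014c40000668400006618000000000000000000000000000037bc0000000000003816000000000000000000000000000037500000525c00000000000036e400000000000054c60000000000003d1a000039900000000000000000000000000000367800000000000065ac0000000000000000000000000000360c000051f0000065400000000000005a0000000000000008940000000000000000000035a00000518400000000000035340000000000005bc80000000000005790000052ec0000000000000000000048de0000000000004860000000000000145800003bb80000356400000000000000000000000000001ad00000000000000ac800000000000064d4000064680000000000000000000063fc000000000000639000000000000013ec000000000000000000002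b860000246c0000632400000000000062b800000000000013800000624c000061e0000000000000000000000000000034c80000000000003d920000000000000000000000000000345c0000511800000000000033f000000000000055d400000000000046a400003924000000000000000000006174000000000000610800000000000013140000609c000060300000000000000000000000000000338400000000000042600000000000005fc400005f58000000000000000000005eec0000000000005e8000000000000012a20000000000000000000023ee0000240000000000000033180000000000005e1400000000000000000000000000002da200004c6e000033660000000000002dc0000000000000029a0000000000000000000032ac000050ac00000000000032400000000000005dea0000000000005d7e00005da8000000000000000000000000000031d40000000000005d3c0000000000000000000000000000316800004ef6000050ee0000000000004f2000000000000005fa00003216000032820000000000000000000032ee00000000000031980000000000000c4e000000000000000000000c780000062400000000000030fc0000000000005c2e000000000000000000000000000030900000504000005cd00000000000005994000000000000082800000000000000000000302400004fd40000000000002fb80000000000005bc20000000000005a7e00005c64000000000000000000005bf80000000000005a120000000000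00123c00005b5600005b8c00000000000000000000000000002f4c0000000000001c0800000000000000000000000000002ee000004f680000000000002e740000000000005b200000000000005ab400005a4800000000000000000000000000002e0800000000000059dc00000000000000000000000000002d9c00004efc00005970000000000000590400000000000007aa00004f9e0000500a0000000000000000000050760000000000004f320000000000000dfe00000000000000000000208e00000ef4000031320000000000002e3e00000000000011d000002eaa00002fee00000000000000000000000000002d300000000000002f820000000000002f160000305a0000000000000000000030c60000000000002dd2000000000000115e00000000000000000000223e000020c4000000000000120600000000000012720000000000000000000000000000119400000e340000085e00000000000007e0000000000000007e000000000000000000002cc400004e900000000000002c58000000000000563a00000000000053b2000057ea00000000000000000000000000002bec00000000000056a600000000000000000000000000002b8000004cf2000058c20000000000004f7a0000000000000750000054f60000585600000000000000000000589800000000000050be00000000000010f200000000000000000000211800000e880000000000002b14000000000000571200000000000000000000000000002aa800004d5e0000582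c0000000000004fe600000000000006e4000000000000000000002a3c00004e2400000000000029d000000000000055ce00000000000052da0000577e0000000000000000000057c00000000000005196000000000000108c0000541e0000575400000000000000000000000000002964000000000000179a0000000000005562000056e800000000000000000000567c000000000000512a00000000000010200000000000000000000028f80000239400005610000000000000526e0000000000000fb40000548a000055a40000000000000000000000000000288c00000000000028e6000000000000000000000000000028200000420c00000000000027b400000000000028bc0000000000001bc600001770000000000000000000000000000027480000000000005538000000000000000000000000000026dc00004db8000054cc0000000000005052000000000000067800000000000000000000267000004d4c000000000000260400000000000054600000000000005346000053f400000000000000000000538800000000000052020000000000000f480000531c000052b0000000000000000000000000000025980000000000001b9c0000000000000000000000000000252c00004ce000000000000024c0000000000000524400000000000051d80000516c000000000000000000000000000024540000000000005100000000000000000000000000000023e800004c74000050940000000000004f0e000000000000060c000050280000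4fbc000000000000000000004f500000000000004ee40000000000000ed60000000000000000000020ac00000e1c00004e780000000000004d0a0000000000000e7000004d7600004e0c0000000000000000000000000000237c00000000000041f40000000000004da000004d34000000000000000000004cc80000000000004c5c0000000000000e040000000000000000000023100000232800000000000022a400000000000023be000000000000000000000000000022380000234000000eb20000000000000e4600000000000001560000277200002b3e000000000000000000002c16000000000000247e0000000000000d9800000000000000000000211e000022bc00002c8200000000000024ea0000000000000d2c0000262e000029fa000000000000000000000000000021f600000000000027de0000000000000000000000000000218a000023a600000000000021cc00000000000028b600000000000025c20000298e000000000000000000002cee00000000000025560000000000000cc00000269a00002a6600000000000000000000000000002160000000000000284a000000000000270600002ad2000000000000000000002baa00000000000024120000000000000c540000000000000000000020b20000225000000000000020f40000000000002922000000000000000000000000000020880000233a0000214200000000000020d6000000000000022e000000000000000000000cea00000e9a0000000000000d56000000000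0000fde0000000000000f72000010b600000000000000000000000000000dc2000000000000104a00000000000000000000000000000c7e00000e2e000011220000000000000f06000000000000058e000006a20000070e00000000000000000000077a000000000000063600000000000005ca00000000000000000000027000000198000000000000201c00000000000046260000000000000000000000000000160e0000275a00004b36000000000000310e000000000000052e00000000000000000000190200002b260000000000001e1200000000000042c600000000000039ea000046fe000000000000000000004bf0000000000000368a0000000000000b1600003c72000048ae00000000000000000000000000001b1e0000000000001b300000000000000000000000000000196e00002bfe0000000000001e7e00000000000043320000000000003a560000476a00000000000000000000000000001fb000000000000044e20000000000000000000000000000131a0000246600004aca0000000000002e1a000000000000031200003e8e00004986000000000000000000004b8400000000000031e60000000000000672000000000000000000000cc600000db000004b18000000000000383a0000000000000be800003db60000491a00000000000000000000000000001c6200000000000041820000000000003fd200004a5e000000000000000000004aac000000000000332a0000000000000822000000000000000000000e76000021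060000000000001f44000000000000440a000000000000000000000000000011d6000022b600001f7400000000000011f400000000000000f60000000000000000000019da00002c6a0000000000001ed8000000000000439e0000000000003ac2000047d600000000000000000000000000001e6c000000000000454e00000000000000000000000000001386000024d200004a400000000000002e86000000000000037e00003efa000049d4000000000000000000004968000000000000325200000000000006de000000000000000000000d3200000d440000000000001e0000000000000045ba000000000000000000000000000014ca00002616000048fc0000000000002fca00000000000004c200000000000000000000182a000029e20000000000001d94000000000000425a00000000000039120000469200000000000000000000489000000000000035460000000000000aaa00003b9a0000482400000000000000000000000000001ab200000000000014a600000000000040aa000047b800000000000000000000474c000000000000340200000000000008fa000000000000000000000fba000021de000046e000000000000036f60000000000000b7c00003cde0000467400000000000000000000000000001b8a00000000000025f20000000000000000000000000000167a000027c60000000000001d28000000000000285000000000000016b60000170400000000000000000000460800000000000038a60000000000000b10000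03e220000459c00000000000000000000000000001cbc0000000000004188000000000000403e000045300000000000000000000044c40000000000003396000000000000088e000000000000000000000f4e000021720000000000001c500000000000004458000000000000000000000000000012420000238e000043ec0000000000002d4200000000000001ce000041160000438000000000000000000000431400000000000034da00000000000009d2000000000000000000001092000021e4000042a800000000000037ce0000000000000aa400003d4a0000423c00000000000000000000000000001be40000000000002fa6000000000000000000000000000017520000289e0000000000001b7800000000000041d000000000000028020000286e00000000000000000000000000001b0c00000000000041a60000000000000000000000000000145e000025aa000041640000000000002f5e00000000000004560000000000000000000017be000029760000000000001aa00000000000002f8800000000000029a0000025d4000000000000000000001b4e0000000000001ae20000000000000a38000017e80000148800000000000000000000000000000a68000000000000048000000000000000000000000000001a3400002cd600000000000019c800000000000040f80000000000003b2e0000408c0000000000000000000000000000195c0000000000004020000000000000000000000000000013f20000253e00003fb400000000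00002ef200000000000003ea00003f4800003edc000000000000000000003e7000000000000032be000000000000074a000000000000000000000d9e00000cd800000000000018f00000000000003e04000000000000000000000000000015360000268200003d980000000000003036000000000000038400000000000000000000188400002a4e00000000000018180000000000003d2c000000000000397e00003cc0000000000000000000003c5400000000000035b200000000000009cc00003be800003b7c000000000000000000000000000017ac00000000000018060000000000003b1000003aa4000000000000000000003a38000000000000346e000000000000096000000000000000000000102600002178000039cc000000000000376200000000000008f400003960000038f40000000000000000000000000000174000000000000029be000000000000000000000000000016d400002832000000000000166800000000000027e40000000000001d5800001698000000000000000000000000000015fc000000000000388800000000000000000000000000001590000026ee0000381c00000000000030a2000000000000031800000000000000000000152400002aba00000000000014b800000000000037b00000000000003744000036d800000000000000000000366c0000000000003600000000000000088800003594000035280000000000000000000000000000144c0000000000001ac400000000000000000000000000001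3e000002b92000000000000137400000000000034bc0000000000003450000033e40000000000000000000000000000130800000000000033780000000000000000000000000000129c000023fa0000330c0000000000002dae00000000000002a6000032a0000032340000000000000000000031c8000000000000315c0000000000000606000000000000000000000c5a00000c6c000030f00000000000003084000000000000081c0000301800002fac000000000000000000000000000012300000000000002f400000000000002ed400002e68000000000000000000002dfc0000000000002d9000000000000007b0000000000000000000000e0a0000209a00000000000011c40000000000002d24000000000000000000000000000011580000224a000012120000000000001188000000000000008a00002cb800002c4c000000000000000000002be00000000000002b7400000000000007440000000000000000000010ec0000210c00002b080000000000002a9c00000000000006d800002a30000029c400000000000000000000000000001080000000000000295800000000000000000000000000001014000028ec0000000000000fa800000000000028800000000000002814000027a800000000000000000000273c00000000000026d0000000000000066c00002664000025f800000000000000000000000000000f3c000000000000258c0000000000002520000024b400000000000000000000244800000000000023dc0000000000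000600000000000000000000000ed0000020a00000000000000e64000000000000237000000000000000000000000000000df80000230400002298000000000000222c0000000000000162000000000000000000000d8c0000212a0000000000000d2000000000000022020000000000002196000021c000000000000000000000000000000cb4000000000000215400000000000000000000000000000c48000020be000020e8000000000000207c000000000000023a00000cf600000d62000000000000000000000dce0000000000000c8a00000000000005940000000000000000000005c40000026400002010000000000000161a00000000000005280000190e00001e1e00000000000000000000000000000b220000000000001b2a000000000000197a00001e8a000000000000000000001fa40000000000001326000000000000031e00000000000000000000067e00000cd20000000000000bdc0000000000001c6e0000000000000000000000000000082e00000e8200001f3800000000000011e20000000000000102000019e600001ecc000000000000000000001e600000000000001392000000000000038a0000000000000000000006ea00000d3e00001df400000000000014d600000000000004bc0000183600001d8800000000000000000000000000000ab60000000000001abe0000000000000000000000000000090600000fc60000000000000b700000000000001b96000000000000168600001d1c00000000000000000000000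000000b040000000000001cb00000000000000000000000000000089a00000f5a00001c44000000000000124e00000000000001d40000000000000000000009de0000109e0000000000000a980000000000001bd8000000000000175e00001b6c000000000000000000001b00000000000000146a0000000000000450000017ca00001a9400000000000000000000000000000a2c0000000000000a5c0000000000001a28000019bc00000000000000000000195000000000000013fe00000000000003e400000000000000000000075600000daa000018e400000000000015420000000000000378000018780000180c000000000000000000000000000009c000000000000017a0000000000000000000000000000009540000103200000000000008e8000000000000173400000000000016c80000165c0000000000000000000015f00000000000001584000000000000030c00001518000014ac0000000000000000000000000000087c000000000000144000000000000013d4000013680000000000000000000012fc000000000000129000000000000002a000000000000000000000061200000c6600000000000008100000000000001224000000000000000000000000000007a400000e16000011b8000000000000114c0000000000000096000000000000000000000738000010e000000000000006cc0000000000001074000000000000100800000f9c000000000000000000000000000006600000000000000f3000000000000000000000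0000000005f400000ec400000e580000000000000dec000000000000016800000d8000000d14000000000000000000000ca80000000000000c3c0000000000000234000000000000000000000588000005b8000000000000051c0000000000000b2e0000000000000000000000000000032a0000068a00000bd0000000000000083a00000000000000fc000000000000000000000396000006f600000000000004b00000000000000ac2000000000000091200000b64000000000000000000000af800000000000008a600000000000001c8000009ea00000a8c000000000000000000000000000004440000000000000a20000000000000000000000000000003d800000762000000000000036c00000000000009b40000000000000948000008dc000000000000000000000000000003000000000000000870000000000000000000000000000002940000061e00000804000000000000079800000000000000900000072c000006c000000000000000000000065400000000000005e8000000000000015c0000000000000000000002280000057c00000510000000000000033600000000000000f0000003a2000004a4000000000000000000000000000001bc000000000000043800000000000003cc000003600000000000000000000002f4000000000000028800000000000000840000000000000000000001500000021c00000000000000e400000000000001b00000000000000000000000000000007800000144000000d8000000000000006c0000000000000000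

theorem spec : Spec 8 true idx RK 315 G := fun _ _ _ _ => by eq_refl

theorem cover : cov 9 true H RK CK 315 1 = true := by decide +kernel

end S9x4

end Vale.Agent.P348.MomK
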