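import Mathlib

/-! Part Quad: Gauss and Radau bounds for exponential sums from exact power sums. -/

namespace Vale.Agent.P348

open Finset

abbrev QS := List (ℕ × ℕ × ℕ)

noncomputable def qhp (st : QS) : ℕ := List.rec (motive := fun _ => ℕ) 0 (fun q _ _ => q.2.1) st
noncomputable def qhn (st : QS) : ℕ := List.rec (motive := fun _ => ℕ) 0 (fun q _ _ => q.2.2) st

noncomputable def qstep (st : QS) : QS :=
  List.rec (motive := fun _ => QS) [] (fun q t ih =>
    (q.1, Nat.add (qhp t) (Nat.mul q.1 q.2.1), Nat.add (qhn t) (Nat.mul q.1 q.2.2)) :: ih) st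

noncomputable def qlam (c K : ℕ) : QS → List ℕ :=
  Nat.rec (motive := fun _ => QS → List ℕ)
    (fun st => [Nat.mul (Nat.succ c) (Nat.sub (qhp st) (qhn st))])
    (fun _ ih st => Nat.sub (qhp st) (qhn st) :: ih (qstep st)) K

noncomputable def qhor (c j : ℕ) (l : List ℕ) : ℕ → ℕ :=
  List.rec (motive := fun _ => ℕ → ℕ) (fun _ => 0) (fun a _ ih k =>
    Nat.add a (Nat.add c (Nat.div (Nat.mul j (ih (Nat.succ k))) (Nat.mul (Nat.succ k) 1048576)))) l

noncomputable def qhd (a : List ℤ) : ℤ := List.rec (motive := fun _ => ℤ) 0 (fun x _ _ => x) a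

noncomputable def qdif (ρ : ℤ) (a : List ℤ) : List ℤ :=
  List.rec (motive := fun _ => List ℤ) [] (fun x t ih =>
    List.rec (motive := fun _ => List ℤ) [] (fun y _ _ => (y - ρ * x) :: ih) t) a

noncomputable def qini (b : ℕ) (rs : List ℕ) : List ℤ → QS :=
  List.rec (motive := fun _ => List ℤ → QS) (fun _ => []) (fun r _ ih a =>
    (r, (qhd a).toNat, (-qhd a).toNat) :: ih (qdif ((r : ℤ) - b) a)) rs

noncomputable def qscm (ms : List ℤ) : ℕ → List ℤ :=
  List.rec (motive := fun _ => ℕ → List ℤ) (fun _ => []) (fun m _ ih p =>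
    ((p : ℤ) * m) :: ih (Nat.mul p 1048576)) ms

def qdbl (rs : List ℕ) : List ℕ := rs.flatMap fun r => [r, r]

noncomputable def qfin (z K : ℕ) (ll lu el eu : List ℕ) (out : List (ℕ × ℕ × ℕ)) : Bool :=
  out.all fun o => and (Nat.ble (Nat.mul (Nat.mul 2 o.1) z) (Nat.mul (Nat.succ K) 1048576))
    (and (Nat.ble (Nat.mul o.2.1 (qhor 1 o.1 eu 0)) (Nat.mul 1099511627776 (qhor 0 o.1 ll 0)))
      (Nat.ble (Nat.mul 1099511627776 (qhor 1 o.1 lu 0)) (Nat.mul o.2.2 (qhor 0 o.1 el 0))))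

/-- `ms`: exact power sums; `y / 2 ^ 20`: the shift; `b / 2 ^ 20`: bound for `|x i|` (checked
from an even power sum); `rl`, `ru`: Gauss and Radau nodes of `x + b / 2 ^ 20`, scaled by
`2 ^ 20`; `K`: number of series terms; `out`: triples `(j, lo, hi)`. -/
noncomputable def quadChk (ms : List ℤ) (y b : ℕ) (rl ru : List ℕ) (K : ℕ)
    (out : List (ℕ × ℕ × ℕ)) : Bool :=
  and (and (decide (2 < ms.length ∧ 2 * rl.length ≤ ms.length ∧ 2 * ru.length < ms.length))
    (decide (ms.getD (2 * ((ms.length - 1) / 2)) 0 * 1048576 ^ (2 * ((ms.length - 1) / 2)) ≤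
      (b : ℤ) ^ (2 * ((ms.length - 1) / 2)))))
  (qfin (max (2 * b) (b + y)) K (qlam 0 K (qini b (qdbl rl) (qscm ms 18446744073709551616)))
    (qlam 1 K (qini b (2 * b :: qdbl ru) (qscm ms 18446744073709551616)))
    (qlam 0 K [(b + y, 18446744073709551616, 0)]) (qlam 1 K [(b + y, 18446744073709551616, 0)]) out)

section

variable {ι : Type} [Fintype ι]

def QInv (s : ℝ) (X : ι → ℝ) : QS → (ι → ℝ) → Prop
  | [], w => ∀ i, 0 ≤ s * w i
  | q :: st, w => 0 ≤ s * (∑ i, w i - ((q.2.1 : ℝ) - q.2.2)) ∧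
      QInv s X st fun i => w i * (X i - q.1)

theorem QInv.head {s : ℝ} {X : ι → ℝ} {st : QS} {w : ι → ℝ} (h : QInv s X st w) :
    0 ≤ s * (∑ i, w i - ((qhp st : ℝ) - qhn st)) := by
  cases st with
  | nil =>
    simp only [qhp, qhn, Nat.cast_zero, sub_self, sub_zero, Finset.mul_sum]
    exact Finset.sum_nonneg fun i _ => h i
  | cons q st => exact h.1

theorem QInv.step {s : ℝ} {X : ι → ℝ} (hX : ∀ i, 0 ≤ X i) (st : QS) : ∀ w : ι → ℝ,
    QInv s X st w → QInv s X (qstep st) fun i => w i * X i := by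
  induction st with
  | nil => intro w h i; rw [← mul_assoc]; exact mul_nonneg (h i) (hX i)
  | cons q st ih =>
    intro w h
    refine ⟨?_, ?_⟩
    · have h1 := h.2.head
      have h2 := mul_nonneg (Nat.cast_nonneg (α := ℝ) q.1) h.1
      have e : ∑ i, w i * X i = ∑ i, w i * (X i - q.1) + q.1 * ∑ i, w i := by
        rw [Finset.mul_sum, ← Finset.sum_add_distrib]
        exact Finset.sum_congr rfl fun i _ => by ring
      simp only [Nat.add_eq, Nat.mul_eq]
      rw [e]; push_cast; linarith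
    · have := ih _ h.2
      simp only [mul_right_comm _ _ (X _)] at this
      exact this

/-- truncated exponential series. -/
noncomputable def qE (c : ℕ) (z : ℝ) : ℕ → ℕ → ℝ
  | 0, _ => c + 1
  | K + 1, k => 1 + z / (k + 1) * qE c z K (k + 1)

theorem qE_eq (c : ℕ) (z : ℝ) (K : ℕ) : ∀ k, qE c z K k * (z ^ k / k.factorial) =
    ∑ m ∈ range K, z ^ (k + m) / (k + m).factorial + (c + 1) * (z ^ (k + K) / (k + K).factorial) := by
  induction K with
  | zero => intro k; simp [qE]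
  | succ K ih =>
    intro k
    have := ih (k + 1)
    rw [Finset.sum_range_succ', qE]
    simp only [show ∀ m, k + 1 + m = k + (m + 1) from fun m => by ring] at this
    rw [add_right_comm, ← this, Nat.factorial_succ]
    push_cast
    have : (k.factorial : ℝ) ≠ 0 := by positivity
    simp only [add_zero]
    field_simp
    ring

theorem qE_le {z : ℝ} (hz : 0 ≤ z) (K : ℕ) : qE 0 z K 0 ≤ Real.exp z := by
  have := qE_eq 0 z K 0
  simp only [zero_add, pow_zero, Nat.factorial_zero, Nat.cast_one, div_one, mul_one,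
    Nat.cast_zero, one_mul] at this
  rw [this, ← Finset.sum_range_succ (fun m => z ^ m / (m.factorial : ℝ))]
  exact Real.sum_le_exp_of_nonneg hz _

theorem qE_ge {z : ℝ} (hz : 0 ≤ z) (K : ℕ) (h : 2 * z ≤ K + 1) : Real.exp z ≤ qE 1 z K 0 := by
  have := qE_eq 1 z K 0
  simp only [zero_add, pow_zero, Nat.factorial_zero, Nat.cast_one, div_one, mul_one] at this
  rw [this]
  have h1 := Complex.exp_bound' (x := (z : ℂ)) (n := K) (by
    rw [Complex.norm_real, Real.norm_of_nonneg hz, div_le_iff₀ (by positivity)]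
    push_cast; linarith)
  have h2 : Complex.exp z - ∑ m ∈ range K, (z : ℂ) ^ m / (m.factorial : ℂ) =
      ((Real.exp z - ∑ m ∈ range K, z ^ m / (m.factorial : ℝ) : ℝ) : ℂ) := by push_cast; rfl
  rw [h2, Complex.norm_real, Complex.norm_real, Real.norm_of_nonneg hz] at h1
  have := le_trans (le_abs_self _) h1
  linarith

theorem qsub_le {a : ℝ} {p n : ℕ} (h0 : 0 ≤ a) (h : (p : ℝ) - n ≤ a) : ((p - n : ℕ) : ℝ) ≤ a := by
  rcases le_total n p with h' | h'
  · rwa [Nat.cast_sub h']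
  · rwa [Nat.sub_eq_zero_of_le h', Nat.cast_zero]

theorem qsub_ge (p n : ℕ) : (p : ℝ) - n ≤ ((p - n : ℕ) : ℝ) := by
  rcases le_total n p with h' | h'
  · rw [Nat.cast_sub h']
  · have : (p : ℝ) ≤ n := by exact_mod_cast h'
    rw [Nat.sub_eq_zero_of_le h', Nat.cast_zero]; linarith

theorem qE_sum (c j K k : ℕ) (X w : ι → ℝ) :
    ∑ i, w i * qE c (j * X i / 2 ^ 20) (K + 1) k = ∑ i, w i +
      j * (∑ i, w i * X i * qE c (j * X i / 2 ^ 20) K (k + 1)) / ((k + 1) * 1048576) := by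
  rw [Finset.mul_sum, Finset.sum_div, ← Finset.sum_add_distrib]
  refine Finset.sum_congr rfl fun i _ => ?_
  rw [qE]; field_simp; ring

theorem qlow {X : ι → ℝ} (hX : ∀ i, 0 ≤ X i) (j K : ℕ) : ∀ (st : QS) (w : ι → ℝ) (k : ℕ),
    (∀ i, 0 ≤ w i) → QInv 1 X st w →
    (qhor 0 j (qlam 0 K st) k : ℝ) ≤ ∑ i, w i * qE 0 (j * X i / 2 ^ 20) K k := by
  induction K with
  | zero =>
    intro st w k hw h
    have := qsub_le (p := qhp st) (n := qhn st) (Finset.sum_nonneg fun i _ => hw i)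
      (by have := h.head; linarith)
    have e : qhor 0 j (qlam 0 0 st) k = 1 * (qhp st - qhn st) +
      (0 + j * 0 / ((k + 1) * 1048576)) := rfl
    rw [e]
    simpa [qE] using this
  | succ K ih =>
    intro st w k hw h
    have h1 := qsub_le (p := qhp st) (n := qhn st) (Finset.sum_nonneg fun i _ => hw i)
      (by have := h.head; linarith)
    have h2 := ih _ _ (k + 1) (fun i => mul_nonneg (hw i) (hX i)) (h.step hX _ _)
    have e : qhor 0 j (qlam 0 (K + 1) st) k = (qhp st - qhn st) +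
      (0 + j * qhor 0 j (qlam 0 K (qstep st)) (k + 1) / ((k + 1) * 1048576)) := rfl
    rw [e, qE_sum, zero_add, Nat.cast_add]
    refine add_le_add h1 (le_trans Nat.cast_div_le ?_)
    push_cast
    gcongr

theorem qupp {X : ι → ℝ} (hX : ∀ i, 0 ≤ X i) (j K : ℕ) : ∀ (st : QS) (w : ι → ℝ) (k : ℕ),
    QInv (-1) X st w →
    ∑ i, w i * qE 1 (j * X i / 2 ^ 20) K k ≤ (qhor 1 j (qlam 1 K st) k : ℝ) := by
  induction K with
  | zero =>
    intro st w k h
    have h1 := qsub_ge (qhp st) (qhn st)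
    have h2 := h.head
    have e : qhor 1 j (qlam 1 0 st) k = 2 * (qhp st - qhn st) +
      (1 + j * 0 / ((k + 1) * 1048576)) := rfl
    rw [e]
    simp only [qE, ← Finset.sum_mul, mul_zero, Nat.zero_div, add_zero, Nat.cast_add, Nat.cast_mul,
      Nat.cast_one, Nat.cast_ofNat]
    linarith
  | succ K ih =>
    intro st w k h
    have h1 := qsub_ge (qhp st) (qhn st)
    have h0 := h.head
    have h2 := ih _ _ (k + 1) (h.step hX _ _)
    have e : qhor 1 j (qlam 1 (K + 1) st) k = (qhp st - qhn st) +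
      (1 + j * qhor 1 j (qlam 1 K (qstep st)) (k + 1) / ((k + 1) * 1048576)) := rfl
    rw [e, qE_sum, Nat.cast_add]
    refine add_le_add (by linarith) ?_
    have h3 := Nat.lt_div_mul_add (a := j * qhor 1 j (qlam 1 K (qstep st)) (k + 1))
      (b := (k + 1) * 1048576) (by positivity)
    have h4 : ((j * qhor 1 j (qlam 1 K (qstep st)) (k + 1) : ℕ) : ℝ) ≤ _ := Nat.cast_le.mpr h3.le
    rw [div_le_iff₀ (by positivity)]
    have h5 := mul_le_mul_of_nonneg_left h2 (Nat.cast_nonneg (α := ℝ) j)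
    rw [Nat.cast_add, Nat.cast_mul, Nat.cast_mul] at h4
    rw [Nat.cast_add]
    push_cast at h4 h5 ⊢
    linarith

def QMo (Z : ι → ℝ) : List ℤ → (ι → ℝ) → Prop
  | [], _ => True
  | a :: l, w => ∑ i, w i = a ∧ QMo Z l fun i => w i * Z i

theorem QMo.dif {Z : ι → ℝ} (ρ : ℤ) (l : List ℤ) : ∀ w : ι → ℝ, QMo Z l w →
    QMo Z (qdif ρ l) (fun i => w i * (Z i - ρ)) ∧ (qdif ρ l).length = l.length - 1 := by
  induction l with
  | nil => intro w _; exact ⟨trivial, rfl⟩
  | cons x t ih =>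
    intro w h
    cases t with
    | nil => exact ⟨trivial, rfl⟩
    | cons y t =>
      obtain ⟨i1, i2⟩ := ih _ h.2
      have e : qdif ρ (x :: y :: t) = (y - ρ * x) :: qdif ρ (y :: t) := rfl
      rw [e]
      refine ⟨⟨?_, ?_⟩, by simp [i2]⟩
      · push_cast
        rw [← h.1, ← h.2.1, Finset.mul_sum, ← Finset.sum_sub_distrib]
        exact Finset.sum_congr rfl fun i _ => by ring
      · convert i1 using 2
        ring

theorem qini_inv {s : ℝ} {Z : ι → ℝ} (b : ℕ) (rs : List ℕ) : ∀ (a : List ℤ) (w : ι → ℝ),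
    rs.length ≤ a.length → QMo Z a w →
    (∀ i, 0 ≤ s * (w i * (rs.map fun r : ℕ => Z i + b - r).prod)) →
    QInv s (fun i => Z i + b) (qini b rs a) w := by
  induction rs with
  | nil => intro a w _ _ h i; simpa using h i
  | cons r rs ih =>
    intro a w hl hm h
    obtain ⟨i1, i2⟩ := hm.dif ((r : ℤ) - b)
    cases a with
    | nil => simp at hl
    | cons x a =>
      refine ⟨?_, ?_⟩
      · have : (((x.toNat : ℤ) - (-x).toNat : ℤ) : ℝ) = x := by rw [Int.toNat_sub_toNat_neg]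
        rw [Int.cast_sub, Int.cast_natCast, Int.cast_natCast] at this
        change 0 ≤ s * (∑ i, w i - ((x.toNat : ℝ) - (-x).toNat))
        rw [this, hm.1, sub_self, mul_zero]
      · have e : (fun i => w i * (Z i + b - r)) = fun i => w i * (Z i - ((r : ℤ) - b : ℤ)) := by
          funext i; push_cast; ring
        refine ih _ _ (by rw [i2]; simpa using hl) (e ▸ i1) fun i => ?_
        have := h i
        rwa [List.map_cons, List.prod_cons, ← mul_assoc (w i)] at this

theorem qscm_mo (x : ι → ℝ) (ms : List ℤ) : ∀ (v : ι → ℝ) (p : ℕ),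
    (∀ n, n < ms.length → ∑ i, v i * x i ^ n = (ms.getD n 0 : ℝ)) →
    QMo (fun i => x i * 1048576) (qscm ms p) (fun i => p * v i) ∧
      (qscm ms p).length = ms.length := by
  induction ms with
  | nil => intro v p _; exact ⟨trivial, rfl⟩
  | cons m ms ih =>
    intro v p h
    obtain ⟨i1, i2⟩ := ih (fun i => v i * x i) (p * 1048576) fun n hn => by
      have := h (n + 1) (by simpa using hn)
      simp only [List.getD_cons_succ] at this
      rw [← this]
      exact Finset.sum_congr rfl fun i _ => by ring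
    have e : qscm (m :: ms) p = ((p : ℤ) * m) :: qscm ms (p * 1048576) := rfl
    rw [e]
    refine ⟨⟨?_, ?_⟩, by simp [i2]⟩
    · have := h 0 (by simp)
      simp only [pow_zero, mul_one, List.getD_cons_zero] at this
      push_cast
      rw [← this, Finset.mul_sum]
    · convert i1 using 2
      push_cast; ring

theorem qdbl_prod (f : ℕ → ℝ) (rs : List ℕ) :
    0 ≤ ((qdbl rs).map f).prod ∧ (qdbl rs).length = 2 * rs.length := by
  induction rs with
  | nil => simp [qdbl]
  | cons r rs ih =>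
    have e : qdbl (r :: rs) = r :: r :: qdbl rs := rfl
    rw [e]
    refine ⟨?_, by simp [ih.2]; ring⟩
    simp only [List.map_cons, List.prod_cons, ← mul_assoc]
    exact mul_nonneg (mul_self_nonneg _) ih.1

end

theorem quad_sound {ι : Type} [Fintype ι] (x : ι → ℝ) (ms : List ℤ)
    (hm : ∀ n, n < ms.length → ∑ i, x i ^ n = (ms.getD n 0 : ℝ)) (y b : ℕ) (rl ru : List ℕ)
    (K : ℕ) (out : List (ℕ × ℕ × ℕ)) (h : quadChk ms y b rl ru K out = true) :
    ∀ o ∈ out, (o.2.1 : ℝ) ≤ 2 ^ 40 * ∑ i, Real.exp (x i - y / 2 ^ 20) ^ o.1 ∧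
      2 ^ 40 * ∑ i, Real.exp (x i - y / 2 ^ 20) ^ o.1 ≤ (o.2.2 : ℝ) := by
  simp only [quadChk, qfin, Bool.and_eq_true, decide_eq_true_eq, List.all_eq_true, Nat.ble_eq,
    Nat.mul_eq] at h
  obtain ⟨⟨⟨l1, l2, l3⟩, hb⟩, h⟩ := h
  intro o ho
  obtain ⟨hz, h1, h2⟩ := h o ho
  set N := 2 * ((ms.length - 1) / 2) with hN
  have hb' : ∀ i, |x i * 1048576| ≤ b := fun i => by
    have ev : Even N := ⟨_, two_mul _⟩
    have e1 : (ms.getD N 0 : ℝ) * 1048576 ^ N ≤ (b : ℝ) ^ N := by exact_mod_cast hb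
    rw [← hm N (by omega)] at e1
    refine le_of_pow_le_pow_left₀ (n := N) (by omega) (Nat.cast_nonneg _) (le_trans ?_ e1)
    rw [ev.pow_abs, mul_pow]
    exact mul_le_mul_of_nonneg_right (Finset.single_le_sum (f := fun i => x i ^ N)
      (fun i _ => ev.pow_nonneg _) (Finset.mem_univ i)) (by positivity)
  have hX : ∀ i, 0 ≤ x i * 1048576 + b := fun i => by have := abs_le.mp (hb' i); linarith
  obtain ⟨m1, m2⟩ := qscm_mo x ms (fun _ => 1) 18446744073709551616 (by simpa using hm)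
  have A1 := qlow hX o.1 K _ _ 0 (fun i => by positivity) (qini_inv (s := 1) b (qdbl rl) _ _
    (by rw [m2, (qdbl_prod (fun _ => 0) _).2]; exact l2) m1 fun i => by
      have := (qdbl_prod (fun r : ℕ => x i * 1048576 + b - r) rl).1
      positivity)
  have A2 := qupp hX o.1 K _ _ 0 (qini_inv (s := -1) b (2 * b :: qdbl ru) _ _
    (by rw [m2, List.length_cons, (qdbl_prod (fun _ => 0) _).2]; exact l3) m1 fun i => by
      have h3 := (qdbl_prod (fun r : ℕ => x i * 1048576 + b - r) ru).1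
      have h4 := (abs_le.mp (hb' i)).2
      have h5 := mul_nonneg (show 0 ≤ (b : ℝ) - x i * 1048576 by linarith) h3
      rw [List.map_cons, List.prod_cons]
      push_cast
      linarith)
  have hy : ∀ _ : Unit, (0 : ℝ) ≤ ((b + y : ℕ) : ℝ) := fun _ => Nat.cast_nonneg _
  have inv : ∀ s : ℝ, QInv s (fun _ : Unit => ((b + y : ℕ) : ℝ))
      [(b + y, 18446744073709551616, 0)] fun _ => 18446744073709551616 := fun s =>
    ⟨by simp, fun i => by simp⟩
  have A3 := qlow hy o.1 K _ _ 0 (fun i => by positivity) (inv 1)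
  have A4 := qupp hy o.1 K _ _ 0 (inv (-1))
  simp only [Finset.univ_unique, Finset.sum_singleton] at A3 A4
  have hz' : (2 * o.1 * max (2 * b : ℝ) (b + y)) ≤ (K + 1) * 1048576 := by exact_mod_cast hz
  have hj : (0 : ℝ) ≤ o.1 := Nat.cast_nonneg _
  have zz : ∀ X : ℝ, X ≤ max (2 * b : ℝ) (b + y) → 2 * (o.1 * X / 2 ^ 20) ≤ K + 1 := fun X hX => by
    have := mul_le_mul_of_nonneg_left hX hj
    linarith
  have B3 := qE_le (z := o.1 * ((b + y : ℕ) : ℝ) / 2 ^ 20) (by positivity) K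
  have B4 := qE_ge (z := o.1 * ((b + y : ℕ) : ℝ) / 2 ^ 20) (by positivity) K
    (zz _ (by push_cast; exact le_max_right _ _))
  have B1 : ∑ i, ((18446744073709551616 : ℕ) : ℝ) * 1 * qE 0 (o.1 * (x i * 1048576 + b) / 2 ^ 20) K 0 ≤
      18446744073709551616 * ∑ i, Real.exp (o.1 * (x i * 1048576 + b) / 2 ^ 20) := by
    rw [Finset.mul_sum]
    refine Finset.sum_le_sum fun i _ => ?_
    have := qE_le (z := o.1 * (x i * 1048576 + b) / 2 ^ 20) (by have := hX i; positivity) K
    push_cast; linarith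
  have B2 : 18446744073709551616 * ∑ i, Real.exp (o.1 * (x i * 1048576 + b) / 2 ^ 20) ≤
      ∑ i, ((18446744073709551616 : ℕ) : ℝ) * 1 * qE 1 (o.1 * (x i * 1048576 + b) / 2 ^ 20) K 0 := by
    rw [Finset.mul_sum]
    refine Finset.sum_le_sum fun i _ => ?_
    have := qE_ge (z := o.1 * (x i * 1048576 + b) / 2 ^ 20) (by have := hX i; positivity) K
      (zz _ (le_max_of_le_left (by have := (abs_le.mp (hb' i)).2; linarith)))
    push_cast; linarith
  set E := Real.exp (o.1 * ((b + y : ℕ) : ℝ) / 2 ^ 20)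
  have hE : 0 < E := Real.exp_pos _
  have e : ∑ i, Real.exp (o.1 * (x i * 1048576 + b) / 2 ^ 20) =
      (∑ i, Real.exp (x i - y / 2 ^ 20) ^ o.1) * E := by
    rw [Finset.sum_mul]
    refine Finset.sum_congr rfl fun i _ => ?_
    rw [← Real.exp_nat_mul, ← Real.exp_add]
    congr 1
    push_cast; ring
  rw [e] at B1 B2
  have c1 : ((_ : ℕ) : ℝ) ≤ _ := Nat.cast_le.mpr h1
  have c2 : ((_ : ℕ) : ℝ) ≤ _ := Nat.cast_le.mpr h2
  rw [Nat.cast_mul, Nat.cast_mul] at c1 c2
  have d1 := mul_le_mul_of_nonneg_left (le_trans (mul_le_mul_of_nonneg_left B4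
    (show (0 : ℝ) ≤ 18446744073709551616 by norm_num)) A4) (Nat.cast_nonneg (α := ℝ) o.2.1)
  have d2 := mul_le_mul_of_nonneg_left (le_trans A3 (mul_le_mul_of_nonneg_left B3
    (show (0 : ℝ) ≤ 18446744073709551616 by norm_num))) (Nat.cast_nonneg (α := ℝ) o.2.2)
  have d3 := A1.trans B1
  have d4 := B2.trans A2
  constructor
  · refine le_of_mul_le_mul_right (a := E) ?_ hE
    push_cast at c1 d1 d3 ⊢
    linarith
  · refine le_of_mul_le_mul_right (a := E) ?_ hE
    push_cast at c2 d2 d4 ⊢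
    linarith

end Vale.Agent.P348
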