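import Vale.Agent.P348.Quad
import Vale.Agent.P348.MomData
import Vale.Agent.P348.CW

namespace Vale.Agent.P348

def outs (L c : ℕ) : List (ℕ × ℕ × ℕ) :=
  [2, 3, 4, 5, 6, 7, 8].map fun j => (j, (wb L j).getD c (0, 0))

end Vale.Agent.P348
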