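import Vale.Agent.P348.Spec

/-! Part SpA: the transfer operator in the space direction is real symmetric. -/

namespace Vale.Agent.P348

open Finset

theorem spA_path {ι : Type} [Fintype ι] [DecidableEq ι] (A : Matrix ι ι ℝ) (k : ℕ) :
    ∀ F : ι → ι → ℝ, ∑ a, ∑ b, F a b * (A ^ k) a b =
      ∑ x : Fin (k + 1) → ι, F (x 0) (x (Fin.last k)) * ∏ i : Fin k, A (x i.castSucc) (x i.succ) := by
  induction k with
  | zero =>
    intro F
    rw [← (Equiv.funUnique (Fin 1) ι).symm.sum_comp]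
    simp [Matrix.one_apply]
  | succ k ih =>
    intro F
    rw [← (Fin.consEquiv (fun _ : Fin (k + 2) => ι)).sum_comp, Fintype.sum_prod_type, pow_succ']
    have e := ih fun c b => ∑ a, F a b * A a c
    simp only [Finset.sum_mul] at e
    have e2 : ∑ a, ∑ b, F a b * (A * A ^ k) a b = ∑ c, ∑ b, ∑ a, F a b * A a c * (A ^ k) c b := by
      simp only [Matrix.mul_apply, Finset.mul_sum, mul_assoc]
      rw [Finset.sum_comm]
      rw [Finset.sum_congr rfl fun b _ => Finset.sum_comm, Finset.sum_comm]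
    rw [e2, e, Finset.sum_comm]
    refine Finset.sum_congr rfl fun a _ => Finset.sum_congr rfl fun x _ => ?_
    rw [Fin.prod_univ_succ]
    simp only [Fin.consEquiv_apply, Fin.cons_zero, Fin.castSucc_zero, Fin.cons_succ,
      Fin.castSucc_succ, ← Fin.succ_last, mul_assoc]

theorem spA_cyc {ι : Type} (A : ι → ι → ℝ) (k : ℕ) (x : Fin (k + 1) → ι) :
    ∏ i, A (x i) (x (finRotate (k + 1) i)) =
      A (x (Fin.last k)) (x 0) * ∏ i : Fin k, A (x i.castSucc) (x i.succ) := by
  rw [Fin.prod_univ_castSucc, finRotate_last, mul_comm]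
  simp [finRotate_apply]

theorem spA_tr0 {ι : Type} [Fintype ι] [DecidableEq ι] (A : Matrix ι ι ℝ) (k : ℕ) (D : ι → ℝ) :
    ∑ a, D a * (A ^ (k + 1)) a a =
      ∑ x : Fin (k + 1) → ι, D (x 0) * ∏ i, A (x i) (x (finRotate (k + 1) i)) := by
  have e := spA_path A k fun a b => D a * A b a
  simp only [spA_cyc A k, ← mul_assoc]
  rw [← e]
  simp only [pow_succ, Matrix.mul_apply, Finset.mul_sum]
  exact Finset.sum_congr rfl fun a _ => Finset.sum_congr rfl fun b _ => by ring

theorem spA_tr1 {ι : Type} [Fintype ι] [DecidableEq ι] (A : Matrix ι ι ℝ) (k : ℕ) (D : ι → ℝ) :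
    ∑ a, D a * (A ^ (k + 1)) a a =
      ∑ x : Fin (k + 1) → ι, D (x (Fin.last k)) * ∏ i, A (x i) (x (finRotate (k + 1) i)) := by
  have e := spA_path A k fun a b => D b * A b a
  simp only [spA_cyc A k, ← mul_assoc]
  rw [← e, Finset.sum_comm]
  simp only [pow_succ', Matrix.mul_apply, Finset.mul_sum]
  exact Finset.sum_congr rfl fun a _ => Finset.sum_congr rfl fun b _ => by ring

theorem chi_add (h u v : G) : chi h (u + v) = chi h u * chi h v := by
  revert h u v; decide

theorem chi_zero (h : G) : chi h 0 = 1 := by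
  revert h; decide

theorem chi_sum {ι : Type} (s : Finset ι) (h : G) (u : ι → G) :
    (chi h (∑ i ∈ s, u i) : ℝ) = ∏ i ∈ s, (chi h (u i) : ℝ) := by
  classical
  induction s using Finset.induction_on with
  | empty => simp [chi_zero]
  | insert a s ha ih => rw [Finset.sum_insert ha, Finset.prod_insert ha, chi_add, Int.cast_mul, ih]

theorem chi_orth (γ u : G) : ∑ g : G, chi γ g * chi g u = if u = γ then 4 else 0 := by
  revert γ u; decide

/-- the transfer operator in the space direction. -/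
def KK (m : ℕ) (δ : ℝ) (h : G) :
    Matrix (Fin (m + 1) → Option (Fin 3)) (Fin (m + 1) → Option (Fin 3)) ℝ := fun α β =>
  ∑ τ : Fin (m + 1) → Fin 3, (chi h (cls (τ 0)) : ℝ) *
    ∏ k, Wm δ (α k) (β k) (τ k) (τ (finRotate (m + 1) k))

theorem Wm_comm (δ : ℝ) (a a' : Option (Fin 3)) : Wm δ a a' = Wm δ a' a := by
  cases a <;> cases a' <;> rfl

theorem eps_cls (a b b' : Fin 3) (h : eps a b b' ≠ 0) :
    cls b - cls b' = cls a - 0 ∧ cls b - cls b' = 0 - cls a := by
  revert a b b'; decide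

theorem Wm_cls (δ : ℝ) (a a' : Option (Fin 3)) (b b' : Fin 3) (h : Wm δ a a' b b' ≠ 0) :
    cls b - cls b' = clsO a - clsO a' := by
  cases a with
  | none =>
    cases a' with
    | none =>
      have : b = b' := by
        by_contra hb
        exact h (by simp [Wm, hb])
      simp [this]
    | some a' =>
      refine (eps_cls a' b b' fun h0 => h ?_).2
      simp [Wm, h0]
  | some a =>
    cases a' with
    | none =>
      refine (eps_cls a b b' fun h0 => h ?_).1
      simp [Wm, h0]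
    | some a' => exact absurd rfl h

theorem KK_symm (m : ℕ) (δ : ℝ) (h : G) (α β : Fin (m + 1) → Option (Fin 3)) :
    KK m δ h α β = KK m δ h β α := by
  unfold KK
  simp only [fun k => Wm_comm δ (α k) (β k)]

theorem KK_block (m : ℕ) (δ : ℝ) (h : G) (α β : Fin (m + 1) → Option (Fin 3))
    (hab : ∑ k, clsO (α k) ≠ ∑ k, clsO (β k)) : KK m δ h α β = 0 := by
  refine Finset.sum_eq_zero fun τ _ => ?_
  by_contra h0
  have h1 := fun k => Wm_cls δ _ _ _ _
    (Finset.prod_ne_zero_iff.1 (right_ne_zero_of_mul h0) k (Finset.mem_univ k))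
  apply hab
  rw [← sub_eq_zero, ← Finset.sum_sub_distrib, ← Finset.sum_congr rfl fun k _ => h1 k,
    Finset.sum_sub_distrib, sub_eq_zero]
  exact (Equiv.sum_comp (finRotate (m + 1)) fun k => cls (τ k)).symm

theorem spA_two (m L : ℕ) (δ : ℝ) (h g : G) :
    ∑ s : Cfg (L + 1), (chi h (sec s) : ℝ) * (TT (L + 1) g δ ^ (m + 1)) s s =
      ∑ α, (chi g (∑ k, clsO (α k)) : ℝ) * (KK m δ h ^ (L + 1)) α α := by
  rw [spA_tr0, spA_tr1]
  simp only [TT, KK]
  simp only [Finset.prod_univ_sum, Fintype.piFinset_univ, Finset.mul_sum]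
  rw [Finset.sum_comm]
  let e1 : (Fin (m + 1) → Fin (L + 1) → Option (Fin 3)) ≃
      (Fin (L + 1) → Fin (m + 1) → Option (Fin 3)) := Equiv.piComm _
  let e2 : (Fin (m + 1) → Cfg (L + 1)) ≃ (Fin (L + 1) → Fin (m + 1) → Fin 3) :=
    (Equiv.piComm _).trans (Equiv.arrowCongr (finRotate (L + 1)).symm (Equiv.refl _))
  refine Fintype.sum_equiv e1 _ _ fun A => Fintype.sum_equiv e2 _ _ fun σ => ?_
  have he1 : ∀ j k, e1 A j k = A k j := fun _ _ => rfl
  have he2 : ∀ j k, e2 σ j k = σ k (finRotate (L + 1) j) := fun _ _ => rfl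
  simp only [he1, he2, Finset.prod_mul_distrib, sec, chi_sum]
  have t1 : ∀ k, ∏ j : Fin (L + 1), (if (j : ℕ) + 1 = L + 1 then (chi g (clsO (A k j)) : ℝ) else 1) =
      chi g (clsO (A k (Fin.last L))) := by
    intro k
    rw [Finset.prod_eq_single (Fin.last L)]
    · simp
    · intro j _ hj
      rw [if_neg]
      intro hj2
      exact hj (Fin.ext (by simpa using hj2))
    · simp
  simp only [t1]
  rw [Equiv.prod_comp (finRotate (L + 1)) fun j => (chi h (cls (σ 0 j)) : ℝ),
    Finset.prod_comm (s := (Finset.univ : Finset (Fin (L + 1))))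
      (t := (Finset.univ : Finset (Fin (m + 1))))]
  ring

theorem space_fin (m : ℕ) (hm : 1 ≤ m) (δ : ℝ) (h γ : G) :
    ∃ (n : ℕ) (μ : Fin n → ℝ), ∀ L, 2 ≤ L → ∑ i, μ i ^ L =
      (∑ g : G, (chi γ g : ℝ) * ∑ s : Cfg L, (chi h (sec s) : ℝ) * (TT L g δ ^ m) s s) / 4 := by
  obtain ⟨m, rfl⟩ : ∃ k, m = k + 1 := ⟨m - 1, by omega⟩
  let p : (Fin (m + 1) → Option (Fin 3)) → G := fun α => ∑ k, clsO (α k)
  have hB : ((KK m δ h).submatrix (Subtype.val : {a // p a = γ} → _) Subtype.val).IsHermitian := by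
    ext a b
    simp [Matrix.conjTranspose_apply, KK_symm m δ h a.1 b.1]
  refine ⟨_, fun i => hB.eigenvalues ((Fintype.equivFin {a // p a = γ}).symm i), fun L hL => ?_⟩
  obtain ⟨L, rfl⟩ : ∃ k, L = k + 1 := ⟨L - 1, by omega⟩
  rw [(Fintype.equivFin {a // p a = γ}).symm.sum_comp fun i => hB.eigenvalues i ^ (L + 1),
    ← blk_trace_pow (KK m δ h) p (KK_block m δ h) γ hB]
  simp only [spA_two, Finset.mul_sum, ← mul_assoc]
  rw [Finset.sum_comm, Finset.sum_filter, Finset.sum_div]
  refine Finset.sum_congr rfl fun α _ => ?_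
  rw [← Finset.sum_mul]
  have := congrArg (Int.cast : ℤ → ℝ) (chi_orth γ (p α))
  push_cast at this
  rw [this]
  split_ifs <;> simp

end Vale.Agent.P348
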