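import Vale.Agent.P348.Spec

/-! Part Sym: symmetries of the diagonal entries of the powers of `M`. -/

namespace Vale.Agent.P348

open Finset

/-- action of a colour permutation on the Klein four group. -/
def pG (π : Equiv.Perm (Fin 3)) (g : G) : G :=
  if g = cls 0 then cls (π 0) else if g = cls 1 then cls (π 1) else if g = cls 2 then cls (π 2)
  else 0

namespace SymP

theorem conj_pow {ι : Type} [Fintype ι] [DecidableEq ι] (N K : Matrix ι ι ℤ) (f : ι ≃ ι)
    (e : ι → ℤ) (he : ∀ s, e s * e s = 1) (h : ∀ s t, N (f s) (f t) = e s * e t * K s t) (n : ℕ) :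
    ∀ s t, (N ^ n) (f s) (f t) = e s * e t * (K ^ n) s t := by
  induction n with
  | zero =>
    intro s t
    by_cases c : s = t
    · simp [c, he]
    · simp [c]
  | succ n ih =>
    intro s t
    rw [pow_succ, pow_succ, Matrix.mul_apply, Matrix.mul_apply, ← f.sum_comp, Finset.mul_sum]
    refine Finset.sum_congr rfl fun u _ => ?_
    rw [ih, h]
    linear_combination (e s * e t * (K ^ n) s u * K u t) * he u

theorem conj_diag {ι : Type} [Fintype ι] [DecidableEq ι] (N K : Matrix ι ι ℤ) (f : ι ≃ ι)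
    (e : ι → ℤ) (he : ∀ s, e s * e s = 1) (h : ∀ s t, N (f s) (f t) = e s * e t * K s t) (n : ℕ)
    (s : ι) : (N ^ n) (f s) (f s) = (K ^ n) s s := by
  rw [conj_pow N K f e he h, he, one_mul]

theorem pG_add (π : Equiv.Perm (Fin 3)) (a b : G) : pG π (a + b) = pG π a + pG π b := by
  revert π a b; decide +kernel

theorem pG_cls (π : Equiv.Perm (Fin 3)) (b : Fin 3) : pG π (cls b) = cls (π b) := by
  revert π b; decide +kernel

theorem pG_inj (π : Equiv.Perm (Fin 3)) (a b : G) : pG π a = pG π b ↔ a = b := by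
  revert π a b; decide +kernel

theorem pG_zero (π : Equiv.Perm (Fin 3)) : pG π 0 = 0 := by
  revert π; decide +kernel

theorem loc_perm (π : Equiv.Perm (Fin 3)) (g : G) (b e b' e' : Fin 3) :
    loc (pG π g) (π b) (π e) (π b') (π e') = loc g b e b' e' := by
  revert π g b e b' e'; decide +kernel

theorem chi_sq (g u : G) : chi g u * chi g u = 1 := by
  revert g u; decide

theorem loc_left (g : G) (b e b' e' : Fin 3) :
    loc g b e b' e' = chi g (cls b) * chi g (cls b') * loc 0 b e b' e' := by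
  revert g b e b' e'; decide +kernel

theorem loc_right (g : G) (b e b' e' : Fin 3) :
    loc 0 b e b' e' = chi g (cls e) * chi g (cls e') * loc g b e b' e' := by
  revert g b e b' e'; decide +kernel

theorem loc_swap (g : G) (b e b' e' : Fin 3) : loc g e b e' b' = loc g b e b' e' := by
  revert g b e b' e'; decide +kernel

theorem exists_perm (g α : G) :
    ∃ π : Equiv.Perm (Fin 3), pG π g = gc (cl g α) ∧ pG π α = ac (cl g α) := by
  revert g α; decide +kernel

theorem last_iff {m : ℕ} (j : Fin (m + 1)) : (j : ℕ) + 1 = m + 1 ↔ j = Fin.last m := by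
  simp [Fin.ext_iff]

theorem rot_zero {m : ℕ} (j : Fin (m + 1)) : finRotate (m + 1) j = 0 ↔ j = Fin.last m := by
  rw [← finRotate_last, (finRotate (m + 1)).apply_eq_iff_eq]

theorem rot_rev {m : ℕ} (j : Fin (m + 1)) :
    finRotate (m + 1) (finRotate (m + 1) j).rev = j.rev := by
  by_cases h : j = Fin.last m
  · rw [h, finRotate_last, Fin.rev_zero, finRotate_last, Fin.rev_last]
  · have h2 : (finRotate (m + 1) j).rev ≠ Fin.last m := fun e =>
      h ((rot_zero j).1 (by simpa using congrArg Fin.rev e))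
    have h3 : (j : ℕ) ≠ m := fun e => h (Fin.ext e)
    have := j.2
    ext
    rw [coe_finRotate_of_ne_last h2, Fin.val_rev, Fin.val_rev, coe_finRotate_of_ne_last h]
    omega

end SymP

open SymP

theorem sec_perm {L : ℕ} (π : Equiv.Perm (Fin 3)) (s : Cfg L) :
    sec (fun j => π (s j)) = pG π (sec s) := by
  have h := map_sum (AddMonoidHom.mk' (pG π) (pG_add π)) (fun j => cls (s j)) univ
  simp only [AddMonoidHom.mk'_apply, pG_cls] at h
  exact h.symm

theorem diag_perm (L : ℕ) (g : G) (π : Equiv.Perm (Fin 3)) (n : ℕ) (s : Cfg L) :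
    (M L (pG π g) ^ n) (fun j => π (s j)) (fun j => π (s j)) = (M L g ^ n) s s := by
  refine conj_diag (M L (pG π g)) (M L g) (Equiv.piCongrRight fun _ => π) (fun _ => 1)
    (fun _ => rfl) (fun s t => ?_) n s
  rw [one_mul, one_mul]
  refine Finset.sum_congr rfl fun j _ => if_congr (by simp) ?_ rfl
  rw [← loc_perm π _ (s j), apply_ite (pG π), pG_zero]
  rfl

theorem diag_rot {L : ℕ} (hL : 2 ≤ L) (g : G) (n : ℕ) (s : Cfg L) :
    (M L g ^ n) (fun j => s (finRotate L j)) (fun j => s (finRotate L j)) = (M L g ^ n) s s := by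
  obtain ⟨m, rfl⟩ : ∃ m, L = m + 1 := ⟨L - 1, by omega⟩
  refine conj_diag (M (m + 1) g) (M (m + 1) g)
    (Equiv.arrowCongr (finRotate (m + 1)).symm (Equiv.refl _)) (fun s => chi g (cls (s 0)))
    (fun _ => chi_sq _ _) (fun s t => ?_) n s
  change M (m + 1) g (fun j => s (finRotate _ j)) (fun j => t (finRotate _ j)) = _
  simp only [M, last_iff]
  rw [Finset.mul_sum]
  refine Fintype.sum_equiv (finRotate (m + 1)) _ _ fun j => ?_
  have hc : (∀ i, i ≠ j → i ≠ finRotate _ j → s (finRotate _ i) = t (finRotate _ i)) ↔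
      ∀ i, i ≠ finRotate _ j → i ≠ finRotate _ (finRotate _ j) → s i = t i := by
    rw [(finRotate (m + 1)).surjective.forall (p := fun i => i ≠ finRotate _ j → _)]
    simp only [ne_eq, EmbeddingLike.apply_eq_iff_eq]
  simp only [hc, ← rot_zero j]
  generalize finRotate (m + 1) j = k
  by_cases h : ∀ i, i ≠ k → i ≠ finRotate _ k → s i = t i
  · rw [if_pos h, if_pos h]
    by_cases h0 : k = 0
    · have : k ≠ Fin.last m := fun e => by
        have := congrArg Fin.val (h0.symm.trans e)
        simp at this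
        omega
      rw [if_pos h0, if_neg this, h0]
      exact loc_left _ _ _ _ _
    · rw [if_neg h0]
      by_cases h1 : k = Fin.last m
      · rw [if_pos h1, (rot_zero k).2 h1]
        exact loc_right _ _ _ _ _
      · rw [if_neg h1, h 0 (Ne.symm h0) fun e => h1 ((rot_zero k).1 e.symm), chi_sq, one_mul]
  · rw [if_neg h, if_neg h, mul_zero]

theorem diag_rev {L : ℕ} (hL : 2 ≤ L) (g : G) (n : ℕ) (s : Cfg L) :
    (M L g ^ n) (fun j => s j.rev) (fun j => s j.rev) = (M L g ^ n) s s := by
  obtain ⟨m, rfl⟩ : ∃ m, L = m + 1 := ⟨L - 1, by omega⟩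
  refine conj_diag (M (m + 1) g) (M (m + 1) g)
    (Equiv.arrowCongr Fin.revPerm (Equiv.refl _)) (fun _ => 1) (fun _ => rfl) (fun s t => ?_) n s
  rw [one_mul, one_mul]
  change M (m + 1) g (fun j => s j.rev) (fun j => t j.rev) = _
  refine Fintype.sum_equiv ((finRotate (m + 1)).trans Fin.revPerm) _ _ fun j => ?_
  simp only [Equiv.trans_apply, Fin.revPerm_apply, rot_rev, last_iff]
  refine if_congr ?_ ?_ rfl
  · rw [Fin.rev_surjective.forall (p := fun i => i ≠ Fin.rev _ → _)]
    simp only [ne_eq, Fin.rev_inj]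
    exact forall_congr' fun _ => forall_comm
  · rw [loc_swap]
    simp only [← Fin.rev_zero, Fin.rev_inj, rot_zero]

theorem W_class (ε : ℝ) {L : ℕ} (hL : 2 ≤ L) (g α : G) (j : ℕ) :
    W ε L g α j = wv ε L j (cl g α) := by
  obtain ⟨π, h1, h2⟩ := exists_perm g α
  rw [wv, ← h1, ← h2]
  refine exp_sum_eq _ _ (fun n => ?_) _ _
  rw [sum_ev_pow hL, sum_ev_pow hL]
  congr 1
  refine Finset.sum_equiv (Equiv.piCongrRight fun _ => π) (fun s => ?_) fun s _ =>
    (diag_perm L g π n s).symm
  simp only [mem_filter, mem_univ, true_and]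
  rw [← pG_inj π, ← sec_perm]
  rfl

end Vale.Agent.P348
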