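import Vale.Agent.P348.SpA
import Vale.Agent.P348.Sym
import Vale.Agent.P348.Atm

/-! Part SpB: Trotter limit and the space atoms. -/

namespace Vale.Agent.P348

open Finset Filter Topology

theorem spB_pow_sub {A : Type} [NormedRing A] [NormOneClass A] (X Y : A) (c : ℝ) (hc : 1 ≤ c)
    (hX : ‖X‖ ≤ c) (hY : ‖Y‖ ≤ c) (m : ℕ) : ‖X ^ m - Y ^ m‖ ≤ m * ‖X - Y‖ * c ^ m := by
  induction m with
  | zero => simp
  | succ m ih =>
    have e : X ^ (m + 1) - Y ^ (m + 1) = X * (X ^ m - Y ^ m) + (X - Y) * Y ^ m := by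
      rw [pow_succ', pow_succ']; noncomm_ring
    have h1 : ‖Y ^ m‖ ≤ c ^ (m + 1) :=
      ((norm_pow_le Y m).trans (pow_le_pow_left₀ (norm_nonneg _) hY m)).trans
        (pow_le_pow_right₀ hc (Nat.le_succ m))
    have h2 : ‖X * (X ^ m - Y ^ m)‖ ≤ c * (m * ‖X - Y‖ * c ^ m) :=
      (norm_mul_le _ _).trans (mul_le_mul hX ih (norm_nonneg _) (by linarith))
    have h3 : ‖(X - Y) * Y ^ m‖ ≤ ‖X - Y‖ * c ^ (m + 1) :=
      (norm_mul_le _ _).trans (mul_le_mul_of_nonneg_left h1 (norm_nonneg _))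
    rw [e]
    refine (norm_add_le _ _).trans ((add_le_add h2 h3).trans (le_of_eq ?_))
    push_cast; ring

theorem spB_trot {A : Type} [NormedRing A] [NormedAlgebra ℝ A] [NormOneClass A] {κ : Type}
    (S : Finset κ) (Mx : A) (T : κ → A) (n : κ → ℕ) (hn : ∀ a ∈ S, 2 ≤ n a) (x : ℝ)
    (hx : 0 ≤ x) :
    Tendsto (fun m : ℕ => ‖(1 + (x / m) • Mx + ∑ a ∈ S, (x / m) ^ n a • T a) ^ m -
      (1 + (x / m) • Mx) ^ m‖) atTop (𝓝 0) := by
  set C : ℝ := ∑ a ∈ S, ‖T a‖ with hC
  have hC0 : 0 ≤ C := Finset.sum_nonneg fun _ _ => norm_nonneg _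
  set B : ℝ := ‖Mx‖ + C with hB
  have hB0 : 0 ≤ B := add_nonneg (norm_nonneg _) hC0
  refine squeeze_zero' (g := fun m : ℕ => (x ^ 2 * C * Real.exp (x * B)) / m)
    (Eventually.of_forall fun _ => norm_nonneg _) ?_
    (tendsto_const_div_atTop_nhds_zero_nat _)
  filter_upwards [eventually_ge_atTop 1, eventually_ge_atTop ⌈x⌉₊] with m hm1 hm2
  have hm : (0 : ℝ) < m := by exact_mod_cast hm1
  have hxm : x ≤ m := (Nat.le_ceil x).trans (by exact_mod_cast hm2)
  set y : ℝ := x / m with hy
  have hy0 : 0 ≤ y := div_nonneg hx hm.le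
  have hy1 : y ≤ 1 := (div_le_one hm).2 hxm
  have hR : ‖∑ a ∈ S, y ^ n a • T a‖ ≤ y ^ 2 * C := by
    rw [hC, Finset.mul_sum]
    refine (norm_sum_le _ _).trans (Finset.sum_le_sum fun a ha => ?_)
    rw [norm_smul, Real.norm_of_nonneg (pow_nonneg hy0 _)]
    exact mul_le_mul_of_nonneg_right (pow_le_pow_of_le_one hy0 hy1 (hn a ha)) (norm_nonneg _)
  have hY : ‖1 + y • Mx‖ ≤ 1 + y * ‖Mx‖ := by
    refine (norm_add_le _ _).trans ?_
    rw [norm_one, norm_smul, Real.norm_of_nonneg hy0]
  have hy2 : y ^ 2 * C ≤ y * C := mul_le_mul_of_nonneg_right (by nlinarith) hC0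
  have hc : 1 ≤ 1 + y * B := by nlinarith [mul_nonneg hy0 hB0]
  have h := spB_pow_sub (1 + y • Mx + ∑ a ∈ S, y ^ n a • T a) (1 + y • Mx) (1 + y * B) hc
    ((norm_add_le _ _).trans (by rw [hB]; nlinarith))
    (hY.trans (by rw [hB]; nlinarith [mul_nonneg hy0 hC0])) m
  refine h.trans ?_
  rw [add_sub_cancel_left]
  have h4 : (1 + y * B) ^ m ≤ Real.exp (x * B) := by
    have : x * B = m * (y * B) := by rw [hy]; field_simp
    rw [this, Real.exp_nat_mul]
    exact pow_le_pow_left₀ (by linarith) (by linarith [Real.add_one_le_exp (y * B)]) m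
  have h5 : x ^ 2 * C * Real.exp (x * B) / m = m * (y ^ 2 * C) * Real.exp (x * B) := by
    rw [hy]; field_simp
  rw [h5]
  exact mul_le_mul (mul_le_mul_of_nonneg_left hR hm.le) h4 (by positivity) (by positivity)

open scoped Matrix.Norms.Operator in
theorem spB_trot_mat {ι : Type} [Fintype ι] [DecidableEq ι] [Nonempty ι] {κ : Type}
    (S : Finset κ) (Mx : Matrix ι ι ℝ) (T : κ → Matrix ι ι ℝ) (n : κ → ℕ)
    (hn : ∀ a ∈ S, 2 ≤ n a) (x : ℝ) (hx : 0 ≤ x) (s : ι) :
    Tendsto (fun m : ℕ => ((1 + (x / m) • Mx + ∑ a ∈ S, (x / m) ^ n a • T a) ^ m) s s -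
      ((1 + (x / m) • Mx) ^ m) s s) atTop (𝓝 0) := by
  have key : ∀ A : Matrix ι ι ℝ, ‖A s s‖ ≤ ‖A‖ := by
    intro A
    rw [Matrix.linfty_opNorm_def]
    have h1 : ‖A s s‖₊ ≤ ∑ j, ‖A s j‖₊ :=
      Finset.single_le_sum (f := fun j => ‖A s j‖₊) (fun _ _ => zero_le) (Finset.mem_univ s)
    exact_mod_cast h1.trans
      (Finset.le_sup (f := fun i => ∑ j, ‖A i j‖₊) (Finset.mem_univ s))
  rw [tendsto_zero_iff_norm_tendsto_zero]
  refine squeeze_zero (fun _ => norm_nonneg _) (fun m => ?_) (spB_trot S Mx T n hn x hx)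
  exact key (_ - _)

/-- number of labelled bonds. -/
def nl {L : ℕ} (a : Fin L → Option (Fin 3)) : ℕ := (Finset.univ.filter fun j => a j ≠ none).card

/-- the contribution of one label configuration. -/
def TA (L : ℕ) (g : G) (a : Fin L → Option (Fin 3)) : Matrix (Cfg L) (Cfg L) ℝ := fun s t =>
  ∏ j : Fin L, (if (j : ℕ) + 1 = L then (chi g (clsO (a j)) : ℝ) else 1) *
    Wm 1 (a j) (a (finRotate L j)) (s (finRotate L j)) (t (finRotate L j))

theorem Wm_scale (δ : ℝ) (a a' : Option (Fin 3)) (b b' : Fin 3) :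
    Wm δ a a' b b' =
      (if a ≠ none then δ else 1) * (if a' ≠ none then δ else 1) * Wm 1 a a' b b' := by
  cases a <;> cases a' <;> simp [Wm]

theorem TT_eq (L : ℕ) (g : G) (δ : ℝ) : TT L g δ = ∑ a, (δ ^ 2) ^ nl a • TA L g a := by
  ext s t
  simp only [TT, Matrix.sum_apply, Matrix.smul_apply, TA, smul_eq_mul]
  refine Finset.sum_congr rfl fun a _ => ?_
  simp only [Wm_scale δ, Finset.prod_mul_distrib]
  rw [Equiv.prod_comp (finRotate L) fun j => if a j ≠ none then δ else 1]
  have : ∏ j, (if a j ≠ none then δ else 1) = δ ^ nl a := by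
    rw [Finset.prod_ite]; simp [nl]
  rw [this]; ring

theorem TA_none (L : ℕ) (g : G) : TA L g (fun _ => none) = 1 := by
  ext s t
  simp only [TA, clsO, chi_zero, Wm, Int.cast_one, ite_self, one_mul]
  rw [Equiv.prod_comp (finRotate L) fun j => if s j = t j then (1 : ℝ) else 0, Matrix.one_apply,
    Finset.prod_boole]
  simp [funext_iff]

theorem TA_single {L : ℕ} (hL : 2 ≤ L) (g : G) (j : Fin L) (c : Fin 3) (s t : Cfg L) :
    TA L g (Function.update (fun _ => none) j (some c)) s t =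
      if ∀ i, i ≠ j → i ≠ finRotate L j → s i = t i then
        ((chi (if (j : ℕ) + 1 = L then g else 0) (cls c) * eps c (s j) (t j) *
          eps c (s (finRotate L j)) (t (finRotate L j)) : ℤ) : ℝ) else 0 := by
  set a : Fin L → Option (Fin 3) := Function.update (fun _ => none) j (some c) with ha
  have haj : a j = some c := by simp [ha]
  have hai : ∀ i, i ≠ j → a i = none := fun i hi => by simp [ha, hi]
  have hne := ne_finRotate hL j
  unfold TA
  rw [Finset.prod_mul_distrib, Finset.prod_eq_single j]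
  rotate_left
  · intro i _ hi
    simp [hai i hi, clsO, chi_zero]
  · simp
  have e1 : ∏ i : Fin L, Wm 1 (a i) (a (finRotate L i)) (s (finRotate L i)) (t (finRotate L i)) =
      ∏ i : Fin L, Wm 1 (a ((finRotate L).symm i)) (a i) (s i) (t i) := by
    rw [← Equiv.prod_comp (finRotate L) fun i => Wm 1 (a ((finRotate L).symm i)) (a i) (s i) (t i)]
    simp only [Equiv.symm_apply_apply]
  have hj' : (finRotate L).symm j ≠ j := fun h => hne (by rw [Equiv.symm_apply_eq] at h; exact h)
  rw [e1, ← Finset.mul_prod_erase _ _ (Finset.mem_univ j),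
    ← Finset.mul_prod_erase _ _ (Finset.mem_erase.2 ⟨hne.symm, Finset.mem_univ (finRotate L j)⟩),
    Equiv.symm_apply_apply, hai _ hj', haj, hai _ hne.symm]
  have e2 : ∏ i ∈ (Finset.univ.erase j).erase (finRotate L j),
      Wm 1 (a ((finRotate L).symm i)) (a i) (s i) (t i) =
      if ∀ i, i ≠ j → i ≠ finRotate L j → s i = t i then 1 else 0 := by
    rw [Finset.prod_congr rfl (g := fun i => if s i = t i then 1 else 0), Finset.prod_boole]
    · congr 1
      simp only [Finset.mem_erase, Finset.mem_univ, and_true, eq_iff_iff]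
      exact ⟨fun h i h1 h2 => h i ⟨h2, h1⟩, fun h i hi => h i hi.2 hi.1⟩
    · intro i hi
      simp only [Finset.mem_erase, Finset.mem_univ, and_true] at hi
      rw [hai i hi.2, hai _ fun h => hi.1 (by rw [Equiv.symm_apply_eq] at h; exact h)]
      rfl
  rw [e2]
  have e3 : ∀ u : G, chi 0 u = 1 := by decide
  split_ifs <;> simp [Wm, clsO, e3, mul_assoc]

theorem TT_split {L : ℕ} (hL : 2 ≤ L) (g : G) (y : ℝ) :
    ∑ a, y ^ nl a • TA L g a = 1 + y • (M L g).map (Int.cast : ℤ → ℝ) +
      ∑ a with 2 ≤ nl a, y ^ nl a • TA L g a := by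
  rw [← Finset.sum_filter_add_sum_filter_not Finset.univ (fun a => 2 ≤ nl a), add_comm,
    ← Finset.sum_filter_add_sum_filter_not _ (fun a => nl a = 0), Finset.filter_filter,
    Finset.filter_filter]
  congr 2
  · have : (Finset.univ.filter fun a : Fin L → Option (Fin 3) => ¬2 ≤ nl a ∧ nl a = 0) =
        {fun _ => none} := by
      ext a
      simp only [Finset.mem_filter, Finset.mem_univ, true_and, Finset.mem_singleton]
      constructor
      · rintro ⟨-, h⟩
        funext j
        by_contra hj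
        rw [nl, Finset.card_eq_zero, Finset.filter_eq_empty_iff] at h
        exact h (Finset.mem_univ j) hj
      · rintro rfl
        simp [nl]
    rw [this, Finset.sum_singleton, TA_none]
    simp [nl]
  · have hn : ∀ (j : Fin L) (c : Fin 3), nl (Function.update (fun _ => none) j (some c)) = 1 := by
      intro j c
      rw [nl, Finset.card_eq_one]
      refine ⟨j, ?_⟩
      ext i
      by_cases hi : i = j <;> simp [hi]
    have : (Finset.univ.filter fun a : Fin L → Option (Fin 3) => ¬2 ≤ nl a ∧ ¬nl a = 0) =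
        Finset.univ.image fun p : Fin L × Fin 3 =>
          Function.update (fun _ => none) p.1 (some p.2) := by
      ext a
      simp only [Finset.mem_filter, Finset.mem_univ, true_and, Finset.mem_image]
      constructor
      · intro h
        obtain ⟨j, hj⟩ := Finset.card_eq_one.1 (show nl a = 1 by omega)
        have h1 : a j ≠ none := by
          have : j ∈ Finset.univ.filter fun j => a j ≠ none := by rw [hj]; simp
          simpa using this
        obtain ⟨c, hc⟩ := Option.ne_none_iff_exists'.1 h1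
        refine ⟨(j, c), funext fun i => ?_⟩
        by_cases hi : i = j
        · simp [hi, hc]
        · have : i ∉ Finset.univ.filter fun j => a j ≠ none := by rw [hj]; simpa using hi
          simp only [Finset.mem_filter, Finset.mem_univ, true_and, not_not] at this
          simp [hi, this]
      · rintro ⟨p, rfl⟩
        rw [hn]; simp
    rw [this, Finset.sum_image]
    · ext s t
      rw [Fintype.sum_prod_type]
      simp only [hn, pow_one, Matrix.sum_apply, Matrix.smul_apply, smul_eq_mul, TA_single hL,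
        Matrix.map_apply, M, Int.cast_sum, Finset.mul_sum]
      refine Finset.sum_congr rfl fun j _ => ?_
      split_ifs <;> simp [loc, Finset.mul_sum]
    · rintro ⟨j, c⟩ - ⟨j', c'⟩ - h
      have h1 := congrFun h j
      by_cases hj : j = j'
      · subst hj
        simpa using h1
      · simp [hj] at h1

theorem euler_trace {L : ℕ} (hL : 2 ≤ L) (g α : G) (y : ℝ) (m : ℕ) :
    ∑ s : Cfg L with sec s = α, ((1 + y • (M L g).map (Int.cast : ℤ → ℝ)) ^ m) s s =
      ∑ i, (1 + y * ev L g α i) ^ m := by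
  simp only [add_comm (1 : ℝ), add_pow, one_pow, mul_one, mul_pow]
  rw [add_comm, (Commute.one_right _).add_pow, Finset.sum_comm]
  simp only [one_pow, mul_one, smul_pow, Matrix.sum_apply]
  rw [Finset.sum_comm]
  refine Finset.sum_congr rfl fun k _ => ?_
  rw [← Finset.sum_mul, ← Finset.mul_sum, sum_ev_pow hL, mom, Int.cast_sum, Finset.mul_sum,
    Finset.sum_mul]
  refine Finset.sum_congr rfl fun s _ => ?_
  have e : (M L g).map (Int.cast : ℤ → ℝ) ^ k = (M L g ^ k).map (Int.cast : ℤ → ℝ) :=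
    (Matrix.map_pow (M L g) (Int.castRingHom ℝ) k).symm
  rw [e, ← nsmul_eq_mul', Matrix.smul_apply, Matrix.smul_apply, Matrix.map_apply]
  simp [mul_comm]

theorem trotter {L : ℕ} (hL : 2 ≤ L) (g α : G) (j : ℕ) :
    Tendsto (fun m : ℕ => ∑ s : Cfg L with sec s = α, (TT L g (Real.sqrt (j / m)) ^ m) s s)
      atTop (𝓝 (∑ i, Real.exp (ev L g α i) ^ j)) := by
  have h1 : Tendsto (fun m : ℕ => ∑ i, (1 + (j / m : ℝ) * ev L g α i) ^ m) atTop
      (𝓝 (∑ i, Real.exp (ev L g α i) ^ j)) := by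
    refine tendsto_finsetSum _ fun i _ => ?_
    rw [← Real.exp_nat_mul]
    refine (Real.tendsto_one_add_div_pow_exp (j * ev L g α i)).congr fun m => ?_
    rw [div_mul_eq_mul_div]
  have h2 := tendsto_finsetSum (Finset.univ.filter fun s : Cfg L => sec s = α) fun s _ =>
    spB_trot_mat (Finset.univ.filter fun a : Fin L → Option (Fin 3) => 2 ≤ nl a)
      ((M L g).map (Int.cast : ℤ → ℝ)) (TA L g) nl (fun a ha => (Finset.mem_filter.1 ha).2)
      j (Nat.cast_nonneg j) s
  have h3 := h2.add h1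
  simp only [Finset.sum_const_zero, zero_add] at h3
  refine h3.congr fun m => ?_
  rw [Finset.sum_sub_distrib, euler_trace hL, sub_add_cancel, TT_eq,
    Real.sq_sqrt (by positivity), TT_split hL]

def spH : Fin 5 → G := ![0, 0, cls 2, cls 2, cls 2]
def spG : Fin 5 → G := ![0, cls 2, cls 2, 0, cls 0]

theorem Rm_eq (c d : Fin 5) :
    ∑ g : G, ∑ α : G, (if cl g α = d then chi (spG c) g * chi (spH c) α else 0) = Rm c d := by
  revert c d; decide

theorem dual_eq (X : Fin 5 → ℝ) (c : Fin 5) :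
    dual X c = (∑ g : G, (chi (spG c) g : ℝ) * ∑ α : G, (chi (spH c) α : ℝ) * X (cl g α)) / 4 := by
  unfold dual
  congr 1
  simp only [← Rm_eq, Int.cast_sum, Finset.sum_mul, Finset.mul_sum]
  rw [Finset.sum_comm]
  refine Finset.sum_congr rfl fun g _ => ?_
  rw [Finset.sum_comm]
  refine Finset.sum_congr rfl fun α _ => ?_
  rw [Finset.sum_eq_single (cl g α)]
  · simp [mul_assoc]
  · intro d _ hd
    simp [hd.symm]
  · simp

theorem space (ε : ℝ) (j : ℕ) (c : Fin 5) :
    ∃ t u t' u', Atoms true (fun L => dual (wv ε L j) c) t u t' u' := by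
  refine atoms_lim (fun m L => Real.exp (-(ε * j)) ^ L *
    ((∑ g : G, (chi (spG c) g : ℝ) * ∑ s : Cfg L, (chi (spH c) (sec s) : ℝ) *
      (TT L g (Real.sqrt (j / (m + 1 : ℕ))) ^ (m + 1)) s s) / 4)) _ (fun m => ?_) (fun L hL => ?_)
  · obtain ⟨n, μ, hμ⟩ := space_fin (m + 1) (by omega) (Real.sqrt (j / (m + 1 : ℕ))) (spH c) (spG c)
    obtain ⟨t, u, t', u', h⟩ := atoms_fin fun i => Real.exp (-(ε * j)) * μ i
    refine ⟨t, u, t', u', h.congr fun L hL => ?_⟩
    simp only [mul_pow]
    rw [← Finset.mul_sum, hμ L hL]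
  · rw [dual_eq]
    have e : (∑ g : G, (chi (spG c) g : ℝ) * ∑ α : G, (chi (spH c) α : ℝ) * wv ε L j (cl g α)) / 4 =
        Real.exp (-(ε * j)) ^ L * ((∑ g : G, (chi (spG c) g : ℝ) * ∑ α : G, (chi (spH c) α : ℝ) *
          ∑ i, Real.exp (ev L g α i) ^ j) / 4) := by
      simp only [← W_class ε hL, W, ← mul_div_assoc, Finset.mul_sum]
      congr 1
      refine Finset.sum_congr rfl fun g _ => Finset.sum_congr rfl fun α _ =>
        Finset.sum_congr rfl fun i _ => ?_
      have : Real.exp (ev L g α i - ε * L) ^ j =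
          Real.exp (-(ε * j)) ^ L * Real.exp (ev L g α i) ^ j := by
        rw [← Real.exp_nat_mul, ← Real.exp_nat_mul, ← Real.exp_nat_mul, ← Real.exp_add]
        ring_nf
      rw [this]; ring
    rw [e]
    refine Tendsto.const_mul _ (Tendsto.div_const (tendsto_finsetSum _ fun g _ =>
      Tendsto.const_mul _ ?_) _)
    have h := tendsto_finsetSum Finset.univ fun α _ =>
      ((trotter hL g α j).comp (tendsto_add_atTop_nat 1)).const_mul (chi (spH c) α : ℝ)
    refine h.congr fun m => ?_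
    rw [← Finset.sum_fiberwise Finset.univ (sec (L := L))]
    refine Finset.sum_congr rfl fun α _ => ?_
    simp only [Function.comp, Finset.mul_sum]
    refine Finset.sum_congr rfl fun s hs => ?_
    rw [(Finset.mem_filter.1 hs).2]

end Vale.Agent.P348
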