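import Vale.Agent.P348.Base

/-! Part Spec: block structure and spectral facts. -/

namespace Vale.Agent.P348

open Finset Matrix

theorem herm_trace_pow {ι : Type} [Fintype ι] [DecidableEq ι] {B : Matrix ι ι ℝ}
    (hB : B.IsHermitian) (n : ℕ) : (B ^ n).trace = ∑ i, hB.eigenvalues i ^ n := by
  conv_lhs => rw [hB.spectral_theorem, ← map_pow, Unitary.conjStarAlgAut_apply, trace_mul_comm,
    ← mul_assoc]
  simp [diagonal_pow]

theorem herm_rayleigh {ι : Type} [Fintype ι] [DecidableEq ι] {B : Matrix ι ι ℝ}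
    (hB : B.IsHermitian) (lam : ℝ) (h : ∀ i, hB.eigenvalues i ≤ lam) (v : ι → ℝ) :
    ∑ s, ∑ t, v s * B s t * v t ≤ lam * ∑ s, v s ^ 2 := by
  have h1 : (lam • (1 : Matrix ι ι ℝ) - B).PosSemidef := by
    have e : lam • (1 : Matrix ι ι ℝ) - B = Unitary.conjStarAlgAut ℝ _ hB.eigenvectorUnitary
        (diagonal fun i => lam - hB.eigenvalues i) := by
      have e2 : (diagonal fun i => lam - hB.eigenvalues i) =
          lam • (1 : Matrix ι ι ℝ) - diagonal (RCLike.ofReal ∘ hB.eigenvalues) := by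
        ext a b
        by_cases hab : a = b <;> simp [hab]
      rw [e2, map_sub, map_smul, map_one, ← hB.spectral_theorem]
    rw [e, Unitary.conjStarAlgAut_apply]
    exact (PosSemidef.diagonal fun i => sub_nonneg.2 (h i)).mul_mul_conjTranspose_same _
  have h2 := h1.dotProduct_mulVec_nonneg v
  rw [sub_mulVec, dotProduct_sub, smul_mulVec, one_mulVec, dotProduct_smul] at h2
  simp only [dotProduct, mulVec, star_trivial, smul_eq_mul, Finset.mul_sum] at h2
  simp only [Finset.mul_sum, sq, mul_assoc]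
  linarith

theorem blk_pow {ι κ : Type} [Fintype ι] [DecidableEq ι] [DecidableEq κ]
    (K : Matrix ι ι ℝ) (p : ι → κ) (hp : ∀ a b, p a ≠ p b → K a b = 0) (γ : κ) (n : ℕ) :
    ∀ a b : {a // p a = γ}, (K ^ n) a.1 b.1 =
      ((K.submatrix (Subtype.val : {a // p a = γ} → ι) Subtype.val) ^ n) a b := by
  induction n with
  | zero => intro a b; simp [one_apply, Subtype.ext_iff]
  | succ n ih =>
    intro a b
    rw [pow_succ, pow_succ, mul_apply, mul_apply]
    rw [← Finset.sum_filter_of_ne (p := fun c => p c = γ), Finset.sum_subtype (p := fun c => p c = γ)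
      _ (by simp)]
    · exact Finset.sum_congr rfl fun c _ => by rw [ih]; rfl
    · intro c _ hc
      by_contra h
      exact hc (by rw [hp c b.1 (by rw [b.2]; exact h), mul_zero])

/-- generic: power traces of a block of a real symmetric block diagonal matrix. -/
theorem blk_trace_pow {ι κ : Type} [Fintype ι] [DecidableEq ι] [DecidableEq κ]
    (K : Matrix ι ι ℝ) (p : ι → κ) (hp : ∀ a b, p a ≠ p b → K a b = 0) (γ : κ)
    (hB : (K.submatrix (Subtype.val : {a // p a = γ} → ι) Subtype.val).IsHermitian) (n : ℕ) :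
    ∑ a with p a = γ, (K ^ n) a a = ∑ i, hB.eigenvalues i ^ n := by
  rw [← herm_trace_pow hB n, Finset.sum_subtype (p := fun c => p c = γ) _ (by simp)]
  exact Finset.sum_congr rfl fun a _ => blk_pow K p hp γ n a a

theorem ne_finRotate {L : ℕ} (hL : 2 ≤ L) (j : Fin L) : j ≠ finRotate L j := by
  obtain ⟨n, rfl⟩ : ∃ n, L = n + 2 := ⟨L - 2, by omega⟩
  rw [finRotate_apply]
  simp

theorem loc_cls (g : G) (b e b' e' : Fin 3) (h : loc g b e b' e' ≠ 0) :
    cls b - cls b' + (cls e - cls e') = 0 := by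
  revert g b e b' e'; decide

theorem M_block {L : ℕ} (hL : 2 ≤ L) (g : G) (s t : Cfg L) (h : sec s ≠ sec t) :
    M L g s t = 0 := by
  refine Finset.sum_eq_zero fun j _ => ?_
  split_ifs with h1 h2
  all_goals first | rfl | skip
  all_goals
    by_contra h3
    refine h (sub_eq_zero.1 ?_)
    rw [sec, sec, ← Finset.sum_sub_distrib, Fintype.sum_eq_add j (finRotate L j) (ne_finRotate hL j)
      fun c hc => by rw [h1 c hc.1 hc.2, sub_self]]
    exact loc_cls _ _ _ _ _ h3

theorem loc_diag (g : G) (b e : Fin 3) : loc g b e b e = 0 := by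
  revert g b e; decide

theorem M_diag (L : ℕ) (g : G) (s : Cfg L) : M L g s s = 0 := by
  refine Finset.sum_eq_zero fun j _ => ?_
  simp [loc_diag]

theorem sum_ev_pow {L : ℕ} (hL : 2 ≤ L) (g α : G) (n : ℕ) :
    ∑ i, ev L g α i ^ n = (mom L g α n : ℝ) := by
  have h := blk_trace_pow ((M L g).map (Int.cast : ℤ → ℝ)) sec
    (fun a b hab => by simp [M_block hL g a b hab]) α (blk_herm L g α) n
  refine h.symm.trans ?_
  rw [mom, Int.cast_sum]
  refine Finset.sum_congr rfl fun s _ => ?_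
  have e := map_pow (Int.castRingHom ℝ).mapMatrix (M L g) n
  exact (congrFun (congrFun e s) s).symm

theorem sum_sec {L : ℕ} (hL : 2 ≤ L) (g α : G) (s : {s : Cfg L // sec s = α}) (v : Cfg L → ℝ) :
    ∑ t, (M L g s.1 t : ℝ) * v t = ∑ t : {s : Cfg L // sec s = α}, blk L g α s t * v t.1 := by
  rw [← Finset.sum_filter_of_ne (p := fun c => sec c = α),
    Finset.sum_subtype (p := fun c => sec c = α) _ (by simp)]
  · rfl
  · intro c _ hc
    by_contra h
    exact hc (by rw [M_block hL g s.1 c (by rw [s.2]; exact Ne.symm h)]; simp)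

theorem eig_iff {L : ℕ} (hL : 2 ≤ L) (g : G) (x : ℝ) :
    (∃ v : Cfg L → ℝ, v ≠ 0 ∧ ((M L g).map (Int.cast : ℤ → ℝ)) *ᵥ v = x • v) ↔
      ∃ α i, ev L g α i = x := by
  constructor
  · rintro ⟨v, hv, e⟩
    obtain ⟨s, hs⟩ := Function.ne_iff.1 hv
    refine ⟨sec s, ?_⟩
    have h1 : x ∈ spectrum ℝ (blk L g (sec s)) := by
      rw [spectrum.mem_iff, isUnit_iff_isUnit_det, isUnit_iff_ne_zero, not_not,
        ← exists_mulVec_eq_zero_iff]
      refine ⟨fun t => v t.1, fun h => hs (congrFun h ⟨s, rfl⟩), ?_⟩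
      ext t
      have h2 := congrFun e t.1
      simp only [mulVec, dotProduct, map_apply, Pi.smul_apply, smul_eq_mul] at h2
      rw [sum_sec hL g _ t v] at h2
      rw [sub_mulVec, Algebra.algebraMap_eq_smul_one, smul_mulVec, one_mulVec]
      simp only [mulVec, dotProduct, Pi.sub_apply, Pi.smul_apply, smul_eq_mul, Pi.zero_apply]
      linarith
    rw [(blk_herm L g (sec s)).spectrum_real_eq_range_eigenvalues] at h1
    exact h1
  · rintro ⟨α, i, rfl⟩
    have h1 := (blk_herm L g α).mulVec_eigenvectorBasis i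
    set w : {s : Cfg L // sec s = α} → ℝ := ⇑((blk_herm L g α).eigenvectorBasis i) with hw
    have h0 : w ≠ 0 := (WithLp.ofLp_eq_zero 2).ne.2 <|
      (blk_herm L g α).eigenvectorBasis.orthonormal.ne_zero i
    refine ⟨fun s => if h : sec s = α then w ⟨s, h⟩ else 0, fun h => h0 ?_, ?_⟩
    · ext t
      simpa [t.2] using congrFun h t.1
    · ext s
      simp only [mulVec, dotProduct, map_apply, Pi.smul_apply, smul_eq_mul]
      by_cases hs : sec s = α
      · rw [sum_sec hL g α ⟨s, hs⟩, dif_pos hs]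
        have h2 := congrFun h1 ⟨s, hs⟩
        simp only [mulVec, dotProduct, Pi.smul_apply, smul_eq_mul] at h2
        refine Eq.trans (Finset.sum_congr rfl fun t _ => ?_) h2
        rw [dif_pos t.2]
      · rw [dif_neg hs, mul_zero]
        refine Finset.sum_eq_zero fun t _ => ?_
        by_cases ht : sec t = α
        · rw [M_block hL g s t (by rw [ht]; exact hs)]; simp
        · rw [dif_neg ht, mul_zero]

theorem rayleigh {L : ℕ} (hL : 2 ≤ L) (g : G) (lam : ℝ) (h : ∀ α i, ev L g α i ≤ lam)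
    (v : Cfg L → ℝ) : ∑ s, ∑ t, v s * (M L g s t : ℝ) * v t ≤ lam * ∑ s, v s ^ 2 := by
  rw [← Fintype.sum_fiberwise (sec (L := L)), ← Fintype.sum_fiberwise (sec (L := L)) fun s => v s ^ 2,
    Finset.mul_sum]
  refine Finset.sum_le_sum fun α _ => ?_
  refine le_trans (le_of_eq ?_) (herm_rayleigh (blk_herm L g α) lam (h α) fun s => v s.1)
  refine Finset.sum_congr rfl fun s _ => ?_
  simp only [mul_assoc, ← Finset.mul_sum]
  rw [sum_sec hL g α s v]

theorem hasSum_exp_sum {ι : Type} [Fintype ι] (x : ι → ℝ) (j : ℕ) :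
    HasSum (fun n : ℕ => (j : ℝ) ^ n / n.factorial * ∑ i, x i ^ n)
      (∑ i, Real.exp (j * x i)) := by
  simp only [Finset.mul_sum]
  refine hasSum_sum fun i _ => ?_
  have h := NormedSpace.expSeries_div_hasSum_exp (j * x i : ℝ)
  rw [← Real.exp_eq_exp_ℝ] at h
  have e : (fun n : ℕ => (j : ℝ) ^ n / n.factorial * x i ^ n) =
      fun n : ℕ => (j * x i) ^ n / n.factorial := by
    funext n; rw [mul_pow]; ring
  rw [e]
  exact h

/-- equal power sums give equal exponential sums. -/
theorem exp_sum_eq {ι κ : Type} [Fintype ι] [Fintype κ] (x : ι → ℝ) (y : κ → ℝ)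
    (h : ∀ n : ℕ, ∑ i, x i ^ n = ∑ i, y i ^ n) (c : ℝ) (j : ℕ) :
    ∑ i, Real.exp (x i - c) ^ j = ∑ i, Real.exp (y i - c) ^ j := by
  have e : ∀ z : ℝ, Real.exp (z - c) ^ j = Real.exp (-(j * c)) * Real.exp (j * z) := by
    intro z
    rw [← Real.exp_nat_mul, ← Real.exp_add]; ring_nf
  simp only [e, ← Finset.mul_sum]
  congr 1
  have h1 := hasSum_exp_sum x j
  simp only [h] at h1
  exact h1.unique (hasSum_exp_sum y j)

end Vale.Agent.P348
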