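import Vale.Agent.P348.SpB

/-! Part Var: variational bound from an isometric matrix product state. -/

namespace Vale.Agent.P348

open Finset Matrix

/-- two-site element after the phase gauge `(1, i, 1)`: swap `-1`, pair conversion `+1`
except `-1` when colour `1` takes part. -/
def locP (b e b' e' : Fin 3) : ℤ :=
  if b = e ∧ (b = 1 ∨ b' = 1) then - loc 0 b e b' e' else loc 0 b e b' e'

namespace Var

theorem sum_cons {L : ℕ} (f : Cfg (L + 1) → ℝ) :
    ∑ s, f s = ∑ a, ∑ s : Cfg L, f (Fin.cons a s) := by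
  rw [← (Fin.consEquiv fun _ : Fin (L + 1) => Fin 3).sum_comp, Fintype.sum_prod_type]
  rfl

variable {n : ℕ} (A : Fin 3 → Matrix (Fin n) (Fin n) ℝ) (φ : Fin n → ℝ)

/-- the matrix product vectors. -/
def Phi : (L : ℕ) → Cfg L → Fin n → ℝ
  | 0, _ => φ
  | L + 1, s => A (s 0) *ᵥ Phi L (Fin.tail s)

theorem Phi_cons {L : ℕ} (a : Fin 3) (s : Cfg L) :
    Phi A φ (L + 1) (Fin.cons a s) = A a *ᵥ Phi A φ L s := rfl

theorem dot_mul (B C X : Matrix (Fin n) (Fin n) ℝ) (x y : Fin n → ℝ) :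
    (B *ᵥ x) ⬝ᵥ (X *ᵥ (C *ᵥ y)) = x ⬝ᵥ ((Bᵀ * X * C) *ᵥ y) := by
  rw [← mulVec_mulVec, ← mulVec_mulVec, dotProduct_mulVec x, vecMul_transpose]

theorem dot_mul' (B C : Matrix (Fin n) (Fin n) ℝ) (x y : Fin n → ℝ) :
    (B *ᵥ x) ⬝ᵥ (C *ᵥ y) = x ⬝ᵥ ((Bᵀ * C) *ᵥ y) := by
  simpa using dot_mul B C 1 x y

theorem dot_sum {ι : Type} [Fintype ι] (X : ι → Matrix (Fin n) (Fin n) ℝ) (x y : Fin n → ℝ) :
    x ⬝ᵥ ((∑ i, X i) *ᵥ y) = ∑ i, x ⬝ᵥ (X i *ᵥ y) := by
  rw [Matrix.sum_mulVec, dotProduct_sum]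

/-- expectation of a bond operator. -/
def NN (L : ℕ) (X : Matrix (Fin n) (Fin n) ℝ) : ℝ :=
  ∑ s : Cfg L, Phi A φ L s ⬝ᵥ (X *ᵥ Phi A φ L s)

theorem NN_succ (L : ℕ) (X : Matrix (Fin n) (Fin n) ℝ) :
    NN A φ (L + 1) X = NN A φ L (∑ a, (A a)ᵀ * X * A a) := by
  rw [NN, sum_cons, Finset.sum_comm]
  refine Finset.sum_congr rfl fun s _ => ?_
  rw [dot_sum]
  exact Finset.sum_congr rfl fun a _ => dot_mul _ _ _ _ _

theorem NN_one (hA : ∑ a, (A a)ᵀ * A a = 1) (L : ℕ) : NN A φ L 1 = φ ⬝ᵥ φ := by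
  induction L with
  | zero => simp [NN, Phi]
  | succ L ih =>
    rw [NN_succ]
    simp only [Matrix.mul_one, hA, ih]

theorem quad_le (Y : Matrix (Fin n) (Fin n) ℝ) (x : Fin n → ℝ) :
    |x ⬝ᵥ (Y *ᵥ x)| ≤ (∑ i, ∑ j, |Y i j|) * (x ⬝ᵥ x) := by
  have h : ∀ i, x i * x i ≤ x ⬝ᵥ x := fun i =>
    Finset.single_le_sum (f := fun k => x k * x k) (fun k _ => mul_self_nonneg _) (mem_univ i)
  generalize x ⬝ᵥ x = N at h
  simp only [dotProduct, mulVec, Finset.mul_sum, Finset.sum_mul]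
  refine (Finset.abs_sum_le_sum_abs _ _).trans (Finset.sum_le_sum fun i _ => ?_)
  refine (Finset.abs_sum_le_sum_abs _ _).trans (Finset.sum_le_sum fun j _ => ?_)
  rw [show x i * (Y i j * x j) = Y i j * (x i * x j) by ring, abs_mul]
  refine mul_le_mul_of_nonneg_left (abs_le.2 ⟨?_, ?_⟩) (abs_nonneg _)
  · nlinarith [h i, h j, sq_nonneg (x i + x j)]
  · nlinarith [h i, h j, sq_nonneg (x i - x j)]

theorem NN_abs (hA : ∑ a, (A a)ᵀ * A a = 1) (L : ℕ) (Y : Matrix (Fin n) (Fin n) ℝ) :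
    |NN A φ L Y| ≤ (∑ i, ∑ j, |Y i j|) * (φ ⬝ᵥ φ) := by
  rw [← NN_one A φ hA L, NN, NN, Finset.mul_sum]
  refine (Finset.abs_sum_le_sum_abs _ _).trans (Finset.sum_le_sum fun s _ => ?_)
  rw [one_mulVec]
  exact quad_le _ _

/-- gauge transformed bond term. -/
def bond (L : ℕ) (j : Fin L) (s t : Cfg L) : ℝ :=
  if ∀ i, i ≠ j → i ≠ finRotate L j → s i = t i then
    (locP (s j) (s (finRotate L j)) (t j) (t (finRotate L j)) : ℝ) else 0

theorem rot_succ {L : ℕ} (j : Fin L) (h : (j : ℕ) + 1 ≠ L) :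
    finRotate (L + 1) j.succ = (finRotate L j).succ := by
  obtain ⟨m, rfl⟩ : ∃ m, L = m + 1 := ⟨L - 1, by have := j.2; omega⟩
  have h1 : j ≠ Fin.last m := fun e => h (by simp [e])
  have h2 : j.succ ≠ Fin.last (m + 1) := fun e => h1 (Fin.succ_injective _ (by simpa using e))
  ext
  rw [coe_finRotate_of_ne_last h2, Fin.val_succ, Fin.val_succ, coe_finRotate_of_ne_last h1]

theorem bond_succ {L : ℕ} (j : Fin L) (h : (j : ℕ) + 1 ≠ L) (a a' : Fin 3) (s t : Cfg L) :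
    bond (L + 1) j.succ (Fin.cons a s) (Fin.cons a' t) = if a = a' then bond L j s t else 0 := by
  simp only [bond, rot_succ j h, Fin.forall_fin_succ, Fin.cons_zero, Fin.cons_succ, ne_eq,
    Fin.succ_inj, (Fin.succ_ne_zero _).symm, not_false_eq_true, forall_const]
  by_cases e : a = a' <;> simp [e]

theorem bond_zero {m : ℕ} (b e b' e' : Fin 3) (s t : Cfg m) :
    bond (m + 2) 0 (Fin.cons b (Fin.cons e s)) (Fin.cons b' (Fin.cons e' t)) =
      if s = t then (locP b e b' e' : ℝ) else 0 := by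
  have h : finRotate (m + 2) 0 = Fin.succ 0 := by simp
  simp only [bond, h, Fin.forall_fin_succ, Fin.cons_zero, Fin.cons_succ, ne_eq,
    Fin.succ_inj, Fin.succ_ne_zero, not_false_eq_true, forall_const, not_true_eq_false,
    IsEmpty.forall_iff, true_and, funext_iff]

/-- bond energy. -/
def BE (L : ℕ) (j : Fin L) : ℝ :=
  ∑ s, ∑ t, bond L j s t * (Phi A φ L s ⬝ᵥ Phi A φ L t)

theorem BE_succ (hA : ∑ a, (A a)ᵀ * A a = 1) {L : ℕ} (j : Fin L) (h : (j : ℕ) + 1 ≠ L) :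
    BE A φ (L + 1) j.succ = BE A φ L j := by
  rw [BE, sum_cons, Finset.sum_comm]
  refine Finset.sum_congr rfl fun s _ => ?_
  simp only [sum_cons (L := L), bond_succ j h, Phi_cons, ite_mul, zero_mul]
  simp only [← Finset.sum_comm (s := (univ : Finset (Cfg L))), Finset.sum_ite_eq, mem_univ, if_true]
  refine Finset.sum_congr rfl fun t _ => ?_
  rw [← Finset.mul_sum]
  congr 1
  simp only [dot_mul']
  rw [← dot_sum, hA, one_mulVec]

theorem BE_zero (m : ℕ) : BE A φ (m + 2) 0 = NN A φ m (∑ b, ∑ e, ∑ b', ∑ e',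
    (locP b e b' e' : ℝ) • ((A b * A e)ᵀ * (A b' * A e'))) := by
  rw [BE]
  simp only [sum_cons (L := m + 1), sum_cons (L := m), bond_zero, Phi_cons, ite_mul, zero_mul,
    Finset.sum_ite_eq, mem_univ, if_true]
  simp only [← Finset.sum_comm (s := (univ : Finset (Cfg m))), NN, dot_sum]
  refine Finset.sum_congr rfl fun s _ => Finset.sum_congr rfl fun b _ =>
    Finset.sum_congr rfl fun e _ => Finset.sum_congr rfl fun b' _ =>
    Finset.sum_congr rfl fun e' _ => ?_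
  rw [mulVec_mulVec, mulVec_mulVec, dot_mul', smul_mulVec, dotProduct_smul, smul_eq_mul]

theorem chain (Y : Matrix (Fin n) (Fin n) ℝ) (ε : ℝ) (hA : ∑ a, (A a)ᵀ * A a = 1)
    (hY : ∀ x : Fin n → ℝ, 0 ≤ x ⬝ᵥ ((∑ b, ∑ e, ∑ b', ∑ e', (locP b e b' e' : ℝ) •
      ((A b * A e)ᵀ * (A b' * A e')) - ε • 1 - Y + ∑ a, (A a)ᵀ * Y * A a) *ᵥ x)) (m : ℕ) :
    m * ε * (φ ⬝ᵥ φ) + NN A φ 0 Y - NN A φ m Y ≤
      ∑ j : Fin (m + 1), if (j : ℕ) + 1 = m + 1 then 0 else BE A φ (m + 1) j := by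
  induction m with
  | zero => simp
  | succ m ih =>
    rw [Fin.sum_univ_succ, if_neg (by simp), BE_zero]
    have e : ∀ j : Fin (m + 1), (if (j.succ : ℕ) + 1 = m + 1 + 1 then 0 else
        BE A φ (m + 1 + 1) j.succ) = if (j : ℕ) + 1 = m + 1 then 0 else BE A φ (m + 1) j := by
      intro j
      by_cases h : (j : ℕ) + 1 = m + 1
      · rw [if_pos h, if_pos (by simpa using h)]
      · rw [if_neg h, if_neg (by simpa using h), BE_succ A φ hA j h]
    simp only [e]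
    have h1 := Finset.sum_nonneg fun (s : Cfg m) (_ : s ∈ univ) => hY (Phi A φ m s)
    simp only [add_mulVec, sub_mulVec, dotProduct_add, dotProduct_sub, smul_mulVec,
      dotProduct_smul, smul_eq_mul, Finset.sum_add_distrib, Finset.sum_sub_distrib,
      ← Finset.mul_sum] at h1
    have h2 := NN_one A φ hA m
    have h3 := NN_succ A φ m Y
    simp only [NN] at *
    rw [h2] at h1
    rw [Nat.cast_succ]
    linarith

/-- the sign attached to the number of sites of colour `1`. -/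
def rr (x : ZMod 4) : ℤ := if x = 0 ∨ x = 1 then 1 else -1

def c1 (b : Fin 3) : ZMod 4 := if b = 1 then 1 else 0

theorem rr_loc (x : ZMod 4) (b e b' e' : Fin 3) :
    rr (c1 b + (c1 e + x)) * rr (c1 b' + (c1 e' + x)) * loc 0 b e b' e' = locP b e b' e' := by
  revert x b e b' e'; decide

theorem rr_sq (x : ZMod 4) : rr x ^ 2 = 1 := by revert x; decide

theorem sum_loc (b e b' e' : Fin 3) : ∑ g, loc g b e b' e' = 0 := by
  revert b e b' e'; decide

theorem sum_M {L : ℕ} (hL : 2 ≤ L) (s t : Cfg L) :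
    ((rr (∑ i, c1 (s i)) * rr (∑ i, c1 (t i)) * ∑ g, M L g s t : ℤ) : ℝ) =
      ∑ j : Fin L, if (j : ℕ) + 1 = L then 0 else 4 * bond L j s t := by
  simp only [M]
  rw [Finset.sum_comm, Finset.mul_sum, Int.cast_sum]
  refine Finset.sum_congr rfl fun j _ => ?_
  by_cases h1 : ∀ i, i ≠ j → i ≠ finRotate L j → s i = t i
  · simp only [if_pos h1, bond]
    by_cases h2 : (j : ℕ) + 1 = L
    · simp only [if_pos h2, sum_loc]; simp
    · simp only [if_neg h2]
      have hj : finRotate L j ∈ univ.erase j := 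
        Finset.mem_erase.2 ⟨(ne_finRotate hL j).symm, mem_univ _⟩
      have e : ∀ u : Cfg L, ∑ i, c1 (u i) = c1 (u j) + (c1 (u (finRotate L j)) +
          ∑ i ∈ (univ.erase j).erase (finRotate L j), c1 (u i)) := fun u => by
        rw [Finset.add_sum_erase _ (fun i => c1 (u i)) hj,
          Finset.add_sum_erase _ (fun i => c1 (u i)) (mem_univ j)]
      have e2 : ∑ i ∈ (univ.erase j).erase (finRotate L j), c1 (s i) =
          ∑ i ∈ (univ.erase j).erase (finRotate L j), c1 (t i) :=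
        Finset.sum_congr rfl fun i hi => by
          simp only [mem_erase] at hi
          rw [h1 i hi.2.1 hi.1]
      rw [e s, e t, e2, ← rr_loc (∑ i ∈ (univ.erase j).erase (finRotate L j), c1 (t i))]
      simp only [Finset.sum_const, card_univ, Fintype.card_prod, ZMod.card, nsmul_eq_mul]
      push_cast
      ring
  · simp only [if_neg h1, bond]; simp

end Var

open Var in
theorem var_ev {n : ℕ} (hn : 0 < n) (A : Fin 3 → Matrix (Fin n) (Fin n) ℝ)
    (Y : Matrix (Fin n) (Fin n) ℝ) (ε : ℝ) (hA : ∑ a, (A a)ᵀ * A a = 1)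
    (hY : ∀ x : Fin n → ℝ, 0 ≤ x ⬝ᵥ ((∑ b, ∑ e, ∑ b', ∑ e', (locP b e b' e' : ℝ) •
      ((A b * A e)ᵀ * (A b' * A e')) - ε • 1 - Y + ∑ a, (A a)ᵀ * Y * A a) *ᵥ x)) :
    ∃ C : ℝ, ∀ L, 2 ≤ L → ∃ g α i, ε * L - C ≤ ev L g α i := by
  refine ⟨ε + 2 * ∑ i, ∑ j, |Y i j|, fun L hL => ?_⟩
  obtain ⟨m, rfl⟩ : ∃ m, L = m + 1 := ⟨L - 1, by omega⟩
  obtain ⟨p, hp⟩ := Finite.exists_max fun p : G × Cfg (m + 1) => ev (m + 1) p.1 (sec p.2) ⟨p.2, rfl⟩
  refine ⟨p.1, _, ⟨p.2, rfl⟩, ?_⟩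
  set lam := ev (m + 1) p.1 (sec p.2) ⟨p.2, rfl⟩
  set φ : Fin n → ℝ := Pi.single ⟨0, hn⟩ 1 with hφ
  have h1 : φ ⬝ᵥ φ = 1 := by simp [hφ]
  have h2 := chain A φ Y ε hA hY m
  have h3 := abs_le.1 (NN_abs A φ hA 0 Y)
  have h4 := abs_le.1 (NN_abs A φ hA m Y)
  have h5 := NN_one A φ hA (m + 1)
  rw [h1] at h2 h3 h4 h5
  have h6 := Finset.sum_le_sum fun (g : G) (_ : g ∈ univ) =>
    Finset.sum_le_sum fun (k : Fin n) (_ : k ∈ univ) =>
      rayleigh hL g lam (by rintro _ ⟨s, rfl⟩; exact hp (g, s))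
        fun s => (rr (∑ i, c1 (s i)) : ℝ) * Phi A φ (m + 1) s k
  have h7 : ∑ k : Fin n, lam * ∑ s : Cfg (m + 1),
      ((rr (∑ i, c1 (s i)) : ℝ) * Phi A φ (m + 1) s k) ^ 2 = lam := by
    rw [← Finset.mul_sum, Finset.sum_comm]
    conv_rhs => rw [← mul_one lam, ← h5, NN]
    congr 1
    refine Finset.sum_congr rfl fun s _ => ?_
    rw [one_mulVec, dotProduct]
    refine Finset.sum_congr rfl fun k _ => ?_
    rw [mul_pow, ← Int.cast_pow, rr_sq]
    push_cast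
    ring
  have h8 : ∑ g : G, ∑ k : Fin n, ∑ s : Cfg (m + 1), ∑ t : Cfg (m + 1),
      (rr (∑ i, c1 (s i)) : ℝ) * Phi A φ (m + 1) s k * (M (m + 1) g s t : ℝ) *
        ((rr (∑ i, c1 (t i)) : ℝ) * Phi A φ (m + 1) t k) =
      4 * ∑ j : Fin (m + 1), if (j : ℕ) + 1 = m + 1 then 0 else BE A φ (m + 1) j := by
    have e : ∀ j : Fin (m + 1), 4 * (if (j : ℕ) + 1 = m + 1 then 0 else BE A φ (m + 1) j) =
        ∑ s, ∑ t, (if (j : ℕ) + 1 = m + 1 then 0 else 4 * bond (m + 1) j s t) *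
          (Phi A φ (m + 1) s ⬝ᵥ Phi A φ (m + 1) t) := by
      intro j
      split_ifs
      · simp
      · simp only [BE, Finset.mul_sum, mul_assoc]
    rw [Finset.mul_sum]
    simp only [e]
    rw [Finset.sum_comm (s := (univ : Finset (Fin (m + 1))))]
    simp only [Finset.sum_comm (s := (univ : Finset (Fin n))) (t := (univ : Finset (Cfg (m + 1))))]
    rw [Finset.sum_comm]
    refine Finset.sum_congr rfl fun s _ => ?_
    rw [Finset.sum_comm, Finset.sum_comm (s := (univ : Finset (Fin (m + 1))))]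
    refine Finset.sum_congr rfl fun t _ => ?_
    rw [← Finset.sum_mul, ← sum_M hL s t, dotProduct]
    push_cast
    simp only [Finset.mul_sum, Finset.sum_mul]
    rw [Finset.sum_comm]
    exact Finset.sum_congr rfl fun _ _ => Finset.sum_congr rfl fun _ _ => by ring
  rw [h8] at h6
  generalize (∑ j : Fin (m + 1), if (j : ℕ) + 1 = m + 1 then 0 else BE A φ (m + 1) j) = S at h2 h6
  simp only [h7, Finset.sum_const, card_univ, Fintype.card_prod, ZMod.card, nsmul_eq_mul] at h6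
  push_cast at h6 ⊢
  linarith

theorem hZ_of (ε C : ℝ) (h : ∀ L, 2 ≤ L → ∃ g α i, ε * L - C ≤ ev L g α i) (L j : ℕ)
    (hL : 2 ≤ L) (he : Even L) : 1 ≤ wv ε L j 0 + 3 * wv ε L j 1 := by
  obtain ⟨t, u, t', u', h0⟩ := space ε j 0
  obtain ⟨s, v, s', v', h1⟩ := space ε j 1
  have hW : ∀ L c, 0 ≤ wv ε L j c := fun L c =>
    Finset.sum_nonneg fun i _ => pow_nonneg (Real.exp_pos _).le _
  have hZ : ∀ L, wv ε L j 0 + 3 * wv ε L j 1 = dual (wv ε L j) 0 + 3 * dual (wv ε L j) 1 := by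
    intro L
    simp [dual, Rm, Fin.sum_univ_five]
    ring
  have hD : ∀ L, wv ε L j 2 + wv ε L j 3 + 2 * wv ε L j 4 =
      dual (wv ε L j) 0 - dual (wv ε L j) 1 := by
    intro L
    simp [dual, Rm, Fin.sum_univ_five]
    ring
  have p0 : ∀ L, 0 ≤ t ^ L ∧ 0 ≤ u ^ L ∧ 0 ≤ t' ^ L ∧ 0 ≤ u' ^ L := fun L =>
    ⟨pow_nonneg (h0.u0.trans h0.ut) _, pow_nonneg h0.u0 _, pow_nonneg (h0.u0'.trans h0.ut') _,
      pow_nonneg h0.u0' _⟩
  have p1 : ∀ L, 0 ≤ s ^ L ∧ 0 ≤ v ^ L ∧ 0 ≤ s' ^ L ∧ 0 ≤ v' ^ L := fun L =>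
    ⟨pow_nonneg (h1.u0.trans h1.ut) _, pow_nonneg h1.u0 _, pow_nonneg (h1.u0'.trans h1.ut') _,
      pow_nonneg h1.u0' _⟩
  have key : ∀ L, 2 ≤ L → Even L →
      Real.exp (-C) ^ j ≤ dual (wv ε L j) 0 + 3 * dual (wv ε L j) 1 := by
    intro L hL he
    obtain ⟨g, α, i, hi⟩ := h L hL
    have a1 : Real.exp (-C) ^ j ≤ W ε L g α j :=
      le_trans (pow_le_pow_left₀ (Real.exp_pos _).le (Real.exp_le_exp.2 (by linarith)) j)
        (Finset.single_le_sum (f := fun i => Real.exp (ev L g α i - ε * L) ^ j)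
          (fun i _ => pow_nonneg (Real.exp_pos _).le _) (mem_univ i))
    rw [W_class ε hL] at a1
    have a2 := h1.pow_le hL (Or.inr he)
    have a3 := p1 L
    have a4 := hZ L
    have a5 := hD L
    have b0 := hW L 0
    have b1 := hW L 1
    have b2 := hW L 2
    have b3 := hW L 3
    have b4 := hW L 4
    generalize cl g α = c at a1
    fin_cases c <;> simp only [Fin.zero_eta, Fin.mk_one, Fin.reduceFinMk] at a1 <;> linarith
  have hm : 1 ≤ max (max t t') (max s s') := by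
    by_contra hm
    set m := max (max t t') (max s s')
    have m0 : 0 ≤ m := (h0.u0.trans h0.ut).trans ((le_max_left _ _).trans (le_max_left _ _))
    have hl := (tendsto_pow_atTop_nhds_zero_of_lt_one (sq_nonneg m)
      (pow_lt_one₀ m0 (not_le.1 hm) two_ne_zero)).mul_const
        (dual (wv ε 2 j) 0 + 3 * dual (wv ε 2 j) 1)
    rw [zero_mul] at hl
    refine (pow_pos (Real.exp_pos (-C)) j).not_ge (ge_of_tendsto' hl fun k => ?_)
    have e1 := h0.all_le (a := 2) (b := 2 * k + 2) le_rfl (by omega)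
      (Or.inr ⟨even_two, ⟨k + 1, by ring⟩⟩) (m := m) ((le_max_left _ _).trans (le_max_left _ _))
      ((le_max_right _ _).trans (le_max_left _ _))
    have e2 := h1.all_le (a := 2) (b := 2 * k + 2) le_rfl (by omega)
      (Or.inr ⟨even_two, ⟨k + 1, by ring⟩⟩) (m := m) ((le_max_left _ _).trans (le_max_right _ _))
      ((le_max_right _ _).trans (le_max_right _ _))
    have e3 := key (2 * k + 2) (by omega) ⟨k + 1, by ring⟩
    rw [Nat.add_sub_cancel, pow_mul] at e1 e2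
    linarith
  have a0 := h0.pow_le hL (Or.inr he)
  have a1 := h1.pow_le hL (Or.inr he)
  have a2 := p0 L
  have a3 := p1 L
  rw [hZ]
  simp only [le_max_iff] at hm
  rcases hm with (hm | hm) | hm | hm <;> have := one_le_pow₀ (n := L) hm <;> linarith

end Vale.Agent.P348
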